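import Mathlib

/-!
# Row 287 (S0534): RESOLVENT KIT, part 1      (helper240; prefix `rs`)

`rsG A z = (A - z)⁻¹` (complex matrix) for a real symmetric `A : Matrix V V ℝ` on a finite index type.
* spectral form `G_xy = ∑_i ψ_i(x) ψ_i(y) / (λ_i - z)` (`rs_G_apply`), symmetry, conjugation;
* resolvent identities in `z` and in `A` (`rs_res_z`, `rs_res_A`), Ward identity (`rs_ward`);
* `Im G_xx > 0`, `|G_xy| ≤ 1/η`, `|G_xy|² ≤ Im G_xx / η`;
* `η Im G_xx` nondecreasing, `Im G_xx / η` nonincreasing, continuity in the height (`rs_height`), trace.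
Part 2 (`ResB.lean`): equations, minors, Schur complement, Woodbury, trace interlacing, counting, quadratic forms.
-/

set_option autoImplicit false

namespace Claimed.Agent.R287

open Matrix Complex

variable {V : Type} [Fintype V] [DecidableEq V]

/-- complexification of a real matrix -/
noncomputable def rsC (A : Matrix V V ℝ) : Matrix V V ℂ := Complex.ofRealHom.mapMatrix A

/-- **the resolvent** (Green function) `G(z) = (A - z)⁻¹` -/
noncomputable def rsG (A : Matrix V V ℝ) (z : ℂ) : Matrix V V ℂ := (rsC A - z • (1 : Matrix V V ℂ))⁻¹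

theorem rs_eqns_cite : True := by
  have := @rsC.eq_1
  have := @rsG.eq_1
  trivial

@[simp] theorem rs_C_apply (A : Matrix V V ℝ) (x y : V) : rsC A x y = (A x y : ℂ) := rfl

theorem rs_C_mul (A B : Matrix V V ℝ) : rsC (A * B) = rsC A * rsC B := map_mul _ _ _

theorem rs_C_add (A B : Matrix V V ℝ) : rsC (A + B) = rsC A + rsC B := map_add _ _ _

theorem rs_C_sub (A B : Matrix V V ℝ) : rsC (A - B) = rsC A - rsC B := map_sub _ _ _

theorem rs_C_one : rsC (1 : Matrix V V ℝ) = 1 := map_one _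

theorem rs_C_diagonal (v : V → ℝ) : rsC (diagonal v) = diagonal fun i => (v i : ℂ) := by
  ext x y
  by_cases h : x = y
  · subst h; simp
  · simp [h]

theorem rs_C_transpose (A : Matrix V V ℝ) : (rsC A)ᵀ = rsC Aᵀ := rfl

/-- eigenvector matrix `U x i = ψ_i(x)` -/
noncomputable def rsU {A : Matrix V V ℝ} (hA : A.IsHermitian) : Matrix V V ℝ := (hA.eigenvectorUnitary : Matrix V V ℝ)

theorem rs_U_eqns_cite : True := by
  have := @rsU.eq_1
  trivial

theorem rs_U_mul_T {A : Matrix V V ℝ} (hA : A.IsHermitian) : rsU hA * (rsU hA)ᵀ = 1 := by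
  have := (Matrix.mem_unitaryGroup_iff).1 hA.eigenvectorUnitary.2
  simpa [rsU, star_eq_conjTranspose, conjTranspose_eq_transpose_of_trivial] using this

theorem rs_T_mul_U {A : Matrix V V ℝ} (hA : A.IsHermitian) : (rsU hA)ᵀ * rsU hA = 1 := by
  have := (Matrix.mem_unitaryGroup_iff').1 hA.eigenvectorUnitary.2
  simpa [rsU, star_eq_conjTranspose, conjTranspose_eq_transpose_of_trivial] using this

theorem rs_spectral {A : Matrix V V ℝ} (hA : A.IsHermitian) : A = rsU hA * diagonal hA.eigenvalues * (rsU hA)ᵀ := by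
  have := hA.spectral_theorem
  conv_lhs => rw [this]
  simp [rsU, Unitary.conjStarAlgAut_apply, star_eq_conjTranspose, conjTranspose_eq_transpose_of_trivial]


theorem rs_ne {l : ℝ} {z : ℂ} (hz : z.im ≠ 0) : (l : ℂ) - z ≠ 0 := by
  intro h
  have := congrArg Complex.im h
  simp at this
  exact hz this

/-- the shifted matrix in the eigenbasis -/
theorem rs_shift_eq {A : Matrix V V ℝ} (hA : A.IsHermitian) (z : ℂ) :
    rsC A - z • (1 : Matrix V V ℂ)
      = rsC (rsU hA) * diagonal (fun i => (hA.eigenvalues i : ℂ) - z) * rsC (rsU hA)ᵀ := by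
  have h1 : rsC (rsU hA) * rsC (rsU hA)ᵀ = 1 := by rw [← rs_C_mul, rs_U_mul_T, rs_C_one]
  have h2 : (diagonal fun i => (hA.eigenvalues i : ℂ) - z) = rsC (diagonal hA.eigenvalues) - z • (1 : Matrix V V ℂ) := by
    rw [rs_C_diagonal]
    ext x y
    by_cases h : x = y
    · subst h; simp
    · simp [h]
  rw [h2, mul_sub, sub_mul, mul_smul_comm, smul_mul_assoc, mul_one, h1, ← rs_C_mul, ← rs_C_mul, ← rs_spectral hA]

theorem rs_shift_mul {A : Matrix V V ℝ} (hA : A.IsHermitian) {z : ℂ} (hz : z.im ≠ 0) :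
    (rsC A - z • (1 : Matrix V V ℂ))
      * (rsC (rsU hA) * diagonal (fun i => ((hA.eigenvalues i : ℂ) - z)⁻¹) * rsC (rsU hA)ᵀ) = 1 := by
  have h1 : rsC (rsU hA)ᵀ * rsC (rsU hA) = 1 := by rw [← rs_C_mul, rs_T_mul_U, rs_C_one]
  have h1' : rsC (rsU hA) * rsC (rsU hA)ᵀ = 1 := by rw [← rs_C_mul, rs_U_mul_T, rs_C_one]
  have h3 : (diagonal fun i => (hA.eigenvalues i : ℂ) - z) * (diagonal fun i => ((hA.eigenvalues i : ℂ) - z)⁻¹) = 1 := by
    rw [diagonal_mul_diagonal]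
    have : (fun i => ((hA.eigenvalues i : ℂ) - z) * ((hA.eigenvalues i : ℂ) - z)⁻¹) = fun _ => (1 : ℂ) := by
      funext i; exact mul_inv_cancel₀ (rs_ne hz)
    rw [this, diagonal_one]
  rw [rs_shift_eq hA z]
  calc rsC (rsU hA) * diagonal (fun i => (hA.eigenvalues i : ℂ) - z) * rsC (rsU hA)ᵀ
        * (rsC (rsU hA) * diagonal (fun i => ((hA.eigenvalues i : ℂ) - z)⁻¹) * rsC (rsU hA)ᵀ)
      = rsC (rsU hA) * (diagonal (fun i => (hA.eigenvalues i : ℂ) - z) * (rsC (rsU hA)ᵀ * rsC (rsU hA))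
          * diagonal (fun i => ((hA.eigenvalues i : ℂ) - z)⁻¹)) * rsC (rsU hA)ᵀ := by simp only [Matrix.mul_assoc]
    _ = 1 := by rw [h1, mul_one, h3, mul_one, h1']

/-- **spectral form of the resolvent**, matrix level -/
theorem rs_G_eq {A : Matrix V V ℝ} (hA : A.IsHermitian) {z : ℂ} (hz : z.im ≠ 0) :
    rsG A z = rsC (rsU hA) * diagonal (fun i => ((hA.eigenvalues i : ℂ) - z)⁻¹) * rsC (rsU hA)ᵀ :=
  Matrix.inv_eq_right_inv (rs_shift_mul hA hz)

theorem rs_isUnit {A : Matrix V V ℝ} (hA : A.IsHermitian) {z : ℂ} (hz : z.im ≠ 0) :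
    IsUnit (rsC A - z • (1 : Matrix V V ℂ)).det :=
  Matrix.isUnit_det_of_right_inverse (rs_shift_mul hA hz)

theorem rs_mul_G {A : Matrix V V ℝ} (hA : A.IsHermitian) {z : ℂ} (hz : z.im ≠ 0) :
    (rsC A - z • (1 : Matrix V V ℂ)) * rsG A z = 1 := Matrix.mul_nonsing_inv _ (rs_isUnit hA hz)

theorem rs_G_mul {A : Matrix V V ℝ} (hA : A.IsHermitian) {z : ℂ} (hz : z.im ≠ 0) :
    rsG A z * (rsC A - z • (1 : Matrix V V ℂ)) = 1 := Matrix.nonsing_inv_mul _ (rs_isUnit hA hz)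

/-- **spectral form**, entries: `G_xy = ∑_i ψ_i(x) ψ_i(y) / (λ_i - z)` -/
theorem rs_G_apply {A : Matrix V V ℝ} (hA : A.IsHermitian) {z : ℂ} (hz : z.im ≠ 0) (x y : V) :
    rsG A z x y = ∑ i, (rsU hA x i : ℂ) * (rsU hA y i : ℂ) / ((hA.eigenvalues i : ℂ) - z) := by
  rw [rs_G_eq hA hz, Matrix.mul_apply]
  refine Finset.sum_congr rfl fun i _ => ?_
  rw [Matrix.mul_diagonal]
  simp [div_eq_mul_inv]
  ring

theorem rs_U_row {A : Matrix V V ℝ} (hA : A.IsHermitian) (x y : V) : ∑ i, rsU hA x i * rsU hA y i = if x = y then 1 else 0 := by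
  have := congrFun (congrFun (rs_U_mul_T hA) x) y
  rw [Matrix.mul_apply] at this
  simpa [Matrix.one_apply] using this

theorem rs_U_col {A : Matrix V V ℝ} (hA : A.IsHermitian) (i j : V) : ∑ x, rsU hA x i * rsU hA x j = if i = j then 1 else 0 := by
  have := congrFun (congrFun (rs_T_mul_U hA) i) j
  rw [Matrix.mul_apply] at this
  simpa [Matrix.one_apply] using this

/-- the resolvent of a symmetric matrix is symmetric -/
theorem rs_G_symm {A : Matrix V V ℝ} (hA : A.IsHermitian) {z : ℂ} (hz : z.im ≠ 0) (x y : V) : rsG A z x y = rsG A z y x := by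
  rw [rs_G_apply hA hz, rs_G_apply hA hz]
  exact Finset.sum_congr rfl fun i _ => by ring

/-- `G(z̄) = conj G(z)` -/
theorem rs_G_conj {A : Matrix V V ℝ} (hA : A.IsHermitian) {z : ℂ} (hz : z.im ≠ 0) (x y : V) :
    rsG A (starRingEnd ℂ z) x y = starRingEnd ℂ (rsG A z x y) := by
  rw [rs_G_apply hA hz, rs_G_apply hA (by simpa using hz), map_sum]
  refine Finset.sum_congr rfl fun i _ => ?_
  simp [map_div₀]

/-- **resolvent identity in `z`** -/
theorem rs_res_z {A : Matrix V V ℝ} (hA : A.IsHermitian) {z w : ℂ} (hz : z.im ≠ 0) (hw : w.im ≠ 0) :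
    rsG A z - rsG A w = (z - w) • (rsG A z * rsG A w) := by
  have e : (z - w) • (1 : Matrix V V ℂ) = (rsC A - w • (1 : Matrix V V ℂ)) - (rsC A - z • (1 : Matrix V V ℂ)) := by
    rw [sub_smul]; abel
  calc rsG A z - rsG A w
      = rsG A z * ((rsC A - w • (1 : Matrix V V ℂ)) * rsG A w) - (rsG A z * (rsC A - z • (1 : Matrix V V ℂ))) * rsG A w := by
        rw [rs_mul_G hA hw, rs_G_mul hA hz, mul_one, one_mul]
    _ = rsG A z * ((z - w) • (1 : Matrix V V ℂ)) * rsG A w := by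
        rw [e]; noncomm_ring
    _ = (z - w) • (rsG A z * rsG A w) := by
        rw [mul_smul_comm, mul_one, smul_mul_assoc]

/-- **resolvent identity in the matrix** -/
theorem rs_res_A {A B : Matrix V V ℝ} (hA : A.IsHermitian) (hB : B.IsHermitian) {z : ℂ} (hz : z.im ≠ 0) :
    rsG A z - rsG B z = rsG A z * rsC (B - A) * rsG B z := by
  have e : rsC (B - A) = (rsC B - z • (1 : Matrix V V ℂ)) - (rsC A - z • (1 : Matrix V V ℂ)) := by
    rw [rs_C_sub]; abel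
  calc rsG A z - rsG B z
      = rsG A z * ((rsC B - z • (1 : Matrix V V ℂ)) * rsG B z) - (rsG A z * (rsC A - z • (1 : Matrix V V ℂ))) * rsG B z := by
        rw [rs_mul_G hB hz, rs_G_mul hA hz, mul_one, one_mul]
    _ = rsG A z * rsC (B - A) * rsG B z := by
        rw [e]; noncomm_ring

/-- **Ward identity** -/
theorem rs_ward {A : Matrix V V ℝ} (hA : A.IsHermitian) {z : ℂ} (hz : z.im ≠ 0) (x : V) :
    ∑ y, ‖rsG A z x y‖ ^ 2 = (rsG A z x x).im / z.im := by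
  have hz' : (starRingEnd ℂ z).im ≠ 0 := by simpa using hz
  have h := congrFun (congrFun (rs_res_z hA hz hz') x) x
  rw [Matrix.sub_apply, Matrix.smul_apply, Matrix.mul_apply, rs_G_conj hA hz] at h
  have e1 : rsG A z x x - starRingEnd ℂ (rsG A z x x) = (2 * (rsG A z x x).im : ℝ) * Complex.I := by
    rw [Complex.sub_conj]
  have e2 : z - starRingEnd ℂ z = (2 * z.im : ℝ) * Complex.I := by
    rw [Complex.sub_conj]
  have e3 : ∑ y, rsG A z x y * rsG A (starRingEnd ℂ z) y x = ((∑ y, ‖rsG A z x y‖ ^ 2 : ℝ) : ℂ) := by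
    push_cast
    refine Finset.sum_congr rfl fun y _ => ?_
    rw [rs_G_conj hA hz, rs_G_symm hA hz y x, Complex.mul_conj, Complex.normSq_eq_norm_sq]
    push_cast; ring
  rw [e1, e2, e3, smul_eq_mul] at h
  have h2 : ((2 * (rsG A z x x).im : ℝ) : ℂ) = ((2 * z.im * ∑ y, ‖rsG A z x y‖ ^ 2 : ℝ) : ℂ) := by
    have hI : Complex.I ≠ 0 := Complex.I_ne_zero
    apply mul_right_cancel₀ hI
    rw [h]; push_cast; ring
  have h3 : 2 * (rsG A z x x).im = 2 * z.im * ∑ y, ‖rsG A z x y‖ ^ 2 := by exact_mod_cast h2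
  field_simp
  linarith



/-! ### imaginary parts, bounds, monotonicity in `η` -/

theorem rs_normSq (l : ℝ) (z : ℂ) : Complex.normSq ((l : ℂ) - z) = (l - z.re) ^ 2 + z.im ^ 2 := by
  rw [Complex.normSq_apply]; simp; ring

theorem rs_normSq_pos (l : ℝ) {z : ℂ} (hz : z.im ≠ 0) : 0 < (l - z.re) ^ 2 + z.im ^ 2 := by positivity

theorem rs_im_term (a l : ℝ) (z : ℂ) : ((a : ℂ) / ((l : ℂ) - z)).im = a * z.im / ((l - z.re) ^ 2 + z.im ^ 2) := by
  rw [Complex.div_im, rs_normSq]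
  simp
  ring

/-- `Im G_xx = ∑_i ψ_i(x)² η / ((λ_i - E)² + η²)` -/
theorem rs_G_im {A : Matrix V V ℝ} (hA : A.IsHermitian) {z : ℂ} (hz : z.im ≠ 0) (x : V) :
    (rsG A z x x).im = ∑ i, rsU hA x i ^ 2 * z.im / ((hA.eigenvalues i - z.re) ^ 2 + z.im ^ 2) := by
  rw [rs_G_apply hA hz, Complex.im_sum]
  refine Finset.sum_congr rfl fun i _ => ?_
  have : (rsU hA x i : ℂ) * (rsU hA x i : ℂ) = ((rsU hA x i ^ 2 : ℝ) : ℂ) := by push_cast; ring
  rw [this, rs_im_term]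

theorem rs_G_im_pos {A : Matrix V V ℝ} (hA : A.IsHermitian) {z : ℂ} (hz : 0 < z.im) (x : V) : 0 < (rsG A z x x).im := by
  rw [rs_G_im hA hz.ne']
  have h1 := rs_U_row hA x x
  rw [if_pos rfl] at h1
  have hex : ∃ i, rsU hA x i ≠ 0 := by
    by_contra hcon
    push Not at hcon
    simp [hcon] at h1
  obtain ⟨i, hi⟩ := hex
  refine Finset.sum_pos' (fun j _ => ?_) ⟨i, Finset.mem_univ _, ?_⟩
  · exact div_nonneg (mul_nonneg (sq_nonneg _) hz.le) (rs_normSq_pos _ hz.ne').le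
  · exact div_pos (mul_pos (by positivity) hz) (rs_normSq_pos _ hz.ne')

/-- from Ward: `|G_xy|² ≤ Im G_xx / η` -/
theorem rs_G_sq_le {A : Matrix V V ℝ} (hA : A.IsHermitian) {z : ℂ} (hz : z.im ≠ 0) (x y : V) :
    ‖rsG A z x y‖ ^ 2 ≤ (rsG A z x x).im / z.im := by
  rw [← rs_ward hA hz]
  exact Finset.single_le_sum (f := fun y => ‖rsG A z x y‖ ^ 2) (fun _ _ => sq_nonneg _) (Finset.mem_univ y)

/-- `|G_xx| ≤ 1/η` -/
theorem rs_G_diag_le {A : Matrix V V ℝ} (hA : A.IsHermitian) {z : ℂ} (hz : 0 < z.im) (x : V) : ‖rsG A z x x‖ ≤ 1 / z.im := by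
  have h1 := rs_G_sq_le hA hz.ne' x x
  have h2 : (rsG A z x x).im ≤ ‖rsG A z x x‖ := (le_abs_self _).trans (Complex.abs_im_le_norm _)
  have h3 : ‖rsG A z x x‖ ^ 2 ≤ ‖rsG A z x x‖ / z.im := h1.trans (div_le_div_of_nonneg_right h2 hz.le)
  rcases (norm_nonneg (rsG A z x x)).eq_or_lt with h0 | h0
  · rw [← h0]; positivity
  · have : ‖rsG A z x x‖ * ‖rsG A z x x‖ ≤ ‖rsG A z x x‖ * (1 / z.im) := by
      calc ‖rsG A z x x‖ * ‖rsG A z x x‖ = ‖rsG A z x x‖ ^ 2 := by ring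
        _ ≤ ‖rsG A z x x‖ / z.im := h3
        _ = ‖rsG A z x x‖ * (1 / z.im) := by ring
    exact le_of_mul_le_mul_left this h0

theorem rs_G_im_le {A : Matrix V V ℝ} (hA : A.IsHermitian) {z : ℂ} (hz : 0 < z.im) (x : V) : (rsG A z x x).im ≤ 1 / z.im :=
  ((le_abs_self _).trans (Complex.abs_im_le_norm _)).trans (rs_G_diag_le hA hz x)

/-- `|G_xy| ≤ 1/η` -/
theorem rs_G_le {A : Matrix V V ℝ} (hA : A.IsHermitian) {z : ℂ} (hz : 0 < z.im) (x y : V) : ‖rsG A z x y‖ ≤ 1 / z.im := by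
  have h1 := rs_G_sq_le hA hz.ne' x y
  have h2 : (rsG A z x x).im / z.im ≤ (1 / z.im) ^ 2 := by
    calc (rsG A z x x).im / z.im ≤ (1 / z.im) / z.im := div_le_div_of_nonneg_right (rs_G_im_le hA hz x) hz.le
      _ = (1 / z.im) ^ 2 := by ring
  exact (pow_le_pow_iff_left₀ (norm_nonneg _) (by positivity) two_ne_zero).1 (h1.trans h2)

/-- the point `E + iη` -/
noncomputable def rsZ (E η : ℝ) : ℂ := ⟨E, η⟩

theorem rs_Z_eqns_cite : True := by
  have := @rsZ.eq_1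
  trivial

@[simp] theorem rs_Z_re (E η : ℝ) : (rsZ E η).re = E := rfl
@[simp] theorem rs_Z_im (E η : ℝ) : (rsZ E η).im = η := rfl

/-- `η Im G_xx(E + iη)` is nondecreasing in `η` -/
theorem rs_eta_im_mono {A : Matrix V V ℝ} (hA : A.IsHermitian) (E : ℝ) {η₁ η₂ : ℝ} (h1 : 0 < η₁) (h12 : η₁ ≤ η₂) (x : V) :
    η₁ * (rsG A (rsZ E η₁) x x).im ≤ η₂ * (rsG A (rsZ E η₂) x x).im := by
  have h2 : 0 < η₂ := h1.trans_le h12
  rw [rs_G_im hA (z := rsZ E η₁) h1.ne', rs_G_im hA (z := rsZ E η₂) h2.ne', Finset.mul_sum, Finset.mul_sum]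
  refine Finset.sum_le_sum fun i _ => ?_
  simp only [rs_Z_re, rs_Z_im]
  set a := (hA.eigenvalues i - E) ^ 2 with ha
  have ha0 : 0 ≤ a := sq_nonneg _
  have hu : 0 ≤ rsU hA x i ^ 2 := sq_nonneg _
  have e1 : η₁ * (rsU hA x i ^ 2 * η₁ / (a + η₁ ^ 2)) = rsU hA x i ^ 2 * (η₁ ^ 2 / (a + η₁ ^ 2)) := by ring
  have e2 : η₂ * (rsU hA x i ^ 2 * η₂ / (a + η₂ ^ 2)) = rsU hA x i ^ 2 * (η₂ ^ 2 / (a + η₂ ^ 2)) := by ring
  rw [e1, e2]
  refine mul_le_mul_of_nonneg_left ?_ hu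
  rw [div_le_div_iff₀ (by positivity) (by positivity)]
  have : η₁ ^ 2 ≤ η₂ ^ 2 := pow_le_pow_left₀ h1.le h12 2
  nlinarith

/-- `Im G_xx(E + iη)/η` is nonincreasing in `η` -/
theorem rs_im_div_anti {A : Matrix V V ℝ} (hA : A.IsHermitian) (E : ℝ) {η₁ η₂ : ℝ} (h1 : 0 < η₁) (h12 : η₁ ≤ η₂) (x : V) :
    (rsG A (rsZ E η₂) x x).im / η₂ ≤ (rsG A (rsZ E η₁) x x).im / η₁ := by
  have h2 : 0 < η₂ := h1.trans_le h12
  rw [rs_G_im hA (z := rsZ E η₁) h1.ne', rs_G_im hA (z := rsZ E η₂) h2.ne', Finset.sum_div, Finset.sum_div]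
  refine Finset.sum_le_sum fun i _ => ?_
  simp only [rs_Z_re, rs_Z_im]
  set a := (hA.eigenvalues i - E) ^ 2 with ha
  have ha0 : 0 ≤ a := sq_nonneg _
  have hu : 0 ≤ rsU hA x i ^ 2 := sq_nonneg _
  have e1 : rsU hA x i ^ 2 * η₁ / (a + η₁ ^ 2) / η₁ = rsU hA x i ^ 2 * (1 / (a + η₁ ^ 2)) := by field_simp
  have e2 : rsU hA x i ^ 2 * η₂ / (a + η₂ ^ 2) / η₂ = rsU hA x i ^ 2 * (1 / (a + η₂ ^ 2)) := by field_simp
  rw [e1, e2]
  refine mul_le_mul_of_nonneg_left ?_ hu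
  have : η₁ ^ 2 ≤ η₂ ^ 2 := pow_le_pow_left₀ h1.le h12 2
  exact one_div_le_one_div_of_le (by positivity) (by linarith)

/-- Cauchy-Schwarz + Ward for a product of two resolvents -/
theorem rs_GG_le {A B : Matrix V V ℝ} (hA : A.IsHermitian) (hB : B.IsHermitian) {z w : ℂ} (hz : 0 < z.im) (hw : 0 < w.im) (x y : V) :
    ‖(rsG A z * rsG B w) x y‖ ≤ Real.sqrt ((rsG A z x x).im / z.im) * Real.sqrt ((rsG B w y y).im / w.im) := by
  rw [Matrix.mul_apply, ← rs_ward hA hz.ne', ← rs_ward hB hw.ne']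
  calc ‖∑ v, rsG A z x v * rsG B w v y‖ ≤ ∑ v, ‖rsG A z x v‖ * ‖rsG B w y v‖ := by
        refine (norm_sum_le _ _).trans (Finset.sum_le_sum fun v _ => ?_)
        rw [norm_mul, rs_G_symm hB hw.ne' v y]
    _ ≤ Real.sqrt (∑ v, ‖rsG A z x v‖ ^ 2) * Real.sqrt (∑ v, ‖rsG B w y v‖ ^ 2) :=
        Real.sum_mul_le_sqrt_mul_sqrt _ _ _

/-- **L3, continuity in the height**: `|G_xy(E + i r η) - G_xy(E + iη)| ≤ (1-r)/r √(Im G_xx Im G_yy)(E + iη)` -/
theorem rs_height {A : Matrix V V ℝ} (hA : A.IsHermitian) (E : ℝ) {η r : ℝ} (hη : 0 < η) (hr : 0 < r) (hr1 : r ≤ 1) (x y : V) :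
    ‖rsG A (rsZ E (r * η)) x y - rsG A (rsZ E η) x y‖
      ≤ (1 - r) / r * Real.sqrt ((rsG A (rsZ E η) x x).im * (rsG A (rsZ E η) y y).im) := by
  have hrη : 0 < r * η := mul_pos hr hη
  have h := congrFun (congrFun (rs_res_z hA (z := rsZ E (r * η)) (w := rsZ E η) hrη.ne' hη.ne') x) y
  rw [Matrix.sub_apply, Matrix.smul_apply, smul_eq_mul] at h
  rw [h, norm_mul]
  have e1 : ‖rsZ E (r * η) - rsZ E η‖ = (1 - r) * η := by
    have : rsZ E (r * η) - rsZ E η = (((r - 1) * η : ℝ) : ℂ) * Complex.I := by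
      apply Complex.ext <;> simp [rsZ]; ring
    rw [this, norm_mul, Complex.norm_I, mul_one, Complex.norm_real, Real.norm_eq_abs, abs_of_nonpos (by nlinarith)]
    ring
  have e2 := rs_GG_le hA hA (z := rsZ E (r * η)) (w := rsZ E η) hrη hη x y
  simp only [rs_Z_im] at e2
  have e3 : (rsG A (rsZ E (r * η)) x x).im / (r * η) ≤ (rsG A (rsZ E η) x x).im / (r ^ 2 * η) := by
    have := rs_eta_im_mono hA E hrη (by nlinarith : r * η ≤ η) x
    rw [div_le_div_iff₀ hrη (by positivity)]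
    nlinarith [mul_le_mul_of_nonneg_left this (by positivity : 0 ≤ r * η)]
  have hx0 := (rs_G_im_pos hA (z := rsZ E η) hη x).le
  have hy0 := (rs_G_im_pos hA (z := rsZ E η) hη y).le
  have e4 : Real.sqrt ((rsG A (rsZ E (r * η)) x x).im / (r * η)) ≤ Real.sqrt ((rsG A (rsZ E η) x x).im) / (r * Real.sqrt η) := by
    refine (Real.sqrt_le_sqrt e3).trans (le_of_eq ?_)
    rw [Real.sqrt_div hx0, Real.sqrt_mul (by positivity), Real.sqrt_sq hr.le]
  have e5 : Real.sqrt ((rsG A (rsZ E η) y y).im / η) = Real.sqrt ((rsG A (rsZ E η) y y).im) / Real.sqrt η := Real.sqrt_div hy0 _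
  rw [e1, Real.sqrt_mul hx0]
  have hs : 0 < Real.sqrt η := Real.sqrt_pos.2 hη
  have hss : Real.sqrt η * Real.sqrt η = η := Real.mul_self_sqrt hη.le
  calc (1 - r) * η * ‖(rsG A (rsZ E (r * η)) * rsG A (rsZ E η)) x y‖
      ≤ (1 - r) * η * (Real.sqrt ((rsG A (rsZ E η) x x).im) / (r * Real.sqrt η) * (Real.sqrt ((rsG A (rsZ E η) y y).im) / Real.sqrt η)) := by
        refine mul_le_mul_of_nonneg_left ?_ (by nlinarith)
        rw [← e5]
        exact e2.trans (mul_le_mul_of_nonneg_right e4 (Real.sqrt_nonneg _))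
    _ = (1 - r) / r * (Real.sqrt ((rsG A (rsZ E η) x x).im) * Real.sqrt ((rsG A (rsZ E η) y y).im)) := by
        have : (1 - r) * η * (Real.sqrt ((rsG A (rsZ E η) x x).im) / (r * Real.sqrt η) * (Real.sqrt ((rsG A (rsZ E η) y y).im) / Real.sqrt η))
            = (1 - r) / r * (Real.sqrt ((rsG A (rsZ E η) x x).im) * Real.sqrt ((rsG A (rsZ E η) y y).im)) * (η / (Real.sqrt η * Real.sqrt η)) := by
          field_simp
        rw [this, hss, div_self hη.ne', mul_one]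

/-- the trace -/
theorem rs_trace {A : Matrix V V ℝ} (hA : A.IsHermitian) {z : ℂ} (hz : z.im ≠ 0) :
    (rsG A z).trace = ∑ i, ((hA.eigenvalues i : ℂ) - z)⁻¹ := by
  have h1 : rsC (rsU hA)ᵀ * rsC (rsU hA) = 1 := by rw [← rs_C_mul, rs_T_mul_U, rs_C_one]
  rw [rs_G_eq hA hz, Matrix.trace_mul_comm, ← Matrix.mul_assoc, h1, one_mul, Matrix.trace_diagonal]

end Claimed.Agent.R287
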