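-- KEEP
import Claimed.Prelude.Def_0462
import Claimed.Agent.R287.Res

/-!
# Row 287 (S0534): DEFINITIONS of the graph level (unit B1 = weak local law at one energy)      helper271

Vocabulary of route102 sec.1 as repaired in the notes A1 (270), A2 (271), A3 (284), A4 (274).
Everything is FINITE: full-size matrices indexed by `Fin n`; no infinite tree, no configuration model, no measure theory.

* `rgE`, `rgP`      expectation / probability under the uniform `d`-regular graph (finite sums over the frozen `regularGraphs n d`);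
* `rgG H z`         the Green function `(A_H - z)⁻¹` `= rsG (rgA H) z`: the whole kit RES (`Res.lean`, `ResB.lean`) applies;
* `rgg`, `rgm`, `rgTv`   cavity value `g`, `m_d = g/(1-g²)`, tree value `m_d (-g)^k` at distance `k`;
* `rgRes H B`       the edges of `H` inside `B` (a graph on ALL of `Fin n`; vertices outside `B` are isolated);
* `rgMod d Γ z`     `A_Γ - z - g (d - deg_Γ)` = matrix of the `d`-regular tree extension of `Γ` (`= tgM Γ d z (rgg d z)` of kit TREE), `rgPB` its inverse;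
* `rgPm`            the model entry `P_xy` = entry of the model on `B_R({x,y})`;
* `RgUni`, `RgStruct`, `rgNT`   excess `≤ 1` (one edge can be deleted so that a forest remains), structure event, fraction of non tree-like vertices;
* `RgDev` (T1), `rgBlk`, `RgGoodE`, `rgBad`, `rgF2`, `rgStarF` (T2).
Conventions: `b = d - 1`, `b g² + z g + 1 = 0`, `Im g > 0`; tree values `G_oo = m`, `G_ox = - g m`, `G_xx' = g² m`.
-/

set_option autoImplicit false

namespace Claimed.Agent.R287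

open Claims.C0462

/-- graphs on `n` labelled vertices -/
abbrev Gr (n : ℕ) : Type := SimpleGraph (Fin n)

/-! ### 1. probability on the uniform `d`-regular graph -/

/-- expectation -/
noncomputable def rgE (n d : ℕ) (F : Gr n → ℝ) : ℝ := (∑ H ∈ regularGraphs n d, F H) / (regularGraphs n d).card

open Classical in
/-- probability -/
noncomputable def rgP (n d : ℕ) (S : Gr n → Prop) : ℝ := rgE n d fun H => if S H then 1 else 0

/-- "with high probability" along the admissible `n` -/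
def RgWhp (d : ℕ) (S : (n : ℕ) → Gr n → Prop) : Prop :=
  ∀ δ : ℝ, 0 < δ → ∃ N : ℕ, ∀ n : ℕ, N ≤ n → (regularGraphs n d).Nonempty → 1 - δ ≤ rgP n d (S n)

/-! ### 2. Green function, tree values -/

open Classical in
/-- real adjacency matrix -/
noncomputable def rgA {n : ℕ} (H : Gr n) : Matrix (Fin n) (Fin n) ℝ := H.adjMatrix ℝ

/-- `G(z) = (A - z)⁻¹` -/
noncomputable def rgG {n : ℕ} (H : Gr n) (z : ℂ) : Matrix (Fin n) (Fin n) ℂ := rsG (rgA H) z

/-- normalised trace `m_n(z) = n⁻¹ Tr G(z)` -/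
noncomputable def rgTr {n : ℕ} (H : Gr n) (z : ℂ) : ℂ := (∑ x, rgG H z x x) / n

/-- cavity value of the `d`-regular tree: `(d-1) g² + z g + 1 = 0`, `Im g > 0`.
Explicit branch: `Re (4 (d-1) - z²) > 0` on the whole strip `|Re z| < 2 √(d-1)`, so the principal square root is analytic there. -/
noncomputable def rgg (d : ℕ) (z : ℂ) : ℂ :=
  (-z + Complex.I * (4 * ((d : ℂ) - 1) - z ^ 2) ^ (1 / 2 : ℂ)) / (2 * ((d : ℂ) - 1))

/-- `m_d = g / (1 - g²) = 1/(-z - d g)` -/
noncomputable def rgm (d : ℕ) (z : ℂ) : ℂ := rgg d z / (1 - rgg d z ^ 2)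

/-- tree value at distance `k`: `m_d (-g)^k` -/
noncomputable def rgTv (d : ℕ) (z : ℂ) (k : ℕ) : ℂ := rgm d z * (-rgg d z) ^ k

/-- the spectral parameter `e + i η` -/
def rgz (e η : ℝ) : ℂ := ⟨e, η⟩

/-- bulk with margin `κb`: `e² ≤ 4 (d-1) - κb` -/
def RgBulk (d : ℕ) (κb e : ℝ) : Prop := e ^ 2 ≤ 4 * ((d : ℝ) - 1) - κb

/-- `Φ(z) = - log |g| - (d-2)/2 log |1 - g²|` (log-potential of the tree; `∂_u Φ(e+iu) = Im m_d(e+iu)`) -/
noncomputable def rgPhi (d : ℕ) (z : ℂ) : ℝ := - Real.log ‖rgg d z‖ - ((d : ℝ) - 2) / 2 * Real.log ‖1 - rgg d z ^ 2‖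

/-! ### 3. balls, restriction, excess, the finite model -/

open Classical in
/-- ball of radius `R` around a set of vertices -/
noncomputable def rgBall {n : ℕ} (H : Gr n) (R : ℕ) (X : Finset (Fin n)) : Finset (Fin n) :=
  Finset.univ.filter fun y => ∃ x ∈ X, H.edist x y ≤ R

/-- the edges of `H` inside `B` -/
def rgRes {n : ℕ} (H : Gr n) (B : Finset (Fin n)) : Gr n where
  Adj x y := H.Adj x y ∧ x ∈ B ∧ y ∈ B
  symm := ⟨fun _ _ h => ⟨h.1.symm, h.2.2, h.2.1⟩⟩
  loopless := ⟨fun x h => H.loopless.irrefl x h.1⟩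

/-- the ball as a graph -/
noncomputable def rgBG {n : ℕ} (H : Gr n) (R : ℕ) (X : Finset (Fin n)) : Gr n := rgRes H (rgBall H R X)

open Classical in
/-- number of neighbours -/
noncomputable def rgDeg {n : ℕ} (Γ : Gr n) (x : Fin n) : ℕ := (Finset.univ.filter fun y => Γ.Adj x y).card

/-- excess `≤ 1`: a forest remains after the deletion of one (possibly fictitious) edge -/
def RgUni {n : ℕ} (Γ : Gr n) : Prop := ∃ u v : Fin n, (Γ.deleteEdges {s(u, v)}).IsAcyclic

/-- every ball of radius `R` has excess `≤ 1` -/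
def RgStruct {n : ℕ} (H : Gr n) (R : ℕ) : Prop := ∀ x : Fin n, RgUni (rgBG H R {x})

/-- the ball of radius `R` around `X` is a forest -/
def RgTl {n : ℕ} (H : Gr n) (R : ℕ) (X : Finset (Fin n)) : Prop := (rgBG H R X).IsAcyclic

open Classical in
/-- fraction of the vertices whose ball of radius `R` is not a tree -/
noncomputable def rgNT {n : ℕ} (H : Gr n) (R : ℕ) : ℝ := ((Finset.univ.filter fun x => ¬ RgTl H R {x}).card : ℝ) / n

open Classical in
/-- `A_Γ - z - g (d - deg_Γ)`: the matrix of the `d`-regular tree extension of `Γ` -/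
noncomputable def rgMod {n : ℕ} (d : ℕ) (Γ : Gr n) (z : ℂ) : Matrix (Fin n) (Fin n) ℂ := fun x y =>
  (if Γ.Adj x y then 1 else 0) - (if x = y then z + rgg d z * ((d : ℂ) - rgDeg Γ x) else 0)

/-- Green function of the tree extension of `Γ` -/
noncomputable def rgPB {n : ℕ} (d : ℕ) (Γ : Gr n) (z : ℂ) : Matrix (Fin n) (Fin n) ℂ := (rgMod d Γ z)⁻¹

/-- the model entry `P_xy` -/
noncomputable def rgPm {n : ℕ} (d R : ℕ) (H : Gr n) (z : ℂ) (x y : Fin n) : ℂ := rgPB d (rgBG H R {x, y}) z x y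

/-! ### 4. T1 and T2 -/

/-- **T1**: all entries within `κ` of the model -/
def RgDev {n : ℕ} (d R : ℕ) (H : Gr n) (z : ℂ) (κ : ℝ) : Prop := ∀ x y : Fin n, ‖rgG H z x y - rgPm d R H z x y‖ ≤ κ

/-- deviation of the `2 × 2` block of `G` on `{b,c}` from the tree values `m, -g m` -/
noncomputable def rgBlk {n : ℕ} (d : ℕ) (H : Gr n) (z : ℂ) (b c : Fin n) : ℝ :=
  max ‖rgG H z b b - rgTv d z 0‖ (max ‖rgG H z c c - rgTv d z 0‖ ‖rgG H z b c - rgTv d z 1‖)

/-- the oriented edge `(b,c)` is `κ`-good: tree-like to the radius `R`, block within `κ` of the tree values -/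
def RgGoodE {n : ℕ} (d R : ℕ) (H : Gr n) (z : ℂ) (κ : ℝ) (b c : Fin n) : Prop := RgTl H R {b, c} ∧ rgBlk d H z b c ≤ κ

open Classical in
/-- fraction of the oriented edges which are not `κ`-good -/
noncomputable def rgBad {n : ℕ} (d R : ℕ) (H : Gr n) (z : ℂ) (κ : ℝ) : ℝ :=
  ((Finset.univ.filter fun e : Fin n × Fin n => H.Adj e.1 e.2 ∧ ¬ RgGoodE d R H z κ e.1 e.2).card : ℝ) / (n * d)

open Classical in
/-- mean square deviation of the edge blocks -/
noncomputable def rgF2 {n : ℕ} (d : ℕ) (H : Gr n) (z : ℂ) : ℝ :=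
  (∑ e : Fin n × Fin n, if H.Adj e.1 e.2 then rgBlk d H z e.1 e.2 ^ 2 else 0) / (n * d)

open Classical in
/-- the star `{o} ∪ N(o)` -/
noncomputable def rgStar {n : ℕ} (H : Gr n) (o : Fin n) : Finset (Fin n) := Finset.univ.filter fun x => x = o ∨ H.Adj o x

/-- distance inside a tree star with centre `o` -/
def rgSd {n : ℕ} (o x y : Fin n) : ℕ := if x = y then 0 else if x = o ∨ y = o then 1 else 2

/-- deviation of the star block at `o` from the tree values -/
noncomputable def rgStD {n : ℕ} (d : ℕ) (H : Gr n) (z : ℂ) (o : Fin n) : ℝ :=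
  ∑ x ∈ rgStar H o, ∑ y ∈ rgStar H o, ‖rgG H z x y - rgTv d z (rgSd o x y)‖ ^ 2

/-- mean square deviation of the star blocks -/
noncomputable def rgStarF {n : ℕ} (d : ℕ) (H : Gr n) (z : ℂ) : ℝ := (∑ o, rgStD d H z o) / n

open Classical in
/-- structure event, SET form: every set of at most `K` vertices spans at most as many edges as it has vertices
(then `rgRes H B` is `TgSparse` for every `B` with `|B| ≤ K`: the whole model kit of helper270 applies) -/
def RgSparse {n : ℕ} (H : Gr n) (K : ℕ) : Prop :=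
  ∀ W : Finset (Fin n), W.card ≤ K → ∑ x ∈ W, (W.filter fun y => H.Adj x y).card ≤ 2 * W.card

/-- the structure event at the radius `R`: ball form and set form -/
def RgStr {n : ℕ} (d R : ℕ) (H : Gr n) : Prop := RgStruct H (4 * R) ∧ RgSparse H ((d + 1) ^ (4 * R))

/-- the a-priori event `Ω(κ0, κ1, δ)` -/
def RgOm {n : ℕ} (d R : ℕ) (H : Gr n) (z : ℂ) (κ0 κ1 δ : ℝ) : Prop :=
  RgStr d R H ∧ RgDev d R H z κ0 ∧ rgBad d R H z κ1 ≤ δ

theorem rg_eqns_cite : True := by
  have := @rgE.eq_1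
  have := @rgP.eq_1
  have := @RgWhp.eq_1
  have := @rgA.eq_1
  have := @rgG.eq_1
  have := @rgTr.eq_1
  have := @rgg.eq_1
  have := @rgm.eq_1
  have := @rgTv.eq_1
  have := @rgz.eq_1
  have := @RgBulk.eq_1
  have := @rgPhi.eq_1
  have := @rgBall.eq_1
  have := @rgRes.eq_1
  have := @rgBG.eq_1
  have := @rgDeg.eq_1
  have := @RgUni.eq_1
  have := @RgStruct.eq_1
  have := @RgTl.eq_1
  have := @rgNT.eq_1
  have := @rgMod.eq_1
  have := @rgPB.eq_1
  have := @rgPm.eq_1
  have := @RgDev.eq_1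
  have := @rgBlk.eq_1
  have := @RgGoodE.eq_1
  have := @rgBad.eq_1
  have := @rgF2.eq_1
  have := @rgStar.eq_1
  have := @rgSd.eq_1
  have := @rgStD.eq_1
  have := @rgStarF.eq_1
  have := @RgSparse.eq_1
  have := @RgStr.eq_1
  have := @RgOm.eq_1
  trivial

/-! ### 5. first API (finite probability, symmetry) -/

theorem rg_A_herm {n : ℕ} (H : Gr n) : (rgA H).IsHermitian := by
  classical
  unfold rgA
  have h := SimpleGraph.isSymm_adjMatrix (α := ℝ) H
  rw [Matrix.IsHermitian, Matrix.conjTranspose_eq_transpose_of_trivial]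
  exact h

theorem rg_E_mono {n d : ℕ} {F F' : Gr n → ℝ} (h : ∀ H ∈ regularGraphs n d, F H ≤ F' H) : rgE n d F ≤ rgE n d F' := by
  unfold rgE
  exact div_le_div_of_nonneg_right (Finset.sum_le_sum h) (Nat.cast_nonneg _)

theorem rg_E_nonneg {n d : ℕ} {F : Gr n → ℝ} (h : ∀ H ∈ regularGraphs n d, 0 ≤ F H) : 0 ≤ rgE n d F := by
  unfold rgE
  exact div_nonneg (Finset.sum_nonneg h) (Nat.cast_nonneg _)

theorem rg_E_add {n d : ℕ} (F F' : Gr n → ℝ) : rgE n d (fun H => F H + F' H) = rgE n d F + rgE n d F' := by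
  unfold rgE
  rw [Finset.sum_add_distrib, add_div]

theorem rg_E_const_mul {n d : ℕ} (c : ℝ) (F : Gr n → ℝ) : rgE n d (fun H => c * F H) = c * rgE n d F := by
  unfold rgE
  rw [← Finset.mul_sum, mul_div_assoc]

theorem rg_E_one {n d : ℕ} (h : (regularGraphs n d).Nonempty) : rgE n d (fun _ => 1) = 1 := by
  unfold rgE
  have : ((regularGraphs n d).card : ℝ) ≠ 0 := by
    exact_mod_cast (Finset.card_pos.mpr h).ne'
  simp [this]

theorem rg_E_one_le {n d : ℕ} : rgE n d (fun _ => 1) ≤ 1 := by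
  unfold rgE
  simp only [Finset.sum_const, nsmul_eq_mul, mul_one]
  exact div_self_le_one _

theorem rg_P_nonneg {n d : ℕ} (S : Gr n → Prop) : 0 ≤ rgP n d S := by
  classical
  unfold rgP
  exact rg_E_nonneg fun H _ => by split_ifs <;> norm_num

theorem rg_P_le_one {n d : ℕ} (S : Gr n → Prop) : rgP n d S ≤ 1 := by
  classical
  unfold rgP
  exact (rg_E_mono fun H _ => by split_ifs <;> norm_num).trans rg_E_one_le

/-- monotonicity (only regular graphs matter) -/
theorem rg_P_mono {n d : ℕ} {S S' : Gr n → Prop} (h : ∀ H ∈ regularGraphs n d, S H → S' H) : rgP n d S ≤ rgP n d S' := by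
  classical
  unfold rgP
  refine rg_E_mono fun H hH => ?_
  by_cases h1 : S H
  · simp [h1, h H hH h1]
  · simp only [h1, if_false]; split_ifs <;> norm_num

/-- union bound -/
theorem rg_P_or {n d : ℕ} (S S' : Gr n → Prop) : rgP n d (fun H => S H ∨ S' H) ≤ rgP n d S + rgP n d S' := by
  classical
  unfold rgP
  rw [← rg_E_add]
  refine rg_E_mono fun H _ => ?_
  by_cases h1 : S H <;> by_cases h2 : S' H <;> simp [h1, h2]

/-- complement -/
theorem rg_P_not {n d : ℕ} (h : (regularGraphs n d).Nonempty) (S : Gr n → Prop) : rgP n d (fun H => ¬ S H) = 1 - rgP n d S := by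
  classical
  have h1 : rgP n d (fun H => ¬ S H) + rgP n d S = 1 := by
    unfold rgP
    rw [← rg_E_add]
    refine Eq.trans (congrArg (rgE n d) ?_) (rg_E_one h)
    funext H
    by_cases h1 : S H <;> simp [h1]
  linarith

/-- Markov -/
theorem rg_P_markov {n d : ℕ} {F : Gr n → ℝ} (hF : ∀ H ∈ regularGraphs n d, 0 ≤ F H) {t : ℝ} (ht : 0 < t) :
    rgP n d (fun H => t ≤ F H) ≤ rgE n d F / t := by
  classical
  rw [le_div_iff₀ ht, mul_comm]
  unfold rgP
  rw [← rg_E_const_mul]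
  refine rg_E_mono fun H hH => ?_
  by_cases h1 : t ≤ F H
  · simp [h1]
  · simpa [h1] using hF H hH

/-- union bound over a finite family -/
theorem rg_P_exists {n d : ℕ} {ι : Type} (s : Finset ι) (S : ι → Gr n → Prop) :
    rgP n d (fun H => ∃ i ∈ s, S i H) ≤ ∑ i ∈ s, rgP n d (S i) := by
  classical
  induction s using Finset.induction_on with
  | empty => simp [rgP, rgE]
  | insert a s ha ih =>
    rw [Finset.sum_insert ha]
    refine le_trans (rg_P_mono fun H _ h => ?_) ((rg_P_or (S a) fun H => ∃ i ∈ s, S i H).trans (by linarith))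
    obtain ⟨i, hi, h⟩ := h
    rcases Finset.mem_insert.mp hi with rfl | hi
    · exact Or.inl h
    · exact Or.inr ⟨i, hi, h⟩

theorem rg_res_adj {n : ℕ} (H : Gr n) (B : Finset (Fin n)) (x y : Fin n) : (rgRes H B).Adj x y ↔ H.Adj x y ∧ x ∈ B ∧ y ∈ B := Iff.rfl

theorem rg_res_le {n : ℕ} (H : Gr n) (B : Finset (Fin n)) : rgRes H B ≤ H := fun _ _ h => h.1

theorem rg_mem_ball {n : ℕ} (H : Gr n) (R : ℕ) (X : Finset (Fin n)) (y : Fin n) : y ∈ rgBall H R X ↔ ∃ x ∈ X, H.edist x y ≤ R := by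
  classical
  simp [rgBall]

theorem rg_self_mem_ball {n : ℕ} (H : Gr n) (R : ℕ) {X : Finset (Fin n)} {x : Fin n} (hx : x ∈ X) : x ∈ rgBall H R X :=
  (rg_mem_ball H R X x).2 ⟨x, hx, by simp⟩

theorem rg_z_im (e η : ℝ) : (rgz e η).im = η := rfl

theorem rg_z_re (e η : ℝ) : (rgz e η).re = e := rfl

/-! ### 6. vocabulary of the descent (used by `B1.lean` and by the files of the sub-units) -/

/-- the start height: `16 η² ≤ κb ≤ 4 (d-1) - e²` holds for `η ≤ b1h κb` -/
noncomputable def b1h (κb : ℝ) : ℝ := min 1 (Real.sqrt κb / 4)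

/-- `n⁻¹ ∑_i log |λ_i - z|` -/
noncomputable def rgLd {n : ℕ} (H : Gr n) (z : ℂ) : ℝ :=
  (∑ i, Real.log ‖(((rg_A_herm H).eigenvalues i : ℝ) : ℂ) - z‖) / n

/-- the state of the descent at the height `η` -/
def B1Good {n : ℕ} (d R : ℕ) (κ0 κ1 M e η : ℝ) (H : Gr n) : Prop :=
  rgNT H (R + 1) ≤ (n : ℝ) ^ (-(1 / 2 : ℝ)) ∧ RgOm d R H (rgz e η) (κ0 / M) (κ1 / 2) ((n * η) ^ (-(1 / 8 : ℝ)) / 4)


/-- the constants of the descent, in the right order.  `B1Con d κb ε M κ0 κ1 R C r0 K N` collects what the step needs. -/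
structure B1Con (d : ℕ) (κb ε M κ0 κ1 : ℝ) (R : ℕ) (C r0 K : ℝ) (N : ℕ) : Prop where
  hM : 2 ≤ M
  hκ0 : 0 < κ0
  hκ0' : κ0 ≤ 1
  hκ1 : 0 < κ1
  hR : 3 ≤ R
  hC : 0 ≤ C
  hr0 : 0 < r0
  hr1 : r0 < 1
  /-- entries are bounded by `K` under structure and T1 with `κ0` -/
  bd : ∀ (n : ℕ) (H : Gr n), H ∈ regularGraphs n d → RgStruct H (4 * R) → ∀ e η : ℝ, RgBulk d κb e → 0 < η → η ≤ b1h κb →
    RgDev d R H (rgz e η) κ0 → ∀ x y, ‖rgG H (rgz e η) x y‖ ≤ K
  /-- one step of continuity -/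
  cont : ∀ (n : ℕ) (H : Gr n), H ∈ regularGraphs n d → RgStruct H (4 * R) → ∀ e η η' : ℝ, RgBulk d κb e → 0 < η' → r0 * η ≤ η' → η' ≤ η → η ≤ b1h κb →
    RgDev d R H (rgz e η) (κ0 / M) → RgDev d R H (rgz e η') κ0 ∧ rgBad d R H (rgz e η') κ1 ≤ rgBad d R H (rgz e η) (κ1 / 2)
  /-- the start -/
  start : ∀ (n : ℕ) (H : Gr n), H ∈ regularGraphs n d → ∀ e : ℝ, RgBulk d κb e → RgDev d R H (rgz e (b1h κb)) (min (κ0 / M) (κ1 / 2))
  /-- the gap at the level `2 κ1` -/
  gap : ∀ n : ℕ, N ≤ n → ∀ e η : ℝ, RgBulk d κb e → (n : ℝ) ^ ε ≤ n * η → η ≤ b1h κb →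
    rgP n d (fun H => RgOm d R H (rgz e η) κ0 (2 * κ1) ((n * η) ^ (-(1 / 8 : ℝ))) ∧ ¬ RgDev d R H (rgz e η) (κ0 / M)) ≤ 1 / (n : ℝ) ^ 2
  /-- T2 -/
  t2 : ∀ n : ℕ, 1 ≤ n → ∀ e η gp : ℝ, RgBulk d κb e → 1 ≤ n * η → η ≤ b1h κb →
    rgP n d (fun H => RgOm d R H (rgz e η) κ0 (2 * κ1) ((n * η) ^ (-(1 / 8 : ℝ))) ∧ ¬ RgDev d R H (rgz e η) (κ0 / M)) ≤ gp →
    rgP n d (fun H => RgOm d R H (rgz e η) (κ0 / M) κ1 ((n * η) ^ (-(1 / 8 : ℝ)) / 4) ∧
        (n * η) ^ (-(1 / 2 : ℝ)) < rgF2 d H (rgz e η) + rgStarF d H (rgz e η))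
      ≤ C * ((n * η) ^ (-(1 / 4 : ℝ)) + n * η * gp)

theorem b1_eqns_cite : True := by
  have := @b1h.eq_1
  have := @rgLd.eq_1
  have := @B1Good.eq_1
  trivial

end Claimed.Agent.R287
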