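/-
Row 287 (S0534), block B1-lite, BOX[TREE].      helper270.
Finite model of the tree extension (route102 L1, repaired in notes/R287/A1_270.md).   Mathlib only, prefix `tg`.

* `TgCav d z g`  : the cavity equation `(d-1) g² + z g + 1 = 0`; all facts on `g` come from this equation:
  `tg_normSq_lt` (`b |g|² < 1`), `tg_im_ge` (bulk lower bound of `Im g`), `tg_one_sub_ge`, `tg_lip`;
* `tgM Γ d z g = A_Γ - z - g (d - deg_Γ)`  (matrix of the tree extension of a finite graph `Γ`);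
* `tg_forest`    : on a forest `tgM * tgQ = 1`, `tgQ x y = m (-g)^(dist x y)` on reachable pairs, `0` else.
-/
import Mathlib

set_option autoImplicit false

namespace Claimed.Agent.R287

open Finset

/-! ### 1. the cavity equation -/

/-- the cavity equation `(d-1) g² + z g + 1 = 0`. -/
def TgCav (d : ℕ) (z g : ℂ) : Prop := ((d : ℂ) - 1) * g ^ 2 + z * g + 1 = 0

section cav

variable {d : ℕ} {z g : ℂ}

theorem tg_ne_zero (h : TgCav d z g) : g ≠ 0 := by
  rintro rfl
  simp [TgCav] at h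

/-- real and imaginary parts of the cavity equation multiplied by `conj g` -/
theorem tg_re_im (h : TgCav d z g) :
    ((d : ℝ) - 1) * Complex.normSq g * g.re + z.re * Complex.normSq g + g.re = 0 ∧
    ((d : ℝ) - 1) * Complex.normSq g * g.im + z.im * Complex.normSq g - g.im = 0 := by
  have h1 : (((d : ℂ) - 1) * g ^ 2 + z * g + 1) * (starRingEnd ℂ) g = 0 := by
    rw [show ((d : ℂ) - 1) * g ^ 2 + z * g + 1 = 0 from h, zero_mul]
  have hre := congrArg Complex.re h1
  have him := congrArg Complex.im h1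
  simp only [Complex.mul_re, Complex.mul_im, Complex.add_re, Complex.add_im, Complex.sub_re,
    Complex.sub_im, Complex.natCast_re, Complex.natCast_im, Complex.one_re, Complex.one_im,
    Complex.conj_re, Complex.conj_im, Complex.zero_re, Complex.zero_im, pow_two] at hre him
  constructor
  · rw [Complex.normSq_apply]; nlinarith [hre]
  · rw [Complex.normSq_apply]; nlinarith [him]

/-- `Im g (1 - b |g|²) = Im z |g|²` -/
theorem tg_im_eq (h : TgCav d z g) :
    g.im * (1 - ((d : ℝ) - 1) * Complex.normSq g) = z.im * Complex.normSq g := by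
  have := (tg_re_im h).2
  linarith

/-- `b |g|² < 1` -/
theorem tg_normSq_lt (h : TgCav d z g) (hz : 0 < z.im) (hg : 0 < g.im) :
    ((d : ℝ) - 1) * Complex.normSq g < 1 := by
  have h1 := tg_im_eq h
  have h2 : 0 < Complex.normSq g := Complex.normSq_pos.mpr (tg_ne_zero h)
  by_contra hcon
  rw [not_lt] at hcon
  have h3 : g.im * (1 - ((d : ℝ) - 1) * Complex.normSq g) ≤ 0 :=
    mul_nonpos_of_nonneg_of_nonpos hg.le (by linarith)
  have h4 : 0 < z.im * Complex.normSq g := mul_pos hz h2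
  linarith

/-- `|g|² (4 b - E²) ≤ 4 b (Im g)²` -/
theorem tg_im_sq_ge (h : TgCav d z g) (hd : 2 ≤ d) :
    Complex.normSq g * (4 * ((d : ℝ) - 1) - z.re ^ 2) ≤ 4 * ((d : ℝ) - 1) * g.im ^ 2 := by
  have hb : (1 : ℝ) ≤ (d : ℝ) - 1 := by
    have : (2 : ℝ) ≤ d := by exact_mod_cast hd
    linarith
  have h1 := (tg_re_im h).1
  have hN : 0 < Complex.normSq g := Complex.normSq_pos.mpr (tg_ne_zero h)
  set N := Complex.normSq g with hNdef
  set b := (d : ℝ) - 1 with hbdef
  have hNxy : N = g.re ^ 2 + g.im ^ 2 := by rw [hNdef, Complex.normSq_apply]; ring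
  -- `x (bN+1) = - E N`
  have h2 : g.re * (b * N + 1) = - (z.re * N) := by linarith
  have h3 : g.re ^ 2 * (b * N + 1) ^ 2 = z.re ^ 2 * N ^ 2 := by
    have : (g.re * (b * N + 1)) ^ 2 = (-(z.re * N)) ^ 2 := by rw [h2]
    nlinarith [this]
  have h4 : 4 * b * N ≤ (b * N + 1) ^ 2 := by nlinarith [sq_nonneg (b * N - 1)]
  have h5 : g.re ^ 2 * (4 * b * N) ≤ z.re ^ 2 * N ^ 2 := by
    have := mul_le_mul_of_nonneg_left h4 (sq_nonneg g.re)
    linarith
  have h6 : g.re ^ 2 * (4 * b) ≤ z.re ^ 2 * N := by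
    have : (g.re ^ 2 * (4 * b)) * N ≤ (z.re ^ 2 * N) * N := by nlinarith [h5]
    exact le_of_mul_le_mul_right this hN
  nlinarith [h6]

/-- `1/2 ≤ b |g|²` in the bulk at small height -/
theorem tg_normSq_ge (h : TgCav d z g) (hd : 2 ≤ d) (hz : 0 < z.im) (hg : 0 < g.im)
    (hs : 16 * z.im ^ 2 ≤ 4 * ((d : ℝ) - 1) - z.re ^ 2) :
    1 / 2 ≤ ((d : ℝ) - 1) * Complex.normSq g := by
  have hb : (1 : ℝ) ≤ (d : ℝ) - 1 := by
    have : (2 : ℝ) ≤ d := by exact_mod_cast hd
    linarith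
  have h1 := tg_im_eq h
  have h2 := tg_im_sq_ge h hd
  have h3 := tg_normSq_lt h hz hg
  have hN : 0 < Complex.normSq g := Complex.normSq_pos.mpr (tg_ne_zero h)
  set N := Complex.normSq g with hNdef
  set b := (d : ℝ) - 1 with hbdef
  set σ := 4 * b - z.re ^ 2 with hσ
  have hσ0 : 0 < σ := by nlinarith [sq_pos_of_pos hz]
  -- `(1-bN)² σ ≤ 4 η²`
  have h4 : (g.im * (1 - b * N)) ^ 2 = (z.im * N) ^ 2 := by rw [h1]
  have h5 : (1 - b * N) ^ 2 * (N * σ) ≤ 4 * b * (z.im * N) ^ 2 := by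
    have := mul_le_mul_of_nonneg_left h2 (sq_nonneg (1 - b * N))
    nlinarith [this, h4]
  have h6 : (1 - b * N) ^ 2 * σ ≤ 4 * z.im ^ 2 * (b * N) := by
    have : ((1 - b * N) ^ 2 * σ) * N ≤ (4 * z.im ^ 2 * (b * N)) * N := by nlinarith [h5]
    exact le_of_mul_le_mul_right this hN
  have h7 : (1 - b * N) ^ 2 * σ ≤ 4 * z.im ^ 2 := by
    have : 4 * z.im ^ 2 * (b * N) ≤ 4 * z.im ^ 2 * 1 :=
      mul_le_mul_of_nonneg_left h3.le (by positivity)
    linarith
  have h8 : (1 - b * N) ^ 2 * σ ≤ σ / 4 := by linarith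
  have h9 : (1 - b * N) ^ 2 ≤ 1 / 4 := by
    have : (1 - b * N) ^ 2 * σ ≤ (1 / 4) * σ := by linarith
    exact le_of_mul_le_mul_right this hσ0
  nlinarith [h9]

/-- bulk lower bound of `Im g` -/
theorem tg_im_ge (h : TgCav d z g) (hd : 2 ≤ d) (hz : 0 < z.im) (hg : 0 < g.im)
    (hs : 16 * z.im ^ 2 ≤ 4 * ((d : ℝ) - 1) - z.re ^ 2) :
    4 * ((d : ℝ) - 1) - z.re ^ 2 ≤ 8 * ((d : ℝ) - 1) ^ 2 * g.im ^ 2 := by
  have hb : (1 : ℝ) ≤ (d : ℝ) - 1 := by
    have : (2 : ℝ) ≤ d := by exact_mod_cast hd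
    linarith
  have h2 := tg_im_sq_ge h hd
  have h3 := tg_normSq_ge h hd hz hg hs
  have hσ0 : 0 ≤ 4 * ((d : ℝ) - 1) - z.re ^ 2 := by nlinarith [sq_nonneg z.im]
  have h4 : (1 / 2) * (4 * ((d : ℝ) - 1) - z.re ^ 2)
      ≤ (((d : ℝ) - 1) * Complex.normSq g) * (4 * ((d : ℝ) - 1) - z.re ^ 2) :=
    mul_le_mul_of_nonneg_right h3 hσ0
  have h5 := mul_le_mul_of_nonneg_left h2 (by linarith : (0 : ℝ) ≤ (d : ℝ) - 1)
  nlinarith [h4, h5]

/-- `1 - b g² = - g (z + 2 b g)` -/
theorem tg_one_sub_eq (h : TgCav d z g) :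
    1 - ((d : ℂ) - 1) * g ^ 2 = - g * (z + 2 * ((d : ℂ) - 1) * g) := by
  have h' : ((d : ℂ) - 1) * g ^ 2 + z * g + 1 = 0 := h
  linear_combination h'

/-- `|1 - b g²| ≥ 2 b |g| Im g` -/
theorem tg_one_sub_ge (h : TgCav d z g) (hd : 2 ≤ d) (hz : 0 < z.im) :
    2 * ((d : ℝ) - 1) * ‖g‖ * g.im ≤ ‖1 - ((d : ℂ) - 1) * g ^ 2‖ := by
  have hb : (1 : ℝ) ≤ (d : ℝ) - 1 := by
    have : (2 : ℝ) ≤ d := by exact_mod_cast hd
    linarith
  rw [tg_one_sub_eq h, norm_mul, norm_neg]
  have h1 : (z + 2 * ((d : ℂ) - 1) * g).im = z.im + 2 * ((d : ℝ) - 1) * g.im := by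
    simp [Complex.add_im, Complex.mul_im]
  have h2 : 2 * ((d : ℝ) - 1) * g.im ≤ ‖z + 2 * ((d : ℂ) - 1) * g‖ := by
    refine le_trans ?_ (le_trans (le_abs_self _) (Complex.abs_im_le_norm _))
    rw [h1]; linarith
  have := mul_le_mul_of_nonneg_left h2 (norm_nonneg g)
  linarith

/-- Lipschitz dependence on `z` -/
theorem tg_lip {z' g' : ℂ} (h : TgCav d z g) (h' : TgCav d z' g') (hd : 2 ≤ d) (hz : 0 ≤ z.im) :
    ((d : ℝ) - 1) * (g.im + g'.im) * ‖g - g'‖ ≤ ‖z - z'‖ * ‖g'‖ := by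
  have hb : (1 : ℝ) ≤ (d : ℝ) - 1 := by
    have : (2 : ℝ) ≤ d := by exact_mod_cast hd
    linarith
  have e : (g - g') * (((d : ℂ) - 1) * (g + g') + z) = - ((z - z') * g') := by
    have h1 : ((d : ℂ) - 1) * g ^ 2 + z * g + 1 = 0 := h
    have h2 : ((d : ℂ) - 1) * g' ^ 2 + z' * g' + 1 = 0 := h'
    linear_combination h1 - h2
  have e1 := congrArg norm e
  rw [norm_mul, norm_neg, norm_mul] at e1
  have h1 : (((d : ℂ) - 1) * (g + g') + z).im = ((d : ℝ) - 1) * (g.im + g'.im) + z.im := by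
    simp [Complex.add_im, Complex.mul_im]
  have h2 : ((d : ℝ) - 1) * (g.im + g'.im) ≤ ‖((d : ℂ) - 1) * (g + g') + z‖ := by
    refine le_trans ?_ (le_trans (le_abs_self _) (Complex.abs_im_le_norm _))
    rw [h1]; linarith
  have := mul_le_mul_of_nonneg_left h2 (norm_nonneg (g - g'))
  linarith

/-- `g² ≠ 1` -/
theorem tg_sq_ne_one (h : TgCav d z g) (hd : 2 ≤ d) (hz : 0 < z.im) (hg : 0 < g.im) : g ^ 2 ≠ 1 := by
  have hb : (1 : ℝ) ≤ (d : ℝ) - 1 := by
    have : (2 : ℝ) ≤ d := by exact_mod_cast hd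
    linarith
  have h1 := tg_normSq_lt h hz hg
  have hN : 0 ≤ Complex.normSq g := Complex.normSq_nonneg g
  intro e
  have e1 := congrArg Complex.normSq e
  rw [map_pow, map_one] at e1
  nlinarith

/-- `m_d = g / (1 - g²)` -/
noncomputable def tgm (g : ℂ) : ℂ := g / (1 - g ^ 2)

/-- `m_d (-z - d g) = 1` -/
theorem tg_m_mul (h : TgCav d z g) (hne : g ^ 2 ≠ 1) : tgm g * (-z - d * g) = 1 := by
  have h0 := tg_ne_zero h
  have h1 : (1 : ℂ) - g ^ 2 ≠ 0 := fun e => hne (by linear_combination -e)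
  have h' : ((d : ℂ) - 1) * g ^ 2 + z * g + 1 = 0 := h
  rw [tgm, div_mul_eq_mul_div, div_eq_one_iff_eq h1]
  linear_combination -h'

end cav

/-- uniqueness of the root in the upper half plane -/
theorem tg_unique {d : ℕ} {z g g' : ℂ} (h : TgCav d z g) (h' : TgCav d z g') (hd : 2 ≤ d) (hz : 0 ≤ z.im)
    (hg : 0 < g.im) (hg' : 0 < g'.im) : g = g' := by
  have hb : (1 : ℝ) ≤ (d : ℝ) - 1 := by
    have : (2 : ℝ) ≤ d := by exact_mod_cast hd
    linarith
  have h1 := tg_lip h h' hd hz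
  rw [sub_self, norm_zero, zero_mul] at h1
  have h2 : 0 < ((d : ℝ) - 1) * (g.im + g'.im) := by positivity
  have h3 : ‖g - g'‖ ≤ 0 := by
    by_contra hcon
    rw [not_le] at hcon
    have := mul_pos h2 hcon
    linarith
  exact sub_eq_zero.mp (norm_le_zero_iff.mp h3)

/-- `‖g‖ < 1` -/
theorem tg_norm_lt_one {d : ℕ} {z g : ℂ} (h : TgCav d z g) (hd : 2 ≤ d) (hz : 0 < z.im) (hg : 0 < g.im) :
    ‖g‖ < 1 := by
  have hb : (1 : ℝ) ≤ (d : ℝ) - 1 := by
    have : (2 : ℝ) ≤ d := by exact_mod_cast hd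
    linarith
  have h1 := tg_normSq_lt h hz hg
  have hN : 0 ≤ Complex.normSq g := Complex.normSq_nonneg g
  have h2 : ‖g‖ ^ 2 < 1 := by
    rw [← Complex.normSq_eq_norm_sq]
    nlinarith
  nlinarith [norm_nonneg g]

/-- real part of the principal square root is nonnegative -/
theorem tg_sqrt_re (w : ℂ) : 0 ≤ (w ^ (1 / 2 : ℂ)).re := by
  by_cases hw : w = 0
  · subst hw
    simp
  · rw [Complex.cpow_def_of_ne_zero hw, Complex.exp_re]
    refine mul_nonneg (Real.exp_pos _).le (Real.cos_nonneg_of_neg_pi_div_two_le_of_le ?_ ?_)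
    · have h1 : (Complex.log w * (1 / 2 : ℂ)).im = w.arg / 2 := by
        simp [Complex.mul_im, Complex.log_im]
        ring
      rw [h1]
      have := Complex.neg_pi_lt_arg w
      linarith
    · have h1 : (Complex.log w * (1 / 2 : ℂ)).im = w.arg / 2 := by
        simp [Complex.mul_im, Complex.log_im]
        ring
      rw [h1]
      have := Complex.arg_le_pi w
      linarith

theorem tg_sqrt_sq (w : ℂ) : (w ^ (1 / 2 : ℂ)) ^ 2 = w := by
  rw [← Complex.cpow_nat_mul]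
  norm_num

/-- the explicit branch -/
noncomputable def tgg (d : ℕ) (z : ℂ) : ℂ :=
  (-z + Complex.I * (4 * ((d : ℂ) - 1) - z ^ 2) ^ (1 / 2 : ℂ)) / (2 * ((d : ℂ) - 1))

theorem tg_root_cav {d : ℕ} (hd : 2 ≤ d) (z : ℂ) : TgCav d z (tgg d z) := by
  have hb : ((d : ℂ) - 1) ≠ 0 := by
    have : (2 : ℝ) ≤ d := by exact_mod_cast hd
    intro e
    have e1 := congrArg Complex.re e
    simp at e1
    linarith
  have hs := tg_sqrt_sq (4 * ((d : ℂ) - 1) - z ^ 2)
  unfold TgCav tgg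
  set s := (4 * ((d : ℂ) - 1) - z ^ 2) ^ (1 / 2 : ℂ) with hsdef
  field_simp
  have hI : Complex.I ^ 2 = -1 := Complex.I_sq
  linear_combination (-1 : ℂ) * hs + s ^ 2 * hI

theorem tg_root_im {d : ℕ} (hd : 2 ≤ d) {z : ℂ} (hz : 0 < z.im) : 0 < (tgg d z).im := by
  have hbR : (1 : ℝ) ≤ (d : ℝ) - 1 := by
    have : (2 : ℝ) ≤ d := by exact_mod_cast hd
    linarith
  have hb : ((d : ℂ) - 1) ≠ 0 := by
    intro e
    have e1 := congrArg Complex.re e
    simp at e1
    linarith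
  have hs := tg_sqrt_sq (4 * ((d : ℂ) - 1) - z ^ 2)
  have hre := tg_sqrt_re (4 * ((d : ℂ) - 1) - z ^ 2)
  have h1 := tg_root_cav hd z
  -- the other root
  set s := (4 * ((d : ℂ) - 1) - z ^ 2) ^ (1 / 2 : ℂ) with hsdef
  set g2 : ℂ := (-z - Complex.I * s) / (2 * ((d : ℂ) - 1)) with hg2
  have hI : Complex.I ^ 2 = -1 := Complex.I_sq
  have h2 : TgCav d z g2 := by
    unfold TgCav
    rw [hg2]
    field_simp
    linear_combination (-1 : ℂ) * hs + s ^ 2 * hI
  have hprod : ((d : ℂ) - 1) * (tgg d z * g2) = 1 := by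
    rw [hg2, tgg, ← hsdef]
    field_simp
    linear_combination (1 : ℂ) * hs - s ^ 2 * hI
  have hcast : (2 * ((d : ℂ) - 1)) = ((2 * ((d : ℝ) - 1) : ℝ) : ℂ) := by push_cast; ring
  have him2 : g2.im < 0 := by
    rw [hg2, hcast, Complex.div_ofReal_im]
    apply div_neg_of_neg_of_pos
    · simp [Complex.sub_im, Complex.mul_im]
      linarith
    · linarith
  have e2 := tg_im_eq h2
  have hN2 : 0 < Complex.normSq g2 := Complex.normSq_pos.mpr (tg_ne_zero h2)
  have hN1 : 0 < Complex.normSq (tgg d z) := Complex.normSq_pos.mpr (tg_ne_zero h1)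
  have hb2 : 1 < ((d : ℝ) - 1) * Complex.normSq g2 := by
    by_contra hcon
    rw [not_lt] at hcon
    have h3 : g2.im * (1 - ((d : ℝ) - 1) * Complex.normSq g2) ≤ 0 :=
      mul_nonpos_of_nonpos_of_nonneg him2.le (by linarith)
    have h4 : 0 < z.im * Complex.normSq g2 := mul_pos hz hN2
    linarith
  have hpn : ((d : ℝ) - 1) ^ 2 * (Complex.normSq (tgg d z) * Complex.normSq g2) = 1 := by
    have := congrArg Complex.normSq hprod
    rw [map_mul, map_mul, map_one] at this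
    have hc : Complex.normSq ((d : ℂ) - 1) = ((d : ℝ) - 1) ^ 2 := by
      have : ((d : ℂ) - 1) = (((d : ℝ) - 1 : ℝ) : ℂ) := by push_cast; ring
      rw [this, Complex.normSq_ofReal]; ring
    rw [hc] at this
    exact this
  have hb1 : ((d : ℝ) - 1) * Complex.normSq (tgg d z) < 1 := by
    by_contra hcon
    rw [not_lt] at hcon
    have : 1 * 1 < (((d : ℝ) - 1) * Complex.normSq (tgg d z)) * (((d : ℝ) - 1) * Complex.normSq g2) :=
      mul_lt_mul' hcon hb2 (by norm_num) (by linarith)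
    nlinarith
  have e1 := tg_im_eq h1
  have h4 : 0 < z.im * Complex.normSq (tgg d z) := mul_pos hz hN1
  by_contra hcon
  rw [not_lt] at hcon
  have h3 : (tgg d z).im * (1 - ((d : ℝ) - 1) * Complex.normSq (tgg d z)) ≤ 0 :=
    mul_nonpos_of_nonpos_of_nonneg hcon (by linarith)
  linarith


/-! ### 2. forests -/

section graph
variable {V : Type*} {Γ : SimpleGraph V}

/-- a neighbour closer to `y` -/
theorem tg_closer_exists {x y : V} (hr : Γ.Reachable x y) (hne : x ≠ y) :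
    ∃ w, Γ.Adj x w ∧ Γ.dist w y + 1 = Γ.dist x y := by
  obtain ⟨p, hp⟩ := hr.exists_walk_length_eq_dist
  cases p with
  | nil => exact absurd rfl hne
  | cons hadj q =>
    rename_i w
    refine ⟨w, hadj, ?_⟩
    rw [SimpleGraph.Walk.length_cons] at hp
    have h1 : Γ.dist w y ≤ q.length := SimpleGraph.dist_le q
    obtain ⟨q', hq'⟩ := (q.reachable).exists_walk_length_eq_dist
    have h2 : Γ.dist x y ≤ (SimpleGraph.Walk.cons hadj q').length := SimpleGraph.dist_le _
    rw [SimpleGraph.Walk.length_cons] at h2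
    omega

/-- in a forest the closer neighbour is unique -/
theorem tg_closer_unique (hΓ : Γ.IsAcyclic) {x y w1 w2 : V} (h1 : Γ.Adj x w1) (h2 : Γ.Adj x w2)
    (hr : Γ.Reachable x y)
    (e1 : Γ.dist w1 y + 1 = Γ.dist x y) (e2 : Γ.dist w2 y + 1 = Γ.dist x y) : w1 = w2 := by
  classical
  have key : ∀ w, Γ.Adj x w → Γ.dist w y + 1 = Γ.dist x y →
      ∃ p : Γ.Walk x y, p.IsPath ∧ p.snd = w := by
    intro w hw e
    have hrw : Γ.Reachable w y := (hw.symm.reachable).trans hr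
    obtain ⟨q, hq, hql⟩ := hrw.exists_path_of_dist
    have hx : x ∉ q.support := by
      intro hx
      have h3 : Γ.dist x y ≤ (q.dropUntil x hx).length := SimpleGraph.dist_le _
      have h4 : (q.dropUntil x hx).length ≤ q.length := q.length_dropUntil_le_length hx
      omega
    exact ⟨SimpleGraph.Walk.cons hw q, hq.cons hx, by simp⟩
  obtain ⟨p1, hp1, s1⟩ := key w1 h1 e1
  obtain ⟨p2, hp2, s2⟩ := key w2 h2 e2
  have := (hΓ.subsingleton_path x y).elim ⟨p1, hp1⟩ ⟨p2, hp2⟩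
  have e : p1 = p2 := congrArg Subtype.val this
  rw [← s1, ← s2, e]

/-- in a forest every other neighbour is farther by one -/
theorem tg_farther (hΓ : Γ.IsAcyclic) {x y w : V} (h1 : Γ.Adj x w) (hr : Γ.Reachable x y)
    (e1 : Γ.dist w y + 1 ≠ Γ.dist x y) : Γ.dist w y = Γ.dist x y + 1 := by
  have := hΓ.dist_eq_dist_add_one_of_adj_of_reachable y h1 hr.symm
  rw [SimpleGraph.dist_comm (u := y) (v := x), SimpleGraph.dist_comm (u := y) (v := w)] at this
  omega

end graph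

section mat

variable {V : Type*} [Fintype V] [DecidableEq V]

open Classical in
/-- number of neighbours -/
noncomputable def tgDeg (Γ : SimpleGraph V) (x : V) : ℕ := (univ.filter fun y => Γ.Adj x y).card

open Classical in
/-- `A_Γ - z - g (d - deg_Γ)`: the matrix of the `d`-regular tree extension of `Γ`. -/
noncomputable def tgM (Γ : SimpleGraph V) (d : ℕ) (z g : ℂ) : Matrix V V ℂ := fun x y =>
  (if Γ.Adj x y then 1 else 0) - (if x = y then z + g * ((d : ℂ) - tgDeg Γ x) else 0)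

open Classical in
/-- `m_d (-g)^dist` on reachable pairs -/
noncomputable def tgQ (Γ : SimpleGraph V) (g : ℂ) : Matrix V V ℂ := fun x y =>
  if Γ.Reachable x y then tgm g * (-g) ^ Γ.dist x y else 0

open Classical in
theorem tg_mul_apply (Γ : SimpleGraph V) (d : ℕ) (z g : ℂ) (Q : Matrix V V ℂ) (x y : V) :
    (tgM Γ d z g * Q) x y
      = (∑ w ∈ univ.filter (fun w => Γ.Adj x w), Q w y) - (z + g * ((d : ℂ) - tgDeg Γ x)) * Q x y := by
  rw [Matrix.mul_apply]
  simp only [tgM, sub_mul, sum_sub_distrib, ite_mul, one_mul, zero_mul, sum_ite_eq, mem_univ,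
    if_true, sum_filter]

open Classical in
/-- **the Green function of the tree extension of a forest** -/
theorem tg_forest {Γ : SimpleGraph V} (hΓ : Γ.IsAcyclic) {d : ℕ} {z g : ℂ} (h : TgCav d z g)
    (hne : g ^ 2 ≠ 1) : tgM Γ d z g * tgQ Γ g = 1 := by
  have hm := tg_m_mul h hne
  have h' : ((d : ℂ) - 1) * g ^ 2 + z * g + 1 = 0 := h
  ext x y
  rw [tg_mul_apply]
  by_cases hr : Γ.Reachable x y
  · by_cases hxy : x = y
    · subst hxy
      have e1 : ∀ w ∈ univ.filter (fun w => Γ.Adj x w), tgQ Γ g w x = tgm g * (-g) := by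
        intro w hw
        have hw' : Γ.Adj x w := (mem_filter.mp hw).2
        rw [tgQ, if_pos hw'.symm.reachable, SimpleGraph.dist_eq_one_iff_adj.mpr hw'.symm, pow_one]
      rw [sum_congr rfl e1, sum_const, nsmul_eq_mul, Matrix.one_apply_eq]
      have e2 : tgQ Γ g x x = tgm g := by
        rw [tgQ, if_pos (SimpleGraph.Reachable.refl x), SimpleGraph.dist_self, pow_zero, mul_one]
      rw [e2]
      have e3 : ((univ.filter fun w => Γ.Adj x w).card : ℂ) = tgDeg Γ x := rfl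
      rw [e3]
      linear_combination hm
    · obtain ⟨w0, hw0, e0⟩ := tg_closer_exists hr hxy
      rw [Matrix.one_apply_ne hxy]
      have hmem : w0 ∈ univ.filter (fun w => Γ.Adj x w) := mem_filter.mpr ⟨mem_univ _, hw0⟩
      rw [← add_sum_erase _ _ hmem]
      have e1 : ∀ w ∈ (univ.filter (fun w => Γ.Adj x w)).erase w0,
          tgQ Γ g w y = tgm g * (-g) ^ (Γ.dist x y + 1) := by
        intro w hw
        have hw1 : w ≠ w0 := (mem_erase.mp hw).1
        have hw' : Γ.Adj x w := (mem_filter.mp (mem_erase.mp hw).2).2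
        have hd : Γ.dist w y = Γ.dist x y + 1 :=
          tg_farther hΓ hw' hr (fun e => hw1 (tg_closer_unique hΓ hw' hw0 hr e e0))
        rw [tgQ, if_pos (hw'.symm.reachable.trans hr), hd]
      rw [sum_congr rfl e1, sum_const, nsmul_eq_mul, card_erase_of_mem hmem]
      have e2 : tgQ Γ g w0 y = tgm g * (-g) ^ Γ.dist w0 y := by
        rw [tgQ, if_pos (hw0.symm.reachable.trans hr)]
      have e3 : tgQ Γ g x y = tgm g * (-g) ^ (Γ.dist w0 y + 1) := by
        rw [tgQ, if_pos hr, e0]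
      have hpos : 1 ≤ (univ.filter fun w => Γ.Adj x w).card := card_pos.mpr ⟨w0, hmem⟩
      have e4 : (((univ.filter fun w => Γ.Adj x w).card - 1 : ℕ) : ℂ) = (tgDeg Γ x : ℂ) - 1 := by
        rw [Nat.cast_sub hpos, Nat.cast_one]; rfl
      rw [e2, e3, e4, ← e0]
      generalize Γ.dist w0 y = k
      generalize (tgDeg Γ x : ℂ) = D
      have : tgm g * (-g) ^ k + (D - 1) * (tgm g * (-g) ^ (k + 1 + 1))
          - (z + g * ((d : ℂ) - D)) * (tgm g * (-g) ^ (k + 1))
          = tgm g * (-g) ^ k * (((d : ℂ) - 1) * g ^ 2 + z * g + 1) := by ring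
      rw [this, h', mul_zero]
  · have hxy : x ≠ y := fun e => hr (e ▸ SimpleGraph.Reachable.refl x)
    rw [Matrix.one_apply_ne hxy]
    have e1 : ∀ w ∈ univ.filter (fun w => Γ.Adj x w), tgQ Γ g w y = 0 := by
      intro w hw
      have hw' : Γ.Adj x w := (mem_filter.mp hw).2
      rw [tgQ, if_neg (fun hwy => hr (hw'.reachable.trans hwy))]
    rw [sum_congr rfl e1, sum_const_zero, tgQ, if_neg hr, mul_zero, sub_zero]

end mat

theorem tg_eqns_cite : True := by
  have := @TgCav.eq_1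
  have := @tgm.eq_1
  have := @tgg.eq_1
  have := @tgDeg.eq_1.{0}
  have := @tgM.eq_1.{0}
  have := @tgQ.eq_1.{0}
  trivial

end Claimed.Agent.R287
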