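/-
Row 287 (S0534), block B1-lite, BOX[TREE], part 2.      helper270.
Graphs with at most one cycle in each component: explicit inverse of `tgM`, decay, consistency.   prefix `tg`.
-/
import Claimed.Agent.R287.Tree270

set_option autoImplicit false
set_option linter.unusedSectionVars false

namespace Claimed.Agent.R287

open Finset

section defs
variable {V : Type*}

/-- `F` is a spanning forest of `Γ` -/
def TgSpan (F Γ : SimpleGraph V) : Prop := F ≤ Γ ∧ F.IsAcyclic ∧ F.Reachable = Γ.Reachable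

/-- `(u,v)` is an (ordered) extra edge -/
def TgEx (F Γ : SimpleGraph V) (u v : V) : Prop := Γ.Adj u v ∧ ¬ F.Adj u v

/-- at most one extra edge in each component -/
def TgOne (F Γ : SimpleGraph V) : Prop :=
  ∀ u v u' v', TgEx F Γ u v → TgEx F Γ u' v' → F.Reachable u u' → (u' = u ∧ v' = v) ∨ (u' = v ∧ v' = u)

variable {F Γ : SimpleGraph V}

theorem TgEx.symm {u v : V} (h : TgEx F Γ u v) : TgEx F Γ v u := ⟨h.1.symm, fun e => h.2 e.symm⟩

theorem TgEx.ne {u v : V} (h : TgEx F Γ u v) : u ≠ v := h.1.ne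

theorem TgEx.reach (hF : TgSpan F Γ) {u v : V} (h : TgEx F Γ u v) : F.Reachable u v := by
  rw [hF.2.2]; exact h.1.reachable

theorem TgOne.uniq (hU : TgOne F Γ) {p p' r : V} (h : TgEx F Γ p p') (h2 : TgEx F Γ p r) : r = p' := by
  rcases hU p p' p r h h2 (SimpleGraph.Reachable.refl p) with ⟨-, e⟩ | ⟨e, -⟩
  · exact e
  · exact absurd e h.ne

end defs

section mat
variable {V : Type*} [Fintype V] [DecidableEq V]

open Classical in
/-- the coupling of the extra edges -/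
noncomputable def tgK (F Γ : SimpleGraph V) (g : ℂ) : Matrix V V ℂ := fun u v =>
  if TgEx F Γ u v then (1 - g ^ 2) / (1 - (-g) ^ (F.dist u v + 1)) else 0

/-- the explicit inverse -/
noncomputable def tgP (F Γ : SimpleGraph V) (g : ℂ) : Matrix V V ℂ :=
  tgQ F g - tgQ F g * tgK F Γ g * tgQ F g

open Classical in
/-- `tgM Γ - tgM F` -/
noncomputable def tgDl (F Γ : SimpleGraph V) (g : ℂ) : Matrix V V ℂ := fun x y =>
  (if TgEx F Γ x y then 1 else 0) + (if x = y then g * ((univ.filter fun r => TgEx F Γ x r).card : ℂ) else 0)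

variable {F Γ : SimpleGraph V}

open Classical in
theorem tg_deg_add (hle : F ≤ Γ) (x : V) :
    tgDeg Γ x = tgDeg F x + (univ.filter fun r => TgEx F Γ x r).card := by
  unfold tgDeg
  rw [← card_union_of_disjoint]
  · congr 1
    ext r
    simp only [mem_filter, mem_univ, true_and, mem_union]
    constructor
    · intro h
      by_cases h2 : F.Adj x r
      · exact Or.inl h2
      · exact Or.inr ⟨h, h2⟩
    · rintro (h | h)
      · exact hle h
      · exact h.1
  · rw [disjoint_left]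
    intro r h1 h2
    exact (mem_filter.mp h2).2.2 (mem_filter.mp h1).2

open Classical in
theorem tg_M_add (hle : F ≤ Γ) (d : ℕ) (z g : ℂ) : tgM Γ d z g = tgM F d z g + tgDl F Γ g := by
  ext x y
  simp only [tgM, tgDl, Matrix.add_apply]
  rw [tg_deg_add hle x]
  have e1 : (if Γ.Adj x y then (1 : ℂ) else 0) = (if F.Adj x y then 1 else 0) + (if TgEx F Γ x y then 1 else 0) := by
    by_cases h1 : F.Adj x y
    · have h2 : Γ.Adj x y := hle h1
      have h3 : ¬ TgEx F Γ x y := fun h => h.2 h1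
      simp [h1, h2, h3]
    · by_cases h2 : Γ.Adj x y
      · have h3 : TgEx F Γ x y := ⟨h2, h1⟩
        simp [h1, h2, h3]
      · have h3 : ¬ TgEx F Γ x y := fun h => h2 h.1
        simp [h1, h2, h3]
  rw [e1]
  by_cases hxy : x = y
  · simp only [hxy, if_true]
    push_cast
    ring
  · simp only [hxy, if_false]
    ring

theorem tg_K_symm (g : ℂ) (u v : V) : tgK F Γ g u v = tgK F Γ g v u := by
  classical
  unfold tgK
  by_cases h : TgEx F Γ u v
  · rw [if_pos h, if_pos h.symm, SimpleGraph.dist_comm]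
  · rw [if_neg h, if_neg (fun h' => h h'.symm)]

theorem tg_Q_self (g : ℂ) (x : V) : tgQ F g x x = tgm g := by
  rw [tgQ, if_pos (SimpleGraph.Reachable.refl x), SimpleGraph.dist_self, pow_zero, mul_one]

theorem tg_Q_symm (g : ℂ) (x y : V) : tgQ F g x y = tgQ F g y x := by
  classical
  unfold tgQ
  by_cases h : F.Reachable x y
  · rw [if_pos h, if_pos h.symm, SimpleGraph.dist_comm]
  · rw [if_neg h, if_neg (fun h' => h h'.symm)]

/-- column `p'` of `Q K` -/
theorem tg_QK_col (hU : TgOne F Γ) (g : ℂ) {p p' : V} (h : TgEx F Γ p p') (r : V) :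
    (tgQ F g * tgK F Γ g) r p' = tgQ F g r p * tgK F Γ g p p' := by
  classical
  rw [Matrix.mul_apply]
  refine Finset.sum_eq_single p ?_ (fun hp => absurd (mem_univ p) hp)
  intro s _ hs
  have : ¬ TgEx F Γ s p' := fun h2 => hs (hU.uniq h.symm h2.symm)
  rw [tgK, if_neg this, mul_zero]

/-- the other columns of `Q K` vanish on the component -/
theorem tg_QK_zero (hU : TgOne F Γ) (g : ℂ) {p p' : V} (h : TgEx F Γ p p') {r q : V}
    (hr : F.Reachable p r) (h1 : q ≠ p) (h2 : q ≠ p') : (tgQ F g * tgK F Γ g) r q = 0 := by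
  classical
  rw [Matrix.mul_apply]
  refine Finset.sum_eq_zero ?_
  intro s _
  by_cases hs : TgEx F Γ s q
  · by_cases hrs : F.Reachable r s
    · rcases hU p p' s q h hs (hr.trans hrs) with ⟨-, e⟩ | ⟨-, e⟩
      · exact absurd e h2
      · exact absurd e h1
    · rw [tgQ, if_neg hrs, zero_mul]
  · rw [tgK, if_neg hs, mul_zero]

open Classical in
/-- a row of `tgDl` without extra edge -/
theorem tg_Dl_row0 (g : ℂ) {p : V} (h : ∀ r, ¬ TgEx F Γ p r) (r : V) : tgDl F Γ g p r = 0 := by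
  have : (univ.filter fun r => TgEx F Γ p r) = ∅ := by
    rw [filter_eq_empty_iff]; intro r _; exact h r
  simp [tgDl, h r, this]

open Classical in
/-- a row of `tgDl` with an extra edge -/
theorem tg_Dl_row1 (hU : TgOne F Γ) (g : ℂ) {p p' : V} (h : TgEx F Γ p p') (r : V) :
    tgDl F Γ g p r = (if r = p' then 1 else 0) + (if r = p then g else 0) := by
  have e1 : (univ.filter fun r => TgEx F Γ p r) = {p'} := by
    ext r
    simp only [mem_filter, mem_univ, true_and, mem_singleton]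
    exact ⟨fun h2 => hU.uniq h h2, fun e => e ▸ h⟩
  have e2 : TgEx F Γ p r ↔ r = p' := ⟨fun h2 => hU.uniq h h2, fun e => e ▸ h⟩
  simp only [tgDl, e1, card_singleton, Nat.cast_one, mul_one, e2, eq_comm (a := p) (b := r)]

theorem tg_Dl_mul (hU : TgOne F Γ) (g : ℂ) {p p' : V} (h : TgEx F Γ p p') (X : Matrix V V ℂ) (q : V) :
    (tgDl F Γ g * X) p q = X p' q + g * X p q := by
  classical
  rw [Matrix.mul_apply]
  simp only [tg_Dl_row1 hU g h, add_mul, ite_mul, one_mul, zero_mul, sum_add_distrib, sum_ite_eq',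
    mem_univ, if_true]

/-- the two scalar identities -/
theorem tg_kap (g : ℂ) (hne : g ^ 2 ≠ 1) (k : ℕ) (hk : (-g) ^ (k + 1) ≠ 1) :
    (1 - g ^ 2) / (1 - (-g) ^ (k + 1)) * (1 + tgm g * (-g) ^ k + g * tgm g) = 1 ∧
    (1 - g ^ 2) / (1 - (-g) ^ (k + 1)) * (tgm g + g * (tgm g * (-g) ^ k)) = g := by
  have h1 : (1 : ℂ) - g ^ 2 ≠ 0 := fun e => hne (by linear_combination -e)
  have h2 : (1 : ℂ) - (-g) ^ (k + 1) ≠ 0 := fun e => hk (by linear_combination -e)
  unfold tgm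
  constructor
  · field_simp
    ring
  · field_simp
    ring

/-- **key identity** `Δ = K + Δ Q K` -/
theorem tg_key (hF : TgSpan F Γ) (hU : TgOne F Γ) {g : ℂ} (hne : g ^ 2 ≠ 1)
    (hk : ∀ k : ℕ, (-g) ^ (k + 1) ≠ 1) :
    tgDl F Γ g = tgK F Γ g + tgDl F Γ g * (tgQ F g * tgK F Γ g) := by
  classical
  ext p q
  rw [Matrix.add_apply]
  by_cases hp : ∃ p', TgEx F Γ p p'
  · obtain ⟨p', h⟩ := hp
    rw [tg_Dl_mul hU g h, tg_Dl_row1 hU g h]
    have hpp' : F.Reachable p p' := h.reach hF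
    have hQ1 : tgQ F g p p' = tgm g * (-g) ^ F.dist p p' := by rw [tgQ, if_pos hpp']
    have hK : tgK F Γ g p p' = (1 - g ^ 2) / (1 - (-g) ^ (F.dist p p' + 1)) := by rw [tgK, if_pos h]
    obtain ⟨k1, k2⟩ := tg_kap g hne (F.dist p p') (hk _)
    by_cases hq1 : q = p'
    · subst hq1
      rw [tg_QK_col hU g h, tg_QK_col hU g h, if_pos rfl, if_neg h.ne.symm, tg_Q_self,
        tg_Q_symm g q p, hQ1, hK]
      linear_combination -k1
    · by_cases hq2 : q = p
      · subst hq2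
        have hKqq : tgK F Γ g q q = 0 := by rw [tgK, if_neg (fun e => e.ne rfl)]
        rw [tg_QK_col hU g h.symm, tg_QK_col hU g h.symm, if_neg hq1, if_pos rfl, tg_Q_self, hQ1,
          tg_K_symm g p' q, hK, hKqq]
        linear_combination -k2
      · have hKpq : tgK F Γ g p q = 0 := by rw [tgK, if_neg (fun e => hq1 (hU.uniq h e))]
        rw [tg_QK_zero hU g h hpp' hq2 hq1, tg_QK_zero hU g h (SimpleGraph.Reachable.refl p) hq2 hq1,
          if_neg hq1, if_neg hq2, hKpq]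
        ring
  · have hp' : ∀ r, ¬ TgEx F Γ p r := fun r hr => hp ⟨r, hr⟩
    rw [tg_Dl_row0 g hp', tgK, if_neg (hp' q), Matrix.mul_apply]
    simp [tg_Dl_row0 g hp']

/-- **explicit inverse when every component has at most one cycle** -/
theorem tg_uni (hF : TgSpan F Γ) (hU : TgOne F Γ) {d : ℕ} {z g : ℂ} (h : TgCav d z g) (hne : g ^ 2 ≠ 1)
    (hk : ∀ k : ℕ, (-g) ^ (k + 1) ≠ 1) : tgM Γ d z g * tgP F Γ g = 1 := by
  have h1 := tg_forest hF.2.1 h hne
  have h2 := tg_key hF hU hne hk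
  rw [tg_M_add hF.1, tgP]
  set M := tgM F d z g
  set Q := tgQ F g
  set K := tgK F Γ g
  set D := tgDl F Γ g
  have e : (M + D) * (Q - Q * K * Q) = M * Q - (M * Q) * K * Q + (D - D * (Q * K)) * Q := by
    noncomm_ring
  have h3 : D - D * (Q * K) = K := by rw [sub_eq_iff_eq_add]; exact h2
  rw [e, h1, h3, one_mul]
  abel

theorem tg_pow_ne_one {g : ℂ} (hg : ‖g‖ < 1) (k : ℕ) : (-g) ^ (k + 1) ≠ 1 := by
  intro e
  have e1 := congrArg norm e
  rw [norm_pow, norm_neg, norm_one] at e1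
  have : ‖g‖ ^ (k + 1) < 1 := pow_lt_one₀ (norm_nonneg g) hg (Nat.succ_ne_zero k)
  linarith

/-! ### rows of the explicit inverse -/

/-- row of `P` in a component with an extra edge -/
theorem tg_P_row1 (hU : TgOne F Γ) (g : ℂ) {p p' x : V} (h : TgEx F Γ p p') (hr : F.Reachable p x) (y : V) :
    tgP F Γ g x y = tgQ F g x y
      - (tgQ F g x p * tgK F Γ g p p' * tgQ F g p' y + tgQ F g x p' * tgK F Γ g p p' * tgQ F g p y) := by
  classical
  rw [tgP, Matrix.sub_apply, Matrix.mul_apply]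
  congr 1
  have hne : p' ≠ p := h.ne.symm
  rw [← Finset.add_sum_erase _ _ (mem_univ p'),
    ← Finset.add_sum_erase _ _ (mem_erase.mpr ⟨h.ne, mem_univ p⟩)]
  rw [tg_QK_col hU g h, tg_QK_col hU g h.symm, tg_K_symm g p' p, Finset.sum_eq_zero, add_zero]
  intro q hq
  have h1 : q ≠ p := (mem_erase.mp hq).1
  have h2 : q ≠ p' := (mem_erase.mp (mem_erase.mp hq).2).1
  rw [tg_QK_zero hU g h hr h1 h2, zero_mul]

/-- row of `P` in a component without extra edge -/
theorem tg_P_row0 (g : ℂ) {x : V} (h : ∀ s q, TgEx F Γ s q → ¬ F.Reachable x s) (y : V) :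
    tgP F Γ g x y = tgQ F g x y := by
  classical
  rw [tgP, Matrix.sub_apply, Matrix.mul_apply, Finset.sum_eq_zero, sub_zero]
  intro q _
  rw [Matrix.mul_apply, Finset.sum_eq_zero, zero_mul]
  intro s _
  by_cases hs : TgEx F Γ s q
  · rw [tgQ, if_neg (h s q hs), zero_mul]
  · rw [tgK, if_neg hs, mul_zero]

theorem tg_Q_norm_le (g : ℂ) (a b : V) : ‖tgQ F g a b‖ ≤ ‖tgm g‖ * ‖g‖ ^ F.dist a b := by
  classical
  unfold tgQ
  by_cases h : F.Reachable a b
  · rw [if_pos h, norm_mul, norm_pow, norm_neg]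
  · rw [if_neg h, norm_zero]; positivity

theorem tg_Q_norm_le' {g : ℂ} (hg : ‖g‖ < 1) (a b : V) : ‖tgQ F g a b‖ ≤ ‖tgm g‖ := by
  refine (tg_Q_norm_le g a b).trans ?_
  have : ‖g‖ ^ F.dist a b ≤ 1 := pow_le_one₀ (norm_nonneg g) hg.le
  nlinarith [norm_nonneg (tgm g)]

theorem tg_sq_ne_one' {g : ℂ} (hg : ‖g‖ < 1) : g ^ 2 ≠ 1 := by
  have := tg_pow_ne_one hg 1
  intro e
  apply this
  rw [← e]; ring

/-- `‖m κ‖ ≤ ‖g‖ / (1 - ‖g‖)` -/
theorem tg_mK_norm_le {g : ℂ} (hg : ‖g‖ < 1) (u v : V) :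
    ‖tgm g‖ * ‖tgK F Γ g u v‖ ≤ ‖g‖ / (1 - ‖g‖) := by
  classical
  have h0 : 0 < 1 - ‖g‖ := by linarith
  unfold tgK
  by_cases h : TgEx F Γ u v
  · rw [if_pos h, ← norm_mul]
    have h1 : (1 : ℂ) - g ^ 2 ≠ 0 := fun e => tg_sq_ne_one' hg (by linear_combination -e)
    have e : tgm g * ((1 - g ^ 2) / (1 - (-g) ^ (F.dist u v + 1))) = g / (1 - (-g) ^ (F.dist u v + 1)) := by
      unfold tgm
      field_simp
    rw [e, norm_div]
    have h2 : 1 - ‖g‖ ≤ ‖1 - (-g) ^ (F.dist u v + 1)‖ := by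
      have h3 : ‖(1 : ℂ)‖ - ‖(-g) ^ (F.dist u v + 1)‖ ≤ ‖1 - (-g) ^ (F.dist u v + 1)‖ := norm_sub_norm_le _ _
      rw [norm_one, norm_pow, norm_neg] at h3
      have h4 : ‖g‖ ^ (F.dist u v + 1) ≤ ‖g‖ ^ 1 :=
        pow_le_pow_of_le_one (norm_nonneg g) hg.le (by omega)
      rw [pow_one] at h4
      linarith
    exact div_le_div_of_nonneg_left (norm_nonneg g) h0 h2
  · rw [if_neg h, norm_zero, mul_zero]
    exact div_nonneg (norm_nonneg g) h0.le

/-- one cross term -/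
theorem tg_cross (hF : TgSpan F Γ) {g : ℂ} (hg : ‖g‖ < 1) {p p' x : V} (h : TgEx F Γ p p')
    (hr : F.Reachable x p) (y : V) :
    ‖tgQ F g x p * tgK F Γ g p p' * tgQ F g p' y‖ ≤ ‖tgm g‖ / (1 - ‖g‖) * ‖g‖ ^ Γ.dist x y := by
  classical
  have h0 : 0 < 1 - ‖g‖ := by linarith
  by_cases hy : F.Reachable p' y
  · have d1 : Γ.dist x p ≤ F.dist x p := hr.dist_anti hF.1
    have d2 : Γ.dist p' y ≤ F.dist p' y := hy.dist_anti hF.1
    have r1 : Γ.Reachable x p := hr.mono hF.1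
    have d3 : Γ.dist x y ≤ Γ.dist x p + Γ.dist p y := r1.dist_triangle_left y
    have d4 : Γ.dist p y ≤ Γ.dist p p' + Γ.dist p' y := h.1.reachable.dist_triangle_left y
    have d5 : Γ.dist p p' = 1 := SimpleGraph.dist_eq_one_iff_adj.mpr h.1
    have d6 : Γ.dist x y ≤ F.dist x p + F.dist p' y + 1 := by omega
    rw [norm_mul, norm_mul]
    have b1 := tg_Q_norm_le (F := F) g x p
    have b2 := tg_Q_norm_le (F := F) g p' y
    have b3 := tg_mK_norm_le (F := F) (Γ := Γ) hg p p'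
    have b4 : ‖g‖ ^ (F.dist x p + F.dist p' y + 1) ≤ ‖g‖ ^ Γ.dist x y :=
      pow_le_pow_of_le_one (norm_nonneg g) hg.le d6
    calc ‖tgQ F g x p‖ * ‖tgK F Γ g p p'‖ * ‖tgQ F g p' y‖
        ≤ (‖tgm g‖ * ‖g‖ ^ F.dist x p) * ‖tgK F Γ g p p'‖ * (‖tgm g‖ * ‖g‖ ^ F.dist p' y) := by
          gcongr
      _ = (‖tgm g‖ * ‖tgK F Γ g p p'‖) * (‖tgm g‖ * (‖g‖ ^ F.dist x p * ‖g‖ ^ F.dist p' y)) := by ring
      _ ≤ (‖g‖ / (1 - ‖g‖)) * (‖tgm g‖ * (‖g‖ ^ F.dist x p * ‖g‖ ^ F.dist p' y)) := by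
          gcongr
      _ = ‖tgm g‖ / (1 - ‖g‖) * ‖g‖ ^ (F.dist x p + F.dist p' y + 1) := by
          rw [pow_succ, pow_add]; ring
      _ ≤ ‖tgm g‖ / (1 - ‖g‖) * ‖g‖ ^ Γ.dist x y := by
          gcongr
  · rw [tgQ, tgQ, if_neg hy, mul_zero, norm_zero]
    positivity

/-- the constant of the decay bound -/
noncomputable def tgC (g : ℂ) : ℝ := ‖tgm g‖ * (1 + 2 / (1 - ‖g‖))

theorem tgC_nonneg {g : ℂ} (hg : ‖g‖ < 1) : 0 ≤ tgC g := by
  have h0 : 0 < 1 - ‖g‖ := by linarith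
  unfold tgC
  positivity

/-- **decay of the explicit inverse** -/
theorem tg_decay (hF : TgSpan F Γ) (hU : TgOne F Γ) {g : ℂ} (hg : ‖g‖ < 1) (x y : V) :
    ‖tgP F Γ g x y‖ ≤ tgC g * ‖g‖ ^ Γ.dist x y := by
  classical
  have h0 : 0 < 1 - ‖g‖ := by linarith
  have bQ : ‖tgQ F g x y‖ ≤ ‖tgm g‖ * ‖g‖ ^ Γ.dist x y := by
    by_cases hxy : F.Reachable x y
    · refine (tg_Q_norm_le g x y).trans ?_
      have : ‖g‖ ^ F.dist x y ≤ ‖g‖ ^ Γ.dist x y :=
        pow_le_pow_of_le_one (norm_nonneg g) hg.le (hxy.dist_anti hF.1)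
      gcongr
    · rw [tgQ, if_neg hxy, norm_zero]; positivity
  by_cases hex : ∃ s q, TgEx F Γ s q ∧ F.Reachable x s
  · obtain ⟨p, p', h, hr⟩ := hex
    rw [tg_P_row1 hU g h hr.symm y]
    have c1 := tg_cross hF hg h hr y
    have c2 := tg_cross hF hg h.symm (hr.trans (h.reach hF)) y
    rw [tg_K_symm g p' p] at c2
    calc _ ≤ ‖tgQ F g x y‖ + (‖tgQ F g x p * tgK F Γ g p p' * tgQ F g p' y‖
            + ‖tgQ F g x p' * tgK F Γ g p p' * tgQ F g p y‖) :=
          (norm_sub_le _ _).trans (add_le_add le_rfl (norm_add_le _ _))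
      _ ≤ ‖tgm g‖ * ‖g‖ ^ Γ.dist x y + (‖tgm g‖ / (1 - ‖g‖) * ‖g‖ ^ Γ.dist x y
            + ‖tgm g‖ / (1 - ‖g‖) * ‖g‖ ^ Γ.dist x y) := by gcongr
      _ = tgC g * ‖g‖ ^ Γ.dist x y := by unfold tgC; ring
  · have hex' : ∀ s q, TgEx F Γ s q → ¬ F.Reachable x s := fun s q h1 h2 => hex ⟨s, q, h1, h2⟩
    rw [tg_P_row0 g hex' y]
    refine bQ.trans ?_
    have : ‖tgm g‖ ≤ tgC g := by
      unfold tgC
      have : 0 ≤ 2 / (1 - ‖g‖) := by positivity
      nlinarith [norm_nonneg (tgm g)]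
    gcongr

/-- `P` vanishes between different components -/
theorem tg_P_zero (hF : TgSpan F Γ) (hU : TgOne F Γ) (g : ℂ) {x y : V} (hxy : ¬ Γ.Reachable x y) :
    tgP F Γ g x y = 0 := by
  classical
  have hxy' : ¬ F.Reachable x y := by rw [hF.2.2]; exact hxy
  have hQ : tgQ F g x y = 0 := by rw [tgQ, if_neg hxy']
  by_cases hex : ∃ s q, TgEx F Γ s q ∧ F.Reachable x s
  · obtain ⟨p, p', h, hr⟩ := hex
    have h1 : ¬ F.Reachable p' y := fun e => hxy' ((hr.trans (h.reach hF)).trans e)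
    have h2 : ¬ F.Reachable p y := fun e => hxy' (hr.trans e)
    rw [tg_P_row1 hU g h hr.symm y, hQ, tgQ, tgQ, tgQ, tgQ, if_neg h1, if_neg h2]
    ring
  · have hex' : ∀ s q, TgEx F Γ s q → ¬ F.Reachable x s := fun s q h1 h2 => hex ⟨s, q, h1, h2⟩
    rw [tg_P_row0 g hex' y, hQ]

end mat

/-! ### comparison of two graphs `Γ₀ ≤ Γ` -/

section cmp
variable {V : Type*} {F₀ F Γ₀ Γ : SimpleGraph V}

/-- distances in a forest do not change when the forest grows -/
theorem tg_dist_eq (hF : F.IsAcyclic) (hle : F₀ ≤ F) {a b : V} (h : F₀.Reachable a b) :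
    F.dist a b = F₀.dist a b := by
  obtain ⟨q₀, hq₀, l₀⟩ := h.exists_path_of_dist
  obtain ⟨q, hq, l⟩ := (h.mono hle).exists_path_of_dist
  have e := (hF.subsingleton_path a b).elim ⟨q₀.mapLe hle, hq₀.mapLe hle⟩ ⟨q, hq⟩
  have e' : q₀.mapLe hle = q := congrArg Subtype.val e
  rw [← l, ← l₀, ← e']
  simp

/-- extra edges of the small graph are extra edges of the large graph -/
theorem TgEx.mono (hF₀ : TgSpan F₀ Γ₀) (hF : F.IsAcyclic) (hle : Γ₀ ≤ Γ) (hFF : F₀ ≤ F) {u v : V}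
    (h : TgEx F₀ Γ₀ u v) : TgEx F Γ u v := by
  refine ⟨hle h.1, fun hadj => h.2 ?_⟩
  have h1 := tg_dist_eq hF hFF (h.reach hF₀)
  rw [SimpleGraph.dist_eq_one_iff_adj.mpr hadj] at h1
  exact SimpleGraph.dist_eq_one_iff_adj.mp h1.symm

theorem TgOne.mono (hF₀ : TgSpan F₀ Γ₀) (hF : F.IsAcyclic) (hle : Γ₀ ≤ Γ) (hFF : F₀ ≤ F)
    (hU : TgOne F Γ) : TgOne F₀ Γ₀ := fun u v u' v' h h' hr =>
  hU u v u' v' (h.mono hF₀ hF hle hFF) (h'.mono hF₀ hF hle hFF) (hr.mono hFF)

/-- `Γ₀` contains the ball of radius `R` of `Γ` around `x` -/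
def TgLoc (Γ₀ Γ : SimpleGraph V) (x : V) (R : ℕ) : Prop :=
  ∀ w w', Γ.Adj w w' → Γ.Reachable x w → Γ.dist x w < R → Γ₀.Adj w w'

theorem TgLoc.reach {x : V} {R : ℕ} (hloc : TgLoc Γ₀ Γ x R) :
    ∀ (k : ℕ) (w : V), Γ.Reachable x w → Γ.dist x w = k → k ≤ R → Γ₀.Reachable x w := by
  intro k
  induction k with
  | zero =>
    intro w hr hd _
    have : x = w := (hr.dist_eq_zero_iff).mp hd
    rw [this]
  | succ k ih =>
    intro w hr hd hk
    have hne : w ≠ x := by
      rintro rfl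
      rw [SimpleGraph.dist_self] at hd
      omega
    obtain ⟨w1, hw1, e1⟩ := tg_closer_exists hr.symm hne
    rw [SimpleGraph.dist_comm, SimpleGraph.dist_comm (u := w)] at e1
    have hr1 : Γ.Reachable x w1 := hr.trans hw1.reachable
    have h1 : Γ₀.Reachable x w1 := ih w1 hr1 (by omega) (by omega)
    exact h1.trans (hloc w1 w hw1.symm hr1 (by omega)).reachable

end cmp

section cons
variable {V : Type*} [Fintype V] [DecidableEq V] {F₀ F Γ₀ Γ : SimpleGraph V}

theorem tg_Q_eq (hF : F.IsAcyclic) (hle : F₀ ≤ F) (g : ℂ) {a b : V} (h : F₀.Reachable a b) :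
    tgQ F₀ g a b = tgQ F g a b := by
  rw [tgQ, tgQ, if_pos h, if_pos (h.mono hle), tg_dist_eq hF hle h]

theorem tg_K_eq (hF₀ : TgSpan F₀ Γ₀) (hF : F.IsAcyclic) (hle : Γ₀ ≤ Γ) (hFF : F₀ ≤ F) (g : ℂ) {u v : V}
    (h : TgEx F₀ Γ₀ u v) : tgK F₀ Γ₀ g u v = tgK F Γ g u v := by
  rw [tgK, tgK, if_pos h, if_pos (h.mono hF₀ hF hle hFF), tg_dist_eq hF hFF (h.reach hF₀)]

/-- **consistency**: the row `x` of the model depends on the ball of radius `R` only up to `C ‖g‖^R` -/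
theorem tg_cons (hF₀ : TgSpan F₀ Γ₀) (hF : TgSpan F Γ) (hle : Γ₀ ≤ Γ) (hFF : F₀ ≤ F) (hU : TgOne F Γ)
    {g : ℂ} (hg : ‖g‖ < 1) {x : V} {R : ℕ} (hloc : TgLoc Γ₀ Γ x R) (y : V) :
    ‖tgP F Γ g x y - tgP F₀ Γ₀ g x y‖ ≤ tgC g * ‖g‖ ^ R := by
  classical
  have h0 : 0 < 1 - ‖g‖ := by linarith
  have hU₀ : TgOne F₀ Γ₀ := hU.mono hF₀ hF.2.1 hle hFF
  have hC := tgC_nonneg hg
  -- far vertices
  have far : ∀ w, ¬ F₀.Reachable x w → F.Reachable x w → R ≤ F.dist x w := by
    intro w h1 h2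
    by_contra hcon
    rw [not_le] at hcon
    have h3 : Γ.dist x w ≤ F.dist x w := h2.dist_anti hF.1
    have h4 := hloc.reach _ w (h2.mono hF.1) rfl (by omega)
    rw [← hF₀.2.2] at h4
    exact h1 h4
  by_cases hxy : F₀.Reachable x y
  · by_cases hex : ∃ s q, TgEx F Γ s q ∧ F.Reachable x s
    · obtain ⟨p, p', h, hr⟩ := hex
      by_cases hin : TgEx F₀ Γ₀ p p' ∧ F₀.Reachable x p
      · -- the same extra edge: equality
        obtain ⟨h', hr'⟩ := hin
        have hp' : F₀.Reachable x p' := hr'.trans (h'.reach hF₀)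
        rw [tg_P_row1 hU g h hr.symm y, tg_P_row1 hU₀ g h' hr'.symm y, tg_Q_eq hF.2.1 hFF g hxy,
          tg_Q_eq hF.2.1 hFF g hr', tg_Q_eq hF.2.1 hFF g hp', tg_Q_eq hF.2.1 hFF g (hp'.symm.trans hxy),
          tg_Q_eq hF.2.1 hFF g (hr'.symm.trans hxy), tg_K_eq hF₀ hF.2.1 hle hFF g h', sub_self, norm_zero]
        positivity
      · -- no extra edge in the small component; the extra edge is far
        have hnone : ∀ s q, TgEx F₀ Γ₀ s q → ¬ F₀.Reachable x s := by
          intro s q hs hxs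
          rcases hU p p' s q h (hs.mono hF₀ hF.2.1 hle hFF) (hr.symm.trans (hxs.mono hFF)) with
            ⟨e1, e2⟩ | ⟨e1, e2⟩
          · subst e1; subst e2
            exact hin ⟨hs, hxs⟩
          · subst e1; subst e2
            exact hin ⟨hs.symm, hxs.trans (hs.reach hF₀)⟩
        have hrp' : F.Reachable x p' := hr.trans (h.reach hF)
        -- both end points are at distance at least `R`
        have hfar : R ≤ F.dist x p ∧ R ≤ F.dist x p' := by
          by_cases hadj : Γ₀.Adj p p'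
          · have hex0 : TgEx F₀ Γ₀ p p' := ⟨hadj, fun e => h.2 (hFF e)⟩
            have h1 : ¬ F₀.Reachable x p := fun e => hin ⟨hex0, e⟩
            have h2 : ¬ F₀.Reachable x p' := fun e => h1 (e.trans (hex0.reach hF₀).symm)
            exact ⟨far p h1 hr, far p' h2 hrp'⟩
          · constructor
            · by_contra hcon
              rw [not_le] at hcon
              have h3 : Γ.dist x p ≤ F.dist x p := hr.dist_anti hF.1
              exact hadj (hloc p p' h.1 (hr.mono hF.1) (by omega))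
            · by_contra hcon
              rw [not_le] at hcon
              have h3 : Γ.dist x p' ≤ F.dist x p' := hrp'.dist_anti hF.1
              exact hadj (hloc p' p h.1.symm (hrp'.mono hF.1) (by omega)).symm
        rw [tg_P_row1 hU g h hr.symm y, tg_P_row0 g hnone y, tg_Q_eq hF.2.1 hFF g hxy]
        have bnd : ∀ a a' : V, R ≤ F.dist x a →
            ‖tgQ F g x a * tgK F Γ g p p' * tgQ F g a' y‖ ≤ ‖tgm g‖ / (1 - ‖g‖) * ‖g‖ ^ R := by
          intro a a' ha
          rw [norm_mul, norm_mul]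
          have b1 := tg_Q_norm_le (F := F) g x a
          have b2 := tg_Q_norm_le' (F := F) hg a' y
          have b3 := tg_mK_norm_le (F := F) (Γ := Γ) hg p p'
          have b4 : ‖g‖ ^ F.dist x a ≤ ‖g‖ ^ R := pow_le_pow_of_le_one (norm_nonneg g) hg.le ha
          have b5 : ‖g‖ / (1 - ‖g‖) ≤ 1 / (1 - ‖g‖) := by gcongr
          calc ‖tgQ F g x a‖ * ‖tgK F Γ g p p'‖ * ‖tgQ F g a' y‖
              ≤ (‖tgm g‖ * ‖g‖ ^ F.dist x a) * ‖tgK F Γ g p p'‖ * ‖tgm g‖ := by gcongr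
            _ = (‖tgm g‖ * ‖tgK F Γ g p p'‖) * (‖tgm g‖ * ‖g‖ ^ F.dist x a) := by ring
            _ ≤ (1 / (1 - ‖g‖)) * (‖tgm g‖ * ‖g‖ ^ R) := by
                gcongr
                exact b3.trans b5
            _ = ‖tgm g‖ / (1 - ‖g‖) * ‖g‖ ^ R := by ring
        have c1 := bnd p p' hfar.1
        have c2 := bnd p' p hfar.2
        have e : tgQ F g x y - (tgQ F g x p * tgK F Γ g p p' * tgQ F g p' y
            + tgQ F g x p' * tgK F Γ g p p' * tgQ F g p y) - tgQ F g x y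
            = - (tgQ F g x p * tgK F Γ g p p' * tgQ F g p' y
            + tgQ F g x p' * tgK F Γ g p p' * tgQ F g p y) := by ring
        rw [e, norm_neg]
        calc _ ≤ ‖tgQ F g x p * tgK F Γ g p p' * tgQ F g p' y‖
              + ‖tgQ F g x p' * tgK F Γ g p p' * tgQ F g p y‖ := norm_add_le _ _
          _ ≤ ‖tgm g‖ / (1 - ‖g‖) * ‖g‖ ^ R + ‖tgm g‖ / (1 - ‖g‖) * ‖g‖ ^ R := add_le_add c1 c2
          _ ≤ tgC g * ‖g‖ ^ R := by
              unfold tgC
              have : 0 ≤ ‖tgm g‖ * ‖g‖ ^ R := by positivity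
              have e2 : ‖tgm g‖ * (1 + 2 / (1 - ‖g‖)) * ‖g‖ ^ R
                  = ‖tgm g‖ * ‖g‖ ^ R + (‖tgm g‖ / (1 - ‖g‖) * ‖g‖ ^ R + ‖tgm g‖ / (1 - ‖g‖) * ‖g‖ ^ R) := by
                ring
              rw [e2]; linarith
    · have hex' : ∀ s q, TgEx F Γ s q → ¬ F.Reachable x s := fun s q h1 h2 => hex ⟨s, q, h1, h2⟩
      have hex0 : ∀ s q, TgEx F₀ Γ₀ s q → ¬ F₀.Reachable x s := fun s q h1 h2 =>
        hex' s q (h1.mono hF₀ hF.2.1 hle hFF) (h2.mono hFF)
      rw [tg_P_row0 g hex' y, tg_P_row0 g hex0 y, tg_Q_eq hF.2.1 hFF g hxy, sub_self, norm_zero]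
      positivity
  · -- `y` is not reachable in the small graph
    have hxy' : ¬ Γ₀.Reachable x y := by rw [← hF₀.2.2]; exact hxy
    rw [tg_P_zero hF₀ hU₀ g hxy', sub_zero]
    by_cases hr : Γ.Reachable x y
    · refine (tg_decay hF hU hg x y).trans ?_
      have hR : R ≤ Γ.dist x y := by
        by_contra hcon
        rw [not_le] at hcon
        exact hxy' (hloc.reach _ y hr rfl (by omega))
      have : ‖g‖ ^ Γ.dist x y ≤ ‖g‖ ^ R := pow_le_pow_of_le_one (norm_nonneg g) hg.le hR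
      gcongr
    · rw [tg_P_zero hF hU g hr, norm_zero]
      positivity

end cons

/-! ### sparse graphs -/

section sparse
variable {V : Type*} [Fintype V] [DecidableEq V] {F Γ : SimpleGraph V}

open Classical in
/-- every set of vertices spans at most as many edges as it has vertices -/
def TgSparse (Γ : SimpleGraph V) : Prop :=
  ∀ W : Finset V, ∑ x ∈ W, (W.filter fun y => Γ.Adj x y).card ≤ 2 * W.card

open Classical in
theorem tg_card_pairs (Γ : SimpleGraph V) (W : Finset V) :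
    ((W ×ˢ W).filter fun e => Γ.Adj e.1 e.2).card = ∑ x ∈ W, (W.filter fun y => Γ.Adj x y).card := by
  rw [card_filter, sum_product]
  refine sum_congr rfl fun x _ => ?_
  rw [card_filter]

theorem TgSparse.mono {Γ₀ : SimpleGraph V} (hle : Γ₀ ≤ Γ) (h : TgSparse Γ) : TgSparse Γ₀ := by
  classical
  intro W
  refine le_trans (sum_le_sum fun x _ => card_le_card ?_) (h W)
  intro y hy
  rw [mem_filter] at hy ⊢
  exact ⟨hy.1, hle hy.2⟩

open Classical in
/-- **a sparse graph has at most one extra edge in each component of any spanning forest** -/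
theorem tg_one_of_sparse (hF : TgSpan F Γ) (hS : TgSparse Γ) : TgOne F Γ := by
  intro u v u' v' h h' hr
  by_contra hcon
  rw [not_or] at hcon
  obtain ⟨hc1, hc2⟩ := hcon
  set W : Finset V := univ.filter fun x => F.Reachable x u with hW
  have memW : ∀ x, x ∈ W ↔ F.Reachable x u := fun x => by simp [hW]
  have huW : u ∈ W := (memW u).mpr (SimpleGraph.Reachable.refl u)
  have hvW : v ∈ W := (memW v).mpr (h.reach hF).symm
  have hu'W : u' ∈ W := (memW u').mpr hr.symm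
  have hv'W : v' ∈ W := (memW v').mpr ((h'.reach hF).symm.trans hr.symm)
  -- the parent map
  have hpar : ∀ x, ∃ w, x ∈ W.erase u → F.Adj x w ∧ F.dist w u + 1 = F.dist x u := by
    intro x
    by_cases hx : x ∈ W.erase u
    · obtain ⟨w, h1, h2⟩ := tg_closer_exists ((memW x).mp (mem_erase.mp hx).2) (mem_erase.mp hx).1
      exact ⟨w, fun _ => ⟨h1, h2⟩⟩
    · exact ⟨x, fun h => absurd h hx⟩
  choose π hπ using hpar
  set A := (W ×ˢ W).filter fun e => Γ.Adj e.1 e.2 with hA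
  set A₁ := (W.erase u).image fun x => (x, π x) with hA₁
  set A₂ := (W.erase u).image fun x => (π x, x) with hA₂
  set A₃ : Finset (V × V) := {(u, v), (v, u), (u', v')} with hA₃
  have c1 : A₁.card = W.card - 1 := by
    rw [hA₁, card_image_of_injective _ (fun a b e => congrArg Prod.fst e), card_erase_of_mem huW]
  have c2 : A₂.card = W.card - 1 := by
    rw [hA₂, card_image_of_injective _ (fun a b e => congrArg Prod.snd e), card_erase_of_mem huW]
  have c3 : A₃.card = 3 := by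
    rw [hA₃, card_insert_of_notMem, card_insert_of_notMem, card_singleton]
    · rw [mem_singleton, Prod.mk.injEq]
      exact fun e => hc2 ⟨e.1.symm, e.2.symm⟩
    · rw [mem_insert, mem_singleton, Prod.mk.injEq, Prod.mk.injEq]
      rintro (e | e)
      · exact h.ne e.1
      · exact hc1 ⟨e.1.symm, e.2.symm⟩
  have adj1 : ∀ e ∈ A₁, F.Adj e.1 e.2 ∧ F.dist e.2 u + 1 = F.dist e.1 u ∧ e.1 ∈ W := by
    intro e he
    obtain ⟨x, hx, rfl⟩ := mem_image.mp he
    exact ⟨(hπ x hx).1, (hπ x hx).2, (mem_erase.mp hx).2⟩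
  have adj2 : ∀ e ∈ A₂, F.Adj e.1 e.2 ∧ F.dist e.1 u + 1 = F.dist e.2 u ∧ e.2 ∈ W := by
    intro e he
    obtain ⟨x, hx, rfl⟩ := mem_image.mp he
    exact ⟨(hπ x hx).1.symm, (hπ x hx).2, (mem_erase.mp hx).2⟩
  have nadj3 : ∀ e ∈ A₃, ¬ F.Adj e.1 e.2 ∧ Γ.Adj e.1 e.2 ∧ e.1 ∈ W ∧ e.2 ∈ W := by
    intro e he
    rw [hA₃, mem_insert, mem_insert, mem_singleton] at he
    rcases he with rfl | rfl | rfl
    · exact ⟨h.2, h.1, huW, hvW⟩
    · exact ⟨h.symm.2, h.symm.1, hvW, huW⟩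
    · exact ⟨h'.2, h'.1, hu'W, hv'W⟩
  have d12 : Disjoint A₁ A₂ := by
    rw [disjoint_left]
    intro e h1 h2
    have := (adj1 e h1).2.1
    have := (adj2 e h2).2.1
    omega
  have d123 : Disjoint (A₁ ∪ A₂) A₃ := by
    rw [disjoint_left]
    intro e h1 h2
    rcases mem_union.mp h1 with h1 | h1
    · exact (nadj3 e h2).1 (adj1 e h1).1
    · exact (nadj3 e h2).1 (adj2 e h1).1
  have hsub : (A₁ ∪ A₂) ∪ A₃ ⊆ A := by
    intro e he
    rw [hA, mem_filter, mem_product]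
    rcases mem_union.mp he with he | he
    · rcases mem_union.mp he with he | he
      · obtain ⟨a1, -, a3⟩ := adj1 e he
        exact ⟨⟨a3, (memW _).mpr (a1.symm.reachable.trans ((memW _).mp a3))⟩, hF.1 a1⟩
      · obtain ⟨a1, -, a3⟩ := adj2 e he
        exact ⟨⟨(memW _).mpr (a1.reachable.trans ((memW _).mp a3)), a3⟩, hF.1 a1⟩
    · obtain ⟨-, a2, a3, a4⟩ := nadj3 e he
      exact ⟨⟨a3, a4⟩, a2⟩
  have hcard := card_le_card hsub
  rw [card_union_of_disjoint d123, card_union_of_disjoint d12, c1, c2, c3, hA, tg_card_pairs] at hcard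
  have hWpos : 1 ≤ W.card := card_pos.mpr ⟨u, huW⟩
  have := hS W
  omega

end sparse

/-! ### the model `(tgM Γ)⁻¹` of a sparse graph: statements for the consumers -/

section model
variable {V : Type*} [Fintype V] [DecidableEq V] {F Γ₀ Γ : SimpleGraph V} {d : ℕ} {z g : ℂ}

theorem tg_inv_eq (hF : TgSpan F Γ) (hU : TgOne F Γ) (h : TgCav d z g) (hg : ‖g‖ < 1) :
    (tgM Γ d z g)⁻¹ = tgP F Γ g :=
  Matrix.inv_eq_right_inv (tg_uni hF hU h (tg_sq_ne_one' hg) (tg_pow_ne_one hg))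

theorem tg_exists_span (Γ : SimpleGraph V) : ∃ F, TgSpan F Γ := by
  obtain ⟨F, h1, h2, h3⟩ := Γ.exists_isAcyclic_reachable_eq_le
  exact ⟨F, h1, h2, h3⟩

/-- `M M⁻¹ = 1` -/
theorem tg_model_mul (hS : TgSparse Γ) (h : TgCav d z g) (hg : ‖g‖ < 1) :
    tgM Γ d z g * (tgM Γ d z g)⁻¹ = 1 := by
  obtain ⟨F, hF⟩ := tg_exists_span Γ
  have hU := tg_one_of_sparse hF hS
  rw [tg_inv_eq hF hU h hg]
  exact tg_uni hF hU h (tg_sq_ne_one' hg) (tg_pow_ne_one hg)

/-- `M⁻¹ M = 1` -/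
theorem tg_model_mul' (hS : TgSparse Γ) (h : TgCav d z g) (hg : ‖g‖ < 1) :
    (tgM Γ d z g)⁻¹ * tgM Γ d z g = 1 :=
  mul_eq_one_comm.mp (tg_model_mul hS h hg)

/-- **decay of the model** -/
theorem tg_model_decay (hS : TgSparse Γ) (h : TgCav d z g) (hg : ‖g‖ < 1) (x y : V) :
    ‖(tgM Γ d z g)⁻¹ x y‖ ≤ tgC g * ‖g‖ ^ Γ.dist x y := by
  obtain ⟨F, hF⟩ := tg_exists_span Γ
  have hU := tg_one_of_sparse hF hS
  rw [tg_inv_eq hF hU h hg]
  exact tg_decay hF hU hg x y

/-- the model vanishes between different components -/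
theorem tg_model_zero (hS : TgSparse Γ) (h : TgCav d z g) (hg : ‖g‖ < 1) {x y : V}
    (hxy : ¬ Γ.Reachable x y) : (tgM Γ d z g)⁻¹ x y = 0 := by
  obtain ⟨F, hF⟩ := tg_exists_span Γ
  have hU := tg_one_of_sparse hF hS
  rw [tg_inv_eq hF hU h hg]
  exact tg_P_zero hF hU g hxy

/-- **the model of a forest** -/
theorem tg_model_forest (hΓ : Γ.IsAcyclic) (h : TgCav d z g) (hg : ‖g‖ < 1) :
    (tgM Γ d z g)⁻¹ = tgQ Γ g :=
  Matrix.inv_eq_right_inv (tg_forest hΓ h (tg_sq_ne_one' hg))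

/-- **consistency of the models** of `Γ₀ ≤ Γ` when `Γ₀` contains the ball of radius `R` around `x` -/
theorem tg_model_cons (hS : TgSparse Γ) (hle : Γ₀ ≤ Γ) (h : TgCav d z g) (hg : ‖g‖ < 1) {x : V} {R : ℕ}
    (hloc : TgLoc Γ₀ Γ x R) (y : V) :
    ‖(tgM Γ d z g)⁻¹ x y - (tgM Γ₀ d z g)⁻¹ x y‖ ≤ tgC g * ‖g‖ ^ R := by
  obtain ⟨F₀, hF₀⟩ := tg_exists_span Γ₀
  obtain ⟨F, hFF, h1, h2, h3⟩ :=
    Γ.exists_isAcyclic_reachable_eq_le_of_le_of_isAcyclic (hF₀.1.trans hle) hF₀.2.1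
  have hF : TgSpan F Γ := ⟨h1, h2, h3⟩
  have hU := tg_one_of_sparse hF hS
  have hU₀ : TgOne F₀ Γ₀ := hU.mono hF₀ hF.2.1 hle hFF
  rw [tg_inv_eq hF hU h hg, tg_inv_eq hF₀ hU₀ h hg]
  exact tg_cons hF₀ hF hle hFF hU hg hloc y

/-- tree values: if the ball of radius `R` around `x` is a forest `Γ₀` -/
theorem tg_model_tree (hS : TgSparse Γ) (hle : Γ₀ ≤ Γ) (hΓ₀ : Γ₀.IsAcyclic) (h : TgCav d z g) (hg : ‖g‖ < 1)
    {x : V} {R : ℕ} (hloc : TgLoc Γ₀ Γ x R) (y : V) :
    ‖(tgM Γ d z g)⁻¹ x y - tgQ Γ₀ g x y‖ ≤ tgC g * ‖g‖ ^ R := by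
  have := tg_model_cons hS hle h hg hloc y
  rwa [tg_model_forest hΓ₀ h hg] at this

end model

/-! ### induced graphs: the matrix which is the identity outside `B` -/

section induced
variable {V : Type*} [Fintype V] [DecidableEq V]

/-- the edges of `H` inside `B` -/
def tgIn (H : SimpleGraph V) (B : Finset V) : SimpleGraph V where
  Adj x y := H.Adj x y ∧ x ∈ B ∧ y ∈ B
  symm := ⟨fun _ _ h => ⟨h.1.symm, h.2.2, h.2.1⟩⟩
  loopless := ⟨fun x h => H.loopless.irrefl x h.1⟩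

theorem tgIn_le (H : SimpleGraph V) (B : Finset V) : tgIn H B ≤ H := fun _ _ h => h.1

theorem tgIn_mono (H : SimpleGraph V) {B B' : Finset V} (h : B ⊆ B') : tgIn H B ≤ tgIn H B' :=
  fun _ _ e => ⟨e.1, h e.2.1, h e.2.2⟩

open Classical in
/-- `A_B - z - g (d - deg_B)` on `B`, identity outside -/
noncomputable def tgMod (d : ℕ) (H : SimpleGraph V) (z g : ℂ) (B : Finset V) : Matrix V V ℂ := fun x y =>
  if x ∈ B ∧ y ∈ B then
    (if H.Adj x y then 1 else 0) - (if x = y then z + g * ((d : ℂ) - (B.filter fun w => H.Adj x w).card) else 0)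
  else if x = y then 1 else 0

open Classical in
theorem tgIn_deg (H : SimpleGraph V) (B : Finset V) {x : V} (hx : x ∈ B) :
    tgDeg (tgIn H B) x = (B.filter fun w => H.Adj x w).card := by
  unfold tgDeg
  congr 1
  ext w
  rw [mem_filter, mem_filter]
  constructor
  · rintro ⟨-, h1, -, h3⟩; exact ⟨h3, h1⟩
  · rintro ⟨h1, h2⟩; exact ⟨mem_univ w, h2, hx, h1⟩

open Classical in
theorem tgMod_row (d : ℕ) (H : SimpleGraph V) (z g : ℂ) (B : Finset V) {x : V} (hx : x ∈ B) (w : V) :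
    tgMod d H z g B x w = tgM (tgIn H B) d z g x w := by
  unfold tgMod tgM
  rw [tgIn_deg H B hx]
  by_cases hw : w ∈ B
  · have e : (tgIn H B).Adj x w ↔ H.Adj x w := ⟨fun h => h.1, fun h => ⟨h, hx, hw⟩⟩
    simp only [hx, hw, and_self, if_true, e]
  · have e : ¬ (tgIn H B).Adj x w := fun h => hw h.2.2
    have hne : x ≠ w := fun e => hw (e ▸ hx)
    simp [hw, e, hne]

open Classical in
/-- inverse of `tgMod` from an inverse of `tgM (tgIn H B)` -/
theorem tgMod_mul (d : ℕ) (H : SimpleGraph V) (z g : ℂ) (B : Finset V) {P : Matrix V V ℂ}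
    (hP : tgM (tgIn H B) d z g * P = 1) :
    tgMod d H z g B * (Matrix.of fun x y => if x ∈ B ∧ y ∈ B then P x y else if x = y then 1 else 0) = 1 := by
  ext x y
  rw [Matrix.mul_apply]
  by_cases hx : x ∈ B
  · simp only [tgMod_row d H z g B hx]
    by_cases hy : y ∈ B
    · have e := congrFun (congrFun hP x) y
      rw [Matrix.mul_apply] at e
      rw [← e]
      refine sum_congr rfl fun w _ => ?_
      by_cases hw : w ∈ B
      · simp [hw, hy]
      · have h1 : tgM (tgIn H B) d z g x w = 0 := by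
          have e : ¬ (tgIn H B).Adj x w := fun h => hw h.2.2
          have hne : x ≠ w := fun e => hw (e ▸ hx)
          simp [tgM, e, hne]
        rw [h1, zero_mul, zero_mul]
    · have hne : x ≠ y := fun e => hy (e ▸ hx)
      rw [Matrix.one_apply_ne hne]
      refine sum_eq_zero fun w _ => ?_
      by_cases hw : w = y
      · subst hw
        have h1 : tgM (tgIn H B) d z g x w = 0 := by
          have e : ¬ (tgIn H B).Adj x w := fun h => hy h.2.2
          simp [tgM, e, hne]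
        rw [h1, zero_mul]
      · simp [hy, hw]
  · have e1 : ∀ w, tgMod d H z g B x w = if x = w then 1 else 0 := by
      intro w
      simp [tgMod, hx]
    simp only [e1, ite_mul, one_mul, zero_mul, sum_ite_eq, mem_univ, if_true]
    simp [hx, Matrix.one_apply]

open Classical in
/-- sparseness of `H` on the subsets of `B` -/
theorem tgIn_sparse (H : SimpleGraph V) (B : Finset V)
    (h : ∀ W ⊆ B, ∑ x ∈ W, (W.filter fun y => H.Adj x y).card ≤ 2 * W.card) : TgSparse (tgIn H B) := by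
  intro W
  have h1 := h (W ∩ B) inter_subset_right
  have h2 : (W ∩ B).card ≤ W.card := card_le_card inter_subset_left
  have h3 : ∑ x ∈ W, (W.filter fun y => (tgIn H B).Adj x y).card
      = ∑ x ∈ W ∩ B, ((W ∩ B).filter fun y => H.Adj x y).card := by
    rw [← sum_subset (inter_subset_left (s₁ := W) (s₂ := B))]
    · refine sum_congr rfl fun x hx => ?_
      congr 1
      ext y
      rw [mem_filter, mem_filter, mem_inter]
      have hxB := (mem_inter.mp hx).2
      constructor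
      · rintro ⟨h1, h2, -, h4⟩; exact ⟨⟨h1, h4⟩, h2⟩
      · rintro ⟨⟨h1, h4⟩, h2⟩; exact ⟨h1, h2, hxB, h4⟩
    · intro x _ hx2
      rw [card_eq_zero, filter_eq_empty_iff]
      intro y _ hadj
      apply hx2
      rw [mem_inter]
      exact ⟨by assumption, hadj.2.1⟩
  omega

variable {H : SimpleGraph V} {B₀ B : Finset V} {d : ℕ} {z g : ℂ}

/-- the inverse of `tgMod` on `B × B` -/
theorem tgMod_inv (hS : TgSparse (tgIn H B)) (h : TgCav d z g) (hg : ‖g‖ < 1) {x y : V} (hx : x ∈ B)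
    (hy : y ∈ B) : (tgMod d H z g B)⁻¹ x y = (tgM (tgIn H B) d z g)⁻¹ x y := by
  classical
  rw [Matrix.inv_eq_right_inv (tgMod_mul d H z g B (tg_model_mul hS h hg))]
  simp [hx, hy]

/-- the inverse of `tgMod` outside `B × B` -/
theorem tgMod_inv' (hS : TgSparse (tgIn H B)) (h : TgCav d z g) (hg : ‖g‖ < 1) {x y : V}
    (hxy : ¬ (x ∈ B ∧ y ∈ B)) : (tgMod d H z g B)⁻¹ x y = if x = y then 1 else 0 := by
  classical
  rw [Matrix.inv_eq_right_inv (tgMod_mul d H z g B (tg_model_mul hS h hg))]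
  simp [hxy]

theorem tgMod_mul_inv (hS : TgSparse (tgIn H B)) (h : TgCav d z g) (hg : ‖g‖ < 1) :
    tgMod d H z g B * (tgMod d H z g B)⁻¹ = 1 := by
  classical
  rw [Matrix.inv_eq_right_inv (tgMod_mul d H z g B (tg_model_mul hS h hg))]
  exact tgMod_mul d H z g B (tg_model_mul hS h hg)

/-- **decay** in the distance of the large graph -/
theorem tgMod_decay (hS : TgSparse (tgIn H B)) (h : TgCav d z g) (hg : ‖g‖ < 1) {x y : V} (hx : x ∈ B)
    (hy : y ∈ B) : ‖(tgMod d H z g B)⁻¹ x y‖ ≤ tgC g * ‖g‖ ^ H.dist x y := by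
  rw [tgMod_inv hS h hg hx hy]
  have hC := tgC_nonneg hg
  by_cases hr : (tgIn H B).Reachable x y
  · refine (tg_model_decay hS h hg x y).trans ?_
    have : ‖g‖ ^ (tgIn H B).dist x y ≤ ‖g‖ ^ H.dist x y :=
      pow_le_pow_of_le_one (norm_nonneg g) hg.le (hr.dist_anti (tgIn_le H B))
    gcongr
  · rw [tg_model_zero hS h hg hr, norm_zero]
    positivity

/-- locality from balls -/
theorem tgIn_loc {x : V} {R : ℕ} (hB : ∀ w ∈ B, H.edist x w ≤ R → w ∈ B₀) :
    TgLoc (tgIn H B₀) (tgIn H B) x R := by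
  intro w w' hadj hr hd
  have hrH : H.Reachable x w := hr.mono (tgIn_le H B)
  have h1 : H.dist x w ≤ (tgIn H B).dist x w := hr.dist_anti (tgIn_le H B)
  have h2 : H.edist x w ≤ R := by
    rw [← hrH.coe_dist_eq_edist]
    exact_mod_cast (by omega : H.dist x w ≤ R)
  have hrH' : H.Reachable x w' := hrH.trans hadj.1.reachable
  have h3 : H.dist x w' ≤ H.dist x w + H.dist w w' := hrH.dist_triangle_left w'
  have h4 : H.dist w w' = 1 := SimpleGraph.dist_eq_one_iff_adj.mpr hadj.1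
  have h5 : H.edist x w' ≤ R := by
    rw [← hrH'.coe_dist_eq_edist]
    exact_mod_cast (by omega : H.dist x w' ≤ R)
  exact ⟨hadj.1, hB w hadj.2.1 h2, hB w' hadj.2.2 h5⟩

/-- **consistency** of the models of `B₀ ⊆ B` when `B₀` contains the ball of radius `R` around `x` in `B` -/
theorem tgMod_cons (hS : TgSparse (tgIn H B)) (hsub : B₀ ⊆ B) (h : TgCav d z g) (hg : ‖g‖ < 1) {x y : V}
    {R : ℕ} (hB : ∀ w ∈ B, H.edist x w ≤ R → w ∈ B₀) (hx : x ∈ B₀) (hy : y ∈ B₀) :
    ‖(tgMod d H z g B)⁻¹ x y - (tgMod d H z g B₀)⁻¹ x y‖ ≤ tgC g * ‖g‖ ^ R := by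
  rw [tgMod_inv hS h hg (hsub hx) (hsub hy), tgMod_inv (hS.mono (tgIn_mono H hsub)) h hg hx hy]
  exact tg_model_cons hS (tgIn_mono H hsub) h hg (tgIn_loc hB) y

end induced

/-! ### bridges: counting forms, `deleteEdges` form -/

section bridge
variable {V : Type*} [Fintype V] [DecidableEq V]

/-- the vertices reachable from `W` inside `tgIn Φ W` stay in `W` -/
theorem tgIn_reach_mem {Φ : SimpleGraph V} {W : Finset V} {a b : V} (h : (tgIn Φ W).Reachable a b)
    (ha : a ∈ W) : b ∈ W := by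
  obtain ⟨p⟩ := h
  induction p with
  | nil => exact ha
  | cons hadj _ ih => exact ih hadj.2.2

open Classical in
/-- **a forest spans at most `|W| - 1` edges on every nonempty set `W`** -/
theorem tg_forest_count {Φ : SimpleGraph V} (hΦ : Φ.IsAcyclic) {W : Finset V} (hW : W.Nonempty) :
    ∑ x ∈ W, (W.filter fun y => Φ.Adj x y).card + 2 ≤ 2 * W.card := by
  set Ψ := tgIn Φ W with hΨdef
  have hΨ : Ψ.IsAcyclic := hΦ.anti (tgIn_le Φ W)
  -- roots
  let r : V → V := fun x => (Ψ.connectedComponentMk x).out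
  have hr : ∀ x, Ψ.Reachable x (r x) := by
    intro x
    have : Ψ.connectedComponentMk (r x) = Ψ.connectedComponentMk x := Quot.out_eq _
    exact (SimpleGraph.ConnectedComponent.exact this).symm
  have hrr : ∀ x y, Ψ.Reachable x y → r x = r y := by
    intro x y h
    have : Ψ.connectedComponentMk x = Ψ.connectedComponentMk y := SimpleGraph.ConnectedComponent.sound h
    simp only [r, this]
  obtain ⟨w₀, hw₀⟩ := hW
  set r₀ := r w₀ with hr₀
  have hr₀W : r₀ ∈ W := tgIn_reach_mem (hr w₀) hw₀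
  have hr₀r : r r₀ = r₀ := (hrr w₀ r₀ (hr w₀)).symm
  have key : ∀ S : Finset (V × V),
      (∀ e ∈ S, Ψ.Adj e.1 e.2 ∧ Ψ.dist e.2 (r e.1) + 1 = Ψ.dist e.1 (r e.1)) → S.card ≤ W.card - 1 := by
    intro S hS
    rw [← card_erase_of_mem hr₀W]
    refine card_le_card_of_injOn Prod.fst ?_ ?_
    · intro e he
      obtain ⟨h1, h2⟩ := hS e he
      rw [mem_coe, mem_erase]
      refine ⟨?_, h1.2.1⟩
      intro e1
      rw [e1, hr₀r, SimpleGraph.dist_self] at h2
      omega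
    · intro e he e' he' hee
      obtain ⟨h1, h2⟩ := hS e he
      obtain ⟨h1', h2'⟩ := hS e' he'
      have hee' : e.1 = e'.1 := hee
      rw [← hee'] at h1' h2'
      exact Prod.ext hee' (tg_closer_unique hΨ h1 h1' (hr e.1) h2 h2')
  set A := (W ×ˢ W).filter fun e => Φ.Adj e.1 e.2 with hA
  set A₁ := A.filter fun e => Ψ.dist e.2 (r e.1) + 1 = Ψ.dist e.1 (r e.1) with hA₁
  set A₂ := A.filter fun e => ¬ (Ψ.dist e.2 (r e.1) + 1 = Ψ.dist e.1 (r e.1)) with hA₂
  have hadj : ∀ e ∈ A, Ψ.Adj e.1 e.2 := by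
    intro e he
    rw [hA, mem_filter, mem_product] at he
    exact ⟨he.2, he.1.1, he.1.2⟩
  have c1 : A₁.card ≤ W.card - 1 := by
    refine key A₁ fun e he => ?_
    rw [hA₁, mem_filter] at he
    exact ⟨hadj e he.1, he.2⟩
  have c2 : A₂.card ≤ W.card - 1 := by
    have : A₂.card = (A₂.image Prod.swap).card :=
      (card_image_of_injective _ Prod.swap_injective).symm
    rw [this]
    refine key _ fun e he => ?_
    obtain ⟨e', he', rfl⟩ := mem_image.mp he
    rw [hA₂, mem_filter] at he'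
    have h1 := hadj e' he'.1
    refine ⟨h1.symm, ?_⟩
    simp only [Prod.fst_swap, Prod.snd_swap]
    have h2 := tg_farther hΨ h1 (hr e'.1) he'.2
    rw [← hrr e'.1 e'.2 h1.reachable]
    omega
  have hsplit : A.card = A₁.card + A₂.card := by
    rw [hA₁, hA₂, card_filter_add_card_filter_not]
  rw [← tg_card_pairs, ← hA, hsplit]
  have hWpos : 1 ≤ W.card := card_pos.mpr ⟨w₀, hw₀⟩
  omega

open Classical in
/-- a forest plus one edge is sparse -/
theorem tg_sparse_of_forest_add {Φ Γ : SimpleGraph V} (hΦ : Φ.IsAcyclic) {u v : V}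
    (hrel : ∀ a b, Γ.Adj a b → Φ.Adj a b ∨ (a = u ∧ b = v) ∨ (a = v ∧ b = u)) : TgSparse Γ := by
  intro W
  rcases W.eq_empty_or_nonempty with rfl | hW
  · simp
  have h1 := tg_forest_count hΦ hW
  rw [← tg_card_pairs] at h1 ⊢
  have hsub : ((W ×ˢ W).filter fun e => Γ.Adj e.1 e.2)
      ⊆ ((W ×ˢ W).filter fun e => Φ.Adj e.1 e.2) ∪ {(u, v), (v, u)} := by
    intro e he
    rw [mem_filter] at he
    rw [mem_union, mem_filter, mem_insert, mem_singleton]
    rcases hrel _ _ he.2 with h | ⟨a, b⟩ | ⟨a, b⟩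
    · exact Or.inl ⟨he.1, h⟩
    · exact Or.inr (Or.inl (Prod.ext a b))
    · exact Or.inr (Or.inr (Prod.ext a b))
  have h2 := (card_le_card hsub).trans (card_union_le _ _)
  have h3 : ({(u, v), (v, u)} : Finset (V × V)).card ≤ 2 := card_le_two
  omega

/-- one edge can be deleted so that a forest remains `⇒` sparse -/
theorem tg_sparse_of_uni {Γ : SimpleGraph V} {u v : V} (h : (Γ.deleteEdges {s(u, v)}).IsAcyclic) :
    TgSparse Γ := by
  refine tg_sparse_of_forest_add h (u := u) (v := v) fun a b hab => ?_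
  by_cases hs : s(a, b) = s(u, v)
  · right
    rwa [Sym2.eq_iff] at hs
  · left
    rw [SimpleGraph.deleteEdges_adj]
    exact ⟨hab, fun hm => hs (Set.mem_singleton_iff.mp hm)⟩

/-- sparse and connected (apart from isolated vertices) `⇒` one edge can be deleted so that a forest remains -/
theorem tg_uni_of_sparse {Γ : SimpleGraph V} (hS : TgSparse Γ)
    (hconn : ∀ a b a' b', Γ.Adj a b → Γ.Adj a' b' → Γ.Reachable a a') (x₀ : V) :
    ∃ u v : V, (Γ.deleteEdges {s(u, v)}).IsAcyclic := by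
  obtain ⟨F, hF⟩ := tg_exists_span Γ
  have hU := tg_one_of_sparse hF hS
  by_cases hex : ∃ u v, TgEx F Γ u v
  · obtain ⟨u, v, h⟩ := hex
    refine ⟨u, v, hF.2.1.anti ?_⟩
    intro a b hab
    rw [SimpleGraph.deleteEdges_adj] at hab
    by_contra hcon
    have h' : TgEx F Γ a b := ⟨hab.1, hcon⟩
    have hr : F.Reachable u a := by rw [hF.2.2]; exact hconn u v a b h.1 hab.1
    apply hab.2
    rw [Set.mem_singleton_iff, Sym2.eq_iff]
    exact hU u v a b h h' hr
  · refine ⟨x₀, x₀, hF.2.1.anti ?_⟩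
    intro a b hab
    rw [SimpleGraph.deleteEdges_adj] at hab
    by_contra hcon
    exact hex ⟨a, b, hab.1, hcon⟩

open Classical in
/-- a connected set with fewer than `|W|` edges spans a tree -/
theorem tg_acyclic_of_count {Γ : SimpleGraph V} {W : Finset V} {u : V} (hu : u ∈ W)
    (hconn : ∀ w ∈ W, Γ.Reachable w u) (hin : ∀ a b, Γ.Adj a b → a ∈ W ∧ b ∈ W)
    (hc : ∑ x ∈ W, (W.filter fun y => Γ.Adj x y).card < 2 * W.card) : Γ.IsAcyclic := by
  obtain ⟨F, hF⟩ := tg_exists_span Γ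
  suffices h : Γ ≤ F from hF.2.1.anti h
  intro a b hab
  by_contra hcon
  -- the parent map
  have hpar : ∀ x, ∃ w, x ∈ W.erase u → F.Adj x w ∧ F.dist w u + 1 = F.dist x u := by
    intro x
    by_cases hx : x ∈ W.erase u
    · have hxr : F.Reachable x u := by rw [hF.2.2]; exact hconn x (mem_erase.mp hx).2
      obtain ⟨w, h1, h2⟩ := tg_closer_exists hxr (mem_erase.mp hx).1
      exact ⟨w, fun _ => ⟨h1, h2⟩⟩
    · exact ⟨x, fun h => absurd h hx⟩
  choose π hπ using hpar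
  set A := (W ×ˢ W).filter fun e => Γ.Adj e.1 e.2 with hA
  set A₁ := (W.erase u).image fun x => (x, π x) with hA₁
  set A₂ := (W.erase u).image fun x => (π x, x) with hA₂
  set A₃ : Finset (V × V) := {(a, b), (b, a)} with hA₃
  have c1 : A₁.card = W.card - 1 := by
    rw [hA₁, card_image_of_injective _ (fun a b e => congrArg Prod.fst e), card_erase_of_mem hu]
  have c2 : A₂.card = W.card - 1 := by
    rw [hA₂, card_image_of_injective _ (fun a b e => congrArg Prod.snd e), card_erase_of_mem hu]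
  have c3 : A₃.card = 2 := by
    rw [hA₃, card_insert_of_notMem, card_singleton]
    rw [mem_singleton, Prod.mk.injEq]
    exact fun e => hab.ne e.1
  have adj1 : ∀ e ∈ A₁, F.Adj e.1 e.2 ∧ F.dist e.2 u + 1 = F.dist e.1 u := by
    intro e he
    obtain ⟨x, hx, rfl⟩ := mem_image.mp he
    exact hπ x hx
  have adj2 : ∀ e ∈ A₂, F.Adj e.1 e.2 ∧ F.dist e.1 u + 1 = F.dist e.2 u := by
    intro e he
    obtain ⟨x, hx, rfl⟩ := mem_image.mp he
    exact ⟨(hπ x hx).1.symm, (hπ x hx).2⟩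
  have nadj3 : ∀ e ∈ A₃, ¬ F.Adj e.1 e.2 ∧ Γ.Adj e.1 e.2 := by
    intro e he
    rw [hA₃, mem_insert, mem_singleton] at he
    rcases he with rfl | rfl
    · exact ⟨hcon, hab⟩
    · exact ⟨fun e => hcon e.symm, hab.symm⟩
  have d12 : Disjoint A₁ A₂ := by
    rw [disjoint_left]
    intro e h1 h2
    have := (adj1 e h1).2
    have := (adj2 e h2).2
    omega
  have d123 : Disjoint (A₁ ∪ A₂) A₃ := by
    rw [disjoint_left]
    intro e h1 h2
    rcases mem_union.mp h1 with h1 | h1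
    · exact (nadj3 e h2).1 (adj1 e h1).1
    · exact (nadj3 e h2).1 (adj2 e h1).1
  have hsub : (A₁ ∪ A₂) ∪ A₃ ⊆ A := by
    intro e he
    have hΓ : Γ.Adj e.1 e.2 := by
      rcases mem_union.mp he with he | he
      · rcases mem_union.mp he with he | he
        · exact hF.1 (adj1 e he).1
        · exact hF.1 (adj2 e he).1
      · exact (nadj3 e he).2
    rw [hA, mem_filter, mem_product]
    exact ⟨hin _ _ hΓ, hΓ⟩
  have hcard := card_le_card hsub
  rw [card_union_of_disjoint d123, card_union_of_disjoint d12, c1, c2, c3, hA, tg_card_pairs] at hcard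
  have hWpos : 1 ≤ W.card := card_pos.mpr ⟨u, hu⟩
  omega

open Classical in
/-- two sparse pieces which are disjoint and not adjacent -/
theorem tg_sparse_union (H : SimpleGraph V) {B₁ B₂ : Finset V} (hdis : Disjoint B₁ B₂)
    (hno : ∀ a ∈ B₁, ∀ b ∈ B₂, ¬ H.Adj a b) (h1 : TgSparse (tgIn H B₁)) (h2 : TgSparse (tgIn H B₂)) :
    TgSparse (tgIn H (B₁ ∪ B₂)) := by
  intro W
  have e1 := h1 (W ∩ B₁)
  have e2 := h2 (W ∩ B₂)
  rw [← tg_card_pairs] at e1 e2 ⊢
  have hsub : ((W ×ˢ W).filter fun e => (tgIn H (B₁ ∪ B₂)).Adj e.1 e.2)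
      ⊆ (((W ∩ B₁) ×ˢ (W ∩ B₁)).filter fun e => (tgIn H B₁).Adj e.1 e.2)
        ∪ (((W ∩ B₂) ×ˢ (W ∩ B₂)).filter fun e => (tgIn H B₂).Adj e.1 e.2) := by
    intro e he
    rw [mem_filter, mem_product] at he
    obtain ⟨⟨w1, w2⟩, hadj, b1, b2⟩ := he
    rw [mem_union, mem_filter, mem_filter, mem_product, mem_product, mem_inter, mem_inter, mem_inter,
      mem_inter]
    rcases mem_union.mp b1 with b1 | b1 <;> rcases mem_union.mp b2 with b2 | b2
    · exact Or.inl ⟨⟨⟨w1, b1⟩, ⟨w2, b2⟩⟩, hadj, b1, b2⟩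
    · exact absurd hadj (hno _ b1 _ b2)
    · exact absurd hadj.symm (hno _ b2 _ b1)
    · exact Or.inr ⟨⟨⟨w1, b1⟩, ⟨w2, b2⟩⟩, hadj, b1, b2⟩
  have h3 := (card_le_card hsub).trans (card_union_le _ _)
  have h4 : (W ∩ B₁).card + (W ∩ B₂).card ≤ W.card := by
    rw [← card_union_of_disjoint]
    · exact card_le_card (union_subset inter_subset_left inter_subset_left)
    · exact hdis.mono inter_subset_right inter_subset_right
  omega

/-- a ball is connected in itself -/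
theorem tgIn_ball_reach (H : SimpleGraph V) {x : V} {R : ℕ} {B : Finset V}
    (hB : ∀ w, H.edist x w ≤ R → w ∈ B) {w : V} (hw : H.edist x w ≤ R) : (tgIn H B).Reachable x w := by
  have hloc : TgLoc (tgIn H B) H x R := by
    intro a a' hadj hr hd
    have h2 : H.edist x a ≤ R := by
      rw [← hr.coe_dist_eq_edist]
      exact_mod_cast (by omega : H.dist x a ≤ R)
    have hr' : H.Reachable x a' := hr.trans hadj.reachable
    have h3 : H.dist x a' ≤ H.dist x a + H.dist a a' := hr.dist_triangle_left a'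
    have h4 : H.dist a a' = 1 := SimpleGraph.dist_eq_one_iff_adj.mpr hadj
    have h5 : H.edist x a' ≤ R := by
      rw [← hr'.coe_dist_eq_edist]
      exact_mod_cast (by omega : H.dist x a' ≤ R)
    exact ⟨hadj, hB a h2, hB a' h5⟩
  have hr : H.Reachable x w := by
    apply SimpleGraph.reachable_of_edist_ne_top
    intro e
    rw [e] at hw
    exact absurd hw (by simp)
  have hd : H.dist x w ≤ R := by
    rw [← hr.coe_dist_eq_edist] at hw
    exact_mod_cast hw
  exact hloc.reach _ w hr rfl hd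

/-- universal bounds for `d ≥ 3` -/
theorem tg_bounds {d : ℕ} {z g : ℂ} (h : TgCav d z g) (hd : 3 ≤ d) (hz : 0 < z.im) (hg : 0 < g.im) :
    ‖g‖ ≤ 3 / 4 ∧ ‖tgm g‖ ≤ 3 / 2 ∧ tgC g ≤ 27 / 2 := by
  have hb : (2 : ℝ) ≤ (d : ℝ) - 1 := by
    have : (3 : ℝ) ≤ d := by exact_mod_cast hd
    linarith
  have h1 := tg_normSq_lt h hz hg
  have hN : 0 ≤ Complex.normSq g := Complex.normSq_nonneg g
  have h2 : ‖g‖ ^ 2 < 1 / 2 := by
    rw [← Complex.normSq_eq_norm_sq]
    nlinarith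
  have h3 : ‖g‖ ≤ 3 / 4 := by nlinarith [norm_nonneg g]
  have h4 : 1 / 2 ≤ ‖1 - g ^ 2‖ := by
    have := norm_sub_norm_le (1 : ℂ) (g ^ 2)
    rw [norm_one, norm_pow] at this
    linarith
  have h5 : ‖tgm g‖ ≤ 3 / 2 := by
    rw [tgm, norm_div, div_le_iff₀ (by linarith)]
    nlinarith
  refine ⟨h3, h5, ?_⟩
  unfold tgC
  have h6 : 2 / (1 - ‖g‖) ≤ 8 := by
    rw [div_le_iff₀ (by linarith)]
    linarith
  have h7 : 0 ≤ 2 / (1 - ‖g‖) := by
    apply div_nonneg (by norm_num); linarith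
  nlinarith [norm_nonneg (tgm g)]

end bridge
theorem tg_eqns_cite2 : True := by
  have := @TgSpan.eq_1.{0}
  have := @TgEx.eq_1.{0}
  have := @TgOne.eq_1.{0}
  have := @tgK.eq_1.{0}
  have := @tgP.eq_1.{0}
  have := @tgDl.eq_1.{0}
  have := @tgC.eq_1
  have := @TgLoc.eq_1.{0}
  have := @TgSparse.eq_1.{0}
  have := @tgIn.eq_1.{0}
  have := @tgMod.eq_1.{0}
  trivial

end Claimed.Agent.R287
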