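/-
Row 287 (S0534), unit B1, BOX[TREE], part 3: the kit TREE (`Tree270`, `Uni270`) in the vocabulary of `DefsB1`.      helper270.
prefix `tgr_`.
* `tgr_cav`, `tgr_im_pos`, `tgr_norm_lt_one`, `tgr_bounds`: the explicit branch `rgg` solves the cavity equation, universal bounds;
* `tgr_uni_of_count`, `tgr_tl_of_count`: counting forms (exports of L0) `⇒` `RgUni`, `RgTl`;
* `tgr_sparse_ball`, `tgr_sparse_pair`: `RgStruct` `⇒` `TgSparse` of the balls of one and of two points;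
* `tgr_PB_*`, `tgr_Pm_*`: inverse, decay, consistency, tree values of the model.
-/
import Claimed.Agent.R287.DefsB1
import Claimed.Agent.R287.Uni270

set_option autoImplicit false

namespace Claimed.Agent.R287

open Finset

/-! ### 1. dictionary -/

theorem tgr_g_eq (d : ℕ) (z : ℂ) : rgg d z = tgg d z := rfl

theorem tgr_m_eq (d : ℕ) (z : ℂ) : rgm d z = tgm (rgg d z) := rfl

theorem tgr_res_eq {n : ℕ} (H : Gr n) (B : Finset (Fin n)) : rgRes H B = tgIn H B := rfl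

theorem tgr_mod_eq {n : ℕ} (d : ℕ) (Γ : Gr n) (z : ℂ) : rgMod d Γ z = tgM Γ d z (rgg d z) := rfl

theorem tgr_PB_eq {n : ℕ} (d : ℕ) (Γ : Gr n) (z : ℂ) : rgPB d Γ z = (tgM Γ d z (rgg d z))⁻¹ := rfl

theorem tgr_cav {d : ℕ} (hd : 2 ≤ d) (z : ℂ) : TgCav d z (rgg d z) := tg_root_cav hd z

theorem tgr_im_pos {d : ℕ} (hd : 2 ≤ d) {z : ℂ} (hz : 0 < z.im) : 0 < (rgg d z).im := tg_root_im hd hz

theorem tgr_norm_lt_one {d : ℕ} (hd : 2 ≤ d) {z : ℂ} (hz : 0 < z.im) : ‖rgg d z‖ < 1 :=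
  tg_norm_lt_one (tgr_cav hd z) hd hz (tgr_im_pos hd hz)

/-- `(d-1) ‖g‖² < 1` -/
theorem tgr_normSq_lt {d : ℕ} (hd : 2 ≤ d) {z : ℂ} (hz : 0 < z.im) : ((d : ℝ) - 1) * ‖rgg d z‖ ^ 2 < 1 := by
  rw [← Complex.normSq_eq_norm_sq]
  exact tg_normSq_lt (tgr_cav hd z) hz (tgr_im_pos hd hz)

/-- universal bounds for `d ≥ 3` -/
theorem tgr_bounds {d : ℕ} (hd : 3 ≤ d) {z : ℂ} (hz : 0 < z.im) :
    ‖rgg d z‖ ≤ 3 / 4 ∧ ‖rgm d z‖ ≤ 3 / 2 ∧ tgC (rgg d z) ≤ 27 / 2 :=
  tg_bounds (tgr_cav (by omega) z) hd hz (tgr_im_pos (by omega) hz)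

/-- `m_d (-z - d g) = 1` -/
theorem tgr_m_mul {d : ℕ} (hd : 2 ≤ d) {z : ℂ} (hz : 0 < z.im) : rgm d z * (-z - d * rgg d z) = 1 :=
  tg_m_mul (tgr_cav hd z) (tg_sq_ne_one' (tgr_norm_lt_one hd hz))

/-- the tree kernel in the vocabulary of `DefsB1` -/
theorem tgr_Q_eq {n : ℕ} (d : ℕ) (Γ : Gr n) (z : ℂ) {x y : Fin n} (h : Γ.Reachable x y) :
    tgQ Γ (rgg d z) x y = rgTv d z (Γ.dist x y) := by
  rw [tgQ, if_pos h]; rfl

/-! ### 2. balls -/

section balls
variable {n : ℕ} {H : Gr n}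

theorem tgr_mem_ball {R : ℕ} {X : Finset (Fin n)} {y : Fin n} :
    y ∈ rgBall H R X ↔ ∃ x ∈ X, H.edist x y ≤ R := by
  classical
  simp [rgBall]

theorem tgr_mem_ball1 {R : ℕ} {x y : Fin n} : y ∈ rgBall H R {x} ↔ H.edist x y ≤ R := by
  rw [tgr_mem_ball]; simp

theorem tgr_ball_pair (R : ℕ) (x y : Fin n) : rgBall H R {x, y} = rgBall H R {x} ∪ rgBall H R {y} := by
  ext w
  rw [mem_union, tgr_mem_ball, tgr_mem_ball1, tgr_mem_ball1]
  simp

theorem tgr_ball_mono {R R' : ℕ} (h : R ≤ R') (X : Finset (Fin n)) : rgBall H R X ⊆ rgBall H R' X := by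
  intro w hw
  rw [tgr_mem_ball] at hw ⊢
  obtain ⟨x, hx, e⟩ := hw
  exact ⟨x, hx, e.trans (by exact_mod_cast h)⟩

theorem tgr_self_mem (R : ℕ) (x : Fin n) : x ∈ rgBall H R {x} := by
  rw [tgr_mem_ball1, SimpleGraph.edist_self]; exact bot_le

theorem tgr_BG_le (R : ℕ) (X : Finset (Fin n)) : rgBG H R X ≤ H := tgIn_le H _

/-- a ball is connected in itself -/
theorem tgr_ball_reach {R : ℕ} {x w : Fin n} (hw : w ∈ rgBall H R {x}) : (rgBG H R {x}).Reachable x w :=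
  tgIn_ball_reach H (fun _ h => tgr_mem_ball1.mpr h) (tgr_mem_ball1.mp hw)

theorem RgUni.mono {Γ₀ Γ : Gr n} (hle : Γ₀ ≤ Γ) (h : RgUni Γ) : RgUni Γ₀ := by
  obtain ⟨u, v, huv⟩ := h
  refine ⟨u, v, huv.anti ?_⟩
  intro a b hab
  rw [SimpleGraph.deleteEdges_adj] at hab ⊢
  exact ⟨hle hab.1, hab.2⟩

theorem RgUni.sparse {Γ : Gr n} (h : RgUni Γ) : TgSparse Γ := by
  obtain ⟨u, v, huv⟩ := h
  exact tg_sparse_of_uni huv

open Classical in
/-- **export of L0, form (S)** `⇒` `RgUni` of the ball -/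
theorem tgr_uni_of_count {R : ℕ} {x : Fin n}
    (h : ∀ W ⊆ rgBall H R {x}, ∑ a ∈ W, (W.filter fun b => H.Adj a b).card ≤ 2 * W.card) :
    RgUni (rgBG H R {x}) := by
  refine tg_uni_of_sparse (tgIn_sparse H _ h) ?_ x
  intro a b a' b' hab hab'
  exact (tgr_ball_reach hab.2.1).symm.trans (tgr_ball_reach hab'.2.1)

open Classical in
/-- **export of L0, form (a')** `⇒` the ball is a tree -/
theorem tgr_tl_of_count {R : ℕ} {x : Fin n}
    (h : ∑ a ∈ rgBall H R {x}, ((rgBall H R {x}).filter fun b => H.Adj a b).card < 2 * (rgBall H R {x}).card) :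
    RgTl H R {x} := by
  refine tg_acyclic_of_count (W := rgBall H R {x}) (tgr_self_mem R x) (fun w hw => (tgr_ball_reach hw).symm)
    (fun a b hab => hab.2) ?_
  refine lt_of_le_of_lt (sum_le_sum fun a _ => card_le_card ?_) h
  intro b hb
  rw [mem_filter] at hb ⊢
  exact ⟨hb.1, hb.2.1⟩

theorem tgr_sparse_ball {R R' : ℕ} (hS : RgStruct H R') (hR : R ≤ R') (x : Fin n) :
    TgSparse (rgBG H R {x}) :=
  (hS x).sparse.mono (tgIn_mono H (tgr_ball_mono hR _))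

/-- `RgStruct` at the radius `4 R` makes all the balls of two points sparse -/
theorem tgr_sparse_pair {R : ℕ} (hS : RgStruct H (4 * R)) (hR : 1 ≤ R) (x y : Fin n) :
    TgSparse (rgBG H R {x, y}) := by
  classical
  by_cases hnear : H.edist x y ≤ (2 * R + 1 : ℕ)
  · -- near: inside the ball of radius `4 R` around `x`
    refine (hS x).sparse.mono (tgIn_mono H ?_)
    intro w hw
    rw [tgr_ball_pair, mem_union, tgr_mem_ball1, tgr_mem_ball1] at hw
    rw [tgr_mem_ball1]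
    rcases hw with hw | hw
    · exact hw.trans (by exact_mod_cast (by omega : R ≤ 4 * R))
    · calc H.edist x w ≤ H.edist x y + H.edist y w := SimpleGraph.edist_triangle
        _ ≤ (2 * R + 1 : ℕ) + (R : ℕ) := add_le_add hnear hw
        _ ≤ (4 * R : ℕ) := by exact_mod_cast (by omega : 2 * R + 1 + R ≤ 4 * R)
  · -- far: two pieces
    have e : rgBG H R {x, y} = tgIn H (rgBall H R {x} ∪ rgBall H R {y}) := by
      rw [rgBG, tgr_ball_pair]; rfl
    rw [e]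
    refine tg_sparse_union H ?_ ?_ (tgr_sparse_ball hS (by omega) x) (tgr_sparse_ball hS (by omega) y)
    · rw [disjoint_left]
      intro w h1 h2
      rw [tgr_mem_ball1] at h1 h2
      apply hnear
      calc H.edist x y ≤ H.edist x w + H.edist w y := SimpleGraph.edist_triangle
        _ ≤ (R : ℕ) + (R : ℕ) := add_le_add h1 (by rw [SimpleGraph.edist_comm]; exact h2)
        _ ≤ (2 * R + 1 : ℕ) := by exact_mod_cast (by omega : R + R ≤ 2 * R + 1)
    · intro a ha b hb hab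
      rw [tgr_mem_ball1] at ha hb
      apply hnear
      have h1 : H.edist a b = 1 := SimpleGraph.edist_eq_one_iff_adj.mpr hab
      calc H.edist x y ≤ H.edist x a + H.edist a y := SimpleGraph.edist_triangle
        _ ≤ H.edist x a + (H.edist a b + H.edist b y) := by gcongr; exact SimpleGraph.edist_triangle
        _ ≤ (R : ℕ) + (1 + (R : ℕ)) := by
            gcongr
            · exact h1.le
            · rw [SimpleGraph.edist_comm]; exact hb
        _ ≤ (2 * R + 1 : ℕ) := by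
            have : ((R : ℕ) : ℕ∞) + (1 + (R : ℕ)) = ((R + (1 + R) : ℕ) : ℕ∞) := by push_cast; ring
            rw [this]
            exact_mod_cast (by omega : R + (1 + R) ≤ 2 * R + 1)

end balls

/-! ### 3. the model -/

section model
variable {n d : ℕ} {Γ₀ Γ H : Gr n} {z : ℂ}

theorem tgr_PB_mul (hS : TgSparse Γ) (hd : 2 ≤ d) (hz : 0 < z.im) : rgMod d Γ z * rgPB d Γ z = 1 :=
  tg_model_mul hS (tgr_cav hd z) (tgr_norm_lt_one hd hz)

theorem tgr_PB_mul' (hS : TgSparse Γ) (hd : 2 ≤ d) (hz : 0 < z.im) : rgPB d Γ z * rgMod d Γ z = 1 :=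
  tg_model_mul' hS (tgr_cav hd z) (tgr_norm_lt_one hd hz)

/-- **decay of the model** -/
theorem tgr_PB_decay (hS : TgSparse Γ) (hd : 3 ≤ d) (hz : 0 < z.im) (x y : Fin n) :
    ‖rgPB d Γ z x y‖ ≤ 27 / 2 * ‖rgg d z‖ ^ Γ.dist x y := by
  refine (tg_model_decay hS (tgr_cav (by omega) z) (tgr_norm_lt_one (by omega) hz) x y).trans ?_
  have := (tgr_bounds hd hz).2.2
  gcongr

theorem tgr_PB_le (hS : TgSparse Γ) (hd : 3 ≤ d) (hz : 0 < z.im) (x y : Fin n) :
    ‖rgPB d Γ z x y‖ ≤ 27 / 2 := by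
  refine (tgr_PB_decay hS hd hz x y).trans ?_
  have : ‖rgg d z‖ ^ Γ.dist x y ≤ 1 := pow_le_one₀ (norm_nonneg _) (tgr_norm_lt_one (by omega) hz).le
  linarith

theorem tgr_PB_zero (hS : TgSparse Γ) (hd : 2 ≤ d) (hz : 0 < z.im) {x y : Fin n} (h : ¬ Γ.Reachable x y) :
    rgPB d Γ z x y = 0 :=
  tg_model_zero hS (tgr_cav hd z) (tgr_norm_lt_one hd hz) h

/-- the model of a forest: the tree values -/
theorem tgr_PB_forest (hΓ : Γ.IsAcyclic) (hd : 2 ≤ d) (hz : 0 < z.im) {x y : Fin n} (h : Γ.Reachable x y) :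
    rgPB d Γ z x y = rgTv d z (Γ.dist x y) := by
  rw [tgr_PB_eq, tg_model_forest hΓ (tgr_cav hd z) (tgr_norm_lt_one hd hz), tgr_Q_eq d Γ z h]

/-- **consistency** -/
theorem tgr_PB_cons (hS : TgSparse Γ) (hle : Γ₀ ≤ Γ) (hd : 3 ≤ d) (hz : 0 < z.im) {x : Fin n} {R : ℕ}
    (hloc : TgLoc Γ₀ Γ x R) (y : Fin n) :
    ‖rgPB d Γ z x y - rgPB d Γ₀ z x y‖ ≤ 27 / 2 * ‖rgg d z‖ ^ R := by
  refine (tg_model_cons hS hle (tgr_cav (by omega) z) (tgr_norm_lt_one (by omega) hz) hloc y).trans ?_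
  have := (tgr_bounds hd hz).2.2
  gcongr

/-- symmetry of the model -/
theorem tgr_PB_symm (d : ℕ) (Γ : Gr n) (z : ℂ) (x y : Fin n) : rgPB d Γ z x y = rgPB d Γ z y x := by
  classical
  have hT : (rgMod d Γ z).transpose = rgMod d Γ z := by
    ext a b
    simp only [Matrix.transpose_apply, rgMod]
    by_cases hab : a = b
    · subst hab; rfl
    · have hba : ¬ b = a := fun e => hab e.symm
      simp only [hab, hba, if_false, SimpleGraph.adj_comm]
  have : (rgPB d Γ z).transpose = rgPB d Γ z := by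
    rw [rgPB, Matrix.transpose_nonsing_inv, hT]
  exact (congrFun (congrFun this y) x).symm ▸ rfl

/-- decay of the model entry in the distance of `H` -/
theorem tgr_Pm_decay {R : ℕ} (hS : RgStruct H (4 * R)) (hR : 1 ≤ R) (hd : 3 ≤ d) (hz : 0 < z.im)
    (x y : Fin n) : ‖rgPm d R H z x y‖ ≤ 27 / 2 * ‖rgg d z‖ ^ H.dist x y := by
  have hsp := tgr_sparse_pair hS hR x y
  unfold rgPm
  by_cases hr : (rgBG H R {x, y}).Reachable x y
  · refine (tgr_PB_decay hsp hd hz x y).trans ?_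
    have : ‖rgg d z‖ ^ (rgBG H R {x, y}).dist x y ≤ ‖rgg d z‖ ^ H.dist x y :=
      pow_le_pow_of_le_one (norm_nonneg _) (tgr_norm_lt_one (by omega) hz).le
        (hr.dist_anti (tgr_BG_le R _))
    linarith
  · rw [tgr_PB_zero hsp (by omega) hz hr, norm_zero]
    positivity

theorem tgr_Pm_le {R : ℕ} (hS : RgStruct H (4 * R)) (hR : 1 ≤ R) (hd : 3 ≤ d) (hz : 0 < z.im)
    (x y : Fin n) : ‖rgPm d R H z x y‖ ≤ 27 / 2 :=
  tgr_PB_le (tgr_sparse_pair hS hR x y) hd hz x y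

/-- **one model for all pairs**: on any sparse `Γ ≤ H` which contains the ball of the pair, the model of `Γ`
agrees with `rgPm` up to `C ‖g‖^R` -/
theorem tgr_Pm_cons {R : ℕ} (hS : TgSparse Γ) (hΓ : Γ ≤ H) (hd : 3 ≤ d) (hz : 0 < z.im) (x y : Fin n)
    (hle : rgBG H R {x, y} ≤ Γ) : ‖rgPB d Γ z x y - rgPm d R H z x y‖ ≤ 27 / 2 * ‖rgg d z‖ ^ R := by
  refine tgr_PB_cons hS hle hd hz ?_ y
  intro w w' hadj hr hdist
  have hrH : H.Reachable x w := hr.mono hΓ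
  have h1 : H.dist x w ≤ Γ.dist x w := hr.dist_anti hΓ
  have hadjH : H.Adj w w' := hΓ hadj
  have h2 : H.edist x w ≤ R := by
    rw [← hrH.coe_dist_eq_edist]
    exact_mod_cast (by omega : H.dist x w ≤ R)
  have hrH' : H.Reachable x w' := hrH.trans hadjH.reachable
  have h3 : H.dist x w' ≤ H.dist x w + H.dist w w' := hrH.dist_triangle_left w'
  have h4 : H.dist w w' = 1 := SimpleGraph.dist_eq_one_iff_adj.mpr hadjH
  have h5 : H.edist x w' ≤ R := by
    rw [← hrH'.coe_dist_eq_edist]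
    exact_mod_cast (by omega : H.dist x w' ≤ R)
  refine ⟨hadjH, ?_, ?_⟩
  · rw [tgr_mem_ball]; exact ⟨x, by simp, h2⟩
  · rw [tgr_mem_ball]; exact ⟨x, by simp, h5⟩

end model
end Claimed.Agent.R287
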