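/-
Row 287 (S0534), unit B1: the contracts of `B1.lean` owned by helper270 (sec.1 TREE + CT, sec.8 calculus), proved under the names `<name>'`.
-/
import Claimed.Agent.R287.TreeRg270

set_option autoImplicit false

namespace Claimed.Agent.R287

open Claims.C0462 Finset

/-- **TR1** -/
theorem b1_g_cav' (d : ℕ) (hd : 3 ≤ d) (z : ℂ) (hz : 0 ≤ z.im) (hb : z.re ^ 2 < 4 * ((d : ℝ) - 1)) :
    ((d : ℂ) - 1) * rgg d z ^ 2 + z * rgg d z + 1 = 0 ∧ 0 < (rgg d z).im := by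
  refine ⟨tgr_cav (by omega) z, ?_⟩
  have hbR : (2 : ℝ) ≤ (d : ℝ) - 1 := by
    have : (3 : ℝ) ≤ d := by exact_mod_cast hd
    linarith
  have hs := tg_sqrt_sq (4 * ((d : ℂ) - 1) - z ^ 2)
  have hre := tg_sqrt_re (4 * ((d : ℂ) - 1) - z ^ 2)
  unfold rgg
  set s := (4 * ((d : ℂ) - 1) - z ^ 2) ^ (1 / 2 : ℂ) with hsdef
  have h1 := congrArg Complex.re hs
  simp only [pow_two, Complex.mul_re, Complex.sub_re, Complex.natCast_re, Complex.one_re, Complex.sub_im,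
    Complex.natCast_im, Complex.one_im] at h1
  have h4 : (4 : ℂ).re = 4 := rfl
  have h5 : (4 : ℂ).im = 0 := rfl
  rw [h4, h5] at h1
  have h2 : z.im < s.re := by
    by_contra hcon
    rw [not_lt] at hcon
    nlinarith [mul_self_nonneg s.im]
  have hcast : (2 * ((d : ℂ) - 1)) = ((2 * ((d : ℝ) - 1) : ℝ) : ℂ) := by push_cast; ring
  rw [hcast, Complex.div_ofReal_im]
  apply div_pos
  · simp [Complex.add_im, Complex.mul_im]
    linarith
  · linarith

/-- **TR2** -/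
theorem b1_tv_bd' (d : ℕ) (hd : 3 ≤ d) (κb : ℝ) (_hκ : 0 < κb) :
    ∃ C : ℝ, ∀ e η : ℝ, RgBulk d κb e → 0 < η → η ≤ b1h κb → ∀ k : ℕ, ‖rgTv d (rgz e η) k‖ ≤ C := by
  refine ⟨3 / 2, fun e η _ hη _ k => ?_⟩
  have hz : 0 < (rgz e η).im := hη
  obtain ⟨h1, h2, -⟩ := tgr_bounds hd hz
  rw [rgTv, norm_mul, norm_pow, norm_neg]
  have : ‖rgg d (rgz e η)‖ ^ k ≤ 1 := pow_le_one₀ (norm_nonneg _) (by linarith)
  nlinarith [norm_nonneg (rgm d (rgz e η))]

/-- **TR4a** -/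
theorem b1_model_diag' (d : ℕ) (hd : 3 ≤ d) {n : ℕ} (H : Gr n) (R : ℕ) (z : ℂ) (hz : 0 < z.im)
    (x : Fin n) (h : RgTl H R {x}) : rgPm d R H z x x = rgTv d z 0 := by
  have e : ({x, x} : Finset (Fin n)) = {x} := by simp
  rw [rgPm, e, tgr_PB_forest h (by omega) hz (SimpleGraph.Reachable.refl x), SimpleGraph.dist_self]

/-- **TR4b** -/
theorem b1_model_edge' (d : ℕ) (hd : 3 ≤ d) {n : ℕ} (H : Gr n) (R : ℕ) (z : ℂ) (hz : 0 < z.im)
    (b c : Fin n) (hbc : H.Adj b c) (h : RgTl H R {b, c}) : rgPm d R H z b c = rgTv d z 1 := by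
  have hadj : (rgBG H R {b, c}).Adj b c := by
    refine ⟨hbc, ?_, ?_⟩
    · rw [tgr_mem_ball]; exact ⟨b, by simp, by rw [SimpleGraph.edist_self]; exact bot_le⟩
    · rw [tgr_mem_ball]; exact ⟨c, by simp, by rw [SimpleGraph.edist_self]; exact bot_le⟩
  rw [rgPm, tgr_PB_forest h (by omega) hz hadj.reachable, SimpleGraph.dist_eq_one_iff_adj.mpr hadj]

/-- **TR5** -/
theorem b1_model_bd' (d : ℕ) (hd : 3 ≤ d) (κb : ℝ) (_hκ : 0 < κb) :
    ∃ C : ℝ, ∀ (n R : ℕ) (H : Gr n), H ∈ regularGraphs n d → 1 ≤ R → RgStruct H (4 * R) →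
      ∀ e η : ℝ, RgBulk d κb e → 0 < η → η ≤ b1h κb → ∀ x y : Fin n, ‖rgPm d R H (rgz e η) x y‖ ≤ C :=
  ⟨27 / 2, fun _ _ _ _ hR hS _ _ _ hη _ x y => tgr_Pm_le hS hR hd hη x y⟩

/-! ### Lipschitz dependence on the height -/

theorem b1x_h_pos {κb : ℝ} (hκ : 0 < κb) : 0 < b1h κb := by
  unfold b1h
  have : 0 < Real.sqrt κb := Real.sqrt_pos.mpr hκ
  exact lt_min one_pos (by positivity)

theorem b1x_h_sq {κb η : ℝ} (hκ : 0 < κb) (hη : 0 ≤ η) (h : η ≤ b1h κb) : 16 * η ^ 2 ≤ κb := by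
  have h1 : η ≤ Real.sqrt κb / 4 := h.trans (min_le_right _ _)
  have h2 : Real.sqrt κb ^ 2 = κb := Real.sq_sqrt hκ.le
  have h3 : 0 ≤ Real.sqrt κb := Real.sqrt_nonneg _
  nlinarith

theorem b1x_z_sub (e η η' : ℝ) : ‖rgz e η - rgz e η'‖ = |η - η'| := by
  have : rgz e η - rgz e η' = ((η - η' : ℝ) : ℂ) * Complex.I := by
    apply Complex.ext <;> simp [rgz]
  rw [this, norm_mul, Complex.norm_I, mul_one, Complex.norm_real, Real.norm_eq_abs]

/-- lower bound of `(d-1) Im g` in the bulk strip -/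
theorem b1x_im_ge (d : ℕ) (hd : 3 ≤ d) {κb e η : ℝ} (hκ : 0 < κb) (he : RgBulk d κb e) (hη : 0 < η)
    (hh : η ≤ b1h κb) : Real.sqrt (κb / 8) ≤ ((d : ℝ) - 1) * (rgg d (rgz e η)).im := by
  have hbR : (2 : ℝ) ≤ (d : ℝ) - 1 := by
    have : (3 : ℝ) ≤ d := by exact_mod_cast hd
    linarith
  have hz : 0 < (rgz e η).im := hη
  have hg := tgr_im_pos (d := d) (by omega) hz
  have h16 := b1x_h_sq hκ hη.le hh
  have he' : e ^ 2 ≤ 4 * ((d : ℝ) - 1) - κb := he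
  have h1 := tg_im_ge (tgr_cav (d := d) (by omega) (rgz e η)) (by omega) hz hg
    (by rw [rg_z_im, rg_z_re]; linarith)
  rw [rg_z_re] at h1
  have h2 : κb / 8 ≤ (((d : ℝ) - 1) * (rgg d (rgz e η)).im) ^ 2 := by nlinarith
  have h3 : 0 ≤ ((d : ℝ) - 1) * (rgg d (rgz e η)).im := by positivity
  calc Real.sqrt (κb / 8) ≤ Real.sqrt ((((d : ℝ) - 1) * (rgg d (rgz e η)).im) ^ 2) := Real.sqrt_le_sqrt h2
    _ = _ := Real.sqrt_sq h3

/-- `g` is Lipschitz in the height -/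
theorem b1x_g_lip (d : ℕ) (hd : 3 ≤ d) {κb e η η' : ℝ} (hκ : 0 < κb) (he : RgBulk d κb e) (hη' : 0 < η')
    (h12 : η' ≤ η) (hh : η ≤ b1h κb) :
    Real.sqrt (κb / 8) * ‖rgg d (rgz e η') - rgg d (rgz e η)‖ ≤ η - η' := by
  have hη : 0 < η := lt_of_lt_of_le hη' h12
  have hz : 0 < (rgz e η).im := hη
  have hz' : 0 < (rgz e η').im := hη'
  have h1 := tg_lip (tgr_cav (d := d) (by omega) (rgz e η')) (tgr_cav (d := d) (by omega) (rgz e η)) (by omega)
    hz'.le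
  rw [b1x_z_sub, abs_sub_comm, abs_of_nonneg (by linarith : 0 ≤ η - η')] at h1
  have h2 := b1x_im_ge d hd hκ he hη hh
  have h3 := tgr_im_pos (d := d) (by omega) hz'
  have h4 := (tgr_bounds hd hz).1
  have hbR : (2 : ℝ) ≤ (d : ℝ) - 1 := by
    have : (3 : ℝ) ≤ d := by exact_mod_cast hd
    linarith
  set D := ‖rgg d (rgz e η') - rgg d (rgz e η)‖ with hD
  have hD0 : 0 ≤ D := norm_nonneg _
  have h5 : Real.sqrt (κb / 8) ≤ ((d : ℝ) - 1) * ((rgg d (rgz e η')).im + (rgg d (rgz e η)).im) := by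
    have : 0 ≤ ((d : ℝ) - 1) * (rgg d (rgz e η')).im := by positivity
    nlinarith
  calc Real.sqrt (κb / 8) * D ≤ ((d : ℝ) - 1) * ((rgg d (rgz e η')).im + (rgg d (rgz e η)).im) * D :=
        mul_le_mul_of_nonneg_right h5 hD0
    _ ≤ (η - η') * ‖rgg d (rgz e η)‖ := h1
    _ ≤ (η - η') * 1 := by
        apply mul_le_mul_of_nonneg_left (by linarith) (by linarith)
    _ = η - η' := mul_one _

/-- `m (-g)^k`, `k ≤ 2`, is Lipschitz in `g` on the disc -/
theorem b1x_tv_lip {g g' : ℂ} (h1 : ‖g‖ ≤ 3 / 4) (h1' : ‖g'‖ ≤ 3 / 4) (h2 : ‖g‖ ^ 2 ≤ 1 / 2)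
    (h2' : ‖g'‖ ^ 2 ≤ 1 / 2) {k : ℕ} (hk : k ≤ 2) :
    ‖tgm g' * (-g') ^ k - tgm g * (-g) ^ k‖ ≤ 10 * ‖g' - g‖ := by
  have a1 : 1 / 2 ≤ ‖1 - g ^ 2‖ := by
    have := norm_sub_norm_le (1 : ℂ) (g ^ 2)
    rw [norm_one, norm_pow] at this
    linarith
  have a2 : 1 / 2 ≤ ‖1 - g' ^ 2‖ := by
    have := norm_sub_norm_le (1 : ℂ) (g' ^ 2)
    rw [norm_one, norm_pow] at this
    linarith
  have n1 : (1 : ℂ) - g ^ 2 ≠ 0 := fun e => by rw [e, norm_zero] at a1; linarith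
  have n2 : (1 : ℂ) - g' ^ 2 ≠ 0 := fun e => by rw [e, norm_zero] at a2; linarith
  set D := ‖g' - g‖ with hD
  have hD0 : 0 ≤ D := norm_nonneg _
  have em : tgm g' - tgm g = (g' - g) * (1 + g * g') / ((1 - g ^ 2) * (1 - g' ^ 2)) := by
    unfold tgm
    field_simp
    ring
  have bm : ‖tgm g' - tgm g‖ ≤ 7 * D := by
    rw [em, norm_div, norm_mul, norm_mul, div_le_iff₀ (by positivity)]
    have b1 : ‖1 + g * g'‖ ≤ 1 + 9 / 16 := by
      refine (norm_add_le _ _).trans ?_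
      rw [norm_one, norm_mul]
      nlinarith [norm_nonneg g, norm_nonneg g']
    have b2 : 1 / 4 ≤ ‖1 - g ^ 2‖ * ‖1 - g' ^ 2‖ := by nlinarith
    calc D * ‖1 + g * g'‖ ≤ D * (1 + 9 / 16) := mul_le_mul_of_nonneg_left b1 hD0
      _ ≤ 7 * D * (1 / 4) := by nlinarith
      _ ≤ 7 * D * (‖1 - g ^ 2‖ * ‖1 - g' ^ 2‖) := mul_le_mul_of_nonneg_left b2 (by positivity)
  have bmg : ‖tgm g‖ ≤ 3 / 2 := by
    rw [tgm, norm_div, div_le_iff₀ (by linarith)]
    nlinarith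
  have bp : ‖(-g') ^ k - (-g) ^ k‖ ≤ 2 * D := by
    interval_cases k
    · simp; exact hD0
    · have : (-g') ^ 1 - (-g) ^ 1 = -(g' - g) := by ring
      rw [this, norm_neg]; linarith
    · have : (-g') ^ 2 - (-g) ^ 2 = (g' - g) * (g' + g) := by ring
      rw [this, norm_mul]
      have : ‖g' + g‖ ≤ 3 / 2 := (norm_add_le _ _).trans (by linarith)
      nlinarith
  have bq : ‖(-g') ^ k‖ ≤ 1 := by
    rw [norm_pow, norm_neg]
    exact pow_le_one₀ (norm_nonneg _) (by linarith)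
  have e : tgm g' * (-g') ^ k - tgm g * (-g) ^ k
      = (tgm g' - tgm g) * (-g') ^ k + tgm g * ((-g') ^ k - (-g) ^ k) := by ring
  rw [e]
  refine (norm_add_le _ _).trans ?_
  rw [norm_mul, norm_mul]
  have t1 : ‖tgm g' - tgm g‖ * ‖(-g') ^ k‖ ≤ 7 * D * 1 :=
    mul_le_mul bm bq (norm_nonneg _) (by positivity)
  have t2 : ‖tgm g‖ * ‖(-g') ^ k - (-g) ^ k‖ ≤ 3 / 2 * (2 * D) :=
    mul_le_mul bmg bp (norm_nonneg _) (by norm_num)
  linarith

theorem b1x_g_sq_le (d : ℕ) (hd : 3 ≤ d) {z : ℂ} (hz : 0 < z.im) : ‖rgg d z‖ ^ 2 ≤ 1 / 2 := by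
  have hbR : (2 : ℝ) ≤ (d : ℝ) - 1 := by
    have : (3 : ℝ) ≤ d := by exact_mod_cast hd
    linarith
  have := tgr_normSq_lt (d := d) (by omega) hz
  nlinarith [sq_nonneg ‖rgg d z‖]

/-- **TR3** -/
theorem b1_tv_cont' (d : ℕ) (hd : 3 ≤ d) (κb : ℝ) (hκ : 0 < κb) :
    ∃ C : ℝ, ∀ e η η' : ℝ, RgBulk d κb e → 0 < η' → η' ≤ η → η ≤ b1h κb → ∀ k : ℕ, k ≤ 2 →
      ‖rgTv d (rgz e η') k - rgTv d (rgz e η) k‖ ≤ C * (η - η') := by
  have hs : 0 < Real.sqrt (κb / 8) := Real.sqrt_pos.mpr (by positivity)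
  refine ⟨10 / Real.sqrt (κb / 8), fun e η η' he hη' h12 hh k hk => ?_⟩
  have hη : 0 < η := lt_of_lt_of_le hη' h12
  have hz : 0 < (rgz e η).im := hη
  have hz' : 0 < (rgz e η').im := hη'
  have h1 := b1x_tv_lip (tgr_bounds hd hz).1 (tgr_bounds hd hz').1 (b1x_g_sq_le d hd hz) (b1x_g_sq_le d hd hz') hk
  have h2 := b1x_g_lip d hd hκ he hη' h12 hh
  have h3 : ‖rgg d (rgz e η') - rgg d (rgz e η)‖ ≤ (η - η') / Real.sqrt (κb / 8) := by
    rw [le_div_iff₀ hs]; linarith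
  calc ‖rgTv d (rgz e η') k - rgTv d (rgz e η) k‖ ≤ 10 * ‖rgg d (rgz e η') - rgg d (rgz e η)‖ := h1
    _ ≤ 10 * ((η - η') / Real.sqrt (κb / 8)) := by linarith
    _ = 10 / Real.sqrt (κb / 8) * (η - η') := by ring

/-! ### cardinality of balls, continuity of the model -/

open Classical in
theorem b1x_mem_reg (n d : ℕ) (G : Gr n) : G ∈ regularGraphs n d ↔ ∀ v, tgDeg G v = d := by
  unfold regularGraphs tgDeg
  rw [Finset.mem_filter]
  simp only [Finset.mem_univ, true_and, SimpleGraph.IsRegularOfDegree]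
  refine forall_congr' fun v => ?_
  rw [← SimpleGraph.card_neighborFinset_eq_degree, SimpleGraph.neighborFinset_eq_filter]

theorem b1x_deg_mono {n : ℕ} {Γ H : Gr n} (hle : Γ ≤ H) (v : Fin n) : tgDeg Γ v ≤ tgDeg H v := by
  classical
  unfold tgDeg
  refine card_le_card fun w hw => ?_
  rw [mem_filter] at hw ⊢
  exact ⟨hw.1, hle hw.2⟩

/-- one more step of a ball -/
theorem b1x_ball_succ {n : ℕ} (H : Gr n) (R : ℕ) (x y : Fin n) (h : y ∈ rgBall H (R + 1) {x}) :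
    ∃ w ∈ rgBall H R {x}, y = w ∨ H.Adj w y := by
  rw [tgr_mem_ball1] at h
  have hr : H.Reachable x y := by
    apply SimpleGraph.reachable_of_edist_ne_top
    intro e
    rw [e] at h
    exact absurd h (by simp)
  have hd : H.dist x y ≤ R + 1 := by
    rw [← hr.coe_dist_eq_edist] at h
    exact_mod_cast h
  by_cases hxy : y = x
  · exact ⟨x, tgr_self_mem R x, Or.inl hxy⟩
  · obtain ⟨w, hw, e⟩ := tg_closer_exists hr.symm hxy
    refine ⟨w, ?_, Or.inr hw.symm⟩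
    rw [tgr_mem_ball1, ← (hr.trans hw.reachable).coe_dist_eq_edist]
    rw [SimpleGraph.dist_comm, SimpleGraph.dist_comm (u := y)] at e
    exact_mod_cast (by omega : H.dist x w ≤ R)

open Classical in
theorem b1x_ball_card {n d : ℕ} {H : Gr n} (hH : H ∈ regularGraphs n d) (R : ℕ) (x : Fin n) :
    (rgBall H R {x}).card ≤ (d + 1) ^ R := by
  rw [b1x_mem_reg] at hH
  induction R with
  | zero =>
    have : rgBall H 0 {x} ⊆ {x} := by
      intro y hy
      rw [tgr_mem_ball1] at hy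
      have h0 : H.edist x y = 0 := le_antisymm (by exact_mod_cast hy) bot_le
      rw [mem_singleton]
      exact (SimpleGraph.edist_eq_zero_iff.mp h0).symm
    simpa using card_le_card this
  | succ R ih =>
    have hsub : rgBall H (R + 1) {x}
        ⊆ (rgBall H R {x}).biUnion fun w => insert w (univ.filter fun y => H.Adj w y) := by
      intro y hy
      obtain ⟨w, hw, h⟩ := b1x_ball_succ H R x y hy
      rw [mem_biUnion]
      refine ⟨w, hw, ?_⟩
      rw [mem_insert, mem_filter]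
      rcases h with h | h
      · exact Or.inl h
      · exact Or.inr ⟨mem_univ y, h⟩
    refine (card_le_card hsub).trans ?_
    refine (card_biUnion_le_card_mul _ _ (d + 1) fun w _ => ?_).trans ?_
    · refine (card_insert_le _ _).trans ?_
      have := hH w
      unfold tgDeg at this
      omega
    · rw [pow_succ]
      exact Nat.mul_le_mul_right _ ih

theorem b1x_ball_card2 {n d : ℕ} {H : Gr n} (hH : H ∈ regularGraphs n d) (R : ℕ) (x y : Fin n) :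
    (rgBall H R {x, y}).card ≤ 2 * (d + 1) ^ R := by
  classical
  rw [tgr_ball_pair]
  refine (card_union_le _ _).trans ?_
  have := b1x_ball_card hH R x
  have := b1x_ball_card hH R y
  omega

/-- resolvent identity of two models of the same graph -/
theorem b1x_model_sub {n d : ℕ} {Γ : Gr n} (hS : TgSparse Γ) (hd : 2 ≤ d) {z z' : ℂ} (hz : 0 < z.im)
    (hz' : 0 < z'.im) (x y : Fin n) :
    rgPB d Γ z' x y - rgPB d Γ z x y
      = ∑ w, rgPB d Γ z' x w * (-((z - z') + (rgg d z - rgg d z') * ((d : ℂ) - tgDeg Γ w))) * rgPB d Γ z w y := by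
  classical
  have h1 := tgr_PB_mul hS hd hz
  have h2 := tgr_PB_mul' hS hd hz'
  have e : rgPB d Γ z' - rgPB d Γ z = rgPB d Γ z' * (rgMod d Γ z - rgMod d Γ z') * rgPB d Γ z := by
    rw [mul_sub, sub_mul, mul_assoc, h1, h2, mul_one, one_mul]
  have hdiag : rgMod d Γ z - rgMod d Γ z'
      = Matrix.diagonal fun w => -((z - z') + (rgg d z - rgg d z') * ((d : ℂ) - tgDeg Γ w)) := by
    ext a b
    rw [Matrix.sub_apply, Matrix.diagonal_apply, tgr_mod_eq, tgr_mod_eq]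
    simp only [tgM]
    by_cases hab : a = b
    · simp only [hab, if_true]; ring
    · simp only [hab, if_false]; ring
  have e2 := congrFun (congrFun e x) y
  rw [Matrix.sub_apply, hdiag, Matrix.mul_apply] at e2
  rw [e2]
  refine sum_congr rfl fun w _ => ?_
  rw [Matrix.mul_diagonal]

/-- **TR6** -/
theorem b1_model_cont' (d : ℕ) (hd : 3 ≤ d) (κb : ℝ) (hκ : 0 < κb) (R : ℕ) (hR : 1 ≤ R) :
    ∃ C : ℝ, ∀ (n : ℕ) (H : Gr n), H ∈ regularGraphs n d → RgStruct H (4 * R) →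
      ∀ e η η' : ℝ, RgBulk d κb e → 0 < η' → η' ≤ η → η ≤ b1h κb → ∀ x y : Fin n,
        ‖rgPm d R H (rgz e η') x y - rgPm d R H (rgz e η) x y‖ ≤ C * (η - η') := by
  classical
  have hs : 0 < Real.sqrt (κb / 8) := Real.sqrt_pos.mpr (by positivity)
  refine ⟨(2 * ((d : ℝ) + 1) ^ R) * (27 / 2 * (1 + d / Real.sqrt (κb / 8)) * (27 / 2)),
    fun n H hH hS e η η' he hη' h12 hh x y => ?_⟩
  have hη : 0 < η := lt_of_lt_of_le hη' h12
  have hz : 0 < (rgz e η).im := hη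
  have hz' : 0 < (rgz e η').im := hη'
  have hsp := tgr_sparse_pair hS hR x y
  set Γ := rgBG H R {x, y} with hΓ
  set B := rgBall H R {x, y} with hB
  have hxB : x ∈ B := by rw [hB, tgr_mem_ball]; exact ⟨x, by simp, by rw [SimpleGraph.edist_self]; exact bot_le⟩
  unfold rgPm
  rw [← hΓ, b1x_model_sub hsp (by omega) hz hz' x y]
  have hg := b1x_g_lip d hd hκ he hη' h12 hh
  have hg' : ‖rgg d (rgz e η) - rgg d (rgz e η')‖ ≤ (η - η') / Real.sqrt (κb / 8) := by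
    rw [le_div_iff₀ hs, norm_sub_rev]; linarith
  have hzz : ‖rgz e η - rgz e η'‖ = η - η' := by
    rw [b1x_z_sub, abs_of_nonneg (by linarith)]
  have hreg := (b1x_mem_reg n d H).mp hH
  -- the diagonal factor
  have hδ : ∀ w, ‖-((rgz e η - rgz e η') + (rgg d (rgz e η) - rgg d (rgz e η')) * ((d : ℂ) - tgDeg Γ w))‖
      ≤ (1 + d / Real.sqrt (κb / 8)) * (η - η') := by
    intro w
    rw [norm_neg]
    refine (norm_add_le _ _).trans ?_
    rw [hzz, norm_mul]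
    have hdeg : tgDeg Γ w ≤ d := (b1x_deg_mono (tgr_BG_le R _) w).trans (hreg w).le
    have h1 : ‖(d : ℂ) - tgDeg Γ w‖ ≤ d := by
      have : (d : ℂ) - tgDeg Γ w = ((d - tgDeg Γ w : ℕ) : ℂ) := by
        rw [Nat.cast_sub hdeg]
      rw [this, Complex.norm_natCast]
      exact_mod_cast Nat.sub_le _ _
    have h2 : ‖rgg d (rgz e η) - rgg d (rgz e η')‖ * ‖(d : ℂ) - tgDeg Γ w‖
        ≤ (η - η') / Real.sqrt (κb / 8) * d :=
      mul_le_mul hg' h1 (norm_nonneg _) (div_nonneg (by linarith) hs.le)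
    calc η - η' + ‖rgg d (rgz e η) - rgg d (rgz e η')‖ * ‖(d : ℂ) - tgDeg Γ w‖
        ≤ η - η' + (η - η') / Real.sqrt (κb / 8) * d := by linarith
      _ = (1 + d / Real.sqrt (κb / 8)) * (η - η') := by ring
  -- only the vertices of the ball contribute
  rw [← sum_subset (subset_univ B)]
  · refine (norm_sum_le _ _).trans ?_
    have hterm : ∀ w ∈ B, ‖rgPB d Γ (rgz e η') x w
        * (-((rgz e η - rgz e η') + (rgg d (rgz e η) - rgg d (rgz e η')) * ((d : ℂ) - tgDeg Γ w)))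
        * rgPB d Γ (rgz e η) w y‖ ≤ 27 / 2 * ((1 + d / Real.sqrt (κb / 8)) * (η - η')) * (27 / 2) := by
      intro w _
      rw [norm_mul, norm_mul]
      have a1 := tgr_PB_le hsp hd hz' x w
      have a2 := tgr_PB_le hsp hd hz w y
      have a3 : 0 ≤ (1 + d / Real.sqrt (κb / 8)) * (η - η') := (norm_nonneg _).trans (hδ w)
      exact mul_le_mul (mul_le_mul a1 (hδ w) (norm_nonneg _) (by norm_num)) a2 (norm_nonneg _)
        (by positivity)
    refine (sum_le_sum hterm).trans ?_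
    rw [sum_const, nsmul_eq_mul]
    have hcard : (B.card : ℝ) ≤ 2 * ((d : ℝ) + 1) ^ R := by
      exact_mod_cast b1x_ball_card2 hH R x y
    have hnn : 0 ≤ 27 / 2 * ((1 + d / Real.sqrt (κb / 8)) * (η - η')) * (27 / 2) := by
      have : 0 ≤ η - η' := by linarith
      positivity
    calc (B.card : ℝ) * (27 / 2 * ((1 + d / Real.sqrt (κb / 8)) * (η - η')) * (27 / 2))
        ≤ (2 * ((d : ℝ) + 1) ^ R) * (27 / 2 * ((1 + d / Real.sqrt (κb / 8)) * (η - η')) * (27 / 2)) :=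
          mul_le_mul_of_nonneg_right hcard hnn
      _ = _ := by ring
  · intro w _ hw
    have hnr : ¬ Γ.Reachable x w := fun hr => hw (tgIn_reach_mem hr hxB)
    rw [tgr_PB_zero hsp (by omega) hz' hnr, zero_mul, zero_mul]

end Claimed.Agent.R287
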