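-- KEEP
import Claimed.Agent.R287.B1x270

/-!
# Row 287 (S0534), unit B1: FS = forward stability of T1 under a finite modification      (helper131; prefix `fs7_`)

`b1_FS'` = the statement of `b1_FS` (`B1.lean`) verbatim, 0 sorry.   `H`, `H'` regular, equal off `S × S`, `|S| ≤ K0`, both sparse:
`RgDev d R H z δ ⟹ RgDev d R H' z (Cs (δ + |g|^R))`, `Cs = 27 c² + 27/2`, `c = 1 + 27/2 K0²`, `ds = 1/(29 c (K0² + 1))`.
Reusable pieces: `fs7_walk`, `fs7_ball_sub` (balls of `H'` sit in the balls of `H` around `X ∪ S`), `fs7_ball_card`, `fs7_deg`, `fs7_mod`, `fs7_full` (both matrices move by `fs7D H H'`),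
`fs7_ident` (exact identity `G' - P' = (1 - P' Δ) (G - P) (1 - Δ G')`, any matrices), `fs7_abs` (closing of the linear inequality on a finite set of sites, abstract).
-/

set_option autoImplicit false

namespace Claimed.Agent.R287

open Claims.C0462 Finset

/-! ### FS: forward stability (helper131; prefix `fs7_`) -/

/-- a walk of `H'` restarts at its last visit of `S` as a walk of `H` -/
theorem fs7_walk {n : ℕ} {H H' : Gr n} {S : Finset (Fin n)}
    (hS : ∀ x y, (x ∉ S ∨ y ∉ S) → (H.Adj x y ↔ H'.Adj x y)) {a w : Fin n} (p : H'.Walk a w) :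
    ∃ s, (s = a ∨ s ∈ S) ∧ ∃ q : H.Walk s w, q.length ≤ p.length := by
  induction p with
  | nil => exact ⟨_, Or.inl rfl, SimpleGraph.Walk.nil, le_rfl⟩
  | @cons a b w hab p ih =>
    obtain ⟨s, hs, q, hq⟩ := ih
    rcases hs with rfl | hs
    · by_cases hb : s ∈ S
      · exact ⟨s, Or.inr hb, q, by simp only [SimpleGraph.Walk.length_cons]; omega⟩
      · exact ⟨a, Or.inl rfl, SimpleGraph.Walk.cons ((hS a s (Or.inr hb)).2 hab) q, by
          simp only [SimpleGraph.Walk.length_cons]; omega⟩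
    · exact ⟨s, Or.inr hs, q, by simp only [SimpleGraph.Walk.length_cons]; omega⟩

theorem fs7_ball_sub {n : ℕ} {H H' : Gr n} {S : Finset (Fin n)}
    (hS : ∀ x y, (x ∉ S ∨ y ∉ S) → (H.Adj x y ↔ H'.Adj x y)) (R : ℕ) (X : Finset (Fin n)) :
    rgBall H' R X ⊆ rgBall H R (X ∪ S) := by
  intro w hw
  rw [tgr_mem_ball] at hw ⊢
  obtain ⟨x, hx, hxw⟩ := hw
  have hne : H'.edist x w ≠ ⊤ := ne_top_of_le_ne_top (ENat.natCast_ne_top R) hxw
  obtain ⟨p, hp⟩ := (SimpleGraph.reachable_of_edist_ne_top hne).exists_walk_length_eq_edist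
  obtain ⟨s, hs, q, hq⟩ := fs7_walk hS p
  refine ⟨s, ?_, (SimpleGraph.edist_le q).trans (le_trans ?_ (hp.le.trans hxw))⟩
  · rcases hs with rfl | hs
    · exact mem_union_left _ hx
    · exact mem_union_right _ hs
  · exact_mod_cast hq

theorem fs7_ball_mono_set {n : ℕ} {H : Gr n} (R : ℕ) {X Y : Finset (Fin n)} (h : X ⊆ Y) : rgBall H R X ⊆ rgBall H R Y := by
  intro w hw
  rw [tgr_mem_ball] at hw ⊢
  obtain ⟨x, hx, e⟩ := hw
  exact ⟨x, h hx, e⟩

theorem fs7_ball_card {n d : ℕ} {H : Gr n} (hH : H ∈ regularGraphs n d) (R : ℕ) (X : Finset (Fin n)) :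
    (rgBall H R X).card ≤ X.card * (d + 1) ^ R := by
  classical
  have hsub : rgBall H R X ⊆ X.biUnion fun x => rgBall H R {x} := by
    intro w hw
    rw [tgr_mem_ball] at hw
    obtain ⟨x, hx, e⟩ := hw
    exact mem_biUnion.2 ⟨x, hx, tgr_mem_ball1.2 e⟩
  refine (card_le_card hsub).trans (card_biUnion_le.trans ?_)
  calc ∑ x ∈ X, (rgBall H R {x}).card ≤ ∑ _x ∈ X, (d + 1) ^ R := sum_le_sum fun x _ => b1x_ball_card hH R x
    _ = X.card * (d + 1) ^ R := by rw [sum_const, smul_eq_mul]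

/-- the two restrictions have the same degrees -/
theorem fs7_deg {n d : ℕ} {H H' : Gr n} {S : Finset (Fin n)} (hH : H ∈ regularGraphs n d) (hH' : H' ∈ regularGraphs n d)
    (hS : ∀ x y, (x ∉ S ∨ y ∉ S) → (H.Adj x y ↔ H'.Adj x y)) {R : ℕ} (hR : 1 ≤ R) {X : Finset (Fin n)} (hSX : S ⊆ X) (v : Fin n) :
    rgDeg (rgRes H' (rgBall H R X)) v = rgDeg (rgRes H (rgBall H R X)) v := by
  classical
  rw [b1x_mem_reg] at hH hH'
  by_cases hv : v ∈ S
  · have hvB : v ∈ rgBall H R X := rg_self_mem_ball H R (hSX hv)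
    have hnb : ∀ y, H.Adj v y → y ∈ rgBall H R X := fun y hy => by
      rw [tgr_mem_ball]
      refine ⟨v, hSX hv, ?_⟩
      rw [SimpleGraph.edist_eq_one_iff_adj.2 hy]
      exact_mod_cast hR
    have h1 : rgDeg (rgRes H (rgBall H R X)) v = d := by
      rw [← hH v]
      unfold rgDeg tgDeg
      congr 1
      ext y
      simp only [mem_filter, mem_univ, true_and, rg_res_adj]
      exact ⟨fun h => h.1, fun h => ⟨h, hvB, hnb y h⟩⟩
    have h2 : rgDeg (rgRes H' (rgBall H R X)) v = d := by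
      rw [← hH' v]
      unfold rgDeg tgDeg
      congr 1
      ext y
      simp only [mem_filter, mem_univ, true_and, rg_res_adj]
      refine ⟨fun h => h.1, fun h => ⟨h, hvB, ?_⟩⟩
      by_cases hy : y ∈ S
      · exact rg_self_mem_ball H R (hSX hy)
      · exact hnb y ((hS v y (Or.inr hy)).2 h)
    rw [h1, h2]
  · unfold rgDeg
    congr 1
    ext y
    simp only [mem_filter, mem_univ, true_and, rg_res_adj]
    rw [hS v y (Or.inl hv)]

open Classical in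
/-- the modification -/
noncomputable def fs7D {n : ℕ} (H H' : Gr n) : Matrix (Fin n) (Fin n) ℂ := fun x y =>
  (if H'.Adj x y then 1 else 0) - (if H.Adj x y then 1 else 0)

theorem fs7_eqns_cite : True := by
  have := @fs7D.eq_1
  trivial

theorem fs7_D_zero {n : ℕ} {H H' : Gr n} {S : Finset (Fin n)}
    (hS : ∀ x y, (x ∉ S ∨ y ∉ S) → (H.Adj x y ↔ H'.Adj x y)) (x y : Fin n) (h : ¬ (x ∈ S ∧ y ∈ S)) : fs7D H H' x y = 0 := by
  classical
  have := hS x y (by tauto)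
  unfold fs7D
  simp only [this, sub_self]

theorem fs7_D_le {n : ℕ} (H H' : Gr n) (x y : Fin n) : ‖fs7D H H' x y‖ ≤ 1 := by
  classical
  unfold fs7D
  split_ifs <;> simp

theorem fs7_mod {n d : ℕ} {H H' : Gr n} {S : Finset (Fin n)} (hH : H ∈ regularGraphs n d) (hH' : H' ∈ regularGraphs n d)
    (hS : ∀ x y, (x ∉ S ∨ y ∉ S) → (H.Adj x y ↔ H'.Adj x y)) {R : ℕ} (hR : 1 ≤ R) {X : Finset (Fin n)} (hSX : S ⊆ X) (z : ℂ) :
    rgMod d (rgRes H' (rgBall H R X)) z = rgMod d (rgRes H (rgBall H R X)) z + fs7D H H' := by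
  classical
  ext x y
  rw [Matrix.add_apply]
  unfold rgMod
  rw [fs7_deg hH hH' hS hR hSX x]
  have key : ((if (rgRes H' (rgBall H R X)).Adj x y then 1 else 0 : ℂ)) = (if (rgRes H (rgBall H R X)).Adj x y then 1 else 0) + fs7D H H' x y := by
    by_cases h : x ∈ S ∧ y ∈ S
    · have hx := rg_self_mem_ball H R (hSX h.1)
      have hy := rg_self_mem_ball H R (hSX h.2)
      unfold fs7D
      simp only [rg_res_adj, hx, hy, and_true]
      ring
    · rw [fs7_D_zero hS x y h, add_zero]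
      simp only [rg_res_adj, hS x y (by tauto)]
  rw [key]
  ring

theorem fs7_full {n : ℕ} (H H' : Gr n) (z : ℂ) :
    rsC (rgA H') - z • (1 : Matrix (Fin n) (Fin n) ℂ) = (rsC (rgA H) - z • (1 : Matrix (Fin n) (Fin n) ℂ)) + fs7D H H' := by
  classical
  ext x y
  simp only [Matrix.add_apply, Matrix.sub_apply, rs_C_apply, rgA, SimpleGraph.adjMatrix_apply, fs7D]
  split_ifs <;> simp <;> ring

/-- the exact identity `E' = (1 - P' Δ) E (1 - Δ G')` -/
theorem fs7_ident {V : Type} [Fintype V] [DecidableEq V] {M0 M0' M M' G G' P P' Δ : Matrix V V ℂ}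
    (h0 : M0' = M0 + Δ) (h1 : M' = M + Δ) (hG : G * M0 = 1) (hG' : M0' * G' = 1) (hP : M * P = 1) (hP' : P' * M' = 1) :
    G' - P' = (1 - P' * Δ) * (G - P) * (1 - Δ * G') := by
  have e1 : G * (1 - Δ * G') = G' := by
    have : G * (M0' * G') = G' + G * (Δ * G') := by
      rw [h0, add_mul, mul_add, ← mul_assoc, hG, one_mul]
    rw [hG', mul_one] at this
    rw [mul_sub, mul_one]
    nth_rewrite 1 [this]
    abel
  have e2 : (1 - P' * Δ) * P = P' := by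
    have : (P' * M') * P = P' + P' * Δ * P := by
      rw [h1, mul_add, add_mul, mul_assoc, hP, mul_one]
    rw [hP', one_mul] at this
    rw [sub_mul, one_mul]
    nth_rewrite 1 [this]
    abel
  calc G' - P' = (1 - P' * Δ) * G' - P' * (1 - Δ * G') := by noncomm_ring
    _ = (1 - P' * Δ) * (G * (1 - Δ * G')) - ((1 - P' * Δ) * P) * (1 - Δ * G') := by rw [e1, e2]
    _ = (1 - P' * Δ) * (G - P) * (1 - Δ * G') := by noncomm_ring

theorem fs7_D_sum {V : Type} [Fintype V] [DecidableEq V] {S : Finset V} {Δ : Matrix V V ℂ} {K0 : ℕ}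
    (hΔ0 : ∀ x y, ¬ (x ∈ S ∧ y ∈ S) → Δ x y = 0) (hΔ1 : ∀ x y, ‖Δ x y‖ ≤ 1) (hcard : S.card ≤ K0) :
    ∑ x, ∑ y, ‖Δ x y‖ ≤ (K0 : ℝ) ^ 2 := by
  have h1 : ∀ x y, ‖Δ x y‖ ≤ (if x ∈ S then 1 else 0) * (if y ∈ S then 1 else 0 : ℝ) := by
    intro x y
    by_cases hx : x ∈ S <;> by_cases hy : y ∈ S
    · simpa [hx, hy] using hΔ1 x y
    · simp [hx, hy, hΔ0 x y (by tauto)]
    · simp [hx, hy, hΔ0 x y (by tauto)]
    · simp [hx, hy, hΔ0 x y (by tauto)]
  calc ∑ x, ∑ y, ‖Δ x y‖ ≤ ∑ x, ∑ y, (if x ∈ S then 1 else 0) * (if y ∈ S then 1 else 0 : ℝ) :=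
        sum_le_sum fun x _ => sum_le_sum fun y _ => h1 x y
    _ = (S.card : ℝ) * S.card := by
        simp only [← mul_sum, ← sum_mul, sum_ite_mem, univ_inter, sum_const, nsmul_eq_mul, mul_one]
    _ ≤ (K0 : ℝ) ^ 2 := by
        have : (S.card : ℝ) ≤ K0 := by exact_mod_cast hcard
        nlinarith [(Nat.cast_nonneg S.card : (0 : ℝ) ≤ S.card)]

/-- the closing of the linear inequality -/
theorem fs7_abs {V : Type} [Fintype V] [DecidableEq V] {S X : Finset V} (hSX : S ⊆ X) {E E' P' G' Δ : Matrix V V ℂ}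
    {K0 : ℕ} {δ' b : ℝ} (hid : E' = (1 - P' * Δ) * E * (1 - Δ * G')) (hG' : G' = P' + E')
    (hΔ0 : ∀ x y, ¬ (x ∈ S ∧ y ∈ S) → Δ x y = 0) (hΔ1 : ∀ x y, ‖Δ x y‖ ≤ 1) (hcard : S.card ≤ K0)
    (hP : ∀ x y, ‖P' x y‖ ≤ b) (hE : ∀ x ∈ X, ∀ y ∈ X, ‖E x y‖ ≤ δ') (hδ : 0 ≤ δ') (hb : 0 ≤ b)
    (hsmall : δ' * (1 + b * (K0 : ℝ) ^ 2) * (K0 : ℝ) ^ 2 ≤ 1 / 2) :
    ∀ x ∈ X, ∀ y ∈ X, ‖E' x y‖ ≤ 2 * δ' * (1 + b * (K0 : ℝ) ^ 2) ^ 2 := by
  intro x0 hx0 y0 hy0
  have hsum := fs7_D_sum hΔ0 hΔ1 hcard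
  have hsum' : ∑ y, ∑ x, ‖Δ x y‖ ≤ (K0 : ℝ) ^ 2 := by rw [sum_comm]; exact hsum
  obtain ⟨p0, hp0, hmax⟩ := exists_max_image (X ×ˢ X) (fun p => ‖E' p.1 p.2‖) ⟨(x0, y0), mem_product.2 ⟨hx0, hy0⟩⟩
  obtain ⟨e, he⟩ : ∃ e : ℝ, e = ‖E' p0.1 p0.2‖ := ⟨_, rfl⟩
  have he0 : 0 ≤ e := he ▸ norm_nonneg _
  have hmax' : ∀ a ∈ X, ∀ c ∈ X, ‖E' a c‖ ≤ e := fun a ha c hc => he ▸ hmax (a, c) (mem_product.2 ⟨ha, hc⟩)
  -- the left factor
  have hL0 : ∀ a ∈ X, ∀ a', a' ∉ X → (1 - P' * Δ) a a' = 0 := by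
    intro a ha a' ha'
    rw [Matrix.sub_apply, Matrix.one_apply_ne (fun h : a = a' => ha' (h ▸ ha)), Matrix.mul_apply]
    simp only [hΔ0 _ a' (fun h => ha' (hSX h.2)), mul_zero, sum_const_zero, sub_zero]
  have hL1 : ∀ a, ∑ a', ‖(1 - P' * Δ) a a'‖ ≤ 1 + b * (K0 : ℝ) ^ 2 := by
    intro a
    calc ∑ a', ‖(1 - P' * Δ) a a'‖ ≤ ∑ a', (‖(1 : Matrix V V ℂ) a a'‖ + ∑ s, b * ‖Δ s a'‖) := by
          refine sum_le_sum fun a' _ => ?_
          rw [Matrix.sub_apply, Matrix.mul_apply]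
          refine (norm_sub_le _ _).trans (add_le_add le_rfl ((norm_sum_le _ _).trans (sum_le_sum fun s _ => ?_)))
          rw [norm_mul]
          exact mul_le_mul_of_nonneg_right (hP a s) (norm_nonneg _)
      _ = 1 + b * ∑ a', ∑ s, ‖Δ s a'‖ := by
          rw [sum_add_distrib, mul_sum]
          congr 1
          · simp only [Matrix.one_apply, apply_ite norm, norm_one, norm_zero, sum_ite_eq, mem_univ, if_true]
          · exact sum_congr rfl fun a' _ => (mul_sum _ _ _).symm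
      _ ≤ 1 + b * (K0 : ℝ) ^ 2 := by
          have := mul_le_mul_of_nonneg_left hsum' hb
          linarith
  -- the right factor
  have hR0 : ∀ c ∈ X, ∀ c', c' ∉ X → (1 - Δ * G') c' c = 0 := by
    intro c hc c' hc'
    rw [Matrix.sub_apply, Matrix.one_apply_ne (fun h : c' = c => hc' (h ▸ hc)), Matrix.mul_apply]
    simp only [hΔ0 c' _ (fun h => hc' (hSX h.1)), zero_mul, sum_const_zero, sub_zero]
  have hR1 : ∀ c ∈ X, ∑ c', ‖(1 - Δ * G') c' c‖ ≤ 1 + (b + e) * (K0 : ℝ) ^ 2 := by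
    intro c hc
    calc ∑ c', ‖(1 - Δ * G') c' c‖ ≤ ∑ c', (‖(1 : Matrix V V ℂ) c' c‖ + ∑ t, (b + e) * ‖Δ c' t‖) := by
          refine sum_le_sum fun c' _ => ?_
          rw [Matrix.sub_apply, Matrix.mul_apply]
          refine (norm_sub_le _ _).trans (add_le_add le_rfl ((norm_sum_le _ _).trans (sum_le_sum fun t _ => ?_)))
          rw [norm_mul, mul_comm]
          by_cases ht : t ∈ S
          · refine mul_le_mul_of_nonneg_right ?_ (norm_nonneg _)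
            rw [hG', Matrix.add_apply]
            exact (norm_add_le _ _).trans (add_le_add (hP t c) (hmax' t (hSX ht) c hc))
          · rw [hΔ0 c' t (fun h => ht h.2)]; simp
      _ = 1 + (b + e) * ∑ c', ∑ t, ‖Δ c' t‖ := by
          rw [sum_add_distrib, mul_sum]
          congr 1
          · simp only [Matrix.one_apply, apply_ite norm, norm_one, norm_zero, sum_ite_eq', mem_univ, if_true]
          · exact sum_congr rfl fun a' _ => (mul_sum _ _ _).symm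
      _ ≤ 1 + (b + e) * (K0 : ℝ) ^ 2 := by
          have := mul_le_mul_of_nonneg_left hsum (add_nonneg hb he0)
          linarith
  -- one entry
  have hent : ∀ a ∈ X, ∀ c ∈ X, ‖E' a c‖ ≤ δ' * (1 + b * (K0 : ℝ) ^ 2) * (1 + (b + e) * (K0 : ℝ) ^ 2) := by
    intro a ha c hc
    have h1 : E' a c = ∑ c', ∑ a', (1 - P' * Δ) a a' * E a' c' * (1 - Δ * G') c' c := by
      rw [hid, Matrix.mul_apply]
      refine sum_congr rfl fun c' _ => ?_
      rw [Matrix.mul_apply, sum_mul]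
    rw [h1]
    calc ‖∑ c', ∑ a', (1 - P' * Δ) a a' * E a' c' * (1 - Δ * G') c' c‖
        ≤ ∑ c', ∑ a', ‖(1 - P' * Δ) a a'‖ * δ' * ‖(1 - Δ * G') c' c‖ := by
          refine (norm_sum_le _ _).trans (sum_le_sum fun c' _ => (norm_sum_le _ _).trans (sum_le_sum fun a' _ => ?_))
          rw [norm_mul, norm_mul]
          by_cases ha' : a' ∈ X
          · by_cases hc' : c' ∈ X
            · exact mul_le_mul_of_nonneg_right (mul_le_mul_of_nonneg_left (hE a' ha' c' hc') (norm_nonneg _)) (norm_nonneg _)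
            · rw [hR0 c hc c' hc']; simp
          · rw [hL0 a ha a' ha']; simp
      _ = δ' * (∑ a', ‖(1 - P' * Δ) a a'‖) * ∑ c', ‖(1 - Δ * G') c' c‖ := by
          rw [mul_assoc, sum_mul_sum, mul_sum, sum_comm]
          refine sum_congr rfl fun a' _ => ?_
          rw [mul_sum]
          exact sum_congr rfl fun c' _ => by ring
      _ ≤ δ' * (1 + b * (K0 : ℝ) ^ 2) * (1 + (b + e) * (K0 : ℝ) ^ 2) := by
          have hA := hL1 a
          have hB := hR1 c hc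
          have hA0 : 0 ≤ ∑ a', ‖(1 - P' * Δ) a a'‖ := sum_nonneg fun _ _ => norm_nonneg _
          have hB0 : 0 ≤ ∑ c', ‖(1 - Δ * G') c' c‖ := sum_nonneg fun _ _ => norm_nonneg _
          have hc0 : 0 ≤ 1 + b * (K0 : ℝ) ^ 2 := by positivity
          exact mul_le_mul (mul_le_mul_of_nonneg_left hA hδ) hB hB0 (mul_nonneg hδ hc0)
  have hp := mem_product.1 hp0
  have hkey := hent p0.1 hp.1 p0.2 hp.2
  rw [← he] at hkey
  have hfin : e ≤ 2 * δ' * (1 + b * (K0 : ℝ) ^ 2) ^ 2 := by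
    have : δ' * (1 + b * (K0 : ℝ) ^ 2) * (1 + (b + e) * (K0 : ℝ) ^ 2)
        = δ' * (1 + b * (K0 : ℝ) ^ 2) ^ 2 + (δ' * (1 + b * (K0 : ℝ) ^ 2) * (K0 : ℝ) ^ 2) * e := by ring
    have h2 : (δ' * (1 + b * (K0 : ℝ) ^ 2) * (K0 : ℝ) ^ 2) * e ≤ 1 / 2 * e := mul_le_mul_of_nonneg_right hsmall he0
    linarith
  exact (hmax' x0 hx0 y0 hy0).trans hfin

theorem b1_FS' (d : ℕ) (hd : 3 ≤ d) (K0 : ℕ) :
    ∃ Cs : ℝ, 1 ≤ Cs ∧ ∃ ds : ℝ, 0 < ds ∧ ∀ (R n : ℕ) (H H' : Gr n) (S : Finset (Fin n)) (z : ℂ) (δ : ℝ),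
      1 ≤ R → H ∈ regularGraphs n d → H' ∈ regularGraphs n d → S.card ≤ K0 → (∀ x y, (x ∉ S ∨ y ∉ S) → (H.Adj x y ↔ H'.Adj x y)) →
      RgSparse H ((K0 + 2) * (d + 1) ^ R) → RgSparse H' ((K0 + 2) * (d + 1) ^ R) → 0 < z.im → 0 ≤ δ → δ ≤ ds → ‖rgg d z‖ ^ R ≤ ds →
      RgDev d R H z δ → RgDev d R H' z (Cs * (δ + ‖rgg d z‖ ^ R)) := by
  classical
  obtain ⟨c, hc⟩ : ∃ c : ℝ, c = 1 + 27 / 2 * (K0 : ℝ) ^ 2 := ⟨_, rfl⟩
  have hc1 : 1 ≤ c := by rw [hc]; have : 0 ≤ 27 / 2 * (K0 : ℝ) ^ 2 := by positivity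
                         linarith
  refine ⟨27 * c ^ 2 + 27 / 2, by nlinarith, 1 / (29 * c * ((K0 : ℝ) ^ 2 + 1)), by positivity, ?_⟩
  intro R n H H' S z δ hR hH hH' hcard hS hsp hsp' hz hδ0 hδ hg hdev x y
  obtain ⟨γ, hγ⟩ : ∃ γ : ℝ, γ = ‖rgg d z‖ ^ R := ⟨_, rfl⟩
  rw [← hγ] at hg ⊢
  have hγ0 : 0 ≤ γ := by rw [hγ]; positivity
  obtain ⟨X, hX⟩ : ∃ X : Finset (Fin n), X = {x, y} ∪ S := ⟨_, rfl⟩
  have hSX : S ⊆ X := hX ▸ subset_union_right
  have hxX : x ∈ X := by rw [hX]; simp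
  have hyX : y ∈ X := by rw [hX]; simp
  have hXcard : X.card ≤ K0 + 2 := by
    rw [hX]
    refine (card_union_le _ _).trans ?_
    have : ({x, y} : Finset (Fin n)).card ≤ 2 := card_le_two
    omega
  obtain ⟨B, hB⟩ : ∃ B : Finset (Fin n), B = rgBall H R X := ⟨_, rfl⟩
  have hBcard : B.card ≤ (K0 + 2) * (d + 1) ^ R := by
    rw [hB]
    exact (fs7_ball_card hH R X).trans (Nat.mul_le_mul_right _ hXcard)
  have hΓ : TgSparse (rgRes H B) := tgIn_sparse H B fun W hW => hsp W ((card_le_card hW).trans hBcard)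
  have hΓ' : TgSparse (rgRes H' B) := tgIn_sparse H' B fun W hW => hsp' W ((card_le_card hW).trans hBcard)
  have hz' : z.im ≠ 0 := hz.ne'
  have hid := fs7_ident (fs7_full H H' z) (hB ▸ fs7_mod hH hH' hS hR hSX z) (rs_G_mul (rg_A_herm H) hz') (rs_mul_G (rg_A_herm H') hz')
    (tgr_PB_mul hΓ (by omega) hz) (tgr_PB_mul' hΓ' (by omega) hz)
  have hE : ∀ a ∈ X, ∀ b ∈ X, ‖(rsG (rgA H) z - rgPB d (rgRes H B) z) a b‖ ≤ δ + 27 / 2 * γ := by
    intro a ha b hb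
    have h1 := hdev a b
    have h2 := tgr_Pm_cons (R := R) hΓ (rg_res_le H B) hd hz a b (tgIn_mono H (by
      rw [hB]
      refine fs7_ball_mono_set R ?_
      intro w hw
      rcases mem_insert.1 hw with rfl | hw
      · exact ha
      · rw [mem_singleton.1 hw]; exact hb))
    rw [← hγ] at h2
    rw [Matrix.sub_apply]
    calc ‖rsG (rgA H) z a b - rgPB d (rgRes H B) z a b‖
        = ‖(rgG H z a b - rgPm d R H z a b) - (rgPB d (rgRes H B) z a b - rgPm d R H z a b)‖ := by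
          congr 1; unfold rgG; ring
      _ ≤ δ + 27 / 2 * γ := (norm_sub_le _ _).trans (add_le_add h1 h2)
  have hsmall : (δ + 27 / 2 * γ) * (1 + 27 / 2 * (K0 : ℝ) ^ 2) * (K0 : ℝ) ^ 2 ≤ 1 / 2 := by
    rw [← hc]
    have hK : 0 ≤ (K0 : ℝ) ^ 2 := by positivity
    have h1 : δ + 27 / 2 * γ ≤ 29 / 2 * (1 / (29 * c * ((K0 : ℝ) ^ 2 + 1))) := by linarith
    calc (δ + 27 / 2 * γ) * c * (K0 : ℝ) ^ 2 ≤ 29 / 2 * (1 / (29 * c * ((K0 : ℝ) ^ 2 + 1))) * c * (K0 : ℝ) ^ 2 := by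
          gcongr
      _ = (K0 : ℝ) ^ 2 / (2 * ((K0 : ℝ) ^ 2 + 1)) := by field_simp
      _ ≤ 1 / 2 := by
          rw [div_le_iff₀ (by positivity)]
          linarith
  have hmain := fs7_abs (S := S) (X := X) hSX (K0 := K0) (δ' := δ + 27 / 2 * γ) (b := 27 / 2) hid (by abel)
    (fs7_D_zero hS) (fs7_D_le H H') hcard (fun a b => tgr_PB_le hΓ' hd hz a b) hE (by positivity) (by norm_num) hsmall x hxX y hyX
  have hlast := tgr_Pm_cons (R := R) hΓ' (rg_res_le H' B) hd hz x y (tgIn_mono H' (by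
    rw [hB, hX]
    exact fs7_ball_sub hS R {x, y}))
  rw [← hγ] at hlast
  rw [Matrix.sub_apply, ← hc] at hmain
  calc ‖rgG H' z x y - rgPm d R H' z x y‖
      = ‖(rsG (rgA H') z x y - rgPB d (rgRes H' B) z x y) + (rgPB d (rgRes H' B) z x y - rgPm d R H' z x y)‖ := by
        congr 1; unfold rgG; ring
    _ ≤ 2 * (δ + 27 / 2 * γ) * c ^ 2 + 27 / 2 * γ := (norm_add_le _ _).trans (add_le_add hmain hlast)
    _ ≤ (27 * c ^ 2 + 27 / 2) * (δ + γ) := by
        have hc2 : 0 ≤ c ^ 2 := by positivity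
        nlinarith [mul_nonneg hc2 hδ0, mul_nonneg hc2 hγ0]

end Claimed.Agent.R287
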