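/-
Row 287 (S0534), unit B1, BOX[CT]: Combes-Thomas estimate for dissipative matrices `A_Γ - diag Z`, `Im Z ≥ h > 0`,
and the deterministic start of the descent (route102 L2 as repaired in notes/R287/A1_270.md, K2.5).      helper270.   prefix `cth`.

* `cthM Γ Z = A_Γ - diag Z`;  `cth_lower`: `(h/2) ∑ |w|² ≤ |⟨w, W M W⁻¹ w⟩|` for the weights `W = q^ρ`, `ρ` 1-Lipschitz, `d (q-1) ≤ h/2`;
* `cth_isUnit`, `cth_col`: `∑_y q^(2ρ(y)) |M⁻¹ y x|² ≤ (4/h²) q^(2ρ(x))`;
* `cth_compare`: two such matrices which differ only far from `x` (rows) and from `y` (columns);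
* `cth_start`: `|G_xy - P_xy| ≤ 8 d h⁻² q^(-2R)` for EVERY `d`-regular graph (no structure of the balls), `b1_start'`.
-/
import Claimed.Agent.R287.B1x270

set_option autoImplicit false
set_option linter.unusedSectionVars false

namespace Claimed.Agent.R287

open Finset Claims.C0462

section generic
variable {V : Type*} [Fintype V] [DecidableEq V]

open Classical in
/-- `A_Γ - diag Z` -/
noncomputable def cthM (Γ : SimpleGraph V) (Z : V → ℂ) : Matrix V V ℂ := fun x y =>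
  (if Γ.Adj x y then 1 else 0) - (if x = y then Z x else 0)

theorem cth_eqns_cite : True := by
  have := @cthM.eq_1.{0}
  trivial

open Classical in
/-- the adjacency form is real -/
theorem cth_adj_real (Γ : SimpleGraph V) (w : V → ℂ) :
    (∑ x, ∑ y, (if Γ.Adj x y then (starRingEnd ℂ) (w x) * w y else 0)).im = 0 := by
  rw [← Complex.conj_eq_iff_im]
  simp only [map_sum, apply_ite (starRingEnd ℂ), map_mul, Complex.conj_conj, map_zero]
  rw [sum_comm]
  refine sum_congr rfl fun x _ => sum_congr rfl fun y _ => ?_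
  simp only [SimpleGraph.adj_comm, mul_comm]

open Classical in
/-- Schur test for the adjacency matrix -/
theorem cth_schur {Γ : SimpleGraph V} {d : ℕ} (hdeg : ∀ x, tgDeg Γ x ≤ d) (a b : V → ℝ) :
    ∑ x, ∑ y, (if Γ.Adj x y then a x * b y else 0) ≤ (d : ℝ) / 2 * (∑ x, a x ^ 2 + ∑ x, b x ^ 2) := by
  have h1 : ∀ x y, (if Γ.Adj x y then a x * b y else 0)
      ≤ (if Γ.Adj x y then a x ^ 2 / 2 else 0) + (if Γ.Adj x y then b y ^ 2 / 2 else 0) := by
    intro x y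
    split_ifs
    · nlinarith [sq_nonneg (a x - b y)]
    · norm_num
  have hrow : ∀ (c : V → ℝ) (x : V), ∑ y, (if Γ.Adj x y then c x ^ 2 / 2 else 0) ≤ (d : ℝ) / 2 * c x ^ 2 := by
    intro c x
    rw [← sum_filter, sum_const, nsmul_eq_mul]
    have : ((univ.filter fun y => Γ.Adj x y).card : ℝ) ≤ d := by exact_mod_cast hdeg x
    nlinarith [sq_nonneg (c x)]
  calc ∑ x, ∑ y, (if Γ.Adj x y then a x * b y else 0)
      ≤ ∑ x, ∑ y, ((if Γ.Adj x y then a x ^ 2 / 2 else 0) + (if Γ.Adj x y then b y ^ 2 / 2 else 0)) :=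
        sum_le_sum fun x _ => sum_le_sum fun y _ => h1 x y
    _ = ∑ x, ∑ y, (if Γ.Adj x y then a x ^ 2 / 2 else 0) + ∑ y, ∑ x, (if Γ.Adj y x then b y ^ 2 / 2 else 0) := by
        simp only [sum_add_distrib]
        congr 1
        rw [sum_comm]
        refine sum_congr rfl fun x _ => sum_congr rfl fun y _ => ?_
        simp only [SimpleGraph.adj_comm]
    _ ≤ ∑ x, (d : ℝ) / 2 * a x ^ 2 + ∑ y, (d : ℝ) / 2 * b y ^ 2 :=
        add_le_add (sum_le_sum fun x _ => hrow a x) (sum_le_sum fun y _ => hrow b y)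
    _ = _ := by rw [← mul_sum, ← mul_sum, mul_add]

/-- the ratio of neighbouring weights -/
theorem cth_ratio {q : ℝ} (hq : 1 ≤ q) {a b : ℕ} (h1 : a ≤ b + 1) (h2 : b ≤ a + 1) :
    |q ^ a / q ^ b - 1| ≤ q - 1 := by
  have hq0 : 0 < q := by linarith
  have hb : 0 < q ^ b := pow_pos hq0 b
  have ha : 0 < q ^ a := pow_pos hq0 a
  have : a = b + 1 ∨ a = b ∨ b = a + 1 := by omega
  rcases this with e | e | e
  · have e1 : q ^ a / q ^ b = q := by
      rw [e, pow_succ]; field_simp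
    rw [e1, abs_of_nonneg (by linarith)]
  · rw [e, div_self hb.ne', sub_self, abs_zero]; linarith
  · have e1 : q ^ a / q ^ b = q⁻¹ := by
      rw [e, pow_succ]; field_simp
    have h3 : 0 < q⁻¹ := inv_pos.mpr hq0
    have h4 : q⁻¹ ≤ 1 := inv_le_one_of_one_le₀ hq
    rw [e1, abs_sub_comm, abs_of_nonneg (by linarith)]
    nlinarith [mul_nonneg (sub_nonneg.mpr hq) (sub_nonneg.mpr h4), mul_inv_cancel₀ hq0.ne']

open Classical in
/-- **the quadratic form of the conjugated matrix** -/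
theorem cth_lower {Γ : SimpleGraph V} {d : ℕ} (hdeg : ∀ x, tgDeg Γ x ≤ d) {Z : V → ℂ} {h : ℝ}
    (hZ : ∀ x, h ≤ (Z x).im) {q : ℝ} (hq : 1 ≤ q) (hqd : (d : ℝ) * (q - 1) ≤ h / 2) {ρ : V → ℕ}
    (hρ : ∀ x y, Γ.Adj x y → ρ x ≤ ρ y + 1) (w : V → ℂ) :
    h / 2 * ∑ x, ‖w x‖ ^ 2
      ≤ ‖∑ x, (starRingEnd ℂ) (w x) * ∑ y, cthM Γ Z x y * ((q ^ ρ x / q ^ ρ y : ℝ) : ℂ) * w y‖ := by
  have hq0 : 0 < q := by linarith
  set c : V → V → ℝ := fun x y => q ^ ρ x / q ^ ρ y with hc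
  have hcc : ∀ x, c x x = 1 := fun x => div_self (pow_pos hq0 _).ne'
  set S := ∑ x, ∑ y, (if Γ.Adj x y then (starRingEnd ℂ) (w x) * w y else 0) with hS
  set E := ∑ x, ∑ y, (if Γ.Adj x y then (starRingEnd ℂ) (w x) * (((c x y - 1 : ℝ) : ℂ) * w y) else 0) with hE
  set D := ∑ x, Z x * ((‖w x‖ ^ 2 : ℝ) : ℂ) with hD
  have hX : ∑ x, (starRingEnd ℂ) (w x) * ∑ y, cthM Γ Z x y * ((c x y : ℝ) : ℂ) * w y = S + E - D := by
    rw [hS, hE, hD, ← sum_add_distrib, ← sum_sub_distrib]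
    refine sum_congr rfl fun x _ => ?_
    rw [mul_sum, ← sum_add_distrib]
    have e1 : Z x * ((‖w x‖ ^ 2 : ℝ) : ℂ)
        = ∑ y, (if x = y then (starRingEnd ℂ) (w x) * (Z x * w y) else 0) := by
      rw [sum_ite_eq, if_pos (mem_univ x)]
      have : ((‖w x‖ ^ 2 : ℝ) : ℂ) = (starRingEnd ℂ) (w x) * w x := by
        rw [← Complex.normSq_eq_norm_sq, Complex.normSq_eq_conj_mul_self]
      rw [this]; ring
    rw [e1, ← sum_sub_distrib]
    refine sum_congr rfl fun y _ => ?_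
    unfold cthM
    by_cases hxy : x = y
    · subst hxy
      simp [hcc]
    · by_cases hadj : Γ.Adj x y
      · simp only [hadj, hxy, if_true, if_false]
        push_cast
        ring
      · simp [hadj, hxy]
  rw [hX]
  have hSim : S.im = 0 := cth_adj_real Γ w
  have hDim : D.im = ∑ x, (Z x).im * ‖w x‖ ^ 2 := by
    rw [hD, Complex.im_sum]
    refine sum_congr rfl fun x _ => ?_
    rw [Complex.im_mul_ofReal]
  have hEn : ‖E‖ ≤ h / 2 * ∑ x, ‖w x‖ ^ 2 := by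
    have h1 : ‖E‖ ≤ ∑ x, ∑ y, (if Γ.Adj x y then (q - 1) * (‖w x‖ * ‖w y‖) else 0) := by
      rw [hE]
      refine (norm_sum_le _ _).trans (sum_le_sum fun x _ => (norm_sum_le _ _).trans (sum_le_sum fun y _ => ?_))
      by_cases hadj : Γ.Adj x y
      · simp only [hadj, if_true]
        rw [norm_mul, norm_mul, RCLike.norm_conj, Complex.norm_real, Real.norm_eq_abs]
        have := cth_ratio hq (hρ x y hadj) (hρ y x hadj.symm)
        have h2 : 0 ≤ ‖w x‖ * ‖w y‖ := by positivity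
        calc ‖w x‖ * (|c x y - 1| * ‖w y‖) = |c x y - 1| * (‖w x‖ * ‖w y‖) := by ring
          _ ≤ (q - 1) * (‖w x‖ * ‖w y‖) := mul_le_mul_of_nonneg_right this h2
      · simp [hadj]
    have h2 : ∑ x, ∑ y, (if Γ.Adj x y then (q - 1) * (‖w x‖ * ‖w y‖) else 0)
        = (q - 1) * ∑ x, ∑ y, (if Γ.Adj x y then ‖w x‖ * ‖w y‖ else 0) := by
      rw [mul_sum]
      refine sum_congr rfl fun x _ => ?_
      rw [mul_sum]
      refine sum_congr rfl fun y _ => ?_
      split_ifs <;> simp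
    have h3 := cth_schur hdeg (fun x => ‖w x‖) (fun x => ‖w x‖)
    have h4 : 0 ≤ ∑ x, ‖w x‖ ^ 2 := sum_nonneg fun x _ => by positivity
    rw [h2] at h1
    calc ‖E‖ ≤ (q - 1) * ((d : ℝ) / 2 * (∑ x, ‖w x‖ ^ 2 + ∑ x, ‖w x‖ ^ 2)) :=
          h1.trans (mul_le_mul_of_nonneg_left h3 (by linarith))
      _ = ((d : ℝ) * (q - 1)) * ∑ x, ‖w x‖ ^ 2 := by ring
      _ ≤ h / 2 * ∑ x, ‖w x‖ ^ 2 := mul_le_mul_of_nonneg_right hqd h4
  have hDge : h * ∑ x, ‖w x‖ ^ 2 ≤ D.im := by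
    rw [hDim, mul_sum]
    exact sum_le_sum fun x _ => mul_le_mul_of_nonneg_right (hZ x) (by positivity)
  have him : (S + E - D).im = E.im - D.im := by
    rw [Complex.sub_im, Complex.add_im, hSim, zero_add]
  have h5 : |E.im| ≤ ‖E‖ := Complex.abs_im_le_norm E
  have h6 : |(S + E - D).im| ≤ ‖S + E - D‖ := Complex.abs_im_le_norm _
  rw [him] at h6
  have h7 : D.im - E.im ≤ |E.im - D.im| := by
    rw [abs_sub_comm]; exact le_abs_self _
  have h8 : E.im ≤ |E.im| := le_abs_self _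
  linarith

/-- a dissipative matrix is invertible -/
theorem cth_isUnit {Γ : SimpleGraph V} {d : ℕ} (hdeg : ∀ x, tgDeg Γ x ≤ d) {Z : V → ℂ} {h : ℝ} (hh : 0 < h)
    (hZ : ∀ x, h ≤ (Z x).im) : IsUnit (cthM Γ Z) := by
  rw [← Matrix.mulVec_injective_iff_isUnit]
  intro v v' e
  have e0 : (cthM Γ Z).mulVec (v - v') = 0 := by rw [Matrix.mulVec_sub, e, sub_self]
  have h1 := cth_lower hdeg hZ (le_refl (1 : ℝ)) (by simp; linarith) (ρ := fun _ => 0)
    (fun _ _ _ => by omega) (v - v')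
  have h2 : ∀ x, ∑ y, cthM Γ Z x y * (((1 : ℝ) ^ 0 / (1 : ℝ) ^ 0 : ℝ) : ℂ) * (v - v') y = 0 := by
    intro x
    have := congrFun e0 x
    simp only [Matrix.mulVec, dotProduct, Pi.zero_apply] at this
    rw [← this]
    refine sum_congr rfl fun y _ => ?_
    simp
  simp only [h2, mul_zero, sum_const_zero, norm_zero] at h1
  have h3 : ∑ x, ‖(v - v') x‖ ^ 2 ≤ 0 := by
    by_contra hcon
    rw [not_le] at hcon
    have : 0 < h / 2 * ∑ x, ‖(v - v') x‖ ^ 2 := by positivity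
    linarith
  have h4 : ∀ x ∈ univ, ‖(v - v') x‖ ^ 2 = 0 :=
    (sum_eq_zero_iff_of_nonneg fun x _ => by positivity).mp (le_antisymm h3 (sum_nonneg fun x _ => by positivity))
  ext x
  have h5 := h4 x (mem_univ x)
  rw [pow_eq_zero_iff (by norm_num), norm_eq_zero, Pi.sub_apply, sub_eq_zero] at h5
  exact h5

theorem cth_mul_inv {Γ : SimpleGraph V} {d : ℕ} (hdeg : ∀ x, tgDeg Γ x ≤ d) {Z : V → ℂ} {h : ℝ} (hh : 0 < h)
    (hZ : ∀ x, h ≤ (Z x).im) : cthM Γ Z * (cthM Γ Z)⁻¹ = 1 :=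
  Matrix.mul_nonsing_inv _ ((Matrix.isUnit_iff_isUnit_det _).mp (cth_isUnit hdeg hh hZ))

theorem cth_transpose (Γ : SimpleGraph V) (Z : V → ℂ) : (cthM Γ Z).transpose = cthM Γ Z := by
  classical
  ext a b
  simp only [Matrix.transpose_apply, cthM]
  by_cases hab : a = b
  · subst hab; rfl
  · have hba : ¬ b = a := fun e => hab e.symm
    simp only [hab, hba, if_false, SimpleGraph.adj_comm]

theorem cth_inv_symm (Γ : SimpleGraph V) (Z : V → ℂ) (x y : V) : (cthM Γ Z)⁻¹ x y = (cthM Γ Z)⁻¹ y x := by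
  have : ((cthM Γ Z)⁻¹).transpose = (cthM Γ Z)⁻¹ := by
    rw [Matrix.transpose_nonsing_inv, cth_transpose]
  exact (congrFun (congrFun this y) x).symm ▸ rfl

/-- **Combes-Thomas**, column form -/
theorem cth_col {Γ : SimpleGraph V} {d : ℕ} (hdeg : ∀ x, tgDeg Γ x ≤ d) {Z : V → ℂ} {h : ℝ} (hh : 0 < h)
    (hZ : ∀ x, h ≤ (Z x).im) {q : ℝ} (hq : 1 ≤ q) (hqd : (d : ℝ) * (q - 1) ≤ h / 2) {ρ : V → ℕ}
    (hρ : ∀ x y, Γ.Adj x y → ρ x ≤ ρ y + 1) {P : Matrix V V ℂ} (hP : cthM Γ Z * P = 1) (x₀ : V) :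
    h ^ 2 * ∑ y, (q ^ ρ y * ‖P y x₀‖) ^ 2 ≤ 4 * (q ^ ρ x₀) ^ 2 := by
  classical
  have hq0 : 0 < q := by linarith
  set w : V → ℂ := fun y => ((q ^ ρ y : ℝ) : ℂ) * P y x₀ with hw
  have h1 := cth_lower hdeg hZ hq hqd hρ w
  have hnorm : ∀ y, ‖w y‖ = q ^ ρ y * ‖P y x₀‖ := by
    intro y
    rw [hw, norm_mul, Complex.norm_real, Real.norm_eq_abs, abs_of_pos (pow_pos hq0 _)]
  have h2 : ∀ x, ∑ y, cthM Γ Z x y * ((q ^ ρ x / q ^ ρ y : ℝ) : ℂ) * w y
      = ((q ^ ρ x : ℝ) : ℂ) * (if x = x₀ then 1 else 0) := by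
    intro x
    have e := congrFun (congrFun hP x) x₀
    rw [Matrix.mul_apply, Matrix.one_apply] at e
    rw [← e, mul_sum]
    refine sum_congr rfl fun y _ => ?_
    have hne : ((q ^ ρ y : ℝ) : ℂ) ≠ 0 := by
      exact_mod_cast (pow_pos hq0 _).ne'
    rw [hw]
    push_cast
    push_cast at hne
    field_simp
  simp only [h2, mul_ite, mul_one, mul_zero, sum_ite_eq', mem_univ, if_true] at h1
  rw [norm_mul, RCLike.norm_conj, Complex.norm_real, Real.norm_eq_abs, abs_of_pos (pow_pos hq0 _)] at h1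
  simp only [hnorm] at h1
  set S := ∑ y, (q ^ ρ y * ‖P y x₀‖) ^ 2 with hS
  set t := q ^ ρ x₀ * ‖P x₀ x₀‖ with ht
  set Q := q ^ ρ x₀ with hQ
  have hS0 : 0 ≤ S := sum_nonneg fun y _ => by positivity
  have ht0 : 0 ≤ t := by positivity
  have hQ0 : 0 < Q := pow_pos hq0 _
  have htS : t ^ 2 ≤ S := by
    rw [hS]
    exact single_le_sum (f := fun y => (q ^ ρ y * ‖P y x₀‖) ^ 2) (fun y _ => by positivity) (mem_univ x₀)
  rcases hS0.eq_or_lt with e | hpos
  · rw [← e, mul_zero]; positivity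
  · have h3 : (h / 2 * S) ^ 2 ≤ (t * Q) ^ 2 := by
      apply pow_le_pow_left₀ (by positivity) h1
    have h4 : (h / 2 * S) ^ 2 ≤ S * Q ^ 2 := by
      calc (h / 2 * S) ^ 2 ≤ (t * Q) ^ 2 := h3
        _ = t ^ 2 * Q ^ 2 := by ring
        _ ≤ S * Q ^ 2 := mul_le_mul_of_nonneg_right htS (by positivity)
    have h5 : (h ^ 2 * S) * S ≤ (4 * Q ^ 2) * S := by nlinarith
    exact le_of_mul_le_mul_right h5 hpos

open Classical in
/-- **comparison of two inverses** whose matrices differ only far from `x` (rows) and far from `y` (columns) -/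
theorem cth_compare {H : SimpleGraph V} {d : ℕ} (hdeg : ∀ x, tgDeg H x ≤ d) {M₁ M₂ G P : Matrix V V ℂ}
    (hG : G * M₁ = 1) (hP : M₂ * P = 1) {h q : ℝ} (hh : 0 < h) (hq : 1 ≤ q) {ρ₁ ρ₂ : V → ℕ} {R : ℕ} {x y : V}
    (hΔ : ∀ w w', ‖(M₂ - M₁) w w'‖ ≤ (if H.Adj w w' then 1 else 0) + (if w = w' then (d : ℝ) else 0))
    (hfar : ∀ w w', (M₂ - M₁) w w' ≠ 0 → R ≤ ρ₁ w ∧ R ≤ ρ₂ w')
    (cG : h ^ 2 * ∑ w, (q ^ ρ₁ w * ‖G x w‖) ^ 2 ≤ 4) (cP : h ^ 2 * ∑ w, (q ^ ρ₂ w * ‖P w y‖) ^ 2 ≤ 4) :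
    ‖G x y - P x y‖ ≤ 8 * d / (h ^ 2 * q ^ (2 * R)) := by
  have hq0 : 0 < q := by linarith
  have e : G - P = G * (M₂ - M₁) * P := by
    rw [mul_sub, sub_mul, hG, one_mul, mul_assoc, hP, mul_one]
  have e2 : G x y - P x y = ∑ w', ∑ w, G x w * (M₂ - M₁) w w' * P w' y := by
    have := congrFun (congrFun e x) y
    rw [Matrix.sub_apply, Matrix.mul_apply] at this
    rw [this]
    refine sum_congr rfl fun w' _ => ?_
    rw [Matrix.mul_apply, sum_mul]
  set a : V → ℝ := fun w => q ^ ρ₁ w * ‖G x w‖ with ha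
  set b : V → ℝ := fun w => q ^ ρ₂ w * ‖P w y‖ with hb
  have ha0 : ∀ w, 0 ≤ a w := fun w => by positivity
  have hb0 : ∀ w, 0 ≤ b w := fun w => by positivity
  have hqR : 0 < q ^ (2 * R) := pow_pos hq0 _
  have hterm : ∀ w w', ‖G x w * (M₂ - M₁) w w' * P w' y‖ * q ^ (2 * R)
      ≤ (if H.Adj w w' then a w * b w' else 0) + (if w = w' then (d : ℝ) * (a w * b w') else 0) := by
    intro w w'
    have hnn : 0 ≤ (if H.Adj w w' then a w * b w' else 0) + (if w = w' then (d : ℝ) * (a w * b w') else 0) := by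
      have := mul_nonneg (ha0 w) (hb0 w')
      split_ifs <;> positivity
    by_cases h0 : (M₂ - M₁) w w' = 0
    · rw [h0, mul_zero, zero_mul, norm_zero, zero_mul]; exact hnn
    · obtain ⟨r1, r2⟩ := hfar w w' h0
      have p1 : q ^ R ≤ q ^ ρ₁ w := pow_le_pow_right₀ hq r1
      have p2 : q ^ R ≤ q ^ ρ₂ w' := pow_le_pow_right₀ hq r2
      have hqRR : q ^ (2 * R) = q ^ R * q ^ R := by rw [two_mul, pow_add]
      rw [norm_mul, norm_mul, hqRR]
      have k1 : ‖G x w‖ * q ^ R ≤ a w := by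
        rw [ha, mul_comm]; exact mul_le_mul_of_nonneg_right p1 (norm_nonneg _)
      have k2 : ‖P w' y‖ * q ^ R ≤ b w' := by
        rw [hb, mul_comm]; exact mul_le_mul_of_nonneg_right p2 (norm_nonneg _)
      have k3 : (‖G x w‖ * q ^ R) * (‖P w' y‖ * q ^ R) ≤ a w * b w' :=
        mul_le_mul k1 k2 (by positivity) (ha0 w)
      calc ‖G x w‖ * ‖(M₂ - M₁) w w'‖ * ‖P w' y‖ * (q ^ R * q ^ R)
          = ‖(M₂ - M₁) w w'‖ * ((‖G x w‖ * q ^ R) * (‖P w' y‖ * q ^ R)) := by ring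
        _ ≤ ((if H.Adj w w' then 1 else 0) + (if w = w' then (d : ℝ) else 0)) * (a w * b w') :=
            mul_le_mul (hΔ w w') k3 (by positivity) ((norm_nonneg _).trans (hΔ w w'))
        _ = _ := by
            rw [add_mul]
            congr 1 <;> split_ifs <;> ring
  have hsum : ‖G x y - P x y‖ * q ^ (2 * R)
      ≤ ∑ w, ∑ w', ((if H.Adj w w' then a w * b w' else 0) + (if w = w' then (d : ℝ) * (a w * b w') else 0)) := by
    rw [e2, sum_comm]
    calc ‖∑ w, ∑ w', G x w * (M₂ - M₁) w w' * P w' y‖ * q ^ (2 * R)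
        ≤ (∑ w, ∑ w', ‖G x w * (M₂ - M₁) w w' * P w' y‖) * q ^ (2 * R) := by
          apply mul_le_mul_of_nonneg_right _ hqR.le
          exact (norm_sum_le _ _).trans (sum_le_sum fun w _ => norm_sum_le _ _)
      _ = ∑ w, ∑ w', ‖G x w * (M₂ - M₁) w w' * P w' y‖ * q ^ (2 * R) := by
          rw [sum_mul]; exact sum_congr rfl fun w _ => sum_mul _ _ _
      _ ≤ _ := sum_le_sum fun w _ => sum_le_sum fun w' _ => hterm w w'
  have s1 := cth_schur hdeg a b
  have s2 : ∑ w, ∑ w', (if w = w' then (d : ℝ) * (a w * b w') else 0)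
      ≤ (d : ℝ) / 2 * (∑ w, a w ^ 2 + ∑ w, b w ^ 2) := by
    simp only [sum_ite_eq, mem_univ, if_true]
    rw [← sum_add_distrib, mul_sum]
    refine sum_le_sum fun w _ => ?_
    have : a w * b w ≤ (a w ^ 2 + b w ^ 2) / 2 := by nlinarith [sq_nonneg (a w - b w)]
    have hd0 : (0 : ℝ) ≤ d := Nat.cast_nonneg d
    nlinarith
  have hA : ∑ w, a w ^ 2 ≤ 4 / h ^ 2 := by
    rw [le_div_iff₀ (by positivity)]; linarith
  have hB : ∑ w, b w ^ 2 ≤ 4 / h ^ 2 := by
    rw [le_div_iff₀ (by positivity)]; linarith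
  have htot : ‖G x y - P x y‖ * q ^ (2 * R) ≤ (d : ℝ) * (4 / h ^ 2 + 4 / h ^ 2) := by
    refine hsum.trans ?_
    simp only [sum_add_distrib]
    have hd0 : (0 : ℝ) ≤ d := Nat.cast_nonneg d
    nlinarith
  rw [le_div_iff₀ (by positivity)]
  have h2 : 0 < h ^ 2 := by positivity
  calc ‖G x y - P x y‖ * (h ^ 2 * q ^ (2 * R)) = (‖G x y - P x y‖ * q ^ (2 * R)) * h ^ 2 := by ring
    _ ≤ ((d : ℝ) * (4 / h ^ 2 + 4 / h ^ 2)) * h ^ 2 := mul_le_mul_of_nonneg_right htot h2.le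
    _ = 8 * d := by field_simp; ring

/-! ### the weight: truncated distance -/

open Classical in
/-- distance from `c`, truncated at `R` (`= R` on the other components) -/
noncomputable def cthRho (H : SimpleGraph V) (c : V) (R : ℕ) (w : V) : ℕ :=
  if H.edist c w ≤ R then H.dist c w else R

theorem cth_eqns_cite2 : True := by
  have := @cthRho.eq_1.{0}
  trivial

theorem cth_reach_of_edist {H : SimpleGraph V} {c w : V} {R : ℕ} (h : H.edist c w ≤ R) :
    H.Reachable c w ∧ H.dist c w ≤ R := by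
  have hr : H.Reachable c w := by
    apply SimpleGraph.reachable_of_edist_ne_top
    intro e
    rw [e] at h
    exact absurd h (by simp)
  refine ⟨hr, ?_⟩
  rw [← hr.coe_dist_eq_edist] at h
  exact_mod_cast h

theorem cth_edist_of_reach {H : SimpleGraph V} {c w : V} {R : ℕ} (hr : H.Reachable c w) (h : H.dist c w ≤ R) :
    H.edist c w ≤ R := by
  rw [← hr.coe_dist_eq_edist]
  exact_mod_cast h

theorem cthRho_self (H : SimpleGraph V) (c : V) (R : ℕ) : cthRho H c R c = 0 := by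
  unfold cthRho
  rw [if_pos (by rw [SimpleGraph.edist_self]; exact bot_le), SimpleGraph.dist_self]

theorem cthRho_lip (H : SimpleGraph V) (c : V) (R : ℕ) {w w' : V} (hadj : H.Adj w w') :
    cthRho H c R w ≤ cthRho H c R w' + 1 := by
  unfold cthRho
  have h1 : H.dist w' w = 1 := SimpleGraph.dist_eq_one_iff_adj.mpr hadj.symm
  by_cases hw : H.edist c w ≤ R <;> by_cases hw' : H.edist c w' ≤ R
  · rw [if_pos hw, if_pos hw']
    have := (cth_reach_of_edist hw').1.dist_triangle_left w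
    omega
  · rw [if_pos hw, if_neg hw']
    have := (cth_reach_of_edist hw).2
    omega
  · rw [if_neg hw, if_pos hw']
    by_contra hcon
    rw [not_le] at hcon
    obtain ⟨hr, -⟩ := cth_reach_of_edist hw'
    have := hr.dist_triangle_left w
    exact hw (cth_edist_of_reach (hr.trans hadj.symm.reachable) (by omega))
  · rw [if_neg hw, if_neg hw']
    omega

theorem cthRho_lt {H : SimpleGraph V} {c w : V} {R : ℕ} (h : cthRho H c R w < R) :
    H.Reachable c w ∧ H.dist c w < R := by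
  unfold cthRho at h
  by_cases hw : H.edist c w ≤ R
  · rw [if_pos hw] at h
    exact ⟨(cth_reach_of_edist hw).1, h⟩
  · rw [if_neg hw] at h
    omega

end generic

/-! ### the start of the descent -/

section start
variable {n d : ℕ} {H : Gr n}

theorem cth_G_eq (H : Gr n) (z : ℂ) : rgG H z = (cthM H fun _ => z)⁻¹ := by
  classical
  unfold rgG rsG
  congr 1
  ext a b
  simp only [Matrix.sub_apply, Matrix.smul_apply, Matrix.one_apply, smul_eq_mul, cthM, rsC, rgA,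
    RingHom.mapMatrix_apply, Matrix.map_apply, SimpleGraph.adjMatrix_apply]
  by_cases hab : a = b <;> by_cases hadj : H.Adj a b <;> simp [hab, hadj]

theorem cth_mod_eq (d : ℕ) (Γ : Gr n) (z : ℂ) :
    rgMod d Γ z = cthM Γ fun w => z + rgg d z * ((d : ℂ) - tgDeg Γ w) := rfl

/-- the self energy is dissipative -/
theorem cth_Z_im {Γ : Gr n} (hd : 2 ≤ d) (hdeg : ∀ w, tgDeg Γ w ≤ d) {z : ℂ} (hz : 0 < z.im) (w : Fin n) :
    z.im ≤ (z + rgg d z * ((d : ℂ) - tgDeg Γ w)).im := by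
  have hg := tgr_im_pos hd hz
  have e : (d : ℂ) - tgDeg Γ w = (((d - tgDeg Γ w : ℕ) : ℝ) : ℂ) := by
    rw [Nat.cast_sub (hdeg w)]; push_cast; ring
  rw [Complex.add_im, e, Complex.im_mul_ofReal]
  have : 0 ≤ (rgg d z).im * ((d - tgDeg Γ w : ℕ) : ℝ) := by positivity
  linarith

/-- an interior vertex keeps all its edges -/
theorem cth_interior {R : ℕ} {X : Finset (Fin n)} {c w : Fin n} (hc : c ∈ X) (hr : H.Reachable c w)
    (hw : H.dist c w < R) {w' : Fin n} (hadj : H.Adj w w') : (rgBG H R X).Adj w w' := by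
  have h1 : H.dist w w' = 1 := SimpleGraph.dist_eq_one_iff_adj.mpr hadj
  have h2 := hr.dist_triangle_left w'
  refine ⟨hadj, ?_, ?_⟩
  · rw [tgr_mem_ball]; exact ⟨c, hc, cth_edist_of_reach hr (by omega)⟩
  · rw [tgr_mem_ball]; exact ⟨c, hc, cth_edist_of_reach (hr.trans hadj.reachable) (by omega)⟩

open Classical in
/-- the difference of the two matrices vanishes on the rows and columns of the interior vertices -/
theorem cth_diff_zero (hH : H ∈ regularGraphs n d) {Γ : Gr n} (hle : Γ ≤ H) (z : ℂ) {w w' : Fin n}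
    (hint : (∀ v, H.Adj w v → Γ.Adj w v) ∨ (∀ v, H.Adj w' v → Γ.Adj w' v)) :
    (rgMod d Γ z - cthM H fun _ => z) w w' = 0 := by
  have hreg := (b1x_mem_reg n d H).mp hH
  rw [Matrix.sub_apply, cth_mod_eq]
  unfold cthM
  by_cases hww : w = w'
  · subst hww
    have hint' : ∀ v, H.Adj w v → Γ.Adj w v := by rcases hint with h | h <;> exact h
    have hdeg : tgDeg Γ w = d := by
      rw [← hreg w]
      unfold tgDeg
      congr 1
      ext v
      rw [mem_filter, mem_filter]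
      exact ⟨fun h => ⟨h.1, hle h.2⟩, fun h => ⟨h.1, hint' v h.2⟩⟩
    simp [hdeg]
  · have hiff : Γ.Adj w w' ↔ H.Adj w w' := by
      refine ⟨fun h => hle h, fun h => ?_⟩
      rcases hint with h' | h'
      · exact h' w' h
      · exact (h' w h.symm).symm
    simp [hww, hiff]

open Classical in
theorem cth_diff_le (hd : 2 ≤ d) (hH : H ∈ regularGraphs n d) {Γ : Gr n} (hle : Γ ≤ H) {z : ℂ} (hz : 0 < z.im)
    (w w' : Fin n) :
    ‖(rgMod d Γ z - cthM H fun _ => z) w w'‖ ≤ (if H.Adj w w' then 1 else 0) + (if w = w' then (d : ℝ) else 0) := by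
  have hreg := (b1x_mem_reg n d H).mp hH
  rw [Matrix.sub_apply, cth_mod_eq]
  unfold cthM
  by_cases hww : w = w'
  · subst hww
    have hdeg : tgDeg Γ w ≤ d := (b1x_deg_mono hle w).trans (hreg w).le
    have e : (d : ℂ) - tgDeg Γ w = ((d - tgDeg Γ w : ℕ) : ℂ) := by rw [Nat.cast_sub hdeg]
    have h1 : ‖(d : ℂ) - tgDeg Γ w‖ ≤ d := by
      rw [e, Complex.norm_natCast]
      exact_mod_cast Nat.sub_le _ _
    have h2 := (tgr_norm_lt_one hd hz).le
    simp only [SimpleGraph.irrefl, if_false, if_true, zero_sub, zero_add]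
    have e2 : -(z + rgg d z * ((d : ℂ) - tgDeg Γ w)) - -z = -(rgg d z * ((d : ℂ) - tgDeg Γ w)) := by ring
    rw [e2, norm_neg, norm_mul]
    calc ‖rgg d z‖ * ‖(d : ℂ) - tgDeg Γ w‖ ≤ 1 * d := mul_le_mul h2 h1 (norm_nonneg _) (by norm_num)
      _ = d := one_mul _
  · by_cases hadj : H.Adj w w'
    · by_cases hadj' : Γ.Adj w w' <;> simp [hww, hadj, hadj']
    · have hadj' : ¬ Γ.Adj w w' := fun h => hadj (hle h)
      simp [hww, hadj, hadj']

/-- **the deterministic start**: for EVERY `d`-regular graph, every height, every radius -/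
theorem cth_start (hd : 2 ≤ d) (hH : H ∈ regularGraphs n d) {z : ℂ} (hz : 0 < z.im) (R : ℕ) (x y : Fin n) :
    ‖rgG H z x y - rgPm d R H z x y‖ ≤ 8 * d / (z.im ^ 2 * (1 + z.im / (2 * d)) ^ (2 * R)) := by
  classical
  have hreg := (b1x_mem_reg n d H).mp hH
  have hdegH : ∀ w, tgDeg H w ≤ d := fun w => (hreg w).le
  set Γ := rgBG H R {x, y} with hΓ
  have hle : Γ ≤ H := tgr_BG_le R _
  have hdegΓ : ∀ w, tgDeg Γ w ≤ d := fun w => (b1x_deg_mono hle w).trans (hdegH w)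
  have hd0 : (0 : ℝ) < d := by exact_mod_cast (by omega : 0 < d)
  set q : ℝ := 1 + z.im / (2 * d) with hq
  have hq1 : 1 ≤ q := by
    have : 0 ≤ z.im / (2 * d) := by positivity
    linarith
  have hqd : (d : ℝ) * (q - 1) ≤ z.im / 2 := by
    rw [hq]; apply le_of_eq; field_simp; ring
  -- the two inverses
  have i1 : (cthM H fun _ => z) * rgG H z = 1 := by
    rw [cth_G_eq]; exact cth_mul_inv hdegH hz (fun _ => le_refl _)
  have i1' : rgG H z * (cthM H fun _ => z) = 1 := mul_eq_one_comm.mp i1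
  have i2 : rgMod d Γ z * rgPB d Γ z = 1 := by
    rw [rgPB, cth_mod_eq]; exact cth_mul_inv hdegΓ hz (cth_Z_im hd hdegΓ hz)
  have c1 := cth_col hdegH hz (fun _ => le_refl _) hq1 hqd (ρ := cthRho H x R)
    (fun a b hab => cthRho_lip H x R hab) i1 x
  have c2 := cth_col hdegΓ hz (cth_Z_im hd hdegΓ hz) hq1 hqd (ρ := cthRho H y R)
    (fun a b hab => cthRho_lip H y R (hle hab)) (by rw [← cth_mod_eq]; exact i2) y
  rw [cthRho_self, pow_zero, one_pow, mul_one] at c1 c2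
  have c1' : z.im ^ 2 * ∑ w, (q ^ cthRho H x R w * ‖rgG H z x w‖) ^ 2 ≤ 4 := by
    refine le_trans (le_of_eq ?_) c1
    congr 1
    refine sum_congr rfl fun w _ => ?_
    rw [cth_G_eq, cth_inv_symm]
  unfold rgPm
  rw [← hΓ]
  refine cth_compare hdegH i1' i2 hz hq1 (ρ₁ := cthRho H x R) (ρ₂ := cthRho H y R) (R := R)
    (cth_diff_le hd hH hle hz) ?_ c1' c2
  intro w w' hne
  constructor
  · by_contra hcon
    rw [not_le] at hcon
    obtain ⟨hr, hlt⟩ := cthRho_lt hcon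
    exact hne (cth_diff_zero hH hle z (Or.inl fun v hv => cth_interior (by simp) hr hlt hv))
  · by_contra hcon
    rw [not_le] at hcon
    obtain ⟨hr, hlt⟩ := cthRho_lt hcon
    exact hne (cth_diff_zero hH hle z (Or.inr fun v hv => cth_interior (by simp) hr hlt hv))

/-- **CT** (contract `b1_start` of `B1.lean`) -/
theorem b1_start' (d : ℕ) (hd : 3 ≤ d) (κb : ℝ) (hκ : 0 < κb) (κ : ℝ) (hκ' : 0 < κ) :
    ∃ R0 : ℕ, ∀ R : ℕ, R0 ≤ R → ∀ (n : ℕ) (H : Gr n), H ∈ Claims.C0462.regularGraphs n d → ∀ e : ℝ, RgBulk d κb e →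
      RgDev d R H (rgz e (b1h κb)) κ := by
  have hh := b1x_h_pos hκ
  have hd0 : (0 : ℝ) < d := by exact_mod_cast (by omega : 0 < d)
  set q : ℝ := 1 + b1h κb / (2 * d) with hq
  have hq1 : 1 < q := by
    have : 0 < b1h κb / (2 * d) := by positivity
    linarith
  have hq0 : 0 < q := by linarith
  -- choose `R0`
  obtain ⟨R0, hR0⟩ := pow_unbounded_of_one_lt (8 * d / (b1h κb ^ 2 * κ)) hq1
  refine ⟨R0, fun R hR n H hH e _ x y => ?_⟩
  have hz : 0 < (rgz e (b1h κb)).im := hh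
  refine (cth_start (by omega) hH hz R x y).trans ?_
  rw [rg_z_im, ← hq]
  have h1 : q ^ R0 ≤ q ^ (2 * R) := pow_le_pow_right₀ hq1.le (by omega)
  have h2 : 8 * d / (b1h κb ^ 2 * κ) < q ^ (2 * R) := lt_of_lt_of_le hR0 h1
  rw [div_lt_iff₀ (by positivity)] at h2
  rw [div_le_iff₀ (by positivity)]
  nlinarith

end start
/-! ### the trace above the constant height -/

section trace
variable {n d : ℕ} {H : Gr n}

/-- the ball of radius `0` is a forest -/
theorem cth_tl_zero (H : Gr n) (x : Fin n) : RgTl H 0 {x} := by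
  refine SimpleGraph.isAcyclic_bot.anti ?_
  intro a b hab
  exfalso
  have ha := tgr_mem_ball1.mp hab.2.1
  have hb := tgr_mem_ball1.mp hab.2.2
  have ha0 : H.edist x a = 0 := le_antisymm (by exact_mod_cast ha) bot_le
  have hb0 : H.edist x b = 0 := le_antisymm (by exact_mod_cast hb) bot_le
  have e1 := SimpleGraph.edist_eq_zero_iff.mp ha0
  have e2 := SimpleGraph.edist_eq_zero_iff.mp hb0
  exact hab.1.ne (e1.symm.trans e2)

theorem cth_tv_zero (d : ℕ) (z : ℂ) : rgTv d z 0 = rgm d z := by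
  rw [rgTv, pow_zero, mul_one]

/-- diagonal entries at a tree-like vertex -/
theorem cth_diag (hd : 3 ≤ d) (hH : H ∈ regularGraphs n d) {z : ℂ} (hz : 0 < z.im) {r : ℕ} {x : Fin n}
    (h : RgTl H r {x}) : ‖rgG H z x x - rgm d z‖ ≤ 8 * d / (z.im ^ 2 * (1 + z.im / (2 * d)) ^ (2 * r)) := by
  have := cth_start (by omega) hH hz r x x
  rwa [b1_model_diag' d hd H r z hz x h, cth_tv_zero] at this

open Classical in
/-- **the trace from the tree-like vertices** (deterministic) -/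
theorem cth_trace (hd : 3 ≤ d) (hH : H ∈ regularGraphs n d) (hn : 1 ≤ n) {z : ℂ} (hz : 0 < z.im) (r : ℕ) :
    ‖rgTr H z - rgm d z‖ ≤ 8 * d / z.im ^ 2 * (1 / (1 + z.im / (2 * d)) ^ (2 * r) + rgNT H r) := by
  have hn0 : (0 : ℝ) < n := by exact_mod_cast hn
  have hd0 : (0 : ℝ) < d := by exact_mod_cast (by omega : 0 < d)
  set q : ℝ := 1 + z.im / (2 * d) with hq
  have hq0 : 0 < q := by
    have : 0 ≤ z.im / (2 * d) := by positivity
    linarith
  set K : ℝ := 8 * d / z.im ^ 2 with hK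
  have hK0 : 0 ≤ K := by positivity
  have e : rgTr H z - rgm d z = (∑ x, (rgG H z x x - rgm d z)) / n := by
    rw [rgTr, sum_sub_distrib, sum_const, card_univ, Fintype.card_fin, nsmul_eq_mul, sub_div,
      mul_div_cancel_left₀]
    exact_mod_cast hn0.ne'
  have hterm : ∀ x, ‖rgG H z x x - rgm d z‖ ≤ K * (1 / q ^ (2 * r)) + (if ¬ RgTl H r {x} then K else 0) := by
    intro x
    by_cases hx : RgTl H r {x}
    · have := cth_diag hd hH hz hx
      rw [← hq] at this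
      simp only [hx, not_true_eq_false, if_false, add_zero]
      refine this.trans (le_of_eq ?_)
      rw [hK]; field_simp
    · have := cth_diag hd hH hz (cth_tl_zero H x)
      rw [mul_zero, pow_zero, mul_one] at this
      simp only [hx, not_false_eq_true, if_true]
      have h2 : 0 ≤ K * (1 / q ^ (2 * r)) := by positivity
      linarith
  rw [e, norm_div, Complex.norm_natCast, div_le_iff₀ hn0]
  refine (norm_sum_le _ _).trans ((sum_le_sum fun x _ => hterm x).trans ?_)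
  rw [sum_add_distrib, sum_const, card_univ, Fintype.card_fin, nsmul_eq_mul, ← sum_filter, sum_const,
    nsmul_eq_mul, rgNT]
  apply le_of_eq
  field_simp

end trace

/-- `q^(-2 ⌊c log n⌋) ≤ q² n^(-2 c log q)` -/
theorem cth_pow_log {q : ℝ} (c : ℝ) (hq : 1 < q) {n : ℕ} (hn : 1 ≤ n) :
    1 / q ^ (2 * ⌊c * Real.log n⌋₊) ≤ q ^ 2 * (n : ℝ) ^ (-(2 * c * Real.log q)) := by
  have hq0 : 0 < q := by linarith
  have hn0 : (0 : ℝ) < n := by exact_mod_cast hn
  set r := ⌊c * Real.log n⌋₊ with hr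
  have h1 : c * Real.log n < (r : ℝ) + 1 := Nat.lt_floor_add_one _
  have h2 : (n : ℝ) ^ (2 * c * Real.log q) ≤ q ^ (2 * (r + 1)) := by
    rw [← Real.rpow_natCast q, Real.rpow_def_of_pos hn0, Real.rpow_def_of_pos hq0]
    apply Real.exp_le_exp.mpr
    have hlq : 0 < Real.log q := Real.log_pos hq
    push_cast
    nlinarith
  rw [Real.rpow_neg hn0.le, div_le_iff₀ (by positivity)]
  have h3 : 0 < (n : ℝ) ^ (2 * c * Real.log q) := Real.rpow_pos_of_pos hn0 _
  have h4 : q ^ (2 * (r + 1)) = q ^ 2 * q ^ (2 * r) := by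
    rw [mul_add, mul_one, pow_add, mul_comm]
  rw [h4] at h2
  calc (1 : ℝ) = ((n : ℝ) ^ (2 * c * Real.log q))⁻¹ * (n : ℝ) ^ (2 * c * Real.log q) := by
        rw [inv_mul_cancel₀ h3.ne']
    _ ≤ ((n : ℝ) ^ (2 * c * Real.log q))⁻¹ * (q ^ 2 * q ^ (2 * r)) :=
        mul_le_mul_of_nonneg_left h2 (by positivity)
    _ = _ := by ring

/-- **U3f** (contract `b1_u3_high` of `B1.lean`; the hypothesis is the statement of `b1_L0_log`) -/
theorem b1_u3_high' (d : ℕ) (hd : 3 ≤ d) (κb : ℝ) (hκ : 0 < κb)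
    (hL0 : ∃ c : ℝ, 0 < c ∧ ∃ N : ℕ, ∀ n : ℕ, N ≤ n →
      rgE n d (fun H => rgNT H ⌊c * Real.log n⌋₊) ≤ (n : ℝ) ^ (-c)) :
    ∃ c : ℝ, 0 < c ∧ ∃ (C : ℝ) (N : ℕ), ∀ n : ℕ, N ≤ n → ∀ e u : ℝ, RgBulk d κb e → b1h κb / 2 ≤ u →
      rgE n d (fun H => ‖rgTr H (rgz e u) - rgm d (rgz e u)‖) ≤ C * (n : ℝ) ^ (-c) / u ^ 2 := by
  obtain ⟨c₀, hc₀, N₀, hN₀⟩ := hL0
  have hh := b1x_h_pos hκ
  have hd0 : (0 : ℝ) < d := by exact_mod_cast (by omega : 0 < d)
  set q₀ : ℝ := 1 + b1h κb / (4 * d) with hq₀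
  have hq1 : 1 < q₀ := by
    have : 0 < b1h κb / (4 * d) := by positivity
    linarith
  have hq0 : 0 < q₀ := by linarith
  have hlq : 0 < Real.log q₀ := Real.log_pos hq1
  set c₁ : ℝ := 2 * c₀ * Real.log q₀ with hc₁
  have hc₁0 : 0 < c₁ := by positivity
  refine ⟨min c₀ c₁, lt_min hc₀ hc₁0, 8 * d * (q₀ ^ 2 + 1), max N₀ 1, fun n hn e u _ hu => ?_⟩
  have hn1 : 1 ≤ n := le_trans (le_max_right _ _) hn
  have hnN : N₀ ≤ n := le_trans (le_max_left _ _) hn
  have hn0 : (1 : ℝ) ≤ n := by exact_mod_cast hn1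
  have hu0 : 0 < u := by linarith
  have hz : 0 < (rgz e u).im := hu0
  set r := ⌊c₀ * Real.log n⌋₊ with hr
  set K : ℝ := 8 * d / u ^ 2 with hK
  have hK0 : 0 ≤ K := by positivity
  set c := min c₀ c₁ with hc
  have hp0 : (n : ℝ) ^ (-c₀) ≤ (n : ℝ) ^ (-c) :=
    Real.rpow_le_rpow_of_exponent_le hn0 (neg_le_neg (min_le_left _ _))
  have hp1 : (n : ℝ) ^ (-c₁) ≤ (n : ℝ) ^ (-c) :=
    Real.rpow_le_rpow_of_exponent_le hn0 (neg_le_neg (min_le_right _ _))
  have hpc : 0 ≤ (n : ℝ) ^ (-c) := Real.rpow_nonneg (by linarith) _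
  -- the deterministic bound
  have hdet : ∀ H ∈ regularGraphs n d, ‖rgTr H (rgz e u) - rgm d (rgz e u)‖
      ≤ K * (q₀ ^ 2 * (n : ℝ) ^ (-c)) * 1 + K * rgNT H r := by
    intro H hH
    have h1 := cth_trace hd hH hn1 hz r
    rw [rg_z_im, ← hK] at h1
    have hqq : q₀ ≤ 1 + u / (2 * d) := by
      rw [hq₀]
      have : b1h κb / (4 * d) ≤ u / (2 * d) := by
        rw [div_le_div_iff₀ (by positivity) (by positivity)]
        nlinarith
      linarith
    have h2 : 1 / (1 + u / (2 * d)) ^ (2 * r) ≤ 1 / q₀ ^ (2 * r) :=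
      one_div_le_one_div_of_le (by positivity) (pow_le_pow_left₀ hq0.le hqq _)
    have h3 := cth_pow_log c₀ hq1 hn1
    rw [← hr, ← hc₁] at h3
    have h4 : 1 / (1 + u / (2 * d)) ^ (2 * r) ≤ q₀ ^ 2 * (n : ℝ) ^ (-c) :=
      h2.trans (h3.trans (mul_le_mul_of_nonneg_left hp1 (by positivity)))
    calc _ ≤ K * (1 / (1 + u / (2 * d)) ^ (2 * r) + rgNT H r) := h1
      _ ≤ K * (q₀ ^ 2 * (n : ℝ) ^ (-c) + rgNT H r) := by
          apply mul_le_mul_of_nonneg_left _ hK0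
          linarith
      _ = _ := by ring
  refine (rg_E_mono hdet).trans ?_
  rw [rg_E_add, rg_E_const_mul, rg_E_const_mul]
  have e1 : rgE n d (fun _ => (1 : ℝ)) ≤ 1 := rg_E_one_le
  have e2 := (hN₀ n hnN).trans hp0
  have hA : 0 ≤ K * (q₀ ^ 2 * (n : ℝ) ^ (-c)) := by positivity
  calc K * (q₀ ^ 2 * (n : ℝ) ^ (-c)) * rgE n d (fun _ => (1 : ℝ)) + K * rgE n d (fun H => rgNT H r)
      ≤ K * (q₀ ^ 2 * (n : ℝ) ^ (-c)) * 1 + K * (n : ℝ) ^ (-c) :=
        add_le_add (mul_le_mul_of_nonneg_left e1 hA) (mul_le_mul_of_nonneg_left e2 hK0)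
    _ = 8 * d * (q₀ ^ 2 + 1) * (n : ℝ) ^ (-c) / u ^ 2 := by
        rw [hK]; ring

end Claimed.Agent.R287
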