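import Claimed.Agent.R287.Loc222

/-!
# Row 287 (S0534), BOX[L0] part 2: tree-like balls of logarithmic radius (E2 = L0')        helper222

* `lc7_lol_exists`  a ball which is not a tree contains a "lollipop": an injective path through the centre, of length `≤ 2 r`,
                    whose end is joined to an earlier vertex of the path by one more edge;
* `lc7_nt_sum`      first moment: `∑_H #{x | B_r(x) is not a tree} ≤ (2r+1)^3 (2d)^(2r+1) #RG`    (uniform in `r`);
* `lc7_nt_E`, `lc7_nt_P`, `lc7_nt_log`  the same for `rgNT`, Markov, radius `c log n`.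
-/

set_option autoImplicit false

namespace Claimed.Agent.R287

open Claims.C0462

/-! ### 1. parents, ancestor chains, lollipops -/

section Lol

variable {V : Type*}

theorem lc7_parent (H : SimpleGraph V) (x v : V) (hr : H.Reachable x v) (hne : v ≠ x) :
    ∃ w, H.Adj w v ∧ H.dist x w + 1 = H.dist x v ∧ H.Reachable x w := by
  obtain ⟨p, hp⟩ := hr.symm.exists_walk_length_eq_dist
  cases p with
  | nil => exact absurd rfl hne
  | @cons _ w _ h q =>
    refine ⟨w, h.symm, ?_, q.reachable.symm⟩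
    obtain ⟨q', hq'⟩ := q.reachable.exists_walk_length_eq_dist
    have h1 := SimpleGraph.dist_le q
    have h2 := SimpleGraph.dist_le (SimpleGraph.Walk.cons h q')
    rw [SimpleGraph.Walk.length_cons] at hp h2
    rw [SimpleGraph.dist_comm (u := x) (v := w), SimpleGraph.dist_comm (u := x) (v := v)]
    omega

variable [DecidableEq V]

/-- the edges of a path -/
def lc7PE : List V → Finset (Sym2 V)
  | [] => ∅
  | [_] => ∅
  | a :: b :: t => insert s(a, b) (lc7PE (b :: t))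

theorem lc7PE_eqns_cite (a b : V) (t : List V) : lc7PE (a :: b :: t) = insert s(a, b) (lc7PE (b :: t)) := rfl

theorem lc7_pe_mem : ∀ (L : List V) (p q : V), s(p, q) ∈ lc7PE L → p ∈ L ∧ q ∈ L
  | [], _, _, h => by simp [lc7PE] at h
  | [_], _, _, h => by simp [lc7PE] at h
  | a :: b :: t, p, q, h => by
    rw [lc7PE_eqns_cite, Finset.mem_insert] at h
    rcases h with h | h
    · rw [Sym2.eq_iff] at h
      rcases h with ⟨rfl, rfl⟩ | ⟨rfl, rfl⟩ <;> simp
    · have := lc7_pe_mem (b :: t) p q h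
      exact ⟨List.mem_cons_of_mem _ this.1, List.mem_cons_of_mem _ this.2⟩

theorem lc7_pe_card : ∀ (a : V) (T : List V), (a :: T).Nodup → (lc7PE (a :: T)).card = T.length
  | _, [], _ => by simp [lc7PE]
  | a, b :: t, h => by
    rw [lc7PE_eqns_cite, Finset.card_insert_of_notMem, lc7_pe_card b t (List.nodup_cons.1 h).2, List.length_cons]
    intro h1
    exact (List.nodup_cons.1 h).1 (lc7_pe_mem _ _ _ h1).1

theorem lc7_pe_edge (H : SimpleGraph V) : ∀ L : List V, L.IsChain H.Adj → ∀ e ∈ lc7PE L, e ∈ H.edgeSet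
  | [], _, e, h => by simp [lc7PE] at h
  | [_], _, e, h => by simp [lc7PE] at h
  | a :: b :: t, hc, e, h => by
    rw [List.isChain_cons_cons] at hc
    rw [lc7PE_eqns_cite, Finset.mem_insert] at h
    rcases h with rfl | h
    · exact hc.1
    · exact lc7_pe_edge H (b :: t) hc.2 e h

/-- shape of a lollipop: path `e :: T`, closing edge `e c` -/
def Lc7Shape (e : V) (T : List V) (c : V) : Prop := (e :: T).Nodup ∧ c ∈ T ∧ T.head? ≠ some c

theorem Lc7Shape_eqns_cite (e : V) (T : List V) (c : V) :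
    Lc7Shape e T c ↔ (e :: T).Nodup ∧ c ∈ T ∧ T.head? ≠ some c := Iff.rfl

/-- the edges of a lollipop -/
def lc7LF (e : V) (T : List V) (c : V) : Finset (Sym2 V) := insert s(e, c) (lc7PE (e :: T))

theorem lc7LF_eqns_cite (e : V) (T : List V) (c : V) : lc7LF e T c = insert s(e, c) (lc7PE (e :: T)) := rfl

theorem lc7_lf_card {e : V} {T : List V} {c : V} (h : Lc7Shape e T c) : (lc7LF e T c).card = T.length + 1 := by
  obtain ⟨h1, h2, h3⟩ := h
  rw [lc7LF_eqns_cite, Finset.card_insert_of_notMem, lc7_pe_card e T h1]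
  cases T with
  | nil => simp at h2
  | cons f T' =>
    rw [lc7PE_eqns_cite, Finset.mem_insert]
    rintro (h | h)
    · rw [Sym2.eq_iff] at h
      rcases h with ⟨_, h⟩ | ⟨h, _⟩
      · exact h3 (by simp [h])
      · exact (List.nodup_cons.1 h1).1 (by simp [h])
    · exact (List.nodup_cons.1 h1).1 (lc7_pe_mem _ _ _ h).1

/-- growing a path along ancestors until it closes up -/
theorem lc7_lol_grow (H : SimpleGraph V) (x : V) (k : ℕ) : ∀ (e : V) (T : List V) (b : V),
    (e :: T).Nodup → (e :: T).IsChain H.Adj → x ∈ e :: T → H.Reachable x b → H.dist x b = k → H.Adj e b →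
    T.head? ≠ some b →
    (b ∉ e :: T → ∃ b', H.Adj b b' ∧ H.dist x b' + 1 = H.dist x b ∧ H.Reachable x b' ∧ b' ≠ e) →
    ∃ e' T' c, Lc7Shape e' T' c ∧ (e' :: T').IsChain H.Adj ∧ H.Adj e' c ∧ x ∈ e' :: T' ∧ T'.length ≤ T.length + k := by
  induction k with
  | zero =>
    intro e T b hnd hch hx hr hk hadj hhead _
    have hb : x = b := hr.dist_eq_zero_iff.1 hk
    subst hb
    have : x ∈ T := by
      rcases List.mem_cons.1 hx with h | h
      · exact absurd h hadj.ne'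
      · exact h
    exact ⟨e, T, x, ⟨hnd, this, hhead⟩, hch, hadj, hx, by omega⟩
  | succ k ih =>
    intro e T b hnd hch hx hr hk hadj hhead hpar
    by_cases hb : b ∈ e :: T
    · have : b ∈ T := by
        rcases List.mem_cons.1 hb with h | h
        · exact absurd h hadj.ne'
        · exact h
      exact ⟨e, T, b, ⟨hnd, this, hhead⟩, hch, hadj, hx, by omega⟩
    · obtain ⟨b', h1, h2, h3, h4⟩ := hpar hb
      obtain ⟨e', T', c, g1, g2, g3, g4, g5⟩ := ih b (e :: T) b' (List.nodup_cons.2 ⟨hb, hnd⟩)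
        (List.isChain_cons_cons.2 ⟨hadj.symm, hch⟩) (List.mem_cons_of_mem _ hx) h3 (by omega) h1
        (by simpa using Ne.symm h4) (by
          intro hb'
          have hne : b' ≠ x := by
            rintro rfl
            exact hb' (List.mem_cons_of_mem _ hx)
          obtain ⟨w, w1, w2, w3⟩ := lc7_parent H x b' h3 hne
          refine ⟨w, w1.symm, w2, w3, ?_⟩
          rintro rfl
          omega)
      refine ⟨e', T', c, g1, g2, g3, g4, ?_⟩
      rw [List.length_cons] at g5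
      omega

/-- the chain of the ancestors -/
theorem lc7_chain (H : SimpleGraph V) (x : V) (par : V → V)
    (hpar : ∀ v, H.Reachable x v → v ≠ x → H.Adj (par v) v ∧ H.dist x (par v) + 1 = H.dist x v ∧ H.Reachable x (par v))
    (k : ℕ) : ∀ a, H.Reachable x a → H.dist x a = k →
      ∃ T : List V, (a :: T).Nodup ∧ (a :: T).IsChain H.Adj ∧ x ∈ a :: T ∧ T.length = k ∧ (∀ u ∈ T, H.dist x u < k) ∧
        (∀ u, T.head? = some u → u = par a ∧ a ≠ x) := by
  induction k with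
  | zero =>
    intro a hr hk
    have : x = a := hr.dist_eq_zero_iff.1 hk
    subst this
    exact ⟨[], by simp, by simp, by simp, rfl, by simp, by simp⟩
  | succ k ih =>
    intro a hr hk
    have hne : a ≠ x := by
      rintro rfl
      simp at hk
    obtain ⟨p1, p2, p3⟩ := hpar a hr hne
    obtain ⟨T, t1, t2, t3, t4, t5, _⟩ := ih (par a) p3 (by omega)
    refine ⟨par a :: T, List.nodup_cons.2 ⟨?_, t1⟩, List.isChain_cons_cons.2 ⟨p1.symm, t2⟩, List.mem_cons_of_mem _ t3,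
      by simp [t4], ?_, ?_⟩
    · intro h
      rcases List.mem_cons.1 h with h | h
      · rw [← h] at p2; omega
      · have := t5 a h; omega
    · intro u hu
      rcases List.mem_cons.1 hu with rfl | h
      · omega
      · have := t5 u h; omega
    · intro u hu
      simp only [List.head?_cons, Option.some.injEq] at hu
      exact ⟨hu.symm, hne⟩

end Lol

/-! ### 2. a ball which is not a tree contains a lollipop -/

section Exists

theorem lc7_mem_ball_iff {n : ℕ} (H : Gr n) (r : ℕ) (x y : Fin n) :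
    y ∈ rgBall H r {x} ↔ H.Reachable x y ∧ H.dist x y ≤ r := by
  rw [rg_mem_ball]
  constructor
  · rintro ⟨x', hx', h⟩
    rw [Finset.mem_singleton] at hx'
    subst hx'
    have hr : H.Reachable x' y :=
      SimpleGraph.reachable_of_edist_ne_top (ne_top_of_le_ne_top (ENat.natCast_ne_top _) h)
    refine ⟨hr, ?_⟩
    rw [← hr.coe_dist_eq_edist] at h
    exact_mod_cast h
  · rintro ⟨hr, h⟩
    refine ⟨x, by simp, ?_⟩
    rw [← hr.coe_dist_eq_edist]
    exact_mod_cast h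

theorem lc7_lol_exists {n : ℕ} (H : Gr n) (r : ℕ) (x : Fin n) (h : ¬ RgTl H r {x}) :
    ∃ e T c, Lc7Shape e T c ∧ (∀ s ∈ lc7LF e T c, s ∈ H.edgeSet) ∧ x ∈ e :: T ∧ T.length ≤ 2 * r := by
  classical
  have hcard : (rgBall H r {x}).card ≤ (lc7EB H (rgBall H r {x})).card := by
    by_contra hc
    exact h (lc7_tl_of_card H r x (by omega))
  have hxB : x ∈ rgBall H r {x} := rg_self_mem_ball H r (by simp)
  choose! par hpar using (fun v (hv : H.Reachable x v ∧ v ≠ x) => lc7_parent H x v hv.1 hv.2)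
  have hex : ∃ a b, a ∈ rgBall H r {x} ∧ b ∈ rgBall H r {x} ∧ H.Adj a b ∧ (a ≠ x → par a ≠ b) ∧ (b ≠ x → par b ≠ a) := by
    by_contra hno
    push Not at hno
    have hsub : lc7EB H (rgBall H r {x}) ⊆ ((rgBall H r {x}).erase x).image (fun v => s(v, par v)) := by
      intro e he
      induction e using Sym2.ind with
      | _ a b =>
        rw [lc7_mk_mem_EB] at he
        obtain ⟨hab, ha, hb⟩ := he
        by_cases h1 : a ≠ x ∧ par a = b
        · exact Finset.mem_image.2 ⟨a, Finset.mem_erase.2 ⟨h1.1, ha⟩, by rw [h1.2]⟩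
        · have h2 := hno a b ha hb hab (fun h3 h4 => h1 ⟨h3, h4⟩)
          exact Finset.mem_image.2 ⟨b, Finset.mem_erase.2 ⟨h2.1, hb⟩, by rw [h2.2, Sym2.eq_swap]⟩
    have c1 := Finset.card_le_card hsub
    have c2 : (((rgBall H r {x}).erase x).image (fun v => s(v, par v))).card ≤ ((rgBall H r {x}).erase x).card :=
      Finset.card_image_le
    have c3 := Finset.card_erase_of_mem hxB
    have c4 : 0 < (rgBall H r {x}).card := Finset.card_pos.2 ⟨x, hxB⟩
    omega
  obtain ⟨a, b, ha, hb, hab, pa, pb⟩ := hex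
  rw [lc7_mem_ball_iff] at ha hb
  obtain ⟨T, t1, t2, t3, t4, _, t6⟩ := lc7_chain H x par (fun v h1 h2 => hpar v ⟨h1, h2⟩) (H.dist x a) a ha.1 rfl
  obtain ⟨e', T', c, g1, g2, g3, g4, g5⟩ := lc7_lol_grow H x (H.dist x b) a T b t1 t2 t3 hb.1 rfl hab
    (by
      intro hh
      obtain ⟨h1, h2⟩ := t6 b hh
      exact pa h2 h1.symm)
    (by
      intro hbn
      have hne : b ≠ x := by
        rintro rfl
        exact hbn t3
      obtain ⟨q1, q2, q3⟩ := hpar b ⟨hb.1, hne⟩
      exact ⟨par b, q1.symm, q2, q3, pb hne⟩)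
  refine ⟨e', T', c, g1, ?_, g4, by have := ha.2; have := hb.2; omega⟩
  intro s hs
  rw [lc7LF_eqns_cite, Finset.mem_insert] at hs
  rcases hs with rfl | hs
  · exact g3
  · exact lc7_pe_edge H _ g2 s hs

end Exists

/-! ### 3. the first moment -/

section FirstMoment

/-- union bound for (graph, vertex) pairs -/
theorem lc7_union2 {n d : ℕ} {ι : Type*} (I : Finset ι) (F : ι → Finset (Sym2 (Fin n))) (X : ι → Finset (Fin n))
    (S : Finset (Gr n × Fin n))
    (hS : ∀ q ∈ S, q.1 ∈ regularGraphs n d ∧ ∃ i ∈ I, (∀ e ∈ F i, e ∈ q.1.edgeSet) ∧ q.2 ∈ X i) :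
    S.card ≤ ∑ i ∈ I, lc7Cnt n d (F i) * (X i).card := by
  classical
  have hsub : S ⊆ I.biUnion fun i => ((regularGraphs n d).filter fun G => ∀ e ∈ F i, e ∈ G.edgeSet) ×ˢ X i := by
    intro q hq
    obtain ⟨h1, i, hi, h2, h3⟩ := hS q hq
    rw [Finset.mem_biUnion]
    exact ⟨i, hi, Finset.mem_product.2 ⟨Finset.mem_filter.2 ⟨h1, h2⟩, h3⟩⟩
  refine (Finset.card_le_card hsub).trans (Finset.card_biUnion_le.trans ?_)
  refine Finset.sum_le_sum fun i _ => ?_
  rw [Finset.card_product, lc7Cnt_eqns_cite]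

/-- the lists of length `t` -/
noncomputable def lc7Lists (n t : ℕ) : Finset (List (Fin n)) :=
  Finset.univ.image (List.ofFn : (Fin t → Fin n) → List (Fin n))

theorem lc7Lists_eqns_cite (n t : ℕ) :
    lc7Lists n t = Finset.univ.image (List.ofFn : (Fin t → Fin n) → List (Fin n)) := rfl

theorem lc7_mem_lists (n : ℕ) (T : List (Fin n)) : T ∈ lc7Lists n T.length := by
  rw [lc7Lists_eqns_cite, Finset.mem_image]
  exact ⟨T.get, Finset.mem_univ _, List.ofFn_get T⟩

theorem lc7_length_of_mem_lists {n t : ℕ} {T : List (Fin n)} (h : T ∈ lc7Lists n t) : T.length = t := by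
  rw [lc7Lists_eqns_cite, Finset.mem_image] at h
  obtain ⟨f, _, rfl⟩ := h
  simp

theorem lc7_lists_card (n t : ℕ) : (lc7Lists n t).card ≤ n ^ t := by
  rw [lc7Lists_eqns_cite]
  refine Finset.card_image_le.trans ?_
  simp

open Classical in
/-- lollipops with a path of `t + 1` vertices -/
theorem lc7_lol_count (n d t : ℕ) (hd : 1 ≤ d) (hn : 4 * (d + 1) + 4 * (t + 1) ≤ n) :
    ((((regularGraphs n d) ×ˢ (Finset.univ : Finset (Fin n))).filter fun q : Gr n × Fin n =>
        ∃ e T c, T.length = t ∧ Lc7Shape e T c ∧ (∀ s ∈ lc7LF e T c, s ∈ q.1.edgeSet) ∧ q.2 ∈ e :: T).card : ℝ)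
      ≤ t * (t + 1) * (2 * d) ^ (t + 1) * (regularGraphs n d).card := by
  have hn0 : (0 : ℝ) < n := by
    have : 0 < n := by omega
    exact_mod_cast this
  set I : Finset (Σ _ : Fin n × List (Fin n), Fin n) :=
    ((Finset.univ : Finset (Fin n)) ×ˢ lc7Lists n t).sigma fun q => q.2.toFinset.filter fun c => Lc7Shape q.1 q.2 c with hI
  have h1 := lc7_union2 (n := n) (d := d) I (fun i => lc7LF i.1.1 i.1.2 i.2) (fun i => (i.1.1 :: i.1.2).toFinset)
    (((regularGraphs n d) ×ˢ (Finset.univ : Finset (Fin n))).filter fun q : Gr n × Fin n =>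
        ∃ e T c, T.length = t ∧ Lc7Shape e T c ∧ (∀ s ∈ lc7LF e T c, s ∈ q.1.edgeSet) ∧ q.2 ∈ e :: T) (by
      intro q hq
      rw [Finset.mem_filter, Finset.mem_product] at hq
      obtain ⟨⟨hG, _⟩, e, T, c, hT, hs, hE, hx⟩ := hq
      refine ⟨hG, ⟨(e, T), c⟩, ?_, hE, List.mem_toFinset.2 hx⟩
      rw [hI, Finset.mem_sigma, Finset.mem_product, Finset.mem_filter]
      exact ⟨⟨Finset.mem_univ _, hT ▸ lc7_mem_lists n T⟩, List.mem_toFinset.2 hs.2.1, hs⟩)
  have h2 : ∀ i ∈ I, ((lc7Cnt n d (lc7LF i.1.1 i.1.2 i.2) * ((i.1.1 :: i.1.2).toFinset).card : ℕ) : ℝ)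
      ≤ (2 * d / n) ^ (t + 1) * (regularGraphs n d).card * (t + 1) := by
    intro i hi
    rw [hI, Finset.mem_sigma, Finset.mem_product, Finset.mem_filter] at hi
    obtain ⟨⟨_, hT⟩, _, hs⟩ := hi
    have hT' := lc7_length_of_mem_lists hT
    have hc := lc7_lf_card hs
    rw [hT'] at hc
    have e1 := lc7_edges n d hd (lc7LF i.1.1 i.1.2 i.2) (by rw [hc]; exact hn)
    rw [hc] at e1
    have e2 : (((i.1.1 :: i.1.2).toFinset).card : ℝ) ≤ t + 1 := by
      have := List.toFinset_card_le (i.1.1 :: i.1.2)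
      rw [List.length_cons, hT'] at this
      exact_mod_cast this
    push_cast
    exact mul_le_mul e1 e2 (by positivity) (by positivity)
  have h3 : (I.card : ℝ) ≤ (n : ℝ) * (n : ℝ) ^ t * t := by
    have : I.card ≤ n * n ^ t * t := by
      rw [hI, Finset.card_sigma]
      calc ∑ q ∈ (Finset.univ : Finset (Fin n)) ×ˢ lc7Lists n t, (q.2.toFinset.filter fun c => Lc7Shape q.1 q.2 c).card
          ≤ ∑ _q ∈ (Finset.univ : Finset (Fin n)) ×ˢ lc7Lists n t, t := by
            refine Finset.sum_le_sum fun q hq => ?_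
            rw [Finset.mem_product] at hq
            refine (Finset.card_le_card (Finset.filter_subset _ _)).trans ?_
            exact (List.toFinset_card_le _).trans (lc7_length_of_mem_lists hq.2).le
        _ = ((Finset.univ : Finset (Fin n)) ×ˢ lc7Lists n t).card * t := by rw [Finset.sum_const, smul_eq_mul]
        _ ≤ n * n ^ t * t := by
            refine Nat.mul_le_mul_right _ ?_
            rw [Finset.card_product, Finset.card_univ, Fintype.card_fin]
            exact Nat.mul_le_mul_left _ (lc7_lists_card n t)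
    exact_mod_cast this
  calc ((((regularGraphs n d) ×ˢ (Finset.univ : Finset (Fin n))).filter fun q : Gr n × Fin n =>
        ∃ e T c, T.length = t ∧ Lc7Shape e T c ∧ (∀ s ∈ lc7LF e T c, s ∈ q.1.edgeSet) ∧ q.2 ∈ e :: T).card : ℝ)
      ≤ ∑ i ∈ I, ((lc7Cnt n d (lc7LF i.1.1 i.1.2 i.2) * ((i.1.1 :: i.1.2).toFinset).card : ℕ) : ℝ) := by
        exact_mod_cast h1
    _ ≤ ∑ _i ∈ I, (2 * d / n) ^ (t + 1) * ((regularGraphs n d).card : ℝ) * (t + 1) := Finset.sum_le_sum h2
    _ = I.card * ((2 * d / n) ^ (t + 1) * ((regularGraphs n d).card : ℝ) * (t + 1)) := by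
        rw [Finset.sum_const, nsmul_eq_mul]
    _ ≤ ((n : ℝ) * (n : ℝ) ^ t * t) * ((2 * d / n) ^ (t + 1) * ((regularGraphs n d).card : ℝ) * (t + 1)) :=
        mul_le_mul_of_nonneg_right h3 (by positivity)
    _ = t * (t + 1) * (2 * d) ^ (t + 1) * (regularGraphs n d).card := by
        rw [div_pow, pow_succ (n : ℝ)]
        field_simp

open Classical in
/-- **E2**, first moment form, uniform in the radius -/
theorem lc7_nt_sum (n d r : ℕ) (hd : 1 ≤ d) (hn : 4 * (d + 1) + 4 * (2 * r + 1) ≤ n) :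
    (∑ H ∈ regularGraphs n d, ((Finset.univ.filter fun x => ¬ RgTl H r {x}).card : ℝ))
      ≤ (2 * r + 1) ^ 3 * (2 * d) ^ (2 * r + 1) * (regularGraphs n d).card := by
  have hRG : (0 : ℝ) ≤ ((regularGraphs n d).card : ℝ) := by positivity
  have e0 : (∑ H ∈ regularGraphs n d, ((Finset.univ.filter fun x => ¬ RgTl H r {x}).card : ℝ))
      = ((((regularGraphs n d) ×ˢ (Finset.univ : Finset (Fin n))).filter fun q : Gr n × Fin n =>
          ¬ RgTl q.1 r {q.2}).card : ℝ) := by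
    rw [Finset.card_filter, Finset.sum_product]
    push_cast
    refine Finset.sum_congr rfl fun H _ => ?_
    rw [Finset.card_filter]
    push_cast
    rfl
  have hsub : (((regularGraphs n d) ×ˢ (Finset.univ : Finset (Fin n))).filter fun q : Gr n × Fin n =>
          ¬ RgTl q.1 r {q.2})
      ⊆ (Finset.range (2 * r + 1)).biUnion fun t =>
        ((regularGraphs n d) ×ˢ (Finset.univ : Finset (Fin n))).filter fun q : Gr n × Fin n =>
          ∃ e T c, T.length = t ∧ Lc7Shape e T c ∧ (∀ s ∈ lc7LF e T c, s ∈ q.1.edgeSet) ∧ q.2 ∈ e :: T := by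
    intro q hq
    rw [Finset.mem_filter] at hq
    obtain ⟨e, T, c, h1, h2, h3, h4⟩ := lc7_lol_exists q.1 r q.2 hq.2
    rw [Finset.mem_biUnion]
    exact ⟨T.length, Finset.mem_range.2 (by omega), Finset.mem_filter.2 ⟨hq.1, e, T, c, rfl, h1, h2, h3⟩⟩
  have hd1 : (1 : ℝ) ≤ 2 * d := by
    have : (1 : ℝ) ≤ d := by exact_mod_cast hd
    linarith
  have ht : ∀ t ∈ Finset.range (2 * r + 1),
      ((((regularGraphs n d) ×ˢ (Finset.univ : Finset (Fin n))).filter fun q : Gr n × Fin n =>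
          ∃ e T c, T.length = t ∧ Lc7Shape e T c ∧ (∀ s ∈ lc7LF e T c, s ∈ q.1.edgeSet) ∧ q.2 ∈ e :: T).card : ℝ)
        ≤ (2 * r + 1) ^ 2 * (2 * d) ^ (2 * r + 1) * (regularGraphs n d).card := by
    intro t ht
    rw [Finset.mem_range] at ht
    refine (lc7_lol_count n d t hd (by omega)).trans ?_
    refine mul_le_mul_of_nonneg_right ?_ hRG
    have t1 : (t : ℝ) + 1 ≤ 2 * r + 1 := by exact_mod_cast (by omega : t + 1 ≤ 2 * r + 1)
    have t0 : (0 : ℝ) ≤ t := by positivity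
    refine mul_le_mul ?_ (pow_le_pow_right₀ hd1 (by omega)) (by positivity) (by positivity)
    nlinarith
  rw [e0]
  calc ((((regularGraphs n d) ×ˢ (Finset.univ : Finset (Fin n))).filter fun q : Gr n × Fin n =>
          ¬ RgTl q.1 r {q.2}).card : ℝ)
      ≤ (((Finset.range (2 * r + 1)).biUnion fun t =>
        ((regularGraphs n d) ×ˢ (Finset.univ : Finset (Fin n))).filter fun q : Gr n × Fin n =>
          ∃ e T c, T.length = t ∧ Lc7Shape e T c ∧ (∀ s ∈ lc7LF e T c, s ∈ q.1.edgeSet) ∧ q.2 ∈ e :: T).card : ℝ) := by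
        exact_mod_cast Finset.card_le_card hsub
    _ ≤ ∑ t ∈ Finset.range (2 * r + 1),
        ((((regularGraphs n d) ×ˢ (Finset.univ : Finset (Fin n))).filter fun q : Gr n × Fin n =>
          ∃ e T c, T.length = t ∧ Lc7Shape e T c ∧ (∀ s ∈ lc7LF e T c, s ∈ q.1.edgeSet) ∧ q.2 ∈ e :: T).card : ℝ) := by
        exact_mod_cast Finset.card_biUnion_le
    _ ≤ ∑ _t ∈ Finset.range (2 * r + 1), (2 * (r : ℝ) + 1) ^ 2 * (2 * d) ^ (2 * r + 1) * (regularGraphs n d).card :=
        Finset.sum_le_sum ht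
    _ = (2 * r + 1) ^ 3 * (2 * d) ^ (2 * r + 1) * (regularGraphs n d).card := by
        rw [Finset.sum_const, Finset.card_range, nsmul_eq_mul]
        push_cast
        ring

/-- expected fraction of the vertices whose ball of radius `r` is not a tree -/
theorem lc7_nt_E (n d r : ℕ) (hd : 1 ≤ d) (hn : 4 * (d + 1) + 4 * (2 * r + 1) ≤ n) :
    rgE n d (fun H => rgNT H r) ≤ (2 * r + 1) ^ 3 * (2 * d) ^ (2 * r + 1) / n := by
  classical
  have h := lc7_nt_sum n d r hd hn
  have hn0 : (0 : ℝ) < n := by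
    have : 0 < n := by omega
    exact_mod_cast this
  unfold rgE rgNT
  rw [← Finset.sum_div]
  rcases Nat.eq_zero_or_pos (regularGraphs n d).card with h0 | h0
  · rw [h0]
    simp only [Nat.cast_zero, div_zero]
    positivity
  · have h0' : (0 : ℝ) < ((regularGraphs n d).card : ℝ) := by exact_mod_cast h0
    rw [div_div, div_le_div_iff₀ (by positivity) hn0]
    calc (∑ H ∈ regularGraphs n d, ((Finset.univ.filter fun x => ¬ RgTl H r {x}).card : ℝ)) * n
        ≤ ((2 * r + 1) ^ 3 * (2 * d) ^ (2 * r + 1) * (regularGraphs n d).card) * n :=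
          mul_le_mul_of_nonneg_right h hn0.le
      _ = (2 * r + 1) ^ 3 * (2 * d) ^ (2 * r + 1) * (n * (regularGraphs n d).card) := by ring

theorem lc7_nt_nonneg {n : ℕ} (H : Gr n) (r : ℕ) : 0 ≤ rgNT H r := by
  unfold rgNT
  positivity

/-- Markov -/
theorem lc7_nt_P (n d r : ℕ) (hd : 1 ≤ d) (hn : 4 * (d + 1) + 4 * (2 * r + 1) ≤ n) {t : ℝ} (ht : 0 < t) :
    rgP n d (fun H => t ≤ rgNT H r) ≤ (2 * r + 1) ^ 3 * (2 * d) ^ (2 * r + 1) / n / t :=
  (rg_P_markov (fun H _ => lc7_nt_nonneg H r) ht).trans (div_le_div_of_nonneg_right (lc7_nt_E n d r hd hn) ht.le)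

/-- monotonicity of tree-likeness in the radius and in the centre set -/
theorem lc7_tl_anti {n : ℕ} (H : Gr n) {R R' : ℕ} {X X' : Finset (Fin n)}
    (h : rgBall H R X ⊆ rgBall H R' X') (ht : RgTl H R' X') : RgTl H R X := by
  refine SimpleGraph.IsAcyclic.anti ?_ ht
  intro a b hab
  exact ⟨hab.1, h hab.2.1, h hab.2.2⟩

/-- the ball around an edge lies in the ball of radius `R + 1` around one end -/
theorem lc7_ball_pair {n : ℕ} (H : Gr n) (R : ℕ) {b c : Fin n} (hbc : H.Adj b c) :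
    rgBall H R {b, c} ⊆ rgBall H (R + 1) {b} := by
  intro y hy
  rw [rg_mem_ball] at hy ⊢
  obtain ⟨x, hx, h⟩ := hy
  refine ⟨b, by simp, ?_⟩
  rw [Finset.mem_insert, Finset.mem_singleton] at hx
  rcases hx with rfl | rfl
  · exact h.trans (by exact_mod_cast Nat.le_succ R)
  · calc H.edist b y ≤ H.edist b x + H.edist x y := SimpleGraph.edist_triangle
      _ ≤ 1 + R := add_le_add (SimpleGraph.edist_eq_one_iff_adj.2 hbc).le h
      _ = ((R + 1 : ℕ) : ℕ∞) := by push_cast; rw [add_comm]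

theorem lc7_tl_pair {n : ℕ} (H : Gr n) (R : ℕ) {b c : Fin n} (hbc : H.Adj b c) (ht : RgTl H (R + 1) {b}) :
    RgTl H R {b, c} := lc7_tl_anti H (lc7_ball_pair H R hbc) ht

end FirstMoment

/-! ### 4. the contracts of `R287/B1.lean`, sec. 2 -/

section Contracts

theorem lc7_nt_le_one {n : ℕ} (H : Gr n) (r : ℕ) : rgNT H r ≤ 1 := by
  classical
  unfold rgNT
  refine div_le_one_of_le₀ ?_ (by positivity)
  have := Finset.card_le_card (Finset.filter_subset (fun x => ¬ RgTl H r {x}) (Finset.univ : Finset (Fin n)))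
  rw [Finset.card_univ, Fintype.card_fin] at this
  exact_mod_cast this

/-- **L0a** -/
theorem lc7_L0_struct (d : ℕ) (hd : 3 ≤ d) (R : ℕ) :
    ∃ C : ℝ, ∀ n : ℕ, 1 ≤ n → rgP n d (fun H => ¬ RgStruct H R) ≤ C / n := by
  obtain ⟨C, _, h⟩ := lc7_struct d R (by omega)
  exact ⟨C, fun n _ => h n⟩

/-- **L0b** -/
theorem lc7_L0_nt (d : ℕ) (hd : 3 ≤ d) (R : ℕ) : ∃ C : ℝ, ∀ n : ℕ, 1 ≤ n → rgE n d (fun H => rgNT H R) ≤ C / n := by
  refine ⟨((4 * (d + 1) + 4 * (2 * R + 1) : ℕ) : ℝ) + (2 * R + 1) ^ 3 * (2 * d) ^ (2 * R + 1), ?_⟩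
  intro n hn1
  have hn0 : (0 : ℝ) < n := by exact_mod_cast hn1
  by_cases hn : 4 * (d + 1) + 4 * (2 * R + 1) ≤ n
  · refine (lc7_nt_E n d R (by omega) hn).trans ?_
    refine div_le_div_of_nonneg_right ?_ hn0.le
    have : (0 : ℝ) ≤ ((4 * (d + 1) + 4 * (2 * R + 1) : ℕ) : ℝ) := by positivity
    linarith
  · have h1 : rgE n d (fun H => rgNT H R) ≤ 1 :=
      (rg_E_mono fun H _ => lc7_nt_le_one H R).trans rg_E_one_le
    refine h1.trans ?_
    rw [le_div_iff₀ hn0, one_mul]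
    have h2 : (n : ℝ) ≤ ((4 * (d + 1) + 4 * (2 * R + 1) : ℕ) : ℝ) := by exact_mod_cast (not_le.1 hn).le
    have h3 : (0 : ℝ) ≤ (2 * (R : ℝ) + 1) ^ 3 * (2 * d) ^ (2 * R + 1) := by positivity
    linarith

theorem lc7_K_le (d r : ℕ) : ((2 : ℝ) * r + 1) ^ 3 * (2 * d) ^ (2 * r + 1) ≤ 2 * d * (108 * (d : ℝ) ^ 2) ^ r := by
  have h1 : (2 : ℝ) * r + 1 ≤ 3 ^ r := by
    have := one_add_mul_le_pow (show (-2 : ℝ) ≤ 2 by norm_num) r
    norm_num at this
    linarith
  have h2 : ((2 : ℝ) * r + 1) ^ 3 ≤ 27 ^ r := by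
    calc ((2 : ℝ) * r + 1) ^ 3 ≤ ((3 : ℝ) ^ r) ^ 3 := pow_le_pow_left₀ (by positivity) h1 3
      _ = 27 ^ r := by rw [← pow_mul, mul_comm, pow_mul]; norm_num
  have h3 : ((2 : ℝ) * d) ^ (2 * r + 1) = 2 * d * (4 * (d : ℝ) ^ 2) ^ r := by
    rw [pow_succ, pow_mul]
    ring_nf
  rw [h3]
  calc ((2 : ℝ) * r + 1) ^ 3 * (2 * d * (4 * (d : ℝ) ^ 2) ^ r) ≤ 27 ^ r * (2 * d * (4 * (d : ℝ) ^ 2) ^ r) :=
        mul_le_mul_of_nonneg_right h2 (by positivity)
    _ = 2 * d * ((27 : ℝ) ^ r * (4 * (d : ℝ) ^ 2) ^ r) := by ring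
    _ = 2 * d * (108 * (d : ℝ) ^ 2) ^ r := by rw [← mul_pow]; ring_nf

/-- **L0c** logarithmic radius -/
theorem lc7_L0_log (d : ℕ) (hd : 3 ≤ d) : ∃ c : ℝ, 0 < c ∧ ∃ N : ℕ, ∀ n : ℕ, N ≤ n →
    rgE n d (fun H => rgNT H ⌊c * Real.log n⌋₊) ≤ (n : ℝ) ^ (-c) := by
  have hd0 : (3 : ℝ) ≤ d := by exact_mod_cast hd
  set L : ℝ := Real.log (108 * (d : ℝ) ^ 2) with hL
  have hb : (1 : ℝ) ≤ 108 * (d : ℝ) ^ 2 := by nlinarith
  have hL0 : 0 ≤ L := Real.log_nonneg hb
  set c : ℝ := 1 / (16 * (L + 1)) with hc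
  have hc0 : 0 < c := by positivity
  have hc16 : c ≤ 1 / 16 := by
    rw [hc]
    refine one_div_le_one_div_of_le (by norm_num) ?_
    linarith
  have hcL : c * (L + 1) = 1 / 16 := by
    rw [hc]
    field_simp
  refine ⟨c, hc0, 8 * d + 16 + 4 * d ^ 2, ?_⟩
  intro n hn
  have hn1 : (1 : ℝ) ≤ n := by
    have : 1 ≤ n := by omega
    exact_mod_cast this
  have hn0 : (0 : ℝ) < n := by linarith
  have hlog0 : 0 ≤ Real.log n := Real.log_nonneg hn1
  set r : ℕ := ⌊c * Real.log n⌋₊ with hr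
  have hr1 : (r : ℝ) ≤ c * Real.log n := Nat.floor_le (by positivity)
  have hlog1 : Real.log n ≤ n - 1 := Real.log_le_sub_one_of_pos hn0
  have hcond : 4 * (d + 1) + 4 * (2 * r + 1) ≤ n := by
    have h1 : (8 : ℝ) * r ≤ n / 2 := by
      have : c * Real.log n ≤ 1 / 16 * (n - 1) := mul_le_mul hc16 hlog1 hlog0 (by norm_num)
      linarith
    have h2 : (8 * d + 16 : ℝ) ≤ n := by
      have : 8 * d + 16 ≤ n := by omega
      exact_mod_cast this
    have h3 : ((4 * (d + 1) + 4 * (2 * r + 1) : ℕ) : ℝ) ≤ n := by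
      push_cast
      linarith
    exact_mod_cast h3
  refine (lc7_nt_E n d r (by omega) hcond).trans ?_
  have hK := lc7_K_le d r
  have hpow : (108 * (d : ℝ) ^ 2) ^ r ≤ (n : ℝ) ^ (c * L) := by
    rw [← Real.rpow_natCast, Real.rpow_def_of_pos (by linarith), Real.rpow_def_of_pos hn0, ← hL]
    refine Real.exp_le_exp.2 ?_
    calc L * r ≤ L * (c * Real.log n) := mul_le_mul_of_nonneg_left hr1 hL0
      _ = Real.log n * (c * L) := by ring
  have h2d : (2 : ℝ) * d ≤ (n : ℝ) ^ (1 / 2 : ℝ) := by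
    have h4 : ((2 : ℝ) * d) ^ 2 ≤ n := by
      have : 4 * d ^ 2 ≤ n := by omega
      have h5 : ((4 * d ^ 2 : ℕ) : ℝ) ≤ n := by exact_mod_cast this
      push_cast at h5
      nlinarith
    rw [← Real.sqrt_eq_rpow]
    exact Real.le_sqrt_of_sq_le h4
  rw [div_le_iff₀ hn0]
  calc ((2 : ℝ) * r + 1) ^ 3 * (2 * d) ^ (2 * r + 1) ≤ 2 * d * (108 * (d : ℝ) ^ 2) ^ r := hK
    _ ≤ (n : ℝ) ^ (1 / 2 : ℝ) * (n : ℝ) ^ (c * L) := mul_le_mul h2d hpow (by positivity) (by positivity)
    _ = (n : ℝ) ^ (1 / 2 + c * L) := by rw [Real.rpow_add hn0]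
    _ ≤ (n : ℝ) ^ (-c + 1) := by
        refine Real.rpow_le_rpow_of_exponent_le hn1 ?_
        have : c * L + c = 1 / 16 := by rw [← hcL]; ring
        linarith
    _ = (n : ℝ) ^ (-c) * n := by rw [Real.rpow_add hn0, Real.rpow_one]

open Classical in
/-- the fraction of the oriented edges whose ball is not a tree -/
theorem lc7_nt_edges {n d : ℕ} (hd : 1 ≤ d) {H : Gr n} (hH : H ∈ regularGraphs n d) (R : ℕ) :
    ((Finset.univ.filter fun e : Fin n × Fin n => H.Adj e.1 e.2 ∧ ¬ RgTl H R {e.1, e.2}).card : ℝ) / (n * d)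
      ≤ rgNT H (R + 1) := by
  have h1 := lc7_card_fst hH (Finset.univ.filter fun x => ¬ RgTl H (R + 1) {x})
  have h2 : (Finset.univ.filter fun e : Fin n × Fin n => H.Adj e.1 e.2 ∧ ¬ RgTl H R {e.1, e.2}).card
      ≤ (Finset.univ.filter fun x => ¬ RgTl H (R + 1) {x}).card * d := by
    rw [← h1]
    refine Finset.card_le_card ?_
    intro e he
    rw [Finset.mem_filter] at he ⊢
    refine ⟨he.1, he.2.1, ?_⟩
    rw [Finset.mem_filter]
    exact ⟨Finset.mem_univ _, fun ht => he.2.2 (lc7_tl_pair H R he.2.1 ht)⟩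
  have hd0 : (0 : ℝ) < d := by exact_mod_cast hd
  unfold rgNT
  rcases Nat.eq_zero_or_pos n with rfl | hn
  · simp
  have hn0 : (0 : ℝ) < n := by exact_mod_cast hn
  rw [div_le_div_iff₀ (by positivity) hn0]
  have h3 : ((Finset.univ.filter fun e : Fin n × Fin n => H.Adj e.1 e.2 ∧ ¬ RgTl H R {e.1, e.2}).card : ℝ)
      ≤ ((Finset.univ.filter fun x => ¬ RgTl H (R + 1) {x}).card : ℝ) * d := by exact_mod_cast h2
  calc _ ≤ ((Finset.univ.filter fun x => ¬ RgTl H (R + 1) {x}).card : ℝ) * d * n :=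
        mul_le_mul_of_nonneg_right h3 hn0.le
    _ = _ := by ring

end Contracts

end Claimed.Agent.R287
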