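import Claimed.Agent.R287.Res

/-!
# Row 287 (S0534): RESOLVENT KIT, part 2      (helper240; prefix `rs`)

Real symmetric `A : Matrix V V ℝ`, `G = rsG A z`.  Minors keep the index set: `rsDel A T` = rows and columns of `T` zeroed, so that
`G^{(T)}_xy = -δ_xy / z` for `x ∈ T` (`rs_del_G_in`).
* equations `rs_eq_left`, `rs_eq_right`, uniqueness `rs_col_unique`, `rs_herm` (IsSymm → IsHermitian);
* minors: `rs_minor_exp`, Schur matrix `rsS`, `rs_schur_eq`, `rs_schur_TT`, `rs_minor`, `rs_schur_sub`;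
* one vertex: `rs_cavity`, `rs_cavity0`, `rs_remove`, `rs_row`;
* perturbations: `rs_res_supp` (implicit), `rs_woodbury`, `rs_update` (solved form on coordinates `e : ι → V`);
* traces: `rs_trace_remove`, `rs_trace_remove_le`, `rs_trace_del_le`, `rs_trace_diff_le`, `rs_trace_im`, `rs_HS`;
* `rs_evec_le` (delocalisation), `rs_count_le` (counting), `rs_ward_height`, `rs_im_height`;
* forms: `rs_bilin`, `rs_quad_im`, `rs_quad_im_nonneg`, `rs_bilin_le`, `rs_ward_vec`, `rs_op_le`.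
-/

set_option autoImplicit false
set_option linter.unusedSectionVars false

namespace Claimed.Agent.R287

open Matrix Complex

variable {V : Type} [Fintype V] [DecidableEq V]

/-! ### symmetric = Hermitian, the equations `(A - z) G = 1` in entries -/

theorem rs_herm {A : Matrix V V ℝ} (hA : A.IsSymm) : A.IsHermitian := by
  rw [Matrix.IsHermitian, conjTranspose_eq_transpose_of_trivial]; exact hA

theorem rs_A_symm {A : Matrix V V ℝ} (hA : A.IsHermitian) (x y : V) : A x y = A y x := by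
  have := hA.apply x y
  simpa using this.symm

/-- `∑_y A_xy G_yw = δ_xw + z G_xw` -/
theorem rs_eq_left {A : Matrix V V ℝ} (hA : A.IsHermitian) {z : ℂ} (hz : z.im ≠ 0) (x w : V) :
    ∑ y, (A x y : ℂ) * rsG A z y w = (if x = w then 1 else 0) + z * rsG A z x w := by
  have h := congrFun (congrFun (rs_mul_G hA hz) x) w
  rw [sub_mul, smul_mul_assoc, one_mul, Matrix.sub_apply, Matrix.smul_apply, smul_eq_mul, Matrix.mul_apply, Matrix.one_apply] at h
  simp only [rs_C_apply] at h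
  linear_combination h

/-- `∑_y G_xy A_yw = δ_xw + z G_xw` -/
theorem rs_eq_right {A : Matrix V V ℝ} (hA : A.IsHermitian) {z : ℂ} (hz : z.im ≠ 0) (x w : V) :
    ∑ y, rsG A z x y * (A y w : ℂ) = (if x = w then 1 else 0) + z * rsG A z x w := by
  have h := congrFun (congrFun (rs_G_mul hA hz) x) w
  rw [mul_sub, mul_smul_comm, mul_one, Matrix.sub_apply, Matrix.smul_apply, smul_eq_mul, Matrix.mul_apply, Matrix.one_apply] at h
  simp only [rs_C_apply] at h
  linear_combination h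

/-- a solution of the column equation is the column of the resolvent -/
theorem rs_col_unique {A : Matrix V V ℝ} (hA : A.IsHermitian) {z : ℂ} (hz : z.im ≠ 0) (w : V) (f : V → ℂ)
    (hf : ∀ x, ∑ y, (A x y : ℂ) * f y = (if x = w then 1 else 0) + z * f x) (x : V) : f x = rsG A z x w := by
  have h1 : (rsC A - z • (1 : Matrix V V ℂ)) *ᵥ f = Pi.single w 1 := by
    funext x
    rw [Matrix.sub_mulVec, Matrix.smul_mulVec, Matrix.one_mulVec, Pi.sub_apply, Pi.smul_apply, smul_eq_mul]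
    have : (rsC A *ᵥ f) x = ∑ y, (A x y : ℂ) * f y := rfl
    rw [this, hf x, Pi.single_apply]
    ring
  have h2 : f = rsG A z *ᵥ Pi.single w 1 := by
    rw [← h1, Matrix.mulVec_mulVec, rs_G_mul hA hz, Matrix.one_mulVec]
  rw [h2, Matrix.mulVec_single_one]
  rfl

theorem rs_G_diag_im_ne {A : Matrix V V ℝ} (hA : A.IsHermitian) {z : ℂ} (hz : z.im ≠ 0) (x : V) : (rsG A z x x).im ≠ 0 := by
  rcases lt_or_gt_of_ne hz with h | h
  · have h' : 0 < (starRingEnd ℂ z).im := by simpa using h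
    have := rs_G_im_pos hA h' x
    rw [rs_G_conj hA hz] at this
    simp at this
    exact this.ne
  · exact (rs_G_im_pos hA h x).ne'

theorem rs_G_diag_ne {A : Matrix V V ℝ} (hA : A.IsHermitian) {z : ℂ} (hz : z.im ≠ 0) (x : V) : rsG A z x x ≠ 0 := by
  intro h
  exact rs_G_diag_im_ne hA hz x (by rw [h]; rfl)

theorem rs_z_ne {z : ℂ} (hz : z.im ≠ 0) : z ≠ 0 := by
  intro h; exact hz (by rw [h]; rfl)

/-! ### minors: rows and columns of `T` are set to zero (same index set) -/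

/-- `A^{(T)}`: the rows and columns of `T` are zeroed -/
def rsDel (A : Matrix V V ℝ) (T : Finset V) : Matrix V V ℝ := Matrix.of fun x y => if x ∈ T ∨ y ∈ T then 0 else A x y

theorem rs_del_eqns_cite : True := by
  have := @rsDel.eq_1
  trivial

theorem rs_del_apply (A : Matrix V V ℝ) (T : Finset V) (x y : V) : rsDel A T x y = if x ∈ T ∨ y ∈ T then 0 else A x y := rfl

theorem rs_del_left (A : Matrix V V ℝ) {T : Finset V} {x : V} (hx : x ∈ T) (y : V) : rsDel A T x y = 0 := by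
  rw [rs_del_apply, if_pos (Or.inl hx)]

theorem rs_del_right (A : Matrix V V ℝ) {T : Finset V} (x : V) {y : V} (hy : y ∈ T) : rsDel A T x y = 0 := by
  rw [rs_del_apply, if_pos (Or.inr hy)]

theorem rs_del_out (A : Matrix V V ℝ) {T : Finset V} {x y : V} (hx : x ∉ T) (hy : y ∉ T) : rsDel A T x y = A x y := by
  rw [rs_del_apply, if_neg (by tauto)]

theorem rs_del_herm {A : Matrix V V ℝ} (hA : A.IsHermitian) (T : Finset V) : (rsDel A T).IsHermitian := by
  refine rs_herm ?_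
  ext x y
  rw [Matrix.transpose_apply, rs_del_apply, rs_del_apply, rs_A_symm hA y x]
  simp only [or_comm]

theorem rs_del_empty (A : Matrix V V ℝ) : rsDel A ∅ = A := by
  ext x y; simp [rs_del_apply]

theorem rs_del_del (A : Matrix V V ℝ) (T S : Finset V) : rsDel (rsDel A T) S = rsDel A (T ∪ S) := by
  ext x y
  simp only [rs_del_apply, Finset.mem_union]
  by_cases h1 : x ∈ S <;> by_cases h2 : y ∈ S <;> by_cases h3 : x ∈ T <;> by_cases h4 : y ∈ T <;> simp [h1, h2, h3, h4]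

/-- the trivial block of `G^{(T)}` -/
theorem rs_del_G_in {A : Matrix V V ℝ} (hA : A.IsHermitian) {z : ℂ} (hz : z.im ≠ 0) {T : Finset V} {x : V} (hx : x ∈ T) (y : V) :
    rsG (rsDel A T) z x y = if x = y then -1 / z else 0 := by
  have h := rs_eq_left (rs_del_herm hA T) hz x y
  have h0 : ∑ u, (rsDel A T x u : ℂ) * rsG (rsDel A T) z u y = 0 :=
    Finset.sum_eq_zero fun u _ => by rw [rs_del_left A hx]; simp
  rw [h0] at h
  have hz0 := rs_z_ne hz
  by_cases hxy : x = y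
  · rw [if_pos hxy] at h ⊢
    field_simp
    linear_combination -h
  · rw [if_neg hxy] at h ⊢
    have : z * rsG (rsDel A T) z x y = 0 := by linear_combination -h
    exact (mul_eq_zero.1 this).resolve_left hz0

theorem rs_del_G_out_in {A : Matrix V V ℝ} (hA : A.IsHermitian) {z : ℂ} (hz : z.im ≠ 0) {T : Finset V} {x y : V} (hx : x ∉ T) (hy : y ∈ T) :
    rsG (rsDel A T) z x y = 0 := by
  rw [rs_G_symm (rs_del_herm hA T) hz, rs_del_G_in hA hz hy, if_neg]
  rintro rfl; exact hx hy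

/-- **expansion in the minor**: for `x ∉ T`:  `G_xy = G^{(T)}_xy - ∑_{v ∈ T} (∑_{u ∉ T} G^{(T)}_xu A_uv) G_vy` -/
theorem rs_minor_exp {A : Matrix V V ℝ} (hA : A.IsHermitian) {z : ℂ} (hz : z.im ≠ 0) {T : Finset V} {x : V} (hx : x ∉ T) (y : V) :
    rsG A z x y = rsG (rsDel A T) z x y - ∑ v ∈ T, (∑ u ∈ Tᶜ, rsG (rsDel A T) z x u * (A u v : ℂ)) * rsG A z v y := by
  have h := congrFun (congrFun (rs_res_A (rs_del_herm hA T) hA hz) x) y
  rw [Matrix.sub_apply, Matrix.mul_apply] at h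
  have e : ∀ v, (rsG (rsDel A T) z * rsC (A - rsDel A T)) x v
      = if v ∈ T then ∑ u ∈ Tᶜ, rsG (rsDel A T) z x u * (A u v : ℂ) else 0 := by
    intro v
    rw [Matrix.mul_apply]
    by_cases hv : v ∈ T
    · rw [if_pos hv, ← Finset.sum_add_sum_compl T]
      have : ∑ u ∈ T, rsG (rsDel A T) z x u * rsC (A - rsDel A T) u v = 0 :=
        Finset.sum_eq_zero fun u hu => by rw [rs_del_G_out_in hA hz hx hu, zero_mul]
      rw [this, zero_add]
      refine Finset.sum_congr rfl fun u _ => ?_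
      rw [rs_C_apply, Matrix.sub_apply, rs_del_right A u hv, sub_zero]
    · rw [if_neg hv]
      refine Finset.sum_eq_zero fun u _ => ?_
      by_cases hu : u ∈ T
      · rw [rs_del_G_out_in hA hz hx hu, zero_mul]
      · rw [rs_C_apply, Matrix.sub_apply, rs_del_out A hu hv, sub_self]; simp
  simp only [e] at h
  rw [← Finset.sum_add_sum_compl T] at h
  have h2 : ∑ v ∈ Tᶜ, (if v ∈ T then ∑ u ∈ Tᶜ, rsG (rsDel A T) z x u * (A u v : ℂ) else 0) * rsG A z v y = 0 :=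
    Finset.sum_eq_zero fun v hv => by rw [if_neg (Finset.mem_compl.1 hv), zero_mul]
  have h3 : ∑ v ∈ T, (if v ∈ T then ∑ u ∈ Tᶜ, rsG (rsDel A T) z x u * (A u v : ℂ) else 0) * rsG A z v y
      = ∑ v ∈ T, (∑ u ∈ Tᶜ, rsG (rsDel A T) z x u * (A u v : ℂ)) * rsG A z v y :=
    Finset.sum_congr rfl fun v hv => by rw [if_pos hv]
  rw [h2, h3, add_zero] at h
  linear_combination -h

/-- the **Schur complement matrix** (only its `T × T` block is meaningful):
`S_xv = A_xv - z δ_xv - ∑_{u,u' ∉ T} A_xu G^{(T)}_uu' A_u'v` -/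
noncomputable def rsS (A : Matrix V V ℝ) (T : Finset V) (z : ℂ) : Matrix V V ℂ := Matrix.of fun x v =>
  (A x v : ℂ) - (if x = v then z else 0) - ∑ u ∈ Tᶜ, ∑ u' ∈ Tᶜ, (A x u : ℂ) * rsG (rsDel A T) z u u' * (A u' v : ℂ)

theorem rs_S_eqns_cite : True := by
  have := @rsS.eq_1
  trivial

theorem rs_S_apply (A : Matrix V V ℝ) (T : Finset V) (z : ℂ) (x v : V) : rsS A T z x v =
    (A x v : ℂ) - (if x = v then z else 0) - ∑ u ∈ Tᶜ, ∑ u' ∈ Tᶜ, (A x u : ℂ) * rsG (rsDel A T) z u u' * (A u' v : ℂ) := rfl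

theorem rs_S_symm {A : Matrix V V ℝ} (hA : A.IsHermitian) {z : ℂ} (hz : z.im ≠ 0) (T : Finset V) (x v : V) : rsS A T z x v = rsS A T z v x := by
  rw [rs_S_apply, rs_S_apply, rs_A_symm hA x v, Finset.sum_comm]
  congr 1
  · congr 1
    by_cases h : x = v
    · rw [if_pos h, if_pos h.symm]
    · rw [if_neg h, if_neg (Ne.symm h)]
  · refine Finset.sum_congr rfl fun u _ => Finset.sum_congr rfl fun u' _ => ?_
    rw [rs_G_symm (rs_del_herm hA T) hz u' u, rs_A_symm hA x u', rs_A_symm hA u v]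
    ring

/-- **Schur complement, equation form**: for `x ∈ T` and every `y`:
`∑_{v ∈ T} S_xv G_vy = δ_xy - ∑_{u ∉ T} A_xu G^{(T)}_uy` -/
theorem rs_schur_eq {A : Matrix V V ℝ} (hA : A.IsHermitian) {z : ℂ} (hz : z.im ≠ 0) {T : Finset V} {x : V} (hx : x ∈ T) (y : V) :
    ∑ v ∈ T, rsS A T z x v * rsG A z v y = (if x = y then 1 else 0) - ∑ u ∈ Tᶜ, (A x u : ℂ) * rsG (rsDel A T) z u y := by
  have h := rs_eq_left hA hz x y
  rw [← Finset.sum_add_sum_compl T] at h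
  have h1 : ∑ u ∈ Tᶜ, (A x u : ℂ) * rsG A z u y
      = ∑ u ∈ Tᶜ, (A x u : ℂ) * rsG (rsDel A T) z u y
        - ∑ v ∈ T, (∑ u ∈ Tᶜ, ∑ u' ∈ Tᶜ, (A x u : ℂ) * rsG (rsDel A T) z u u' * (A u' v : ℂ)) * rsG A z v y := by
    have : ∀ u ∈ Tᶜ, (A x u : ℂ) * rsG A z u y = (A x u : ℂ) * rsG (rsDel A T) z u y
        - ∑ v ∈ T, (∑ u' ∈ Tᶜ, (A x u : ℂ) * rsG (rsDel A T) z u u' * (A u' v : ℂ)) * rsG A z v y := by
      intro u hu
      rw [rs_minor_exp hA hz (Finset.mem_compl.1 hu) y, mul_sub, Finset.mul_sum]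
      congr 1
      refine Finset.sum_congr rfl fun v _ => ?_
      rw [← mul_assoc, Finset.mul_sum]
      congr 1
      exact Finset.sum_congr rfl fun u' _ => by ring
    rw [Finset.sum_congr rfl this, Finset.sum_sub_distrib, Finset.sum_comm]
    congr 1
    refine Finset.sum_congr rfl fun v _ => ?_
    rw [Finset.sum_mul]
  have h2 : ∑ v ∈ T, rsS A T z x v * rsG A z v y
      = ∑ v ∈ T, (A x v : ℂ) * rsG A z v y - z * rsG A z x y
        - ∑ v ∈ T, (∑ u ∈ Tᶜ, ∑ u' ∈ Tᶜ, (A x u : ℂ) * rsG (rsDel A T) z u u' * (A u' v : ℂ)) * rsG A z v y := by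
    have e : ∑ v ∈ T, (if x = v then z else 0) * rsG A z v y = z * rsG A z x y := by
      rw [Finset.sum_eq_single x]
      · rw [if_pos rfl]
      · intro v _ hv; rw [if_neg (Ne.symm hv), zero_mul]
      · intro h; exact absurd hx h
    rw [← e, ← Finset.sum_sub_distrib, ← Finset.sum_sub_distrib]
    refine Finset.sum_congr rfl fun v _ => ?_
    rw [rs_S_apply]; ring
  rw [h2]
  rw [h1] at h
  linear_combination h

/-- `S G|_T = 1` -/
theorem rs_schur_TT {A : Matrix V V ℝ} (hA : A.IsHermitian) {z : ℂ} (hz : z.im ≠ 0) {T : Finset V} {x y : V} (hx : x ∈ T) (hy : y ∈ T) :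
    ∑ v ∈ T, rsS A T z x v * rsG A z v y = if x = y then 1 else 0 := by
  rw [rs_schur_eq hA hz hx y]
  have : ∑ u ∈ Tᶜ, (A x u : ℂ) * rsG (rsDel A T) z u y = 0 :=
    Finset.sum_eq_zero fun u hu => by rw [rs_del_G_out_in hA hz (Finset.mem_compl.1 hu) hy, mul_zero]
  rw [this, sub_zero]

/-- `G|_T S = 1` -/
theorem rs_schur_TT' {A : Matrix V V ℝ} (hA : A.IsHermitian) {z : ℂ} (hz : z.im ≠ 0) {T : Finset V} {x y : V} (hx : x ∈ T) (hy : y ∈ T) :
    ∑ v ∈ T, rsG A z x v * rsS A T z v y = if x = y then 1 else 0 := by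
  have h := rs_schur_TT hA hz hy hx
  have e : (if y = x then (1 : ℂ) else 0) = if x = y then 1 else 0 := by
    by_cases hxy : x = y
    · rw [if_pos hxy, if_pos hxy.symm]
    · rw [if_neg hxy, if_neg (Ne.symm hxy)]
  rw [← e, ← h]
  refine Finset.sum_congr rfl fun v _ => ?_
  rw [rs_G_symm hA hz x v, rs_S_symm hA hz T v y]; ring

/-- the coefficient of the expansion: for `x ∉ T`, `w ∈ T`:  `∑_{u ∉ T} G^{(T)}_xu A_uw = - ∑_{t ∈ T} G_xt S_tw` -/
theorem rs_minor_coef {A : Matrix V V ℝ} (hA : A.IsHermitian) {z : ℂ} (hz : z.im ≠ 0) {T : Finset V} {x w : V} (hx : x ∉ T) (hw : w ∈ T) :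
    ∑ u ∈ Tᶜ, rsG (rsDel A T) z x u * (A u w : ℂ) = - ∑ t ∈ T, rsG A z x t * rsS A T z t w := by
  have h1 : ∀ t ∈ T, rsG A z x t * rsS A T z t w
      = - ∑ v ∈ T, (∑ u ∈ Tᶜ, rsG (rsDel A T) z x u * (A u v : ℂ)) * (rsG A z v t * rsS A T z t w) := by
    intro t ht
    rw [rs_minor_exp hA hz hx t, rs_del_G_out_in hA hz hx ht, zero_sub, neg_mul, Finset.sum_mul]
    congr 1
    exact Finset.sum_congr rfl fun v _ => by ring
  rw [Finset.sum_congr rfl h1, Finset.sum_neg_distrib, neg_neg, Finset.sum_comm]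
  have h2 : ∀ v ∈ T, ∑ t ∈ T, (∑ u ∈ Tᶜ, rsG (rsDel A T) z x u * (A u v : ℂ)) * (rsG A z v t * rsS A T z t w)
      = (∑ u ∈ Tᶜ, rsG (rsDel A T) z x u * (A u v : ℂ)) * if v = w then 1 else 0 := by
    intro v hv
    rw [← Finset.mul_sum, rs_schur_TT' hA hz hv hw]
  rw [Finset.sum_congr rfl h2]
  symm
  rw [Finset.sum_eq_single w]
  · rw [if_pos rfl, mul_one]
  · intro v _ hv; rw [if_neg hv, mul_zero]
  · intro h; exact absurd hw h

/-- **the minor from the full resolvent**: for `x ∉ T`: `G^{(T)}_xy = G_xy - ∑_{s,t ∈ T} G_xs S_st G_ty` -/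
theorem rs_minor {A : Matrix V V ℝ} (hA : A.IsHermitian) {z : ℂ} (hz : z.im ≠ 0) {T : Finset V} {x : V} (hx : x ∉ T) (y : V) :
    rsG (rsDel A T) z x y = rsG A z x y - ∑ s ∈ T, ∑ t ∈ T, rsG A z x s * rsS A T z s t * rsG A z t y := by
  have h := rs_minor_exp hA hz hx y
  have e : ∑ v ∈ T, (∑ u ∈ Tᶜ, rsG (rsDel A T) z x u * (A u v : ℂ)) * rsG A z v y
      = - ∑ s ∈ T, ∑ t ∈ T, rsG A z x s * rsS A T z s t * rsG A z t y := by
    rw [Finset.sum_comm, ← Finset.sum_neg_distrib]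
    refine Finset.sum_congr rfl fun v hv => ?_
    rw [rs_minor_coef hA hz hx hv, neg_mul, Finset.sum_mul]
  rw [e] at h
  linear_combination -h



/-! ### one vertex -/

/-- `S^{(o)}_oo G_oo = 1` -/
theorem rs_one_mul {A : Matrix V V ℝ} (hA : A.IsHermitian) {z : ℂ} (hz : z.im ≠ 0) (o : V) :
    rsS A {o} z o o * rsG A z o o = 1 := by
  have h := rs_schur_TT hA hz (T := {o}) (Finset.mem_singleton_self o) (Finset.mem_singleton_self o)
  rwa [Finset.sum_singleton, if_pos rfl] at h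

/-- **cavity (Schur) formula**: `G_oo = 1 / (A_oo - z - ∑_{u,u' ≠ o} A_ou G^{(o)}_uu' A_u'o)` -/
theorem rs_cavity {A : Matrix V V ℝ} (hA : A.IsHermitian) {z : ℂ} (hz : z.im ≠ 0) (o : V) :
    rsG A z o o = 1 / ((A o o : ℂ) - z - ∑ u ∈ ({o} : Finset V)ᶜ, ∑ u' ∈ ({o} : Finset V)ᶜ, (A o u : ℂ) * rsG (rsDel A {o}) z u u' * (A u' o : ℂ)) := by
  have h := rs_one_mul hA hz o
  rw [rs_S_apply, if_pos rfl] at h
  exact eq_one_div_of_mul_eq_one_right h

/-- cavity formula when `A_oo = 0` (graphs): full sums -/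
theorem rs_cavity0 {A : Matrix V V ℝ} (hA : A.IsHermitian) {z : ℂ} (hz : z.im ≠ 0) (o : V) (h0 : A o o = 0) :
    rsG A z o o = 1 / (- z - ∑ u, ∑ u', (A o u : ℂ) * rsG (rsDel A {o}) z u u' * (A o u' : ℂ)) := by
  rw [rs_cavity hA hz o, h0]
  have e : ∑ u, ∑ u', (A o u : ℂ) * rsG (rsDel A {o}) z u u' * (A o u' : ℂ)
      = ∑ u ∈ ({o} : Finset V)ᶜ, ∑ u' ∈ ({o} : Finset V)ᶜ, (A o u : ℂ) * rsG (rsDel A {o}) z u u' * (A u' o : ℂ) := by
    rw [← Finset.sum_add_sum_compl ({o} : Finset V), Finset.sum_singleton, h0]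
    simp only [Complex.ofReal_zero, zero_mul, Finset.sum_const_zero, zero_add]
    refine Finset.sum_congr rfl fun u _ => ?_
    rw [← Finset.sum_add_sum_compl ({o} : Finset V), Finset.sum_singleton, h0]
    simp only [Complex.ofReal_zero, mul_zero, zero_add]
    exact Finset.sum_congr rfl fun u' _ => by rw [rs_A_symm hA o u']
  rw [e]; simp

/-- **removal of a vertex**: for `x ≠ o`: `G^{(o)}_xy = G_xy - G_xo G_oy / G_oo` -/
theorem rs_remove {A : Matrix V V ℝ} (hA : A.IsHermitian) {z : ℂ} (hz : z.im ≠ 0) {o x : V} (hx : x ≠ o) (y : V) :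
    rsG (rsDel A {o}) z x y = rsG A z x y - rsG A z x o * rsG A z o y / rsG A z o o := by
  rw [rs_minor hA hz (T := {o}) (by simpa using hx) y, Finset.sum_singleton, Finset.sum_singleton]
  have h := rs_one_mul hA hz o
  have h0 := rs_G_diag_ne hA hz o
  have : rsS A {o} z o o = 1 / rsG A z o o := eq_one_div_of_mul_eq_one_left h
  rw [this]; field_simp

/-- the row of `o`: for `x ≠ o`: `G_ox = - G_oo ∑_{u ≠ o} A_ou G^{(o)}_ux` -/
theorem rs_row {A : Matrix V V ℝ} (hA : A.IsHermitian) {z : ℂ} (hz : z.im ≠ 0) {o x : V} (hx : x ≠ o) :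
    rsG A z o x = - rsG A z o o * ∑ u ∈ ({o} : Finset V)ᶜ, (A o u : ℂ) * rsG (rsDel A {o}) z u x := by
  have h := rs_schur_eq hA hz (T := {o}) (Finset.mem_singleton_self o) x
  rw [Finset.sum_singleton, if_neg (Ne.symm hx), zero_sub] at h
  have h1 := rs_one_mul hA hz o
  calc rsG A z o x = (rsS A {o} z o o * rsG A z o o) * rsG A z o x := by rw [h1, one_mul]
    _ = rsG A z o o * (rsS A {o} z o o * rsG A z o x) := by ring
    _ = _ := by rw [h]; ring

/-! ### the block as an inverse matrix -/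

/-- `G|_T = (S|_T)⁻¹` as matrices on the subtype -/
theorem rs_schur_sub {A : Matrix V V ℝ} (hA : A.IsHermitian) {z : ℂ} (hz : z.im ≠ 0) (T : Finset V) :
    ((rsG A z).submatrix (Subtype.val : T → V) (Subtype.val : T → V)) = ((rsS A T z).submatrix (Subtype.val : T → V) (Subtype.val : T → V))⁻¹ := by
  symm
  apply Matrix.inv_eq_right_inv
  ext x y
  rw [Matrix.mul_apply]
  simp only [Matrix.submatrix_apply]
  rw [Finset.sum_coe_sort T (fun v => rsS A T z x v * rsG A z v y), rs_schur_TT hA hz x.2 y.2, Matrix.one_apply]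
  simp only [Subtype.ext_iff]

/-! ### perturbation supported on a finite set -/

/-- **update on `S × S`**, implicit form: `G'_xy = G_xy - ∑_{s,t ∈ S} G_xs (A' - A)_st G'_ty` -/
theorem rs_res_supp {A A' : Matrix V V ℝ} (hA : A.IsHermitian) (hA' : A'.IsHermitian) {z : ℂ} (hz : z.im ≠ 0) (S : Finset V)
    (hS : ∀ x y, (x ∉ S ∨ y ∉ S) → A' x y = A x y) (x y : V) :
    rsG A' z x y = rsG A z x y - ∑ s ∈ S, ∑ t ∈ S, rsG A z x s * ((A' s t - A s t : ℝ) : ℂ) * rsG A' z t y := by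
  have h := congrFun (congrFun (rs_res_A hA hA' hz) x) y
  rw [Matrix.sub_apply, Matrix.mul_assoc, Matrix.mul_apply] at h
  have e : ∑ s, rsG A z x s * (rsC (A' - A) * rsG A' z) s y
      = ∑ s ∈ S, ∑ t ∈ S, rsG A z x s * ((A' s t - A s t : ℝ) : ℂ) * rsG A' z t y := by
    rw [← Finset.sum_add_sum_compl S]
    have h1 : ∑ s ∈ Sᶜ, rsG A z x s * (rsC (A' - A) * rsG A' z) s y = 0 := by
      refine Finset.sum_eq_zero fun s hs => ?_
      rw [Matrix.mul_apply]
      have : ∑ t, rsC (A' - A) s t * rsG A' z t y = 0 :=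
        Finset.sum_eq_zero fun t _ => by
          rw [rs_C_apply, Matrix.sub_apply, hS s t (Or.inl (Finset.mem_compl.1 hs)), sub_self]; simp
      rw [this, mul_zero]
    rw [h1, add_zero]
    refine Finset.sum_congr rfl fun s _ => ?_
    rw [Matrix.mul_apply, ← Finset.sum_add_sum_compl S]
    have h2 : ∑ t ∈ Sᶜ, rsC (A' - A) s t * rsG A' z t y = 0 :=
      Finset.sum_eq_zero fun t ht => by
        rw [rs_C_apply, Matrix.sub_apply, hS s t (Or.inr (Finset.mem_compl.1 ht)), sub_self]; simp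
    rw [h2, add_zero, Finset.mul_sum]
    refine Finset.sum_congr rfl fun t _ => ?_
    rw [rs_C_apply, Matrix.sub_apply]; ring
  rw [e] at h
  linear_combination -h

/-! ### Woodbury -/

/-- complexification of a rectangular matrix -/
noncomputable def rsR {m n : Type} (U : Matrix m n ℝ) : Matrix m n ℂ := U.map (fun x : ℝ => (x : ℂ))

theorem rs_R_eqns_cite : True := by
  have := @rsR.eq_1
  trivial

@[simp] theorem rs_R_apply {m n : Type} (U : Matrix m n ℝ) (i : m) (j : n) : rsR U i j = (U i j : ℂ) := rfl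

theorem rs_R_eq_C (A : Matrix V V ℝ) : rsR A = rsC A := rfl

theorem rs_R_mul {l m n : Type} [Fintype m] (U : Matrix l m ℝ) (W : Matrix m n ℝ) : rsR (U * W) = rsR U * rsR W := by
  ext i j
  simp [Matrix.mul_apply]

theorem rs_R_transpose {m n : Type} (U : Matrix m n ℝ) : rsR Uᵀ = (rsR U)ᵀ := rfl

section woodbury

variable {ι : Type} [Fintype ι] [DecidableEq ι]

/-- the small matrix `1 + B Uᵀ G U` of the Woodbury formula -/
noncomputable def rsW (A : Matrix V V ℝ) (U : Matrix V ι ℝ) (B : Matrix ι ι ℝ) (z : ℂ) : Matrix ι ι ℂ :=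
  1 + rsR B * ((rsR U)ᵀ * rsG A z * rsR U)

theorem rs_W_eqns_cite : True := by
  have := @rsW.eq_1
  trivial

theorem rs_shift_update (A : Matrix V V ℝ) (U : Matrix V ι ℝ) (B : Matrix ι ι ℝ) (z : ℂ) :
    rsC (A + U * B * Uᵀ) - z • (1 : Matrix V V ℂ) = (rsC A - z • (1 : Matrix V V ℂ)) + rsR U * rsR B * (rsR U)ᵀ := by
  rw [rs_C_add, ← rs_R_eq_C (U * B * Uᵀ), rs_R_mul, rs_R_mul, rs_R_transpose]
  abel

theorem rs_W_isUnit {A : Matrix V V ℝ} (hA : A.IsHermitian) (U : Matrix V ι ℝ) (B : Matrix ι ι ℝ)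
    (hB : (A + U * B * Uᵀ).IsHermitian) {z : ℂ} (hz : z.im ≠ 0) : IsUnit (rsW A U B z).det := by
  have h1 : (rsW A U B z).det = ((rsC (A + U * B * Uᵀ) - z • (1 : Matrix V V ℂ)) * rsG A z).det := by
    rw [rs_shift_update, add_mul, rs_mul_G hA hz, rsW]
    have e1 : rsR B * ((rsR U)ᵀ * rsG A z * rsR U) = (rsR B * (rsR U)ᵀ * rsG A z) * rsR U := by
      simp only [Matrix.mul_assoc]
    have e2 : rsR U * rsR B * (rsR U)ᵀ * rsG A z = rsR U * (rsR B * (rsR U)ᵀ * rsG A z) := by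
      simp only [Matrix.mul_assoc]
    rw [e1, e2, Matrix.det_one_add_mul_comm]
  rw [h1, Matrix.det_mul]
  refine (rs_isUnit hB hz).mul ?_
  exact Matrix.isUnit_det_of_left_inverse (rs_mul_G hA hz)

/-- **Woodbury**: `A' = A + U B Uᵀ`:  `G' = G - G U (1 + B Uᵀ G U)⁻¹ B Uᵀ G` -/
theorem rs_woodbury {A : Matrix V V ℝ} (hA : A.IsHermitian) (U : Matrix V ι ℝ) (B : Matrix ι ι ℝ)
    (hB : (A + U * B * Uᵀ).IsHermitian) {z : ℂ} (hz : z.im ≠ 0) :
    rsG (A + U * B * Uᵀ) z = rsG A z - rsG A z * rsR U * ((rsW A U B z)⁻¹ * rsR B) * ((rsR U)ᵀ * rsG A z) := by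
  have hW := rs_W_isUnit hA U B hB hz
  rw [rsG]
  apply Matrix.inv_eq_right_inv
  rw [rs_shift_update]
  set M := rsC A - z • (1 : Matrix V V ℂ) with hM
  set G := rsG A z with hG
  set u := rsR U with hu
  set b := rsR B with hb
  set W := rsW A U B z with hWd
  have hMG : M * G = 1 := rs_mul_G hA hz
  have hWW : W * W⁻¹ = 1 := Matrix.mul_nonsing_inv _ hW
  have hWe : u + u * b * (uᵀ * G * u) = u * W := by
    rw [hWd, rsW, Matrix.mul_add, Matrix.mul_one, Matrix.mul_assoc]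
  have e1 : (M + u * b * uᵀ) * G = 1 + u * b * (uᵀ * G) := by
    rw [add_mul, hMG, Matrix.mul_assoc (u * b)]
  have e2 : (M + u * b * uᵀ) * (G * u * (W⁻¹ * b) * (uᵀ * G)) = u * b * (uᵀ * G) := by
    have : (M + u * b * uᵀ) * (G * u) = u * W := by
      rw [← hWe, Matrix.add_mul, ← Matrix.mul_assoc M, hMG, Matrix.one_mul]
      simp only [Matrix.mul_assoc]
    calc (M + u * b * uᵀ) * (G * u * (W⁻¹ * b) * (uᵀ * G))
        = ((M + u * b * uᵀ) * (G * u)) * (W⁻¹ * b) * (uᵀ * G) := by simp only [Matrix.mul_assoc]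
      _ = u * (W * W⁻¹) * b * (uᵀ * G) := by rw [this]; simp only [Matrix.mul_assoc]
      _ = u * b * (uᵀ * G) := by rw [hWW, Matrix.mul_one]
  rw [mul_sub, e1, e2, add_sub_cancel_right]

/-- the coordinate embedding matrix `E_{x i} = 1{x = e i}` -/
def rsE (e : ι → V) : Matrix V ι ℝ := Matrix.of fun x i => if x = e i then 1 else 0

theorem rs_E_eqns_cite : True := by
  have := @rsE.eq_1
  trivial

theorem rs_E_apply (e : ι → V) (x : V) (i : ι) : rsE e x i = if x = e i then 1 else 0 := rfl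

theorem rs_mul_E {l : Type} (M : Matrix l V ℂ) (e : ι → V) (x : l) (i : ι) : (M * rsR (rsE e)) x i = M x (e i) := by
  rw [Matrix.mul_apply, Finset.sum_eq_single (e i)]
  · simp [rs_E_apply]
  · intro y _ hy; simp [rs_E_apply, hy]
  · intro h; exact absurd (Finset.mem_univ _) h

theorem rs_E_mul {l : Type} (M : Matrix V l ℂ) (e : ι → V) (i : ι) (y : l) : ((rsR (rsE e))ᵀ * M) i y = M (e i) y := by
  rw [Matrix.mul_apply, Finset.sum_eq_single (e i)]
  · simp [rs_E_apply]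
  · intro x _ hx; simp [rs_E_apply, hx]
  · intro h; exact absurd (Finset.mem_univ _) h

/-- the perturbation `E B Eᵀ` in entries -/
theorem rs_EBE_apply (e : ι → V) (B : Matrix ι ι ℝ) (x y : V) :
    (rsE e * B * (rsE e)ᵀ) x y = ∑ i, ∑ j, (if x = e i then 1 else 0) * B i j * (if y = e j then 1 else 0) := by
  rw [Matrix.mul_apply, Finset.sum_comm]
  refine Finset.sum_congr rfl fun j _ => ?_
  rw [Matrix.mul_apply, Finset.sum_mul]
  rfl

theorem rs_W_E (A : Matrix V V ℝ) (e : ι → V) (B : Matrix ι ι ℝ) (z : ℂ) :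
    rsW A (rsE e) B z = 1 + rsR B * (rsG A z).submatrix e e := by
  rw [rsW]
  congr 2
  ext i j
  rw [rs_mul_E, rs_E_mul]
  rfl

/-- **update on finitely many coordinates, solved form**:  `A' = A + E B Eᵀ`, `Q = (G_{e i, e j})`:
`G'_xy = G_xy - ∑_{i,j} G_{x, e i} [(1 + B Q)⁻¹ B]_{ij} G_{e j, y}` -/
theorem rs_update {A : Matrix V V ℝ} (hA : A.IsHermitian) (e : ι → V) (B : Matrix ι ι ℝ)
    (hB : (A + rsE e * B * (rsE e)ᵀ).IsHermitian) {z : ℂ} (hz : z.im ≠ 0) (x y : V) :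
    rsG (A + rsE e * B * (rsE e)ᵀ) z x y = rsG A z x y
      - ∑ i, ∑ j, rsG A z x (e i) * ((1 + rsR B * (rsG A z).submatrix e e)⁻¹ * rsR B) i j * rsG A z (e j) y := by
  rw [rs_woodbury hA (rsE e) B hB hz, Matrix.sub_apply, Matrix.mul_apply, rs_W_E, Finset.sum_comm]
  congr 1
  refine Finset.sum_congr rfl fun j _ => ?_
  rw [Matrix.mul_apply, rs_E_mul, Finset.sum_mul]
  refine Finset.sum_congr rfl fun i _ => ?_
  rw [rs_mul_E]

theorem rs_update_isUnit {A : Matrix V V ℝ} (hA : A.IsHermitian) (e : ι → V) (B : Matrix ι ι ℝ)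
    (hB : (A + rsE e * B * (rsE e)ᵀ).IsHermitian) {z : ℂ} (hz : z.im ≠ 0) :
    IsUnit (1 + rsR B * (rsG A z).submatrix e e).det := by
  rw [← rs_W_E]; exact rs_W_isUnit hA _ B hB hz

theorem rs_EBE_herm {A : Matrix V V ℝ} (hA : A.IsHermitian) (U : Matrix V ι ℝ) {B : Matrix ι ι ℝ} (hB : B.IsHermitian) :
    (A + U * B * Uᵀ).IsHermitian := by
  refine hA.add ?_
  have := Matrix.isHermitian_mul_mul_conjTranspose U hB
  rwa [conjTranspose_eq_transpose_of_trivial] at this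

end woodbury



/-! ### traces of minors -/

/-- `|∑_x G_xo G_ox| ≤ |G_oo| / η` -/
theorem rs_sq_sum_le {A : Matrix V V ℝ} (hA : A.IsHermitian) {z : ℂ} (hz : 0 < z.im) (o : V) :
    ‖∑ x, rsG A z x o * rsG A z o x‖ ≤ ‖rsG A z o o‖ / z.im := by
  calc ‖∑ x, rsG A z x o * rsG A z o x‖ ≤ ∑ x, ‖rsG A z o x‖ ^ 2 := by
        refine (norm_sum_le _ _).trans (Finset.sum_le_sum fun x _ => ?_)
        rw [norm_mul, rs_G_symm hA hz.ne' x o, sq]
    _ = (rsG A z o o).im / z.im := rs_ward hA hz.ne' o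
    _ ≤ ‖rsG A z o o‖ / z.im := div_le_div_of_nonneg_right ((le_abs_self _).trans (Complex.abs_im_le_norm _)) hz.le

/-- `Tr G - Tr G^{(o)} = (∑_x G_xo G_ox) / G_oo + 1/z` (the zeroed row contributes `-1/z` to `Tr G^{(o)}`) -/
theorem rs_trace_remove {A : Matrix V V ℝ} (hA : A.IsHermitian) {z : ℂ} (hz : z.im ≠ 0) (o : V) :
    (rsG A z).trace - (rsG (rsDel A {o}) z).trace = (∑ x, rsG A z x o * rsG A z o x) / rsG A z o o + 1 / z := by
  have h0 := rs_G_diag_ne hA hz o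
  have hz0 := rs_z_ne hz
  rw [Matrix.trace, Matrix.trace, ← Finset.sum_sub_distrib, Finset.sum_div]
  simp only [Matrix.diag_apply]
  rw [← Finset.sum_add_sum_compl ({o} : Finset V), ← Finset.sum_add_sum_compl ({o} : Finset V) (fun x => rsG A z x o * rsG A z o x / rsG A z o o),
    Finset.sum_singleton, Finset.sum_singleton, rs_del_G_in hA hz (Finset.mem_singleton_self o), if_pos rfl]
  have e : ∑ x ∈ ({o} : Finset V)ᶜ, (rsG A z x x - rsG (rsDel A {o}) z x x) = ∑ x ∈ ({o} : Finset V)ᶜ, rsG A z x o * rsG A z o x / rsG A z o o := by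
    refine Finset.sum_congr rfl fun x hx => ?_
    have hx' : x ≠ o := by simpa using hx
    rw [rs_remove hA hz hx']; ring
  rw [e]
  field_simp
  ring

/-- **trace interlacing, one vertex**: `|Tr G - Tr G^{(o)}| ≤ 2/η` -/
theorem rs_trace_remove_le {A : Matrix V V ℝ} (hA : A.IsHermitian) {z : ℂ} (hz : 0 < z.im) (o : V) :
    ‖(rsG A z).trace - (rsG (rsDel A {o}) z).trace‖ ≤ 2 / z.im := by
  rw [rs_trace_remove hA hz.ne' o]
  have h0 : 0 < ‖rsG A z o o‖ := norm_pos_iff.2 (rs_G_diag_ne hA hz.ne' o)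
  have h1 : ‖(∑ x, rsG A z x o * rsG A z o x) / rsG A z o o‖ ≤ 1 / z.im := by
    rw [norm_div, div_le_iff₀ h0]
    calc _ ≤ ‖rsG A z o o‖ / z.im := rs_sq_sum_le hA hz o
      _ = 1 / z.im * ‖rsG A z o o‖ := by ring
  have h2 : ‖1 / z‖ ≤ 1 / z.im := by
    rw [norm_div, norm_one]
    exact one_div_le_one_div_of_le hz ((le_abs_self _).trans (Complex.abs_im_le_norm _))
  calc _ ≤ ‖(∑ x, rsG A z x o * rsG A z o x) / rsG A z o o‖ + ‖1 / z‖ := norm_add_le _ _
    _ ≤ 1 / z.im + 1 / z.im := add_le_add h1 h2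
    _ = 2 / z.im := by ring

/-- **trace interlacing**: `|Tr G - Tr G^{(T)}| ≤ 2 |T| / η` -/
theorem rs_trace_del_le {A : Matrix V V ℝ} (hA : A.IsHermitian) {z : ℂ} (hz : 0 < z.im) (T : Finset V) :
    ‖(rsG A z).trace - (rsG (rsDel A T) z).trace‖ ≤ 2 * T.card / z.im := by
  induction T using Finset.induction_on with
  | empty => simp [rs_del_empty]
  | insert o T ho ih =>
    have e : rsDel A (insert o T) = rsDel (rsDel A T) {o} := by
      rw [rs_del_del, Finset.union_comm]; rfl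
    have h1 := rs_trace_remove_le (rs_del_herm hA T) hz o
    rw [← e] at h1
    rw [Finset.card_insert_of_notMem ho]
    calc ‖(rsG A z).trace - (rsG (rsDel A (insert o T)) z).trace‖
        = ‖((rsG A z).trace - (rsG (rsDel A T) z).trace) + ((rsG (rsDel A T) z).trace - (rsG (rsDel A (insert o T)) z).trace)‖ := by
          congr 1; ring
      _ ≤ 2 * T.card / z.im + 2 / z.im := (norm_add_le _ _).trans (add_le_add ih h1)
      _ = 2 * ((T.card + 1 : ℕ) : ℝ) / z.im := by push_cast; ring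

/-- two matrices which differ only in the rows/columns of `T`: `|Tr G_A - Tr G_B| ≤ 4 |T| / η` -/
theorem rs_trace_diff_le {A B : Matrix V V ℝ} (hA : A.IsHermitian) (hB : B.IsHermitian) {z : ℂ} (hz : 0 < z.im) (T : Finset V)
    (hT : ∀ x y, x ∉ T → y ∉ T → A x y = B x y) :
    ‖(rsG A z).trace - (rsG B z).trace‖ ≤ 4 * T.card / z.im := by
  have e : rsDel A T = rsDel B T := by
    ext x y
    rw [rs_del_apply, rs_del_apply]
    by_cases h : x ∈ T ∨ y ∈ T
    · rw [if_pos h, if_pos h]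
    · rw [if_neg h, if_neg h]
      push Not at h
      exact hT x y h.1 h.2
  have h1 := rs_trace_del_le hA hz T
  have h2 := rs_trace_del_le hB hz T
  rw [← e, norm_sub_rev] at h2
  calc ‖(rsG A z).trace - (rsG B z).trace‖
      = ‖((rsG A z).trace - (rsG (rsDel A T) z).trace) + ((rsG (rsDel A T) z).trace - (rsG B z).trace)‖ := by congr 1; ring
    _ ≤ 2 * T.card / z.im + 2 * T.card / z.im := (norm_add_le _ _).trans (add_le_add h1 h2)
    _ = 4 * T.card / z.im := by ring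

/-! ### Poisson kernel: counting and delocalisation -/

/-- `Im Tr G = ∑_i η / ((λ_i - E)² + η²)` -/
theorem rs_trace_im {A : Matrix V V ℝ} (hA : A.IsHermitian) {z : ℂ} (hz : z.im ≠ 0) :
    (rsG A z).trace.im = ∑ i, z.im / ((hA.eigenvalues i - z.re) ^ 2 + z.im ^ 2) := by
  rw [rs_trace hA hz, Complex.im_sum]
  refine Finset.sum_congr rfl fun i _ => ?_
  have := rs_im_term 1 (hA.eigenvalues i) z
  rw [Complex.ofReal_one, one_mul, one_div] at this
  exact this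

/-- Hilbert-Schmidt norm: `∑_{x,y} |G_xy|² = Im Tr G / η` -/
theorem rs_HS {A : Matrix V V ℝ} (hA : A.IsHermitian) {z : ℂ} (hz : z.im ≠ 0) :
    ∑ x, ∑ y, ‖rsG A z x y‖ ^ 2 = (rsG A z).trace.im / z.im := by
  rw [Matrix.trace, Complex.im_sum, Finset.sum_div]
  exact Finset.sum_congr rfl fun x _ => rs_ward hA hz x

/-- **delocalisation from `Im G`**: `|λ_i - E| ≤ η ⟹ ψ_i(x)² ≤ 2 η Im G_xx(E + iη)` -/
theorem rs_evec_le {A : Matrix V V ℝ} (hA : A.IsHermitian) (E : ℝ) {η : ℝ} (hη : 0 < η) (x i : V) (hi : |hA.eigenvalues i - E| ≤ η) :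
    rsU hA x i ^ 2 ≤ 2 * η * (rsG A (rsZ E η) x x).im := by
  rw [rs_G_im hA (z := rsZ E η) hη.ne']
  simp only [rs_Z_re, rs_Z_im]
  have h1 : rsU hA x i ^ 2 * η / ((hA.eigenvalues i - E) ^ 2 + η ^ 2) ≤ ∑ j, rsU hA x j ^ 2 * η / ((hA.eigenvalues j - E) ^ 2 + η ^ 2) :=
    Finset.single_le_sum (f := fun j => rsU hA x j ^ 2 * η / ((hA.eigenvalues j - E) ^ 2 + η ^ 2))
      (fun j _ => div_nonneg (mul_nonneg (sq_nonneg _) hη.le) (by positivity)) (Finset.mem_univ i)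
  have h2 : (hA.eigenvalues i - E) ^ 2 ≤ η ^ 2 := sq_le_sq' (by linarith [(abs_le.1 hi).1]) (abs_le.1 hi).2
  have h3 : rsU hA x i ^ 2 ≤ 2 * η * (rsU hA x i ^ 2 * η / ((hA.eigenvalues i - E) ^ 2 + η ^ 2)) := by
    have hp : 0 < (hA.eigenvalues i - E) ^ 2 + η ^ 2 := by positivity
    have : 2 * η * (rsU hA x i ^ 2 * η / ((hA.eigenvalues i - E) ^ 2 + η ^ 2)) = rsU hA x i ^ 2 * (2 * η ^ 2) / ((hA.eigenvalues i - E) ^ 2 + η ^ 2) := by ring
    rw [this, le_div_iff₀ hp]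
    exact mul_le_mul_of_nonneg_left (by linarith) (sq_nonneg _)
  exact h3.trans (mul_le_mul_of_nonneg_left h1 (by positivity))

/-- **counting from `Im Tr G`**: `#{i : |λ_i - E| ≤ η} ≤ 2 η Im Tr G(E + iη)` -/
theorem rs_count_le {A : Matrix V V ℝ} (hA : A.IsHermitian) (E : ℝ) {η : ℝ} (hη : 0 < η) :
    (((Finset.univ.filter fun i => |hA.eigenvalues i - E| ≤ η).card : ℕ) : ℝ) ≤ 2 * η * (rsG A (rsZ E η)).trace.im := by
  rw [rs_trace_im hA (z := rsZ E η) hη.ne']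
  simp only [rs_Z_re, rs_Z_im]
  rw [Finset.mul_sum, Finset.card_eq_sum_ones, Nat.cast_sum]
  calc ∑ i ∈ Finset.univ.filter (fun i => |hA.eigenvalues i - E| ≤ η), ((1 : ℕ) : ℝ)
      ≤ ∑ i ∈ Finset.univ.filter (fun i => |hA.eigenvalues i - E| ≤ η), 2 * η * (η / ((hA.eigenvalues i - E) ^ 2 + η ^ 2)) := by
        refine Finset.sum_le_sum fun i hi => ?_
        have hi' := (Finset.mem_filter.1 hi).2
        have h2 : (hA.eigenvalues i - E) ^ 2 ≤ η ^ 2 := sq_le_sq' (by linarith [(abs_le.1 hi').1]) (abs_le.1 hi').2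
        have hp : 0 < (hA.eigenvalues i - E) ^ 2 + η ^ 2 := by positivity
        have : 2 * η * (η / ((hA.eigenvalues i - E) ^ 2 + η ^ 2)) = (2 * η ^ 2) / ((hA.eigenvalues i - E) ^ 2 + η ^ 2) := by ring
        rw [this, le_div_iff₀ hp]
        push_cast; linarith
    _ ≤ ∑ i, 2 * η * (η / ((hA.eigenvalues i - E) ^ 2 + η ^ 2)) :=
        Finset.sum_le_sum_of_subset_of_nonneg (Finset.filter_subset _ _) fun i _ _ => by positivity

/-- Ward sums along the descent: `∑_w |G_xw(E + i r η)|² ≤ r⁻² ∑_w |G_xw(E + iη)|²` -/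
theorem rs_ward_height {A : Matrix V V ℝ} (hA : A.IsHermitian) (E : ℝ) {η r : ℝ} (hη : 0 < η) (hr : 0 < r) (hr1 : r ≤ 1) (x : V) :
    ∑ w, ‖rsG A (rsZ E (r * η)) x w‖ ^ 2 ≤ (r ^ 2)⁻¹ * ∑ w, ‖rsG A (rsZ E η) x w‖ ^ 2 := by
  have hrη : 0 < r * η := mul_pos hr hη
  rw [rs_ward hA (z := rsZ E (r * η)) hrη.ne', rs_ward hA (z := rsZ E η) hη.ne']
  simp only [rs_Z_im]
  have := rs_eta_im_mono hA E hrη (by nlinarith : r * η ≤ η) x
  rw [div_le_iff₀ hrη]
  have e : (r ^ 2)⁻¹ * ((rsG A (rsZ E η) x x).im / η) * (r * η) = (η * (rsG A (rsZ E η) x x).im) / (r * η) := by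
    field_simp
  rw [e, le_div_iff₀ hrη]
  linarith

/-- `Im G_xx(E + i r η) ≤ r⁻¹ Im G_xx(E + iη)` for `r ≤ 1` -/
theorem rs_im_height {A : Matrix V V ℝ} (hA : A.IsHermitian) (E : ℝ) {η r : ℝ} (hη : 0 < η) (hr : 0 < r) (hr1 : r ≤ 1) (x : V) :
    (rsG A (rsZ E (r * η)) x x).im ≤ r⁻¹ * (rsG A (rsZ E η) x x).im := by
  have hrη : 0 < r * η := mul_pos hr hη
  have := rs_eta_im_mono hA E hrη (by nlinarith : r * η ≤ η) x
  have e : r⁻¹ * (rsG A (rsZ E η) x x).im = (η * (rsG A (rsZ E η) x x).im) / (r * η) := by field_simp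
  rw [e, le_div_iff₀ hrη]
  linarith

/-! ### quadratic and bilinear forms -/

/-- coordinates of a vector in the eigenbasis -/
noncomputable def rsCo {A : Matrix V V ℝ} (hA : A.IsHermitian) (u : V → ℝ) (i : V) : ℝ := ∑ x, u x * rsU hA x i

theorem rs_Co_eqns_cite : True := by
  have := @rsCo.eq_1
  trivial

/-- Parseval -/
theorem rs_Co_sq {A : Matrix V V ℝ} (hA : A.IsHermitian) (u : V → ℝ) : ∑ i, rsCo hA u i ^ 2 = ∑ x, u x ^ 2 := by
  have h1 : ∀ i, rsCo hA u i ^ 2 = ∑ x, ∑ y, u x * u y * (rsU hA x i * rsU hA y i) := by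
    intro i
    rw [rsCo, sq, Finset.sum_mul_sum]
    exact Finset.sum_congr rfl fun x _ => Finset.sum_congr rfl fun y _ => by ring
  simp only [h1]
  rw [Finset.sum_comm]
  refine Finset.sum_congr rfl fun x _ => ?_
  rw [Finset.sum_comm]
  have h2 : ∀ y, ∑ i, u x * u y * (rsU hA x i * rsU hA y i) = u x * u y * if x = y then 1 else 0 := by
    intro y; rw [← Finset.mul_sum, rs_U_row]
  simp only [h2]
  rw [Finset.sum_eq_single x]
  · rw [if_pos rfl]; ring
  · intro y _ hy; rw [if_neg (Ne.symm hy), mul_zero]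
  · intro h; exact absurd (Finset.mem_univ _) h

/-- **bilinear form**: `∑_{x,y} u_x G_xy v_y = ∑_i û_i v̂_i / (λ_i - z)` -/
theorem rs_bilin {A : Matrix V V ℝ} (hA : A.IsHermitian) {z : ℂ} (hz : z.im ≠ 0) (u v : V → ℝ) :
    ∑ x, ∑ y, (u x : ℂ) * rsG A z x y * (v y : ℂ) = ∑ i, (rsCo hA u i : ℂ) * (rsCo hA v i : ℂ) / ((hA.eigenvalues i : ℂ) - z) := by
  have h1 : ∀ x y, (u x : ℂ) * rsG A z x y * (v y : ℂ)
      = ∑ i, ((u x : ℂ) * (rsU hA x i : ℂ)) * ((v y : ℂ) * (rsU hA y i : ℂ)) / ((hA.eigenvalues i : ℂ) - z) := by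
    intro x y
    rw [rs_G_apply hA hz, Finset.mul_sum, Finset.sum_mul]
    exact Finset.sum_congr rfl fun i _ => by ring
  simp only [h1]
  have h2 : ∀ x, ∑ y, ∑ i, ((u x : ℂ) * (rsU hA x i : ℂ)) * ((v y : ℂ) * (rsU hA y i : ℂ)) / ((hA.eigenvalues i : ℂ) - z)
      = ∑ i, ((u x : ℂ) * (rsU hA x i : ℂ)) * (rsCo hA v i : ℂ) / ((hA.eigenvalues i : ℂ) - z) := by
    intro x
    rw [Finset.sum_comm]
    refine Finset.sum_congr rfl fun i _ => ?_
    rw [rsCo, Complex.ofReal_sum, Finset.mul_sum, Finset.sum_div]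
    exact Finset.sum_congr rfl fun y _ => by push_cast; ring
  simp only [h2]
  rw [Finset.sum_comm]
  refine Finset.sum_congr rfl fun i _ => ?_
  have e : (rsCo hA u i : ℂ) = ∑ x, (u x : ℂ) * (rsU hA x i : ℂ) := by rw [rsCo]; push_cast; rfl
  rw [e, Finset.sum_mul, Finset.sum_div]

/-- `Im uᵀ G u = ∑_i û_i² η / ((λ_i - E)² + η²)` -/
theorem rs_quad_im {A : Matrix V V ℝ} (hA : A.IsHermitian) {z : ℂ} (hz : z.im ≠ 0) (u : V → ℝ) :
    (∑ x, ∑ y, (u x : ℂ) * rsG A z x y * (u y : ℂ)).im = ∑ i, rsCo hA u i ^ 2 * z.im / ((hA.eigenvalues i - z.re) ^ 2 + z.im ^ 2) := by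
  rw [rs_bilin hA hz, Complex.im_sum]
  refine Finset.sum_congr rfl fun i _ => ?_
  have : (rsCo hA u i : ℂ) * (rsCo hA u i : ℂ) = ((rsCo hA u i ^ 2 : ℝ) : ℂ) := by push_cast; ring
  rw [this, rs_im_term]

theorem rs_quad_im_nonneg {A : Matrix V V ℝ} (hA : A.IsHermitian) {z : ℂ} (hz : 0 < z.im) (u : V → ℝ) :
    0 ≤ (∑ x, ∑ y, (u x : ℂ) * rsG A z x y * (u y : ℂ)).im := by
  rw [rs_quad_im hA hz.ne']
  exact Finset.sum_nonneg fun i _ => div_nonneg (mul_nonneg (sq_nonneg _) hz.le) (rs_normSq_pos _ hz.ne').le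

/-- `|uᵀ G v| ≤ |u| |v| / η` -/
theorem rs_bilin_le {A : Matrix V V ℝ} (hA : A.IsHermitian) {z : ℂ} (hz : 0 < z.im) (u v : V → ℝ) :
    ‖∑ x, ∑ y, (u x : ℂ) * rsG A z x y * (v y : ℂ)‖ ≤ Real.sqrt (∑ x, u x ^ 2) * Real.sqrt (∑ x, v x ^ 2) / z.im := by
  rw [rs_bilin hA hz.ne', ← rs_Co_sq hA u, ← rs_Co_sq hA v]
  have h1 : ∀ i, ‖(rsCo hA u i : ℂ) * (rsCo hA v i : ℂ) / ((hA.eigenvalues i : ℂ) - z)‖ ≤ |rsCo hA u i| * |rsCo hA v i| / z.im := by
    intro i
    rw [norm_div, norm_mul, Complex.norm_real, Complex.norm_real, Real.norm_eq_abs, Real.norm_eq_abs]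
    refine div_le_div_of_nonneg_left (by positivity) hz ?_
    have : |((hA.eigenvalues i : ℂ) - z).im| ≤ ‖(hA.eigenvalues i : ℂ) - z‖ := Complex.abs_im_le_norm _
    simp only [Complex.sub_im, Complex.ofReal_im, zero_sub, abs_neg] at this
    exact (le_abs_self _).trans this
  calc _ ≤ ∑ i, |rsCo hA u i| * |rsCo hA v i| / z.im := (norm_sum_le _ _).trans (Finset.sum_le_sum fun i _ => h1 i)
    _ = (∑ i, |rsCo hA u i| * |rsCo hA v i|) / z.im := by rw [Finset.sum_div]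
    _ ≤ _ := by
        refine div_le_div_of_nonneg_right ?_ hz.le
        have := Real.sum_mul_le_sqrt_mul_sqrt Finset.univ (fun i => |rsCo hA u i|) (fun i => |rsCo hA v i|)
        simpa only [sq_abs] using this

/-- Ward identity for vectors: `∑_x |∑_y G_xy u_y|² = Im uᵀ G u / η` -/
theorem rs_ward_vec {A : Matrix V V ℝ} (hA : A.IsHermitian) {z : ℂ} (hz : z.im ≠ 0) (u : V → ℝ) :
    ∑ x, ‖∑ y, rsG A z x y * (u y : ℂ)‖ ^ 2 = (∑ x, ∑ y, (u x : ℂ) * rsG A z x y * (u y : ℂ)).im / z.im := by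
  have hz' : (starRingEnd ℂ z).im ≠ 0 := by simpa using hz
  -- `G(z) - G(z̄) = (z - z̄) G(z̄) G(z)` tested against `u`
  have hres := rs_res_z hA hz hz'
  set q := ∑ x, ∑ y, (u x : ℂ) * rsG A z x y * (u y : ℂ) with hq
  have h1 : ∑ x, ∑ y, (u x : ℂ) * (rsG A z - rsG A (starRingEnd ℂ z)) x y * (u y : ℂ) = q - starRingEnd ℂ q := by
    rw [hq, map_sum, ← Finset.sum_sub_distrib]
    refine Finset.sum_congr rfl fun x _ => ?_
    rw [map_sum, ← Finset.sum_sub_distrib]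
    refine Finset.sum_congr rfl fun y _ => ?_
    rw [Matrix.sub_apply, rs_G_conj hA hz]
    simp only [map_mul, Complex.conj_ofReal]
    ring
  have h2 : ∑ x, ∑ y, (u x : ℂ) * ((z - starRingEnd ℂ z) • (rsG A z * rsG A (starRingEnd ℂ z))) x y * (u y : ℂ)
      = (z - starRingEnd ℂ z) * ((∑ w, ‖∑ y, rsG A z w y * (u y : ℂ)‖ ^ 2 : ℝ) : ℂ) := by
    have e : ∀ w, ((‖∑ y, rsG A z w y * (u y : ℂ)‖ ^ 2 : ℝ) : ℂ)
        = (∑ x, (u x : ℂ) * rsG A z x w) * (∑ y, rsG A (starRingEnd ℂ z) w y * (u y : ℂ)) := by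
      intro w
      have e1 : ∑ y, rsG A (starRingEnd ℂ z) w y * (u y : ℂ) = starRingEnd ℂ (∑ y, rsG A z w y * (u y : ℂ)) := by
        rw [map_sum]
        exact Finset.sum_congr rfl fun y _ => by rw [rs_G_conj hA hz, map_mul, Complex.conj_ofReal]
      have e2 : ∑ x, (u x : ℂ) * rsG A z x w = ∑ y, rsG A z w y * (u y : ℂ) :=
        Finset.sum_congr rfl fun y _ => by rw [rs_G_symm hA hz y w]; ring
      rw [e1, e2, Complex.mul_conj, Complex.normSq_eq_norm_sq]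
    rw [Complex.ofReal_sum, Finset.mul_sum]
    simp only [e]
    simp only [Matrix.smul_apply, smul_eq_mul, Matrix.mul_apply]
    have : ∀ w, (z - starRingEnd ℂ z) * ((∑ x, (u x : ℂ) * rsG A z x w) * (∑ y, rsG A (starRingEnd ℂ z) w y * (u y : ℂ)))
        = ∑ x, ∑ y, (u x : ℂ) * ((z - starRingEnd ℂ z) * (rsG A z x w * rsG A (starRingEnd ℂ z) w y)) * (u y : ℂ) := by
      intro w
      rw [Finset.sum_mul_sum, Finset.mul_sum]
      refine Finset.sum_congr rfl fun x _ => ?_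
      rw [Finset.mul_sum]
      exact Finset.sum_congr rfl fun y _ => by ring
    simp only [this]
    symm
    rw [Finset.sum_comm]
    refine Finset.sum_congr rfl fun x _ => ?_
    rw [Finset.sum_comm]
    refine Finset.sum_congr rfl fun y _ => ?_
    rw [Finset.mul_sum, Finset.mul_sum, Finset.sum_mul]
  rw [hres, h2] at h1
  have e1 : q - starRingEnd ℂ q = (2 * q.im : ℝ) * Complex.I := by rw [Complex.sub_conj]
  have e2 : z - starRingEnd ℂ z = (2 * z.im : ℝ) * Complex.I := by rw [Complex.sub_conj]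
  rw [e1, e2] at h1
  have h3 : ((2 * z.im * ∑ w, ‖∑ y, rsG A z w y * (u y : ℂ)‖ ^ 2 : ℝ) : ℂ) = ((2 * q.im : ℝ) : ℂ) := by
    apply mul_right_cancel₀ Complex.I_ne_zero
    rw [← h1]; push_cast; ring
  have h4 : 2 * z.im * ∑ w, ‖∑ y, rsG A z w y * (u y : ℂ)‖ ^ 2 = 2 * q.im := by exact_mod_cast h3
  field_simp
  linarith

/-- operator norm: `∑_x |∑_y G_xy u_y|² ≤ |u|² / η²` -/
theorem rs_op_le {A : Matrix V V ℝ} (hA : A.IsHermitian) {z : ℂ} (hz : 0 < z.im) (u : V → ℝ) :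
    ∑ x, ‖∑ y, rsG A z x y * (u y : ℂ)‖ ^ 2 ≤ (∑ x, u x ^ 2) / z.im ^ 2 := by
  rw [rs_ward_vec hA hz.ne']
  have h1 := rs_bilin_le hA hz u u
  rw [Real.mul_self_sqrt (Finset.sum_nonneg fun x _ => sq_nonneg _)] at h1
  have h2 := ((le_abs_self _).trans (Complex.abs_im_le_norm _)).trans h1
  calc _ ≤ (∑ x, u x ^ 2) / z.im / z.im := div_le_div_of_nonneg_right h2 hz.le
    _ = _ := by rw [div_div, sq]

end Claimed.Agent.R287
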