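import Claimed.Prelude.Def_0462

/-!
# Row 287 (S0534), BOX[SWITCH]: switchings on the frozen `regularGraphs n d`      (owner helper292; design helper237; prefix `sw7_`, types `Sw7*`; 0 sorry)

Sources: P1 (GOE bulk universality) Sec. 4 l.155-180 (two-edge switch), Sec. 5 Prop. 5.1 step 1 (permutation switches); P2 Sec. 3.2 (marked boundary switch) = L4 of route102.
No configuration model, no stubs: a marked graph is a triple `(G, v, w)`, `v w : ι → V` = the lists of the starting / ending endpoints of the marked pairs, `ι` ANY finite index type.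
* `sw7G G v w σ`   the edges `v i - w i` are replaced by `v i - w (σ i)`;   the new list is `(v, w ∘ σ)`.
* three events, from the weakest to the strongest:
  `Sw7Adm G v w σ`  (for ONE `σ`; both lists may repeat vertices: unicyclic boundaries)   `⟸`   `Sw7Ok G v w`  (all `σ`; `w` injective, the `v i` may repeat: boundary of a tree)   `⟸`   `Sw7Ind G v w`  (induced matching: P1).
* sec. 1 (`Sw7Ok`): `sw7_adj`, `sw7_adj_vw`, `Sw7Ok.sw`, `sw7_adj_of_not`, `sw7_adj_of_notMem` (locality), `sw7_one`, **`sw7_mul`** (action law), `sw7_inv`.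
* sec. 2 (`Sw7Adm`): `Sw7Ok.adm`, `sw7a_adj`, `Sw7Adm.sw` (the reversed instruction `(v, w ∘ σ, σ⁻¹)` is admissible), **`sw7a_inv`** (it restores the graph), `sw7a_adj_of_notMem`.
* sec. 3: **`sw7_entry`**, **`sw7_adjMatrix`** (`A' = A - Σ (E_{v w} + E_{w v}) + Σ (E_{v wσ} + E_{wσ v})`, any ring), `sw7_rowsum` (degrees).
* sec. 4: `sw7_mem_reg`, **`sw7_reg`** (the switched graph is in `regularGraphs n d`), **`sw7_exch`** (exchangeability, general form with events `P` before / `Q` after).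
* sec. 5: `Sw7Ind.ok`, `Sw7Ind.sw`, **`sw7_exch_ind`**, **`sw7_exch_ok`**.
-/

set_option autoImplicit false

namespace Claimed.Agent.R287

open Claims.C0462

/-! ## 1. the generic switch -/

section Generic

variable {V ι : Type}

/-- the switched graph: the edges `v i - w i` are replaced by the edges `v i - w (σ i)` -/
def sw7G (G : SimpleGraph V) (v w : ι → V) (σ : Equiv.Perm ι) : SimpleGraph V :=
  (G \ SimpleGraph.fromEdgeSet (Set.range fun i => s(v i, w i))) ⊔ SimpleGraph.fromEdgeSet (Set.range fun i => s(v i, w (σ i)))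

/-- the list `(v i, w i)` may be switched: the `w i` are distinct, no `v i` is a `w j`, and the only edges between the `v`'s and the `w`'s are the marked ones.
The `v i` MAY coincide (several marked edges at one vertex); nothing is asked on the edges among the `v`'s or among the `w`'s. -/
structure Sw7Ok (G : SimpleGraph V) (v w : ι → V) : Prop where
  inj : Function.Injective w
  ne : ∀ i j, v i ≠ w j
  adj : ∀ i j, G.Adj (v i) (w j) ↔ v i = v j

variable {G : SimpleGraph V} {v w : ι → V}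

theorem sw7_sym2 (h : Sw7Ok G v w) {i j k l : ι} : s(v i, w j) = s(v k, w l) ↔ v i = v k ∧ j = l := by
  rw [Sym2.eq_iff]
  constructor
  · rintro (⟨h1, h2⟩ | ⟨h1, _⟩)
    · exact ⟨h1, h.inj h2⟩
    · exact absurd h1 (h.ne i l)
  · rintro ⟨h1, rfl⟩
    exact Or.inl ⟨h1, rfl⟩

theorem sw7_adj (h : Sw7Ok G v w) (σ : Equiv.Perm ι) (x y : V) :
    (sw7G G v w σ).Adj x y ↔ (G.Adj x y ∧ ¬ ∃ i, s(v i, w i) = s(x, y)) ∨ ∃ i, s(v i, w (σ i)) = s(x, y) := by
  unfold sw7G
  rw [SimpleGraph.sup_adj, SimpleGraph.sdiff_adj, SimpleGraph.fromEdgeSet_adj, SimpleGraph.fromEdgeSet_adj, Set.mem_range, Set.mem_range]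
  constructor
  · rintro (⟨h1, h2⟩ | ⟨h1, _⟩)
    · exact Or.inl ⟨h1, fun h3 => h2 ⟨h3, h1.ne⟩⟩
    · exact Or.inr h1
  · rintro (⟨h1, h2⟩ | ⟨i, hi⟩)
    · exact Or.inl ⟨h1, fun h3 => h2 h3.1⟩
    · refine Or.inr ⟨⟨i, hi⟩, ?_⟩
      rintro rfl
      rw [Sym2.eq_iff] at hi
      rcases hi with ⟨h1, h2⟩ | ⟨h1, h2⟩
      · exact h.ne i (σ i) (h1.trans h2.symm)
      · exact h.ne i (σ i) (h1.trans h2.symm)

/-- a marked new pair which is an old edge is a marked old pair -/
theorem sw7_new_old (h : Sw7Ok G v w) (σ : Equiv.Perm ι) {x y : V} (hG : G.Adj x y) (hn : ∃ i, s(v i, w (σ i)) = s(x, y)) :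
    ∃ i, s(v i, w i) = s(x, y) := by
  obtain ⟨i, hi⟩ := hn
  have h1 : G.Adj (v i) (w (σ i)) := by
    rw [← SimpleGraph.mem_edgeSet, hi]
    exact hG
  refine ⟨σ i, ?_⟩
  rw [← hi, sw7_sym2 h]
  exact ⟨((h.adj _ _).1 h1).symm, rfl⟩

theorem sw7_old_adj (h : Sw7Ok G v w) {x y : V} (hn : ∃ i, s(v i, w i) = s(x, y)) : G.Adj x y := by
  obtain ⟨i, hi⟩ := hn
  rw [← SimpleGraph.mem_edgeSet, ← hi]
  exact (h.adj i i).2 rfl

/-- between the `v`'s and the `w`'s the new graph has exactly the new marked edges -/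
theorem sw7_adj_vw (h : Sw7Ok G v w) (σ : Equiv.Perm ι) (i j : ι) : (sw7G G v w σ).Adj (v i) (w (σ j)) ↔ v i = v j := by
  rw [sw7_adj h]
  constructor
  · rintro (⟨h1, h2⟩ | ⟨k, hk⟩)
    · exact absurd ⟨σ j, (sw7_sym2 h).2 ⟨((h.adj _ _).1 h1).symm, rfl⟩⟩ h2
    · obtain ⟨h1, h2⟩ := (sw7_sym2 h).1 hk
      rw [σ.injective h2] at h1
      exact h1.symm
  · intro h1
    exact Or.inr ⟨j, (sw7_sym2 h).2 ⟨h1.symm, rfl⟩⟩

/-- the switched list may be switched in the switched graph -/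
theorem Sw7Ok.sw (h : Sw7Ok G v w) (σ : Equiv.Perm ι) : Sw7Ok (sw7G G v w σ) v (w ∘ σ) :=
  ⟨h.inj.comp σ.injective, fun i j => h.ne i (σ j), fun i j => sw7_adj_vw h σ i j⟩

/-- the switch does not touch the pairs which are not (`v`, `w`) pairs -/
theorem sw7_adj_of_not (h : Sw7Ok G v w) (σ : Equiv.Perm ι) {x y : V} (hxy : ¬ ∃ i j, s(v i, w j) = s(x, y)) :
    (sw7G G v w σ).Adj x y ↔ G.Adj x y := by
  rw [sw7_adj h]
  constructor
  · rintro (⟨h1, _⟩ | ⟨i, hi⟩)
    · exact h1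
    · exact absurd ⟨i, σ i, hi⟩ hxy
  · intro h1
    exact Or.inl ⟨h1, fun ⟨i, hi⟩ => hxy ⟨i, i, hi⟩⟩

/-- the switch does not touch the edges at a vertex which is not in the lists -/
theorem sw7_adj_of_notMem (h : Sw7Ok G v w) (σ : Equiv.Perm ι) {x : V} (hv : ∀ i, v i ≠ x) (hw : ∀ i, w i ≠ x) (y : V) :
    (sw7G G v w σ).Adj x y ↔ G.Adj x y := by
  refine sw7_adj_of_not h σ ?_
  rintro ⟨i, j, hij⟩
  rw [Sym2.eq_iff] at hij
  rcases hij with ⟨h1, _⟩ | ⟨_, h2⟩
  · exact hv i h1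
  · exact hw j h2

theorem sw7_one (h : Sw7Ok G v w) : sw7G G v w 1 = G := by
  ext x y
  rw [sw7_adj h]
  simp only [Equiv.Perm.coe_one, id_eq]
  constructor
  · rintro (⟨h1, _⟩ | h1)
    · exact h1
    · exact sw7_old_adj h h1
  · intro h1
    by_cases h2 : ∃ i, s(v i, w i) = s(x, y)
    · exact Or.inr h2
    · exact Or.inl ⟨h1, h2⟩

/-- **action law** -/
theorem sw7_mul (h : Sw7Ok G v w) (σ τ : Equiv.Perm ι) : sw7G (sw7G G v w σ) v (w ∘ σ) τ = sw7G G v w (σ * τ) := by
  ext x y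
  rw [sw7_adj (h.sw σ), sw7_adj h, sw7_adj h]
  simp only [Function.comp_apply, Equiv.Perm.coe_mul]
  constructor
  · rintro (⟨h1 | h1, h2⟩ | h1)
    · exact Or.inl h1
    · exact absurd h1 h2
    · exact Or.inr h1
  · rintro (⟨h1, h2⟩ | h1)
    · exact Or.inl ⟨Or.inl ⟨h1, h2⟩, fun h3 => h2 (sw7_new_old h σ h1 h3)⟩
    · exact Or.inr h1

theorem sw7_inv (h : Sw7Ok G v w) (σ : Equiv.Perm ι) : sw7G (sw7G G v w σ) v (w ∘ σ) σ⁻¹ = G := by
  rw [sw7_mul h, mul_inv_cancel, sw7_one h]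

end Generic

/-! ## 2. the switch along ONE permutation, general admissibility (both lists may repeat vertices) -/

section Adm

variable {V ι : Type}

/-- the list may be switched along `σ`: the marked pairs are distinct edges, the new pairs are distinct, are no loops, and a new pair which is an edge is a marked pair -/
structure Sw7Adm (G : SimpleGraph V) (v w : ι → V) (σ : Equiv.Perm ι) : Prop where
  adj : ∀ i, G.Adj (v i) (w i)
  inj : Function.Injective fun i => s(v i, w i)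
  inj' : Function.Injective fun i => s(v i, w (σ i))
  ne : ∀ i, v i ≠ w (σ i)
  old : ∀ i, G.Adj (v i) (w (σ i)) → ∃ j, s(v j, w j) = s(v i, w (σ i))

variable {G : SimpleGraph V} {v w : ι → V} {σ : Equiv.Perm ι}

theorem Sw7Ok.adm (h : Sw7Ok G v w) (σ : Equiv.Perm ι) : Sw7Adm G v w σ where
  adj := fun i => (h.adj i i).2 rfl
  inj := fun _ _ hij => ((sw7_sym2 h).1 hij).2
  inj' := fun _ _ hij => σ.injective ((sw7_sym2 h).1 hij).2
  ne := fun i => h.ne i (σ i)
  old := fun i hi => ⟨σ i, (sw7_sym2 h).2 ⟨((h.adj _ _).1 hi).symm, rfl⟩⟩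

theorem sw7a_adj (h : Sw7Adm G v w σ) (x y : V) :
    (sw7G G v w σ).Adj x y ↔ (G.Adj x y ∧ ¬ ∃ i, s(v i, w i) = s(x, y)) ∨ ∃ i, s(v i, w (σ i)) = s(x, y) := by
  unfold sw7G
  rw [SimpleGraph.sup_adj, SimpleGraph.sdiff_adj, SimpleGraph.fromEdgeSet_adj, SimpleGraph.fromEdgeSet_adj, Set.mem_range, Set.mem_range]
  constructor
  · rintro (⟨h1, h2⟩ | ⟨h1, _⟩)
    · exact Or.inl ⟨h1, fun h3 => h2 ⟨h3, h1.ne⟩⟩
    · exact Or.inr h1
  · rintro (⟨h1, h2⟩ | ⟨i, hi⟩)
    · exact Or.inl ⟨h1, fun h3 => h2 h3.1⟩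
    · refine Or.inr ⟨⟨i, hi⟩, ?_⟩
      rintro rfl
      rw [Sym2.eq_iff] at hi
      rcases hi with ⟨h1, h2⟩ | ⟨h1, h2⟩
      · exact h.ne i (h1.trans h2.symm)
      · exact h.ne i (h1.trans h2.symm)

theorem sw7a_old_adj (h : Sw7Adm G v w σ) {x y : V} (hn : ∃ i, s(v i, w i) = s(x, y)) : G.Adj x y := by
  obtain ⟨i, hi⟩ := hn
  rw [← SimpleGraph.mem_edgeSet, ← hi]
  exact h.adj i

theorem sw7a_new_old (h : Sw7Adm G v w σ) {x y : V} (hG : G.Adj x y) (hn : ∃ i, s(v i, w (σ i)) = s(x, y)) : ∃ i, s(v i, w i) = s(x, y) := by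
  obtain ⟨i, hi⟩ := hn
  have h1 : G.Adj (v i) (w (σ i)) := by
    rw [← SimpleGraph.mem_edgeSet, hi]
    exact hG
  rw [← hi]
  exact h.old i h1

/-- the reversed instruction is admissible in the switched graph -/
theorem Sw7Adm.sw (h : Sw7Adm G v w σ) : Sw7Adm (sw7G G v w σ) v (w ∘ σ) σ⁻¹ where
  adj := fun i => (sw7a_adj h _ _).2 (Or.inr ⟨i, rfl⟩)
  inj := h.inj'
  inj' := by simpa using h.inj
  ne := fun i => by simpa using (h.adj i).ne
  old := fun i hi => by
    simp only [Function.comp_apply, Equiv.Perm.inv_def, Equiv.apply_symm_apply] at hi ⊢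
    rcases (sw7a_adj h _ _).1 hi with ⟨_, h2⟩ | h2
    · exact absurd ⟨i, rfl⟩ h2
    · exact h2

/-- the reversed instruction restores the graph -/
theorem sw7a_inv (h : Sw7Adm G v w σ) : sw7G (sw7G G v w σ) v (w ∘ σ) σ⁻¹ = G := by
  ext x y
  rw [sw7a_adj h.sw, sw7a_adj h]
  simp only [Function.comp_apply, Equiv.Perm.inv_def, Equiv.apply_symm_apply]
  constructor
  · rintro (⟨h1 | h1, h2⟩ | h1)
    · exact h1.1
    · exact absurd h1 h2
    · exact sw7a_old_adj h h1
  · intro h1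
    by_cases h2 : ∃ i, s(v i, w i) = s(x, y)
    · exact Or.inr h2
    · exact Or.inl ⟨Or.inl ⟨h1, h2⟩, fun h3 => h2 (sw7a_new_old h h1 h3)⟩

/-- the switch does not touch the edges at a vertex which is not in the lists -/
theorem sw7a_adj_of_notMem (h : Sw7Adm G v w σ) {x : V} (hv : ∀ i, v i ≠ x) (hw : ∀ i, w i ≠ x) (y : V) :
    (sw7G G v w σ).Adj x y ↔ G.Adj x y := by
  have key : ∀ w' : ι → V, (∀ i, w' i ≠ x) → ¬ ∃ i, s(v i, w' i) = s(x, y) := by
    rintro w' hw' ⟨i, hi⟩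
    rw [Sym2.eq_iff] at hi
    rcases hi with ⟨h1, _⟩ | ⟨_, h2⟩
    · exact hv i h1
    · exact hw' i h2
  rw [sw7a_adj h]
  constructor
  · rintro (⟨h1, _⟩ | h1)
    · exact h1
    · exact absurd h1 (key (fun i => w (σ i)) fun i => hw (σ i))
  · intro h1
    exact Or.inl ⟨h1, key w hw⟩

end Adm

/-! ## 3. the adjacency matrix, the degrees -/

section Mat

variable {V ι : Type} [Fintype ι] {G : SimpleGraph V} {v w : ι → V} {σ : Equiv.Perm ι}

open Classical in
/-- a list of distinct non-loop pairs: the sum of the indicators of the two orientations is the indicator of the set of pairs -/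
theorem sw7_sum_ind {R : Type} [AddCommMonoidWithOne R] {w' : ι → V} (hinj : Function.Injective fun i => s(v i, w' i)) (hne : ∀ i, v i ≠ w' i) (x y : V) :
    ∑ i, ((if x = v i ∧ y = w' i then (1 : R) else 0) + (if y = v i ∧ x = w' i then 1 else 0)) = if ∃ i, s(v i, w' i) = s(x, y) then 1 else 0 := by
  by_cases hex : ∃ i, s(v i, w' i) = s(x, y)
  · rw [if_pos hex]
    obtain ⟨i0, h0⟩ := hex
    rw [Finset.sum_eq_single i0]
    · rw [Sym2.eq_iff] at h0
      rcases h0 with ⟨h1, h2⟩ | ⟨h1, h2⟩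
      · rw [if_pos ⟨h1.symm, h2.symm⟩, if_neg, add_zero]
        rintro ⟨h3, _⟩
        exact hne i0 (h3.symm.trans h2.symm)
      · rw [if_neg, if_pos ⟨h1.symm, h2.symm⟩, zero_add]
        rintro ⟨h3, _⟩
        exact hne i0 (h3.symm.trans h2.symm)
    · intro j _ hj
      rw [if_neg, if_neg, add_zero]
      · rintro ⟨h1, h2⟩
        exact hj (hinj (show s(v j, w' j) = s(v i0, w' i0) by rw [h0, ← h1, ← h2, Sym2.eq_swap]))
      · rintro ⟨h1, h2⟩
        exact hj (hinj (show s(v j, w' j) = s(v i0, w' i0) by rw [h0, ← h1, ← h2]))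
    · intro h; exact absurd (Finset.mem_univ _) h
  · rw [if_neg hex]
    refine Finset.sum_eq_zero fun i _ => ?_
    rw [if_neg, if_neg, add_zero]
    · rintro ⟨h1, h2⟩
      exact hex ⟨i, by rw [← h1, ← h2, Sym2.eq_swap]⟩
    · rintro ⟨h1, h2⟩
      exact hex ⟨i, by rw [← h1, ← h2]⟩

open Classical in
/-- **entrywise update** -/
theorem sw7_entry {R : Type} [Ring R] (h : Sw7Adm G v w σ) (x y : V) :
    (if (sw7G G v w σ).Adj x y then (1 : R) else 0) = (if G.Adj x y then 1 else 0)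
      - ∑ i, ((if x = v i ∧ y = w i then 1 else 0) + (if y = v i ∧ x = w i then 1 else 0))
      + ∑ i, ((if x = v i ∧ y = w (σ i) then 1 else 0) + (if y = v i ∧ x = w (σ i) then 1 else 0)) := by
  rw [sw7_sum_ind h.inj (fun i => (h.adj i).ne) x y, sw7_sum_ind (w' := fun i => w (σ i)) h.inj' h.ne x y]
  have hA := sw7a_adj h x y
  by_cases hG : G.Adj x y
  · by_cases p : ∃ i, s(v i, w i) = s(x, y)
    · by_cases q : ∃ i, s(v i, w (σ i)) = s(x, y)
      · rw [if_pos (hA.2 (Or.inr q)), if_pos hG, if_pos p, if_pos q]; simp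
      · rw [if_neg (fun hh => by rcases hA.1 hh with ⟨_, h2⟩ | h2; exacts [h2 p, q h2]), if_pos hG, if_pos p, if_neg q]; simp
    · have q : ¬ ∃ i, s(v i, w (σ i)) = s(x, y) := fun hq => p (sw7a_new_old h hG hq)
      rw [if_pos (hA.2 (Or.inl ⟨hG, p⟩)), if_pos hG, if_neg p, if_neg q]; simp
  · have p : ¬ ∃ i, s(v i, w i) = s(x, y) := fun hp => hG (sw7a_old_adj h hp)
    by_cases q : ∃ i, s(v i, w (σ i)) = s(x, y)
    · rw [if_pos (hA.2 (Or.inr q)), if_neg hG, if_neg p, if_pos q]; simp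
    · rw [if_neg (fun hh => by rcases hA.1 hh with ⟨h1, _⟩ | h2; exacts [hG h1, q h2]), if_neg hG, if_neg p, if_neg q]; simp

variable [Fintype V]

open Classical in
/-- the row sums (degrees) do not change -/
theorem sw7_rowsum {R : Type} [Ring R] (h : Sw7Adm G v w σ) (x : V) :
    ∑ y, (if (sw7G G v w σ).Adj x y then (1 : R) else 0) = ∑ y, if G.Adj x y then (1 : R) else 0 := by
  have e : ∀ w' : ι → V, ∑ y, ∑ i, ((if x = v i ∧ y = w' i then (1 : R) else 0) + (if y = v i ∧ x = w' i then 1 else 0))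
      = ∑ i, ((if x = v i then (1 : R) else 0) + (if x = w' i then 1 else 0)) := by
    intro w'
    rw [Finset.sum_comm]
    refine Finset.sum_congr rfl fun i _ => ?_
    rw [Finset.sum_add_distrib]
    congr 1
    · by_cases hx : x = v i
      · simp [hx]
      · simp [hx]
    · by_cases hx : x = w' i
      · simp [hx]
      · simp [hx]
  simp only [sw7_entry h x]
  rw [Finset.sum_add_distrib, Finset.sum_sub_distrib, e w, e fun i => w (σ i), Finset.sum_add_distrib, Finset.sum_add_distrib,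
    Equiv.sum_comp σ fun i => if x = w i then (1 : R) else 0]
  abel

omit [Fintype V] in
open Classical in
/-- **update of the adjacency matrix** (form (4) of 289) -/
theorem sw7_adjMatrix {R : Type} [Ring R] (h : Sw7Adm G v w σ) :
    (sw7G G v w σ).adjMatrix R = G.adjMatrix R - ∑ i, (Matrix.single (v i) (w i) 1 + Matrix.single (w i) (v i) 1)
      + ∑ i, (Matrix.single (v i) (w (σ i)) 1 + Matrix.single (w (σ i)) (v i) 1) := by
  ext x y
  rw [SimpleGraph.adjMatrix_apply, sw7_entry h x y, Matrix.add_apply, Matrix.sub_apply, SimpleGraph.adjMatrix_apply, Matrix.sum_apply, Matrix.sum_apply]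
  congr 1
  · congr 1
    refine Finset.sum_congr rfl fun i _ => ?_
    rw [Matrix.add_apply, Matrix.single_apply, Matrix.single_apply]
    congr 1
    · exact if_congr ⟨fun hh => ⟨hh.1.symm, hh.2.symm⟩, fun hh => ⟨hh.1.symm, hh.2.symm⟩⟩ rfl rfl
    · exact if_congr ⟨fun hh => ⟨hh.2.symm, hh.1.symm⟩, fun hh => ⟨hh.2.symm, hh.1.symm⟩⟩ rfl rfl
  · refine Finset.sum_congr rfl fun i _ => ?_
    rw [Matrix.add_apply, Matrix.single_apply, Matrix.single_apply]
    congr 1
    · exact if_congr ⟨fun hh => ⟨hh.1.symm, hh.2.symm⟩, fun hh => ⟨hh.1.symm, hh.2.symm⟩⟩ rfl rfl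
    · exact if_congr ⟨fun hh => ⟨hh.2.symm, hh.1.symm⟩, fun hh => ⟨hh.2.symm, hh.1.symm⟩⟩ rfl rfl

end Mat

/-! ## 4. the frozen ensemble: regularity, exchangeability -/

section Reg

variable {n d : ℕ} {ι : Type} [Fintype ι]

open Classical in
theorem sw7_mem_reg {G : SimpleGraph (Fin n)} : G ∈ regularGraphs n d ↔ ∀ x, ∑ y, (if G.Adj x y then (1 : ℤ) else 0) = d := by
  unfold regularGraphs
  rw [Finset.mem_filter]
  simp only [Finset.mem_univ, true_and, SimpleGraph.IsRegularOfDegree]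
  refine forall_congr' fun x => ?_
  rw [Finset.sum_boole, ← SimpleGraph.card_neighborFinset_eq_degree, SimpleGraph.neighborFinset_eq_filter]
  norm_cast

/-- the switched graph is `d`-regular -/
theorem sw7_reg {G : SimpleGraph (Fin n)} {v w : ι → Fin n} {σ : Equiv.Perm ι} (hG : G ∈ regularGraphs n d) (h : Sw7Adm G v w σ) :
    sw7G G v w σ ∈ regularGraphs n d := by
  classical
  rw [sw7_mem_reg] at hG ⊢
  intro x
  rw [sw7_rowsum h x]
  exact hG x

open Classical in
/-- **EXCHANGEABILITY, general form.**      `P` = the event before the switch, `Q` = the event after the switch (for an invariant event: `P = Q`). -/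
theorem sw7_exch [DecidableEq ι] {M : Type} [AddCommMonoid M] (σ : Equiv.Perm ι) (P Q : SimpleGraph (Fin n) → (ι → Fin n) → (ι → Fin n) → Prop)
    (hP : ∀ G v w, P G v w → Sw7Adm G v w σ ∧ Q (sw7G G v w σ) v (w ∘ σ))
    (hQ : ∀ G v w, Q G v w → Sw7Adm G v w σ⁻¹ ∧ P (sw7G G v w σ⁻¹) v (w ∘ ⇑(σ⁻¹)))
    (F : SimpleGraph (Fin n) → (ι → Fin n) → (ι → Fin n) → M) :
    ∑ G ∈ regularGraphs n d, ∑ v, ∑ w, (if P G v w then F (sw7G G v w σ) v (w ∘ σ) else 0)
      = ∑ G ∈ regularGraphs n d, ∑ v, ∑ w, if Q G v w then F G v w else 0 := by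
  have flat : ∀ (f : SimpleGraph (Fin n) → (ι → Fin n) → (ι → Fin n) → M) (S : SimpleGraph (Fin n) → (ι → Fin n) → (ι → Fin n) → Prop),
      ∑ G ∈ regularGraphs n d, ∑ v, ∑ w, (if S G v w then f G v w else 0)
        = ∑ t ∈ ((regularGraphs n d) ×ˢ (Finset.univ ×ˢ Finset.univ : Finset ((ι → Fin n) × (ι → Fin n)))).filter (fun t => S t.1 t.2.1 t.2.2),
            f t.1 t.2.1 t.2.2 := by
    intro f S
    rw [Finset.sum_filter, Finset.sum_product]
    refine Finset.sum_congr rfl fun G _ => ?_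
    rw [Finset.sum_product]
  rw [flat, flat]
  refine Finset.sum_nbij' (fun t => (sw7G t.1 t.2.1 t.2.2 σ, t.2.1, t.2.2 ∘ σ)) (fun t => (sw7G t.1 t.2.1 t.2.2 σ⁻¹, t.2.1, t.2.2 ∘ ⇑(σ⁻¹))) ?_ ?_ ?_ ?_ ?_
  · rintro ⟨G, v, w⟩ ht
    simp only [Finset.mem_filter, Finset.mem_product, Finset.mem_univ, and_true] at ht ⊢
    exact ⟨sw7_reg ht.1 (hP G v w ht.2).1, (hP G v w ht.2).2⟩
  · rintro ⟨G, v, w⟩ ht
    simp only [Finset.mem_filter, Finset.mem_product, Finset.mem_univ, and_true] at ht ⊢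
    exact ⟨sw7_reg ht.1 (hQ G v w ht.2).1, (hQ G v w ht.2).2⟩
  · rintro ⟨G, v, w⟩ ht
    simp only [Finset.mem_filter, Finset.mem_product, Finset.mem_univ, and_true] at ht
    simp only [sw7a_inv (hP G v w ht.2).1]
    congr 2
    funext i
    simp
  · rintro ⟨G, v, w⟩ ht
    simp only [Finset.mem_filter, Finset.mem_product, Finset.mem_univ, and_true] at ht
    have := sw7a_inv (hQ G v w ht.2).1
    rw [inv_inv] at this
    simp only [this]
    congr 2
    funext i
    simp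
  · rintro ⟨G, v, w⟩ _
    rfl

end Reg

/-! ## 5. induced matchings (the event of P1 Sec. 4, 5) -/

section Ind

variable {V ι : Type}

/-- the marked pairs form an INDUCED MATCHING: the `2k` endpoints are distinct and the only edges among them are the marked pairs -/
structure Sw7Ind (G : SimpleGraph V) (v w : ι → V) : Prop where
  inj : Function.Injective (Sum.elim v w)
  adj : ∀ c c' : ι ⊕ ι, G.Adj (Sum.elim v w c) (Sum.elim v w c') ↔ c' = c.swap

variable {G : SimpleGraph V} {v w : ι → V}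

theorem Sw7Ind.v_inj (h : Sw7Ind G v w) : Function.Injective v := fun i j hij => by
  have := h.inj (a₁ := Sum.inl i) (a₂ := Sum.inl j) hij
  exact Sum.inl.inj this

theorem Sw7Ind.ok (h : Sw7Ind G v w) : Sw7Ok G v w where
  inj := fun i j hij => by
    have := h.inj (a₁ := Sum.inr i) (a₂ := Sum.inr j) hij
    exact Sum.inr.inj this
  ne := fun i j hij => by
    have := h.inj (a₁ := Sum.inl i) (a₂ := Sum.inr j) hij
    exact Sum.inl_ne_inr this
  adj := fun i j => by
    have := h.adj (Sum.inl i) (Sum.inr j)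
    simp only [Sum.elim_inl, Sum.elim_inr, Sum.swap_inl, Sum.inr.injEq] at this
    rw [this]
    exact ⟨fun e => by rw [e], fun e => (h.v_inj e).symm⟩

theorem Sw7Ind.sw (h : Sw7Ind G v w) (σ : Equiv.Perm ι) : Sw7Ind (sw7G G v w σ) v (w ∘ σ) where
  inj := by
    have e : Sum.elim v (w ∘ σ) = Sum.elim v w ∘ Sum.map id σ := by
      funext c
      cases c <;> rfl
    rw [e]
    exact h.inj.comp (Function.injective_id.sumMap σ.injective)
  adj := by
    have hk := h.ok
    rintro (i | i) (j | j)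
    · simp only [Sum.elim_inl, Sum.swap_inl, reduceCtorEq, iff_false]
      rw [sw7_adj_of_not hk σ]
      · have := h.adj (Sum.inl i) (Sum.inl j)
        simpa using this
      · rintro ⟨k, l, hkl⟩
        rw [Sym2.eq_iff] at hkl
        rcases hkl with ⟨_, h2⟩ | ⟨_, h2⟩
        · exact hk.ne j l h2.symm
        · exact hk.ne i l h2.symm
    · simp only [Sum.elim_inl, Sum.elim_inr, Function.comp_apply, Sum.swap_inl, Sum.inr.injEq]
      rw [sw7_adj_vw hk]
      exact ⟨fun e => (h.v_inj e).symm, fun e => by rw [e]⟩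
    · simp only [Sum.elim_inl, Sum.elim_inr, Function.comp_apply, Sum.swap_inr, Sum.inl.injEq]
      rw [SimpleGraph.adj_comm, sw7_adj_vw hk]
      exact ⟨fun e => h.v_inj e, fun e => by rw [e]⟩
    · simp only [Sum.elim_inr, Function.comp_apply, Sum.swap_inr, reduceCtorEq, iff_false]
      rw [sw7_adj_of_not hk σ]
      · have := h.adj (Sum.inr (σ i)) (Sum.inr (σ j))
        simpa using this
      · rintro ⟨k, l, hkl⟩
        rw [Sym2.eq_iff] at hkl
        rcases hkl with ⟨h1, _⟩ | ⟨h1, _⟩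
        · exact hk.ne k (σ i) h1
        · exact hk.ne k (σ j) h1

end Ind

section RegInd

variable {n d : ℕ} {ι : Type} [Fintype ι]

open Classical in
/-- **EXCHANGEABILITY on induced matchings** (forms (1), (2) of 289): P1 Sec. 4 (two-edge switch: `σ` a transposition), P1 Prop. 5.1 step 1 (all permutations) -/
theorem sw7_exch_ind [DecidableEq ι] {M : Type} [AddCommMonoid M] (σ : Equiv.Perm ι) (F : SimpleGraph (Fin n) → (ι → Fin n) → (ι → Fin n) → M) :
    ∑ G ∈ regularGraphs n d, ∑ v, ∑ w, (if Sw7Ind G v w then F (sw7G G v w σ) v (w ∘ σ) else 0)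
      = ∑ G ∈ regularGraphs n d, ∑ v, ∑ w, if Sw7Ind G v w then F G v w else 0 :=
  sw7_exch σ Sw7Ind Sw7Ind (fun _ _ _ h => ⟨h.ok.adm σ, h.sw σ⟩) (fun _ _ _ h => ⟨h.ok.adm _, h.sw _⟩) F

open Classical in
/-- **EXCHANGEABILITY on `Sw7Ok`** (the `v i` may repeat) -/
theorem sw7_exch_ok [DecidableEq ι] {M : Type} [AddCommMonoid M] (σ : Equiv.Perm ι) (F : SimpleGraph (Fin n) → (ι → Fin n) → (ι → Fin n) → M) :
    ∑ G ∈ regularGraphs n d, ∑ v, ∑ w, (if Sw7Ok G v w then F (sw7G G v w σ) v (w ∘ σ) else 0)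
      = ∑ G ∈ regularGraphs n d, ∑ v, ∑ w, if Sw7Ok G v w then F G v w else 0 :=
  sw7_exch σ Sw7Ok Sw7Ok (fun _ _ _ h => ⟨h.adm σ, h.sw σ⟩) (fun _ _ _ h => ⟨h.adm _, h.sw _⟩) F

end RegInd

end Claimed.Agent.R287
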