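import Claimed.Agent.R287.DefsB1

/-!
# Row 287 (S0534), BOX[L0]: local structure of the uniform random regular graph        helper222

Everything is a counting statement on the frozen finite set `regularGraphs n d`.

* `lc7_step`   (E0)  one-edge switching:  `#{G ⊇ F + uv} * (n d - 2 d (d+1) - 2 |F|) ≤ d^2 #{G ⊇ F}`
* `lc7_edges`        `#{G ⊇ F} ≤ (2 d / n)^|F| #RG`      for `4 (d+1) + 4 |F| ≤ n`
-/

set_option autoImplicit false

namespace Claimed.Agent.R287

open Claims.C0462

/-! ### 1. the two-edge switch -/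

section Switch

variable {V : Type*}

/-- remove `ab`, `ce`; add `ac`, `be` -/
def lc7Sw (G : SimpleGraph V) (a b c e : V) : SimpleGraph V where
  Adj p q := p ≠ q ∧ ((G.Adj p q ∧ s(p, q) ≠ s(a, b) ∧ s(p, q) ≠ s(c, e)) ∨ s(p, q) = s(a, c) ∨ s(p, q) = s(b, e))
  symm := ⟨by
    intro p q h
    rw [Sym2.eq_swap (a := q) (b := p)]
    exact ⟨h.1.symm, by rw [G.adj_comm]; exact h.2⟩⟩
  loopless := ⟨fun p h => h.1 rfl⟩

theorem lc7Sw_eqns_cite (G : SimpleGraph V) (a b c e p q : V) :
    (lc7Sw G a b c e).Adj p q ↔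
      p ≠ q ∧ ((G.Adj p q ∧ s(p, q) ≠ s(a, b) ∧ s(p, q) ≠ s(c, e)) ∨ s(p, q) = s(a, c) ∨ s(p, q) = s(b, e)) :=
  Iff.rfl

/-- the old graph is recovered from the new one -/
theorem lc7_sw_recover (G : SimpleGraph V) {a b c e : V} (hab : G.Adj a b) (hce : G.Adj c e)
    (hac : ¬ G.Adj a c) (hbe : ¬ G.Adj b e) (p q : V) :
    G.Adj p q ↔ (s(p, q) = s(a, b) ∨ s(p, q) = s(c, e) ∨
      ((lc7Sw G a b c e).Adj p q ∧ s(p, q) ≠ s(a, c) ∧ s(p, q) ≠ s(b, e))) := by
  have key : ∀ x y : V, s(p, q) = s(x, y) → (G.Adj p q ↔ G.Adj x y) := by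
    intro x y h
    rw [← SimpleGraph.mem_edgeSet, ← SimpleGraph.mem_edgeSet, h]
  constructor
  · intro h
    by_cases h1 : s(p, q) = s(a, b)
    · exact Or.inl h1
    by_cases h2 : s(p, q) = s(c, e)
    · exact Or.inr (Or.inl h2)
    refine Or.inr (Or.inr ⟨⟨h.ne, Or.inl ⟨h, h1, h2⟩⟩, ?_, ?_⟩)
    · intro h3; exact hac ((key _ _ h3).1 h)
    · intro h3; exact hbe ((key _ _ h3).1 h)
  · rintro (h | h | ⟨⟨_, (h | h | h)⟩, h3, h4⟩)
    · exact (key _ _ h).2 hab
    · exact (key _ _ h).2 hce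
    · exact h.1
    · exact absurd h h3
    · exact absurd h h4

theorem lc7_sw_inj {G H : SimpleGraph V} {a b c e : V} (hab : G.Adj a b) (hce : G.Adj c e)
    (hac : ¬ G.Adj a c) (hbe : ¬ G.Adj b e) (hab' : H.Adj a b) (hce' : H.Adj c e)
    (hac' : ¬ H.Adj a c) (hbe' : ¬ H.Adj b e) (h : lc7Sw G a b c e = lc7Sw H a b c e) : G = H := by
  ext p q
  rw [lc7_sw_recover G hab hce hac hbe, lc7_sw_recover H hab' hce' hac' hbe', h]

variable [Fintype V] [DecidableEq V]

theorem lc7_sum_sym2 (p a b : V) (hab : a ≠ b) :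
    (∑ w : V, if s(p, w) = s(a, b) then (1 : ℤ) else 0) = (if p = a then 1 else 0) + (if p = b then 1 else 0) := by
  have h : ∀ w : V, (if s(p, w) = s(a, b) then (1 : ℤ) else 0)
      = (if p = a then (if w = b then 1 else 0) else 0) + (if p = b then (if w = a then 1 else 0) else 0) := by
    intro w
    by_cases h1 : p = a
    · subst h1
      by_cases h2 : w = b
      · subst h2; simp [hab]
      · have : ¬ s(p, w) = s(p, b) := by
          rw [Sym2.eq_iff]; rintro (⟨_, h⟩ | ⟨h, _⟩)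
          · exact h2 h
          · exact hab h
        simp [this, h2, hab]
    · by_cases h3 : p = b
      · subst h3
        by_cases h2 : w = a
        · subst h2; simp [h1, Sym2.eq_swap]
        · have : ¬ s(p, w) = s(a, p) := by
            rw [Sym2.eq_iff]; rintro (⟨h, _⟩ | ⟨_, h⟩)
            · exact h1 h
            · exact h2 h
          simp [this, h2, h1]
      · have : ¬ s(p, w) = s(a, b) := by
          rw [Sym2.eq_iff]; rintro (⟨h, _⟩ | ⟨h, _⟩)
          · exact h1 h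
          · exact h3 h
        simp [this, h1, h3]
  rw [Finset.sum_congr rfl (fun w _ => h w), Finset.sum_add_distrib]
  congr 1
  · split_ifs <;> simp
  · split_ifs <;> simp

open Classical in
/-- the switch does not change the degrees -/
theorem lc7_sw_deg (G : SimpleGraph V) {a b c e : V} (hab : G.Adj a b) (hce : G.Adj c e)
    (hac : ¬ G.Adj a c) (hbe : ¬ G.Adj b e) (nac : a ≠ c) (nbe : b ≠ e) (p : V) :
    (Finset.univ.filter fun w => (lc7Sw G a b c e).Adj p w).card = (Finset.univ.filter fun w => G.Adj p w).card := by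
  have key : ∀ (w x y : V), s(p, w) = s(x, y) → (G.Adj p w ↔ G.Adj x y) := by
    intro w x y h
    rw [← SimpleGraph.mem_edgeSet, ← SimpleGraph.mem_edgeSet, h]
  have hne : ∀ (w x y : V), x ≠ y → s(p, w) = s(x, y) → p ≠ w := by
    intro w x y hxy h hpw
    subst hpw
    rw [Sym2.eq_iff] at h
    rcases h with ⟨h1, h2⟩ | ⟨h1, h2⟩
    · exact hxy (h1.symm.trans h2)
    · exact hxy (h2.symm.trans h1)
  have hpt : ∀ w : V, (if (lc7Sw G a b c e).Adj p w then (1 : ℤ) else 0)
      = (if G.Adj p w then 1 else 0) - (if s(p, w) = s(a, b) then 1 else 0) - (if s(p, w) = s(c, e) then 1 else 0)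
        + (if s(p, w) = s(a, c) then 1 else 0) + (if s(p, w) = s(b, e) then 1 else 0) := by
    intro w
    rw [lc7Sw_eqns_cite]
    by_cases h1 : s(p, w) = s(a, b)
    · have hA : G.Adj p w := (key _ _ _ h1).2 hab
      have h2 : s(p, w) ≠ s(c, e) := by
        intro h2
        rw [h1, Sym2.eq_iff] at h2
        rcases h2 with ⟨h, _⟩ | ⟨h, h'⟩
        · exact nac h
        · subst h; subst h'; exact hac hce.symm
      have h3 : s(p, w) ≠ s(a, c) := fun h => hac ((key _ _ _ h).1 hA)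
      have h4 : s(p, w) ≠ s(b, e) := fun h => hbe ((key _ _ _ h).1 hA)
      rw [if_neg (by rintro ⟨_, (h | h | h)⟩; exacts [h.2.1 h1, h3 h, h4 h]), if_pos hA, if_pos h1, if_neg h2,
        if_neg h3, if_neg h4]
      norm_num
    by_cases h2 : s(p, w) = s(c, e)
    · have hA : G.Adj p w := (key _ _ _ h2).2 hce
      have h3 : s(p, w) ≠ s(a, c) := fun h => hac ((key _ _ _ h).1 hA)
      have h4 : s(p, w) ≠ s(b, e) := fun h => hbe ((key _ _ _ h).1 hA)
      rw [if_neg (by rintro ⟨_, (h | h | h)⟩; exacts [h.2.2 h2, h3 h, h4 h]), if_pos hA, if_neg h1, if_pos h2,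
        if_neg h3, if_neg h4]
      norm_num
    by_cases h3 : s(p, w) = s(a, c)
    · have hA : ¬ G.Adj p w := fun h => hac ((key _ _ _ h3).1 h)
      have h4 : s(p, w) ≠ s(b, e) := by
        intro h4
        rw [h3, Sym2.eq_iff] at h4
        rcases h4 with ⟨h, _⟩ | ⟨h, h'⟩
        · exact hab.ne h
        · subst h; subst h'; exact hac hab
      have := hne _ _ _ nac h3
      rw [if_pos ⟨this, Or.inr (Or.inl h3)⟩, if_neg hA, if_neg h1, if_neg h2, if_pos h3, if_neg h4]
      norm_num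
    by_cases h4 : s(p, w) = s(b, e)
    · have hA : ¬ G.Adj p w := fun h => hbe ((key _ _ _ h4).1 h)
      have := hne _ _ _ nbe h4
      rw [if_pos ⟨this, Or.inr (Or.inr h4)⟩, if_neg hA, if_neg h1, if_neg h2, if_neg h3, if_pos h4]
      norm_num
    by_cases hA : G.Adj p w
    · rw [if_pos ⟨hA.ne, Or.inl ⟨hA, h1, h2⟩⟩, if_pos hA, if_neg h1, if_neg h2, if_neg h3, if_neg h4]
      norm_num
    · rw [if_neg (by rintro ⟨_, (h | h | h)⟩; exacts [hA h.1, h3 h, h4 h]), if_neg hA, if_neg h1, if_neg h2,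
        if_neg h3, if_neg h4]
      norm_num
  have e1 : ((Finset.univ.filter fun w => (lc7Sw G a b c e).Adj p w).card : ℤ)
      = ((Finset.univ.filter fun w => G.Adj p w).card : ℤ) := by
    rw [Finset.card_filter, Finset.card_filter]
    push_cast
    rw [Finset.sum_congr rfl (fun w _ => hpt w)]
    simp only [Finset.sum_add_distrib, Finset.sum_sub_distrib]
    rw [lc7_sum_sym2 p a b hab.ne, lc7_sum_sym2 p c e hce.ne, lc7_sum_sym2 p a c nac, lc7_sum_sym2 p b e nbe]
    ring
  exact_mod_cast e1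

end Switch

/-! ### 2. the switch count (E0) -/

section Count

open Classical in
theorem lc7_mem_reg (n d : ℕ) (G : SimpleGraph (Fin n)) :
    G ∈ regularGraphs n d ↔ ∀ v, (Finset.univ.filter fun w => G.Adj v w).card = d := by
  unfold regularGraphs
  rw [Finset.mem_filter]
  simp only [Finset.mem_univ, true_and, SimpleGraph.IsRegularOfDegree]
  refine forall_congr' fun v => ?_
  rw [← SimpleGraph.card_neighborFinset_eq_degree, SimpleGraph.neighborFinset_eq_filter]

open Classical in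
/-- number of `d`-regular graphs containing all the edges of `F` -/
noncomputable def lc7Cnt (n d : ℕ) (F : Finset (Sym2 (Fin n))) : ℕ :=
  ((regularGraphs n d).filter fun G => ∀ e ∈ F, e ∈ G.edgeSet).card

open Classical in
theorem lc7Cnt_eqns_cite (n d : ℕ) (F : Finset (Sym2 (Fin n))) :
    lc7Cnt n d F = ((regularGraphs n d).filter fun G => ∀ e ∈ F, e ∈ G.edgeSet).card := rfl

open Classical in
theorem lc7_card_fst {n d : ℕ} {G : SimpleGraph (Fin n)} (hG : G ∈ regularGraphs n d) (S : Finset (Fin n)) :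
    (Finset.univ.filter fun p : Fin n × Fin n => G.Adj p.1 p.2 ∧ p.1 ∈ S).card = S.card * d := by
  rw [lc7_mem_reg] at hG
  rw [Finset.card_filter, Fintype.sum_prod_type]
  have : ∀ x : Fin n, (∑ y : Fin n, if G.Adj x y ∧ x ∈ S then 1 else 0) = if x ∈ S then d else 0 := by
    intro x
    by_cases hx : x ∈ S
    · simp only [hx, and_true, if_true]
      rw [← Finset.card_filter, hG x]
    · simp [hx]
  rw [Finset.sum_congr rfl (fun x _ => this x)]
  simp

open Classical in
theorem lc7_card_snd {n d : ℕ} {G : SimpleGraph (Fin n)} (hG : G ∈ regularGraphs n d) (S : Finset (Fin n)) :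
    (Finset.univ.filter fun p : Fin n × Fin n => G.Adj p.1 p.2 ∧ p.2 ∈ S).card = S.card * d := by
  rw [← lc7_card_fst hG S]
  refine Finset.card_bij (fun p _ => (p.2, p.1)) ?_ ?_ ?_
  · intro p hp
    simp only [Finset.mem_filter, Finset.mem_univ, true_and] at hp ⊢
    exact ⟨hp.1.symm, hp.2⟩
  · intro p _ q _ h
    simp only [Prod.mk.injEq] at h
    exact Prod.ext h.2 h.1
  · intro p hp
    simp only [Finset.mem_filter, Finset.mem_univ, true_and] at hp
    exact ⟨(p.2, p.1), by simp only [Finset.mem_filter, Finset.mem_univ, true_and]; exact ⟨hp.1.symm, hp.2⟩, rfl⟩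

open Classical in
theorem lc7_card_sym2 {n : ℕ} (F : Finset (Sym2 (Fin n))) :
    (Finset.univ.filter fun p : Fin n × Fin n => s(p.1, p.2) ∈ F).card ≤ 2 * F.card := by
  refine (Finset.card_le_mul_card_image (f := fun p : Fin n × Fin n => s(p.1, p.2)) _ 2 ?_).trans ?_
  · intro e _
    induction e using Sym2.ind with
    | _ a b =>
      refine (Finset.card_le_card (t := {(a, b), (b, a)}) ?_).trans Finset.card_le_two
      intro p hp
      simp only [Finset.mem_filter, Finset.mem_univ, true_and, Sym2.eq_iff] at hp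
      simp only [Finset.mem_insert, Finset.mem_singleton]
      rcases hp.2 with ⟨h1, h2⟩ | ⟨h1, h2⟩
      · exact Or.inl (Prod.ext h1 h2)
      · exact Or.inr (Prod.ext h1 h2)
  · refine Nat.mul_le_mul_left 2 (Finset.card_le_card ?_)
    intro e he
    simp only [Finset.mem_image, Finset.mem_filter, Finset.mem_univ, true_and] at he
    obtain ⟨p, hp, rfl⟩ := he
    exact hp

open Classical in
/-- number of admissible second edges -/
theorem lc7_valid {n d : ℕ} {G : SimpleGraph (Fin n)} (hG : G ∈ regularGraphs n d) (F : Finset (Sym2 (Fin n)))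
    (u v : Fin n) :
    n * d - 2 * d * (d + 1) - 2 * F.card ≤ (Finset.univ.filter fun p : Fin n × Fin n =>
      G.Adj p.1 p.2 ∧ p.1 ≠ u ∧ ¬ G.Adj u p.1 ∧ p.2 ≠ v ∧ ¬ G.Adj v p.2 ∧ s(p.1, p.2) ∉ F).card := by
  have hG' := (lc7_mem_reg n d G).1 hG
  have h0 := lc7_card_fst hG Finset.univ
  have h1 := lc7_card_fst hG (insert u (Finset.univ.filter fun w => G.Adj u w))
  have h2 := lc7_card_snd hG (insert v (Finset.univ.filter fun w => G.Adj v w))
  have h3 := lc7_card_sym2 F
  have c1 : (insert u (Finset.univ.filter fun w => G.Adj u w)).card ≤ d + 1 :=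
    (Finset.card_insert_le _ _).trans (by rw [hG' u])
  have c2 : (insert v (Finset.univ.filter fun w => G.Adj v w)).card ≤ d + 1 :=
    (Finset.card_insert_le _ _).trans (by rw [hG' v])
  have hsub : (Finset.univ.filter fun p : Fin n × Fin n => G.Adj p.1 p.2 ∧ p.1 ∈ (Finset.univ : Finset (Fin n)))
      ⊆ (((Finset.univ.filter fun p : Fin n × Fin n =>
          G.Adj p.1 p.2 ∧ p.1 ≠ u ∧ ¬ G.Adj u p.1 ∧ p.2 ≠ v ∧ ¬ G.Adj v p.2 ∧ s(p.1, p.2) ∉ F)
        ∪ (Finset.univ.filter fun p : Fin n × Fin n =>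
          G.Adj p.1 p.2 ∧ p.1 ∈ insert u (Finset.univ.filter fun w => G.Adj u w)))
        ∪ (Finset.univ.filter fun p : Fin n × Fin n =>
          G.Adj p.1 p.2 ∧ p.2 ∈ insert v (Finset.univ.filter fun w => G.Adj v w)))
        ∪ (Finset.univ.filter fun p : Fin n × Fin n => s(p.1, p.2) ∈ F) := by
    intro p hp
    simp only [Finset.mem_filter, Finset.mem_univ, true_and, and_true, Finset.mem_union, Finset.mem_insert] at hp ⊢
    by_cases a1 : p.1 = u ∨ G.Adj u p.1
    · exact Or.inl (Or.inl (Or.inr ⟨hp, a1⟩))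
    by_cases a2 : p.2 = v ∨ G.Adj v p.2
    · exact Or.inl (Or.inr ⟨hp, a2⟩)
    by_cases a3 : s(p.1, p.2) ∈ F
    · exact Or.inr a3
    push Not at a1 a2
    exact Or.inl (Or.inl (Or.inl ⟨hp, a1.1, a1.2, a2.1, a2.2, a3⟩))
  have hc := Finset.card_le_card hsub
  have u1 := Finset.card_union_le (((Finset.univ.filter fun p : Fin n × Fin n =>
          G.Adj p.1 p.2 ∧ p.1 ≠ u ∧ ¬ G.Adj u p.1 ∧ p.2 ≠ v ∧ ¬ G.Adj v p.2 ∧ s(p.1, p.2) ∉ F)
        ∪ (Finset.univ.filter fun p : Fin n × Fin n =>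
          G.Adj p.1 p.2 ∧ p.1 ∈ insert u (Finset.univ.filter fun w => G.Adj u w)))
        ∪ (Finset.univ.filter fun p : Fin n × Fin n =>
          G.Adj p.1 p.2 ∧ p.2 ∈ insert v (Finset.univ.filter fun w => G.Adj v w)))
        (Finset.univ.filter fun p : Fin n × Fin n => s(p.1, p.2) ∈ F)
  have u2 := Finset.card_union_le ((Finset.univ.filter fun p : Fin n × Fin n =>
          G.Adj p.1 p.2 ∧ p.1 ≠ u ∧ ¬ G.Adj u p.1 ∧ p.2 ≠ v ∧ ¬ G.Adj v p.2 ∧ s(p.1, p.2) ∉ F)
        ∪ (Finset.univ.filter fun p : Fin n × Fin n =>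
          G.Adj p.1 p.2 ∧ p.1 ∈ insert u (Finset.univ.filter fun w => G.Adj u w)))
        (Finset.univ.filter fun p : Fin n × Fin n =>
          G.Adj p.1 p.2 ∧ p.2 ∈ insert v (Finset.univ.filter fun w => G.Adj v w))
  have u3 := Finset.card_union_le (Finset.univ.filter fun p : Fin n × Fin n =>
          G.Adj p.1 p.2 ∧ p.1 ≠ u ∧ ¬ G.Adj u p.1 ∧ p.2 ≠ v ∧ ¬ G.Adj v p.2 ∧ s(p.1, p.2) ∉ F)
        (Finset.univ.filter fun p : Fin n × Fin n =>
          G.Adj p.1 p.2 ∧ p.1 ∈ insert u (Finset.univ.filter fun w => G.Adj u w))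
  rw [h0, Finset.card_univ, Fintype.card_fin] at hc
  have m1 := Nat.mul_le_mul_right d c1
  have m2 := Nat.mul_le_mul_right d c2
  have e1 : 2 * d * (d + 1) = (d + 1) * d + (d + 1) * d := by ring
  omega

open Classical in
/-- **E0**, the one-edge switching inequality -/
theorem lc7_step (n d : ℕ) (F : Finset (Sym2 (Fin n))) (u v : Fin n) (huv : s(u, v) ∉ F) :
    lc7Cnt n d (insert s(u, v) F) * (n * d - 2 * d * (d + 1) - 2 * F.card) ≤ d ^ 2 * lc7Cnt n d F := by
  set 𝒜 := (regularGraphs n d).filter fun G => ∀ e ∈ insert s(u, v) F, e ∈ G.edgeSet with h𝒜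
  set 𝒞 := (regularGraphs n d).filter fun G => ∀ e ∈ F, e ∈ G.edgeSet with h𝒞
  let val : SimpleGraph (Fin n) → Finset (Fin n × Fin n) := fun G => Finset.univ.filter fun p : Fin n × Fin n =>
      G.Adj p.1 p.2 ∧ p.1 ≠ u ∧ ¬ G.Adj u p.1 ∧ p.2 ≠ v ∧ ¬ G.Adj v p.2 ∧ s(p.1, p.2) ∉ F
  let tgt : SimpleGraph (Fin n) → Finset (Fin n × Fin n) := fun G =>
      (Finset.univ.filter fun w => G.Adj u w) ×ˢ (Finset.univ.filter fun w => G.Adj v w)
  have hle : (𝒜.sigma val).card ≤ (𝒞.sigma tgt).card := by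
    refine Finset.card_le_card_of_injOn (fun q => ⟨lc7Sw q.1 u v q.2.1 q.2.2, q.2⟩) ?_ ?_
    · rintro ⟨G, x, y⟩ hq
      simp only [Finset.coe_sigma, Set.mem_sigma_iff, Finset.mem_coe, h𝒜, Finset.mem_filter, val, Finset.mem_univ,
        true_and, Finset.mem_insert, forall_eq_or_imp, SimpleGraph.mem_edgeSet] at hq
      obtain ⟨⟨hG, hA, hF⟩, hxy, xu, nux, yv, nvy, nF⟩ := hq
      simp only [Finset.coe_sigma, Set.mem_sigma_iff, Finset.mem_coe, h𝒞, Finset.mem_filter, tgt, Finset.mem_univ,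
        true_and, Finset.mem_product]
      refine ⟨⟨?_, ?_⟩, ⟨Ne.symm xu, Or.inr (Or.inl rfl)⟩, ⟨Ne.symm yv, Or.inr (Or.inr rfl)⟩⟩
      · rw [lc7_mem_reg] at hG ⊢
        intro p
        rw [lc7_sw_deg G hA hxy nux nvy (Ne.symm xu) (Ne.symm yv) p, hG p]
      · intro e he
        have h1 := hF e he
        induction e using Sym2.ind with
        | _ p q =>
          rw [SimpleGraph.mem_edgeSet] at h1 ⊢
          exact ⟨h1.ne, Or.inl ⟨h1, fun h => huv (h ▸ he), fun h => nF (h ▸ he)⟩⟩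
    · rintro ⟨G, x, y⟩ hq ⟨H, x', y'⟩ hq' heq
      simp only [Finset.coe_sigma, Set.mem_sigma_iff, Finset.mem_coe, h𝒜, Finset.mem_filter, val, Finset.mem_univ,
        true_and, Finset.mem_insert, forall_eq_or_imp, SimpleGraph.mem_edgeSet] at hq hq'
      obtain ⟨⟨hG, hA, hF⟩, hxy, xu, nux, yv, nvy, nF⟩ := hq
      obtain ⟨⟨hG', hA', hF'⟩, hxy', xu', nux', yv', nvy', nF'⟩ := hq'
      simp only [Sigma.mk.injEq, heq_eq_eq, Prod.mk.injEq] at heq
      obtain ⟨h1, rfl, rfl⟩ := heq
      have := lc7_sw_inj hA hxy nux nvy hA' hxy' nux' nvy' h1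
      subst this
      rfl
  rw [Finset.card_sigma, Finset.card_sigma] at hle
  have hlow : 𝒜.card * (n * d - 2 * d * (d + 1) - 2 * F.card) ≤ ∑ G ∈ 𝒜, (val G).card := by
    rw [← smul_eq_mul]
    refine Finset.card_nsmul_le_sum _ _ _ ?_
    intro G hG
    exact lc7_valid (Finset.mem_filter.1 hG).1 F u v
  have hup : ∑ G ∈ 𝒞, (tgt G).card = d ^ 2 * 𝒞.card := by
    have : ∀ G ∈ 𝒞, (tgt G).card = d ^ 2 := by
      intro G hG
      have hG' := (lc7_mem_reg n d G).1 (Finset.mem_filter.1 hG).1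
      simp only [tgt, Finset.card_product, hG' u, hG' v]
      ring
    rw [Finset.sum_congr rfl this, Finset.sum_const, smul_eq_mul, mul_comm]
  calc lc7Cnt n d (insert s(u, v) F) * (n * d - 2 * d * (d + 1) - 2 * F.card)
      = 𝒜.card * (n * d - 2 * d * (d + 1) - 2 * F.card) := rfl
    _ ≤ ∑ G ∈ 𝒜, (val G).card := hlow
    _ ≤ ∑ G ∈ 𝒞, (tgt G).card := hle
    _ = d ^ 2 * lc7Cnt n d F := hup

theorem lc7_cnt_empty (n d : ℕ) : lc7Cnt n d ∅ = (regularGraphs n d).card := by
  classical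
  rw [lc7Cnt_eqns_cite]
  congr 1
  refine Finset.filter_true_of_mem ?_
  intro G _ e he
  simp at he

theorem lc7_cnt_anti (n d : ℕ) {F F' : Finset (Sym2 (Fin n))} (h : F ⊆ F') : lc7Cnt n d F' ≤ lc7Cnt n d F := by
  classical
  rw [lc7Cnt_eqns_cite, lc7Cnt_eqns_cite]
  refine Finset.card_le_card ?_
  intro G hG
  rw [Finset.mem_filter] at hG ⊢
  exact ⟨hG.1, fun e he => hG.2 e (h he)⟩

/-- the probability that a given set of edges is present -/
theorem lc7_edges (n d : ℕ) (hd : 1 ≤ d) (F : Finset (Sym2 (Fin n))) (hn : 4 * (d + 1) + 4 * F.card ≤ n) :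
    (lc7Cnt n d F : ℝ) ≤ (2 * d / n) ^ F.card * (regularGraphs n d).card := by
  classical
  induction F using Finset.induction_on with
  | empty => simp [lc7_cnt_empty]
  | insert e F he ih =>
    rw [Finset.card_insert_of_notMem he] at hn ⊢
    have ih' := ih (by omega)
    induction e using Sym2.ind with
    | _ u v =>
      have hs := lc7_step n d F u v he
      have hK : n * d ≤ 2 * (n * d - 2 * d * (d + 1) - 2 * F.card) := by
        have h1 : (4 * (d + 1) + 4 * (F.card + 1)) * d ≤ n * d := Nat.mul_le_mul_right d hn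
        have h2 : 4 * (F.card + 1) * 1 ≤ 4 * (F.card + 1) * d := Nat.mul_le_mul_left _ hd
        have h3 : (4 * (d + 1) + 4 * (F.card + 1)) * d = 2 * (2 * d * (d + 1)) + 4 * (F.card + 1) * d := by ring
        omega
      have h4 : lc7Cnt n d (insert s(u, v) F) * (n * d) ≤ 2 * (d ^ 2 * lc7Cnt n d F) :=
        (Nat.mul_le_mul_left _ hK).trans (by rw [Nat.mul_left_comm]; exact Nat.mul_le_mul_left 2 hs)
      have h5 : (lc7Cnt n d (insert s(u, v) F) : ℝ) * ((n : ℝ) * d) ≤ 2 * ((d : ℝ) ^ 2 * lc7Cnt n d F) := by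
        exact_mod_cast h4
      have hn0 : (0 : ℝ) < n := by
        have : 0 < n := by omega
        exact_mod_cast this
      have hd0 : (0 : ℝ) < d := by exact_mod_cast hd
      have h6 : (lc7Cnt n d (insert s(u, v) F) : ℝ) ≤ 2 * d / n * lc7Cnt n d F := by
        rw [div_mul_eq_mul_div, le_div_iff₀ hn0]
        have : (lc7Cnt n d (insert s(u, v) F) : ℝ) * n * d ≤ (2 * d * lc7Cnt n d F) * d := by nlinarith
        exact le_of_mul_le_mul_right this hd0
      calc (lc7Cnt n d (insert s(u, v) F) : ℝ) ≤ 2 * d / n * lc7Cnt n d F := h6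
        _ ≤ 2 * d / n * ((2 * d / n) ^ F.card * (regularGraphs n d).card) :=
            mul_le_mul_of_nonneg_left ih' (by positivity)
        _ = (2 * d / n) ^ (F.card + 1) * (regularGraphs n d).card := by ring

end Count

/-! ### 3. balls, inner edges -/

section Ball

open Classical in
/-- the edges inside `B` -/
noncomputable def lc7EB {n : ℕ} (H : SimpleGraph (Fin n)) (B : Finset (Fin n)) : Finset (Sym2 (Fin n)) :=
  B.sym2.filter fun e => e ∈ H.edgeSet

open Classical in
theorem lc7EB_eqns_cite {n : ℕ} (H : SimpleGraph (Fin n)) (B : Finset (Fin n)) :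
    lc7EB H B = B.sym2.filter fun e => e ∈ H.edgeSet := rfl

theorem lc7_mk_mem_EB {n : ℕ} (H : SimpleGraph (Fin n)) (B : Finset (Fin n)) (a b : Fin n) :
    s(a, b) ∈ lc7EB H B ↔ H.Adj a b ∧ a ∈ B ∧ b ∈ B := by
  classical
  rw [lc7EB_eqns_cite, Finset.mem_filter, Finset.mk_mem_sym2_iff, SimpleGraph.mem_edgeSet]
  tauto

theorem lc7_edgeSet_res {n : ℕ} (H : SimpleGraph (Fin n)) (B : Finset (Fin n)) :
    (rgRes H B).edgeSet = (lc7EB H B : Set (Sym2 (Fin n))) := by
  ext e
  induction e using Sym2.ind with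
  | _ a b => rw [SimpleGraph.mem_edgeSet, Finset.mem_coe, lc7_mk_mem_EB, rg_res_adj]

theorem lc7_edist_succ {V : Type*} (H : SimpleGraph V) (x y : V) (R : ℕ) (h : H.edist x y ≤ (R + 1 : ℕ)) :
    ∃ w, H.edist x w ≤ R ∧ (w = y ∨ H.Adj w y) := by
  have hne : H.edist y x ≠ ⊤ := by
    rw [SimpleGraph.edist_comm]
    exact ne_top_of_le_ne_top (ENat.natCast_ne_top _) h
  obtain ⟨p, hp⟩ := H.exists_walk_of_edist_ne_top hne
  cases p with
  | nil => exact ⟨x, by simp, Or.inl rfl⟩
  | cons hadj q =>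
    refine ⟨_, ?_, Or.inr hadj.symm⟩
    rw [SimpleGraph.edist_comm]
    refine (SimpleGraph.edist_le q).trans ?_
    rw [SimpleGraph.edist_comm, ← hp, SimpleGraph.Walk.length_cons] at h
    exact_mod_cast Nat.le_of_succ_le_succ (by exact_mod_cast h)

theorem lc7_ball_zero {n : ℕ} (H : SimpleGraph (Fin n)) (X : Finset (Fin n)) : rgBall H 0 X = X := by
  ext y
  rw [rg_mem_ball]
  constructor
  · rintro ⟨x, hx, h⟩
    have : H.edist x y = 0 := le_antisymm (by exact_mod_cast h) zero_le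
    rw [SimpleGraph.edist_eq_zero_iff] at this
    exact this ▸ hx
  · intro hy
    exact ⟨y, hy, by simp⟩

theorem lc7_ball_mono {n : ℕ} (H : SimpleGraph (Fin n)) {R R' : ℕ} (h : R ≤ R') (X : Finset (Fin n)) :
    rgBall H R X ⊆ rgBall H R' X := by
  intro y hy
  rw [rg_mem_ball] at hy ⊢
  obtain ⟨x, hx, h1⟩ := hy
  exact ⟨x, hx, h1.trans (by exact_mod_cast h)⟩

/-- size of a ball in a regular graph -/
theorem lc7_ball_card {n d : ℕ} {H : SimpleGraph (Fin n)} (hH : H ∈ regularGraphs n d) (R : ℕ)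
    (X : Finset (Fin n)) : (rgBall H R X).card ≤ X.card * (d + 1) ^ R := by
  classical
  have hH' := (lc7_mem_reg n d H).1 hH
  induction R with
  | zero => simp [lc7_ball_zero]
  | succ R ih =>
    have hsub : rgBall H (R + 1) X ⊆ (rgBall H R X).biUnion fun w => insert w (Finset.univ.filter fun y => H.Adj w y) := by
      intro y hy
      rw [rg_mem_ball] at hy
      obtain ⟨x, hx, h⟩ := hy
      obtain ⟨w, hw, hwy⟩ := lc7_edist_succ H x y R h
      rw [Finset.mem_biUnion]
      refine ⟨w, (rg_mem_ball _ _ _ _).2 ⟨x, hx, hw⟩, ?_⟩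
      rcases hwy with rfl | hwy
      · exact Finset.mem_insert_self _ _
      · exact Finset.mem_insert_of_mem (by simp [hwy])
    calc (rgBall H (R + 1) X).card ≤ _ := Finset.card_le_card hsub
      _ ≤ ∑ w ∈ rgBall H R X, (insert w (Finset.univ.filter fun y => H.Adj w y)).card := Finset.card_biUnion_le
      _ ≤ ∑ _w ∈ rgBall H R X, (d + 1) :=
          Finset.sum_le_sum fun w _ => (Finset.card_insert_le _ _).trans (by rw [hH' w])
      _ = (rgBall H R X).card * (d + 1) := by rw [Finset.sum_const, smul_eq_mul]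
      _ ≤ X.card * (d + 1) ^ R * (d + 1) := Nat.mul_le_mul_right _ ih
      _ = X.card * (d + 1) ^ (R + 1) := by ring

/-- the ball around one vertex is connected -/
theorem lc7_ball_reach {n : ℕ} (H : SimpleGraph (Fin n)) (R : ℕ) (x y : Fin n) (hy : y ∈ rgBall H R {x}) :
    (rgBG H R {x}).Reachable x y := by
  have key : ∀ k : ℕ, k ≤ R → ∀ y, H.edist x y ≤ k → (rgBG H R {x}).Reachable x y := by
    intro k
    induction k with
    | zero =>
      intro _ y h
      have : H.edist x y = 0 := le_antisymm (by exact_mod_cast h) zero_le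
      rw [SimpleGraph.edist_eq_zero_iff] at this
      rw [this]
    | succ k ih =>
      intro hk y h
      obtain ⟨w, hw, hwy⟩ := lc7_edist_succ H x y k h
      have h1 := ih (by omega) w hw
      rcases hwy with rfl | hwy
      · exact h1
      · refine h1.trans (SimpleGraph.Adj.reachable ?_)
        refine ⟨hwy, (rg_mem_ball _ _ _ _).2 ⟨x, by simp, hw.trans (by exact_mod_cast (by omega : k ≤ R))⟩,
          (rg_mem_ball _ _ _ _).2 ⟨x, by simp, h.trans (by exact_mod_cast hk)⟩⟩
  rw [rg_mem_ball] at hy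
  obtain ⟨x', hx', h⟩ := hy
  rw [Finset.mem_singleton] at hx'
  subst hx'
  exact key R le_rfl y h

end Ball

/-! ### 4. dense spots are rare (E1) -/

section Dense

/-- union bound over a family of edge sets -/
theorem lc7_union {n d : ℕ} {ι : Type*} (I : Finset ι) (F : ι → Finset (Sym2 (Fin n)))
    (S : Finset (SimpleGraph (Fin n)))
    (hS : ∀ G ∈ S, G ∈ regularGraphs n d ∧ ∃ i ∈ I, ∀ e ∈ F i, e ∈ G.edgeSet) :
    S.card ≤ ∑ i ∈ I, lc7Cnt n d (F i) := by
  classical
  have hsub : S ⊆ I.biUnion fun i => (regularGraphs n d).filter fun G => ∀ e ∈ F i, e ∈ G.edgeSet := by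
    intro G hG
    obtain ⟨h1, i, hi, h2⟩ := hS G hG
    rw [Finset.mem_biUnion]
    exact ⟨i, hi, Finset.mem_filter.2 ⟨h1, h2⟩⟩
  exact (Finset.card_le_card hsub).trans Finset.card_biUnion_le

open Classical in
/-- a set of `v` vertices spanning `v + j` edges has probability `O(n^-j)` -/
theorem lc7_dense (n d v j : ℕ) (hd : 1 ≤ d) (hn : 4 * (d + 1) + 4 * (v + j) ≤ n) :
    (((regularGraphs n d).filter fun G => ∃ B : Finset (Fin n), B.card = v ∧ v + j ≤ (lc7EB G B).card).card : ℝ)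
      ≤ 2 ^ ((v + 1) ^ 2) * (2 * d) ^ (v + j) / (n : ℝ) ^ j * (regularGraphs n d).card := by
  have hn0 : (0 : ℝ) < n := by
    have : 0 < n := by omega
    exact_mod_cast this
  set I : Finset (Σ _ : Finset (Fin n), Finset (Sym2 (Fin n))) :=
    (Finset.powersetCard v (Finset.univ : Finset (Fin n))).sigma fun B => Finset.powersetCard (v + j) B.sym2 with hI
  have h1 := lc7_union (n := n) (d := d) I (fun i => i.2)
    ((regularGraphs n d).filter fun G => ∃ B : Finset (Fin n), B.card = v ∧ v + j ≤ (lc7EB G B).card) (by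
      intro G hG
      rw [Finset.mem_filter] at hG
      obtain ⟨hG, B, hB, hE⟩ := hG
      obtain ⟨F, hF, hFc⟩ := Finset.exists_subset_card_eq hE
      refine ⟨hG, ⟨B, F⟩, ?_, ?_⟩
      · rw [hI, Finset.mem_sigma]
        refine ⟨Finset.mem_powersetCard.2 ⟨Finset.subset_univ _, hB⟩, Finset.mem_powersetCard.2 ⟨?_, hFc⟩⟩
        exact hF.trans (by rw [lc7EB_eqns_cite]; exact Finset.filter_subset _ _)
      · intro e he
        have := hF he
        rw [lc7EB_eqns_cite, Finset.mem_filter] at this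
        exact this.2)
  have h2 : ∀ i ∈ I, (lc7Cnt n d i.2 : ℝ) ≤ (2 * d / n) ^ (v + j) * (regularGraphs n d).card := by
    intro i hi
    rw [hI, Finset.mem_sigma] at hi
    have hc := (Finset.mem_powersetCard.1 hi.2).2
    have := lc7_edges n d hd i.2 (by rw [hc]; exact hn)
    rwa [hc] at this
  have h3 : (I.card : ℝ) ≤ (n : ℝ) ^ v * 2 ^ ((v + 1) ^ 2) := by
    have : I.card ≤ n ^ v * 2 ^ ((v + 1) ^ 2) := by
      rw [hI, Finset.card_sigma]
      calc ∑ B ∈ Finset.powersetCard v (Finset.univ : Finset (Fin n)), (Finset.powersetCard (v + j) B.sym2).card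
          ≤ ∑ _B ∈ Finset.powersetCard v (Finset.univ : Finset (Fin n)), 2 ^ ((v + 1) ^ 2) := by
            refine Finset.sum_le_sum fun B hB => ?_
            have hB' := (Finset.mem_powersetCard.1 hB).2
            calc (Finset.powersetCard (v + j) B.sym2).card ≤ B.sym2.powerset.card :=
                  Finset.card_le_card fun F hF => Finset.mem_powerset.2 (Finset.mem_powersetCard.1 hF).1
              _ = 2 ^ B.sym2.card := Finset.card_powerset _
              _ ≤ 2 ^ ((v + 1) ^ 2) := by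
                  refine Nat.pow_le_pow_right (by norm_num) ?_
                  rw [Finset.card_sym2, hB']
                  calc (v + 1).choose 2 ≤ (v + 1) ^ 2 := Nat.choose_le_pow _ _
                    _ = (v + 1) ^ 2 := rfl
        _ = (Finset.powersetCard v (Finset.univ : Finset (Fin n))).card * 2 ^ ((v + 1) ^ 2) := by
            rw [Finset.sum_const, smul_eq_mul]
        _ ≤ n ^ v * 2 ^ ((v + 1) ^ 2) := by
            refine Nat.mul_le_mul_right _ ?_
            rw [Finset.card_powersetCard, Finset.card_univ, Fintype.card_fin]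
            exact Nat.choose_le_pow _ _
    exact_mod_cast this
  calc (((regularGraphs n d).filter fun G => ∃ B : Finset (Fin n), B.card = v ∧ v + j ≤ (lc7EB G B).card).card : ℝ)
      ≤ ∑ i ∈ I, (lc7Cnt n d i.2 : ℝ) := by exact_mod_cast h1
    _ ≤ ∑ _i ∈ I, (2 * d / n) ^ (v + j) * ((regularGraphs n d).card : ℝ) := Finset.sum_le_sum h2
    _ = I.card * ((2 * d / n) ^ (v + j) * ((regularGraphs n d).card : ℝ)) := by rw [Finset.sum_const, nsmul_eq_mul]
    _ ≤ ((n : ℝ) ^ v * 2 ^ ((v + 1) ^ 2)) * ((2 * d / n) ^ (v + j) * ((regularGraphs n d).card : ℝ)) :=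
        mul_le_mul_of_nonneg_right h3 (by positivity)
    _ = 2 ^ ((v + 1) ^ 2) * (2 * d) ^ (v + j) / (n : ℝ) ^ j * (regularGraphs n d).card := by
        rw [div_pow, pow_add (n : ℝ)]
        field_simp

end Dense

/-! ### 5. acyclicity from edge counts -/

section Acyc

theorem lc7_acyc_of_card {V : Type*} [Finite V] (G : SimpleGraph V) (hc : G.Connected)
    (h : Nat.card G.edgeSet + 1 ≤ Nat.card V) : G.IsAcyclic :=
  (SimpleGraph.isTree_iff_connected_and_card.2 ⟨hc, le_antisymm h hc.card_vert_le_card_edgeSet_add_one⟩).isAcyclic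

theorem lc7_uni_of_card {V : Type*} [Finite V] (G : SimpleGraph V) (hc : G.Connected)
    (h : Nat.card G.edgeSet ≤ Nat.card V) : ∃ u v, (G.deleteEdges {s(u, v)}).IsAcyclic := by
  by_cases hA : G.IsAcyclic
  · obtain ⟨u⟩ := hc.nonempty
    exact ⟨u, u, hA.anti (SimpleGraph.deleteEdges_le _)⟩
  · rw [SimpleGraph.isAcyclic_iff_forall_adj_isBridge] at hA
    push Not at hA
    obtain ⟨u, v, huv, hb⟩ := hA
    refine ⟨u, v, lc7_acyc_of_card _ (hc.connected_delete_edge_of_not_isBridge hb) ?_⟩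
    rw [SimpleGraph.edgeSet_deleteEdges, Nat.card_coe_set_eq,
      Set.ncard_sdiff_singleton_add_one ((SimpleGraph.mem_edgeSet _).2 huv) (Set.toFinite _), ← Nat.card_coe_set_eq]
    exact h

/-- `Γ` plus a star from `x` to all the vertices outside `B` -/
def lc7Plus {n : ℕ} (Γ : SimpleGraph (Fin n)) (x : Fin n) (B : Finset (Fin n)) : SimpleGraph (Fin n) where
  Adj a b := Γ.Adj a b ∨ (a ≠ b ∧ ((a = x ∧ b ∉ B) ∨ (b = x ∧ a ∉ B)))
  symm := ⟨by
    rintro a b (h | ⟨h0, h⟩)
    · exact Or.inl h.symm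
    · exact Or.inr ⟨h0.symm, h.symm⟩⟩
  loopless := ⟨by
    rintro a (h | ⟨h0, _⟩)
    · exact Γ.loopless.irrefl a h
    · exact h0 rfl⟩

theorem lc7Plus_eqns_cite {n : ℕ} (Γ : SimpleGraph (Fin n)) (x : Fin n) (B : Finset (Fin n)) (a b : Fin n) :
    (lc7Plus Γ x B).Adj a b ↔ Γ.Adj a b ∨ (a ≠ b ∧ ((a = x ∧ b ∉ B) ∨ (b = x ∧ a ∉ B))) := Iff.rfl

theorem lc7_le_plus {n : ℕ} (Γ : SimpleGraph (Fin n)) (x : Fin n) (B : Finset (Fin n)) : Γ ≤ lc7Plus Γ x B :=
  fun _ _ h => Or.inl h

theorem lc7_plus_conn {n : ℕ} (Γ : SimpleGraph (Fin n)) (x : Fin n) (B : Finset (Fin n))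
    (hr : ∀ y ∈ B, Γ.Reachable x y) : (lc7Plus Γ x B).Connected := by
  refine (SimpleGraph.connected_iff_exists_forall_reachable _).2 ⟨x, fun y => ?_⟩
  by_cases hy : y ∈ B
  · exact (hr y hy).mono (lc7_le_plus Γ x B)
  · by_cases hxy : x = y
    · rw [hxy]
    · exact SimpleGraph.Adj.reachable (Or.inr ⟨hxy, Or.inl ⟨rfl, hy⟩⟩)

theorem lc7_plus_card {n : ℕ} (Γ : SimpleGraph (Fin n)) (x : Fin n) (B : Finset (Fin n))
    (E : Finset (Sym2 (Fin n))) (hE : Γ.edgeSet ⊆ E) :
    Nat.card (lc7Plus Γ x B).edgeSet + B.card ≤ E.card + n := by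
  classical
  have hsub : (lc7Plus Γ x B).edgeSet ⊆ ((E ∪ (Finset.univ \ B).image fun y => s(x, y) : Finset (Sym2 (Fin n))) : Set _) := by
    intro e he
    induction e using Sym2.ind with
    | _ a b =>
      rw [SimpleGraph.mem_edgeSet, lc7Plus_eqns_cite] at he
      rw [Finset.mem_coe, Finset.mem_union, Finset.mem_image]
      rcases he with h | ⟨_, ⟨rfl, h⟩ | ⟨rfl, h⟩⟩
      · exact Or.inl (hE ((SimpleGraph.mem_edgeSet _).2 h))
      · exact Or.inr ⟨b, by simp [h], rfl⟩
      · exact Or.inr ⟨a, by simp [h], Sym2.eq_swap⟩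
  have h1 : Nat.card (lc7Plus Γ x B).edgeSet ≤ (E ∪ (Finset.univ \ B).image fun y => s(x, y)).card := by
    rw [Nat.card_coe_set_eq, ← Set.ncard_coe_finset]
    exact Set.ncard_le_ncard hsub (Finset.finite_toSet _)
  have h2 := Finset.card_union_le E ((Finset.univ \ B).image fun y => s(x, y))
  have h3 : ((Finset.univ \ B).image fun y => s(x, y)).card ≤ (Finset.univ \ B).card := Finset.card_image_le
  have h4 : (Finset.univ \ B).card = n - B.card := by
    rw [Finset.card_sdiff_of_subset (Finset.subset_univ _), Finset.card_univ, Fintype.card_fin]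
  have h5 : B.card ≤ n := by
    have := Finset.card_le_card (Finset.subset_univ B)
    rwa [Finset.card_univ, Fintype.card_fin] at this
  omega

/-- a ball with fewer edges than vertices is a tree -/
theorem lc7_tl_of_card {n : ℕ} (H : SimpleGraph (Fin n)) (R : ℕ) (x : Fin n)
    (h : (lc7EB H (rgBall H R {x})).card + 1 ≤ (rgBall H R {x}).card) : RgTl H R {x} := by
  have hc := lc7_plus_conn (rgBG H R {x}) x (rgBall H R {x}) (lc7_ball_reach H R x)
  have h1 := lc7_plus_card (rgBG H R {x}) x (rgBall H R {x}) (lc7EB H (rgBall H R {x}))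
    (by rw [rgBG, lc7_edgeSet_res])
  exact (lc7_acyc_of_card _ hc (by rw [Nat.card_eq_fintype_card (α := Fin n), Fintype.card_fin]; omega)).anti
    (lc7_le_plus _ _ _)

/-- a ball with at most as many edges as vertices has excess `≤ 1` -/
theorem lc7_uni_of_card_ball {n : ℕ} (H : SimpleGraph (Fin n)) (R : ℕ) (x : Fin n)
    (h : (lc7EB H (rgBall H R {x})).card ≤ (rgBall H R {x}).card) : RgUni (rgBG H R {x}) := by
  have hc := lc7_plus_conn (rgBG H R {x}) x (rgBall H R {x}) (lc7_ball_reach H R x)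
  have h1 := lc7_plus_card (rgBG H R {x}) x (rgBall H R {x}) (lc7EB H (rgBall H R {x}))
    (by rw [rgBG, lc7_edgeSet_res])
  obtain ⟨u, v, huv⟩ := lc7_uni_of_card _ hc (by rw [Nat.card_eq_fintype_card (α := Fin n), Fintype.card_fin]; omega)
  exact ⟨u, v, huv.anti (SimpleGraph.deleteEdges_mono (lc7_le_plus _ _ _))⟩

end Acyc

/-! ### 6. E1 = L0 -/

section Struct

/-- counting form of a probability -/
theorem lc7_P_eq (n d : ℕ) (S : Gr n → Prop) [DecidablePred S] :
    rgP n d S = (((regularGraphs n d).filter S).card : ℝ) / (regularGraphs n d).card := by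
  classical
  unfold rgP rgE
  congr 1
  rw [Finset.card_filter]
  push_cast
  refine Finset.sum_congr rfl fun H _ => ?_
  by_cases h : S H <;> simp [h]

theorem lc7_P_le (n d : ℕ) (S : Gr n → Prop) [DecidablePred S] (c : ℝ) (hc : 0 ≤ c)
    (h : (((regularGraphs n d).filter S).card : ℝ) ≤ c * (regularGraphs n d).card) : rgP n d S ≤ c := by
  rw [lc7_P_eq]
  rcases Nat.eq_zero_or_pos (regularGraphs n d).card with h0 | h0
  · simp [h0, hc]
  · rw [div_le_iff₀ (by exact_mod_cast h0)]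
    exact h

/-- **E1** (L0): with probability `1 - C/n` every ball of radius `R` has excess `≤ 1` -/
theorem lc7_struct (d R : ℕ) (hd : 1 ≤ d) : ∃ C : ℝ, 0 ≤ C ∧ ∀ n : ℕ, rgP n d (fun H => ¬ RgStruct H R) ≤ C / n := by
  classical
  set M : ℕ := (d + 1) ^ R with hM
  refine ⟨((4 * (d + 1) + 4 * (M + 1) : ℕ) : ℝ) + (M + 1) * (2 ^ ((M + 1) ^ 2) * (2 * d) ^ (M + 1)), by positivity, ?_⟩
  intro n
  rcases Nat.eq_zero_or_pos n with rfl | hn0
  · refine lc7_P_le _ _ _ _ (by simp) ?_
    have : ((regularGraphs 0 d).filter fun H => ¬ RgStruct H R) = ∅ := by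
      refine Finset.filter_false_of_mem ?_
      intro G _ h
      exact h fun x => x.elim0
    rw [this]
    simp
  have hn0' : (0 : ℝ) < n := by exact_mod_cast hn0
  have hRG : (0 : ℝ) ≤ ((regularGraphs n d).card : ℝ) := by positivity
  by_cases hn : 4 * (d + 1) + 4 * (M + 1) ≤ n
  · refine lc7_P_le _ _ _ _ (by positivity) ?_
    have hsub : ((regularGraphs n d).filter fun H => ¬ RgStruct H R)
        ⊆ (Finset.range (M + 1)).biUnion fun v =>
          (regularGraphs n d).filter fun G => ∃ B : Finset (Fin n), B.card = v ∧ v + 1 ≤ (lc7EB G B).card := by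
      intro G hG
      rw [Finset.mem_filter] at hG
      obtain ⟨hG, hx⟩ := hG
      unfold RgStruct at hx
      push Not at hx
      obtain ⟨x, hx⟩ := hx
      have h1 := lc7_ball_card hG R {x}
      have h2 : ¬ (lc7EB G (rgBall G R {x})).card ≤ (rgBall G R {x}).card := fun h => hx (lc7_uni_of_card_ball G R x h)
      rw [Finset.mem_biUnion]
      refine ⟨(rgBall G R {x}).card, ?_, Finset.mem_filter.2 ⟨hG, rgBall G R {x}, rfl, by omega⟩⟩
      rw [Finset.mem_range]
      simp only [Finset.card_singleton, one_mul] at h1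
      omega
    have hd1 : (1 : ℝ) ≤ 2 * d := by
      have : (1 : ℝ) ≤ d := by exact_mod_cast hd
      linarith
    have hv : ∀ v ∈ Finset.range (M + 1),
        (((regularGraphs n d).filter fun G => ∃ B : Finset (Fin n), B.card = v ∧ v + 1 ≤ (lc7EB G B).card).card : ℝ)
          ≤ 2 ^ ((M + 1) ^ 2) * (2 * d) ^ (M + 1) / n * (regularGraphs n d).card := by
      intro v hv
      rw [Finset.mem_range] at hv
      refine (lc7_dense n d v 1 hd (by omega)).trans ?_
      refine mul_le_mul_of_nonneg_right ?_ hRG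
      rw [pow_one]
      refine div_le_div_of_nonneg_right ?_ hn0'.le
      refine mul_le_mul ?_ ?_ (by positivity) (by positivity)
      · refine pow_le_pow_right₀ (by norm_num) ?_
        exact Nat.pow_le_pow_left (by omega) 2
      · exact pow_le_pow_right₀ hd1 (by omega)
    calc (((regularGraphs n d).filter fun H => ¬ RgStruct H R).card : ℝ)
        ≤ (((Finset.range (M + 1)).biUnion fun v =>
          (regularGraphs n d).filter fun G => ∃ B : Finset (Fin n), B.card = v ∧ v + 1 ≤ (lc7EB G B).card).card : ℝ) := by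
          exact_mod_cast Finset.card_le_card hsub
      _ ≤ ∑ v ∈ Finset.range (M + 1),
          (((regularGraphs n d).filter fun G => ∃ B : Finset (Fin n), B.card = v ∧ v + 1 ≤ (lc7EB G B).card).card : ℝ) := by
          exact_mod_cast Finset.card_biUnion_le
      _ ≤ ∑ _v ∈ Finset.range (M + 1), 2 ^ ((M + 1) ^ 2) * (2 * d) ^ (M + 1) / n * ((regularGraphs n d).card : ℝ) :=
          Finset.sum_le_sum hv
      _ = ((M + 1) * (2 ^ ((M + 1) ^ 2) * (2 * d) ^ (M + 1))) / n * (regularGraphs n d).card := by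
          rw [Finset.sum_const, Finset.card_range, nsmul_eq_mul]
          push_cast
          ring
      _ ≤ _ := by
          refine mul_le_mul_of_nonneg_right ?_ hRG
          refine div_le_div_of_nonneg_right ?_ hn0'.le
          have : (0 : ℝ) ≤ ((4 * (d + 1) + 4 * (M + 1) : ℕ) : ℝ) := by positivity
          linarith
  · have h1 : (1 : ℝ) ≤ (((4 * (d + 1) + 4 * (M + 1) : ℕ) : ℝ) + (M + 1) * (2 ^ ((M + 1) ^ 2) * (2 * d) ^ (M + 1))) / n := by
      rw [le_div_iff₀ hn0', one_mul]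
      have h2 : (n : ℝ) ≤ ((4 * (d + 1) + 4 * (M + 1) : ℕ) : ℝ) := by exact_mod_cast (not_le.1 hn).le
      have h3 : (0 : ℝ) ≤ ((M : ℝ) + 1) * (2 ^ ((M + 1) ^ 2) * (2 * d) ^ (M + 1)) := by positivity
      linarith
    exact (rg_P_le_one _).trans h1

end Struct

end Claimed.Agent.R287
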