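-- KEEP
import Claimed.Agent.R287.Loc222
import Claimed.Agent.R287.ResB

/-!
# Row 287 (S0534), unit B1, sub-unit T1, section CNT = counting of the bad samples      (helper281; prefix `t1c_`; 0 sorry)

Proofs of the leaves CNT0-CNT3, CNT of `R287/T1.lean` sec. 4 (`T1.lean` imports this file and calls them).
* sec. 1 (abstract, product space `Fin D → Ω`, counting measure):
  `t1c_gen`      generating function of the number of ADAPTED events: `∑_ω (1+t)^#{j : L j ω} ≤ (|Ω| (1 + t q))^D` (induction on `D`, the last coordinate is summed first);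
  `t1c_adapted`  (CNT0) Markov at `t = 1/q`: no union over subsets;      `t1c_star` (CNT1) = CNT0 after the transposition `0 ↔ j0`;
  `t1c_pairs_det`, `t1c_pairs` (CNT2): `2 r²` ordered bad pairs force a vertex of degree `≥ r` or `≥ r` indices with an earlier partner.
* sec. 2 (graph): `t1c_single`, `t1c_sub`, `t1c_card_or` (`n d` oriented edges), `t1c_ward_count` (CNT3), `t1c_touch`, `t1c_site_count`, `t1c_count` (CNT; the numbers `t1Nd, t1Ns, t1No` of `T1.lean` are written out).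
-/

set_option autoImplicit false

namespace Claimed.Agent.R287

open Finset Claims.C0462

noncomputable section

/-! ## 1. adapted events in a product space -/

open Classical in
/-- generating function of the number of adapted events -/
theorem t1c_gen {Ω : Type} [Fintype Ω] {q t : ℝ} (hq : 0 ≤ q) (ht : 0 ≤ t) : ∀ (D : ℕ) (L : (j : Fin D) → (Fin D → Ω) → Prop)
    (_ : ∀ j (ω ω' : Fin D → Ω), (∀ i, i ≤ j → ω i = ω' i) → (L j ω ↔ L j ω'))
    (_ : ∀ j (ω : Fin D → Ω), ((univ.filter fun a : Ω => L j (Function.update ω j a)).card : ℝ) ≤ q * Fintype.card Ω),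
    ∑ ω : Fin D → Ω, (1 + t) ^ (univ.filter fun j => L j ω).card ≤ (Fintype.card Ω * (1 + t * q)) ^ D := by
  intro D
  induction D with
  | zero =>
    intro L _ _
    simp
  | succ D ih =>
    intro L hdep hcnt
    rcases isEmpty_or_nonempty Ω with hΩ | ⟨⟨x0⟩⟩
    · have : IsEmpty (Fin (D + 1) → Ω) := ⟨fun ω => hΩ.elim (ω 0)⟩
      rw [Finset.univ_eq_empty, Finset.sum_empty]
      positivity
    set L' : (j : Fin D) → (Fin D → Ω) → Prop := fun j ω => L j.castSucc (Fin.snoc ω x0 : Fin (D + 1) → Ω) with hL'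
    have hagree : ∀ (j : Fin D) (ω : Fin D → Ω) (x : Ω), L j.castSucc (Fin.snoc ω x : Fin (D + 1) → Ω) ↔ L' j ω := by
      intro j ω x
      refine hdep _ _ _ fun i hi => ?_
      have h3 : (i : ℕ) < D := lt_of_le_of_lt (Fin.le_def.1 hi) (by simp)
      have : i = Fin.castSucc ⟨i, h3⟩ := by ext; simp
      rw [this, Fin.snoc_castSucc, Fin.snoc_castSucc]
    have hdep' : ∀ j (ω ω' : Fin D → Ω), (∀ i, i ≤ j → ω i = ω' i) → (L' j ω ↔ L' j ω') := by
      intro j ω ω' h
      refine hdep _ _ _ fun i hi => ?_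
      have h3 : (i : ℕ) < D := lt_of_le_of_lt (Fin.le_def.1 hi) (by simp)
      have e : i = Fin.castSucc ⟨i, h3⟩ := by ext; simp
      rw [e, Fin.snoc_castSucc, Fin.snoc_castSucc]
      exact h _ (Fin.le_def.2 (by simpa using Fin.le_def.1 hi))
    have hcnt' : ∀ j (ω : Fin D → Ω), ((univ.filter fun a : Ω => L' j (Function.update ω j a)).card : ℝ) ≤ q * Fintype.card Ω := by
      intro j ω
      have := hcnt j.castSucc (Fin.snoc ω x0 : Fin (D + 1) → Ω)
      simp only [hL', Fin.snoc_update]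
      exact this
    have ih' := ih L' hdep' hcnt'
    have hN : ∀ (ω : Fin D → Ω) (x : Ω), (univ.filter fun j => L j (Fin.snoc ω x : Fin (D + 1) → Ω)).card
        = (univ.filter fun j => L' j ω).card + if L (Fin.last D) (Fin.snoc ω x : Fin (D + 1) → Ω) then 1 else 0 := by
      intro ω x
      rw [Finset.card_filter, Finset.card_filter, Fin.sum_univ_castSucc]
      congr 1
      exact Finset.sum_congr rfl fun j _ => by simp only [hagree j ω x]
    rw [← (Fin.snocEquiv fun _ : Fin (D + 1) => Ω).sum_comp, Fintype.sum_prod_type_right]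
    have hstep : ∀ ω : Fin D → Ω, ∑ x : Ω, (1 + t) ^ (univ.filter fun j => L j (Fin.snoc ω x : Fin (D + 1) → Ω)).card
        ≤ (1 + t) ^ (univ.filter fun j => L' j ω).card * (Fintype.card Ω * (1 + t * q)) := by
      intro ω
      have h1 : ∀ x : Ω, (1 + t) ^ (univ.filter fun j => L j (Fin.snoc ω x : Fin (D + 1) → Ω)).card
          = (1 + t) ^ (univ.filter fun j => L' j ω).card * (1 + t * if L (Fin.last D) (Fin.snoc ω x : Fin (D + 1) → Ω) then 1 else 0) := by
        intro x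
        rw [hN, pow_add]
        split_ifs <;> simp
      simp only [h1]
      rw [← Finset.mul_sum]
      refine mul_le_mul_of_nonneg_left ?_ (by positivity)
      rw [Finset.sum_add_distrib, ← Finset.mul_sum]
      simp only [Finset.sum_const, Finset.card_univ, nsmul_eq_mul, mul_one]
      have h2 : (∑ x : Ω, if L (Fin.last D) (Fin.snoc ω x : Fin (D + 1) → Ω) then (1 : ℝ) else 0) ≤ q * Fintype.card Ω := by
        rw [Finset.sum_boole]
        have := hcnt (Fin.last D) (Fin.snoc ω x0 : Fin (D + 1) → Ω)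
        simp only [Fin.update_snoc_last] at this
        exact this
      have h7 := mul_le_mul_of_nonneg_left h2 ht
      nlinarith
    calc ∑ ω : Fin D → Ω, ∑ x : Ω, (1 + t) ^ (univ.filter fun j => L j ((Fin.snocEquiv fun _ : Fin (D + 1) => Ω) (x, ω))).card
        ≤ ∑ ω : Fin D → Ω, (1 + t) ^ (univ.filter fun j => L' j ω).card * (Fintype.card Ω * (1 + t * q)) :=
          Finset.sum_le_sum fun ω _ => hstep ω
      _ = (∑ ω : Fin D → Ω, (1 + t) ^ (univ.filter fun j => L' j ω).card) * (Fintype.card Ω * (1 + t * q)) := by rw [Finset.sum_mul]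
      _ ≤ (Fintype.card Ω * (1 + t * q)) ^ D * (Fintype.card Ω * (1 + t * q)) :=
          mul_le_mul_of_nonneg_right ih' (by positivity)
      _ = (Fintype.card Ω * (1 + t * q)) ^ (D + 1) := (pow_succ _ _).symm

open Classical in
/-- Markov, `q > 0` -/
theorem t1c_adapted_pos {Ω : Type} [Fintype Ω] (D r : ℕ) (q : ℝ) (hq : 0 < q) (L : (j : Fin D) → (Fin D → Ω) → Prop)
    (hdep : ∀ j (ω ω' : Fin D → Ω), (∀ i, i ≤ j → ω i = ω' i) → (L j ω ↔ L j ω'))
    (hcnt : ∀ j (ω : Fin D → Ω), ((univ.filter fun a : Ω => L j (Function.update ω j a)).card : ℝ) ≤ q * Fintype.card Ω) :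
    ((univ.filter fun ω : Fin D → Ω => r ≤ (univ.filter fun j => L j ω).card).card : ℝ) ≤ 2 ^ D * q ^ r * (Fintype.card Ω : ℝ) ^ D := by
  have ht : 0 ≤ 1 / q := by positivity
  have h := t1c_gen hq.le ht D L hdep hcnt
  have e1 : 1 + 1 / q * q = 2 := by field_simp; norm_num
  rw [e1] at h
  have h2 : ((univ.filter fun ω : Fin D → Ω => r ≤ (univ.filter fun j => L j ω).card).card : ℝ) * (1 / q) ^ r
      ≤ ∑ ω : Fin D → Ω, (1 + 1 / q) ^ (univ.filter fun j => L j ω).card := by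
    rw [← nsmul_eq_mul, ← Finset.sum_const]
    refine (Finset.sum_le_sum fun ω hω => ?_).trans
      (Finset.sum_le_sum_of_subset_of_nonneg (Finset.filter_subset _ _) fun ω _ _ => by positivity)
    rw [Finset.mem_filter] at hω
    calc (1 / q) ^ r ≤ (1 + 1 / q) ^ r := pow_le_pow_left₀ ht (by linarith) r
      _ ≤ (1 + 1 / q) ^ (univ.filter fun j => L j ω).card := pow_le_pow_right₀ (by linarith) hω.2
  have h3 := h2.trans h
  rw [one_div, inv_pow, ← div_eq_mul_inv, div_le_iff₀ (by positivity)] at h3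
  calc _ ≤ ((Fintype.card Ω : ℝ) * 2) ^ D * q ^ r := h3
    _ = 2 ^ D * q ^ r * (Fintype.card Ω : ℝ) ^ D := by rw [mul_pow]; ring

open Classical in
/-- **CNT0** -/
theorem t1c_adapted {Ω : Type} [Fintype Ω] (D r : ℕ) (q : ℝ) (hq : 0 ≤ q) (L : (j : Fin D) → (Fin D → Ω) → Prop)
    (hdep : ∀ j (ω ω' : Fin D → Ω), (∀ i, i ≤ j → ω i = ω' i) → (L j ω ↔ L j ω'))
    (hcnt : ∀ j (ω : Fin D → Ω), ((univ.filter fun a : Ω => L j (Function.update ω j a)).card : ℝ) ≤ q * Fintype.card Ω) :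
    ((univ.filter fun ω : Fin D → Ω => r ≤ (univ.filter fun j => L j ω).card).card : ℝ) ≤ 2 ^ D * q ^ r * (Fintype.card Ω : ℝ) ^ D := by
  rcases hq.lt_or_eq with hq | rfl
  · exact t1c_adapted_pos D r q hq L hdep hcnt
  rcases Nat.eq_zero_or_pos r with rfl | hr
  · simp only [pow_zero, mul_one]
    calc ((univ.filter fun ω : Fin D → Ω => 0 ≤ (univ.filter fun j => L j ω).card).card : ℝ)
        ≤ (Fintype.card (Fin D → Ω) : ℝ) := by exact_mod_cast Finset.card_le_univ _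
      _ = (Fintype.card Ω : ℝ) ^ D := by simp
      _ ≤ 2 ^ D * (Fintype.card Ω : ℝ) ^ D := le_mul_of_one_le_left (by positivity) (one_le_pow₀ (by norm_num))
  · rw [zero_pow hr.ne', mul_zero, zero_mul]
    set W : ℝ := 2 ^ D * (Fintype.card Ω : ℝ) ^ D with hW
    have hW0 : 0 ≤ W := by positivity
    have hq' : 0 < 1 / (W + 1) := by positivity
    have h := t1c_adapted_pos D r (1 / (W + 1)) hq' L hdep fun j ω => (hcnt j ω).trans (by rw [zero_mul]; positivity)
    have h1 : (1 / (W + 1)) ^ r ≤ 1 / (W + 1) := by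
      calc (1 / (W + 1)) ^ r ≤ (1 / (W + 1)) ^ 1 := pow_le_pow_of_le_one hq'.le (by rw [div_le_one (by positivity)]; linarith) hr
        _ = 1 / (W + 1) := pow_one _
    have h2 : ((univ.filter fun ω : Fin D → Ω => r ≤ (univ.filter fun j => L j ω).card).card : ℝ) < 1 := by
      calc _ ≤ 2 ^ D * (1 / (W + 1)) ^ r * (Fintype.card Ω : ℝ) ^ D := h
        _ = W * (1 / (W + 1)) ^ r := by rw [hW]; ring
        _ ≤ W * (1 / (W + 1)) := mul_le_mul_of_nonneg_left h1 hW0
        _ < 1 := by rw [mul_one_div, div_lt_one (by positivity)]; linarith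
    have h3 : (univ.filter fun ω : Fin D → Ω => r ≤ (univ.filter fun j => L j ω).card).card < 1 := by exact_mod_cast h2
    have h4 : (univ.filter fun ω : Fin D → Ω => r ≤ (univ.filter fun j => L j ω).card).card = 0 := by omega
    rw [h4]; simp

open Classical in
/-- **CNT1** a star -/
theorem t1c_star {Ω : Type} [Fintype Ω] (D r : ℕ) (q : ℝ) (hq : 0 ≤ q) (B : Ω → Ω → Prop)
    (hcnt : ∀ a : Ω, ((univ.filter fun a' : Ω => B a a').card : ℝ) ≤ q * Fintype.card Ω) (j0 : Fin D) :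
    ((univ.filter fun ω : Fin D → Ω => r ≤ (univ.filter fun j => j ≠ j0 ∧ B (ω j0) (ω j)).card).card : ℝ) ≤ 2 ^ D * q ^ r * (Fintype.card Ω : ℝ) ^ D := by
  have hD : 0 < D := lt_of_le_of_lt (Nat.zero_le _) j0.2
  set i0 : Fin D := ⟨0, hD⟩ with hi0
  set σ : Equiv.Perm (Fin D) := Equiv.swap i0 j0 with hσ
  obtain ⟨L, hL⟩ : ∃ L : (j : Fin D) → (Fin D → Ω) → Prop, L = fun j ω => j ≠ i0 ∧ B (ω i0) (ω j) := ⟨_, rfl⟩
  have hi0le : ∀ j : Fin D, i0 ≤ j := fun j => Fin.le_def.2 (Nat.zero_le _)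
  have h := t1c_adapted D r q hq L ?_ ?_
  · refine le_trans (le_of_eq ?_) h
    congr 1
    refine Finset.card_equiv (Equiv.arrowCongr σ (Equiv.refl Ω)) fun ω => ?_
    simp only [Finset.mem_filter, Finset.mem_univ, true_and]
    refine Eq.to_iff (congrArg (fun m => r ≤ m) ?_)
    refine Finset.card_equiv σ fun j => ?_
    simp only [Finset.mem_filter, Finset.mem_univ, true_and, hL, Equiv.arrowCongr_apply, Equiv.coe_refl, Function.comp_apply, id_eq,
      hσ, Equiv.symm_swap, Equiv.swap_apply_left, Equiv.swap_apply_self]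
    refine and_congr_left fun _ => not_congr ?_
    constructor
    · rintro rfl; simp
    · intro h1
      have := congrArg (Equiv.swap i0 j0) h1
      simpa using this
  · intro j ω ω' hω
    simp only [hL]
    rw [hω i0 (hi0le j), hω j le_rfl]
  · intro j ω
    by_cases hj : j = i0
    · refine le_trans (le_of_eq ?_) (mul_nonneg hq (Nat.cast_nonneg _))
      refine Nat.cast_eq_zero.2 (Finset.card_eq_zero.2 (Finset.eq_empty_of_forall_notMem fun a ha => ?_))
      rw [Finset.mem_filter, hL] at ha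
      exact ha.2.1 hj
    · refine le_trans ?_ (hcnt (ω i0))
      refine Nat.cast_le.2 (Finset.card_le_card fun a ha => ?_)
      simp only [Finset.mem_filter, Finset.mem_univ, true_and, hL, Function.update_self, Function.update_of_ne (Ne.symm hj)] at ha ⊢
      exact ha.2

open Classical in
/-- many ordered bad pairs force a vertex of large degree or many indices with an earlier partner -/
theorem t1c_pairs_det {D : ℕ} (r : ℕ) (Rb : Fin D → Fin D → Prop) (hs : ∀ i j, Rb i j → Rb j i)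
    (h : 2 * r ^ 2 ≤ (univ.filter fun p : Fin D × Fin D => p.1 ≠ p.2 ∧ Rb p.1 p.2).card) :
    (∃ j0, r ≤ (univ.filter fun j => j ≠ j0 ∧ Rb j0 j).card) ∨ r ≤ (univ.filter fun j => ∃ i, i < j ∧ Rb j i).card := by
  by_contra hcon
  rw [not_or, not_exists, not_le] at hcon
  obtain ⟨h1, h2⟩ := hcon
  have hr : 0 < r := lt_of_le_of_lt (Nat.zero_le _) h2
  set J := univ.filter fun j : Fin D => ∃ i, i < j ∧ Rb j i with hJ
  set e : Fin D → ℕ := fun i => (univ.filter fun j : Fin D => j < i ∧ Rb i j).card with he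
  have htot : (univ.filter fun p : Fin D × Fin D => p.1 ≠ p.2 ∧ Rb p.1 p.2).card = 2 * ∑ i, e i := by
    rw [Finset.card_filter, Fintype.sum_prod_type]
    have h3 : ∀ i j : Fin D, (if i ≠ j ∧ Rb i j then 1 else 0 : ℕ) = (if j < i ∧ Rb i j then 1 else 0) + (if i < j ∧ Rb j i then 1 else 0) := by
      intro i j
      rcases lt_trichotomy i j with hij | hij | hij
      · have a1 : ¬ j < i := not_lt.2 hij.le
        have a2 : Rb i j ↔ Rb j i := ⟨hs i j, hs j i⟩
        simp [hij.ne, a1, hij, a2]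
      · subst hij; simp
      · have a1 : ¬ i < j := not_lt.2 hij.le
        simp [hij.ne', a1, hij]
    simp only [h3, Finset.sum_add_distrib]
    rw [Finset.sum_comm (f := fun i j : Fin D => if i < j ∧ Rb j i then (1 : ℕ) else 0), two_mul]
    simp only [he, Finset.card_filter]
  have he0 : ∀ i, i ∉ J → e i = 0 := by
    intro i hi
    simp only [he]
    rw [Finset.card_eq_zero]
    refine Finset.eq_empty_of_forall_notMem fun j hj => hi ?_
    rw [Finset.mem_filter] at hj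
    rw [hJ, Finset.mem_filter]
    exact ⟨Finset.mem_univ _, j, hj.2⟩
  have he1 : ∀ i, e i ≤ r - 1 := by
    intro i
    have := h1 i
    have h4 : e i ≤ (univ.filter fun j => j ≠ i ∧ Rb i j).card := by
      refine Finset.card_le_card fun j hj => ?_
      rw [Finset.mem_filter] at hj ⊢
      exact ⟨hj.1, hj.2.1.ne, hj.2.2⟩
    omega
  have hsum : ∑ i, e i ≤ (r - 1) * (r - 1) := by
    calc ∑ i, e i = ∑ i ∈ J, e i := (Finset.sum_subset (Finset.subset_univ J) fun i _ hi => he0 i hi).symm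
      _ ≤ ∑ _i ∈ J, (r - 1) := Finset.sum_le_sum fun i _ => he1 i
      _ = J.card * (r - 1) := by rw [Finset.sum_const, smul_eq_mul]
      _ ≤ (r - 1) * (r - 1) := Nat.mul_le_mul_right _ (by omega)
  rw [htot] at h
  obtain ⟨m, rfl⟩ : ∃ m, r = m + 1 := ⟨r - 1, by omega⟩
  simp only [Nat.add_sub_cancel] at hsum
  nlinarith

open Classical in
/-- **CNT2** many bad pairs -/
theorem t1c_pairs {Ω : Type} [Fintype Ω] (D r : ℕ) (q : ℝ) (hq : 0 ≤ q) (B : Ω → Ω → Prop) (hB : ∀ a a', B a a' → B a' a)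
    (hcnt : ∀ a : Ω, ((univ.filter fun a' : Ω => B a a').card : ℝ) ≤ q * Fintype.card Ω) :
    ((univ.filter fun ω : Fin D → Ω => 2 * r ^ 2 ≤ (univ.filter fun p : Fin D × Fin D => p.1 ≠ p.2 ∧ B (ω p.1) (ω p.2)).card).card : ℝ)
      ≤ (D + 1) * 2 ^ D * (D : ℝ) ^ r * q ^ r * (Fintype.card Ω : ℝ) ^ D := by
  obtain ⟨L, hL⟩ : ∃ L : (j : Fin D) → (Fin D → Ω) → Prop, L = fun j ω => ∃ i, i < j ∧ B (ω j) (ω i) := ⟨_, rfl⟩
  have hA := t1c_adapted D r (D * q) (by positivity) L ?_ ?_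
  · have hsub : (univ.filter fun ω : Fin D → Ω => 2 * r ^ 2 ≤ (univ.filter fun p : Fin D × Fin D => p.1 ≠ p.2 ∧ B (ω p.1) (ω p.2)).card) ⊆
        (univ.biUnion fun j0 : Fin D => univ.filter fun ω : Fin D → Ω => r ≤ (univ.filter fun j => j ≠ j0 ∧ B (ω j0) (ω j)).card) ∪
          univ.filter fun ω : Fin D → Ω => r ≤ (univ.filter fun j => L j ω).card := by
      intro ω hω
      rw [Finset.mem_filter] at hω
      rw [Finset.mem_union, Finset.mem_biUnion, Finset.mem_filter]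
      rcases t1c_pairs_det r (fun i j => B (ω i) (ω j)) (fun i j => hB _ _) hω.2 with ⟨j0, h1⟩ | h1
      · exact Or.inl ⟨j0, Finset.mem_univ _, Finset.mem_filter.2 ⟨Finset.mem_univ _, h1⟩⟩
      · refine Or.inr ⟨Finset.mem_univ _, ?_⟩
        subst hL
        convert h1
    set X : ℝ := 2 ^ D * q ^ r * (Fintype.card Ω : ℝ) ^ D with hX
    have hX0 : 0 ≤ X := by positivity
    calc _ ≤ (((univ.biUnion fun j0 : Fin D => univ.filter fun ω : Fin D → Ω => r ≤ (univ.filter fun j => j ≠ j0 ∧ B (ω j0) (ω j)).card) ∪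
          univ.filter fun ω : Fin D → Ω => r ≤ (univ.filter fun j => L j ω).card).card : ℝ) := by exact_mod_cast Finset.card_le_card hsub
      _ ≤ ((univ.biUnion fun j0 : Fin D => univ.filter fun ω : Fin D → Ω => r ≤ (univ.filter fun j => j ≠ j0 ∧ B (ω j0) (ω j)).card).card : ℝ) +
          ((univ.filter fun ω : Fin D → Ω => r ≤ (univ.filter fun j => L j ω).card).card : ℝ) := by exact_mod_cast Finset.card_union_le _ _
      _ ≤ ∑ j0 : Fin D, ((univ.filter fun ω : Fin D → Ω => r ≤ (univ.filter fun j => j ≠ j0 ∧ B (ω j0) (ω j)).card).card : ℝ) +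
          ((univ.filter fun ω : Fin D → Ω => r ≤ (univ.filter fun j => L j ω).card).card : ℝ) := by
            gcongr
            exact_mod_cast Finset.card_biUnion_le
      _ ≤ ∑ _j0 : Fin D, X + 2 ^ D * (D * q) ^ r * (Fintype.card Ω : ℝ) ^ D :=
          add_le_add (Finset.sum_le_sum fun j0 _ => t1c_star D r q hq B hcnt j0) hA
      _ = D * X + (D : ℝ) ^ r * X := by
          rw [Finset.sum_const, Finset.card_univ, Fintype.card_fin, nsmul_eq_mul, mul_pow, hX]; ring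
      _ ≤ D * ((D : ℝ) ^ r * X) + (D : ℝ) ^ r * X := by
          rcases Nat.eq_zero_or_pos D with h0 | h0
          · subst h0; simp
          · have h1 : (1 : ℝ) ≤ (D : ℝ) ^ r := one_le_pow₀ (by exact_mod_cast h0)
            have h2 : X ≤ (D : ℝ) ^ r * X := le_mul_of_one_le_left hX0 h1
            have h3 : (D : ℝ) * X ≤ D * ((D : ℝ) ^ r * X) := mul_le_mul_of_nonneg_left h2 (Nat.cast_nonneg _)
            linarith
      _ = (D + 1) * 2 ^ D * (D : ℝ) ^ r * q ^ r * (Fintype.card Ω : ℝ) ^ D := by rw [hX]; ring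
  · intro j ω ω' hω
    subst hL
    constructor
    · rintro ⟨i, hi, h1⟩
      exact ⟨i, hi, by rw [← hω j le_rfl, ← hω i hi.le]; exact h1⟩
    · rintro ⟨i, hi, h1⟩
      exact ⟨i, hi, by rw [hω j le_rfl, hω i hi.le]; exact h1⟩
  · intro j ω
    have hsub : (univ.filter fun a : Ω => L j (Function.update ω j a)) ⊆ univ.biUnion fun i : Fin D => univ.filter fun a : Ω => B (ω i) a := by
      intro a ha
      rw [Finset.mem_filter, hL] at ha
      obtain ⟨-, i, hi, h1⟩ := ha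
      rw [Function.update_self, Function.update_of_ne hi.ne] at h1
      rw [Finset.mem_biUnion]
      exact ⟨i, Finset.mem_univ _, Finset.mem_filter.2 ⟨Finset.mem_univ _, hB _ _ h1⟩⟩
    calc ((univ.filter fun a : Ω => L j (Function.update ω j a)).card : ℝ)
        ≤ ((univ.biUnion fun i : Fin D => univ.filter fun a : Ω => B (ω i) a).card : ℝ) := by exact_mod_cast Finset.card_le_card hsub
      _ ≤ ∑ i : Fin D, ((univ.filter fun a : Ω => B (ω i) a).card : ℝ) := by exact_mod_cast Finset.card_biUnion_le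
      _ ≤ ∑ _i : Fin D, q * Fintype.card Ω := Finset.sum_le_sum fun i _ => hcnt _
      _ = D * q * Fintype.card Ω := by rw [Finset.sum_const, Finset.card_univ, Fintype.card_fin, nsmul_eq_mul]; ring

/-! ## 2. the graph instance -/

open Classical in
/-- events which depend on one coordinate -/
theorem t1c_single {Ω : Type} [Fintype Ω] (D r : ℕ) (q : ℝ) (hq : 0 ≤ q) (P : Ω → Prop)
    (hcnt : ((univ.filter fun a : Ω => P a).card : ℝ) ≤ q * Fintype.card Ω) :
    ((univ.filter fun ω : Fin D → Ω => r ≤ (univ.filter fun j => P (ω j)).card).card : ℝ) ≤ 2 ^ D * q ^ r * (Fintype.card Ω : ℝ) ^ D := by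
  refine t1c_adapted D r q hq (fun j ω => P (ω j)) ?_ ?_
  · intro j ω ω' h
    rw [h j le_rfl]
  · intro j ω
    simp only [Function.update_self]
    exact hcnt

open Classical in
/-- filters on a subtype -/
theorem t1c_sub {α : Type} [Fintype α] (Q P : α → Prop) :
    ((univ : Finset {e : α // Q e}).filter fun a => P a.1).card = (univ.filter fun e : α => Q e ∧ P e).card := by
  refine Finset.card_bij (fun a _ => a.1) ?_ ?_ ?_
  · intro a ha
    rw [Finset.mem_filter] at ha ⊢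
    exact ⟨Finset.mem_univ _, a.2, ha.2⟩
  · intro a _ b _ h
    exact Subtype.ext h
  · intro e he
    rw [Finset.mem_filter] at he
    exact ⟨⟨e, he.2.1⟩, Finset.mem_filter.2 ⟨Finset.mem_univ _, he.2.2⟩, rfl⟩

open Classical in
/-- number of oriented edges -/
theorem t1c_card_or {n d : ℕ} {H : Gr n} (hH : H ∈ regularGraphs n d) :
    Fintype.card {e : Fin n × Fin n // H.Adj e.1 e.2} = n * d := by
  have h := lc7_card_fst hH Finset.univ
  simp only [Finset.mem_univ, and_true, Finset.card_univ, Fintype.card_fin] at h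
  rw [Fintype.card_subtype]
  convert h

open Classical in
/-- **CNT3** Ward + Markov -/
theorem t1c_ward_count {n : ℕ} (H : Gr n) (z : ℂ) (hz : 0 < z.im) {K θ : ℝ} (hθ : 0 < θ) (t : Fin n) (hK : (rgG H z t t).im ≤ K) :
    ((univ.filter fun s => θ < ‖rgG H z s t‖).card : ℝ) ≤ K / (θ ^ 2 * z.im) := by
  have hw := rs_ward (rg_A_herm H) hz.ne' t
  have h1 : ((univ.filter fun s => θ < ‖rgG H z s t‖).card : ℝ) * θ ^ 2 ≤ ∑ s, ‖rgG H z t s‖ ^ 2 := by
    rw [← nsmul_eq_mul, ← Finset.sum_const]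
    refine (Finset.sum_le_sum fun s hs => ?_).trans
      (Finset.sum_le_sum_of_subset_of_nonneg (Finset.filter_subset _ _) fun s _ _ => by positivity)
    rw [Finset.mem_filter] at hs
    have : rgG H z t s = rgG H z s t := rs_G_symm (rg_A_herm H) hz.ne' t s
    rw [this]
    exact pow_le_pow_left₀ hθ.le hs.2.le 2
  have h2 : ∑ s, ‖rgG H z t s‖ ^ 2 ≤ K / z.im := by
    have : ∑ s, ‖rgG H z t s‖ ^ 2 = (rgG H z t t).im / z.im := hw
    rw [this]
    exact div_le_div_of_nonneg_right hK hz.le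
  rw [le_div_iff₀ (by positivity)]
  have h3 := h1.trans h2
  rw [le_div_iff₀ hz] at h3
  linarith

open Classical in
/-- oriented edges with an end in `U` -/
theorem t1c_touch {n d : ℕ} {H : Gr n} (hH : H ∈ regularGraphs n d) (U : Finset (Fin n)) :
    (univ.filter fun e : Fin n × Fin n => H.Adj e.1 e.2 ∧ (e.1 ∈ U ∨ e.2 ∈ U)).card ≤ 2 * (U.card * d) := by
  have hsub : (univ.filter fun e : Fin n × Fin n => H.Adj e.1 e.2 ∧ (e.1 ∈ U ∨ e.2 ∈ U)) ⊆
      (univ.filter fun e : Fin n × Fin n => H.Adj e.1 e.2 ∧ e.1 ∈ U) ∪ (univ.filter fun e : Fin n × Fin n => H.Adj e.1 e.2 ∧ e.2 ∈ U) := by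
    intro e he
    rw [Finset.mem_filter] at he
    rw [Finset.mem_union, Finset.mem_filter, Finset.mem_filter]
    rcases he.2.2 with h | h
    · exact Or.inl ⟨Finset.mem_univ _, he.2.1, h⟩
    · exact Or.inr ⟨Finset.mem_univ _, he.2.1, h⟩
  refine (Finset.card_le_card hsub).trans ((Finset.card_union_le _ _).trans ?_)
  rw [lc7_card_fst hH, lc7_card_snd hH]
  omega

open Classical in
/-- oriented edges with a large entry towards a finite set of sites -/
theorem t1c_site_count {n d : ℕ} {H : Gr n} (hH : H ∈ regularGraphs n d) (z : ℂ) (hz : 0 < z.im) {K θ : ℝ} (hθ : 0 < θ)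
    (hK : ∀ s, (rgG H z s s).im ≤ K) (F : Finset (Fin n)) :
    ((univ.filter fun e : Fin n × Fin n => H.Adj e.1 e.2 ∧ ∃ s ∈ ({e.1, e.2} : Finset (Fin n)), ∃ t ∈ F, θ < ‖rgG H z s t‖).card : ℝ)
      ≤ 2 * F.card * (K / (θ ^ 2 * (n * z.im))) * (n * d) := by
  rcases Nat.eq_zero_or_pos n with rfl | hn
  · have : (univ.filter fun e : Fin 0 × Fin 0 => H.Adj e.1 e.2 ∧ ∃ s ∈ ({e.1, e.2} : Finset (Fin 0)), ∃ t ∈ F, θ < ‖rgG H z s t‖) = ∅ :=
      Finset.eq_empty_of_forall_notMem fun e _ => e.1.elim0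
    rw [this]; simp
  set U : Finset (Fin n) := F.biUnion fun t => univ.filter fun s => θ < ‖rgG H z s t‖ with hU
  have hUc : (U.card : ℝ) ≤ F.card * (K / (θ ^ 2 * z.im)) := by
    calc (U.card : ℝ) ≤ ∑ t ∈ F, ((univ.filter fun s => θ < ‖rgG H z s t‖).card : ℝ) := by exact_mod_cast Finset.card_biUnion_le
      _ ≤ ∑ _t ∈ F, K / (θ ^ 2 * z.im) := Finset.sum_le_sum fun t _ => t1c_ward_count H z hz hθ t (hK t)
      _ = F.card * (K / (θ ^ 2 * z.im)) := by rw [Finset.sum_const, nsmul_eq_mul]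
  have hsub : (univ.filter fun e : Fin n × Fin n => H.Adj e.1 e.2 ∧ ∃ s ∈ ({e.1, e.2} : Finset (Fin n)), ∃ t ∈ F, θ < ‖rgG H z s t‖) ⊆
      univ.filter fun e : Fin n × Fin n => H.Adj e.1 e.2 ∧ (e.1 ∈ U ∨ e.2 ∈ U) := by
    intro e he
    rw [Finset.mem_filter] at he ⊢
    obtain ⟨-, h1, s, hs, t, ht, h2⟩ := he
    refine ⟨Finset.mem_univ _, h1, ?_⟩
    have hsU : s ∈ U := Finset.mem_biUnion.2 ⟨t, ht, Finset.mem_filter.2 ⟨Finset.mem_univ _, h2⟩⟩
    rw [Finset.mem_insert, Finset.mem_singleton] at hs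
    rcases hs with rfl | rfl
    · exact Or.inl hsU
    · exact Or.inr hsU
  have hn' : (0 : ℝ) < n := by exact_mod_cast hn
  calc _ ≤ ((univ.filter fun e : Fin n × Fin n => H.Adj e.1 e.2 ∧ (e.1 ∈ U ∨ e.2 ∈ U)).card : ℝ) := by exact_mod_cast Finset.card_le_card hsub
    _ ≤ 2 * ((U.card : ℝ) * d) := by exact_mod_cast t1c_touch hH U
    _ ≤ 2 * ((F.card * (K / (θ ^ 2 * z.im))) * d) := by gcongr
    _ = 2 * F.card * (K / (θ ^ 2 * (n * z.im))) * (n * d) := by field_simp

open Classical in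
/-- **CNT** the samples are iid uniform oriented edges -/
theorem t1c_count (d : ℕ) (l D r : ℕ) :
    ∃ C : ℝ, ∀ (n : ℕ) (H : Gr n) (o x : Fin n) (z : ℂ) (K δ κ1 θ : ℝ), H ∈ regularGraphs n d → 0 < z.im → 0 < θ → 0 ≤ δ → 0 ≤ K →
      (∀ s, (rgG H z s s).im ≤ K) →
      ((univ.filter fun e : Fin n × Fin n => H.Adj e.1 e.2 ∧ κ1 < rgBlk d H z e.1 e.2).card : ℝ) ≤ δ * (n * d) →
      ((univ.filter fun p : (Fin D → Fin n) × (Fin D → Fin n) => (∀ i, H.Adj (p.1 i) (p.2 i)) ∧ 11 * r ^ 2 ≤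
          (univ.filter fun i => κ1 < rgBlk d H z (p.1 i) (p.2 i)).card
          + 8 * (univ.filter fun i => ∃ s ∈ ({p.1 i, p.2 i} : Finset (Fin n)), ∃ t ∈ rgBall H (l + 1) {o, x}, θ < ‖rgG H z s t‖).card
          + (univ.filter fun u : Fin D × Fin D => u.1 ≠ u.2 ∧
              ∃ s ∈ ({p.1 u.1, p.2 u.1} : Finset (Fin n)), ∃ t ∈ ({p.1 u.2, p.2 u.2} : Finset (Fin n)), θ < ‖rgG H z s t‖).card).card : ℝ)
        ≤ C * ((n : ℝ) * d) ^ D * (δ + K / (θ ^ 2 * (n * z.im))) ^ r := by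
  set c2 : ℝ := 4 * ((d : ℝ) + 1) ^ (l + 1) with hc2
  have hc20 : 0 ≤ c2 := by positivity
  refine ⟨2 ^ D + 2 ^ D * c2 ^ r + (D + 1) * 2 ^ D * (D : ℝ) ^ r * 4 ^ r, ?_⟩
  intro n H o x z K δ κ1 θ hH hz hθ hδ hK0 hK hbad
  set Ω : Type := {e : Fin n × Fin n // H.Adj e.1 e.2} with hΩ
  have hcard : (Fintype.card Ω : ℝ) = n * d := by exact_mod_cast t1c_card_or hH
  set w : ℝ := K / (θ ^ 2 * (n * z.im)) with hw
  have hw0 : 0 ≤ w := by positivity
  set Q : ℝ := δ + w with hQ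
  have hQ0 : 0 ≤ Q := by positivity
  -- the three predicates
  obtain ⟨P1, hP1⟩ : ∃ P1 : Ω → Prop, P1 = fun a => κ1 < rgBlk d H z a.1.1 a.1.2 := ⟨_, rfl⟩
  obtain ⟨P2, hP2⟩ : ∃ P2 : Ω → Prop, P2 = fun a => ∃ s ∈ ({a.1.1, a.1.2} : Finset (Fin n)), ∃ t ∈ rgBall H (l + 1) {o, x}, θ < ‖rgG H z s t‖ := ⟨_, rfl⟩
  obtain ⟨B, hB⟩ : ∃ B : Ω → Ω → Prop, B = fun a a' => ∃ s ∈ ({a.1.1, a.1.2} : Finset (Fin n)), ∃ t ∈ ({a'.1.1, a'.1.2} : Finset (Fin n)), θ < ‖rgG H z s t‖ := ⟨_, rfl⟩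
  have h1 : ((univ.filter fun a : Ω => P1 a).card : ℝ) ≤ δ * Fintype.card Ω := by
    rw [hcard]
    refine le_trans (le_of_eq ?_) hbad
    subst hP1
    exact_mod_cast t1c_sub (fun e : Fin n × Fin n => H.Adj e.1 e.2) (fun e => κ1 < rgBlk d H z e.1 e.2)
  have h2 : ((univ.filter fun a : Ω => P2 a).card : ℝ) ≤ (c2 * w) * Fintype.card Ω := by
    rw [hcard]
    have e := t1c_sub (fun e : Fin n × Fin n => H.Adj e.1 e.2)
      (fun e => ∃ s ∈ ({e.1, e.2} : Finset (Fin n)), ∃ t ∈ rgBall H (l + 1) {o, x}, θ < ‖rgG H z s t‖)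
    have h3 := t1c_site_count hH z hz hθ hK (rgBall H (l + 1) {o, x})
    have h4 : ((rgBall H (l + 1) {o, x}).card : ℝ) ≤ 2 * ((d : ℝ) + 1) ^ (l + 1) := by
      have h5 := lc7_ball_card hH (l + 1) {o, x}
      have h6 : ({o, x} : Finset (Fin n)).card ≤ 2 := Finset.card_le_two
      have h7 : (rgBall H (l + 1) {o, x}).card ≤ 2 * (d + 1) ^ (l + 1) := h5.trans (Nat.mul_le_mul_right _ h6)
      exact_mod_cast h7
    subst hP2
    calc _ = ((univ.filter fun e : Fin n × Fin n => H.Adj e.1 e.2 ∧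
            ∃ s ∈ ({e.1, e.2} : Finset (Fin n)), ∃ t ∈ rgBall H (l + 1) {o, x}, θ < ‖rgG H z s t‖).card : ℝ) := by rw [Nat.cast_inj]; convert e
      _ ≤ 2 * (rgBall H (l + 1) {o, x}).card * w * (n * d) := h3
      _ ≤ 2 * (2 * ((d : ℝ) + 1) ^ (l + 1)) * w * (n * d) := by gcongr
      _ = c2 * w * (n * d) := by rw [hc2]; ring
  have h3 : ∀ a : Ω, ((univ.filter fun a' : Ω => B a a').card : ℝ) ≤ (4 * w) * Fintype.card Ω := by
    intro a
    rw [hcard]
    have e := t1c_sub (fun e : Fin n × Fin n => H.Adj e.1 e.2)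
      (fun e => ∃ s ∈ ({e.1, e.2} : Finset (Fin n)), ∃ t ∈ ({a.1.1, a.1.2} : Finset (Fin n)), θ < ‖rgG H z s t‖)
    have h4 := t1c_site_count hH z hz hθ hK ({a.1.1, a.1.2} : Finset (Fin n))
    have h6 : ((({a.1.1, a.1.2} : Finset (Fin n)).card : ℕ) : ℝ) ≤ 2 := by exact_mod_cast Finset.card_le_two
    have hsub : (univ.filter fun a' : Ω => B a a') ⊆ (univ : Finset Ω).filter fun a' =>
        ∃ s ∈ ({a'.1.1, a'.1.2} : Finset (Fin n)), ∃ t ∈ ({a.1.1, a.1.2} : Finset (Fin n)), θ < ‖rgG H z s t‖ := by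
      intro a' ha'
      rw [Finset.mem_filter, hB] at ha'
      obtain ⟨-, s, hs, t, ht, h5⟩ := ha'
      rw [Finset.mem_filter]
      refine ⟨Finset.mem_univ _, t, ht, s, hs, ?_⟩
      have : rgG H z t s = rgG H z s t := rs_G_symm (rg_A_herm H) hz.ne' t s
      rw [this]; exact h5
    calc ((univ.filter fun a' : Ω => B a a').card : ℝ) ≤ (((univ : Finset Ω).filter fun a' =>
            ∃ s ∈ ({a'.1.1, a'.1.2} : Finset (Fin n)), ∃ t ∈ ({a.1.1, a.1.2} : Finset (Fin n)), θ < ‖rgG H z s t‖).card : ℝ) := by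
              exact_mod_cast Finset.card_le_card hsub
      _ = ((univ.filter fun e : Fin n × Fin n => H.Adj e.1 e.2 ∧
            ∃ s ∈ ({e.1, e.2} : Finset (Fin n)), ∃ t ∈ ({a.1.1, a.1.2} : Finset (Fin n)), θ < ‖rgG H z s t‖).card : ℝ) := by rw [Nat.cast_inj]; convert e
      _ ≤ 2 * (({a.1.1, a.1.2} : Finset (Fin n)).card : ℝ) * w * (n * d) := h4
      _ ≤ 2 * 2 * w * (n * d) := by gcongr
      _ = 4 * w * (n * d) := by ring
  have hBs : ∀ a a', B a a' → B a' a := by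
    intro a a' h
    rw [hB] at h ⊢
    obtain ⟨s, hs, t, ht, h5⟩ := h
    refine ⟨t, ht, s, hs, ?_⟩
    have : rgG H z t s = rgG H z s t := rs_G_symm (rg_A_herm H) hz.ne' t s
    rw [this]; exact h5
  have c1 := t1c_single D r δ hδ P1 h1
  have c2' := t1c_single D r (c2 * w) (by positivity) P2 h2
  have c3 := t1c_pairs D r (4 * w) (by positivity) B hBs h3
  rw [hcard] at c1 c2' c3
  -- transfer to the samples
  set Φ : (Fin D → Ω) → (Fin D → Fin n) × (Fin D → Fin n) := fun ω => (fun i => (ω i).1.1, fun i => (ω i).1.2) with hΦ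
  set A1 := univ.filter fun ω : Fin D → Ω => r ≤ (univ.filter fun j => P1 (ω j)).card with hA1
  set A2 := univ.filter fun ω : Fin D → Ω => r ≤ (univ.filter fun j => P2 (ω j)).card with hA2
  set A3 := univ.filter fun ω : Fin D → Ω => 2 * r ^ 2 ≤ (univ.filter fun p : Fin D × Fin D => p.1 ≠ p.2 ∧ B (ω p.1) (ω p.2)).card with hA3
  have hsurj : Set.SurjOn Φ (↑(A1 ∪ A2 ∪ A3) : Set (Fin D → Ω)) ↑(univ.filter fun p : (Fin D → Fin n) × (Fin D → Fin n) => (∀ i, H.Adj (p.1 i) (p.2 i)) ∧ 11 * r ^ 2 ≤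
          (univ.filter fun i => κ1 < rgBlk d H z (p.1 i) (p.2 i)).card
          + 8 * (univ.filter fun i => ∃ s ∈ ({p.1 i, p.2 i} : Finset (Fin n)), ∃ t ∈ rgBall H (l + 1) {o, x}, θ < ‖rgG H z s t‖).card
          + (univ.filter fun u : Fin D × Fin D => u.1 ≠ u.2 ∧
              ∃ s ∈ ({p.1 u.1, p.2 u.1} : Finset (Fin n)), ∃ t ∈ ({p.1 u.2, p.2 u.2} : Finset (Fin n)), θ < ‖rgG H z s t‖).card) := by
    intro p hp
    rw [Finset.mem_coe, Finset.mem_filter] at hp
    obtain ⟨-, hadj, hN⟩ := hp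
    refine ⟨fun i => ⟨(p.1 i, p.2 i), hadj i⟩, ?_, rfl⟩
    rw [Finset.mem_coe, Finset.mem_union, Finset.mem_union, hA1, hA2, hA3, Finset.mem_filter, Finset.mem_filter, Finset.mem_filter]
    subst hP1 hP2 hB
    simp only [Finset.mem_univ, true_and]
    by_contra hcon
    rw [not_or, not_or, not_le, not_le, not_le] at hcon
    obtain ⟨⟨a1, a2⟩, a3⟩ := hcon
    have hr : r ≤ r ^ 2 := by nlinarith [Nat.zero_le r]
    omega
  have hW0 : (0 : ℝ) ≤ ((n : ℝ) * d) ^ D := by positivity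
  have hq1 : δ ^ r ≤ Q ^ r := pow_le_pow_left₀ hδ (by linarith) r
  have hq2 : (c2 * w) ^ r ≤ c2 ^ r * Q ^ r := by
    rw [mul_pow]
    exact mul_le_mul_of_nonneg_left (pow_le_pow_left₀ hw0 (by linarith) r) (by positivity)
  have hq3 : (4 * w) ^ r ≤ 4 ^ r * Q ^ r := by
    rw [mul_pow]
    exact mul_le_mul_of_nonneg_left (pow_le_pow_left₀ hw0 (by linarith) r) (by positivity)
  calc _ ≤ ((A1 ∪ A2 ∪ A3).card : ℝ) := by exact_mod_cast Finset.card_le_card_of_surjOn Φ hsurj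
    _ ≤ (A1.card : ℝ) + A2.card + A3.card := by
        have := (Finset.card_union_le (A1 ∪ A2) A3).trans (Nat.add_le_add_right (Finset.card_union_le A1 A2) _)
        exact_mod_cast this
    _ ≤ 2 ^ D * δ ^ r * ((n : ℝ) * d) ^ D + 2 ^ D * (c2 * w) ^ r * ((n : ℝ) * d) ^ D
          + (D + 1) * 2 ^ D * (D : ℝ) ^ r * (4 * w) ^ r * ((n : ℝ) * d) ^ D := add_le_add (add_le_add c1 c2') c3
    _ ≤ 2 ^ D * Q ^ r * ((n : ℝ) * d) ^ D + 2 ^ D * (c2 ^ r * Q ^ r) * ((n : ℝ) * d) ^ D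
          + (D + 1) * 2 ^ D * (D : ℝ) ^ r * (4 ^ r * Q ^ r) * ((n : ℝ) * d) ^ D := by gcongr
    _ = (2 ^ D + 2 ^ D * c2 ^ r + (D + 1) * 2 ^ D * (D : ℝ) ^ r * 4 ^ r) * ((n : ℝ) * d) ^ D * Q ^ r := by ring

end

end Claimed.Agent.R287
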