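-- KEEP
import Claimed.Agent.R287.DefsB1
import Claimed.Agent.R287.Sw292
import Claimed.Agent.R287.T1C

/-!
# Row 287 (S0534), unit B1, sub-unit T1 = the T1-closing in GAP form (route102 L4-L6, repaired)      head helper271

GOAL `t1_gap` (= `b1_gap` of `B1.lean`).   Written proof: origin/helper271:notes/R287/T1_proof_271.md.
IDEA.  Fix a pair `(o,x)`.  `T = B_l({o,x})`.  Resample the boundary of `T`: the boundary edges `(l_i,a_i)` are switched with uniform far edges `(b_i,c_i)`:  `H~ = H - l_i a_i - b_i c_i + l_i c_i + a_i b_i`.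
`(H, marks) ↦ (H~, reversed marks)` is an involution of the set of VALID marked graphs, so  #{(H,marks) valid, H ∈ Ω, viol(H)} = #{valid, H~ ∈ Ω, viol(H~)}.
Deterministic lemma `t1_det`: `(G~ - P~)_ox` = weighted sum over PAIRS of boundary slots of errors; a pair is good if the blocks / cross entries of `G(H)` at the SAMPLES are small; a bad slot costs `C b^(-l/2) κ0`.
Counting `t1_count`: given `H` the samples are iid uniform: `≥ 11 r²` bad pairs have probability `≤ C q^r`, `q = δ + K y^(-1/2)`.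
MARKS.  `ι = Fin D ⊕ Fin D`, `v = (l | b)`, `w = (a | c)`, `σ = ` swap of the two summands: kit SWITCH (`Sw292.lean`): `sw7G H v w σ`, new marks `(v, w ∘ σ) = (l | b), (c | a)`.
VALIDITY is a predicate of the CORE graph `K = H - marked edges = H~ - new marked edges`, symmetric under `a ↔ c`: invariance under the involution is free.
Only the CLEAN boundary edges are switched; at most 4 edges of `K` leave `T` (excess `≤ 1` per component): they count as bad slots.
Only `#valid marks ≥ (nd)^D / 2` for `H ∈ Ω` is needed (collisions, short cycles at the samples are simply invalid).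
-/

set_option autoImplicit false

namespace Claimed.Agent.R287

open Claims.C0462

/-! ## 0. Definitions -/

/-- index type of the marks -/
abbrev T1I (D : ℕ) : Type := Fin D ⊕ Fin D

/-- the swap `inl i ↔ inr i` -/
def t1s (D : ℕ) : Equiv.Perm (T1I D) := Equiv.sumComm (Fin D) (Fin D)

/-- the switched graph -/
def t1Sw {n D : ℕ} (H : Gr n) (v w : T1I D → Fin n) : Gr n := sw7G H v w (t1s D)

/-- the core: the marked edges are deleted -/
def t1K {n D : ℕ} (H : Gr n) (v w : T1I D → Fin n) : Gr n := H \ SimpleGraph.fromEdgeSet (Set.range fun i => s(v i, w i))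

/-- the `3 D` outer marked vertices `a_i, c_i, b_i` -/
def t1m {n D : ℕ} (v w : T1I D → Fin n) : T1I D ⊕ Fin D → Fin n := Sum.elim w fun i => v (Sum.inr i)

open Classical in
/-- separation, a predicate of the core `K`; `T = B_l({o,x}; K)` -/
structure T1Sep {n D : ℕ} (l R : ℕ) (o x : Fin n) (K : Gr n) (v w : T1I D → Fin n) : Prop where
  /-- the inner ends `l_i` are in `T` -/
  inT : ∀ i : Fin D, v (Sum.inl i) ∈ rgBall K l {o, x}
  /-- … at depth `≥ l` -/
  deep : ∀ i : Fin D, ∀ p ∈ ({o, x} : Finset (Fin n)), (l : ℕ∞) ≤ K.edist p (v (Sum.inl i))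
  /-- at most `4` unswitched boundary edges -/
  few : (Finset.univ.filter fun e : Fin n × Fin n => K.Adj e.1 e.2 ∧ e.1 ∈ rgBall K l {o, x} ∧ e.2 ∉ rgBall K l {o, x}).card ≤ 4
  /-- the balls of the outer marked vertices are trees -/
  tree : ∀ s, RgTl K R {t1m v w s}
  /-- … pairwise disjoint and not adjacent -/
  far : ∀ s s', s ≠ s' → ((2 * R + 2 : ℕ) : ℕ∞) ≤ K.edist (t1m v w s) (t1m v w s')
  /-- … and far from `T` -/
  farT : ∀ s, ∀ t ∈ rgBall K l {o, x}, ((2 * R + 2 : ℕ) : ℕ∞) ≤ K.edist t (t1m v w s)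

/-- valid marks -/
structure T1Val {n D : ℕ} (l R : ℕ) (o x : Fin n) (H : Gr n) (v w : T1I D → Fin n) : Prop where
  adm : Sw7Adm H v w (t1s D)
  new : ∀ i, ¬ H.Adj (v i) (w (t1s D i))
  sep : T1Sep l R o x (t1K H v w) v w

open Classical in
/-- number of samples with a `κ1`-bad block -/
noncomputable def t1Nd {n D : ℕ} (d : ℕ) (H : Gr n) (z : ℂ) (κ1 : ℝ) (b c : Fin D → Fin n) : ℕ :=
  (Finset.univ.filter fun i => κ1 < rgBlk d H z (b i) (c i)).card

open Classical in
/-- number of samples with a large entry towards the fixed sites `B_(l+1)({o,x})` -/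
noncomputable def t1Ns {n D : ℕ} (l : ℕ) (H : Gr n) (z : ℂ) (θ : ℝ) (o x : Fin n) (b c : Fin D → Fin n) : ℕ :=
  (Finset.univ.filter fun i => ∃ s ∈ ({b i, c i} : Finset (Fin n)), ∃ t ∈ rgBall H (l + 1) {o, x}, θ < ‖rgG H z s t‖).card

open Classical in
/-- number of ordered pairs of samples with a large cross entry -/
noncomputable def t1No {n D : ℕ} (H : Gr n) (z : ℂ) (θ : ℝ) (b c : Fin D → Fin n) : ℕ :=
  (Finset.univ.filter fun p : Fin D × Fin D => p.1 ≠ p.2 ∧
    ∃ s ∈ ({b p.1, c p.1} : Finset (Fin n)), ∃ t ∈ ({b p.2, c p.2} : Finset (Fin n)), θ < ‖rgG H z s t‖).card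

/-- weighted number of bad pairs of slots -/
noncomputable def t1Nb {n D : ℕ} (d l : ℕ) (H : Gr n) (z : ℂ) (κ1 θ : ℝ) (o x : Fin n) (b c : Fin D → Fin n) : ℕ :=
  t1Nd d H z κ1 b c + 8 * t1Ns l H z θ o x b c + t1No H z θ b c

theorem t1_eqns_cite : True := by
  have := @t1s.eq_1
  have := @t1Sw.eq_1
  have := @t1K.eq_1
  have := @t1m.eq_1
  have := @t1Nd.eq_1
  have := @t1Ns.eq_1
  have := @t1No.eq_1
  have := @t1Nb.eq_1
  trivial

/-! ## 1. The involution (leaves V1-V4) -/

/-- **V0** `σ⁻¹ = σ` -/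
theorem t1_s_inv (D : ℕ) : (t1s D)⁻¹ = t1s D := by
  ext c
  cases c <;> rfl

/-- **V1** the core is common.   Plan: `ext`; `sw7a_adj`; a new marked pair is not an old edge (`new`), an old marked pair is not a new one (else `new` fails). -/
theorem t1_K_sw {n D : ℕ} {l R : ℕ} {o x : Fin n} {H : Gr n} {v w : T1I D → Fin n} (h : T1Val l R o x H v w) :
    t1K (t1Sw H v w) v (w ∘ t1s D) = t1K H v w := by
  ext p q
  unfold t1K t1Sw
  rw [SimpleGraph.sdiff_adj, SimpleGraph.sdiff_adj, SimpleGraph.fromEdgeSet_adj, SimpleGraph.fromEdgeSet_adj, Set.mem_range, Set.mem_range, sw7a_adj h.adm]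
  simp only [Function.comp_apply]
  constructor
  · rintro ⟨⟨h1, h2⟩ | h1, h3⟩
    · exact ⟨h1, fun h4 => h2 h4.1⟩
    · refine absurd ⟨h1, ?_⟩ h3
      rintro rfl
      obtain ⟨i, hi⟩ := h1
      rw [Sym2.eq_iff] at hi
      rcases hi with ⟨e1, e2⟩ | ⟨e1, e2⟩
      · exact h.adm.ne i (e1.trans e2.symm)
      · exact h.adm.ne i (e1.trans e2.symm)
  · rintro ⟨h1, h2⟩
    refine ⟨Or.inl ⟨h1, fun h4 => h2 ⟨h4, h1.ne⟩⟩, ?_⟩
    rintro ⟨⟨i, hi⟩, _⟩
    refine h.new i ?_
    rw [← SimpleGraph.mem_edgeSet, hi]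
    exact h1

/-- **V2** separation is symmetric under `a ↔ c`.   Plan: `t1m v (w ∘ σ) = t1m v w ∘ Sum.map σ id`, a bijection of the slots. -/
theorem t1_sep_symm {n D : ℕ} {l R : ℕ} {o x : Fin n} {K : Gr n} {v w : T1I D → Fin n} (h : T1Sep l R o x K v w) :
    T1Sep l R o x K v (w ∘ t1s D) := by
  have e : ∀ s, t1m v (w ∘ t1s D) s = t1m v w (Sum.map (t1s D) id s) := by
    rintro (s | s) <;> rfl
  have hinj : Function.Injective (Sum.map (t1s D) (id : Fin D → Fin D)) := (t1s D).injective.sumMap Function.injective_id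
  refine ⟨h.inT, h.deep, h.few, ?_, ?_, ?_⟩
  · intro s
    rw [e]
    exact h.tree _
  · intro s s' hs
    rw [e, e]
    exact h.far _ _ fun hh => hs (hinj hh)
  · intro s t ht
    rw [e]
    exact h.farT _ t ht

/-- **V3** validity is invariant.   Plan: `Sw7Adm.sw` + `t1_s_inv`; `new`: `(w ∘ σ)(σ i) = w i` and `¬ H~.Adj (v i) (w i)` by `sw7a_adj` (the old pair is removed, it is no new pair by `new` + `adm.adj`); `t1_K_sw`, `t1_sep_symm`. -/
theorem t1_val_sw {n D : ℕ} {l R : ℕ} {o x : Fin n} {H : Gr n} {v w : T1I D → Fin n} (h : T1Val l R o x H v w) :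
    T1Val l R o x (t1Sw H v w) v (w ∘ t1s D) := by
  refine ⟨?_, ?_, ?_⟩
  · have := h.adm.sw
    rwa [t1_s_inv] at this
  · intro i hi
    have e : (w ∘ t1s D) (t1s D i) = w i := by
      have : t1s D (t1s D i) = i := by
        cases i <;> rfl
      rw [Function.comp_apply, this]
    rw [e] at hi
    rcases (sw7a_adj h.adm _ _).1 hi with ⟨_, h2⟩ | ⟨j, hj⟩
    · exact h2 ⟨i, rfl⟩
    · refine h.new j ?_
      rw [← SimpleGraph.mem_edgeSet, hj]
      exact h.adm.adj i
  · rw [t1_K_sw h]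
    exact t1_sep_symm h.sep

open Classical in
/-- **V4** double counting.   Plan: `sw7_exch` with `P = Q = T1Val l R o x`, `t1_val_sw`, `t1_s_inv`. -/
theorem t1_exch {n d D : ℕ} (l R : ℕ) (o x : Fin n) (F : Gr n → (T1I D → Fin n) → (T1I D → Fin n) → ℝ) :
    ∑ H ∈ regularGraphs n d, ∑ v, ∑ w, (if T1Val l R o x H v w then F (t1Sw H v w) v (w ∘ t1s D) else 0)
      = ∑ H ∈ regularGraphs n d, ∑ v, ∑ w, if T1Val l R o x H v w then F H v w else 0 := by
  have key := sw7_exch (d := d) (t1s D) (T1Val l R o x) (T1Val l R o x) (fun H v w h => ⟨h.adm, t1_val_sw h⟩)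
    (fun H v w h => by
      rw [t1_s_inv]
      exact ⟨h.adm, t1_val_sw h⟩) F
  exact key

/-! ## 2. Counting (sub-unit CNT: product spaces + Ward) -/

open Classical in
/-- **CNT0** adapted events in a product space: if `L j` depends on the coordinates `≤ j` only and, the earlier coordinates being fixed, at most `q |Ω|` values of the `j`-th coordinate realise it, then at least `r` of them occur for at most `2^D q^r |Ω|^D` points.
Plan: union over the `r`-subsets `J`; induction on `D` (`Fin.snoc` / `Fin.consEquiv`-type decomposition), integrate the last coordinate first. -/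
theorem t1_adapted {Ω : Type} [Fintype Ω] (D r : ℕ) (q : ℝ) (hq : 0 ≤ q) (L : (j : Fin D) → (Fin D → Ω) → Prop)
    (hdep : ∀ j (ω ω' : Fin D → Ω), (∀ i, i ≤ j → ω i = ω' i) → (L j ω ↔ L j ω'))
    (hcnt : ∀ j (ω : Fin D → Ω), ((Finset.univ.filter fun a : Ω => L j (Function.update ω j a)).card : ℝ) ≤ q * Fintype.card Ω) :
    ((Finset.univ.filter fun ω : Fin D → Ω => r ≤ (Finset.univ.filter fun j => L j ω).card).card : ℝ) ≤ 2 ^ D * q ^ r * (Fintype.card Ω : ℝ) ^ D := by
  exact t1c_adapted D r q hq L hdep hcnt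

open Classical in
/-- **CNT1** a star: for a fixed centre `j0`, at least `r` partners.   Plan: fix `ω j0`; union over the `r`-subsets `I ∌ j0`; the set is a product (`Fintype.piFinset`). -/
theorem t1_star {Ω : Type} [Fintype Ω] (D r : ℕ) (q : ℝ) (hq : 0 ≤ q) (B : Ω → Ω → Prop)
    (hcnt : ∀ a : Ω, ((Finset.univ.filter fun a' : Ω => B a a').card : ℝ) ≤ q * Fintype.card Ω) (j0 : Fin D) :
    ((Finset.univ.filter fun ω : Fin D → Ω => r ≤ (Finset.univ.filter fun j => j ≠ j0 ∧ B (ω j0) (ω j)).card).card : ℝ) ≤ 2 ^ D * q ^ r * (Fintype.card Ω : ℝ) ^ D := by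
  exact t1c_star D r q hq B hcnt j0

open Classical in
/-- **CNT2** many bad pairs: `B` symmetric; `≥ 2 r²` ordered bad pairs force a vertex with `≥ r` partners or `≥ r` indices with an earlier partner.
Plan: if all degrees are `< r`: `r² ≤ #unordered = ∑_j #{i < j bad} < r #{j : ∃ i < j bad}`.   Then `t1_star` (union over `j0`) and `t1_adapted` with `q' = D q`. -/
theorem t1_pairs {Ω : Type} [Fintype Ω] (D r : ℕ) (q : ℝ) (hq : 0 ≤ q) (hq1 : q ≤ 1) (B : Ω → Ω → Prop) (hB : ∀ a a', B a a' → B a' a)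
    (hcnt : ∀ a : Ω, ((Finset.univ.filter fun a' : Ω => B a a').card : ℝ) ≤ q * Fintype.card Ω) :
    ((Finset.univ.filter fun ω : Fin D → Ω => 2 * r ^ 2 ≤ (Finset.univ.filter fun p : Fin D × Fin D => p.1 ≠ p.2 ∧ B (ω p.1) (ω p.2)).card).card : ℝ)
      ≤ (D + 1) * 2 ^ D * (D : ℝ) ^ r * q ^ r * (Fintype.card Ω : ℝ) ^ D := by
  exact t1c_pairs D r q hq B hB hcnt

open Classical in
/-- **CNT3** Ward + Markov: few vertices have a large entry towards a fixed site.   Plan: `rs_ward`: `∑_s |G_st|² = Im G_tt / η`. -/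
theorem t1_ward_count {n : ℕ} (H : Gr n) (z : ℂ) (hz : 0 < z.im) {K θ : ℝ} (hθ : 0 < θ) (t : Fin n) (hK : (rgG H z t t).im ≤ K) :
    ((Finset.univ.filter fun s => θ < ‖rgG H z s t‖).card : ℝ) ≤ K / (θ ^ 2 * z.im) := by
  exact t1c_ward_count H z hz hθ t hK

open Classical in
/-- **CNT** the samples are iid uniform oriented edges: `11 r² ≤` (weighted number of bad pairs) has probability `≤ C q^r`.
Plan: `Ω` = oriented edges of `H` (`n d` of them); `t1Nb ≥ 11 r²` ⟹ `t1Nd ≥ r` or `t1Ns ≥ r` or `t1No ≥ 2 r²`; `t1_adapted` (events depending on one coordinate) for the first two with `q = δ`, `q = 2 |F| K/(θ² n η)`, `|F| ≤ 2 d^(l+2)`;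
`t1_pairs` for the third with `q = 8 K/(θ² n η)`; every vertex is the first (second) end of `d` oriented edges. -/
theorem t1_count (d : ℕ) (hd : 3 ≤ d) (l D r : ℕ) :
    ∃ C : ℝ, ∀ (n : ℕ) (H : Gr n) (o x : Fin n) (z : ℂ) (K δ κ1 θ : ℝ), H ∈ regularGraphs n d → 0 < z.im → 0 < θ → 0 ≤ δ → 0 ≤ K →
      (∀ s, (rgG H z s s).im ≤ K) →
      ((Finset.univ.filter fun e : Fin n × Fin n => H.Adj e.1 e.2 ∧ κ1 < rgBlk d H z e.1 e.2).card : ℝ) ≤ δ * (n * d) →
      δ + K / (θ ^ 2 * (n * z.im)) ≤ 1 →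
      ((Finset.univ.filter fun p : (Fin D → Fin n) × (Fin D → Fin n) => (∀ i, H.Adj (p.1 i) (p.2 i)) ∧ 11 * r ^ 2 ≤ t1Nb d l H z κ1 θ o x p.1 p.2).card : ℝ)
        ≤ C * ((n : ℝ) * d) ^ D * (δ + K / (θ ^ 2 * (n * z.im))) ^ r := by
  obtain ⟨C, hC⟩ := t1c_count d l D r
  exact ⟨C, fun n H o x z K δ κ1 θ hH hz hθ hδ hK0 hK hbad _ => hC n H o x z K δ κ1 θ hH hz hθ hδ hK0 hK hbad⟩

/-! Sections VAL, DET, BACK, ASSEMBLY: see `T1A.lean` (imports this file and the files of the owners). -/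

end Claimed.Agent.R287
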