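-- KEEP
import Claimed.Agent.R287.T1
import Claimed.Agent.R287.B1FS

/-!
# Row 287 (S0534), unit B1, sub-unit T1: BACK = what the pre-switch graph inherits      (helper132; prefix `t1b_`)

`t1_back_pf` = the statement `t1_back` (with the extra threshold `Rb ≤ R`, `Rb` a function of `d`, `l`).   Route: note T1_proof_271.md sec.2.
* sec. 1  graph facts: the marked vertices `t1bS`, `H`, `H~`, `K` agree off `S × S`;
* sec. 2  `t1b_sparse`: `rgRes H B` is sparse on `B = B_R(S; H~)` (abstract counting lemma `t1b_sparse_abs`: a sparse piece, pendant forests, one extra edge charged to each forest);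
* sec. 3  entries: `fs7_ident`, `fs7_abs` on `X = S`, then `G = G~ + G~ Δ G` twice;
* sec. 4  the bad fraction.
-/

set_option autoImplicit false

namespace Claimed.Agent.R287

open Claims.C0462 Finset

/-! ## 2a. the abstract counting lemma -/

open Classical in
/-- a sparse piece, pairwise disjoint non adjacent forests `Bs s`, and extra edges `p i - q i`, each charged to its own forest -/
theorem t1b_sparse_abs {V I J : Type} [Fintype V] [DecidableEq V] [Fintype I] [Fintype J]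
    {H K : SimpleGraph V} {W : Finset V} {Bs : J → Finset V} {p q : I → V} {j : I → J}
    (hdis : ∀ s s', s ≠ s' → Disjoint (Bs s) (Bs s'))
    (hsep : ∀ a ∈ W, ∀ b ∈ W, K.Adj a b → ∀ s, a ∈ Bs s → b ∈ Bs s)
    (hfor : ∀ s, (tgIn K (Bs s)).IsAcyclic)
    (hL : ∑ a ∈ W.filter (fun a => ∀ s, a ∉ Bs s), ((W.filter fun a => ∀ s, a ∉ Bs s).filter fun b => K.Adj a b).card
        ≤ 2 * (W.filter fun a => ∀ s, a ∉ Bs s).card)
    (hj : Function.Injective j) (hq : ∀ i, q i ∈ Bs (j i))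
    (hH : ∀ a b, H.Adj a b → K.Adj a b ∨ ∃ i, (a = p i ∧ b = q i) ∨ (a = q i ∧ b = p i)) :
    ∑ a ∈ W, (W.filter fun b => H.Adj a b).card ≤ 2 * W.card := by
  obtain ⟨WL, hWL⟩ : ∃ WL : Finset V, WL = W.filter fun a => ∀ s, a ∉ Bs s := ⟨_, rfl⟩
  obtain ⟨Ws, hWs⟩ : ∃ Ws : J → Finset V, Ws = fun s => W ∩ Bs s := ⟨_, rfl⟩
  rw [← hWL] at hL
  rw [← tg_card_pairs] at hL ⊢
  obtain ⟨g, hg⟩ : ∃ g : J → ℕ, g = fun s => if (Ws s).Nonempty then 2 else 0 := ⟨_, rfl⟩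
  have hsub : ((W ×ˢ W).filter fun e => H.Adj e.1 e.2) ⊆
      (((WL ×ˢ WL).filter fun e => K.Adj e.1 e.2)
        ∪ (univ.biUnion fun s => ((Ws s ×ˢ Ws s).filter fun e => (tgIn K (Bs s)).Adj e.1 e.2)))
        ∪ ((univ.filter fun i => q i ∈ W).biUnion fun i => {(p i, q i), (q i, p i)}) := by
    rintro ⟨a, b⟩ he
    rw [mem_filter, mem_product] at he
    obtain ⟨⟨ha, hb⟩, hab⟩ := he
    simp only at ha hb hab
    rcases hH a b hab with hK | ⟨i, ⟨rfl, rfl⟩ | ⟨rfl, rfl⟩⟩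
    · refine mem_union_left _ ?_
      by_cases hs : ∃ s, a ∈ Bs s
      · obtain ⟨s, hs⟩ := hs
        have hbs := hsep a ha b hb hK s hs
        refine mem_union_right _ (mem_biUnion.2 ⟨s, mem_univ _, ?_⟩)
        rw [mem_filter, mem_product, hWs]
        exact ⟨⟨mem_inter.2 ⟨ha, hs⟩, mem_inter.2 ⟨hb, hbs⟩⟩, hK, hs, hbs⟩
      · refine mem_union_left _ ?_
        rw [mem_filter, mem_product, hWL, mem_filter, mem_filter]
        refine ⟨⟨⟨ha, fun s h => hs ⟨s, h⟩⟩, ⟨hb, fun s h => hs ⟨s, hsep b hb a ha hK.symm s h⟩⟩⟩, hK⟩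
    · refine mem_union_right _ (mem_biUnion.2 ⟨i, mem_filter.2 ⟨mem_univ _, hb⟩, ?_⟩)
      simp
    · refine mem_union_right _ (mem_biUnion.2 ⟨i, mem_filter.2 ⟨mem_univ _, ha⟩, ?_⟩)
      simp
  have c1 := (card_le_card hsub).trans ((card_union_le _ _).trans (add_le_add (card_union_le _ _) le_rfl))
  have c2 : (univ.biUnion fun s => ((Ws s ×ˢ Ws s).filter fun e => (tgIn K (Bs s)).Adj e.1 e.2)).card
      ≤ ∑ s, ((Ws s ×ˢ Ws s).filter fun e => (tgIn K (Bs s)).Adj e.1 e.2).card := card_biUnion_le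
  have c3 : ((univ.filter fun i => q i ∈ W).biUnion fun i => ({(p i, q i), (q i, p i)} : Finset (V × V))).card ≤ ∑ s, g s := by
    refine card_biUnion_le.trans ?_
    calc ∑ i ∈ univ.filter (fun i => q i ∈ W), ({(p i, q i), (q i, p i)} : Finset (V × V)).card
        ≤ ∑ i ∈ univ.filter (fun i => q i ∈ W), g (j i) := by
          refine sum_le_sum fun i hi => ?_
          have : (Ws (j i)).Nonempty := ⟨q i, by rw [hWs]; exact mem_inter.2 ⟨(mem_filter.1 hi).2, hq i⟩⟩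
          rw [hg]
          simp only [this, if_true]
          exact card_le_two
      _ = ∑ s ∈ (univ.filter fun i => q i ∈ W).image j, g s := (sum_image fun a _ b _ h => hj h).symm
      _ ≤ ∑ s, g s := sum_le_sum_of_subset (subset_univ _)
  have c4 : ∀ s, ((Ws s ×ˢ Ws s).filter fun e => (tgIn K (Bs s)).Adj e.1 e.2).card + g s ≤ 2 * (Ws s).card := by
    intro s
    rw [tg_card_pairs, hg]
    by_cases hne : (Ws s).Nonempty
    · simp only [hne, if_true]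
      exact tg_forest_count (hfor s) hne
    · simp only [hne, if_false]
      rw [not_nonempty_iff_eq_empty] at hne
      simp [hne]
  have c5 : WL.card + ∑ s, (Ws s).card ≤ W.card := by
    have hd1 : ∀ s ∈ (univ : Finset J), ∀ s' ∈ (univ : Finset J), s ≠ s' → Disjoint (Ws s) (Ws s') := by
      intro s _ s' _ hss
      rw [hWs]
      exact (hdis s s' hss).mono inter_subset_right inter_subset_right
    have hd2 : Disjoint WL (univ.biUnion Ws) := by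
      rw [disjoint_left]
      intro a ha hb
      obtain ⟨s, -, hs⟩ := mem_biUnion.1 hb
      rw [hWL] at ha
      rw [hWs] at hs
      exact (mem_filter.1 ha).2 s (mem_inter.1 hs).2
    rw [← card_biUnion hd1, ← card_union_of_disjoint hd2]
    refine card_le_card (union_subset ?_ (biUnion_subset.2 fun s _ => ?_))
    · rw [hWL]; exact filter_subset _ _
    · rw [hWs]; exact inter_subset_left
  have c6 : ∑ s, ((Ws s ×ˢ Ws s).filter fun e => (tgIn K (Bs s)).Adj e.1 e.2).card + ∑ s, g s ≤ 2 * ∑ s, (Ws s).card := by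
    rw [← sum_add_distrib, mul_sum]
    exact sum_le_sum fun s _ => c4 s
  omega

/-! ## 1. graph facts -/

/-- the marked vertices -/
def t1bS {n D : ℕ} (v w : T1I D → Fin n) : Finset (Fin n) := univ.image v ∪ univ.image w

theorem t1b_eqns_cite : True := by
  have := @t1bS.eq_1
  trivial

section graph
variable {n d D l R : ℕ} {o x : Fin n} {H : Gr n} {v w : T1I D → Fin n}

theorem t1b_S_card (v w : T1I D → Fin n) : (t1bS v w).card ≤ 4 * D := by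
  unfold t1bS
  refine (card_union_le _ _).trans ?_
  have h1 : (univ.image v).card ≤ D + D := card_image_le.trans (by simp)
  have h2 : (univ.image w).card ≤ D + D := card_image_le.trans (by simp)
  omega

theorem t1b_v_mem (v w : T1I D → Fin n) (i : T1I D) : v i ∈ t1bS v w := mem_union_left _ (mem_image_of_mem _ (mem_univ _))

theorem t1b_w_mem (v w : T1I D → Fin n) (i : T1I D) : w i ∈ t1bS v w := mem_union_right _ (mem_image_of_mem _ (mem_univ _))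

theorem t1b_S_cases {c : Fin n} (hc : c ∈ t1bS v w) : (∃ i : Fin D, c = v (Sum.inl i)) ∨ ∃ s, c = t1m v w s := by
  unfold t1bS at hc
  rcases mem_union.1 hc with hc | hc
  · obtain ⟨i, -, rfl⟩ := mem_image.1 hc
    rcases i with i | i
    · exact Or.inl ⟨i, rfl⟩
    · exact Or.inr ⟨Sum.inr i, rfl⟩
  · obtain ⟨i, -, rfl⟩ := mem_image.1 hc
    exact Or.inr ⟨Sum.inl i, rfl⟩

theorem t1b_K_adj (a b : Fin n) : (t1K H v w).Adj a b ↔ H.Adj a b ∧ ¬ ∃ i, s(v i, w i) = s(a, b) := by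
  unfold t1K
  rw [SimpleGraph.sdiff_adj, SimpleGraph.fromEdgeSet_adj, Set.mem_range]
  constructor
  · rintro ⟨h1, h2⟩
    exact ⟨h1, fun h3 => h2 ⟨h3, h1.ne⟩⟩
  · rintro ⟨h1, h2⟩
    exact ⟨h1, fun h3 => h2 h3.1⟩

theorem t1b_K_le : t1K H v w ≤ H := fun a b h => ((t1b_K_adj a b).1 h).1

theorem t1b_K_le_sw (h : T1Val l R o x H v w) : t1K H v w ≤ t1Sw H v w :=
  fun a b hab => (sw7a_adj h.adm a b).2 (Or.inl ((t1b_K_adj a b).1 hab))

theorem t1b_notMem {a b : Fin n} (hab : a ∉ t1bS v w ∨ b ∉ t1bS v w) (w' : T1I D → Fin n) (hw' : ∀ i, w' i ∈ t1bS v w) :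
    ¬ ∃ i, s(v i, w' i) = s(a, b) := by
  rintro ⟨i, hi⟩
  rw [Sym2.eq_iff] at hi
  rcases hi with ⟨rfl, rfl⟩ | ⟨rfl, rfl⟩
  · rcases hab with h | h
    · exact h (t1b_v_mem v w i)
    · exact h (hw' i)
  · rcases hab with h | h
    · exact h (hw' i)
    · exact h (t1b_v_mem v w i)

theorem t1b_agree_KH {a b : Fin n} (hab : a ∉ t1bS v w ∨ b ∉ t1bS v w) : (t1K H v w).Adj a b ↔ H.Adj a b := by
  rw [t1b_K_adj]
  exact ⟨fun h => h.1, fun h => ⟨h, t1b_notMem hab w (t1b_w_mem v w)⟩⟩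

theorem t1b_agree_KS (h : T1Val l R o x H v w) {a b : Fin n} (hab : a ∉ t1bS v w ∨ b ∉ t1bS v w) :
    (t1K H v w).Adj a b ↔ (t1Sw H v w).Adj a b := by
  unfold t1Sw
  rw [t1b_K_adj, sw7a_adj h.adm]
  exact ⟨Or.inl, fun h' => h'.resolve_right (t1b_notMem hab (fun i => w (t1s D i)) fun i => t1b_w_mem v w _)⟩

theorem t1b_agree (h : T1Val l R o x H v w) {a b : Fin n} (hab : a ∉ t1bS v w ∨ b ∉ t1bS v w) :
    (t1Sw H v w).Adj a b ↔ H.Adj a b := (t1b_agree_KS h hab).symm.trans (t1b_agree_KH hab)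

theorem t1b_edist2 {K : Gr n} {p q a : Fin n} {R : ℕ} (h1 : K.edist p a ≤ R) (h2 : K.edist q a ≤ R) : K.edist p q ≤ (2 * R + 1 : ℕ) := by
  calc K.edist p q ≤ K.edist p a + K.edist a q := SimpleGraph.edist_triangle
    _ ≤ (R : ℕ) + (R : ℕ) := add_le_add h1 (by rw [SimpleGraph.edist_comm]; exact h2)
    _ ≤ (2 * R + 1 : ℕ) := by exact_mod_cast (by omega : R + R ≤ 2 * R + 1)

theorem t1b_edist3 {K : Gr n} {p q a b : Fin n} {R : ℕ} (h1 : K.edist p a ≤ R) (hab : K.Adj a b) (h2 : K.edist q b ≤ R) :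
    K.edist p q ≤ (2 * R + 1 : ℕ) := by
  have h3 : K.edist a b = 1 := SimpleGraph.edist_eq_one_iff_adj.mpr hab
  calc K.edist p q ≤ K.edist p a + K.edist a q := SimpleGraph.edist_triangle
    _ ≤ K.edist p a + (K.edist a b + K.edist b q) := by gcongr; exact SimpleGraph.edist_triangle
    _ ≤ (R : ℕ) + (1 + (R : ℕ)) := by
        gcongr
        · exact h3.le
        · rw [SimpleGraph.edist_comm]; exact h2
    _ ≤ (2 * R + 1 : ℕ) := by
        have : ((R : ℕ) : ℕ∞) + (1 + (R : ℕ)) = ((R + (1 + R) : ℕ) : ℕ∞) := by push_cast; ring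
        rw [this]
        exact_mod_cast (by omega : R + (1 + R) ≤ 2 * R + 1)

theorem t1b_far_absurd {K : Gr n} {p q : Fin n} {R : ℕ} (h1 : ((2 * R + 2 : ℕ) : ℕ∞) ≤ K.edist p q) (h2 : K.edist p q ≤ (2 * R + 1 : ℕ)) : False := by
  have := h1.trans h2
  have h3 : 2 * R + 2 ≤ 2 * R + 1 := by exact_mod_cast this
  omega

/-- the ball of the marks in `H~` is the ball in the core -/
theorem t1b_ball_sub (h : T1Val l R o x H v w) (r : ℕ) : rgBall (t1Sw H v w) r (t1bS v w) ⊆ rgBall (t1K H v w) r (t1bS v w) := by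
  have := fs7_ball_sub (H := t1K H v w) (H' := t1Sw H v w) (S := t1bS v w) (fun a b hab => t1b_agree_KS h hab) r (t1bS v w)
  rwa [union_self] at this

/-! ## 2b. the restriction of `H` to the ball of the marks is sparse -/

theorem t1b_sparse {N : ℕ} (hH : H ∈ regularGraphs n d) (h : T1Val l R o x H v w) (hsp : RgSparse (t1Sw H v w) N)
    (hN : 4 * D * (d + 1) ^ R ≤ N) : TgSparse (rgRes H (rgBall (t1Sw H v w) R (t1bS v w))) := by
  classical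
  have hreg : t1Sw H v w ∈ regularGraphs n d := sw7_reg hH h.adm
  have hBcard : (rgBall (t1Sw H v w) R (t1bS v w)).card ≤ N :=
    ((fs7_ball_card hreg R _).trans (Nat.mul_le_mul_right _ (t1b_S_card v w))).trans hN
  refine tgIn_sparse H _ fun W hW => ?_
  refine t1b_sparse_abs (K := t1K H v w) (Bs := fun s => rgBall (t1K H v w) R {t1m v w s}) (p := v) (q := w) (j := Sum.inl)
    ?_ ?_ (fun s => h.sep.tree s) ?_ Sum.inl_injective (fun i => tgr_self_mem R _) ?_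
  · intro s s' hss
    rw [disjoint_left]
    intro a h1 h2
    rw [tgr_mem_ball1] at h1 h2
    exact t1b_far_absurd (h.sep.far s s' hss) (t1b_edist2 h1 h2)
  · intro a _ b hb hab s hs
    rw [tgr_mem_ball1] at hs ⊢
    have hb' := t1b_ball_sub h R (hW hb)
    rw [tgr_mem_ball] at hb'
    obtain ⟨c, hc, hcb⟩ := hb'
    rcases t1b_S_cases hc with ⟨i, rfl⟩ | ⟨s', rfl⟩
    · exact (t1b_far_absurd (h.sep.farT s _ (h.sep.inT i)) (t1b_edist3 hcb hab.symm hs)).elim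
    · by_cases hss : s = s'
      · rw [hss]; exact hcb
      · exact (t1b_far_absurd (h.sep.far s s' hss) (t1b_edist3 hs hab hcb)).elim
  · refine le_trans (sum_le_sum fun a _ => card_le_card ?_) (hsp _ ((card_le_card ((filter_subset _ _).trans hW)).trans hBcard))
    intro b hb
    rw [mem_filter] at hb ⊢
    exact ⟨hb.1, t1b_K_le_sw h hb.2⟩
  · intro a b hab
    by_cases hm : ∃ i, s(v i, w i) = s(a, b)
    · obtain ⟨i, hi⟩ := hm
      rw [Sym2.eq_iff] at hi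
      rcases hi with ⟨h1, h2⟩ | ⟨h1, h2⟩
      · exact Or.inr ⟨i, Or.inl ⟨h1.symm, h2.symm⟩⟩
      · exact Or.inr ⟨i, Or.inr ⟨h2.symm, h1.symm⟩⟩
    · exact Or.inl ((t1b_K_adj a b).2 ⟨hab, hm⟩)

end graph

/-! ## 3. entries -/

/-- `‖(A Δ B)_st‖ ≤ a b K0²` -/
theorem t1b_tri {V : Type} [Fintype V] [DecidableEq V] {S : Finset V} {A B Δ : Matrix V V ℂ} {K0 : ℕ}
    (hΔ0 : ∀ x y, ¬ (x ∈ S ∧ y ∈ S) → Δ x y = 0) (hΔ1 : ∀ x y, ‖Δ x y‖ ≤ 1) (hcard : S.card ≤ K0) {s t : V} {a b : ℝ}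
    (ha0 : 0 ≤ a) (hb0 : 0 ≤ b) (hA : ∀ u ∈ S, ‖A s u‖ ≤ a) (hB : ∀ u ∈ S, ‖B u t‖ ≤ b) :
    ‖(A * Δ * B) s t‖ ≤ a * b * (K0 : ℝ) ^ 2 := by
  have hsum := fs7_D_sum hΔ0 hΔ1 hcard
  have h1 : (A * Δ * B) s t = ∑ y, ∑ x, A s x * Δ x y * B y t := by
    rw [Matrix.mul_apply]
    refine sum_congr rfl fun y _ => ?_
    rw [Matrix.mul_apply, sum_mul]
  rw [h1]
  calc ‖∑ y, ∑ x, A s x * Δ x y * B y t‖ ≤ ∑ y, ∑ x, a * b * ‖Δ x y‖ := by
        refine (norm_sum_le _ _).trans (sum_le_sum fun y _ => (norm_sum_le _ _).trans (sum_le_sum fun x _ => ?_))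
        rw [norm_mul, norm_mul]
        by_cases hxy : x ∈ S ∧ y ∈ S
        · calc ‖A s x‖ * ‖Δ x y‖ * ‖B y t‖ ≤ a * ‖Δ x y‖ * b :=
                mul_le_mul (mul_le_mul_of_nonneg_right (hA x hxy.1) (norm_nonneg _)) (hB y hxy.2) (norm_nonneg _)
                  (mul_nonneg ha0 (norm_nonneg _))
            _ = a * b * ‖Δ x y‖ := by ring
        · rw [hΔ0 x y hxy]; simp
    _ = a * b * ∑ x, ∑ y, ‖Δ x y‖ := by
        rw [sum_comm, mul_sum]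
        exact sum_congr rfl fun x _ => (mul_sum _ _ _).symm
    _ ≤ a * b * (K0 : ℝ) ^ 2 := mul_le_mul_of_nonneg_left hsum (mul_nonneg ha0 hb0)

/-- `G' = G - G Δ G'` -/
theorem t1b_res {V : Type} [Fintype V] [DecidableEq V] {M0 M0' G G' Δ : Matrix V V ℂ}
    (h0 : M0' = M0 + Δ) (hG : G * M0 = 1) (hG' : M0' * G' = 1) : G' = G - G * Δ * G' := by
  have : G * (M0' * G') = G' + G * Δ * G' := by
    rw [h0, add_mul, mul_add, ← mul_assoc, hG, one_mul, mul_assoc]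
  rw [hG', mul_one] at this
  exact eq_sub_of_add_eq this.symm

section entries
variable {n d D l R : ℕ} {o x : Fin n} {H : Gr n} {v w : T1I D → Fin n} {z : ℂ}

/-- the constants: `c = 1 + 27/2 K0²` -/
noncomputable def t1bc (K0 : ℕ) : ℝ := 1 + 27 / 2 * (K0 : ℝ) ^ 2

/-- bound of `G` on `S × S` -/
noncomputable def t1bg1 (K0 : ℕ) : ℝ := 27 / 2 + t1bc K0

/-- bound of `G` on `V × S` -/
noncomputable def t1bg2 (K0 : ℕ) : ℝ := 29 / 2 + 29 / 2 * t1bg1 K0 * (K0 : ℝ) ^ 2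

/-- bound of `G` -/
noncomputable def t1bg3 (K0 : ℕ) : ℝ := 29 / 2 + 29 / 2 * t1bg2 K0 * (K0 : ℝ) ^ 2

theorem t1b_eqns_cite2 : True := by
  have := @t1bc.eq_1
  have := @t1bg1.eq_1
  have := @t1bg2.eq_1
  have := @t1bg3.eq_1
  trivial

theorem t1b_c_ge (K0 : ℕ) : 1 ≤ t1bc K0 := by
  unfold t1bc
  have : 0 ≤ 27 / 2 * (K0 : ℝ) ^ 2 := by positivity
  linarith

theorem t1b_g1_pos (K0 : ℕ) : 0 < t1bg1 K0 := by
  unfold t1bg1
  have := t1b_c_ge K0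
  linarith

theorem t1b_g2_pos (K0 : ℕ) : 0 < t1bg2 K0 := by
  unfold t1bg2
  have := t1b_g1_pos K0
  positivity

theorem t1b_g3_pos (K0 : ℕ) : 0 < t1bg3 K0 := by
  unfold t1bg3
  have := t1b_g2_pos K0
  positivity

/-- all entries of `G~` are bounded -/
theorem t1b_Gt_le (hd : 3 ≤ d) (hR : 1 ≤ R) {Ht : Gr n} (hstr : RgStr d R Ht) (hz : 0 < z.im) {κ0 : ℝ} (hκ1 : κ0 ≤ 1)
    (hdev : RgDev d R Ht z κ0) (s t : Fin n) : ‖rgG Ht z s t‖ ≤ 29 / 2 := by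
  have h1 := hdev s t
  have h2 := tgr_Pm_le hstr.1 hR hd hz s t
  calc ‖rgG Ht z s t‖ = ‖(rgG Ht z s t - rgPm d R Ht z s t) + rgPm d R Ht z s t‖ := by congr 1; ring
    _ ≤ κ0 + 27 / 2 := (norm_add_le _ _).trans (add_le_add h1 h2)
    _ ≤ 29 / 2 := by linarith

/-- `G` on `S × S` -/
theorem t1b_SS (hd : 3 ≤ d) (hR : 1 ≤ R) (hH : H ∈ regularGraphs n d) (h : T1Val l R o x H v w) (hstr : RgStr d R (t1Sw H v w))
    {K0 : ℕ} (hK1 : 1 ≤ K0) (hK0 : 4 * D ≤ K0) (hN : K0 * (d + 1) ^ R ≤ (d + 1) ^ (4 * R)) (hz : 0 < z.im) {κ0 : ℝ} (hκ0 : 0 ≤ κ0)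
    (hdev : RgDev d R (t1Sw H v w) z κ0) (hsmall : (κ0 + 27 / 2 * ‖rgg d z‖ ^ R) * t1bc K0 * (K0 : ℝ) ^ 2 ≤ 1 / 2) :
    ∀ a ∈ t1bS v w, ∀ b ∈ t1bS v w, ‖rgG H z a b‖ ≤ t1bg1 K0 := by
  classical
  intro a ha b hb
  obtain ⟨Ht, hHt⟩ : ∃ Ht : Gr n, Ht = t1Sw H v w := ⟨_, rfl⟩
  obtain ⟨S, hSd⟩ : ∃ S : Finset (Fin n), S = t1bS v w := ⟨_, rfl⟩
  obtain ⟨γ, hγ⟩ : ∃ γ : ℝ, γ = ‖rgg d z‖ ^ R := ⟨_, rfl⟩
  have hγ0 : 0 ≤ γ := by rw [hγ]; positivity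
  have hreg : Ht ∈ regularGraphs n d := hHt ▸ sw7_reg hH h.adm
  have hS : ∀ p q, (p ∉ S ∨ q ∉ S) → (Ht.Adj p q ↔ H.Adj p q) := fun p q hpq => by
    rw [hHt]; rw [hSd] at hpq; exact t1b_agree h hpq
  have hcard : S.card ≤ K0 := hSd ▸ (t1b_S_card v w).trans hK0
  obtain ⟨B, hB⟩ : ∃ B : Finset (Fin n), B = rgBall Ht R S := ⟨_, rfl⟩
  have hBcard : B.card ≤ (d + 1) ^ (4 * R) := by
    rw [hB]
    exact ((fs7_ball_card hreg R S).trans (Nat.mul_le_mul_right _ hcard)).trans hN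
  have hΓ : TgSparse (rgRes Ht B) := tgIn_sparse Ht B fun W hW => (hHt ▸ hstr.2) W ((card_le_card hW).trans hBcard)
  have hΓ' : TgSparse (rgRes H B) := by
    rw [hB, hHt, hSd]
    exact t1b_sparse hH h hstr.2 ((Nat.mul_le_mul_right _ hK0).trans hN)
  have hz' : z.im ≠ 0 := hz.ne'
  have hid := fs7_ident (fs7_full Ht H z) (hB ▸ fs7_mod hreg hH hS hR (subset_refl S) z) (rs_G_mul (rg_A_herm Ht) hz')
    (rs_mul_G (rg_A_herm H) hz') (tgr_PB_mul hΓ (by omega) hz) (tgr_PB_mul' hΓ' (by omega) hz)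
  have hE : ∀ p ∈ S, ∀ q ∈ S, ‖(rsG (rgA Ht) z - rgPB d (rgRes Ht B) z) p q‖ ≤ κ0 + 27 / 2 * γ := by
    intro p hp q hq
    have h1 : ‖rgG Ht z p q - rgPm d R Ht z p q‖ ≤ κ0 := (hHt ▸ hdev) p q
    have h2 := tgr_Pm_cons (R := R) hΓ (rg_res_le Ht B) hd hz p q (tgIn_mono Ht (by
      rw [hB]
      refine fs7_ball_mono_set R ?_
      intro u hu
      rcases mem_insert.1 hu with rfl | hu
      · exact hp
      · rw [mem_singleton.1 hu]; exact hq))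
    rw [← hγ] at h2
    rw [Matrix.sub_apply]
    calc ‖rsG (rgA Ht) z p q - rgPB d (rgRes Ht B) z p q‖
        = ‖(rgG Ht z p q - rgPm d R Ht z p q) - (rgPB d (rgRes Ht B) z p q - rgPm d R Ht z p q)‖ := by
          congr 1; unfold rgG; ring
      _ ≤ κ0 + 27 / 2 * γ := (norm_sub_le _ _).trans (add_le_add h1 h2)
  rw [← hγ] at hsmall
  have hmain := fs7_abs (S := S) (X := S) (subset_refl S) (K0 := K0) (δ' := κ0 + 27 / 2 * γ) (b := 27 / 2) hid (by abel)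
    (fs7_D_zero hS) (fs7_D_le Ht H) hcard (fun p q => tgr_PB_le hΓ' hd hz p q) hE (by positivity) (by norm_num) hsmall
    a (hSd ▸ ha) b (hSd ▸ hb)
  rw [Matrix.sub_apply] at hmain
  have hc := t1b_c_ge K0
  have hK : (1 : ℝ) ≤ (K0 : ℝ) ^ 2 := by
    have : (1 : ℝ) ≤ K0 := by exact_mod_cast hK1
    nlinarith
  have h3 : (κ0 + 27 / 2 * γ) * t1bc K0 ≤ 1 / 2 := by
    have h4 : 0 ≤ (κ0 + 27 / 2 * γ) * t1bc K0 := by positivity
    nlinarith
  have h5 : 2 * (κ0 + 27 / 2 * γ) * (1 + 27 / 2 * (K0 : ℝ) ^ 2) ^ 2 ≤ t1bc K0 := by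
    have : (1 + 27 / 2 * (K0 : ℝ) ^ 2) = t1bc K0 := rfl
    rw [this]
    nlinarith
  calc ‖rgG H z a b‖ = ‖rgPB d (rgRes H B) z a b + (rsG (rgA H) z a b - rgPB d (rgRes H B) z a b)‖ := by
        congr 1; unfold rgG; ring
    _ ≤ 27 / 2 + t1bc K0 := (norm_add_le _ _).trans (add_le_add (tgr_PB_le hΓ' hd hz a b) (hmain.trans h5))

/-- the resolvent identity between `H~` and `H` -/
theorem t1b_res_id (H Ht : Gr n) (hz : 0 < z.im) : rgG H z = rgG Ht z - rgG Ht z * fs7D Ht H * rgG H z :=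
  t1b_res (fs7_full Ht H z) (rs_G_mul (rg_A_herm Ht) hz.ne') (rs_mul_G (rg_A_herm H) hz.ne')

/-- all entries of `G` -/
theorem t1b_all (hd : 3 ≤ d) (hR : 1 ≤ R) (hH : H ∈ regularGraphs n d) (h : T1Val l R o x H v w) (hstr : RgStr d R (t1Sw H v w))
    {K0 : ℕ} (hK1 : 1 ≤ K0) (hK0 : 4 * D ≤ K0) (hN : K0 * (d + 1) ^ R ≤ (d + 1) ^ (4 * R)) (hz : 0 < z.im) {κ0 : ℝ} (hκ0 : 0 ≤ κ0)
    (hκ1 : κ0 ≤ 1) (hdev : RgDev d R (t1Sw H v w) z κ0) (hsmall : (κ0 + 27 / 2 * ‖rgg d z‖ ^ R) * t1bc K0 * (K0 : ℝ) ^ 2 ≤ 1 / 2)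
    (s t : Fin n) : ‖rgG H z s t‖ ≤ t1bg3 K0 := by
  have hSS := t1b_SS hd hR hH h hstr hK1 hK0 hN hz hκ0 hdev hsmall
  have hGt := t1b_Gt_le hd hR hstr hz hκ1 hdev
  have hS : ∀ p q, (p ∉ t1bS v w ∨ q ∉ t1bS v w) → ((t1Sw H v w).Adj p q ↔ H.Adj p q) := fun p q hpq => t1b_agree h hpq
  have hcard : (t1bS v w).card ≤ K0 := (t1b_S_card v w).trans hK0
  have hid := t1b_res_id H (t1Sw H v w) hz
  have step : ∀ (t : Fin n) (b : ℝ), 0 ≤ b → (∀ u ∈ t1bS v w, ‖rgG H z u t‖ ≤ b) → ∀ s, ‖rgG H z s t‖ ≤ 29 / 2 + 29 / 2 * b * (K0 : ℝ) ^ 2 := by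
    intro t b hb0 hb s
    have h1 := t1b_tri (A := rgG (t1Sw H v w) z) (B := rgG H z) (fs7_D_zero hS) (fs7_D_le _ H) hcard (s := s) (t := t)
      (a := 29 / 2) (b := b) (by norm_num) hb0 (fun u _ => hGt s u) hb
    have h2 : rgG H z s t = rgG (t1Sw H v w) z s t - (rgG (t1Sw H v w) z * fs7D (t1Sw H v w) H * rgG H z) s t := by
      conv_lhs => rw [hid]
      rw [Matrix.sub_apply]
    rw [h2]
    exact (norm_sub_le _ _).trans (add_le_add (hGt s t) h1)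
  have h2 : ∀ s, ∀ b ∈ t1bS v w, ‖rgG H z s b‖ ≤ t1bg2 K0 := fun s b hb =>
    step b (t1bg1 K0) (t1b_g1_pos K0).le (fun u hu => hSS u hu b hb) s
  exact step t (t1bg2 K0) (t1b_g2_pos K0).le (fun u hu => by
    have : rgG H z u t = rgG H z t u := rs_G_symm (rg_A_herm H) hz.ne' u t
    rw [this]
    exact h2 t u hu) s

end entries

/-! ## 4. the bad fraction -/

section bad
variable {n d D l R : ℕ} {o x : Fin n} {H : Gr n} {v w : T1I D → Fin n} {z : ℂ}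

theorem t1b_ball_graph_mono {K H : Gr n} (hle : K ≤ H) (r : ℕ) (X : Finset (Fin n)) : rgBall K r X ⊆ rgBall H r X := by
  intro a ha
  rw [tgr_mem_ball] at ha ⊢
  obtain ⟨c, hc, hca⟩ := ha
  exact ⟨c, hc, (SimpleGraph.edist_anti hle).trans hca⟩

/-- far from the marks the balls of `H` sit in the balls of `H~`, as graphs -/
theorem t1b_BG_le (h : T1Val l R o x H v w) {p q : Fin n} (hp : p ∉ rgBall H (2 * R) (t1bS v w))
    (hq : q ∉ rgBall H (2 * R) (t1bS v w)) : rgBG H R {p, q} ≤ rgBG (t1Sw H v w) R {p, q} := by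
  have key1 : ∀ a ∈ rgBall H R {p, q}, a ∉ rgBall H R (t1bS v w) := by
    intro a ha ha'
    rw [tgr_mem_ball] at ha ha'
    obtain ⟨c, hc, hca⟩ := ha
    obtain ⟨s, hs, hsa⟩ := ha'
    have h1 : c ∈ rgBall H (2 * R) (t1bS v w) := by
      rw [tgr_mem_ball]
      refine ⟨s, hs, ?_⟩
      calc H.edist s c ≤ H.edist s a + H.edist a c := SimpleGraph.edist_triangle
        _ ≤ (R : ℕ) + (R : ℕ) := add_le_add hsa (by rw [SimpleGraph.edist_comm]; exact hca)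
        _ = (2 * R : ℕ) := by push_cast; ring
    rcases mem_insert.1 hc with rfl | hc
    · exact hp h1
    · rw [mem_singleton.1 hc] at h1; exact hq h1
  have key2 : ∀ a ∈ rgBall H R {p, q}, a ∉ t1bS v w := fun a ha hS => key1 a ha (rg_self_mem_ball H R hS)
  have key3 : ∀ a ∈ rgBall H R {p, q}, a ∈ rgBall (t1Sw H v w) R {p, q} := by
    intro a ha
    have h1 := fs7_ball_sub (H := t1Sw H v w) (H' := H) (S := t1bS v w) (fun a b hab => t1b_agree h hab) R {p, q} ha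
    rw [tgr_mem_ball] at h1
    obtain ⟨c, hc, hca⟩ := h1
    rcases mem_union.1 hc with hc | hc
    · rw [tgr_mem_ball]; exact ⟨c, hc, hca⟩
    · have h2 : a ∈ rgBall (t1Sw H v w) R (t1bS v w) := by rw [tgr_mem_ball]; exact ⟨c, hc, hca⟩
      exact (key1 a ha (t1b_ball_graph_mono t1b_K_le R _ (t1b_ball_sub h R h2))).elim
  intro a b hab
  exact ⟨(t1b_agree h (Or.inl (key2 a hab.2.1))).2 hab.1, key3 a hab.2.1, key3 b hab.2.2⟩

/-- the difference of the two Green functions at a site with small entries towards the marks -/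
theorem t1b_diff (h : T1Val l R o x H v w) {K0 : ℕ} (hK0 : 4 * D ≤ K0) (hz : 0 < z.im) {θ Kl : ℝ} (hθ : 0 ≤ θ) (hKl : 0 ≤ Kl)
    (hG : ∀ s t, ‖rgG H z s t‖ ≤ Kl) {s : Fin n} (hs : ∀ u ∈ t1bS v w, ‖rgG (t1Sw H v w) z s u‖ ≤ θ) (t : Fin n) :
    ‖rgG H z s t - rgG (t1Sw H v w) z s t‖ ≤ θ * Kl * (K0 : ℝ) ^ 2 := by
  have hS : ∀ p q, (p ∉ t1bS v w ∨ q ∉ t1bS v w) → ((t1Sw H v w).Adj p q ↔ H.Adj p q) := fun p q hpq => t1b_agree h hpq
  have hcard : (t1bS v w).card ≤ K0 := (t1b_S_card v w).trans hK0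
  have hid := t1b_res_id H (t1Sw H v w) hz
  have h1 := t1b_tri (A := rgG (t1Sw H v w) z) (B := rgG H z) (fs7_D_zero hS) (fs7_D_le _ H) hcard (s := s) (t := t)
    (a := θ) (b := Kl) hθ hKl hs (fun u _ => hG u t)
  have h2 : rgG H z s t - rgG (t1Sw H v w) z s t = - (rgG (t1Sw H v w) z * fs7D (t1Sw H v w) H * rgG H z) s t := by
    conv_lhs => rw [hid]
    rw [Matrix.sub_apply]
    ring
  rw [h2, norm_neg]
  exact h1

/-- the blocks -/
theorem t1b_blk {Ht : Gr n} {p q : Fin n} {ε : ℝ} (h : ∀ s ∈ ({p, q} : Finset (Fin n)), ∀ t, ‖rgG H z s t - rgG Ht z s t‖ ≤ ε) :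
    rgBlk d H z p q ≤ rgBlk d Ht z p q + ε := by
  have key : ∀ (s t : Fin n) (c : ℂ), s ∈ ({p, q} : Finset (Fin n)) → ‖rgG H z s t - c‖ ≤ ‖rgG Ht z s t - c‖ + ε := by
    intro s t c hs
    calc ‖rgG H z s t - c‖ = ‖(rgG Ht z s t - c) + (rgG H z s t - rgG Ht z s t)‖ := by congr 1; ring
      _ ≤ ‖rgG Ht z s t - c‖ + ε := (norm_add_le _ _).trans (add_le_add le_rfl (h s hs t))
  unfold rgBlk
  refine max_le ?_ (max_le ?_ ?_)
  · exact (key p p _ (by simp)).trans (add_le_add (le_max_left _ _) le_rfl)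
  · exact (key q q _ (by simp)).trans (add_le_add ((le_max_left _ _).trans (le_max_right _ _)) le_rfl)
  · exact (key p q _ (by simp)).trans (add_le_add ((le_max_right _ _).trans (le_max_right _ _)) le_rfl)

open Classical in
/-- oriented edges which touch a set -/
theorem t1b_touch (hH : H ∈ regularGraphs n d) (Z : Finset (Fin n)) :
    (univ.filter fun e : Fin n × Fin n => H.Adj e.1 e.2 ∧ (e.1 ∈ Z ∨ e.2 ∈ Z)).card ≤ 2 * d * Z.card := by
  have hsub : (univ.filter fun e : Fin n × Fin n => H.Adj e.1 e.2 ∧ (e.1 ∈ Z ∨ e.2 ∈ Z))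
      ⊆ (univ.filter fun e : Fin n × Fin n => H.Adj e.1 e.2 ∧ e.1 ∈ Z) ∪ (univ.filter fun e : Fin n × Fin n => H.Adj e.1 e.2 ∧ e.2 ∈ Z) := by
    intro e he
    rw [mem_filter] at he
    rw [mem_union, mem_filter, mem_filter]
    rcases he.2.2 with h | h
    · exact Or.inl ⟨mem_univ _, he.2.1, h⟩
    · exact Or.inr ⟨mem_univ _, he.2.1, h⟩
  have := (card_le_card hsub).trans (card_union_le _ _)
  rw [lc7_card_fst hH, lc7_card_snd hH] at this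
  nlinarith

open Classical in
/-- the sites with a large entry of `G~` towards a mark -/
noncomputable def t1bQ {n D : ℕ} (Ht : Gr n) (z : ℂ) (θ : ℝ) (v w : T1I D → Fin n) : Finset (Fin n) :=
  (t1bS v w).biUnion fun u => univ.filter fun s => θ < ‖rgG Ht z s u‖

theorem t1b_eqns_cite3 : True := by
  have := @t1bQ.eq_1
  trivial

theorem t1b_Q_card {Ht : Gr n} {K0 : ℕ} (hK0 : 4 * D ≤ K0) (hz : 0 < z.im) {θ : ℝ} (hθ : 0 < θ) (hG : ∀ s t, ‖rgG Ht z s t‖ ≤ 29 / 2) :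
    ((t1bQ Ht z θ v w).card : ℝ) ≤ K0 * (29 / 2 / (θ ^ 2 * z.im)) := by
  classical
  unfold t1bQ
  have h1 : (((t1bS v w).biUnion fun u => univ.filter fun s => θ < ‖rgG Ht z s u‖).card : ℝ)
      ≤ ∑ u ∈ t1bS v w, ((univ.filter fun s => θ < ‖rgG Ht z s u‖).card : ℝ) := by exact_mod_cast card_biUnion_le
  refine h1.trans ?_
  have h2 : ∀ u ∈ t1bS v w, ((univ.filter fun s => θ < ‖rgG Ht z s u‖).card : ℝ) ≤ 29 / 2 / (θ ^ 2 * z.im) := fun u _ =>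
    t1c_ward_count Ht z hz hθ u ((Complex.abs_im_le_norm _).trans (hG u u) |> le_trans (le_abs_self _))
  refine (sum_le_sum h2).trans ?_
  rw [sum_const, nsmul_eq_mul]
  have h3 : ((t1bS v w).card : ℝ) ≤ K0 := by exact_mod_cast (t1b_S_card v w).trans hK0
  exact mul_le_mul_of_nonneg_right h3 (by positivity)

open Classical in
/-- **the bad oriented edges of `H`** -/
theorem t1b_bad_sub (h : T1Val l R o x H v w) {K0 : ℕ} (hK0 : 4 * D ≤ K0) (hz : 0 < z.im) {θ Kl κ1 : ℝ} (hθ : 0 ≤ θ) (hKl : 0 ≤ Kl)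
    (hG : ∀ s t, ‖rgG H z s t‖ ≤ Kl) (hθκ : θ * Kl * (K0 : ℝ) ^ 2 ≤ κ1) :
    (univ.filter fun e : Fin n × Fin n => H.Adj e.1 e.2 ∧ ¬ RgGoodE d R H z (2 * κ1) e.1 e.2)
      ⊆ (univ.filter fun e : Fin n × Fin n => (t1Sw H v w).Adj e.1 e.2 ∧ ¬ RgGoodE d R (t1Sw H v w) z κ1 e.1 e.2)
        ∪ (univ.filter fun e : Fin n × Fin n => H.Adj e.1 e.2 ∧
            (e.1 ∈ rgBall H (2 * R) (t1bS v w) ∪ t1bQ (t1Sw H v w) z θ v w ∨ e.2 ∈ rgBall H (2 * R) (t1bS v w) ∪ t1bQ (t1Sw H v w) z θ v w)) := by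
  rintro ⟨p, q⟩ he
  rw [mem_filter] at he
  obtain ⟨-, hadj, hbad⟩ := he
  simp only at hadj hbad
  rw [mem_union, mem_filter, mem_filter]
  by_cases hZ : p ∈ rgBall H (2 * R) (t1bS v w) ∪ t1bQ (t1Sw H v w) z θ v w ∨ q ∈ rgBall H (2 * R) (t1bS v w) ∪ t1bQ (t1Sw H v w) z θ v w
  · exact Or.inr ⟨mem_univ _, hadj, hZ⟩
  · left
    rw [not_or, mem_union, mem_union, not_or, not_or] at hZ
    obtain ⟨⟨hp1, hp2⟩, hq1, hq2⟩ := hZ
    have hpS : p ∉ t1bS v w := fun hS => hp1 (rg_self_mem_ball H _ hS)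
    refine ⟨mem_univ _, (t1b_agree h (Or.inl hpS)).2 hadj, fun hgood => hbad ⟨?_, ?_⟩⟩
    · exact SimpleGraph.IsAcyclic.anti (t1b_BG_le h hp1 hq1) hgood.1
    · have hsm : ∀ s ∈ ({p, q} : Finset (Fin n)), ∀ u ∈ t1bS v w, ‖rgG (t1Sw H v w) z s u‖ ≤ θ := by
        intro s hs u hu
        by_contra hc
        have hsQ : s ∈ t1bQ (t1Sw H v w) z θ v w := by
          unfold t1bQ
          exact mem_biUnion.2 ⟨u, hu, mem_filter.2 ⟨mem_univ _, not_le.1 hc⟩⟩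
        rcases mem_insert.1 hs with rfl | hs
        · exact hp2 hsQ
        · rw [mem_singleton.1 hs] at hsQ; exact hq2 hsQ
      have := t1b_blk (d := d) (H := H) (Ht := t1Sw H v w) (z := z) (p := p) (q := q) (ε := κ1) fun s hs t =>
        (t1b_diff h hK0 hz hθ hKl hG (hsm s hs) t).trans hθκ
      have h2 := hgood.2
      simp only at h2
      linarith

end bad

/-! ## 5. the statement -/

/-- **BACK** -/
theorem t1_back_pf (d : ℕ) (hd : 3 ≤ d) (κb : ℝ) (_hκ : 0 < κb) (l : ℕ) :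
    ∃ (Kl : ℝ) (Rb : ℕ), 0 < Kl ∧ ∀ κ1 : ℝ, 0 < κ1 → ∀ R : ℕ, 3 * l + 10 ≤ R → Rb ≤ R → ∃ Cb : ℝ, 0 ≤ Cb ∧
      ∀ (n D : ℕ) (H : Gr n) (v w : T1I D → Fin n) (o x : Fin n) (e η κ0 : ℝ),
      D ≤ 2 * d ^ (l + 1) → H ∈ regularGraphs n d → RgBulk d κb e → 0 < η → η ≤ b1h κb → 0 < κ0 → Kl * κ0 ≤ 1 →
      T1Val l R o x H v w → RgStr d R (t1Sw H v w) → RgDev d R (t1Sw H v w) (rgz e η) κ0 →
      (∀ s t, ‖rgG H (rgz e η) s t‖ ≤ Kl) ∧
        rgBad d R H (rgz e η) (2 * κ1) ≤ rgBad d R (t1Sw H v w) (rgz e η) κ1 + Cb / (n * η) := by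
  classical
  obtain ⟨K0, hK0d⟩ : ∃ K0 : ℕ, K0 = 8 * d ^ (l + 1) + 1 := ⟨_, rfl⟩
  have hK1 : 1 ≤ K0 := by omega
  have hK1' : (1 : ℝ) ≤ K0 := by exact_mod_cast hK1
  have hKsq : (1 : ℝ) ≤ (K0 : ℝ) ^ 2 := by nlinarith
  have hc := t1b_c_ge K0
  have hg3 := t1b_g3_pos K0
  obtain ⟨Kl, hKl⟩ : ∃ Kl : ℝ, Kl = t1bg3 K0 + 4 * t1bc K0 * (K0 : ℝ) ^ 2 + 1 := ⟨_, rfl⟩
  have hcK : 0 < t1bc K0 * (K0 : ℝ) ^ 2 := by positivity
  have hKl0 : 0 < Kl := by rw [hKl]; positivity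
  obtain ⟨N, hN⟩ := exists_pow_lt_of_lt_one (show 0 < 1 / (54 * (t1bc K0 * (K0 : ℝ) ^ 2)) by positivity) (show (3 / 4 : ℝ) < 1 by norm_num)
  refine ⟨Kl, max (max 1 K0) N, hKl0, fun κ1 hκ1 R _ hRb => ?_⟩
  have hR1 : 1 ≤ R := le_trans ((le_max_left _ _).trans (le_max_left _ _)) hRb
  have hRK : K0 ≤ R := le_trans ((le_max_right _ _).trans (le_max_left _ _)) hRb
  have hRN : N ≤ R := le_trans (le_max_right _ _) hRb
  obtain ⟨θ, hθd⟩ : ∃ θ : ℝ, θ = κ1 / (Kl * (K0 : ℝ) ^ 2) := ⟨_, rfl⟩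
  have hθ : 0 < θ := by rw [hθd]; positivity
  have hθκ : θ * Kl * (K0 : ℝ) ^ 2 ≤ κ1 := by
    rw [hθd]
    exact le_of_eq (by field_simp)
  have hNN : K0 * (d + 1) ^ R ≤ (d + 1) ^ (4 * R) := by
    have h1 : K0 ≤ (d + 1) ^ (3 * R) := by
      calc K0 ≤ 3 * R := by omega
        _ ≤ 2 ^ (3 * R) := Nat.lt_two_pow_self.le
        _ ≤ (d + 1) ^ (3 * R) := Nat.pow_le_pow_left (by omega) _
    calc K0 * (d + 1) ^ R ≤ (d + 1) ^ (3 * R) * (d + 1) ^ R := Nat.mul_le_mul_right _ h1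
      _ = (d + 1) ^ (4 * R) := by rw [← pow_add]; congr 1; omega
  refine ⟨2 * (K0 * ((d : ℝ) + 1) ^ (2 * R) + K0 * (29 / 2 / θ ^ 2)), by positivity, ?_⟩
  intro n D H v w o x e η κ0 hD hH _ hη hη1 hκ0 hKκ hval hstr hdev
  have hz : 0 < (rgz e η).im := hη
  have hη1' : η ≤ 1 := hη1.trans (min_le_left _ _)
  have hD4 : 4 * D ≤ K0 := by omega
  have hκ01 : κ0 ≤ 1 := by
    have : 1 * κ0 ≤ Kl * κ0 := mul_le_mul_of_nonneg_right (by rw [hKl]; nlinarith) hκ0.le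
    linarith
  have hsmall : (κ0 + 27 / 2 * ‖rgg d (rgz e η)‖ ^ R) * t1bc K0 * (K0 : ℝ) ^ 2 ≤ 1 / 2 := by
    have h1 : ‖rgg d (rgz e η)‖ ^ R ≤ 1 / (54 * (t1bc K0 * (K0 : ℝ) ^ 2)) := by
      calc ‖rgg d (rgz e η)‖ ^ R ≤ (3 / 4 : ℝ) ^ R := pow_le_pow_left₀ (norm_nonneg _) (tgr_bounds hd hz).1 R
        _ ≤ (3 / 4 : ℝ) ^ N := pow_le_pow_of_le_one (by norm_num) (by norm_num) hRN
        _ ≤ _ := hN.le
    have h2 : 27 / 2 * ‖rgg d (rgz e η)‖ ^ R * (t1bc K0 * (K0 : ℝ) ^ 2) ≤ 1 / 4 := by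
      calc 27 / 2 * ‖rgg d (rgz e η)‖ ^ R * (t1bc K0 * (K0 : ℝ) ^ 2)
          ≤ 27 / 2 * (1 / (54 * (t1bc K0 * (K0 : ℝ) ^ 2))) * (t1bc K0 * (K0 : ℝ) ^ 2) := by gcongr
        _ = 1 / 4 := by field_simp; norm_num
    have h3 : κ0 * (t1bc K0 * (K0 : ℝ) ^ 2) ≤ 1 / 4 := by
      have : (4 * t1bc K0 * (K0 : ℝ) ^ 2) * κ0 ≤ Kl * κ0 := mul_le_mul_of_nonneg_right (by rw [hKl]; linarith) hκ0.le
      linarith
    calc (κ0 + 27 / 2 * ‖rgg d (rgz e η)‖ ^ R) * t1bc K0 * (K0 : ℝ) ^ 2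
        = κ0 * (t1bc K0 * (K0 : ℝ) ^ 2) + 27 / 2 * ‖rgg d (rgz e η)‖ ^ R * (t1bc K0 * (K0 : ℝ) ^ 2) := by ring
      _ ≤ 1 / 2 := by linarith
  have hall : ∀ s t, ‖rgG H (rgz e η) s t‖ ≤ Kl := fun s t =>
    (t1b_all hd hR1 hH hval hstr hK1 hD4 hNN hz hκ0.le hκ01 hdev hsmall s t).trans (by rw [hKl]; linarith)
  refine ⟨hall, ?_⟩
  have hGt := t1b_Gt_le hd hR1 hstr hz hκ01 hdev
  have hsub := t1b_bad_sub (d := d) hval hD4 hz hθ.le hKl0.le hall hθκ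
  have hcard := (card_le_card hsub).trans (card_union_le _ _)
  have htouch := t1b_touch hH (rgBall H (2 * R) (t1bS v w) ∪ t1bQ (t1Sw H v w) (rgz e η) θ v w)
  have hn : 0 < n := Fin.pos o
  have hn' : (0 : ℝ) < n := by exact_mod_cast hn
  have hd' : (0 : ℝ) < d := by exact_mod_cast (by omega : 0 < d)
  have hZ : ((rgBall H (2 * R) (t1bS v w) ∪ t1bQ (t1Sw H v w) (rgz e η) θ v w).card : ℝ)
      ≤ K0 * ((d : ℝ) + 1) ^ (2 * R) + K0 * (29 / 2 / (θ ^ 2 * η)) := by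
    have h1 : ((rgBall H (2 * R) (t1bS v w) ∪ t1bQ (t1Sw H v w) (rgz e η) θ v w).card : ℝ)
        ≤ ((rgBall H (2 * R) (t1bS v w)).card : ℝ) + ((t1bQ (t1Sw H v w) (rgz e η) θ v w).card : ℝ) := by
      exact_mod_cast card_union_le _ _
    have h2 : ((rgBall H (2 * R) (t1bS v w)).card : ℝ) ≤ K0 * ((d : ℝ) + 1) ^ (2 * R) := by
      have := (fs7_ball_card hH (2 * R) (t1bS v w)).trans (Nat.mul_le_mul_right _ ((t1b_S_card v w).trans hD4))
      exact_mod_cast this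
    have h3 := t1b_Q_card (v := v) (w := w) hD4 hz hθ hGt
    rw [rg_z_im] at h3
    linarith
  have hZ' : K0 * ((d : ℝ) + 1) ^ (2 * R) + K0 * (29 / 2 / (θ ^ 2 * η)) ≤ (K0 * ((d : ℝ) + 1) ^ (2 * R) + K0 * (29 / 2 / θ ^ 2)) / η := by
    rw [add_div]
    refine add_le_add ?_ (le_of_eq (by field_simp))
    rw [le_div_iff₀ hη]
    have : 0 ≤ K0 * ((d : ℝ) + 1) ^ (2 * R) := by positivity
    nlinarith
  unfold rgBad
  rw [div_add' _ _ _ (by positivity : (n : ℝ) * d ≠ 0), div_le_div_iff_of_pos_right (by positivity)]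
  have hcard' : ((univ.filter fun e' : Fin n × Fin n => H.Adj e'.1 e'.2 ∧ ¬ RgGoodE d R H (rgz e η) (2 * κ1) e'.1 e'.2).card : ℝ)
      ≤ ((univ.filter fun e' : Fin n × Fin n => (t1Sw H v w).Adj e'.1 e'.2 ∧ ¬ RgGoodE d R (t1Sw H v w) (rgz e η) κ1 e'.1 e'.2).card : ℝ)
        + 2 * d * ((rgBall H (2 * R) (t1bS v w) ∪ t1bQ (t1Sw H v w) (rgz e η) θ v w).card : ℝ) := by
    exact_mod_cast hcard.trans (add_le_add le_rfl htouch)
  refine hcard'.trans (add_le_add le_rfl ?_)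
  have h5 : 2 * (K0 * ((d : ℝ) + 1) ^ (2 * R) + K0 * (29 / 2 / θ ^ 2)) / (n * η) * (n * d)
      = 2 * d * ((K0 * ((d : ℝ) + 1) ^ (2 * R) + K0 * (29 / 2 / θ ^ 2)) / η) := by
    field_simp
  rw [h5]
  exact mul_le_mul_of_nonneg_left (hZ.trans hZ') (by positivity)

end Claimed.Agent.R287
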