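-- KEEP
import Claimed.Agent.R287.T1
import Claimed.Agent.R287.TreeRg270
import Claimed.Agent.R287.ResB
import Claimed.Agent.R287.Loc222

/-!
# Row 287 (S0534), unit B1, sub-unit T1, node DET = `t1_det` (deterministic heart)      owner helper240 (leaves marked (174): helper174)

`H~ = t1Sw H v w`, `K = t1K H v w`, `T = rgBall K l {o,x}`, `g = rgg d z`, `G = rgG H z`, `G~ = rgG H~ z`, `P~ = rgPB d (rgBG H~ R {o,x}) z` (the model of `rgPm` at `(o,x)`), `Q = rgPB d (rgRes H~ T) z`.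
1. `td_outer`: `f := G~_(.x) - P~_(.x)` solves the homogeneous equation on the rows `t ∈ T`, hence `f_o = - ∑_(t ∈ T, s ∉ T, t ~ s) Q_ot (f_s + g f_t)`.
2. `|Q_ot| ≤ 27/2 |g|^l` (`td_decay`);  a boundary edge is one of the `≤ 4` unswitched edges of `K` or a switched slot `(l_a, c_a)` (`td_bdry`).
3. any slot: `|f_s + g f_t| ≤ 2 (κ0 + 27 |g|^(R-l-1))` (`RgDev`, `td_cons`).
4. switched slot: `P~_(c x) + g P~_(l x) = 0` EXACTLY (`td_prune`, `td_branch`, `td_slot_model`): the branch of `c_a` is a tree hanging by one edge (`td_walk`, `td_depth`).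
5. good slot: `G~ = G - G Δ G~` (`td_switch_res`), rows `c_a`, `b_a`: `G~_(c x) + g G~_(l x) = e_c + g e_b` EXACTLY (`td_leaf`), `|e| ≤ θ + 8 D K~ (κ1 + θ)` (`td_good`).
No removal of `T`, no Neumann series, no model of `H`, no `κ0²`.
-/

set_option autoImplicit false

namespace Claimed.Agent.R287

open Claims.C0462 Finset

/-! ### 1. abstract lemmas: pruning, outer identity, good leaf -/

section abs
variable {V : Type*} [Fintype V] [DecidableEq V]

open Classical in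
/-- **pruning**: a forest `Φ` hanging at `c` by the single edge `c l` -/
theorem td_prune_row {Γ Φ : SimpleGraph V} {d : ℕ} {z g : ℂ} (h : TgCav d z g) (hne : g ^ 2 ≠ 1)
    (hΦ : Φ.IsAcyclic) (hle : Φ ≤ Γ) {c l : V} (hcl : Γ.Adj c l) (hncl : ¬ Φ.Adj c l)
    (hclos : ∀ s y, Φ.Reachable c s → Γ.Adj s y → Φ.Adj s y ∨ (s = c ∧ y = l)) (y : V) :
    (tgM Γ d z g * tgQ Φ g) y c = (if y = c then 1 + g * tgm g else 0) + (if y = l then tgm g else 0) := by
  have hF := congrFun (congrFun (tg_forest hΦ h hne) y) c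
  rw [tg_mul_apply] at hF
  rw [tg_mul_apply]
  have hlr : ¬ Φ.Reachable c l := by
    intro hr
    rcases hclos l c hr hcl.symm with h1 | ⟨h1, _⟩
    · exact hncl h1.symm
    · exact hcl.ne h1.symm
  have hlc : l ≠ c := hcl.ne'
  by_cases hr : Φ.Reachable c y
  · have hyl : y ≠ l := fun e => hlr (e ▸ hr)
    by_cases hyc : y = c
    · subst hyc
      have e1 : univ.filter (fun w => Γ.Adj y w) = insert l (univ.filter fun w => Φ.Adj y w) := by
        ext w
        simp only [mem_filter, mem_univ, true_and, mem_insert]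
        constructor
        · intro hw
          rcases hclos y w hr hw with h1 | ⟨_, h1⟩
          · exact Or.inr h1
          · exact Or.inl h1
        · rintro (rfl | hw)
          · exact hcl
          · exact hle hw
      have hnm : l ∉ univ.filter fun w => Φ.Adj y w := by simp [hncl]
      have e2 : tgDeg Γ y = tgDeg Φ y + 1 := by
        unfold tgDeg
        rw [e1, card_insert_of_notMem hnm]
      have e3 : tgQ Φ g l y = 0 := by
        rw [tgQ, if_neg (fun hh => hlr hh.symm)]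
      have e4 : tgQ Φ g y y = tgm g := tg_Q_self g y
      rw [e1, sum_insert hnm, e2, e3, if_pos rfl, if_neg hyl]
      rw [Matrix.one_apply_eq] at hF
      rw [e4] at hF ⊢
      push_cast
      linear_combination hF
    · have e1 : univ.filter (fun w => Γ.Adj y w) = univ.filter fun w => Φ.Adj y w := by
        ext w
        simp only [mem_filter, mem_univ, true_and]
        constructor
        · intro hw
          rcases hclos y w hr hw with h1 | ⟨h1, _⟩
          · exact h1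
          · exact absurd h1 hyc
        · exact fun hw => hle hw
      have e2 : tgDeg Γ y = tgDeg Φ y := by
        unfold tgDeg
        rw [e1]
      rw [e1, e2, hF, Matrix.one_apply_ne hyc, if_neg hyc, if_neg hyl, add_zero]
  · have hyc : y ≠ c := by
      rintro rfl
      exact hr (SimpleGraph.Reachable.refl y)
    have e3 : tgQ Φ g y c = 0 := by
      rw [tgQ, if_neg (fun hh => hr hh.symm)]
    rw [e3, mul_zero, sub_zero, if_neg hyc, zero_add]
    by_cases hyl : y = l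
    · subst hyl
      rw [if_pos rfl, sum_eq_single c]
      · exact tg_Q_self g c
      · intro w hw hwc
        rw [tgQ, if_neg]
        intro hh
        rcases hclos w y hh.symm (mem_filter.mp hw).2.symm with h1 | ⟨h1, _⟩
        · exact hr (hh.symm.trans h1.reachable)
        · exact hwc h1
      · intro hh
        exact absurd (mem_filter.mpr ⟨mem_univ _, hcl.symm⟩) hh
    · rw [if_neg hyl]
      refine sum_eq_zero fun w hw => ?_
      rw [tgQ, if_neg]
      intro hh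
      rcases hclos w y hh.symm (mem_filter.mp hw).2.symm with h1 | ⟨_, h1⟩
      · exact hr (hh.symm.trans h1.reachable)
      · exact hyl h1

/-- **pruning**, the entries of the inverse -/
theorem td_prune {Γ Φ : SimpleGraph V} {d : ℕ} {z g : ℂ} (h : TgCav d z g) (hne : g ^ 2 ≠ 1)
    (hΦ : Φ.IsAcyclic) (hle : Φ ≤ Γ) {c l : V} (hcl : Γ.Adj c l) (hncl : ¬ Φ.Adj c l)
    (hclos : ∀ s y, Φ.Reachable c s → Γ.Adj s y → Φ.Adj s y ∨ (s = c ∧ y = l))
    {P : Matrix V V ℂ} (hP : P * tgM Γ d z g = 1) (x : V) :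
    P x c + g * P x l = (1 - g ^ 2) * tgQ Φ g x c := by
  have e : (P * (tgM Γ d z g * tgQ Φ g)) x c = tgQ Φ g x c := by
    rw [← Matrix.mul_assoc, hP, Matrix.one_mul]
  rw [Matrix.mul_apply] at e
  simp only [td_prune_row h hne hΦ hle hcl hncl hclos, mul_add, mul_ite, mul_zero, sum_add_distrib,
    sum_ite_eq', mem_univ, if_true] at e
  have hg : (1 - g ^ 2) ≠ 0 := sub_ne_zero.mpr (Ne.symm hne)
  have hm : tgm g * (1 - g ^ 2) = g := by
    unfold tgm
    field_simp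
  rw [← e]
  linear_combination (-(P x c) * g - P x l) * hm

open Classical in
/-- **outer identity**: `T` with the simple tree extension -/
theorem td_outer {Hh : SimpleGraph V} (T : Finset V) {d : ℕ} {z g : ℂ} (hreg : ∀ t ∈ T, tgDeg Hh t = d)
    {Q : Matrix V V ℂ} (hQ : Q * tgM (tgIn Hh T) d z g = 1) {o : V} (hQ0 : ∀ t, t ∉ T → Q o t = 0)
    (f : V → ℂ) (hf : ∀ t ∈ T, ∑ s ∈ univ.filter (fun s => Hh.Adj t s), f s - z * f t = 0) :
    f o = - ∑ t ∈ T, Q o t * ∑ s ∈ univ.filter (fun s => Hh.Adj t s ∧ s ∉ T), (f s + g * f t) := by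
  have e0 : f o = ∑ t, Q o t * ∑ s, tgM (tgIn Hh T) d z g t s * f s := by
    have := congrFun (congrArg (fun M : Matrix V V ℂ => M.mulVec f) hQ) o
    simp only [Matrix.one_mulVec] at this
    rw [← this, ← Matrix.mulVec_mulVec]
    rfl
  rw [e0, ← sum_subset (subset_univ T) (fun t _ ht => by rw [hQ0 t ht, zero_mul]), ← sum_neg_distrib]
  refine sum_congr rfl fun t ht => ?_
  rw [← mul_neg]
  congr 1
  have e1 : ∑ s, tgM (tgIn Hh T) d z g t s * f s
      = ∑ s ∈ univ.filter (fun s => (tgIn Hh T).Adj t s), f s - (z + g * ((d : ℂ) - tgDeg (tgIn Hh T) t)) * f t := by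
    simp only [tgM, sub_mul, sum_sub_distrib, ite_mul, one_mul, zero_mul, sum_ite_eq, mem_univ,
      if_true, sum_filter]
  have e2 : univ.filter (fun s => Hh.Adj t s) = univ.filter (fun s => (tgIn Hh T).Adj t s) ∪ univ.filter (fun s => Hh.Adj t s ∧ s ∉ T) := by
    ext s
    simp only [mem_filter, mem_univ, true_and, mem_union]
    constructor
    · intro hs
      by_cases hsT : s ∈ T
      · exact Or.inl ⟨hs, ht, hsT⟩
      · exact Or.inr ⟨hs, hsT⟩
    · rintro (hs | hs)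
      · exact hs.1
      · exact hs.1
  have hdis : Disjoint (univ.filter (fun s => (tgIn Hh T).Adj t s)) (univ.filter (fun s => Hh.Adj t s ∧ s ∉ T)) := by
    rw [disjoint_left]
    intro s h1 h2
    exact (mem_filter.mp h2).2.2 (mem_filter.mp h1).2.2.2
  have e3 : (d : ℂ) - tgDeg (tgIn Hh T) t = ((univ.filter (fun s => Hh.Adj t s ∧ s ∉ T)).card : ℂ) := by
    have := hreg t ht
    unfold tgDeg at this ⊢
    rw [e2, card_union_of_disjoint hdis] at this
    rw [← this]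
    push_cast
    ring
  have e4 := hf t ht
  rw [e2, sum_union hdis] at e4
  rw [e1, e3, sum_add_distrib, sum_const, nsmul_eq_mul]
  linear_combination e4

end abs

/-- **good leaf**: exact algebra -/
theorem td_leaf {g m k u r p q ec eb : ℂ} (hk : k = -g * m) (hm : m = g * (1 - k))
    (hu : u = -m * (p - r) - k * (q - u) + ec) (hr : r = -k * (p - r) - m * (q - u) + eb) :
    u + g * p = ec + g * eb := by
  have h1 : g * (1 - k) - m = 0 := by rw [← hm]; ring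
  have h2 : k + g * m = 0 := by rw [hk]; ring
  linear_combination hu + g * hr + (p - r) * h1 - (q - u) * h2


/-! ### 2. the resolvent identity of the switch -/

theorem td_single_sand {n : ℕ} (X Y : Matrix (Fin n) (Fin n) ℂ) (a b s x : Fin n) :
    (X * rsC (Matrix.single a b 1) * Y) s x = X s a * Y b x := by
  have e : rsC (Matrix.single a b (1 : ℝ)) = Matrix.single a b (1 : ℂ) := by
    ext i j
    rw [rs_C_apply, Matrix.single_apply, Matrix.single_apply]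
    split_ifs <;> simp
  rw [e, Matrix.mul_assoc, Matrix.mul_apply, sum_eq_single a]
  · rw [Matrix.single_mul_apply_same, one_mul]
  · intro i _ hi
    rw [Matrix.single_mul_apply_of_ne _ _ _ _ _ hi, mul_zero]
  · intro hh
    exact absurd (mem_univ _) hh

/-- **resolvent identity of the switch** -/
theorem td_switch_res {n : ℕ} {ι : Type} [Fintype ι] {H : Gr n} {v w : ι → Fin n} {σ : Equiv.Perm ι}
    (h : Sw7Adm H v w σ) {z : ℂ} (hz : z.im ≠ 0) (s x : Fin n) :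
    rgG (sw7G H v w σ) z s x = rgG H z s x
      - ∑ j, (rgG H z s (v j) * (rgG (sw7G H v w σ) z (w (σ j)) x - rgG (sw7G H v w σ) z (w j) x)
          + (rgG H z s (w (σ j)) - rgG H z s (w j)) * rgG (sw7G H v w σ) z (v j) x) := by
  have e := congrFun (congrFun (rs_res_A (rg_A_herm H) (rg_A_herm (sw7G H v w σ)) hz) s) x
  have e2 : rgA (sw7G H v w σ) - rgA H = ∑ i, (Matrix.single (v i) (w (σ i)) 1 + Matrix.single (w (σ i)) (v i) 1)
      - ∑ i, (Matrix.single (v i) (w i) 1 + Matrix.single (w i) (v i) 1) := by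
    unfold rgA
    rw [sw7_adjMatrix h]
    have : ∀ (A S1 S2 : Matrix (Fin n) (Fin n) ℝ), A - S1 + S2 - A = S2 - S1 := by intros; abel
    rw [this]
    congr!
  rw [e2, rs_C_sub, mul_sub, sub_mul, Matrix.sub_apply, Matrix.sub_apply] at e
  have e3 : ∀ w' : ι → Fin n, (rsG (rgA H) z * rsC (∑ i, (Matrix.single (v i) (w' i) (1 : ℝ) + Matrix.single (w' i) (v i) 1)) * rsG (rgA (sw7G H v w σ)) z : Matrix (Fin n) (Fin n) ℂ) s x
      = ∑ i, (rsG (rgA H) z s (v i) * rsG (rgA (sw7G H v w σ)) z (w' i) x + rsG (rgA H) z s (w' i) * rsG (rgA (sw7G H v w σ)) z (v i) x) := by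
    intro w'
    have : rsC (∑ i, (Matrix.single (v i) (w' i) (1 : ℝ) + Matrix.single (w' i) (v i) 1)) = ∑ i, (rsC (Matrix.single (v i) (w' i) 1) + rsC (Matrix.single (w' i) (v i) 1)) := by
      unfold rsC
      rw [map_sum]
      simp only [map_add]
    rw [this, Finset.mul_sum, Finset.sum_mul, Matrix.sum_apply]
    refine sum_congr rfl fun i _ => ?_
    rw [mul_add, add_mul, Matrix.add_apply, td_single_sand, td_single_sand]
  rw [e3 w, e3 fun i => w (σ i)] at e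
  unfold rgG
  rw [← sum_sub_distrib] at e
  have e4 : ∀ a b c : ℂ, a - b = c → b = a - c := fun a b c hh => by rw [← hh]; ring
  rw [e4 _ _ _ e]
  congr 1
  refine sum_congr rfl fun i _ => ?_
  ring


/-! ### 3. the marks: walk lemma, branches -/

/-! ### distances -/

section dist
variable {V : Type*} {K : SimpleGraph V}

theorem td_ed_tri {a b c : V} {j k : ℕ} (h1 : K.edist a b ≤ j) (h2 : K.edist b c ≤ k) : K.edist a c ≤ (j + k : ℕ) := by
  refine (SimpleGraph.edist_triangle (v := b)).trans ?_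
  push_cast
  exact add_le_add h1 h2

theorem td_ed_adj {a b c : V} {k : ℕ} (h1 : K.edist c a ≤ k) (h : K.Adj a b) : K.edist c b ≤ (k + 1 : ℕ) :=
  td_ed_tri h1 (by rw [SimpleGraph.edist_eq_one_iff_adj.mpr h]; norm_num)

theorem td_ed_walk {a b : V} {k : ℕ} (h : K.edist a b ≤ k) : ∃ p : K.Walk a b, p.length ≤ k := by
  have hne : K.edist a b ≠ ⊤ := ne_top_of_le_ne_top (ENat.natCast_ne_top k) h
  obtain ⟨p, hp⟩ := SimpleGraph.exists_walk_of_edist_ne_top hne
  refine ⟨p, ?_⟩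
  rw [← hp] at h
  exact_mod_cast h

theorem td_ed_mono {K' : SimpleGraph V} (hle : K ≤ K') {a b : V} {k : ℕ} (h : K.edist a b ≤ k) : K'.edist a b ≤ k :=
  (SimpleGraph.edist_anti hle).trans h

end dist

/-! ### the marks -/

/-- the partner of an outer marked vertex in the switched graph -/
def t1p {n D : ℕ} (v w : T1I D → Fin n) : T1I D ⊕ Fin D → Fin n :=
  Sum.elim (fun j => v (t1s D j)) fun i => w (Sum.inl i)

theorem td_eqns_cite : True := by
  have := @t1p.eq_1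
  trivial

section marks
variable {n D l R : ℕ} {o x : Fin n} {H : Gr n} {v w : T1I D → Fin n}

theorem td_s_inl (i : Fin D) : t1s D (Sum.inl i) = Sum.inr i := rfl

theorem td_s_inr (i : Fin D) : t1s D (Sum.inr i) = Sum.inl i := rfl

theorem td_s_s (j : T1I D) : t1s D (t1s D j) = j := by
  rcases j with i | i <;> rfl

theorem td_K_le (H : Gr n) (v w : T1I D → Fin n) : t1K H v w ≤ H := by
  unfold t1K
  exact sdiff_le

theorem td_K_le_sw (H : Gr n) (v w : T1I D → Fin n) : t1K H v w ≤ t1Sw H v w := by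
  unfold t1K t1Sw sw7G
  exact le_sup_left

theorem td_sw_adj (hV : T1Val l R o x H v w) (a b : Fin n) :
    (t1Sw H v w).Adj a b ↔ (t1K H v w).Adj a b ∨ ∃ j, s(v j, w (t1s D j)) = s(a, b) := by
  unfold t1Sw t1K sw7G
  rw [SimpleGraph.sup_adj, SimpleGraph.fromEdgeSet_adj, Set.mem_range]
  constructor
  · rintro (h | h)
    · exact Or.inl h
    · exact Or.inr h.1
  · rintro (h | ⟨j, hj⟩)
    · exact Or.inl h
    · refine Or.inr ⟨⟨j, hj⟩, ?_⟩
      rintro rfl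
      rw [Sym2.eq_iff] at hj
      rcases hj with ⟨h1, h2⟩ | ⟨h1, h2⟩
      · exact hV.adm.ne j (h1.trans h2.symm)
      · exact hV.adm.ne j (h1.trans h2.symm)

theorem td_new_adj (hV : T1Val l R o x H v w) (j : T1I D) : (t1Sw H v w).Adj (v j) (w (t1s D j)) :=
  (td_sw_adj hV _ _).2 (Or.inr ⟨j, rfl⟩)

theorem td_new_not_K (hV : T1Val l R o x H v w) (j : T1I D) : ¬ (t1K H v w).Adj (v j) (w (t1s D j)) :=
  fun h => hV.new j (td_K_le H v w h)

theorem td_m_inj (hV : T1Val l R o x H v w) : Function.Injective (t1m v w) := by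
  intro s s' h
  by_contra hne
  have := hV.sep.far s s' hne
  rw [h, SimpleGraph.edist_self] at this
  simp at this

theorem td_m_notT (hV : T1Val l R o x H v w) (s : T1I D ⊕ Fin D) : t1m v w s ∉ rgBall (t1K H v w) l {o, x} := by
  intro h
  have := hV.sep.farT s _ h
  rw [SimpleGraph.edist_self] at this
  simp at this

/-- every vertex of `T`, every marked vertex is the mark itself or far from it -/
def T1Far {n D : ℕ} (R : ℕ) (H : Gr n) (v w : T1I D → Fin n) (s : T1I D ⊕ Fin D) (p : Fin n) : Prop :=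
  p = t1m v w s ∨ ((2 * R + 2 : ℕ) : ℕ∞) ≤ (t1K H v w).edist (t1m v w s) p

theorem td_far_m (hV : T1Val l R o x H v w) (s s' : T1I D ⊕ Fin D) : T1Far R H v w s (t1m v w s') := by
  by_cases h : s = s'
  · subst h; exact Or.inl rfl
  · exact Or.inr (hV.sep.far s s' h)

theorem td_far_T (hV : T1Val l R o x H v w) (s : T1I D ⊕ Fin D) {t : Fin n} (ht : t ∈ rgBall (t1K H v w) l {o, x}) :
    T1Far R H v w s t := by
  refine Or.inr ?_
  rw [SimpleGraph.edist_comm]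
  exact hV.sep.farT s t ht

theorem td_far_w (hV : T1Val l R o x H v w) (s : T1I D ⊕ Fin D) (j : T1I D) : T1Far R H v w s (w j) :=
  td_far_m hV s (Sum.inl j)

theorem td_far_v (hV : T1Val l R o x H v w) (s : T1I D ⊕ Fin D) (j : T1I D) : T1Far R H v w s (v j) := by
  rcases j with i | i
  · exact td_far_T hV s (hV.sep.inT i)
  · exact td_far_m hV s (Sum.inr i)

theorem T1Far.eq {s : T1I D ⊕ Fin D} {p : Fin n} (h : T1Far R H v w s p) {k : ℕ} (hk : (t1K H v w).edist (t1m v w s) p ≤ k)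
    (hk2 : k ≤ 2 * R + 1) : p = t1m v w s := by
  rcases h with h | h
  · exact h
  · have := Nat.cast_le.mp (h.trans hk)
    omega

/-- the only new marked pair at an outer mark -/
theorem td_partner (hV : T1Val l R o x H v w) (s : T1I D ⊕ Fin D) {j : T1I D} {y : Fin n}
    (h : s(v j, w (t1s D j)) = s(t1m v w s, y)) : y = t1p v w s := by
  rw [Sym2.eq_iff] at h
  rcases h with ⟨h1, h2⟩ | ⟨h1, h2⟩
  · rcases j with i | i
    · exact absurd (h1 ▸ hV.sep.inT i) (td_m_notT hV s)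
    · have : s = Sum.inr i := (td_m_inj hV (show t1m v w (Sum.inr i) = t1m v w s from h1)).symm
      subst this
      exact h2.symm
  · have : s = Sum.inl (t1s D j) := (td_m_inj hV (show t1m v w (Sum.inl (t1s D j)) = t1m v w s from h2)).symm
    subst this
    rw [← h1]
    show v j = v (t1s D (t1s D j))
    rw [td_s_s]

theorem td_partner_adj (hV : T1Val l R o x H v w) (s : T1I D ⊕ Fin D) : (t1Sw H v w).Adj (t1m v w s) (t1p v w s) := by
  rcases s with j | i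
  · have := td_new_adj hV (t1s D j)
    rw [td_s_s] at this
    exact this.symm
  · exact td_new_adj hV (Sum.inr i)

theorem td_partner_not_K (hV : T1Val l R o x H v w) (s : T1I D ⊕ Fin D) : ¬ (t1K H v w).Adj (t1m v w s) (t1p v w s) := by
  rcases s with j | i
  · have := td_new_not_K hV (t1s D j)
    rw [td_s_s] at this
    exact fun h => this h.symm
  · exact td_new_not_K hV (Sum.inr i)

/-- **walk lemma**: a short walk of the switched graph which starts near an outer mark stays in the core or passes through the mark -/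
theorem td_walk (hV : T1Val l R o x H v w) (s : T1I D ⊕ Fin D) {a b : Fin n} (p : (t1Sw H v w).Walk a b) :
    ∀ k : ℕ, (t1K H v w).edist (t1m v w s) a ≤ k → k + p.length ≤ 2 * R + 1 →
      (t1K H v w).edist a b ≤ p.length ∨ ∃ j : ℕ, (t1K H v w).edist (t1m v w s) a ≤ j ∧ j + 1 ≤ p.length := by
  induction p with
  | nil => intro k _ _; left; simp
  | @cons a a' b hadj p' ih =>
    intro k hk hkl
    rw [SimpleGraph.Walk.length_cons] at hkl ⊢
    rcases (td_sw_adj hV _ _).1 hadj with hK | ⟨j, hj⟩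
    · rcases ih (k + 1) (td_ed_adj hk hK) (by omega) with h1 | ⟨j, h1, h2⟩
      · left
        have h3 : (t1K H v w).edist a a' ≤ (1 : ℕ) := by
          rw [SimpleGraph.edist_eq_one_iff_adj.mpr hK]; norm_num
        have := td_ed_tri h3 h1
        rwa [add_comm] at this
      · right
        exact ⟨j + 1, td_ed_adj h1 hK.symm, by omega⟩
    · right
      have hfar : T1Far R H v w s a := by
        rw [Sym2.eq_iff] at hj
        rcases hj with ⟨h1, _⟩ | ⟨_, h2⟩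
        · exact h1 ▸ td_far_v hV s j
        · exact h2 ▸ td_far_w hV s _
      have := hfar.eq hk (by omega)
      subst this
      exact ⟨0, by simp, by omega⟩

/-- depth: in a ball of the switched graph around far points, the branch of the mark has depth `≤ R` -/
theorem td_depth (hV : T1Val l R o x H v w) (s : T1I D ⊕ Fin D) {X : Finset (Fin n)} (hX : ∀ p ∈ X, T1Far R H v w s p)
    {y : Fin n} (hy : y ∈ rgBall (t1Sw H v w) R X) (hy2 : (t1K H v w).edist (t1m v w s) y ≤ (R + 1 : ℕ)) :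
    (t1K H v w).edist (t1m v w s) y ≤ R := by
  obtain ⟨p, hp, hpy⟩ := tgr_mem_ball.mp hy
  rw [SimpleGraph.edist_comm] at hpy
  obtain ⟨q, hq⟩ := td_ed_walk hpy
  rcases td_walk hV s q (R + 1) hy2 (by omega) with h1 | ⟨j, h1, h2⟩
  · have h3 : (t1K H v w).edist y p ≤ R := h1.trans (by exact_mod_cast hq)
    have h4 := td_ed_tri hy2 h3
    have := (hX p hp).eq h4 (by omega)
    subst this
    rw [SimpleGraph.edist_comm]
    exact h3
  · exact h1.trans (by exact_mod_cast (by omega : j ≤ R))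

/-- **the branch of an outer mark is pruned exactly** in the model of every ball around far points -/
theorem td_branch (hV : T1Val l R o x H v w) (s : T1I D ⊕ Fin D) {X : Finset (Fin n)} (hX : ∀ p ∈ X, T1Far R H v w s p)
    (hμ : t1m v w s ∈ rgBall (t1Sw H v w) R X) (hπ : t1p v w s ∈ rgBall (t1Sw H v w) R X)
    (hS : TgSparse (rgBG (t1Sw H v w) R X)) {d : ℕ} (hd : 2 ≤ d) {z : ℂ} (hz : 0 < z.im) (y : Fin n) :
    rgPB d (rgBG (t1Sw H v w) R X) z y (t1m v w s) + rgg d z * rgPB d (rgBG (t1Sw H v w) R X) z y (t1p v w s)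
      = (1 - rgg d z ^ 2) * tgQ (rgBG (t1Sw H v w) R X ⊓ rgBG (t1K H v w) R {t1m v w s}) (rgg d z) y (t1m v w s) := by
  have hreach : ∀ s', (rgBG (t1Sw H v w) R X ⊓ rgBG (t1K H v w) R {t1m v w s}).Reachable (t1m v w s) s' →
      (t1K H v w).edist (t1m v w s) s' ≤ R := by
    intro s' hr
    have h1 : (tgIn (t1K H v w) (rgBall (t1K H v w) R {t1m v w s})).Reachable (t1m v w s) s' := hr.mono inf_le_right
    exact tgr_mem_ball1.mp (tgIn_reach_mem h1 (tgr_self_mem R _))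
  have hcl : (rgBG (t1Sw H v w) R X).Adj (t1m v w s) (t1p v w s) := ⟨td_partner_adj hV s, hμ, hπ⟩
  have hncl : ¬ (rgBG (t1Sw H v w) R X ⊓ rgBG (t1K H v w) R {t1m v w s}).Adj (t1m v w s) (t1p v w s) :=
    fun h => td_partner_not_K hV s h.2.1
  refine td_prune (tgr_cav hd z) (tg_sq_ne_one' (tgr_norm_lt_one hd hz)) ((hV.sep.tree s).anti inf_le_right) inf_le_left
    hcl hncl ?_ (tgr_PB_mul' hS hd hz) y
  intro s' y' hr hadj
  have h1 := hreach s' hr
  rcases (td_sw_adj hV _ _).1 hadj.1 with hK | ⟨j, hj⟩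
  · left
    have h2 := td_depth hV s hX hadj.2.2 (td_ed_adj h1 hK)
    exact ⟨hadj, hK, tgr_mem_ball1.mpr h1, tgr_mem_ball1.mpr h2⟩
  · right
    have hfar : T1Far R H v w s s' := by
      have hj' := hj
      rw [Sym2.eq_iff] at hj'
      rcases hj' with ⟨h1, _⟩ | ⟨_, h2⟩
      · exact h1 ▸ td_far_v hV s j
      · exact h2 ▸ td_far_w hV s _
    have h3 := hfar.eq h1 (by omega)
    subst h3
    exact ⟨rfl, td_partner hV s hj⟩

/-- value at the mark -/
theorem td_branch_self (hV : T1Val l R o x H v w) (s : T1I D ⊕ Fin D) {X : Finset (Fin n)} (hX : ∀ p ∈ X, T1Far R H v w s p)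
    (hμ : t1m v w s ∈ rgBall (t1Sw H v w) R X) (hπ : t1p v w s ∈ rgBall (t1Sw H v w) R X)
    (hS : TgSparse (rgBG (t1Sw H v w) R X)) {d : ℕ} (hd : 2 ≤ d) {z : ℂ} (hz : 0 < z.im) :
    rgPB d (rgBG (t1Sw H v w) R X) z (t1m v w s) (t1m v w s) + rgg d z * rgPB d (rgBG (t1Sw H v w) R X) z (t1m v w s) (t1p v w s)
      = rgg d z := by
  rw [td_branch hV s hX hμ hπ hS hd hz, tg_Q_self]
  have hg : (1 - rgg d z ^ 2) ≠ 0 := sub_ne_zero.mpr (Ne.symm (tg_sq_ne_one' (tgr_norm_lt_one hd hz)))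
  unfold tgm
  field_simp

/-- value at a far point -/
theorem td_branch_far (hV : T1Val l R o x H v w) (s : T1I D ⊕ Fin D) {X : Finset (Fin n)} (hX : ∀ p ∈ X, T1Far R H v w s p)
    (hμ : t1m v w s ∈ rgBall (t1Sw H v w) R X) (hπ : t1p v w s ∈ rgBall (t1Sw H v w) R X)
    (hS : TgSparse (rgBG (t1Sw H v w) R X)) {d : ℕ} (hd : 2 ≤ d) {z : ℂ} (hz : 0 < z.im) {y : Fin n}
    (hy : T1Far R H v w s y) (hne : y ≠ t1m v w s) :
    rgPB d (rgBG (t1Sw H v w) R X) z y (t1m v w s) + rgg d z * rgPB d (rgBG (t1Sw H v w) R X) z y (t1p v w s) = 0 := by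
  rw [td_branch hV s hX hμ hπ hS hd hz, tgQ, if_neg, mul_zero]
  intro hr
  have h1 : (tgIn (t1K H v w) (rgBall (t1K H v w) R {t1m v w s})).Reachable (t1m v w s) y := hr.symm.mono inf_le_right
  have h2 := tgr_mem_ball1.mp (tgIn_reach_mem h1 (tgr_self_mem R _))
  exact hne (hy.eq h2 (by omega))

end marks


/-! ### 4. model facts: sparse balls, consistency, decay, bounded entries -/

section model
variable {n d R : ℕ} {Hh : Gr n} {z : ℂ}

/-- small balls are sparse -/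
theorem td_sparse (hreg : Hh ∈ regularGraphs n d) (hS : RgStr d R Hh) {ρ : ℕ} {X : Finset (Fin n)}
    (hc : X.card * (d + 1) ^ ρ ≤ (d + 1) ^ (4 * R)) : TgSparse (rgBG Hh ρ X) := by
  classical
  have hB := lc7_ball_card hreg ρ X
  refine tgIn_sparse Hh (rgBall Hh ρ X) fun W hW => ?_
  have := hS.2 W ((card_le_card hW).trans (hB.trans hc))
  convert this

/-- consistency: the model of the ball of `{p,q}` at a site `s` near `{p,q}` -/
theorem td_cons (hreg : Hh ∈ regularGraphs n d) (hS : RgStr d R Hh) (hd : 3 ≤ d) (hz : 0 < z.im) {j : ℕ} (hj : j + 1 ≤ R)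
    {p q s : Fin n} (hs : s ∈ rgBall Hh j {p, q}) :
    ‖rgPB d (rgBG Hh R {p, q}) z s q - rgPm d R Hh z s q‖ ≤ 27 * ‖rgg d z‖ ^ (R - j) := by
  classical
  have hg1 := (tgr_norm_lt_one (d := d) (by omega) hz).le
  have hg0 := norm_nonneg (rgg d z)
  have hcard : ({p, q, s} : Finset (Fin n)).card * (d + 1) ^ R ≤ (d + 1) ^ (4 * R) := by
    have h3 : ({p, q, s} : Finset (Fin n)).card ≤ 3 := card_le_three
    have h4 : 3 ≤ (d + 1) ^ R := by
      calc 3 ≤ d + 1 := by omega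
        _ = (d + 1) ^ 1 := (pow_one _).symm
        _ ≤ (d + 1) ^ R := Nat.pow_le_pow_right (by omega) (by omega)
    calc ({p, q, s} : Finset (Fin n)).card * (d + 1) ^ R ≤ (d + 1) ^ R * (d + 1) ^ R :=
          Nat.mul_le_mul_right _ (h3.trans h4)
      _ = (d + 1) ^ (R + R) := (pow_add _ _ _).symm
      _ ≤ (d + 1) ^ (4 * R) := Nat.pow_le_pow_right (by omega) (by omega)
  have hΓ : TgSparse (rgBG Hh R {p, q, s}) := td_sparse hreg hS hcard
  have hsub : ∀ X : Finset (Fin n), X ⊆ {p, q, s} → rgBG Hh R X ≤ rgBG Hh R {p, q, s} := by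
    intro X hX
    refine tgIn_mono Hh ?_
    intro y hy
    obtain ⟨a, ha, h⟩ := tgr_mem_ball.mp hy
    exact tgr_mem_ball.mpr ⟨a, hX ha, h⟩
  have h1 : ‖rgPB d (rgBG Hh R {p, q, s}) z s q - rgPm d R Hh z s q‖ ≤ 27 / 2 * ‖rgg d z‖ ^ R :=
    tgr_Pm_cons hΓ (tgr_BG_le R _) hd hz s q (hsub _ (by intro y; simp; tauto))
  have h2 : ‖rgPB d (rgBG Hh R {p, q, s}) z s q - rgPB d (rgBG Hh R {p, q}) z s q‖ ≤ 27 / 2 * ‖rgg d z‖ ^ (R - j) := by
    refine tgr_PB_cons hΓ (hsub _ (by intro y; simp; tauto)) hd hz ?_ q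
    intro w w' hadj hr hdist
    obtain ⟨a, ha, hsa⟩ := tgr_mem_ball.mp hs
    have hrH : Hh.Reachable s w := hr.mono (tgr_BG_le R _)
    have e1 : Hh.dist s w ≤ (rgBG Hh R {p, q, s}).dist s w := hr.dist_anti (tgr_BG_le R _)
    have e2 : Hh.edist s w ≤ (R - j - 1 : ℕ) := by
      rw [← hrH.coe_dist_eq_edist]
      exact_mod_cast (by omega : Hh.dist s w ≤ R - j - 1)
    have e3 := td_ed_tri hsa e2
    have e4 := td_ed_adj e3 hadj.1
    refine ⟨hadj.1, tgr_mem_ball.mpr ⟨a, ha, e3.trans ?_⟩, tgr_mem_ball.mpr ⟨a, ha, e4.trans ?_⟩⟩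
    · exact_mod_cast (by omega : j + (R - j - 1) ≤ R)
    · exact_mod_cast (by omega : j + (R - j - 1) + 1 ≤ R)
  have h3 : ‖rgg d z‖ ^ R ≤ ‖rgg d z‖ ^ (R - j) := pow_le_pow_of_le_one hg0 hg1 (by omega)
  have e : rgPB d (rgBG Hh R {p, q}) z s q - rgPm d R Hh z s q
      = (rgPB d (rgBG Hh R {p, q, s}) z s q - rgPm d R Hh z s q)
        - (rgPB d (rgBG Hh R {p, q, s}) z s q - rgPB d (rgBG Hh R {p, q}) z s q) := by ring
  rw [e]
  refine (norm_sub_le _ _).trans ?_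
  linarith

/-- decay in the distance of a larger graph -/
theorem td_decay {Γ K : Gr n} (hS : TgSparse Γ) (hle : Γ ≤ K) (hd : 3 ≤ d) (hz : 0 < z.im) {a b : Fin n} {k : ℕ}
    (hk : (k : ℕ∞) ≤ K.edist a b) : ‖rgPB d Γ z a b‖ ≤ 27 / 2 * ‖rgg d z‖ ^ k := by
  by_cases hr : Γ.Reachable a b
  · refine (tgr_PB_decay hS hd hz a b).trans ?_
    have h1 : (k : ℕ∞) ≤ Γ.edist a b := hk.trans (SimpleGraph.edist_anti hle)
    rw [← hr.coe_dist_eq_edist] at h1
    have h2 : k ≤ Γ.dist a b := by exact_mod_cast h1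
    have : ‖rgg d z‖ ^ Γ.dist a b ≤ ‖rgg d z‖ ^ k :=
      pow_le_pow_of_le_one (norm_nonneg _) (tgr_norm_lt_one (by omega) hz).le h2
    linarith
  · rw [tgr_PB_zero hS (by omega) hz hr, norm_zero]
    positivity

/-- bounded entries -/
theorem td_G_le (hS : RgStr d R Hh) (hR : 1 ≤ R) (hd : 3 ≤ d) (hz : 0 < z.im) {κ0 : ℝ} (hdev : RgDev d R Hh z κ0) (a b : Fin n) :
    ‖rgG Hh z a b‖ ≤ 27 / 2 + κ0 := by
  have h1 := tgr_Pm_le hS.1 hR hd hz a b
  have h2 := hdev a b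
  have e : rgG Hh z a b = rgPm d R Hh z a b + (rgG Hh z a b - rgPm d R Hh z a b) := by ring
  rw [e]
  exact (norm_add_le _ _).trans (add_le_add h1 h2)

end model

/-! ### 5. good slots -/

/-- the slot `a` is good: the block of the sample is `κ1`-good, its entries towards the fixed sites and the other samples are `≤ θ` -/
def T1Good {n D : ℕ} (d l : ℕ) (H : Gr n) (z : ℂ) (κ1 θ : ℝ) (o x : Fin n) (b c : Fin D → Fin n) (a : Fin D) : Prop :=
  rgBlk d H z (b a) (c a) ≤ κ1 ∧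
  (∀ s ∈ ({b a, c a} : Finset (Fin n)), ∀ t ∈ rgBall H (l + 1) {o, x}, ‖rgG H z s t‖ ≤ θ) ∧
  (∀ a', a ≠ a' → ∀ s ∈ ({b a, c a} : Finset (Fin n)), ∀ t ∈ ({b a', c a'} : Finset (Fin n)), ‖rgG H z s t‖ ≤ θ)

theorem td_eqns_cite2 : True := by
  have := @T1Good.eq_1
  have := @T1Far.eq_1
  trivial

open Classical in
/-- **(174)** the number of the slots which are not good.   Plan: the filter is contained in `F_d ∪ F_s ∪ image Prod.fst F_o` (the three filters of `t1Nd`, `t1Ns`, `t1No`); `card_union_le`, `card_image_le`. -/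
theorem td_bad_card {n D : ℕ} (d l : ℕ) (H : Gr n) (z : ℂ) (κ1 θ : ℝ) (o x : Fin n) (b c : Fin D → Fin n) :
    (univ.filter fun a => ¬ T1Good d l H z κ1 θ o x b c a).card ≤ t1Nb d l H z κ1 θ o x b c := by
  have hsub : (univ.filter fun a => ¬ T1Good d l H z κ1 θ o x b c a) ⊆
      (univ.filter fun i => κ1 < rgBlk d H z (b i) (c i)) ∪
      (univ.filter fun i => ∃ s ∈ ({b i, c i} : Finset (Fin n)), ∃ t ∈ rgBall H (l + 1) {o, x}, θ < ‖rgG H z s t‖) ∪
      (univ.filter fun p : Fin D × Fin D => p.1 ≠ p.2 ∧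
        ∃ s ∈ ({b p.1, c p.1} : Finset (Fin n)), ∃ t ∈ ({b p.2, c p.2} : Finset (Fin n)), θ < ‖rgG H z s t‖).image Prod.fst := by
    intro a ha
    rw [mem_filter] at ha
    have ha2 := ha.2
    unfold T1Good at ha2
    rw [mem_union, mem_union, mem_filter, mem_filter, mem_image]
    by_contra hc
    push Not at hc
    obtain ⟨⟨h1, h2⟩, h3⟩ := hc
    refine ha2 ⟨h1 (mem_univ _), fun s hs t ht => h2 (mem_univ _) s hs t ht, fun a' haa s hs t ht => ?_⟩
    by_contra h4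
    push Not at h4
    exact h3 (a, a') (mem_filter.2 ⟨mem_univ _, haa, s, hs, t, ht, h4⟩) rfl
  refine (card_le_card hsub).trans ?_
  refine (card_union_le _ _).trans ?_
  have h1 := card_union_le (univ.filter fun i => κ1 < rgBlk d H z (b i) (c i))
    (univ.filter fun i => ∃ s ∈ ({b i, c i} : Finset (Fin n)), ∃ t ∈ rgBall H (l + 1) {o, x}, θ < ‖rgG H z s t‖)
  have h2 := card_image_le (s := univ.filter fun p : Fin D × Fin D => p.1 ≠ p.2 ∧
        ∃ s ∈ ({b p.1, c p.1} : Finset (Fin n)), ∃ t ∈ ({b p.2, c p.2} : Finset (Fin n)), θ < ‖rgG H z s t‖) (f := Prod.fst)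
  unfold t1Nb t1Nd t1Ns t1No
  omega

/-- one row of the resolvent identity of the switch against the model row `(μc, μb)` of the sample `a` -/
theorem td32_row {n D : ℕ} (G Gt : Matrix (Fin n) (Fin n) ℂ) (ll aa bb cc : Fin D → Fin n) (s x : Fin n) (a : Fin D) {μc μb : ℂ}
    {κ1 θ Kt : ℝ} (hκ1 : 0 ≤ κ1) (hθ : 0 ≤ θ)
    (hs : Gt s x = G s x - ∑ i, (G s (ll i) * (Gt (cc i) x - Gt (aa i) x) + G s (cc i) * (Gt (ll i) x - Gt (bb i) x)
        + G s (aa i) * (Gt (bb i) x - Gt (ll i) x) + G s (bb i) * (Gt (aa i) x - Gt (cc i) x)))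
    (hx : ‖G s x‖ ≤ θ) (hl : ∀ i, ‖G s (ll i)‖ ≤ θ) (ha : ∀ i, ‖G s (aa i)‖ ≤ θ)
    (hc : ∀ i, i ≠ a → ‖G s (cc i)‖ ≤ θ) (hb : ∀ i, i ≠ a → ‖G s (bb i)‖ ≤ θ)
    (hca : ‖G s (cc a) - μc‖ ≤ κ1) (hba : ‖G s (bb a) - μb‖ ≤ κ1) (hK : ∀ y, ‖Gt y x‖ ≤ Kt) :
    ‖Gt s x + μc * (Gt (ll a) x - Gt (bb a) x) + μb * (Gt (aa a) x - Gt (cc a) x)‖ ≤ θ + 8 * D * Kt * (κ1 + θ) := by
  have hKt : 0 ≤ Kt := (norm_nonneg _).trans (hK x)
  have hdiff : ∀ y y', ‖Gt y x - Gt y' x‖ ≤ 2 * Kt := fun y y' =>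
    (norm_sub_le _ _).trans (by linarith [hK y, hK y'])
  have e : Gt s x + μc * (Gt (ll a) x - Gt (bb a) x) + μb * (Gt (aa a) x - Gt (cc a) x)
      = G s x - ∑ i, (G s (ll i) * (Gt (cc i) x - Gt (aa i) x) + (G s (cc i) - if i = a then μc else 0) * (Gt (ll i) x - Gt (bb i) x)
        + G s (aa i) * (Gt (bb i) x - Gt (ll i) x) + (G s (bb i) - if i = a then μb else 0) * (Gt (aa i) x - Gt (cc i) x)) := by
    have e1 : ∀ i, (G s (ll i) * (Gt (cc i) x - Gt (aa i) x) + (G s (cc i) - if i = a then μc else 0) * (Gt (ll i) x - Gt (bb i) x)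
        + G s (aa i) * (Gt (bb i) x - Gt (ll i) x) + (G s (bb i) - if i = a then μb else 0) * (Gt (aa i) x - Gt (cc i) x))
        = (G s (ll i) * (Gt (cc i) x - Gt (aa i) x) + G s (cc i) * (Gt (ll i) x - Gt (bb i) x)
        + G s (aa i) * (Gt (bb i) x - Gt (ll i) x) + G s (bb i) * (Gt (aa i) x - Gt (cc i) x))
          - (if i = a then μc * (Gt (ll i) x - Gt (bb i) x) + μb * (Gt (aa i) x - Gt (cc i) x) else 0) := by
      intro i
      split_ifs <;> ring
    simp only [e1]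
    rw [sum_sub_distrib, sum_ite_eq' univ a, if_pos (mem_univ a), hs]
    ring
  rw [e]
  have hterm : ∀ X Y : ℂ, ‖X‖ ≤ κ1 + θ → ‖Y‖ ≤ 2 * Kt → ‖X * Y‖ ≤ (κ1 + θ) * (2 * Kt) := by
    intro X Y h1 h2
    rw [norm_mul]
    exact mul_le_mul h1 h2 (norm_nonneg _) (by linarith)
  have hcc : ∀ i, ‖G s (cc i) - if i = a then μc else 0‖ ≤ κ1 + θ := by
    intro i
    split_ifs with h
    · subst h; linarith
    · rw [sub_zero]; linarith [hc i h]
  have hbb : ∀ i, ‖G s (bb i) - if i = a then μb else 0‖ ≤ κ1 + θ := by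
    intro i
    split_ifs with h
    · subst h; linarith
    · rw [sub_zero]; linarith [hb i h]
  have hsum : ‖∑ i, (G s (ll i) * (Gt (cc i) x - Gt (aa i) x) + (G s (cc i) - if i = a then μc else 0) * (Gt (ll i) x - Gt (bb i) x)
        + G s (aa i) * (Gt (bb i) x - Gt (ll i) x) + (G s (bb i) - if i = a then μb else 0) * (Gt (aa i) x - Gt (cc i) x))‖
      ≤ ∑ _i : Fin D, 4 * ((κ1 + θ) * (2 * Kt)) := by
    refine norm_sum_le_of_le _ fun i _ => ?_
    have t1 := hterm (G s (ll i)) (Gt (cc i) x - Gt (aa i) x) (by linarith [hl i]) (hdiff _ _)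
    have t2 := hterm (G s (cc i) - if i = a then μc else 0) (Gt (ll i) x - Gt (bb i) x) (hcc i) (hdiff _ _)
    have t3 := hterm (G s (aa i)) (Gt (bb i) x - Gt (ll i) x) (by linarith [ha i]) (hdiff _ _)
    have t4 := hterm (G s (bb i) - if i = a then μb else 0) (Gt (aa i) x - Gt (cc i) x) (hbb i) (hdiff _ _)
    refine (norm_add_le _ _).trans ?_
    refine (add_le_add ((norm_add_le _ _).trans (add_le_add ((norm_add_le _ _).trans (add_le_add t1 t2)) t3)) t4).trans ?_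
    linarith
  rw [sum_const, card_univ, Fintype.card_fin, nsmul_eq_mul] at hsum
  refine (norm_sub_le _ _).trans ?_
  calc ‖G s x‖ + _ ≤ θ + (D : ℝ) * (4 * ((κ1 + θ) * (2 * Kt))) := add_le_add hx hsum
    _ = θ + 8 * D * Kt * (κ1 + θ) := by ring

section det
variable {n D l R d : ℕ} {o x : Fin n} {H : Gr n} {v w : T1I D → Fin n} {z : ℂ}

/-- **(174)** a good slot.   Plan: `G~ = rgG (t1Sw H v w) z`, `G = rgG H z`, `u = G~ c_a x`, `r = G~ b_a x`, `p = G~ l_a x`, `q = G~ a_a x`.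
`td_switch_res hV.adm` for the rows `s = c_a`, `s = b_a`; `Fintype.sum_sum_type`, `td_s_inl`, `td_s_inr`:
`G~ s x = G s x - ∑_i τ_i(s)`, `τ_i(s) = G s l_i (G~c_i - G~a_i) + G s c_i (G~l_i - G~b_i) + G s a_i (G~b_i - G~l_i) + G s b_i (G~a_i - G~c_i)` (columns `x`).
Subtract the model row (`m = rgTv d z 0`, `k = rgTv d z 1` at `i = a`, `0` else; `Finset.sum_ite_eq`): `e_c := u + m (p - r) + k (q - u)`, `‖e_c‖ ≤ θ + D · 4 · (κ1 + θ) · 2 Kt`; the same for `e_b`.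
`l_i ∈ rgBall H l`, `a_i ∈ rgBall H (l+1)`, `x ∈ ..`: `td_l_mem`, `td_a_mem`.   `td_leaf` gives `u + g p = e_c + g e_b`, `‖g‖ ≤ 1`. -/
theorem td_good (hV : T1Val l R o x H v w) (hd : 2 ≤ d) (hz : 0 < z.im) {κ1 θ Kt : ℝ} (hκ1 : 0 ≤ κ1) (hθ : 0 ≤ θ)
    (hK : ∀ a b, ‖rgG (t1Sw H v w) z a b‖ ≤ Kt) {a : Fin D}
    (hg : T1Good d l H z κ1 θ o x (fun i => v (Sum.inr i)) (fun i => w (Sum.inr i)) a) :
    ‖rgG (t1Sw H v w) z (w (Sum.inr a)) x + rgg d z * rgG (t1Sw H v w) z (v (Sum.inl a)) x‖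
      ≤ 2 * (θ + 8 * D * Kt * (κ1 + θ)) := by
  obtain ⟨hg1, hg2, hg3⟩ := hg
  have hrow : ∀ s, rgG (t1Sw H v w) z s x = rgG H z s x - ∑ i : Fin D,
      (rgG H z s (v (Sum.inl i)) * (rgG (t1Sw H v w) z (w (Sum.inr i)) x - rgG (t1Sw H v w) z (w (Sum.inl i)) x)
        + rgG H z s (w (Sum.inr i)) * (rgG (t1Sw H v w) z (v (Sum.inl i)) x - rgG (t1Sw H v w) z (v (Sum.inr i)) x)
        + rgG H z s (w (Sum.inl i)) * (rgG (t1Sw H v w) z (v (Sum.inr i)) x - rgG (t1Sw H v w) z (v (Sum.inl i)) x)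
        + rgG H z s (v (Sum.inr i)) * (rgG (t1Sw H v w) z (w (Sum.inl i)) x - rgG (t1Sw H v w) z (w (Sum.inr i)) x)) := by
    intro s
    have h1 := td_switch_res hV.adm hz.ne' s x
    rw [Fintype.sum_sum_type, ← sum_add_distrib] at h1
    unfold t1Sw
    rw [h1]
    congr 1
    refine sum_congr rfl fun i _ => ?_
    simp only [td_s_inl, td_s_inr]
    ring
  have hxB : x ∈ rgBall H (l + 1) {o, x} := rg_self_mem_ball H (l + 1) (by simp)
  have hlB0 : ∀ i : Fin D, v (Sum.inl i) ∈ rgBall H l {o, x} := by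
    intro i
    obtain ⟨p, hp, h⟩ := tgr_mem_ball.mp (hV.sep.inT i)
    exact tgr_mem_ball.mpr ⟨p, hp, td_ed_mono (td_K_le H v w) h⟩
  have hlB : ∀ i : Fin D, v (Sum.inl i) ∈ rgBall H (l + 1) {o, x} := fun i => tgr_ball_mono (Nat.le_succ l) _ (hlB0 i)
  have haB : ∀ i : Fin D, w (Sum.inl i) ∈ rgBall H (l + 1) {o, x} := by
    intro i
    obtain ⟨p, hp, h1⟩ := tgr_mem_ball.mp (hlB0 i)
    exact tgr_mem_ball.mpr ⟨p, hp, td_ed_adj h1 (hV.adm.adj (Sum.inl i))⟩
  have hsymm : rgG H z (w (Sum.inr a)) (v (Sum.inr a)) = rgG H z (v (Sum.inr a)) (w (Sum.inr a)) :=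
    rs_G_symm (rg_A_herm H) hz.ne' _ _
  have hb1 : ‖rgG H z (v (Sum.inr a)) (v (Sum.inr a)) - rgTv d z 0‖ ≤ κ1 := (le_max_left _ _).trans hg1
  have hb2 : ‖rgG H z (w (Sum.inr a)) (w (Sum.inr a)) - rgTv d z 0‖ ≤ κ1 :=
    ((le_max_left _ _).trans (le_max_right _ _)).trans hg1
  have hb3 : ‖rgG H z (v (Sum.inr a)) (w (Sum.inr a)) - rgTv d z 1‖ ≤ κ1 :=
    ((le_max_right _ _).trans (le_max_right _ _)).trans hg1
  have hmc : w (Sum.inr a) ∈ ({v (Sum.inr a), w (Sum.inr a)} : Finset (Fin n)) := by simp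
  have hmb : v (Sum.inr a) ∈ ({v (Sum.inr a), w (Sum.inr a)} : Finset (Fin n)) := by simp
  have Ec := td32_row (rgG H z) (rgG (t1Sw H v w) z) (fun i => v (Sum.inl i)) (fun i => w (Sum.inl i)) (fun i => v (Sum.inr i))
    (fun i => w (Sum.inr i)) (w (Sum.inr a)) x a (μc := rgTv d z 0) (μb := rgTv d z 1) hκ1 hθ (hrow _)
    (hg2 _ hmc _ hxB) (fun i => hg2 _ hmc _ (hlB i)) (fun i => hg2 _ hmc _ (haB i))
    (fun i hi => hg3 i (Ne.symm hi) _ hmc _ (by simp)) (fun i hi => hg3 i (Ne.symm hi) _ hmc _ (by simp))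
    hb2 (by rw [hsymm]; exact hb3) (fun y => hK y x)
  have Eb := td32_row (rgG H z) (rgG (t1Sw H v w) z) (fun i => v (Sum.inl i)) (fun i => w (Sum.inl i)) (fun i => v (Sum.inr i))
    (fun i => w (Sum.inr i)) (v (Sum.inr a)) x a (μc := rgTv d z 1) (μb := rgTv d z 0) hκ1 hθ (hrow _)
    (hg2 _ hmb _ hxB) (fun i => hg2 _ hmb _ (hlB i)) (fun i => hg2 _ hmb _ (haB i))
    (fun i hi => hg3 i (Ne.symm hi) _ hmb _ (by simp)) (fun i hi => hg3 i (Ne.symm hi) _ hmb _ (by simp))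
    hb3 hb1 (fun y => hK y x)
  have hg1' : ‖rgg d z‖ ≤ 1 := (tgr_norm_lt_one hd hz).le
  have hne : (1 - rgg d z ^ 2) ≠ 0 := sub_ne_zero.mpr (Ne.symm (tg_sq_ne_one' (tgr_norm_lt_one hd hz)))
  have hk : rgTv d z 1 = -rgg d z * rgTv d z 0 := by
    unfold rgTv
    ring
  have hm : rgTv d z 0 = rgg d z * (1 - rgTv d z 1) := by
    unfold rgTv rgm
    field_simp
    ring
  have key := td_leaf (g := rgg d z) (m := rgTv d z 0) (k := rgTv d z 1) (u := rgG (t1Sw H v w) z (w (Sum.inr a)) x)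
    (r := rgG (t1Sw H v w) z (v (Sum.inr a)) x) (p := rgG (t1Sw H v w) z (v (Sum.inl a)) x) (q := rgG (t1Sw H v w) z (w (Sum.inl a)) x)
    (ec := rgG (t1Sw H v w) z (w (Sum.inr a)) x + rgTv d z 0 * (rgG (t1Sw H v w) z (v (Sum.inl a)) x - rgG (t1Sw H v w) z (v (Sum.inr a)) x)
      + rgTv d z 1 * (rgG (t1Sw H v w) z (w (Sum.inl a)) x - rgG (t1Sw H v w) z (w (Sum.inr a)) x))
    (eb := rgG (t1Sw H v w) z (v (Sum.inr a)) x + rgTv d z 1 * (rgG (t1Sw H v w) z (v (Sum.inl a)) x - rgG (t1Sw H v w) z (v (Sum.inr a)) x)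
      + rgTv d z 0 * (rgG (t1Sw H v w) z (w (Sum.inl a)) x - rgG (t1Sw H v w) z (w (Sum.inr a)) x))
    hk hm (by ring) (by ring)
  rw [key]
  refine (norm_add_le _ _).trans ?_
  rw [norm_mul]
  have h5 := mul_le_mul hg1' Eb (norm_nonneg _) zero_le_one
  linarith

end det


/-! ### 6. the outer estimate, assembly -/

section mem
variable {n D l R : ℕ} {o x : Fin n} {H : Gr n} {v w : T1I D → Fin n}

theorem td_ball_mono_gr {K K' : Gr n} (hle : K ≤ K') (ρ : ℕ) (X : Finset (Fin n)) : rgBall K ρ X ⊆ rgBall K' ρ X := by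
  intro y hy
  obtain ⟨p, hp, h⟩ := tgr_mem_ball.mp hy
  exact tgr_mem_ball.mpr ⟨p, hp, td_ed_mono hle h⟩

theorem td_ball_adj {K : Gr n} {ρ : ℕ} {X : Finset (Fin n)} {a b : Fin n} (ha : a ∈ rgBall K ρ X) (h : K.Adj a b) :
    b ∈ rgBall K (ρ + 1) X := by
  obtain ⟨p, hp, h1⟩ := tgr_mem_ball.mp ha
  exact tgr_mem_ball.mpr ⟨p, hp, td_ed_adj h1 h⟩

theorem td_o_mem (K : Gr n) (ρ : ℕ) (o x : Fin n) : o ∈ rgBall K ρ {o, x} :=
  rg_self_mem_ball K ρ (by simp)

theorem td_x_mem (K : Gr n) (ρ : ℕ) (o x : Fin n) : x ∈ rgBall K ρ {o, x} :=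
  rg_self_mem_ball K ρ (by simp)

/-- `l_i` is a fixed site of `H` -/
theorem td_l_mem (hV : T1Val l R o x H v w) (i : Fin D) : v (Sum.inl i) ∈ rgBall H (l + 1) {o, x} :=
  tgr_ball_mono (Nat.le_succ l) _ (td_ball_mono_gr (td_K_le H v w) l _ (hV.sep.inT i))

/-- `a_i` is a fixed site of `H` -/
theorem td_a_mem (hV : T1Val l R o x H v w) (i : Fin D) : w (Sum.inl i) ∈ rgBall H (l + 1) {o, x} :=
  td_ball_adj (td_ball_mono_gr (td_K_le H v w) l _ (hV.sep.inT i)) (hV.adm.adj (Sum.inl i))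

/-- `T` in the switched graph -/
theorem td_T_sub (H : Gr n) (v w : T1I D → Fin n) (l : ℕ) (o x : Fin n) :
    rgBall (t1K H v w) l {o, x} ⊆ rgBall (t1Sw H v w) l {o, x} :=
  td_ball_mono_gr (td_K_le_sw H v w) l _

end mem

section det
variable {n D l R d : ℕ} {o x : Fin n} {H : Gr n} {v w : T1I D → Fin n} {z : ℂ}

/-- the edges of the switched graph inside `T` are edges of the core -/
theorem td_resT_le (hV : T1Val l R o x H v w) : rgRes (t1Sw H v w) (rgBall (t1K H v w) l {o, x}) ≤ t1K H v w := by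
  intro a b h
  rcases (td_sw_adj hV a b).1 h.1 with hK | ⟨j, hj⟩
  · exact hK
  · exfalso
    rw [Sym2.eq_iff] at hj
    rcases hj with ⟨_, h2⟩ | ⟨_, h2⟩
    · exact td_m_notT hV (Sum.inl (t1s D j)) (show w (t1s D j) ∈ _ from h2 ▸ h.2.2)
    · exact td_m_notT hV (Sum.inl (t1s D j)) (show w (t1s D j) ∈ _ from h2 ▸ h.2.1)

open Classical in
/-- the boundary edges of `T` in the switched graph: unswitched edges of the core, or switched slots -/
theorem td_bdry (hV : T1Val l R o x H v w) {t s : Fin n} (h : (t1Sw H v w).Adj t s) (ht : t ∈ rgBall (t1K H v w) l {o, x})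
    (hs : s ∉ rgBall (t1K H v w) l {o, x}) :
    (t1K H v w).Adj t s ∨ ∃ a : Fin D, t = v (Sum.inl a) ∧ s = w (Sum.inr a) := by
  rcases (td_sw_adj hV t s).1 h with hK | ⟨j, hj⟩
  · exact Or.inl hK
  · right
    rw [Sym2.eq_iff] at hj
    rcases hj with ⟨h1, h2⟩ | ⟨_, h2⟩
    · rcases j with a | i
      · exact ⟨a, h1.symm, h2.symm⟩
      · exact absurd (show v (Sum.inr i) ∈ _ from h1 ▸ ht) (td_m_notT hV (Sum.inr i))
    · exact absurd (show w (t1s D j) ∈ _ from h2 ▸ ht) (td_m_notT hV (Sum.inl (t1s D j)))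

/-- depth of the inner end of an unswitched boundary edge -/
theorem td_bdry_deep {K : Gr n} {t s : Fin n} (h : K.Adj t s) (hs : s ∉ rgBall K l {o, x}) : (l : ℕ∞) ≤ K.edist o t := by
  by_contra hlt
  rw [not_le] at hlt
  apply hs
  rcases Nat.eq_zero_or_pos l with rfl | hl
  · simp at hlt
  · have h1 : K.edist o t ≤ (l - 1 : ℕ) := by
      have : K.edist o t + 1 ≤ (l : ℕ∞) := Order.add_one_le_of_lt hlt
      have h2 : ((l : ℕ∞)) = ((l - 1 : ℕ) : ℕ∞) + 1 := by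
        have : l = (l - 1) + 1 := by omega
        exact_mod_cast this
      rw [h2] at this
      exact (ENat.add_le_add_iff_right (by simp)).mp this
    have h3 := td_ed_adj h1 h
    rw [Nat.sub_add_cancel hl] at h3
    exact tgr_mem_ball.mpr ⟨o, by simp, h3⟩

theorem td_sw_reg (hV : T1Val l R o x H v w) (hH : H ∈ regularGraphs n d) : t1Sw H v w ∈ regularGraphs n d :=
  sw7_reg hH hV.adm

theorem td_deg {Hh : Gr n} (hH : Hh ∈ regularGraphs n d) (t : Fin n) : tgDeg Hh t = d := by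
  classical
  unfold tgDeg
  convert (lc7_mem_reg n d Hh).1 hH t

open Classical in
/-- the equation of the Green function, graph form -/
theorem td_G_row (Hh : Gr n) (hz : 0 < z.im) (t x : Fin n) :
    ∑ s ∈ univ.filter (fun s => Hh.Adj t s), rgG Hh z s x - z * rgG Hh z t x = if t = x then 1 else 0 := by
  have h := rs_eq_left (rg_A_herm Hh) hz.ne' t x
  have e : ∑ y, (rgA Hh t y : ℂ) * rsG (rgA Hh) z y x = ∑ s ∈ univ.filter (fun s => Hh.Adj t s), rgG Hh z s x := by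
    rw [sum_filter]
    refine sum_congr rfl fun y _ => ?_
    have e0 : rgA Hh t y = if Hh.Adj t y then 1 else 0 := by
      unfold rgA
      rw [SimpleGraph.adjMatrix_apply]
    rw [e0]
    unfold rgG
    split_ifs <;> simp
  rw [e] at h
  rw [h]
  unfold rgG
  ring

open Classical in
/-- the rows `t ∈ T` of the two equations -/
theorem td_rows (hV : T1Val l R o x H v w) (hH : H ∈ regularGraphs n d) (hd : 3 ≤ d) (hz : 0 < z.im) (hR : l + 1 ≤ R)
    (hS : TgSparse (rgBG (t1Sw H v w) R {o, x})) {t : Fin n} (ht : t ∈ rgBall (t1K H v w) l {o, x}) :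
    ∑ s ∈ univ.filter (fun s => (t1Sw H v w).Adj t s),
        (rgG (t1Sw H v w) z s x - rgPB d (rgBG (t1Sw H v w) R {o, x}) z s x)
      - z * (rgG (t1Sw H v w) z t x - rgPB d (rgBG (t1Sw H v w) R {o, x}) z t x) = 0 := by
  have h1 := td_G_row (t1Sw H v w) hz t x
  have h2 := congrFun (congrFun (tgr_PB_mul hS (by omega : 2 ≤ d) hz) t) x
  rw [tgr_mod_eq, tg_mul_apply, Matrix.one_apply] at h2
  have htl : t ∈ rgBall (t1Sw H v w) l {o, x} := td_T_sub H v w l o x ht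
  have htR : t ∈ rgBall (t1Sw H v w) R {o, x} := tgr_ball_mono (by omega) _ htl
  have e1 : univ.filter (fun s => (rgBG (t1Sw H v w) R {o, x}).Adj t s) = univ.filter (fun s => (t1Sw H v w).Adj t s) := by
    ext s
    simp only [mem_filter, mem_univ, true_and]
    constructor
    · exact fun h => h.1
    · exact fun h => ⟨h, htR, tgr_ball_mono (by omega) _ (td_ball_adj htl h)⟩
  have e2 : tgDeg (rgBG (t1Sw H v w) R {o, x}) t = d := by
    rw [← td_deg (td_sw_reg hV hH) t]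
    unfold tgDeg
    rw [e1]
  rw [e1, e2, sub_self, mul_zero, add_zero] at h2
  rw [sum_sub_distrib]
  linear_combination h1 - h2

open Classical in
/-- **the outer estimate** -/
theorem td_main (hV : T1Val l R o x H v w) (hH : H ∈ regularGraphs n d) (hd : 3 ≤ d) (hz : 0 < z.im) (hR : l + 1 ≤ R)
    (hS : TgSparse (rgBG (t1Sw H v w) R {o, x})) (f : Fin n → ℂ)
    (hf : f = fun s => rgG (t1Sw H v w) z s x - rgPB d (rgBG (t1Sw H v w) R {o, x}) z s x) :
    ‖f o‖ ≤ 27 / 2 * ‖rgg d z‖ ^ l *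
      (∑ e ∈ univ.filter (fun e : Fin n × Fin n => (t1K H v w).Adj e.1 e.2 ∧ e.1 ∈ rgBall (t1K H v w) l {o, x} ∧ e.2 ∉ rgBall (t1K H v w) l {o, x}),
          ‖f e.2 + rgg d z * f e.1‖
        + ∑ a : Fin D, ‖f (w (Sum.inr a)) + rgg d z * f (v (Sum.inl a))‖) := by
  set T := rgBall (t1K H v w) l {o, x} with hT
  set g := rgg d z with hg
  have hST : TgSparse (rgRes (t1Sw H v w) T) :=
    hS.mono (tgIn_mono _ ((td_T_sub H v w l o x).trans (tgr_ball_mono (by omega) _)))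
  have hoT : o ∈ T := td_o_mem _ _ _ _
  have hid := td_outer (Hh := t1Sw H v w) T (d := d) (z := z) (g := g) (fun t _ => td_deg (td_sw_reg hV hH) t)
    (Q := rgPB d (rgRes (t1Sw H v w) T) z) (tgr_PB_mul' hST (by omega) hz) (o := o)
    (fun t ht => tgr_PB_zero hST (by omega) hz (fun hr => ht (tgIn_reach_mem hr hoT))) f
    (fun t ht => by rw [hf]; exact td_rows hV hH hd hz hR hS ht)
  set W := 27 / 2 * ‖g‖ ^ l with hW
  have hW0 : 0 ≤ W := by positivity
  set F : Fin n × Fin n → ℝ := fun e => ‖f e.2 + g * f e.1‖ with hF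
  have hQ : ∀ t ∈ T, ∀ s, (t1Sw H v w).Adj t s → s ∉ T → ‖rgPB d (rgRes (t1Sw H v w) T) z o t‖ ≤ W := by
    intro t ht s hadj hs
    refine td_decay hST (td_resT_le hV) hd hz ?_
    rcases td_bdry hV hadj ht hs with hK | ⟨a, rfl, _⟩
    · exact td_bdry_deep hK hs
    · exact hV.sep.deep a o (by simp)
  have h1 : ‖f o‖ ≤ ∑ t ∈ T, ∑ s ∈ univ.filter (fun s => (t1Sw H v w).Adj t s ∧ s ∉ T), W * F (t, s) := by
    rw [hid, norm_neg]
    refine (norm_sum_le _ _).trans (sum_le_sum fun t ht => ?_)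
    rw [norm_mul]
    refine (mul_le_mul_of_nonneg_left (norm_sum_le _ _) (norm_nonneg _)).trans ?_
    rw [mul_sum]
    refine sum_le_sum fun s hs => ?_
    have hs' := (mem_filter.mp hs).2
    exact mul_le_mul_of_nonneg_right (hQ t ht s hs'.1 hs'.2) (norm_nonneg _)
  have h2 : ∑ t ∈ T, ∑ s ∈ univ.filter (fun s => (t1Sw H v w).Adj t s ∧ s ∉ T), W * F (t, s)
      = ∑ e : Fin n × Fin n, if ((t1Sw H v w).Adj e.1 e.2 ∧ e.1 ∈ T ∧ e.2 ∉ T) then W * F e else 0 := by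
    rw [Fintype.sum_prod_type, ← sum_subset (subset_univ T)]
    · refine sum_congr rfl fun t ht => ?_
      rw [sum_filter]
      refine sum_congr rfl fun s _ => ?_
      simp only [ht, true_and]
    · intro t _ ht
      refine sum_eq_zero fun s _ => ?_
      simp only [ht, false_and, and_false, if_false]
  have h3 : ∀ e : Fin n × Fin n, (if ((t1Sw H v w).Adj e.1 e.2 ∧ e.1 ∈ T ∧ e.2 ∉ T) then W * F e else 0)
      ≤ (if ((t1K H v w).Adj e.1 e.2 ∧ e.1 ∈ T ∧ e.2 ∉ T) then W * F e else 0)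
        + ∑ a : Fin D, if e = (v (Sum.inl a), w (Sum.inr a)) then W * F e else 0 := by
    intro e
    have hFe : 0 ≤ W * F e := mul_nonneg hW0 (norm_nonneg _)
    have hsum : 0 ≤ ∑ a : Fin D, if e = (v (Sum.inl a), w (Sum.inr a)) then W * F e else 0 :=
      sum_nonneg fun a _ => by split_ifs <;> simp [hFe]
    by_cases he : (t1Sw H v w).Adj e.1 e.2 ∧ e.1 ∈ T ∧ e.2 ∉ T
    · rw [if_pos he]
      rcases td_bdry hV he.1 he.2.1 he.2.2 with hK | ⟨a, h1, h2⟩
      · rw [if_pos ⟨hK, he.2⟩]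
        linarith
      · have h4 : W * F e ≤ ∑ a : Fin D, if e = (v (Sum.inl a), w (Sum.inr a)) then W * F e else 0 := by
          have := single_le_sum (f := fun a : Fin D => if e = (v (Sum.inl a), w (Sum.inr a)) then W * F e else 0)
            (fun a _ => by split_ifs <;> simp [hFe]) (mem_univ a)
          rwa [if_pos (Prod.ext h1 h2)] at this
        have h5 : 0 ≤ (if ((t1K H v w).Adj e.1 e.2 ∧ e.1 ∈ T ∧ e.2 ∉ T) then W * F e else 0) := by
          split_ifs <;> simp [hFe]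
        linarith
    · rw [if_neg he]
      have h5 : 0 ≤ (if ((t1K H v w).Adj e.1 e.2 ∧ e.1 ∈ T ∧ e.2 ∉ T) then W * F e else 0) := by
        split_ifs <;> simp [hFe]
      linarith
  refine h1.trans ?_
  rw [h2]
  refine (sum_le_sum fun e _ => h3 e).trans ?_
  rw [sum_add_distrib, ← sum_filter, sum_comm, mul_add, mul_sum, mul_sum]
  refine le_of_eq ?_
  congr 1
  refine sum_congr rfl fun a _ => ?_
  rw [sum_ite_eq' univ (v (Sum.inl a), w (Sum.inr a)) fun e => W * F e, if_pos (mem_univ _)]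

/-- the model kills the switched slots -/
theorem td_slot_model (hV : T1Val l R o x H v w) (hd : 2 ≤ d) (hz : 0 < z.im) (hR : l + 1 ≤ R)
    (hS : TgSparse (rgBG (t1Sw H v w) R {o, x})) (a : Fin D) :
    rgPB d (rgBG (t1Sw H v w) R {o, x}) z (w (Sum.inr a)) x + rgg d z * rgPB d (rgBG (t1Sw H v w) R {o, x}) z (v (Sum.inl a)) x = 0 := by
  have hl : v (Sum.inl a) ∈ rgBall (t1Sw H v w) l {o, x} := td_T_sub H v w l o x (hV.sep.inT a)
  have hX : ∀ p ∈ ({o, x} : Finset (Fin n)), T1Far R H v w (Sum.inl (Sum.inr a)) p := by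
    intro p hp
    rw [mem_insert, mem_singleton] at hp
    rcases hp with rfl | rfl
    · exact td_far_T hV _ (td_o_mem _ l _ _)
    · exact td_far_T hV _ (td_x_mem _ l _ _)
  have hμ : t1m v w (Sum.inl (Sum.inr a)) ∈ rgBall (t1Sw H v w) R {o, x} :=
    tgr_ball_mono hR _ (td_ball_adj hl (td_new_adj hV (Sum.inl a)))
  have hπ : t1p v w (Sum.inl (Sum.inr a)) ∈ rgBall (t1Sw H v w) R {o, x} :=
    tgr_ball_mono (by omega) _ hl
  have hne : x ≠ t1m v w (Sum.inl (Sum.inr a)) := by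
    intro e
    exact td_m_notT hV (Sum.inl (Sum.inr a)) (e ▸ td_x_mem _ l o x)
  have := td_branch_far hV (Sum.inl (Sum.inr a)) hX hμ hπ hS hd hz (hX x (by simp)) hne
  rw [tgr_PB_symm d _ z (w (Sum.inr a)) x, tgr_PB_symm d _ z (v (Sum.inl a)) x]
  exact this

theorem td_pair_card {d : ℕ} (hd : 1 ≤ d) {ρ R : ℕ} (h : ρ + 1 ≤ 4 * R) (p q : Fin n) :
    ({p, q} : Finset (Fin n)).card * (d + 1) ^ ρ ≤ (d + 1) ^ (4 * R) := by
  have h1 : ({p, q} : Finset (Fin n)).card ≤ 2 := card_le_two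
  calc ({p, q} : Finset (Fin n)).card * (d + 1) ^ ρ ≤ 2 * (d + 1) ^ ρ := Nat.mul_le_mul_right _ h1
    _ ≤ (d + 1) * (d + 1) ^ ρ := Nat.mul_le_mul_right _ (by omega)
    _ = (d + 1) ^ (ρ + 1) := by ring
    _ ≤ (d + 1) ^ (4 * R) := Nat.pow_le_pow_right (by omega) h

theorem td_l_mem_sw (hV : T1Val l R o x H v w) (a : Fin D) : v (Sum.inl a) ∈ rgBall (t1Sw H v w) l {o, x} :=
  td_T_sub H v w l o x (hV.sep.inT a)

theorem td_c_mem_sw (hV : T1Val l R o x H v w) (a : Fin D) : w (Sum.inr a) ∈ rgBall (t1Sw H v w) (l + 1) {o, x} :=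
  td_ball_adj (td_l_mem_sw hV a) (td_new_adj hV (Sum.inl a))

open Classical in
/-- **DET**, form with `‖g‖` -/
theorem td_det_g (hd : 3 ≤ d) (hR : 3 * l + 10 ≤ R) (hH : H ∈ regularGraphs n d) (hz : 0 < z.im) {κ0 κ1 θ : ℝ} (hκ0 : 0 ≤ κ0) (hκ0' : κ0 ≤ 1)
    (hκ1 : 0 ≤ κ1) (hθ : 0 ≤ θ) (hV : T1Val l R o x H v w) (hS : RgStr d R (t1Sw H v w)) (hdev : RgDev d R (t1Sw H v w) z κ0) :
    ‖rgG (t1Sw H v w) z o x - rgPm d R (t1Sw H v w) z o x‖
      ≤ 27 * ‖rgg d z‖ ^ l * (4 + ((univ.filter fun a => ¬ T1Good d l H z κ1 θ o x (fun i => v (Sum.inr i)) (fun i => w (Sum.inr i)) a).card : ℝ))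
          * (κ0 + 27 * ‖rgg d z‖ ^ (R - (l + 1)))
        + 27 * D * (θ + 8 * D * (29 / 2) * (κ1 + θ)) := by
  have hreg := td_sw_reg hV hH
  have hSp : TgSparse (rgBG (t1Sw H v w) R {o, x}) := td_sparse hreg hS (td_pair_card (by omega) (by omega) o x)
  set g := rgg d z with hg
  have hg1 : ‖g‖ ≤ 1 := (tgr_norm_lt_one (by omega) hz).le
  set f : Fin n → ℂ := fun s => rgG (t1Sw H v w) z s x - rgPB d (rgBG (t1Sw H v w) R {o, x}) z s x with hf
  set ε := κ0 + 27 * ‖g‖ ^ (R - (l + 1)) with hε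
  have hε0 : 0 ≤ ε := by positivity
  have hfle : ∀ s ∈ rgBall (t1Sw H v w) (l + 1) {o, x}, ‖f s‖ ≤ ε := by
    intro s hs
    have h1 := hdev s x
    have h2 := td_cons hreg hS hd hz (j := l + 1) (by omega) hs
    have h3 : f s = (rgG (t1Sw H v w) z s x - rgPm d R (t1Sw H v w) z s x)
        - (rgPB d (rgBG (t1Sw H v w) R {o, x}) z s x - rgPm d R (t1Sw H v w) z s x) := by
      rw [hf]; ring
    rw [h3]
    exact (norm_sub_le _ _).trans (add_le_add h1 h2)
  have hslot : ∀ s t, s ∈ rgBall (t1Sw H v w) (l + 1) {o, x} → t ∈ rgBall (t1Sw H v w) (l + 1) {o, x} → ‖f s + g * f t‖ ≤ 2 * ε := by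
    intro s t hs ht
    refine (norm_add_le _ _).trans ?_
    rw [norm_mul]
    have h1 := hfle s hs
    have h2 := hfle t ht
    have h3 : ‖g‖ * ‖f t‖ ≤ 1 * ε := mul_le_mul hg1 h2 (norm_nonneg _) zero_le_one
    linarith
  have hmain := td_main hV hH hd hz (by omega) hSp f hf
  -- unswitched edges
  have hA : ∑ e ∈ univ.filter (fun e : Fin n × Fin n => (t1K H v w).Adj e.1 e.2 ∧ e.1 ∈ rgBall (t1K H v w) l {o, x} ∧ e.2 ∉ rgBall (t1K H v w) l {o, x}),
      ‖f e.2 + g * f e.1‖ ≤ 4 * (2 * ε) := by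
    refine (sum_le_card_nsmul _ _ (2 * ε) fun e he => ?_).trans ?_
    · have he' := (mem_filter.mp he).2
      have h1 : e.1 ∈ rgBall (t1Sw H v w) l {o, x} := td_T_sub H v w l o x he'.2.1
      exact hslot _ _ (td_ball_adj h1 (td_K_le_sw H v w he'.1)) (tgr_ball_mono (Nat.le_succ l) _ h1)
    · rw [nsmul_eq_mul]
      have h4 : ((univ.filter (fun e : Fin n × Fin n => (t1K H v w).Adj e.1 e.2 ∧ e.1 ∈ rgBall (t1K H v w) l {o, x} ∧ e.2 ∉ rgBall (t1K H v w) l {o, x})).card : ℝ) ≤ 4 := by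
        have := hV.sep.few
        exact_mod_cast this
      exact mul_le_mul_of_nonneg_right h4 (by positivity)
  -- slots
  set ρg := 2 * (θ + 8 * D * (29 / 2) * (κ1 + θ)) with hρg
  have hρ0 : 0 ≤ ρg := by positivity
  have hKt : ∀ a b, ‖rgG (t1Sw H v w) z a b‖ ≤ 29 / 2 := by
    intro a b
    have := td_G_le hS (by omega) hd hz hdev a b
    linarith
  have hB : ∀ a : Fin D, ‖f (w (Sum.inr a)) + g * f (v (Sum.inl a))‖
      ≤ ρg + if ¬ T1Good d l H z κ1 θ o x (fun i => v (Sum.inr i)) (fun i => w (Sum.inr i)) a then 2 * ε else 0 := by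
    intro a
    by_cases hga : T1Good d l H z κ1 θ o x (fun i => v (Sum.inr i)) (fun i => w (Sum.inr i)) a
    · rw [if_neg (not_not.mpr hga), add_zero]
      have h1 := td_good hV (by omega) hz hκ1 hθ hKt hga
      have h2 := td_slot_model hV (by omega : 2 ≤ d) hz (by omega) hSp a
      have h3 : f (w (Sum.inr a)) + g * f (v (Sum.inl a))
          = rgG (t1Sw H v w) z (w (Sum.inr a)) x + g * rgG (t1Sw H v w) z (v (Sum.inl a)) x := by
        rw [hf]
        linear_combination -h2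
      rw [h3]
      exact h1
    · rw [if_pos hga]
      have := hslot _ _ (td_c_mem_sw hV a) (tgr_ball_mono (Nat.le_succ l) _ (td_l_mem_sw hV a))
      linarith
  have hB2 : ∑ a : Fin D, ‖f (w (Sum.inr a)) + g * f (v (Sum.inl a))‖
      ≤ D * ρg + ((univ.filter fun a => ¬ T1Good d l H z κ1 θ o x (fun i => v (Sum.inr i)) (fun i => w (Sum.inr i)) a).card : ℝ) * (2 * ε) := by
    refine (sum_le_sum fun a _ => hB a).trans ?_
    rw [sum_add_distrib, sum_const, card_univ, Fintype.card_fin, nsmul_eq_mul, ← sum_filter, sum_const, nsmul_eq_mul]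
  set Nb := ((univ.filter fun a => ¬ T1Good d l H z κ1 θ o x (fun i => v (Sum.inr i)) (fun i => w (Sum.inr i)) a).card : ℝ) with hNb
  have hgl0 : 0 ≤ ‖g‖ ^ l := by positivity
  have hgl1 : ‖g‖ ^ l ≤ 1 := pow_le_one₀ (norm_nonneg _) hg1
  have e0 : rgG (t1Sw H v w) z o x - rgPm d R (t1Sw H v w) z o x = f o := rfl
  rw [e0]
  refine hmain.trans ?_
  have h5 : 27 / 2 * ‖g‖ ^ l * (4 * (2 * ε) + (D * ρg + Nb * (2 * ε))) = 27 * ‖g‖ ^ l * (4 + Nb) * ε + ‖g‖ ^ l * (27 / 2 * D * ρg) := by ring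
  have h6 : ‖g‖ ^ l * (27 / 2 * D * ρg) ≤ 1 * (27 / 2 * D * ρg) := mul_le_mul_of_nonneg_right hgl1 (by positivity)
  have h7 : 27 / 2 * ‖g‖ ^ l * (∑ e ∈ univ.filter (fun e : Fin n × Fin n => (t1K H v w).Adj e.1 e.2 ∧ e.1 ∈ rgBall (t1K H v w) l {o, x} ∧ e.2 ∉ rgBall (t1K H v w) l {o, x}),
          ‖f e.2 + g * f e.1‖ + ∑ a : Fin D, ‖f (w (Sum.inr a)) + g * f (v (Sum.inl a))‖)
      ≤ 27 / 2 * ‖g‖ ^ l * (4 * (2 * ε) + (D * ρg + Nb * (2 * ε))) :=
    mul_le_mul_of_nonneg_left (add_le_add hA hB2) (by positivity)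
  refine h7.trans ?_
  rw [h5]
  have h8 : 1 * (27 / 2 * D * ρg) = 27 * D * (θ + 8 * D * (29 / 2) * (κ1 + θ)) := by rw [hρg]; ring
  linarith

end det

/-- **(174)** powers of `‖g‖`.   Plan: `tgr_normSq_lt`: `(d-1) ‖g‖² < 1`, so `‖g‖ ≤ (d-1)^(-1/2)`; `Real.rpow_natCast`, `Real.rpow_mul`. -/
theorem td_g_pow {d : ℕ} (hd : 3 ≤ d) {z : ℂ} (hz : 0 < z.im) (k : ℕ) : ‖rgg d z‖ ^ k ≤ ((d : ℝ) - 1) ^ (-(k : ℝ) / 2) := by
  have hd1 : (0 : ℝ) < (d : ℝ) - 1 := by
    have : (3 : ℝ) ≤ d := by exact_mod_cast hd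
    linarith
  have h1 := tgr_normSq_lt (by omega : 2 ≤ d) hz
  have h2 : ‖rgg d z‖ ≤ ((d : ℝ) - 1) ^ (-(1 : ℝ) / 2) := by
    have hp : 0 ≤ ((d : ℝ) - 1) ^ (-(1 : ℝ) / 2) := Real.rpow_nonneg hd1.le _
    refine abs_le_of_sq_le_sq' ?_ hp |>.2
    have e : (((d : ℝ) - 1) ^ (-(1 : ℝ) / 2)) ^ 2 = ((d : ℝ) - 1)⁻¹ := by
      rw [← Real.rpow_natCast, ← Real.rpow_mul hd1.le, ← Real.rpow_neg_one]
      norm_num
    rw [e, ← one_div, le_div_iff₀ hd1]
    linarith
  calc ‖rgg d z‖ ^ k ≤ (((d : ℝ) - 1) ^ (-(1 : ℝ) / 2)) ^ k := pow_le_pow_left₀ (norm_nonneg _) h2 k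
    _ = ((d : ℝ) - 1) ^ (-(k : ℝ) / 2) := by
      rw [← Real.rpow_natCast, ← Real.rpow_mul hd1.le]
      congr 1
      ring

/-- **DET** (D1), the statement of `t1_det` with `Cl κ1` and the hypothesis `D ≤ 2 d^(l+1)`.
**(174)** Plan: `C0 = 27`, `Db = 2 d^(l+1)`, `Cl = max 1 (27 Db (1 + 116 Db) + 729 (4 + Db) (d-1)^((l+1)/2))`; `td_det_g`, `td_bad_card`, `card_filter_le` (`≤ D`), `td_g_pow`;
`‖g‖^(R-(l+1)) ≤ (d-1)^(-(R-(l+1))/2) = (d-1)^((l+1)/2) (d-1)^(-R/2)`; `‖g‖^l ≤ 1` in the terms with `Cl`; `κ0 ≤ 1` from `Cl κ0 ≤ 1`, `1 ≤ Cl`. -/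
theorem td_det (d : ℕ) (hd : 3 ≤ d) (κb : ℝ) (hκ : 0 < κb) :
    ∃ C0 : ℝ, 0 < C0 ∧ ∀ l : ℕ, ∃ Cl : ℝ, 0 < Cl ∧ ∀ (R n D : ℕ) (H : Gr n) (v w : T1I D → Fin n) (o x : Fin n) (e η κ0 κ1 θ : ℝ),
      3 * l + 10 ≤ R → D ≤ 2 * d ^ (l + 1) → H ∈ regularGraphs n d → RgBulk d κb e → 0 < η → η ≤ b1h κb → 0 < κ0 → Cl * κ0 ≤ 1 → 0 < κ1 → 0 < θ →
      T1Val l R o x H v w → RgStr d R (t1Sw H v w) → RgDev d R (t1Sw H v w) (rgz e η) κ0 →
      ‖rgG (t1Sw H v w) (rgz e η) o x - rgPm d R (t1Sw H v w) (rgz e η) o x‖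
        ≤ Cl * κ1 + Cl * θ
          + C0 * (16 + (t1Nb d l H (rgz e η) κ1 θ o x (fun i => v (Sum.inr i)) (fun i => w (Sum.inr i)) : ℝ)) * ((d : ℝ) - 1) ^ (-(l : ℝ) / 2) * κ0
          + Cl * κ0 ^ 2 + Cl * ((d : ℝ) - 1) ^ (-(R : ℝ) / 2) := by
  have hd1 : (0 : ℝ) < (d : ℝ) - 1 := by
    have : (3 : ℝ) ≤ d := by exact_mod_cast hd
    linarith
  refine ⟨27, by norm_num, fun l => ?_⟩
  obtain ⟨Db, hDb⟩ : ∃ Db : ℝ, Db = 2 * (d : ℝ) ^ (l + 1) := ⟨_, rfl⟩
  have hDb0 : 0 ≤ Db := by rw [hDb]; positivity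
  obtain ⟨S, hS⟩ : ∃ S : ℝ, S = ((d : ℝ) - 1) ^ (((l : ℝ) + 1) / 2) := ⟨_, rfl⟩
  have hS0 : 0 ≤ S := by rw [hS]; exact Real.rpow_nonneg hd1.le _
  obtain ⟨Cl, hCl⟩ : ∃ Cl : ℝ, Cl = max 1 (27 * Db * (1 + 116 * Db) + 729 * (4 + Db) * S) := ⟨_, rfl⟩
  have hCl1 : 1 ≤ Cl := by rw [hCl]; exact le_max_left _ _
  have hCl2 : 27 * Db * (1 + 116 * Db) + 729 * (4 + Db) * S ≤ Cl := by rw [hCl]; exact le_max_right _ _
  refine ⟨Cl, by linarith, ?_⟩
  intro R n D H v w o x e η κ0 κ1 θ hR hD hH _ hη _ hκ0 hClκ hκ1 hθ hV hStr hdev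
  have hz : 0 < (rgz e η).im := hη
  have hκ01 : κ0 ≤ 1 := by nlinarith
  have key := td_det_g hd hR hH hz hκ0.le hκ01 hκ1.le hθ.le hV hStr hdev
  have hN1 := td_bad_card d l H (rgz e η) κ1 θ o x (fun i => v (Sum.inr i)) (fun i => w (Sum.inr i))
  refine key.trans ?_
  classical
  have hN2 : (univ.filter fun a => ¬ T1Good d l H (rgz e η) κ1 θ o x (fun i => v (Sum.inr i)) (fun i => w (Sum.inr i)) a).card ≤ D :=
    (card_filter_le _ _).trans_eq (by simp)
  generalize (univ.filter fun a => ¬ T1Good d l H (rgz e η) κ1 θ o x (fun i => v (Sum.inr i)) (fun i => w (Sum.inr i)) a).card = N at hN1 hN2 ⊢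
  generalize t1Nb d l H (rgz e η) κ1 θ o x (fun i => v (Sum.inr i)) (fun i => w (Sum.inr i)) = Nb at hN1 ⊢
  have hgl := td_g_pow hd hz l
  have hgR : ‖rgg d (rgz e η)‖ ^ (R - (l + 1)) ≤ S * ((d : ℝ) - 1) ^ (-(R : ℝ) / 2) := by
    refine (td_g_pow hd hz _).trans (le_of_eq ?_)
    rw [hS, ← Real.rpow_add hd1]
    congr 1
    rw [Nat.cast_sub (by omega : l + 1 ≤ R)]
    push_cast
    ring
  have hgl1 : ‖rgg d (rgz e η)‖ ^ l ≤ 1 := pow_le_one₀ (norm_nonneg _) (tgr_norm_lt_one (by omega) hz).le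
  have hgl0 : 0 ≤ ‖rgg d (rgz e η)‖ ^ l := by positivity
  have hgR0 : 0 ≤ ‖rgg d (rgz e η)‖ ^ (R - (l + 1)) := by positivity
  generalize ‖rgg d (rgz e η)‖ ^ l = gl at hgl hgl1 hgl0 ⊢
  generalize ‖rgg d (rgz e η)‖ ^ (R - (l + 1)) = gR at hgR hgR0 ⊢
  have hP0 : 0 ≤ ((d : ℝ) - 1) ^ (-(l : ℝ) / 2) := Real.rpow_nonneg hd1.le _
  have hQ0 : 0 ≤ ((d : ℝ) - 1) ^ (-(R : ℝ) / 2) := Real.rpow_nonneg hd1.le _
  generalize ((d : ℝ) - 1) ^ (-(l : ℝ) / 2) = P at hgl hP0 ⊢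
  generalize ((d : ℝ) - 1) ^ (-(R : ℝ) / 2) = Q at hgR hQ0 ⊢
  have hNr : (N : ℝ) ≤ Nb := by exact_mod_cast hN1
  have hDr : (D : ℝ) ≤ Db := by
    rw [hDb]
    exact_mod_cast hD
  have hND : (N : ℝ) ≤ Db := le_trans (by exact_mod_cast hN2) hDr
  have hN0 : (0 : ℝ) ≤ N := by positivity
  have hD0 : (0 : ℝ) ≤ D := by positivity
  -- the three terms
  have A : 27 * gl * (4 + (N : ℝ)) * κ0 ≤ 27 * (16 + (Nb : ℝ)) * P * κ0 := by
    have h1 : gl * (4 + (N : ℝ)) ≤ P * (16 + (Nb : ℝ)) := mul_le_mul hgl (by linarith) (by linarith) hP0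
    nlinarith
  have B : 27 * gl * (4 + (N : ℝ)) * (27 * gR) ≤ 729 * (4 + Db) * S * Q := by
    have h1 : gl * (4 + (N : ℝ)) ≤ 1 * (4 + Db) := mul_le_mul hgl1 (by linarith) (by linarith) zero_le_one
    have h2 : gl * (4 + (N : ℝ)) * gR ≤ 1 * (4 + Db) * (S * Q) := mul_le_mul h1 hgR hgR0 (by linarith)
    linarith
  have C : 27 * (D : ℝ) * (θ + 8 * D * (29 / 2) * (κ1 + θ)) ≤ 27 * Db * (1 + 116 * Db) * κ1 + 27 * Db * (1 + 116 * Db) * θ := by
    have h1 : θ + 8 * (D : ℝ) * (29 / 2) * (κ1 + θ) ≤ θ + 8 * Db * (29 / 2) * (κ1 + θ) := by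
      have : (D : ℝ) * (κ1 + θ) ≤ Db * (κ1 + θ) := mul_le_mul_of_nonneg_right hDr (by linarith)
      linarith
    have h2 : 27 * (D : ℝ) * (θ + 8 * D * (29 / 2) * (κ1 + θ)) ≤ 27 * Db * (θ + 8 * Db * (29 / 2) * (κ1 + θ)) :=
      mul_le_mul (by linarith) h1 (by positivity) (by positivity)
    have h3 : 0 ≤ Db * κ1 := mul_nonneg hDb0 hκ1.le
    nlinarith
  have hX0 : 0 ≤ 27 * Db * (1 + 116 * Db) := by positivity
  have hY0 : 0 ≤ 729 * (4 + Db) * S := by positivity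
  have D1 : 27 * Db * (1 + 116 * Db) * κ1 ≤ Cl * κ1 := mul_le_mul_of_nonneg_right (by linarith) hκ1.le
  have D2 : 27 * Db * (1 + 116 * Db) * θ ≤ Cl * θ := mul_le_mul_of_nonneg_right (by linarith) hθ.le
  have D3 : 729 * (4 + Db) * S * Q ≤ Cl * Q := mul_le_mul_of_nonneg_right (by linarith) hQ0
  have D4 : 0 ≤ Cl * κ0 ^ 2 := by positivity
  have E : 27 * gl * (4 + (N : ℝ)) * (κ0 + 27 * gR) = 27 * gl * (4 + (N : ℝ)) * κ0 + 27 * gl * (4 + (N : ℝ)) * (27 * gR) := by ring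
  rw [E]
  linarith

end Claimed.Agent.R287
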