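-- KEEP
import Claimed.Agent.R287.T1
import Claimed.Agent.R287.Loc222b
import Claimed.Agent.R287.TreeRg270

/-!
# Row 287 (S0534), unit B1, sub-unit T1, part VAL = many valid marks (`t1_valid_many`)      owner helper222.   Prefix `t1v`, `T1v`.

ROUTE (no components, no excess): multi-source BFS from `X = {o,x}` in `B = B_ρ(X;H)`, `ρ = l + R + 2`.
* `t1vLv` level (distance to `X`), `T1vPar` parent maps, `t1vPG` the parent graph (acyclic: `t1v_pg_acyclic`);
* `t1vN` the NON-PARENT darts inside `B`:  `TgSparse` gives `#darts ≤ 2|B|`, the parent darts are `2(|B| - |X|)`:  `|N| ≤ 2|X| ≤ 4` (`t1v_N_card`);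
* `t1vAnc` ancestor at the level `m = l+1`, `T1vBr u y`: `y` is in the branch of `u`;  `u` (level `m`) is CLEAN (`t1vCl`) if no dart of `N` starts in its branch;
* switched slots `(par u, u)`, `u` clean;  `K = H -` marked edges;  a `K`-step from the branch of a clean `u` inside `B` stays in the branch and is a parent edge (`t1v_step`);
* `few`: the unswitched boundary darts inject into `N`;  `tree`: the `K`-ball of `u` lies in the parent graph;  `far`, `farT`: split a short `K`-walk in the middle (`t1v_split`);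
* samples NICE (`T1vNice`): adjacent, tree-like, outside `B_(l+2R+2)(X;H)`, pairwise at `H`-distance `≥ 2R+2`;  greedy count + Bernoulli.
-/

set_option autoImplicit false

namespace Claimed.Agent.R287

open Claims.C0462

/-! ## 0. Definitions -/

/-- level = distance to `X` (junk `0` off the component of `X`) -/
noncomputable def t1vLv {n : ℕ} (H : Gr n) (X : Finset (Fin n)) (v : Fin n) : ℕ := sInf {k | v ∈ rgBall H k X}

/-- parent maps on the ball of radius `ρ` -/
structure T1vPar {n : ℕ} (H : Gr n) (X : Finset (Fin n)) (ρ : ℕ) (par : Fin n → Fin n) : Prop where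
  adj : ∀ v ∈ rgBall H ρ X, v ∉ X → H.Adj (par v) v
  lv : ∀ v ∈ rgBall H ρ X, v ∉ X → t1vLv H X (par v) + 1 = t1vLv H X v
  fix : ∀ v, (v ∉ rgBall H ρ X ∨ v ∈ X) → par v = v

/-- the ancestor at the level `m` -/
noncomputable def t1vAnc {n : ℕ} (H : Gr n) (X : Finset (Fin n)) (par : Fin n → Fin n) (m : ℕ) (y : Fin n) : Fin n :=
  par^[t1vLv H X y - m] y

/-- `y` is in the branch of `u` -/
def T1vBr {n : ℕ} (H : Gr n) (X : Finset (Fin n)) (par : Fin n → Fin n) (m : ℕ) (u y : Fin n) : Prop :=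
  m ≤ t1vLv H X y ∧ t1vAnc H X par m y = u

open Classical in
/-- the non-parent darts inside the ball -/
noncomputable def t1vN {n : ℕ} (H : Gr n) (X : Finset (Fin n)) (ρ : ℕ) (par : Fin n → Fin n) : Finset (Fin n × Fin n) :=
  (rgBall H ρ X ×ˢ rgBall H ρ X).filter fun e => H.Adj e.1 e.2 ∧ par e.1 ≠ e.2 ∧ par e.2 ≠ e.1

open Classical in
/-- the clean vertices of the level `m` -/
noncomputable def t1vCl {n : ℕ} (H : Gr n) (X : Finset (Fin n)) (ρ : ℕ) (par : Fin n → Fin n) (m : ℕ) : Finset (Fin n) :=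
  (rgBall H ρ X).filter fun u => t1vLv H X u = m ∧ ∀ e ∈ t1vN H X ρ par, ¬ T1vBr H X par m u e.1

/-- the parent graph -/
def t1vPG {V : Type} (par : V → V) : SimpleGraph V where
  Adj y y' := y ≠ y' ∧ (par y = y' ∨ par y' = y)
  symm := ⟨fun _ _ h => ⟨h.1.symm, h.2.symm⟩⟩
  loopless := ⟨fun _ h => h.1 rfl⟩

/-- the marks: `v = (par a | b)` -/
def t1vV {n D : ℕ} (par : Fin n → Fin n) (a b : Fin D → Fin n) : T1I D → Fin n := Sum.elim (fun i => par (a i)) b

/-- the marks: `w = (a | c)` -/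
def t1vW {n D : ℕ} (a c : Fin D → Fin n) : T1I D → Fin n := Sum.elim a c

/-- nice samples -/
structure T1vNice {n D : ℕ} (H : Gr n) (R : ℕ) (Y : Finset (Fin n)) (b c : Fin D → Fin n) : Prop where
  adj : ∀ j, H.Adj (b j) (c j)
  tl : ∀ j, RgTl H R {b j, c j}
  outb : ∀ j, b j ∉ Y
  outc : ∀ j, c j ∉ Y
  far : ∀ j j', j ≠ j' → ∀ s ∈ ({b j, c j} : Finset (Fin n)), ∀ s' ∈ ({b j', c j'} : Finset (Fin n)),
    ¬ H.edist s s' ≤ ((2 * R + 1 : ℕ) : ℕ∞)

/-- the context of the deterministic part -/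
structure T1vCtx {n D : ℕ} (l R : ℕ) (o x : Fin n) (H : Gr n) (par : Fin n → Fin n) (a b c : Fin D → Fin n) : Prop where
  hpar : T1vPar H {o, x} (l + R + 2) par
  inj : Function.Injective a
  cl : ∀ u, u ∈ t1vCl H {o, x} (l + R + 2) par (l + 1) ↔ ∃ i, a i = u
  nice : T1vNice H R (rgBall H (l + 2 * R + 2) {o, x}) b c

theorem t1v_eqns_cite : True := by
  have := @t1vLv.eq_1
  have := @t1vAnc.eq_1
  have := @T1vBr.eq_1
  have := @t1vN.eq_1
  have := @t1vCl.eq_1
  have := @t1vPG.eq_1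
  have := @t1vV.eq_1
  have := @t1vW.eq_1
  trivial

/-! ## 1. Levels -/

section Level

variable {n : ℕ} (H : Gr n) (X : Finset (Fin n))

theorem t1v_lv_le {k : ℕ} {v : Fin n} (h : v ∈ rgBall H k X) : t1vLv H X v ≤ k := Nat.sInf_le h

theorem t1v_lv_mem {k : ℕ} {v : Fin n} (h : v ∈ rgBall H k X) : v ∈ rgBall H (t1vLv H X v) X :=
  Nat.sInf_mem (s := {k | v ∈ rgBall H k X}) ⟨k, h⟩

theorem t1v_mem_iff {ρ k : ℕ} {v : Fin n} (h : v ∈ rgBall H ρ X) : v ∈ rgBall H k X ↔ t1vLv H X v ≤ k :=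
  ⟨fun h' => t1v_lv_le H X h', fun h' => lc7_ball_mono H h' X (t1v_lv_mem H X h)⟩

theorem t1v_lv_zero {v : Fin n} (h : v ∈ X) : t1vLv H X v = 0 :=
  Nat.le_zero.1 (t1v_lv_le H X (rg_self_mem_ball H 0 h))

theorem t1v_lv_pos {ρ : ℕ} {v : Fin n} (h : v ∈ rgBall H ρ X) (hX : v ∉ X) : 0 < t1vLv H X v := by
  rcases Nat.eq_zero_or_pos (t1vLv H X v) with h0 | h0
  · have := t1v_lv_mem H X h
    rw [h0, lc7_ball_zero] at this
    exact absurd this hX
  · exact h0

/-- triangle inequality for balls -/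
theorem t1v_ball_add {k m : ℕ} {v w : Fin n} (h : v ∈ rgBall H k X) (hvw : H.edist v w ≤ m) : w ∈ rgBall H (k + m) X := by
  rw [rg_mem_ball] at h ⊢
  obtain ⟨p, hp, h1⟩ := h
  refine ⟨p, hp, ?_⟩
  calc H.edist p w ≤ H.edist p v + H.edist v w := SimpleGraph.edist_triangle
    _ ≤ (k : ℕ∞) + m := add_le_add h1 hvw
    _ = ((k + m : ℕ) : ℕ∞) := by push_cast; rfl

theorem t1v_ball_adj {k : ℕ} {v w : Fin n} (h : v ∈ rgBall H k X) (hvw : H.Adj v w) : w ∈ rgBall H (k + 1) X :=
  t1v_ball_add H X h (by rw [SimpleGraph.edist_eq_one_iff_adj.2 hvw]; rfl)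

theorem t1v_lv_adj {ρ : ℕ} {v w : Fin n} (h : v ∈ rgBall H ρ X) (hvw : H.Adj v w) : t1vLv H X w ≤ t1vLv H X v + 1 :=
  t1v_lv_le H X (t1v_ball_adj H X (t1v_lv_mem H X h) hvw)

/-- every vertex of a ball off `X` has a parent -/
theorem t1v_parent {ρ : ℕ} {v : Fin n} (h : v ∈ rgBall H ρ X) (hX : v ∉ X) :
    ∃ w, H.Adj w v ∧ t1vLv H X w + 1 = t1vLv H X v := by
  have h0 := t1v_lv_pos H X h hX
  obtain ⟨k, hk⟩ : ∃ k, t1vLv H X v = k + 1 := ⟨t1vLv H X v - 1, by omega⟩
  have h1 := t1v_lv_mem H X h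
  rw [hk, rg_mem_ball] at h1
  obtain ⟨p, hp, h2⟩ := h1
  obtain ⟨w, hw, hwv⟩ := lc7_edist_succ H p v k h2
  have hwB : w ∈ rgBall H k X := (rg_mem_ball _ _ _ _).2 ⟨p, hp, hw⟩
  rcases hwv with rfl | hwv
  · have := t1v_lv_le H X hwB
    omega
  · refine ⟨w, hwv, ?_⟩
    have e1 := t1v_lv_le H X hwB
    have e2 := t1v_lv_adj H X hwB hwv
    omega

/-- parent maps exist -/
theorem t1v_par_exists (ρ : ℕ) : ∃ par, T1vPar H X ρ par := by
  classical
  choose! f hf using fun v (hv : v ∈ rgBall H ρ X ∧ v ∉ X) => t1v_parent H X hv.1 hv.2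
  refine ⟨fun v => if v ∈ rgBall H ρ X ∧ v ∉ X then f v else v, ?_, ?_, ?_⟩
  · intro v h1 h2
    rw [if_pos ⟨h1, h2⟩]
    exact (hf v ⟨h1, h2⟩).1
  · intro v h1 h2
    rw [if_pos ⟨h1, h2⟩]
    exact (hf v ⟨h1, h2⟩).2
  · intro v hv
    rw [if_neg]
    rintro ⟨h1, h2⟩
    rcases hv with hv | hv
    · exact hv h1
    · exact h2 hv

end Level

/-! ## 2. Parents, ancestors, non-parent darts -/

section Parent

variable {n : ℕ} {H : Gr n} {X : Finset (Fin n)} {ρ : ℕ} {par : Fin n → Fin n}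

theorem T1vPar.mem (hp : T1vPar H X ρ par) {v : Fin n} (h : par v ≠ v) : v ∈ rgBall H ρ X ∧ v ∉ X := by
  by_contra hc
  refine h (hp.fix v ?_)
  by_cases h1 : v ∈ rgBall H ρ X
  · exact Or.inr (by_contra fun h2 => hc ⟨h1, h2⟩)
  · exact Or.inl h1

/-- **LEAF** the parent stays in the ball.   Plan: `v ∈ X`: `fix`.  Else `t1v_ball_adj` from `v` puts `par v` in the ball of radius `ρ+1`, then `t1v_mem_iff` and `hp.lv`, `t1v_lv_le`. -/
theorem T1vPar.par_mem (hp : T1vPar H X ρ par) {v : Fin n} (h : v ∈ rgBall H ρ X) : par v ∈ rgBall H ρ X := by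
  by_cases hX : v ∈ X
  · rw [hp.fix v (Or.inr hX)]; exact h
  · have h1 : par v ∈ rgBall H (ρ + 1) X := t1v_ball_adj H X h (hp.adj v h hX).symm
    rw [t1v_mem_iff H X h1]
    have h2 := hp.lv v h hX
    have h3 := t1v_lv_le H X h
    omega

/-- **LEAF** `unfold t1vAnc`, `Nat.sub_self`, `Function.iterate_zero`. -/
theorem t1v_anc_self {m : ℕ} {y : Fin n} (h : t1vLv H X y = m) : t1vAnc H X par m y = y := by
  unfold t1vAnc
  rw [h, Nat.sub_self, Function.iterate_zero, id]

/-- **LEAF** Plan: `y ∉ X` (`t1v_lv_zero`), `hp.lv`: `lv y - m = (lv (par y) - m) + 1`, `Function.iterate_succ_apply`. -/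
theorem t1v_anc_par (hp : T1vPar H X ρ par) {m : ℕ} {y : Fin n} (hy : y ∈ rgBall H ρ X) (h : m < t1vLv H X y) :
    t1vAnc H X par m (par y) = t1vAnc H X par m y := by
  have hX : y ∉ X := fun hX => by rw [t1v_lv_zero H X hX] at h; omega
  have h1 := hp.lv y hy hX
  unfold t1vAnc
  rw [show t1vLv H X y - m = (t1vLv H X (par y) - m) + 1 by omega, Function.iterate_succ_apply]

open Classical in

/-- **LEAF** the parent graph is a forest.
Plan: a cycle `c`; `u ∈ c.support` of maximal `lv` (`Finset.exists_max_image` on `c.support.toFinset`); `c' = c.rotate u hu`, `hc.rotate`; `c'.adj_snd`, `c'.adj_penultimate` (`hc'.not_nil`);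
both `c'.snd`, `c'.penultimate` are in the support (`Walk.mem_support_rotate_iff`), so their level is `≤ lv u`; a neighbour `y` of `u` with `par y = u` has the level `lv u + 1`: so both are `par u`; `IsCycle.snd_ne_penultimate`. -/
theorem t1v_pg_acyclic {V : Type} (par : V → V) (lv : V → ℕ) (h : ∀ v, par v ≠ v → lv (par v) + 1 = lv v) :
    (t1vPG par).IsAcyclic := by
  classical
  intro v c hc
  obtain ⟨u, hu, hmax⟩ := Finset.exists_max_image c.support.toFinset lv ⟨v, by simp⟩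
  rw [List.mem_toFinset] at hu
  have hc' : (c.rotate u hu).IsCycle := SimpleGraph.Walk.IsCycle.rotate hu hc
  have hnil := hc'.not_nil
  have key : ∀ y, y ∈ (c.rotate u hu).support → (t1vPG par).Adj u y → y = par u := by
    intro y hy hadj
    rw [SimpleGraph.Walk.mem_support_rotate_iff] at hy
    have h1 := hmax y (List.mem_toFinset.2 hy)
    rcases hadj.2 with h2 | h2
    · exact h2.symm
    · have h3 := h y (by rw [h2]; exact hadj.1)
      rw [h2] at h3
      omega
  have e1 := key _ (SimpleGraph.Walk.getVert_mem_support _ 1) (SimpleGraph.Walk.adj_snd hnil)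
  have e2 := key _ (SimpleGraph.Walk.getVert_mem_support _ _) (SimpleGraph.Walk.adj_penultimate hnil).symm
  exact hc'.snd_ne_penultimate (e1.trans e2.symm)

/-- **LEAF** at most `2 |X|` non-parent darts.
Plan: `B = rgBall H ρ X`, `Dt = (B ×ˢ B).filter Adj`; `hS B` + `tg_card_pairs`: `|Dt| ≤ 2 |B|` (in `rgBG` the adjacency inside `B` is that of `H`).
`P↑ = (B \ X).image (y ↦ (y, par y))`, `P↓ = (B \ X).image (y ↦ (par y, y))`: injective images, inside `Dt` (`hp.adj`, `par_mem`), disjoint from each other (levels) and from `N`;  `|N| + 2 (|B| - |X|) ≤ 2 |B|`, `X ⊆ B`. -/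
theorem t1v_N_card (hp : T1vPar H X ρ par) (hS : TgSparse (rgBG H ρ X)) : (t1vN H X ρ par).card ≤ 2 * X.card := by
  classical
  have hXB : X ⊆ rgBall H ρ X := fun v hv => rg_self_mem_ball H ρ hv
  have hDt_card : ((rgBall H ρ X ×ˢ rgBall H ρ X).filter fun e : Fin n × Fin n => H.Adj e.1 e.2).card
      ≤ 2 * (rgBall H ρ X).card := by
    have h1 := hS (rgBall H ρ X)
    rw [← tg_card_pairs] at h1
    refine le_trans (Finset.card_le_card ?_) h1
    intro e he
    rw [Finset.mem_filter, Finset.mem_product] at he ⊢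
    exact ⟨he.1, he.2, he.1.1, he.1.2⟩
  have cu : ((rgBall H ρ X \ X).image fun y => (y, par y)).card = (rgBall H ρ X).card - X.card := by
    rw [Finset.card_image_of_injective _ (fun y y' h => (Prod.mk.injEq _ _ _ _ ▸ h).1), Finset.card_sdiff_of_subset hXB]
  have cd : ((rgBall H ρ X \ X).image fun y => (par y, y)).card = (rgBall H ρ X).card - X.card := by
    rw [Finset.card_image_of_injective _ (fun y y' h => (Prod.mk.injEq _ _ _ _ ▸ h).2), Finset.card_sdiff_of_subset hXB]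
  have d1 : Disjoint (t1vN H X ρ par) ((rgBall H ρ X \ X).image fun y => (y, par y)) := by
    rw [Finset.disjoint_left]
    intro e he he'
    rw [t1vN, Finset.mem_filter] at he
    rw [Finset.mem_image] at he'
    obtain ⟨y, _, rfl⟩ := he'
    exact he.2.2.1 rfl
  have d2 : Disjoint (t1vN H X ρ par ∪ (rgBall H ρ X \ X).image fun y => (y, par y))
      ((rgBall H ρ X \ X).image fun y => (par y, y)) := by
    rw [Finset.disjoint_left]
    intro e he he'
    rw [Finset.mem_image] at he'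
    obtain ⟨y, hy, rfl⟩ := he'
    rw [Finset.mem_union] at he
    rcases he with he | he
    · rw [t1vN, Finset.mem_filter] at he
      exact he.2.2.2 rfl
    · rw [Finset.mem_image] at he
      obtain ⟨y', hy', h⟩ := he
      rw [Prod.mk.injEq] at h
      rw [Finset.mem_sdiff] at hy hy'
      have l1 := hp.lv y hy.1 hy.2
      have l2 := hp.lv y' hy'.1 hy'.2
      rw [h.2] at l2
      rw [← h.1] at l1
      omega
  have hsub : (t1vN H X ρ par ∪ (rgBall H ρ X \ X).image fun y => (y, par y)) ∪ ((rgBall H ρ X \ X).image fun y => (par y, y))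
      ⊆ (rgBall H ρ X ×ˢ rgBall H ρ X).filter fun e : Fin n × Fin n => H.Adj e.1 e.2 := by
    intro e he
    rw [Finset.mem_union, Finset.mem_union] at he
    rw [Finset.mem_filter, Finset.mem_product]
    rcases he with (he | he) | he
    · rw [t1vN, Finset.mem_filter, Finset.mem_product] at he
      exact ⟨he.1, he.2.1⟩
    · rw [Finset.mem_image] at he
      obtain ⟨y, hy, rfl⟩ := he
      rw [Finset.mem_sdiff] at hy
      exact ⟨⟨hy.1, hp.par_mem hy.1⟩, (hp.adj y hy.1 hy.2).symm⟩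
    · rw [Finset.mem_image] at he
      obtain ⟨y, hy, rfl⟩ := he
      rw [Finset.mem_sdiff] at hy
      exact ⟨⟨hp.par_mem hy.1, hy.1⟩, hp.adj y hy.1 hy.2⟩
  have hc := Finset.card_le_card hsub
  rw [Finset.card_union_of_disjoint d2, Finset.card_union_of_disjoint d1, cu, cd] at hc
  have hX := Finset.card_le_card hXB
  omega

open Classical in
/-- **LEAF** spheres.   Plan: induction on `k`; `k = 0`: `lc7_ball_zero`; step: a vertex of level `k+1` has a parent of level `k` (`t1v_parent`), so the sphere `k+1` lies in the `biUnion` of the neighbourhoods of the sphere `k`; `lc7_mem_reg`. -/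
theorem t1v_sphere_card {d : ℕ} (hH : H ∈ regularGraphs n d) (k : ℕ) :
    ((rgBall H k X).filter fun u => t1vLv H X u = k).card ≤ X.card * d ^ k := by
  have hH' := (lc7_mem_reg n d H).1 hH
  induction k with
  | zero =>
    rw [lc7_ball_zero, pow_zero, mul_one]
    exact Finset.card_filter_le _ _
  | succ k ih =>
    have hsub : ((rgBall H (k + 1) X).filter fun u => t1vLv H X u = k + 1)
        ⊆ ((rgBall H k X).filter fun u => t1vLv H X u = k).biUnion fun w => Finset.univ.filter fun u => H.Adj w u := by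
      intro u hu
      rw [Finset.mem_filter] at hu
      have hX : u ∉ X := fun hX => by have := t1v_lv_zero H X hX; omega
      obtain ⟨w, hw, hl⟩ := t1v_parent H X hu.1 hX
      have hwB : w ∈ rgBall H (k + 1 + 1) X := t1v_ball_adj H X hu.1 hw.symm
      rw [Finset.mem_biUnion]
      refine ⟨w, Finset.mem_filter.2 ⟨(t1v_mem_iff H X hwB).2 (by omega), by omega⟩, Finset.mem_filter.2 ⟨Finset.mem_univ _, hw⟩⟩
    calc _ ≤ _ := Finset.card_le_card hsub
      _ ≤ ((rgBall H k X).filter fun u => t1vLv H X u = k).card * d :=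
          Finset.card_biUnion_le_card_mul _ _ _ fun w _ => (hH' w).le
      _ ≤ X.card * d ^ k * d := Nat.mul_le_mul_right _ ih
      _ = X.card * d ^ (k + 1) := by rw [pow_succ, mul_assoc]

/-- **LEAF** `t1vCl ⊆` sphere (`t1v_mem_iff`), `t1v_sphere_card`. -/
theorem t1v_cl_card {d : ℕ} (hH : H ∈ regularGraphs n d) (m : ℕ) : (t1vCl H X ρ par m).card ≤ X.card * d ^ m := by
  classical
  refine le_trans (Finset.card_le_card ?_) (t1v_sphere_card (X := X) hH m)
  intro u hu
  rw [t1vCl, Finset.mem_filter] at hu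
  exact Finset.mem_filter.2 ⟨(t1v_mem_iff H X hu.1).2 hu.2.1.le, hu.2.1⟩

/-- **LEAF** one step from the branch of a clean vertex.
Plan: `(y,y') ∉ N` (clean, `e = (y,y')`), so `par y = y'` or `par y' = y`.
`par y' = y`: `T1vPar.mem` (`y' ≠ y`), `hp.lv`: `lv y' = lv y + 1 > m`, `t1v_anc_par`.     `par y = y'`: `lv y' + 1 = lv y`; if `lv y = m` then `y = u` (`t1v_anc_self`), against `hne`; else `t1v_anc_par`. -/
theorem t1v_step (hp : T1vPar H X ρ par) {m : ℕ} {u y y' : Fin n} (hu : u ∈ t1vCl H X ρ par m) (hy : T1vBr H X par m u y)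
    (hyB : y ∈ rgBall H ρ X) (hyB' : y' ∈ rgBall H ρ X) (hadj : H.Adj y y') (hne : s(y, y') ≠ s(par u, u)) :
    T1vBr H X par m u y' ∧ (t1vPG par).Adj y y' := by
  classical
  rw [t1vCl, Finset.mem_filter] at hu
  obtain ⟨huB, hum, hcl⟩ := hu
  have hN : (y, y') ∉ t1vN H X ρ par := fun h => hcl _ h hy
  have hpp : par y = y' ∨ par y' = y := by
    by_contra hc
    push Not at hc
    exact hN (by rw [t1vN, Finset.mem_filter, Finset.mem_product]; exact ⟨⟨hyB, hyB'⟩, hadj, hc.1, hc.2⟩)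
  refine ⟨?_, hadj.ne, hpp⟩
  rcases hpp with h1 | h1
  · have hm := hp.mem (v := y) (by rw [h1]; exact hadj.ne')
    have hl := hp.lv y hm.1 hm.2
    rw [h1] at hl
    by_cases he : t1vLv H X y = m
    · exfalso
      have hyu : y = u := by rw [← hy.2, t1v_anc_self he]
      apply hne
      rw [← h1, hyu]
      exact Sym2.eq_swap
    · have hlt : m < t1vLv H X y := lt_of_le_of_ne hy.1 (Ne.symm he)
      refine ⟨by omega, ?_⟩
      rw [← h1, t1v_anc_par hp hyB hlt]
      exact hy.2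
  · have hm := hp.mem (v := y') (by rw [h1]; exact hadj.ne)
    have hl := hp.lv y' hm.1 hm.2
    rw [h1] at hl
    have hlt : m < t1vLv H X y' := by
      have := hy.1
      omega
    refine ⟨hlt.le, ?_⟩
    rw [← t1v_anc_par hp hyB' hlt, h1]
    exact hy.2

end Parent

/-! ## 3. General lemmas on distances -/

section Dist

/-- **LEAF** split a short walk.   Plan: induction on `k` with `lc7_edist_succ` (from `a`); `k = 0`: `y = w`, `y' = b`; step: `w` with `edist a w ≤ j+k+1`, induction hypothesis for `(a,w)`, `edist b y' ≤ edist b w + edist w y' ≤ 1 + k`. -/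
theorem t1v_split {V : Type} (K : SimpleGraph V) (a : V) (j k : ℕ) : ∀ b : V, K.edist a b ≤ ((j + k + 1 : ℕ) : ℕ∞) →
    ∃ y y', K.edist a y ≤ j ∧ K.edist b y' ≤ k ∧ (y = y' ∨ K.Adj y y') := by
  induction k with
  | zero =>
    intro b h
    obtain ⟨w, hw, hwb⟩ := lc7_edist_succ K a b j (by simpa using h)
    exact ⟨w, b, hw, by simp, hwb⟩
  | succ k ih =>
    intro b h
    obtain ⟨w, hw, hwb⟩ := lc7_edist_succ K a b (j + k + 1) (by
      have e : j + (k + 1) + 1 = j + k + 1 + 1 := by omega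
      rw [e] at h
      exact h)
    obtain ⟨y, y', h1, h2, h3⟩ := ih w hw
    refine ⟨y, y', h1, ?_, h3⟩
    have hbw : K.edist b w ≤ 1 := by
      rcases hwb with rfl | hwb
      · simp
      · rw [SimpleGraph.edist_comm, SimpleGraph.edist_eq_one_iff_adj.2 hwb]
    calc K.edist b y' ≤ K.edist b w + K.edist w y' := SimpleGraph.edist_triangle
      _ ≤ 1 + (k : ℕ∞) := add_le_add hbw h2
      _ = ((k + 1 : ℕ) : ℕ∞) := by push_cast; rw [add_comm]

theorem t1v_ball_anti {n : ℕ} {K H : Gr n} (h : K ≤ H) (k : ℕ) (X : Finset (Fin n)) : rgBall K k X ⊆ rgBall H k X := by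
  intro y hy
  rw [rg_mem_ball] at hy ⊢
  obtain ⟨p, hp, h1⟩ := hy
  exact ⟨p, hp, (SimpleGraph.edist_anti h).trans h1⟩

theorem t1v_le_edist {V : Type} (K : SimpleGraph V) (a b : V) (m : ℕ) (h : ¬ K.edist a b ≤ (m : ℕ∞)) :
    ((m + 1 : ℕ) : ℕ∞) ≤ K.edist a b := by
  push_cast
  exact Order.add_one_le_of_lt (not_le.1 h)

/-- **LEAF** a deleted edge of a tree-like ball: its ends are far apart in the rest.
Plan: else `t1v_split` (`j = k = R`): `y, y'`; `lc7_ball_reach` in `rgBG K R {b}`, `rgBG K R {c}`; all these graphs are `≤ Γ \ fromEdgeSet {s(b,c)}`, `Γ = rgBG H R {b,c}` (`t1v_ball_anti`, `¬ K.Adj b c`);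
so `b`, `c` are joined in `Γ` minus the edge: against `SimpleGraph.isAcyclic_iff_forall_adj_isBridge`, `SimpleGraph.isBridge_iff`. -/
theorem t1v_bridge {n : ℕ} {H K : Gr n} {R : ℕ} {b c : Fin n} (hK : K ≤ H) (hbc : ¬ K.Adj b c) (hadj : H.Adj b c)
    (ht : RgTl H R {b, c}) : ¬ K.edist b c ≤ ((2 * R + 1 : ℕ) : ℕ∞) := by
  intro hcon
  obtain ⟨y, y', h1, h2, h3⟩ := t1v_split K b R R c (by
    have e : R + R + 1 = 2 * R + 1 := by omega
    rw [e]; exact hcon)
  set Γ := rgBG H R {b, c} with hΓ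
  have hb : b ∈ rgBall H R {b, c} := rg_self_mem_ball H R (by simp)
  have hc : c ∈ rgBall H R {b, c} := rg_self_mem_ball H R (by simp)
  have hΓadj : Γ.Adj b c := ⟨hadj, hb, hc⟩
  -- monotonicity of the small graphs
  have hsub : ∀ p ∈ ({b, c} : Finset (Fin n)), rgBG K R {p} ≤ Γ \ SimpleGraph.fromEdgeSet {s(b, c)} := by
    intro p hp u v huv
    obtain ⟨a1, a2, a3⟩ := huv
    have hin : ∀ q, q ∈ rgBall K R {p} → q ∈ rgBall H R {b, c} := by
      intro q hq
      have := t1v_ball_anti hK R {p} hq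
      rw [rg_mem_ball] at this ⊢
      obtain ⟨p', hp', h'⟩ := this
      rw [Finset.mem_singleton] at hp'
      subst hp'
      exact ⟨p', hp, h'⟩
    rw [SimpleGraph.sdiff_adj]
    refine ⟨⟨hK a1, hin _ a2, hin _ a3⟩, ?_⟩
    rw [SimpleGraph.fromEdgeSet_adj]
    rintro ⟨e, -⟩
    rw [Set.mem_singleton_iff, Sym2.eq_iff] at e
    rcases e with ⟨rfl, rfl⟩ | ⟨rfl, rfl⟩
    · exact hbc a1
    · exact hbc a1.symm
  have r1 : (Γ \ SimpleGraph.fromEdgeSet {s(b, c)}).Reachable b y :=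
    (lc7_ball_reach K R b y ((rg_mem_ball _ _ _ _).2 ⟨b, by simp, h1⟩)).mono (hsub b (by simp))
  have r2 : (Γ \ SimpleGraph.fromEdgeSet {s(b, c)}).Reachable c y' :=
    (lc7_ball_reach K R c y' ((rg_mem_ball _ _ _ _).2 ⟨c, by simp, h2⟩)).mono (hsub c (by simp))
  have r3 : (Γ \ SimpleGraph.fromEdgeSet {s(b, c)}).Reachable y y' := by
    rcases h3 with rfl | h3
    · exact SimpleGraph.Reachable.refl _
    · refine SimpleGraph.Adj.reachable ?_
      rw [SimpleGraph.sdiff_adj]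
      have hy : y ∈ rgBall H R {b, c} := (rg_mem_ball _ _ _ _).2 ⟨b, by simp, (SimpleGraph.edist_anti hK).trans h1⟩
      have hy' : y' ∈ rgBall H R {b, c} := (rg_mem_ball _ _ _ _).2 ⟨c, by simp, (SimpleGraph.edist_anti hK).trans h2⟩
      refine ⟨⟨hK h3, hy, hy'⟩, ?_⟩
      rw [SimpleGraph.fromEdgeSet_adj]
      rintro ⟨e, -⟩
      rw [Set.mem_singleton_iff, Sym2.eq_iff] at e
      rcases e with ⟨rfl, rfl⟩ | ⟨rfl, rfl⟩
      · exact hbc h3
      · exact hbc h3.symm
  have hbr := (SimpleGraph.isAcyclic_iff_forall_adj_isBridge.1 ht) hΓadj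
  rw [SimpleGraph.isBridge_iff] at hbr
  exact hbr ((r1.trans r3).trans r2.symm)

/-- **LEAF** copy of `tgr_sparse_pair` with a free radius. -/
theorem t1v_sparse_pair {n : ℕ} {H : Gr n} {ρ R' : ℕ} (hS : RgStruct H R') (hR : 3 * ρ + 1 ≤ R') (x y : Fin n) :
    TgSparse (rgBG H ρ {x, y}) := by
  classical
  by_cases hnear : H.edist x y ≤ (2 * ρ + 1 : ℕ)
  · refine (hS x).sparse.mono (tgIn_mono H ?_)
    intro w hw
    rw [tgr_ball_pair, Finset.mem_union, tgr_mem_ball1, tgr_mem_ball1] at hw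
    rw [tgr_mem_ball1]
    rcases hw with hw | hw
    · exact hw.trans (by exact_mod_cast (by omega : ρ ≤ R'))
    · calc H.edist x w ≤ H.edist x y + H.edist y w := SimpleGraph.edist_triangle
        _ ≤ (2 * ρ + 1 : ℕ) + (ρ : ℕ) := add_le_add hnear hw
        _ ≤ (R' : ℕ) := by exact_mod_cast (by omega : 2 * ρ + 1 + ρ ≤ R')
  · have e : rgBG H ρ {x, y} = tgIn H (rgBall H ρ {x} ∪ rgBall H ρ {y}) := by
      rw [rgBG, tgr_ball_pair]; rfl
    rw [e]
    refine tg_sparse_union H ?_ ?_ (tgr_sparse_ball hS (by omega) x) (tgr_sparse_ball hS (by omega) y)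
    · rw [Finset.disjoint_left]
      intro w h1 h2
      rw [tgr_mem_ball1] at h1 h2
      apply hnear
      calc H.edist x y ≤ H.edist x w + H.edist w y := SimpleGraph.edist_triangle
        _ ≤ (ρ : ℕ) + (ρ : ℕ) := add_le_add h1 (by rw [SimpleGraph.edist_comm]; exact h2)
        _ ≤ (2 * ρ + 1 : ℕ) := by exact_mod_cast (by omega : ρ + ρ ≤ 2 * ρ + 1)
    · intro a ha b hb hab
      rw [tgr_mem_ball1] at ha hb
      apply hnear
      have h1 : H.edist a b = 1 := SimpleGraph.edist_eq_one_iff_adj.mpr hab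
      calc H.edist x y ≤ H.edist x a + H.edist a y := SimpleGraph.edist_triangle
        _ ≤ H.edist x a + (H.edist a b + H.edist b y) := by gcongr; exact SimpleGraph.edist_triangle
        _ ≤ (ρ : ℕ) + (1 + (ρ : ℕ)) := by
            gcongr
            · exact h1.le
            · rw [SimpleGraph.edist_comm]; exact hb
        _ ≤ (2 * ρ + 1 : ℕ) := by
            have : ((ρ : ℕ) : ℕ∞) + (1 + (ρ : ℕ)) = ((ρ + (1 + ρ) : ℕ) : ℕ∞) := by push_cast; ring
            rw [this]
            exact_mod_cast (by omega : ρ + (1 + ρ) ≤ 2 * ρ + 1)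

end Dist

/-! ## 4. The core graph; nice samples give valid marks -/

section Core

variable {n D : ℕ} {l R : ℕ} {o x : Fin n} {H : Gr n} {par : Fin n → Fin n} {a b c : Fin D → Fin n}

/-- **LEAF** unfold `t1K`, `SimpleGraph.sdiff_adj`, `SimpleGraph.fromEdgeSet_adj`, `Set.mem_range`, `Sum.exists`/`Sum.forall`. -/
theorem t1v_K_adj (H : Gr n) (par : Fin n → Fin n) (a b c : Fin D → Fin n) (y y' : Fin n) :
    (t1K H (t1vV par a b) (t1vW a c)).Adj y y' ↔
      H.Adj y y' ∧ (∀ i, s(par (a i), a i) ≠ s(y, y')) ∧ ∀ j, s(b j, c j) ≠ s(y, y') := by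
  unfold t1K
  rw [SimpleGraph.sdiff_adj, SimpleGraph.fromEdgeSet_adj]
  constructor
  · rintro ⟨h1, h2⟩
    exact ⟨h1, fun i hi => h2 ⟨⟨Sum.inl i, hi⟩, h1.ne⟩, fun j hj => h2 ⟨⟨Sum.inr j, hj⟩, h1.ne⟩⟩
  · rintro ⟨h1, h2, h3⟩
    refine ⟨h1, ?_⟩
    rintro ⟨⟨i | j, hi⟩, -⟩
    · exact h2 i hi
    · exact h3 j hi

theorem t1v_K_le (H : Gr n) (v w : T1I D → Fin n) : t1K H v w ≤ H := by
  unfold t1K
  exact sdiff_le

theorem T1vCtx.a_cl (h : T1vCtx l R o x H par a b c) (i : Fin D) : a i ∈ t1vCl H {o, x} (l + R + 2) par (l + 1) :=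
  (h.cl _).2 ⟨i, rfl⟩

theorem T1vCtx.a_lv (h : T1vCtx l R o x H par a b c) (i : Fin D) : t1vLv H {o, x} (a i) = l + 1 := by
  classical
  have := h.a_cl i
  rw [t1vCl, Finset.mem_filter] at this
  exact this.2.1

theorem T1vCtx.a_B (h : T1vCtx l R o x H par a b c) (i : Fin D) : a i ∈ rgBall H (l + R + 2) {o, x} := by
  classical
  have := h.a_cl i
  rw [t1vCl, Finset.mem_filter] at this
  exact this.1

theorem T1vCtx.a_notX (h : T1vCtx l R o x H par a b c) (i : Fin D) : a i ∉ ({o, x} : Finset (Fin n)) := by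
  intro hX
  have := t1v_lv_zero H {o, x} hX
  rw [h.a_lv i] at this
  omega

theorem T1vCtx.pa_lv (h : T1vCtx l R o x H par a b c) (i : Fin D) : t1vLv H {o, x} (par (a i)) = l := by
  have := h.hpar.lv (a i) (h.a_B i) (h.a_notX i)
  rw [h.a_lv i] at this
  omega

theorem T1vCtx.pa_adj (h : T1vCtx l R o x H par a b c) (i : Fin D) : H.Adj (par (a i)) (a i) :=
  h.hpar.adj (a i) (h.a_B i) (h.a_notX i)

theorem T1vCtx.b_out (h : T1vCtx l R o x H par a b c) (j : Fin D) {k : ℕ} (hk : k ≤ l + 2 * R + 2) :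
    b j ∉ rgBall H k {o, x} := fun hb => h.nice.outb j (lc7_ball_mono H hk _ hb)

theorem T1vCtx.c_out (h : T1vCtx l R o x H par a b c) (j : Fin D) {k : ℕ} (hk : k ≤ l + 2 * R + 2) :
    c j ∉ rgBall H k {o, x} := fun hb => h.nice.outc j (lc7_ball_mono H hk _ hb)

/-- **LEAF** `T` is the same in `K` and `H`.
Plan: `⊆`: `t1v_ball_anti`, `t1v_K_le`.   `⊇`: induction on `k ≤ l`: every `t ∈ rgBall H ρ X` with `lv t = k` is in `rgBall K k X`: `k = 0`: `t ∈ X` (`t1v_lv_pos`); step: `par t` has level `k`, `K.Adj (par t) t` by `t1v_K_adj`: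
a marked edge `s(par (a i), a i)` has an end of level `l+1` (`a_lv`), a sample edge has an end outside the ball (`b_out`); `t1v_ball_adj` for `K`. -/
theorem t1v_T_eq (h : T1vCtx l R o x H par a b c) :
    rgBall (t1K H (t1vV par a b) (t1vW a c)) l {o, x} = rgBall H l {o, x} := by
  refine Finset.Subset.antisymm (t1v_ball_anti (t1v_K_le H _ _) l _) ?_
  have key : ∀ k : ℕ, k ≤ l → ∀ t ∈ rgBall H (l + R + 2) {o, x}, t1vLv H {o, x} t = k →
      t ∈ rgBall (t1K H (t1vV par a b) (t1vW a c)) k {o, x} := by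
    intro k
    induction k with
    | zero =>
      intro _ t ht h0
      by_cases hX : t ∈ ({o, x} : Finset (Fin n))
      · exact rg_self_mem_ball _ 0 hX
      · have := t1v_lv_pos H _ ht hX
        omega
    | succ k ih =>
      intro hk t ht hl
      have hX : t ∉ ({o, x} : Finset (Fin n)) := fun hX => by have := t1v_lv_zero H _ hX; omega
      have h1 := h.hpar.lv t ht hX
      have h2 := h.hpar.par_mem ht
      have h3 := ih (by omega) (par t) h2 (by omega)
      refine t1v_ball_adj _ _ h3 ((t1v_K_adj H par a b c _ _).2 ⟨h.hpar.adj t ht hX, fun i hi => ?_, fun j hj => ?_⟩)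
      · have hai := h.a_lv i
        rcases Sym2.eq_iff.1 hi with ⟨-, e⟩ | ⟨-, e⟩
        · rw [e] at hai; omega
        · rw [e] at hai; omega
      · rcases Sym2.eq_iff.1 hj with ⟨e, -⟩ | ⟨e, -⟩
        · exact h.b_out j (by omega) (e ▸ h2)
        · exact h.b_out j (by omega) (e ▸ ht)
  intro t ht
  have ht' : t ∈ rgBall H (l + R + 2) {o, x} := lc7_ball_mono H (by omega) _ ht
  have hl := t1v_lv_le H _ ht
  exact lc7_ball_mono _ hl _ (key _ hl t ht' rfl)

/-- **LEAF** confinement.   Plan: induction on `m`; `m = 0`: `y = a i`, `t1v_anc_self`, `a_lv`.   Step: `lc7_edist_succ` in `K`: `w` with `K.edist (a i) w ≤ m`, `w = y` or `K.Adj w y`; `w`, `y` are in the ball of radius `l+1+m`, `l+1+m+1 ≤ ρ` (`t1v_ball_add`, `SimpleGraph.edist_anti`);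
`t1v_step` with `hne` from `t1v_K_adj` (the edge `s(par (a i), a i)` is not in `K`). -/
theorem t1v_conf (h : T1vCtx l R o x H par a b c) (i : Fin D) : ∀ m : ℕ, m ≤ R + 1 → ∀ y : Fin n,
    (t1K H (t1vV par a b) (t1vW a c)).edist (a i) y ≤ m → T1vBr H {o, x} par (l + 1) (a i) y := by
  intro m
  induction m with
  | zero =>
    intro _ y hy
    have e : (t1K H (t1vV par a b) (t1vW a c)).edist (a i) y = 0 := le_antisymm (by exact_mod_cast hy) zero_le
    rw [SimpleGraph.edist_eq_zero_iff] at e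
    subst e
    exact ⟨(h.a_lv i).ge, t1v_anc_self (h.a_lv i)⟩
  | succ m ih =>
    intro hm y hy
    obtain ⟨w, hw, hwy⟩ := lc7_edist_succ _ (a i) y m hy
    have hbw := ih (by omega) w hw
    rcases hwy with rfl | hwy
    · exact hbw
    · have ha : a i ∈ rgBall H (l + 1) {o, x} := (t1v_mem_iff H _ (h.a_B i)).2 (h.a_lv i).le
      have hwB : w ∈ rgBall H (l + 1 + m) {o, x} := t1v_ball_add H _ ha ((SimpleGraph.edist_anti (t1v_K_le H _ _)).trans hw)
      have hK := (t1v_K_adj H par a b c _ _).1 hwy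
      have hyB : y ∈ rgBall H (l + 1 + m + 1) {o, x} := t1v_ball_adj H _ hwB hK.1
      exact (t1v_step h.hpar (h.a_cl i) hbw (lc7_ball_mono H (by omega) _ hwB) (lc7_ball_mono H (by omega) _ hyB) hK.1 (hK.2.1 i).symm).1

/-- **LEAF** no point of the branch of `a i` is `K`-close to `T`.   Plan: induction on `m`; `m = 0`: `y = t`, level `≤ l`.  Step: `lc7_edist_succ` from `t`: `w`, `K.edist t w ≤ m`, `w = y` or `K.Adj w y`; levels `≤ l + m + 1 ≤ ρ`; if `y` is in the branch then so is `w` (`t1v_step` from `y` to `w`). -/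
theorem t1v_conf_T (h : T1vCtx l R o x H par a b c) (i : Fin D) {t : Fin n} (ht : t ∈ rgBall H l {o, x}) : ∀ m : ℕ, m ≤ R + 1 →
    ∀ y : Fin n, (t1K H (t1vV par a b) (t1vW a c)).edist t y ≤ m → ¬ T1vBr H {o, x} par (l + 1) (a i) y := by
  intro m
  induction m with
  | zero =>
    intro _ y hy hb
    have e : (t1K H (t1vV par a b) (t1vW a c)).edist t y = 0 := le_antisymm (by exact_mod_cast hy) zero_le
    rw [SimpleGraph.edist_eq_zero_iff] at e
    subst e
    have := t1v_lv_le H _ ht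
    have := hb.1
    omega
  | succ m ih =>
    intro hm y hy hb
    obtain ⟨w, hw, hwy⟩ := lc7_edist_succ _ t y m hy
    have hbw := ih (by omega) w hw
    rcases hwy with rfl | hwy
    · exact hbw hb
    · have hwB : w ∈ rgBall H (l + m) {o, x} := t1v_ball_add H _ ht ((SimpleGraph.edist_anti (t1v_K_le H _ _)).trans hw)
      have hK := (t1v_K_adj H par a b c _ _).1 hwy.symm
      have hyB : y ∈ rgBall H (l + m + 1) {o, x} := t1v_ball_adj H _ hwB hK.1.symm
      exact hbw (t1v_step h.hpar (h.a_cl i) hb (lc7_ball_mono H (by omega) _ hyB) (lc7_ball_mono H (by omega) _ hwB) hK.1 (hK.2.1 i).symm).1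

/-- **LEAF** `par (a i)` has level `l`: `t1v_T_eq`, `t1v_mem_iff`, `pa_lv`, `T1vPar.par_mem`. -/
theorem t1v_inT (h : T1vCtx l R o x H par a b c) (i : Fin D) :
    par (a i) ∈ rgBall (t1K H (t1vV par a b) (t1vW a c)) l {o, x} := by
  rw [t1v_T_eq h]
  exact (t1v_mem_iff H _ (h.hpar.par_mem (h.a_B i))).2 (h.pa_lv i).le

/-- **LEAF** Plan: `l = 0` trivial; else if `K.edist p (par (a i)) ≤ l - 1` then `par (a i) ∈ rgBall H (l-1) X` (`t1v_ball_anti`), level `≤ l - 1`, against `pa_lv`; `t1v_le_edist`. -/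
theorem t1v_deep (h : T1vCtx l R o x H par a b c) (i : Fin D) (p : Fin n) (hp : p ∈ ({o, x} : Finset (Fin n))) :
    (l : ℕ∞) ≤ (t1K H (t1vV par a b) (t1vW a c)).edist p (par (a i)) := by
  rcases Nat.eq_zero_or_pos l with h0 | h0
  · rw [h0]; exact zero_le
  · obtain ⟨l', rfl⟩ : ∃ l', l = l' + 1 := ⟨l - 1, by omega⟩
    refine t1v_le_edist _ p _ l' fun hc => ?_
    have h1 : par (a i) ∈ rgBall (t1K H (t1vV par a b) (t1vW a c)) l' {o, x} := (rg_mem_ball _ _ _ _).2 ⟨p, hp, hc⟩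
    have h2 := t1v_lv_le H _ (t1v_ball_anti (t1v_K_le H _ _) l' _ h1)
    have := h.pa_lv i
    omega

open Classical in
/-- **LEAF** the unswitched boundary darts inject into `N`.
Plan: `t1v_T_eq`; `Finset.card_le_card_of_forall_subsingleton` with `r (u,u') e := e = (u,u') ∨ (par u' = u ∧ T1vBr .. (l+1) u' e.1)`, target `t1vN`, then `t1v_N_card`, `Finset.card_le_two`.
A boundary dart `(u,u')` of `K`: `lv u ≤ l`, `lv u' = l+1` (`t1v_ball_adj`, `t1v_mem_iff`).  If it is not in `N`: `par u = u'` is impossible (levels), so `par u' = u`; `u'` is not clean (else `u' = a i` by `h.cl` and the edge is deleted: `t1v_K_adj`), so some `e ∈ N` starts in its branch.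
Uniqueness: `e = (u,u')` has `lv e.1 ≤ l`, a dart of the second kind `l+1 ≤ lv e.1`; two of the second kind: `u' = Anc e.1`, `u = par u'`. -/
theorem t1v_few (h : T1vCtx l R o x H par a b c) (hS : TgSparse (rgBG H (l + R + 2) {o, x})) :
    (Finset.univ.filter fun e : Fin n × Fin n => (t1K H (t1vV par a b) (t1vW a c)).Adj e.1 e.2 ∧
      e.1 ∈ rgBall (t1K H (t1vV par a b) (t1vW a c)) l {o, x} ∧ e.2 ∉ rgBall (t1K H (t1vV par a b) (t1vW a c)) l {o, x}).card ≤ 4 := by
  rw [t1v_T_eq h]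
  have hN : (t1vN H {o, x} (l + R + 2) par).card ≤ 4 := by
    have h1 := t1v_N_card h.hpar hS
    have h2 := Finset.card_le_two (a := o) (b := x)
    omega
  refine le_trans ?_ hN
  refine Finset.card_le_card_of_forall_subsingleton
    (fun (e e' : Fin n × Fin n) => e' = e ∨ (par e.2 = e.1 ∧ T1vBr H {o, x} par (l + 1) e.2 e'.1)) ?_ ?_
  · rintro ⟨u, u'⟩ he
    rw [Finset.mem_filter] at he
    obtain ⟨_, hK, hu, hu'⟩ := he
    simp only at hK hu hu'
    rw [t1v_K_adj] at hK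
    obtain ⟨hadj, hna, _⟩ := hK
    have hu1B : u' ∈ rgBall H (l + 1) {o, x} := t1v_ball_adj H _ hu hadj
    have huB : u ∈ rgBall H (l + R + 2) {o, x} := lc7_ball_mono H (by omega) _ hu
    have hu'B : u' ∈ rgBall H (l + R + 2) {o, x} := lc7_ball_mono H (by omega) _ hu1B
    have lu : t1vLv H {o, x} u ≤ l := t1v_lv_le _ _ hu
    have lu' : t1vLv H {o, x} u' = l + 1 := by
      refine le_antisymm (t1v_lv_le _ _ hu1B) ?_
      by_contra hc
      exact hu' ((t1v_mem_iff H _ hu'B).2 (by omega))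
    by_cases hNe : (u, u') ∈ t1vN H {o, x} (l + R + 2) par
    · exact ⟨(u, u'), hNe, Or.inl rfl⟩
    · have hpp : par u = u' ∨ par u' = u := by
        by_contra hc
        push Not at hc
        exact hNe (by rw [t1vN, Finset.mem_filter, Finset.mem_product]; exact ⟨⟨huB, hu'B⟩, hadj, hc.1, hc.2⟩)
      have hpu : par u' = u := by
        rcases hpp with h1 | h1
        · exfalso
          have hm := h.hpar.mem (v := u) (by rw [h1]; exact hadj.ne')
          have hl := h.hpar.lv u hm.1 hm.2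
          rw [h1] at hl
          omega
        · exact h1
      have hncl : u' ∉ t1vCl H {o, x} (l + R + 2) par (l + 1) := by
        intro hc
        obtain ⟨i, hi⟩ := (h.cl u').1 hc
        exact hna i (by rw [hi, hpu])
      rw [t1vCl, Finset.mem_filter] at hncl
      push Not at hncl
      obtain ⟨e, heN, hbr⟩ := hncl hu'B lu'
      exact ⟨e, heN, Or.inr ⟨hpu, hbr⟩⟩
  · intro e' _ e1 h1 e2 h2
    simp only [Finset.mem_filter, Finset.mem_univ, true_and, Set.mem_ofPred_eq] at h1 h2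
    obtain ⟨⟨_, hu1, _⟩, r1⟩ := h1
    obtain ⟨⟨_, hu2, _⟩, r2⟩ := h2
    have l1 : t1vLv H {o, x} e1.1 ≤ l := t1v_lv_le _ _ hu1
    have l2 : t1vLv H {o, x} e2.1 ≤ l := t1v_lv_le _ _ hu2
    rcases r1 with r1 | r1 <;> rcases r2 with r2 | r2
    · exact r1.symm.trans r2
    · exfalso
      have := r2.2.1
      rw [r1] at this
      omega
    · exfalso
      have := r1.2.1
      rw [r2] at this
      omega
    · have e22 : e1.2 = e2.2 := r1.2.2.symm.trans r2.2.2
      refine Prod.ext ?_ e22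
      rw [← r1.1, ← r2.1, e22]

theorem t1v32_a_ball (h : T1vCtx l R o x H par a b c) (i : Fin D) : a i ∈ rgBall H (l + 1) {o, x} := by
  have := t1v_lv_mem H {o, x} (h.a_B i)
  rwa [h.a_lv i] at this

theorem t1v32_pa_ball (h : T1vCtx l R o x H par a b c) (i : Fin D) : par (a i) ∈ rgBall H l {o, x} :=
  (t1v_mem_iff H {o, x} (h.hpar.par_mem (h.a_B i))).2 (h.pa_lv i).le

theorem t1v32_edist_adj {V : Type} {K : SimpleGraph V} {u y y' : V} {m : ℕ} (h1 : K.edist u y ≤ m) (h2 : K.Adj y y') :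
    K.edist u y' ≤ ((m + 1 : ℕ) : ℕ∞) := by
  calc K.edist u y' ≤ K.edist u y + K.edist y y' := SimpleGraph.edist_triangle
    _ ≤ (m : ℕ∞) + 1 := add_le_add h1 (by rw [SimpleGraph.edist_eq_one_iff_adj.2 h2])
    _ = ((m + 1 : ℕ) : ℕ∞) := by push_cast; rfl

/-- **LEAF** Plan: `rgBG K R {a i} ≤ t1vPG par`: an edge `(y,y')` of the ball: `t1v_conf` (`m = R`) for `y`; both are in `B` (levels `≤ l+1+R`); `t1v_step`.   Then `t1v_pg_acyclic` (`lv = t1vLv`, `T1vPar.mem`, `hpar.lv`) and `SimpleGraph.IsAcyclic.anti`. -/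
theorem t1v_tree_a (h : T1vCtx l R o x H par a b c) (i : Fin D) : RgTl (t1K H (t1vV par a b) (t1vW a c)) R {a i} := by
  have hK := t1v_K_le H (t1vV par a b) (t1vW a c)
  have hac : (t1vPG par).IsAcyclic :=
    t1v_pg_acyclic par (t1vLv H {o, x}) fun v hv => h.hpar.lv v (h.hpar.mem hv).1 (h.hpar.mem hv).2
  have hB : ∀ y, y ∈ rgBall (t1K H (t1vV par a b) (t1vW a c)) R {a i} →
      (t1K H (t1vV par a b) (t1vW a c)).edist (a i) y ≤ R ∧ y ∈ rgBall H (l + R + 2) {o, x} := by
    intro y hy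
    rw [rg_mem_ball] at hy
    obtain ⟨p, hp, h1⟩ := hy
    rw [Finset.mem_singleton] at hp
    subst hp
    refine ⟨h1, ?_⟩
    have := t1v_ball_add H {o, x} (t1v32_a_ball h i) ((SimpleGraph.edist_anti hK).trans h1)
    exact lc7_ball_mono H (by omega) _ this
  refine hac.anti ?_
  intro y y' hyy
  obtain ⟨hadj, hy, hy'⟩ := hyy
  have hbr := t1v_conf h i R (by omega) y (hB y hy).1
  have hne : s(y, y') ≠ s(par (a i), a i) := fun e => ((t1v_K_adj H par a b c y y').1 hadj).2.1 i e.symm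
  exact (t1v_step h.hpar (h.a_cl i) hbr (hB y hy).2 (hB y' hy').2 (hK hadj) hne).2

/-- **LEAF** `rgBG K R {s} ≤ rgBG H R {b j, c j}` (`t1v_ball_anti`, monotone in the centre set), `IsAcyclic.anti`, `h.nice.tl`. -/
theorem t1v_tree_s (h : T1vCtx l R o x H par a b c) (j : Fin D) (s : Fin n) (hs : s ∈ ({b j, c j} : Finset (Fin n))) :
    RgTl (t1K H (t1vV par a b) (t1vW a c)) R {s} := by
  have hK := t1v_K_le H (t1vV par a b) (t1vW a c)
  have hB : ∀ y, y ∈ rgBall (t1K H (t1vV par a b) (t1vW a c)) R {s} → y ∈ rgBall H R {b j, c j} := by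
    intro y hy
    rw [rg_mem_ball] at hy ⊢
    obtain ⟨p, hp, h1⟩ := hy
    rw [Finset.mem_singleton] at hp
    subst hp
    exact ⟨p, hs, (SimpleGraph.edist_anti hK).trans h1⟩
  refine (h.nice.tl j).anti ?_
  intro y y' hyy
  exact ⟨hK hyy.1, hB y hyy.2.1, hB y' hyy.2.2⟩

/-- **LEAF** Plan: else `t1v_split` (`j = k = R`): `y` in the branch of `a i`, `y'` in the branch of `a i'` (`t1v_conf`); `y = y'`: `a i = Anc y = a i'`; `K.Adj y y'`: `K.edist (a i) y' ≤ R+1`, `t1v_conf` again.   `h.inj`. -/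
theorem t1v_far_aa (h : T1vCtx l R o x H par a b c) {i i' : Fin D} (hii : i ≠ i') :
    ¬ (t1K H (t1vV par a b) (t1vW a c)).edist (a i) (a i') ≤ ((2 * R + 1 : ℕ) : ℕ∞) := by
  intro hle
  rw [show 2 * R + 1 = R + R + 1 by ring] at hle
  obtain ⟨y, y', h1, h2, h3⟩ := t1v_split _ (a i) R R (a i') hle
  have hy := t1v_conf h i R (by omega) y h1
  have hy' := t1v_conf h i' R (by omega) y' h2
  rcases h3 with rfl | h3
  · exact hii (h.inj (hy.2.symm.trans hy'.2))
  · have hy2 := t1v_conf h i (R + 1) le_rfl y' (t1v32_edist_adj h1 h3)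
    exact hii (h.inj (hy2.2.symm.trans hy'.2))

/-- **LEAF** `a i` is in the ball of radius `l+1`; `t1v_ball_add` puts `s` in the ball of radius `l+1+2R+1`: `b_out`, `c_out`. -/
theorem t1v_far_as (h : T1vCtx l R o x H par a b c) (i j : Fin D) (s : Fin n) (hs : s ∈ ({b j, c j} : Finset (Fin n))) :
    ¬ H.edist (a i) s ≤ ((2 * R + 1 : ℕ) : ℕ∞) := by
  intro hle
  have h1 := t1v_ball_add H {o, x} (t1v32_a_ball h i) hle
  rw [Finset.mem_insert, Finset.mem_singleton] at hs
  rcases hs with rfl | rfl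
  · exact h.b_out j (by omega) h1
  · exact h.c_out j (by omega) h1

/-- **LEAF** `t1v_bridge`, `t1v_K_adj` (the edge `s(b j, c j)` is deleted). -/
theorem t1v_far_bc (h : T1vCtx l R o x H par a b c) (j : Fin D) :
    ¬ (t1K H (t1vV par a b) (t1vW a c)).edist (b j) (c j) ≤ ((2 * R + 1 : ℕ) : ℕ∞) := by
  exact t1v_bridge (t1v_K_le H _ _) (fun hadj => ((t1v_K_adj H par a b c (b j) (c j)).1 hadj).2.2 j rfl) (h.nice.adj j) (h.nice.tl j)

/-- **LEAF** Plan: else `t1v_split` from `a i` to `t` (`j = k = R`): `y` in the branch (`t1v_conf`), `K.edist t y' ≤ R`; `y = y'`: `t1v_conf_T`;  `K.Adj y y'`: `K.edist t y ≤ R+1`, `t1v_conf_T` at `m = R+1`. -/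
theorem t1v_farT_a (h : T1vCtx l R o x H par a b c) (i : Fin D) {t : Fin n} (ht : t ∈ rgBall H l {o, x}) :
    ¬ (t1K H (t1vV par a b) (t1vW a c)).edist t (a i) ≤ ((2 * R + 1 : ℕ) : ℕ∞) := by
  intro hle
  rw [SimpleGraph.edist_comm, show 2 * R + 1 = R + R + 1 by ring] at hle
  obtain ⟨y, y', h1, h2, h3⟩ := t1v_split _ (a i) R R t hle
  have hy := t1v_conf h i R (by omega) y h1
  rcases h3 with rfl | h3
  · exact t1v_conf_T h i ht R (by omega) y h2 hy
  · exact t1v_conf_T h i ht (R + 1) le_rfl y (t1v32_edist_adj h2 h3.symm) hy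

/-- **LEAF** `t1v_ball_add`, `b_out`, `c_out`. -/
theorem t1v_farT_s (h : T1vCtx l R o x H par a b c) (j : Fin D) (s : Fin n) (hs : s ∈ ({b j, c j} : Finset (Fin n))) {t : Fin n}
    (ht : t ∈ rgBall H l {o, x}) : ¬ H.edist t s ≤ ((2 * R + 1 : ℕ) : ℕ∞) := by
  intro hle
  have h1 := t1v_ball_add H {o, x} ht hle
  rw [Finset.mem_insert, Finset.mem_singleton] at hs
  rcases hs with rfl | rfl
  · exact h.b_out j (by omega) h1
  · exact h.c_out j (by omega) h1

theorem t1v32_new (h : T1vCtx l R o x H par a b c) (i : T1I D) : ¬ H.Adj (t1vV par a b i) (t1vW a c (t1s D i)) := by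
  rcases i with i | i
  · intro hadj
    have hadj' : H.Adj (par (a i)) (c i) := hadj
    exact h.c_out i (by omega) (t1v_ball_adj H {o, x} (t1v32_pa_ball h i) hadj')
  · intro hadj
    have hadj' : H.Adj (b i) (a i) := hadj
    exact h.b_out i (by omega) (t1v_ball_adj H {o, x} (t1v32_a_ball h i) hadj'.symm)

/-- **LEAF** the five clauses of `Sw7Adm` (`σ = t1s D`: `inl i ↦ inr i`, `inr i ↦ inl i`).   All by levels: `par (a i)` level `l`, `a i` level `l+1`, `b j, c j` outside the ball of radius `l+2`; `h.inj`; different samples are different vertices (`h.nice.far` with `edist s s = 0`); `Sym2.eq_iff`. -/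
theorem t1v_adm (h : T1vCtx l R o x H par a b c) : Sw7Adm H (t1vV par a b) (t1vW a c) (t1s D) := by
  -- the four families
  have pb : ∀ i j, par (a i) ≠ b j := fun i j e => h.b_out j (by omega) (e ▸ t1v32_pa_ball h i)
  have pc : ∀ i j, par (a i) ≠ c j := fun i j e => h.c_out j (by omega) (e ▸ t1v32_pa_ball h i)
  have ab : ∀ i j, a i ≠ b j := fun i j e => h.b_out j (by omega) (e ▸ t1v32_a_ball h i)
  have ac : ∀ i j, a i ≠ c j := fun i j e => h.c_out j (by omega) (e ▸ t1v32_a_ball h i)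
  have pa : ∀ i j, par (a i) ≠ a j := by
    intro i j e
    have h1 := h.pa_lv i
    rw [e, h.a_lv j] at h1
    omega
  have smp : ∀ j j', ∀ s ∈ ({b j, c j} : Finset (Fin n)), s ∈ ({b j', c j'} : Finset (Fin n)) → j = j' := by
    intro j j' s hs hs'
    by_contra hne
    exact h.nice.far j j' hne s hs s hs' (by simp)
  refine ⟨?_, ?_, ?_, ?_, fun i hi => absurd hi (t1v32_new h i)⟩
  · rintro (i | j)
    · exact h.pa_adj i
    · exact h.nice.adj j
  · rintro (i | j) (i' | j') e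
    · have e' : s(par (a i), a i) = s(par (a i'), a i') := e
      rw [Sym2.eq_iff] at e'
      rcases e' with ⟨_, e2⟩ | ⟨e1, _⟩
      · rw [h.inj e2]
      · exact absurd e1 (pa i i')
    · have e' : s(par (a i), a i) = s(b j', c j') := e
      rw [Sym2.eq_iff] at e'
      rcases e' with ⟨e1, _⟩ | ⟨e1, _⟩
      · exact absurd e1 (pb i j')
      · exact absurd e1 (pc i j')
    · have e' : s(b j, c j) = s(par (a i'), a i') := e
      rw [Sym2.eq_iff] at e'
      rcases e' with ⟨e1, _⟩ | ⟨_, e2⟩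
      · exact absurd e1.symm (pb i' j)
      · exact absurd e2.symm (pc i' j)
    · have e' : s(b j, c j) = s(b j', c j') := e
      rw [Sym2.eq_iff] at e'
      rcases e' with ⟨e1, _⟩ | ⟨e1, _⟩
      · rw [smp j j' (b j) (by simp) (by rw [e1]; simp)]
      · rw [smp j j' (b j) (by simp) (by rw [e1]; simp)]
  · rintro (i | j) (i' | j') e
    · have e' : s(par (a i), c i) = s(par (a i'), c i') := e
      rw [Sym2.eq_iff] at e'
      rcases e' with ⟨_, e2⟩ | ⟨e1, _⟩
      · rw [smp i i' (c i) (by simp) (by rw [e2]; simp)]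
      · exact absurd e1 (pc i i')
    · have e' : s(par (a i), c i) = s(b j', a j') := e
      rw [Sym2.eq_iff] at e'
      rcases e' with ⟨e1, _⟩ | ⟨e1, _⟩
      · exact absurd e1 (pb i j')
      · exact absurd e1 (pa i j')
    · have e' : s(b j, a j) = s(par (a i'), c i') := e
      rw [Sym2.eq_iff] at e'
      rcases e' with ⟨e1, _⟩ | ⟨_, e2⟩
      · exact absurd e1.symm (pb i' j)
      · exact absurd e2.symm (pa i' j)
    · have e' : s(b j, a j) = s(b j', a j') := e
      rw [Sym2.eq_iff] at e'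
      rcases e' with ⟨_, e2⟩ | ⟨e1, _⟩
      · rw [h.inj e2]
      · exact absurd e1.symm (ab j' j)
  · rintro (i | j)
    · exact pc i i
    · exact fun e => ab j j e.symm

/-- **LEAF** `¬ H.Adj (par (a i)) (c i)`, `¬ H.Adj (b i) (a i)`: `t1v_ball_adj`, `b_out`, `c_out`. -/
theorem t1v_new (h : T1vCtx l R o x H par a b c) (i : T1I D) : ¬ H.Adj (t1vV par a b i) (t1vW a c (t1s D i)) := by
  exact t1v32_new h i

theorem t1v_not_le {K : Gr n} (hK : K ≤ H) {u u' : Fin n} {m : ℕ∞} (h : ¬ H.edist u u' ≤ m) : ¬ K.edist u u' ≤ m :=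
  fun h' => h ((SimpleGraph.edist_anti hK).trans h')

/-- GLUE: separation -/
theorem t1v_sep (h : T1vCtx l R o x H par a b c) (hS : TgSparse (rgBG H (l + R + 2) {o, x})) :
    T1Sep l R o x (t1K H (t1vV par a b) (t1vW a c)) (t1vV par a b) (t1vW a c) where
  inT := fun i => t1v_inT h i
  deep := fun i p hp => t1v_deep h i p hp
  few := t1v_few h hS
  tree := by
    rintro ((i | j) | j)
    · exact t1v_tree_a h i
    · exact t1v_tree_s h j (c j) (by simp)
    · exact t1v_tree_s h j (b j) (by simp)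
  far := by
    have hK := t1v_K_le H (t1vV par a b) (t1vW a c)
    intro s s' hss
    refine t1v_le_edist _ _ _ (2 * R + 1) ?_
    rcases s with (i | j) | j <;> rcases s' with (i' | j') | j'
    · exact t1v_far_aa h (fun e => hss (by rw [e]))
    · exact t1v_not_le hK (t1v_far_as h i j' (c j') (by simp))
    · exact t1v_not_le hK (t1v_far_as h i j' (b j') (by simp))
    · rw [SimpleGraph.edist_comm]
      exact t1v_not_le hK (t1v_far_as h i' j (c j) (by simp))
    · exact t1v_not_le hK (h.nice.far j j' (fun e => hss (by rw [e])) (c j) (by simp) (c j') (by simp))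
    · by_cases e : j = j'
      · subst e
        rw [SimpleGraph.edist_comm]
        exact t1v_far_bc h j
      · exact t1v_not_le hK (h.nice.far j j' e (c j) (by simp) (b j') (by simp))
    · rw [SimpleGraph.edist_comm]
      exact t1v_not_le hK (t1v_far_as h i' j (b j) (by simp))
    · by_cases e : j = j'
      · subst e
        exact t1v_far_bc h j
      · exact t1v_not_le hK (h.nice.far j j' e (b j) (by simp) (c j') (by simp))
    · exact t1v_not_le hK (h.nice.far j j' (fun e => hss (by rw [e])) (b j) (by simp) (b j') (by simp))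
  farT := by
    have hK := t1v_K_le H (t1vV par a b) (t1vW a c)
    intro s t ht
    rw [t1v_T_eq h] at ht
    refine t1v_le_edist _ _ _ (2 * R + 1) ?_
    rcases s with (i | j) | j
    · exact t1v_farT_a h i ht
    · exact t1v_not_le hK (t1v_farT_s h j (c j) (by simp) ht)
    · exact t1v_not_le hK (t1v_farT_s h j (b j) (by simp) ht)

/-- GLUE: nice samples give valid marks -/
theorem t1v_val (h : T1vCtx l R o x H par a b c) (hS : TgSparse (rgBG H (l + R + 2) {o, x})) :
    T1Val l R o x H (t1vV par a b) (t1vW a c) :=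
  ⟨t1v_adm h, t1v_new h, t1v_sep h hS⟩

end Core

/-! ## 5. Counting the nice samples -/

section Count

open Classical in
/-- **LEAF** admissible next samples.   `Y'` = forbidden vertices.   Plan: as `lc7_valid`: all darts `n d` (`lc7_card_fst` with `univ`) `⊆` good `∪` (first end in `Y'`) `∪` (second end in `Y'`) `∪` (not tree-like); `lc7_card_fst`, `lc7_card_snd`. -/
theorem t1v_next {n d : ℕ} {H : Gr n} (hH : H ∈ regularGraphs n d) (R : ℕ) (Y' : Finset (Fin n)) (δ : ℝ)
    (hδ : ((Finset.univ.filter fun e : Fin n × Fin n => H.Adj e.1 e.2 ∧ ¬ RgTl H R {e.1, e.2}).card : ℝ) ≤ δ * (n * d)) :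
    (n : ℝ) * d - δ * (n * d) - 2 * d * Y'.card ≤
      ((Finset.univ.filter fun e : Fin n × Fin n => H.Adj e.1 e.2 ∧ RgTl H R {e.1, e.2} ∧ e.1 ∉ Y' ∧ e.2 ∉ Y').card : ℝ) := by
  have h0 := lc7_card_fst hH Finset.univ
  have h1 := lc7_card_fst hH Y'
  have h2 := lc7_card_snd hH Y'
  have hsub : (Finset.univ.filter fun p : Fin n × Fin n => H.Adj p.1 p.2 ∧ p.1 ∈ (Finset.univ : Finset (Fin n)))
      ⊆ (((Finset.univ.filter fun e : Fin n × Fin n => H.Adj e.1 e.2 ∧ RgTl H R {e.1, e.2} ∧ e.1 ∉ Y' ∧ e.2 ∉ Y')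
        ∪ (Finset.univ.filter fun p : Fin n × Fin n => H.Adj p.1 p.2 ∧ p.1 ∈ Y'))
        ∪ (Finset.univ.filter fun p : Fin n × Fin n => H.Adj p.1 p.2 ∧ p.2 ∈ Y'))
        ∪ (Finset.univ.filter fun e : Fin n × Fin n => H.Adj e.1 e.2 ∧ ¬ RgTl H R {e.1, e.2}) := by
    intro p hp
    simp only [Finset.mem_filter, Finset.mem_univ, true_and, and_true, Finset.mem_union] at hp ⊢
    by_cases a1 : p.1 ∈ Y'
    · exact Or.inl (Or.inl (Or.inr ⟨hp, a1⟩))
    by_cases a2 : p.2 ∈ Y'
    · exact Or.inl (Or.inr ⟨hp, a2⟩)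
    by_cases a3 : RgTl H R {p.1, p.2}
    · exact Or.inl (Or.inl (Or.inl ⟨hp, a3, a1, a2⟩))
    · exact Or.inr ⟨hp, a3⟩
  have hc := Finset.card_le_card hsub
  have u1 := Finset.card_union_le (((Finset.univ.filter fun e : Fin n × Fin n => H.Adj e.1 e.2 ∧ RgTl H R {e.1, e.2} ∧ e.1 ∉ Y' ∧ e.2 ∉ Y')
        ∪ (Finset.univ.filter fun p : Fin n × Fin n => H.Adj p.1 p.2 ∧ p.1 ∈ Y'))
        ∪ (Finset.univ.filter fun p : Fin n × Fin n => H.Adj p.1 p.2 ∧ p.2 ∈ Y'))
        (Finset.univ.filter fun e : Fin n × Fin n => H.Adj e.1 e.2 ∧ ¬ RgTl H R {e.1, e.2})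
  have u2 := Finset.card_union_le ((Finset.univ.filter fun e : Fin n × Fin n => H.Adj e.1 e.2 ∧ RgTl H R {e.1, e.2} ∧ e.1 ∉ Y' ∧ e.2 ∉ Y')
        ∪ (Finset.univ.filter fun p : Fin n × Fin n => H.Adj p.1 p.2 ∧ p.1 ∈ Y'))
        (Finset.univ.filter fun p : Fin n × Fin n => H.Adj p.1 p.2 ∧ p.2 ∈ Y')
  have u3 := Finset.card_union_le (Finset.univ.filter fun e : Fin n × Fin n => H.Adj e.1 e.2 ∧ RgTl H R {e.1, e.2} ∧ e.1 ∉ Y' ∧ e.2 ∉ Y')
        (Finset.univ.filter fun p : Fin n × Fin n => H.Adj p.1 p.2 ∧ p.1 ∈ Y')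
  rw [h0, Finset.card_univ, Fintype.card_fin] at hc
  have hnat : n * d ≤ (Finset.univ.filter fun e : Fin n × Fin n => H.Adj e.1 e.2 ∧ RgTl H R {e.1, e.2} ∧ e.1 ∉ Y' ∧ e.2 ∉ Y').card
      + Y'.card * d + Y'.card * d
      + (Finset.univ.filter fun e : Fin n × Fin n => H.Adj e.1 e.2 ∧ ¬ RgTl H R {e.1, e.2}).card := by omega
  have hreal : (n : ℝ) * d ≤ ((Finset.univ.filter fun e : Fin n × Fin n => H.Adj e.1 e.2 ∧ RgTl H R {e.1, e.2} ∧ e.1 ∉ Y' ∧ e.2 ∉ Y').card : ℝ)
      + Y'.card * d + Y'.card * d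
      + ((Finset.univ.filter fun e : Fin n × Fin n => H.Adj e.1 e.2 ∧ ¬ RgTl H R {e.1, e.2}).card : ℝ) := by
    exact_mod_cast hnat
  linarith

/-- **LEAF** one more sample.   `Fin.cons`; cases `Fin.cases` on the indices; symmetry of `edist` for the pair `(0, succ j)`. -/
theorem t1v_nice_cons {n k : ℕ} {H : Gr n} {R : ℕ} {Y : Finset (Fin n)} {b c : Fin k → Fin n} (h : T1vNice H R Y b c) {e : Fin n × Fin n}
    (h1 : H.Adj e.1 e.2) (h2 : RgTl H R {e.1, e.2}) (h3 : e.1 ∉ Y) (h4 : e.2 ∉ Y)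
    (h5 : ∀ j, ∀ s ∈ ({b j, c j} : Finset (Fin n)), ∀ s' ∈ ({e.1, e.2} : Finset (Fin n)), ¬ H.edist s s' ≤ ((2 * R + 1 : ℕ) : ℕ∞)) :
    T1vNice H R Y (Fin.cons e.1 b : Fin (k + 1) → Fin n) (Fin.cons e.2 c : Fin (k + 1) → Fin n) where
  adj := by
    intro j
    induction j using Fin.cases with
    | zero => simpa using h1
    | succ j => simpa using h.adj j
  tl := by
    intro j
    induction j using Fin.cases with
    | zero => simpa using h2
    | succ j => simpa using h.tl j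
  outb := by
    intro j
    induction j using Fin.cases with
    | zero => simpa using h3
    | succ j => simpa using h.outb j
  outc := by
    intro j
    induction j using Fin.cases with
    | zero => simpa using h4
    | succ j => simpa using h.outc j
  far := by
    intro j j' hjj
    induction j using Fin.cases with
    | zero =>
      induction j' using Fin.cases with
      | zero => exact absurd rfl hjj
      | succ j' =>
        intro s hs s' hs'
        simp only [Fin.cons_zero, Fin.cons_succ] at hs hs'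
        rw [SimpleGraph.edist_comm]
        exact h5 j' s' hs' s hs
    | succ j =>
      induction j' using Fin.cases with
      | zero =>
        intro s hs s' hs'
        simp only [Fin.cons_zero, Fin.cons_succ] at hs hs'
        exact h5 j s hs s' hs'
      | succ j' =>
        intro s hs s' hs'
        simp only [Fin.cons_succ] at hs hs'
        exact h.far j j' (fun e => hjj (by rw [e])) s hs s' hs'

open Classical in
theorem t1v_nice_card_aux {n d : ℕ} {H : Gr n} (hH : H ∈ regularGraphs n d) (R : ℕ) (Y : Finset (Fin n)) (δ : ℝ)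
    (hδ : ((Finset.univ.filter fun e : Fin n × Fin n => H.Adj e.1 e.2 ∧ ¬ RgTl H R {e.1, e.2}).card : ℝ) ≤ δ * (n * d)) (D : ℕ) (mm : ℝ)
    (hmm : mm = (n : ℝ) * d - δ * (n * d) - 2 * d * (Y.card + 2 * D * ((d : ℝ) + 1) ^ (2 * R + 1))) (h0 : 0 ≤ mm) (k : ℕ) (hk : k ≤ D) :
    mm ^ k ≤ ((Finset.univ.filter fun p : (Fin k → Fin n) × (Fin k → Fin n) => T1vNice H R Y p.1 p.2).card : ℝ) := by
  induction k with
  | zero =>
    rw [pow_zero]
    have : 0 < (Finset.univ.filter fun p : (Fin 0 → Fin n) × (Fin 0 → Fin n) => T1vNice H R Y p.1 p.2).card := by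
      refine Finset.card_pos.2 ⟨(fun i => i.elim0, fun i => i.elim0), ?_⟩
      rw [Finset.mem_filter]
      exact ⟨Finset.mem_univ _, ⟨fun i => i.elim0, fun i => i.elim0, fun i => i.elim0, fun i => i.elim0, fun i => i.elim0⟩⟩
    exact_mod_cast this
  | succ k ih =>
    have ih' := ih (by omega)
    let U : (Fin k → Fin n) × (Fin k → Fin n) → Finset (Fin n) := fun p => Finset.univ.image p.1 ∪ Finset.univ.image p.2
    let Y' : (Fin k → Fin n) × (Fin k → Fin n) → Finset (Fin n) := fun p => Y ∪ rgBall H (2 * R + 1) (U p)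
    let ext : (Fin k → Fin n) × (Fin k → Fin n) → Finset (Fin n × Fin n) := fun p => Finset.univ.filter fun e : Fin n × Fin n =>
      H.Adj e.1 e.2 ∧ RgTl H R {e.1, e.2} ∧ e.1 ∉ Y' p ∧ e.2 ∉ Y' p
    have hle : ((Finset.univ.filter fun p : (Fin k → Fin n) × (Fin k → Fin n) => T1vNice H R Y p.1 p.2).sigma ext).card
        ≤ (Finset.univ.filter fun p : (Fin (k + 1) → Fin n) × (Fin (k + 1) → Fin n) => T1vNice H R Y p.1 p.2).card := by
      refine Finset.card_le_card_of_injOn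
        (fun q => ((Fin.cons q.2.1 q.1.1 : Fin (k + 1) → Fin n), (Fin.cons q.2.2 q.1.2 : Fin (k + 1) → Fin n))) ?_ ?_
      · rintro ⟨p, e⟩ hq
        simp only [Finset.coe_sigma, Set.mem_sigma_iff, Finset.mem_coe, Finset.mem_filter, Finset.mem_univ, true_and,
          ext, Y', Finset.mem_union, not_or] at hq
        simp only [Finset.coe_filter, Finset.mem_univ, true_and, Set.mem_ofPred_eq]
        obtain ⟨hp, h1, h2, ⟨h3, h3'⟩, ⟨h4, h4'⟩⟩ := hq
        refine t1v_nice_cons hp h1 h2 h3 h4 ?_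
        intro j s hs s' hs' hd
        have hsU : s ∈ U p := by
          simp only [Finset.mem_insert, Finset.mem_singleton] at hs
          simp only [U, Finset.mem_union, Finset.mem_image, Finset.mem_univ, true_and]
          rcases hs with rfl | rfl
          · exact Or.inl ⟨j, rfl⟩
          · exact Or.inr ⟨j, rfl⟩
        have hb : s' ∈ rgBall H (2 * R + 1) (U p) := by
          unfold rgBall
          rw [Finset.mem_filter]
          exact ⟨Finset.mem_univ _, s, hsU, hd⟩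
        simp only [Finset.mem_insert, Finset.mem_singleton] at hs'
        rcases hs' with rfl | rfl
        · exact h3' hb
        · exact h4' hb
      · rintro ⟨⟨b, c⟩, ⟨e1, e2⟩⟩ _ ⟨⟨b', c'⟩, ⟨e1', e2'⟩⟩ _ h
        simp only [Prod.mk.injEq] at h
        obtain ⟨h1, h2⟩ := h
        obtain ⟨h11, h12⟩ := Fin.cons_inj.1 h1
        obtain ⟨h21, h22⟩ := Fin.cons_inj.1 h2
        subst h11 h12 h21 h22
        rfl
    rw [Finset.card_sigma] at hle
    have hlow : ∀ p : (Fin k → Fin n) × (Fin k → Fin n), mm ≤ ((ext p).card : ℝ) := by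
      intro p
      refine le_trans ?_ (t1v_next hH R (Y' p) δ hδ)
      have hU : (U p).card ≤ 2 * k := by
        refine (Finset.card_union_le _ _).trans ?_
        have h1 : (Finset.univ.image p.1).card ≤ k := Finset.card_image_le.trans (by simp)
        have h2 : (Finset.univ.image p.2).card ≤ k := Finset.card_image_le.trans (by simp)
        omega
      have hY : (Y' p).card ≤ Y.card + 2 * D * (d + 1) ^ (2 * R + 1) := by
        refine (Finset.card_union_le _ _).trans ?_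
        refine Nat.add_le_add_left ?_ _
        refine (lc7_ball_card hH _ _).trans ?_
        exact Nat.mul_le_mul_right _ (hU.trans (by omega))
      have hYr : ((Y' p).card : ℝ) ≤ Y.card + 2 * D * ((d : ℝ) + 1) ^ (2 * R + 1) := by
        exact_mod_cast hY
      rw [hmm]
      have hd0 : (0 : ℝ) ≤ 2 * d := by positivity
      have := mul_le_mul_of_nonneg_left hYr hd0
      linarith
    have hsum : ((Finset.univ.filter fun p : (Fin k → Fin n) × (Fin k → Fin n) => T1vNice H R Y p.1 p.2).card : ℝ) * mm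
        ≤ ((∑ p ∈ Finset.univ.filter fun p : (Fin k → Fin n) × (Fin k → Fin n) => T1vNice H R Y p.1 p.2, (ext p).card : ℕ) : ℝ) := by
      rw [Nat.cast_sum, ← nsmul_eq_mul]
      exact Finset.card_nsmul_le_sum _ _ _ fun p _ => hlow p
    calc mm ^ (k + 1) = mm ^ k * mm := pow_succ _ _
      _ ≤ ((Finset.univ.filter fun p : (Fin k → Fin n) × (Fin k → Fin n) => T1vNice H R Y p.1 p.2).card : ℝ) * mm :=
          mul_le_mul_of_nonneg_right ih' h0
      _ ≤ _ := hsum
      _ ≤ _ := by exact_mod_cast hle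

open Classical in
/-- **LEAF** greedy count.   Plan: induction on `k ≤ D` (as `lc7_step` / sigma + `Finset.card_le_card_of_injOn` with `((b,c),e) ↦ (Fin.cons e.1 b, Fin.cons e.2 c)`, `Fin.cons_inj`): given a nice `k`-tuple take `Y' = Y ∪ rgBall H (2R+1) U`, `U` = the `≤ 2k` ends of the tuple;
`|Y'| ≤ |Y| + 2 k (d+1)^(2R+1)` (`lc7_ball_card`); `t1v_next`, `t1v_nice_cons`;  `mm ≤` number of extensions; `mm^(k+1) = mm^k mm`. -/
theorem t1v_nice_card {n d : ℕ} {H : Gr n} (hH : H ∈ regularGraphs n d) (R : ℕ) (Y : Finset (Fin n)) (δ : ℝ)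
    (hδ : ((Finset.univ.filter fun e : Fin n × Fin n => H.Adj e.1 e.2 ∧ ¬ RgTl H R {e.1, e.2}).card : ℝ) ≤ δ * (n * d)) (D : ℕ) (mm : ℝ)
    (hmm : mm = (n : ℝ) * d - δ * (n * d) - 2 * d * (Y.card + 2 * D * ((d : ℝ) + 1) ^ (2 * R + 1))) (h0 : 0 ≤ mm) :
    mm ^ D ≤ ((Finset.univ.filter fun p : (Fin D → Fin n) × (Fin D → Fin n) => T1vNice H R Y p.1 p.2).card : ℝ) := by
  exact t1v_nice_card_aux hH R Y δ hδ D mm hmm h0 D le_rfl

/-- **LEAF** Bernoulli.   Plan: `0 ≤ 1 - δ - q`: `(N (1-δ-q))^D = N^D (1-δ-q)^D`, `one_add_mul_le_pow` with `-(δ+q) ≥ -2`.   Else `D = 0`: `hD0`; `D ≥ 1`: `1 - Dδ - Dq ≤ 1 - δ - q < 0`, the left side is `≤ 0`. -/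
theorem t1v_bern {N δ q card : ℝ} (D : ℕ) (hN : 0 ≤ N) (hδ : 0 ≤ δ) (hq : 0 ≤ q) (hc0 : 0 ≤ card)
    (h : 0 ≤ N * (1 - δ - q) → (N * (1 - δ - q)) ^ D ≤ card) (hD0 : D = 0 → 1 ≤ card) :
    N ^ D * (1 - D * δ - D * q) ≤ card := by
  have hND : 0 ≤ N ^ D := pow_nonneg hN D
  rcases le_or_gt 0 (1 - δ - q) with h1 | h1
  · have h2 := h (mul_nonneg hN h1)
    rw [mul_pow] at h2
    have h3 : 1 + (D : ℝ) * (-(δ + q)) ≤ (1 + -(δ + q)) ^ D := one_add_mul_le_pow (by linarith) D
    have h4 : (1 - D * δ - D * q : ℝ) ≤ (1 - δ - q) ^ D := by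
      have e1 : (1 - D * δ - D * q : ℝ) = 1 + (D : ℝ) * (-(δ + q)) := by ring
      have e2 : (1 - δ - q : ℝ) = 1 + -(δ + q) := by ring
      rw [e1, e2]
      exact h3
    exact (mul_le_mul_of_nonneg_left h4 hND).trans h2
  · rcases Nat.eq_zero_or_pos D with rfl | hD
    · simpa using hD0 rfl
    · have hD1 : (1 : ℝ) ≤ D := by exact_mod_cast hD
      have h5 : (1 - D * δ - D * q : ℝ) ≤ 0 := by nlinarith
      exact (mul_nonpos_of_nonneg_of_nonpos hND h5).trans hc0

open Classical in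
/-- GLUE: lower bound of the number of nice samples -/
theorem t1v_nice_lower {n d : ℕ} (hn : 0 < n) {H : Gr n} (hH : H ∈ regularGraphs n d) (R : ℕ) (Y : Finset (Fin n)) (δ : ℝ) (hδ0 : 0 ≤ δ)
    (hδ : ((Finset.univ.filter fun e : Fin n × Fin n => H.Adj e.1 e.2 ∧ ¬ RgTl H R {e.1, e.2}).card : ℝ) ≤ δ * (n * d)) (D : ℕ) :
    ((n : ℝ) * d) ^ D * (1 - D * δ - D * (2 * (Y.card + 2 * D * ((d : ℝ) + 1) ^ (2 * R + 1)) / n)) ≤
      ((Finset.univ.filter fun p : (Fin D → Fin n) × (Fin D → Fin n) => T1vNice H R Y p.1 p.2).card : ℝ) := by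
  have hn0 : (0 : ℝ) < n := by exact_mod_cast hn
  refine t1v_bern D (by positivity) hδ0 (by positivity) (by positivity) ?_ ?_
  · intro h0
    refine t1v_nice_card hH R Y δ hδ D _ ?_ h0
    field_simp
  · intro hD
    subst hD
    have : 0 < (Finset.univ.filter fun p : (Fin 0 → Fin n) × (Fin 0 → Fin n) => T1vNice H R Y p.1 p.2).card := by
      refine Finset.card_pos.2 ⟨(fun i => i.elim0, fun i => i.elim0), ?_⟩
      rw [Finset.mem_filter]
      exact ⟨Finset.mem_univ _, ⟨fun j => j.elim0, fun j => j.elim0, fun j => j.elim0, fun j => j.elim0, fun j => j.elim0⟩⟩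
    exact_mod_cast this

end Count

/-! ## 6. The exports -/

open Classical in
/-- **VAL** = `t1_valid_many` -/
theorem t1_valid_many_pf (d : ℕ) (hd : 3 ≤ d) (l R : ℕ) (hR : 3 * l + 10 ≤ R) :
    ∃ C : ℝ, ∀ (n : ℕ) (H : Gr n) (o x : Fin n) (δ : ℝ), H ∈ regularGraphs n d → RgStruct H (4 * R) →
      ((Finset.univ.filter fun e : Fin n × Fin n => H.Adj e.1 e.2 ∧ ¬ RgTl H R {e.1, e.2}).card : ℝ) ≤ δ * (n * d) →
      ∃ D : ℕ, D ≤ 2 * d ^ (l + 1) ∧
        ((n : ℝ) * d) ^ D * (1 - D * δ - C / n) ≤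
          ((Finset.univ.filter fun p : (T1I D → Fin n) × (T1I D → Fin n) => T1Val l R o x H p.1 p.2).card : ℝ) := by
  refine ⟨2 * (2 * (d : ℝ) ^ (l + 1)) * (2 * ((d : ℝ) + 1) ^ (l + 2 * R + 2)
    + 2 * (2 * (d : ℝ) ^ (l + 1)) * ((d : ℝ) + 1) ^ (2 * R + 1)), ?_⟩
  intro n H o x δ hH hS hδ
  have hn : 0 < n := o.pos
  have hn0 : (0 : ℝ) < n := by exact_mod_cast hn
  have hd0 : (0 : ℝ) < d := by
    have : 0 < d := by omega
    exact_mod_cast this
  have hδ0 : 0 ≤ δ := by
    by_contra hc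
    have h1 : δ * (n * d) < 0 := mul_neg_of_neg_of_pos (not_le.1 hc) (by positivity)
    have h2 : (0 : ℝ) ≤ ((Finset.univ.filter fun e : Fin n × Fin n => H.Adj e.1 e.2 ∧ ¬ RgTl H R {e.1, e.2}).card : ℝ) := by
      positivity
    linarith
  obtain ⟨par, hp⟩ := t1v_par_exists H {o, x} (l + R + 2)
  have hSp : TgSparse (rgBG H (l + R + 2) {o, x}) := t1v_sparse_pair hS (by omega) o x
  have hD : (t1vCl H {o, x} (l + R + 2) par (l + 1)).card ≤ 2 * d ^ (l + 1) :=
    (t1v_cl_card hH (l + 1)).trans (Nat.mul_le_mul_right _ Finset.card_le_two)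
  refine ⟨(t1vCl H {o, x} (l + R + 2) par (l + 1)).card, hD, ?_⟩
  set D := (t1vCl H {o, x} (l + R + 2) par (l + 1)).card with hDdef
  set a : Fin D → Fin n := fun i => (t1vCl H {o, x} (l + R + 2) par (l + 1)).orderEmbOfFin hDdef.symm i with ha
  have hainj : Function.Injective a := ((t1vCl H {o, x} (l + R + 2) par (l + 1)).orderEmbOfFin hDdef.symm).injective
  have hacl : ∀ u, u ∈ t1vCl H {o, x} (l + R + 2) par (l + 1) ↔ ∃ i, a i = u := by
    intro u
    have := Finset.range_orderEmbOfFin (t1vCl H {o, x} (l + R + 2) par (l + 1)) hDdef.symm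
    rw [← Finset.mem_coe, ← this, Set.mem_range]
  have hle : (Finset.univ.filter fun p : (Fin D → Fin n) × (Fin D → Fin n) =>
        T1vNice H R (rgBall H (l + 2 * R + 2) {o, x}) p.1 p.2).card
      ≤ (Finset.univ.filter fun p : (T1I D → Fin n) × (T1I D → Fin n) => T1Val l R o x H p.1 p.2).card := by
    refine Finset.card_le_card_of_injOn (fun p => (t1vV par a p.1, t1vW a p.2)) ?_ ?_
    · intro p hp'
      simp only [Finset.coe_filter, Finset.mem_univ, true_and, Set.mem_ofPred_eq] at hp' ⊢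
      exact t1v_val ⟨hp, hainj, hacl, hp'⟩ hSp
    · intro p _ p' _ h
      simp only [Prod.mk.injEq] at h
      refine Prod.ext ?_ ?_
      · funext j
        exact congrFun h.1 (Sum.inr j)
      · funext j
        exact congrFun h.2 (Sum.inr j)
  have hlow := t1v_nice_lower hn hH R (rgBall H (l + 2 * R + 2) {o, x}) δ hδ0 hδ D
  have hY : (((rgBall H (l + 2 * R + 2) {o, x}).card : ℕ) : ℝ) ≤ 2 * ((d : ℝ) + 1) ^ (l + 2 * R + 2) := by
    have h1 := lc7_ball_card hH (l + 2 * R + 2) {o, x}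
    have h2 : (rgBall H (l + 2 * R + 2) {o, x}).card ≤ 2 * (d + 1) ^ (l + 2 * R + 2) :=
      h1.trans (Nat.mul_le_mul_right _ Finset.card_le_two)
    exact_mod_cast h2
  have hD' : (D : ℝ) ≤ 2 * (d : ℝ) ^ (l + 1) := by exact_mod_cast hD
  have hD0 : (0 : ℝ) ≤ D := by positivity
  refine le_trans ?_ (hlow.trans (by exact_mod_cast hle))
  refine mul_le_mul_of_nonneg_left ?_ (by positivity)
  have key : (D : ℝ) * (2 * (((rgBall H (l + 2 * R + 2) {o, x}).card : ℕ) + 2 * D * ((d : ℝ) + 1) ^ (2 * R + 1)) / n)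
      ≤ 2 * (2 * (d : ℝ) ^ (l + 1)) * (2 * ((d : ℝ) + 1) ^ (l + 2 * R + 2)
        + 2 * (2 * (d : ℝ) ^ (l + 1)) * ((d : ℝ) + 1) ^ (2 * R + 1)) / n := by
    rw [← mul_div_assoc]
    refine div_le_div_of_nonneg_right ?_ hn0.le
    have e1 : (((rgBall H (l + 2 * R + 2) {o, x}).card : ℕ) : ℝ) + 2 * D * ((d : ℝ) + 1) ^ (2 * R + 1)
        ≤ 2 * ((d : ℝ) + 1) ^ (l + 2 * R + 2) + 2 * (2 * (d : ℝ) ^ (l + 1)) * ((d : ℝ) + 1) ^ (2 * R + 1) := by
      refine add_le_add hY ?_
      refine mul_le_mul_of_nonneg_right ?_ (by positivity)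
      linarith
    calc (D : ℝ) * (2 * (((rgBall H (l + 2 * R + 2) {o, x}).card : ℕ) + 2 * D * ((d : ℝ) + 1) ^ (2 * R + 1)))
        ≤ (2 * (d : ℝ) ^ (l + 1)) * (2 * (2 * ((d : ℝ) + 1) ^ (l + 2 * R + 2)
          + 2 * (2 * (d : ℝ) ^ (l + 1)) * ((d : ℝ) + 1) ^ (2 * R + 1))) :=
          mul_le_mul hD' (by linarith) (by positivity) (by positivity)
      _ = _ := by ring
  linarith

/-- **VAL'** = `t1_valid_bdry` -/
theorem t1_valid_bdry_pf {n D : ℕ} {l R : ℕ} {o x : Fin n} {H : Gr n} {v w : T1I D → Fin n} (h : T1Val l R o x H v w) (i : Fin D) :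
    v (Sum.inl i) ∈ rgBall H l {o, x} ∧ H.Adj (v (Sum.inl i)) (w (Sum.inl i)) ∧ H.Adj (v (Sum.inr i)) (w (Sum.inr i)) :=
  ⟨t1v_ball_anti (t1v_K_le H v w) l _ (h.sep.inT i), h.adm.adj _, h.adm.adj _⟩

end Claimed.Agent.R287
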