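-- KEEP
import Claimed.Agent.R287.T1
import Claimed.Agent.R287.T1Val
import Claimed.Agent.R287.T1D
import Claimed.Agent.R287.T1Back

/-!
# Row 287 (S0534), unit B1, sub-unit T1: CONTRACTS of VAL, DET, BACK and the ASSEMBLY `t1_pair`, `t1_gap`      head helper271, architect of the assembly helper129

Definitions, involution V0-V4, counting CNT: `T1.lean`.   Written proof: origin/helper271:notes/R287/T1_proof_271.md.
* VAL  `t1_valid_many`, `t1_valid_bdry`: calls of `T1Val.lean` (helper222);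
* DET  `t1_det`  (helper240, own file importing `T1.lean`; the `sorry` here is replaced by a call);
* BACK `t1_back` (helper132, `T1Back.lean`; the same);
* ASSEMBLY `t1_pair` PROVED (helper281: `t1a_*`), `t1_gap` PROVED (helper129).
-/

set_option autoImplicit false

namespace Claimed.Agent.R287

open Claims.C0462

/-! ## 1. Many valid marks (sub-unit VAL: graph combinatorics) -/

open Classical in
/-- **VAL** for a graph with structure there is `D` and (at least) `(nd)^D (1 - D δ - C/n)` valid marks; `δ` = fraction of the oriented edges which are not tree-like.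
Plan (note sec.3): `T = B_l({o,x};H)`, `𝔅 = B_(l+R+2)({o,x};H)`; a boundary edge `(u,u')` is CLEAN if the component `C` of `u'` in `𝔅 \ T` is a tree joined to `T` by this edge only.   Edge count: `∑_C ((e_C - 1) + exc C) ≤ exc 𝔅 + #comp T - 1 ≤ 2` (connected case; `𝔅 ⊆ B_(4R)(o)`), `≤ 1` per ball if the two balls are far apart: at most 4 unclean edges.
`(l_i,a_i)` = one fixed enumeration of the clean edges.  Samples: tree-like to radius `R`, at `H`-distance `> l + 3R + 4` from `{o,x}` and `> 2R + 3` from each other: all clauses of `T1Sep` follow from `K ≤ H` (distances grow, subgraphs of forests are forests). -/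
theorem t1_valid_many (d : ℕ) (hd : 3 ≤ d) (l R : ℕ) (hR : 3 * l + 10 ≤ R) :
    ∃ C : ℝ, ∀ (n : ℕ) (H : Gr n) (o x : Fin n) (δ : ℝ), H ∈ regularGraphs n d → RgStr d R H →
      ((Finset.univ.filter fun e : Fin n × Fin n => H.Adj e.1 e.2 ∧ ¬ RgTl H R {e.1, e.2}).card : ℝ) ≤ δ * (n * d) →
      ∃ D : ℕ, D ≤ 2 * d ^ (l + 1) ∧
        ((n : ℝ) * d) ^ D * (1 - D * δ - C / n) ≤
          ((Finset.univ.filter fun p : (T1I D → Fin n) × (T1I D → Fin n) => T1Val l R o x H p.1 p.2).card : ℝ) := by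
  obtain ⟨C, h⟩ := t1_valid_many_pf d hd l R hR
  exact ⟨C, fun n H o x δ hH hS => h n H o x δ hH hS.1⟩

open Classical in
/-- **VAL'** the boundary part of valid marks has few values: `l_i ∈ B_l({o,x};H)`, `a_i ∼ l_i`.   Plan: `sep.inT`, `K ≤ H`; `adm.adj`. -/
theorem t1_valid_bdry {n D : ℕ} {l R : ℕ} {o x : Fin n} {H : Gr n} {v w : T1I D → Fin n} (h : T1Val l R o x H v w) (i : Fin D) :
    v (Sum.inl i) ∈ rgBall H l {o, x} ∧ H.Adj (v (Sum.inl i)) (w (Sum.inl i)) ∧ H.Adj (v (Sum.inr i)) (w (Sum.inr i)) :=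
  t1_valid_bdry_pf h i

/-! ## 2. The deterministic heart (sub-unit DET: resolvent algebra) -/

/-- **DET** (D1).   `C0` does not depend on `l`; `Cl` does not depend on `R`, `n`, the graph, the marks.   Owner helper240 (`T1D.lean`, `td_det`).
1. outer identity with the model of `T` alone, `Q = rgPB d (rgRes H~ T) z`: for `f = G~_(·x) - P~_(·x)`:  `f_o = - ∑_(t ∈ T, s ∉ T, t ∼ s) Q_ot (f_s + g f_t)`  (rows `t ∈ T` of `A~ - z` and of the model agree).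
2. bad or unswitched slot: `|f_s + g f_t| ≤ 2 (κ0 + cons)`;   weights `|Q_ot| ≤ 27/2 |g|^l`.
3. switched slot: `P~_(c x) + g P~_(l x) = 0` exactly (hanging tree with one door).
4. good slot: `G~ = G - G Δ G~` in the rows `c_a`, `b_a`: `G~_(c x) + g G~_(l x) = e_c + g e_b` exactly, `|e| ≤ θ + 8 D K (κ1 + θ)`. -/
theorem t1_det (d : ℕ) (hd : 3 ≤ d) (κb : ℝ) (hκ : 0 < κb) :
    ∃ C0 : ℝ, 0 < C0 ∧ ∀ l : ℕ, ∃ Cl : ℝ, 0 < Cl ∧ ∀ (R n D : ℕ) (H : Gr n) (v w : T1I D → Fin n) (o x : Fin n) (e η κ0 κ1 θ : ℝ),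
      D ≤ 2 * d ^ (l + 1) → 3 * l + 10 ≤ R → H ∈ regularGraphs n d → RgBulk d κb e → 0 < η → η ≤ b1h κb → 0 < κ0 → Cl * κ0 ≤ 1 → 0 < κ1 → 0 < θ →
      T1Val l R o x H v w → RgStr d R (t1Sw H v w) → RgDev d R (t1Sw H v w) (rgz e η) κ0 →
      ‖rgG (t1Sw H v w) (rgz e η) o x - rgPm d R (t1Sw H v w) (rgz e η) o x‖
        ≤ Cl * κ1 + Cl * θ
          + C0 * (16 + (t1Nb d l H (rgz e η) κ1 θ o x (fun i => v (Sum.inr i)) (fun i => w (Sum.inr i)) : ℝ)) * ((d : ℝ) - 1) ^ (-(l : ℝ) / 2) * κ0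
          + Cl * κ0 ^ 2 + Cl * ((d : ℝ) - 1) ^ (-(R : ℝ) / 2) := by
  obtain ⟨C0, hC0, h⟩ := td_det d hd κb hκ
  refine ⟨C0, hC0, fun l => ?_⟩
  obtain ⟨Cl, hCl, h⟩ := h l
  exact ⟨Cl, hCl, fun R n D H v w o x e η κ0 κ1 θ hD hR => h R n D H v w o x e η κ0 κ1 θ hR hD⟩

/-- **BACK** (X4) what the pre-switch graph inherits: bounded entries, bad fraction.   Owner helper132 (`T1Back.lean`, `t1_back_pf`).   `Rb` depends on `d`, `l` only.
`G_(sW) = G~_(sW) (1 - Δ G~_WW)⁻¹` closed around the model (`fs7_ident`, `fs7_abs`);  `G_st - G~_st = ∑ G_su Δ_uv G~_vt`, and `|G~_vt| ≤ κ1/(C_l)` for all but `C n/(κ1² y)` vertices `t` (Ward in `H~`); tree-likeness changes only within `R+1` of the marks. -/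
theorem t1_back (d : ℕ) (hd : 3 ≤ d) (κb : ℝ) (hκ : 0 < κb) (l : ℕ) :
    ∃ (Kl : ℝ) (Rb : ℕ), 0 < Kl ∧ ∀ κ1 : ℝ, 0 < κ1 → ∀ R : ℕ, 3 * l + 10 ≤ R → Rb ≤ R → ∃ Cb : ℝ, 0 ≤ Cb ∧
      ∀ (n D : ℕ) (H : Gr n) (v w : T1I D → Fin n) (o x : Fin n) (e η κ0 : ℝ),
      D ≤ 2 * d ^ (l + 1) → H ∈ regularGraphs n d → RgBulk d κb e → 0 < η → η ≤ b1h κb → 0 < κ0 → Kl * κ0 ≤ 1 →
      T1Val l R o x H v w → RgStr d R (t1Sw H v w) → RgDev d R (t1Sw H v w) (rgz e η) κ0 →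
      (∀ s t, ‖rgG H (rgz e η) s t‖ ≤ Kl) ∧
        rgBad d R H (rgz e η) (2 * κ1) ≤ rgBad d R (t1Sw H v w) (rgz e η) κ1 + Cb / (n * η) :=
  t1_back_pf d hd κb hκ l

/-! ## 3. Assembly      (helper281; prefix `t1a_`; 0 sorry)
* 3.1 `t1a_dc`      double counting with the involution: `(nd)^D/2 ≤ #Val_D(H)` on `V`, `#{Val ∧ V(H~)} ≤ U (nd)^D`  ⟹  `rgP V ≤ 2 (Dmax+1) U`;
* 3.2 `t1a_up`      valid marks = (boundary part, samples): `#{Val ∧ V'} ≤ (|B_l| d)^D #{samples}`;   `t1a_bad_count`;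
* 3.3 numerics      `t1a_num_b` (`b^(-l/2) → 0`), `t1a_num_y`, `t1a_num_n`, `t1a_num_q` (`q ≤ (1 + Cb + Kl) y^(-1/8)`), `t1a_num_r` (`(y^(-1/8))^r ≤ n^(-6)`, `r ≥ 48/ε`);
* 3.4 `t1a_step1` (arithmetic of the five terms of `t1_det`), **`t1_pair`**.
ORDER OF CONSTANTS: `C0` (det) → `r = ⌈48/ε⌉` → `l` → `Cl, Kl` → `κs` → `κ0` → `κ1s = κ0/(10 M Cl)` → `κ1` → `R0 = max (3l+10, R1, Rb)` → `R` → `Cb, Cv, Cc` → `N0`.   `θ = y^(-1/4)`, `δ = y^(-1/8)`, levels `(2 κ1, θ)` in `t1_det`. -/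

section Assembly

open Finset

/-! ### 3.1 double counting -/

open Classical in
theorem t1a_card_sum {α β : Type} [Fintype α] [Fintype β] (P : α → β → Prop) :
    ((univ.filter fun p : α × β => P p.1 p.2).card : ℝ) = ∑ v, ∑ w, if P v w then (1 : ℝ) else 0 := by
  rw [Finset.card_filter, Fintype.sum_prod_type]
  push_cast
  rfl

open Classical in
/-- **double counting** with the involution -/
theorem t1a_dc {n d : ℕ} (l R : ℕ) (o x : Fin n) (V : Gr n → Prop) (Dmax : ℕ) (U : ℝ) (hU : 0 ≤ U) (hN : 0 < (n : ℝ) * d)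
    (hlow : ∀ H ∈ regularGraphs n d, V H → ∃ D : ℕ, D ≤ Dmax ∧
      ((n : ℝ) * d) ^ D / 2 ≤ ((univ.filter fun p : (T1I D → Fin n) × (T1I D → Fin n) => T1Val l R o x H p.1 p.2).card : ℝ))
    (hup : ∀ D : ℕ, D ≤ Dmax → ∀ H ∈ regularGraphs n d,
      ((univ.filter fun p : (T1I D → Fin n) × (T1I D → Fin n) => T1Val l R o x H p.1 p.2 ∧ V (t1Sw H p.1 p.2)).card : ℝ) ≤ U * ((n : ℝ) * d) ^ D) :
    rgP n d V ≤ 2 * (Dmax + 1) * U := by
  set N : ℝ := (n : ℝ) * d with hNdef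
  set RG := regularGraphs n d with hRG
  -- the marked sums
  set S : ℕ → Gr n → ℝ := fun D H => ∑ v : T1I D → Fin n, ∑ w : T1I D → Fin n, if T1Val l R o x H v w then (if V H then (1 : ℝ) else 0) else 0 with hS
  have hS0 : ∀ D H, 0 ≤ S D H := fun D H => Finset.sum_nonneg fun v _ => Finset.sum_nonneg fun w _ => by split_ifs <;> norm_num
  have h1 : ∀ H ∈ RG, (if V H then (1 : ℝ) else 0) ≤ ∑ D ∈ range (Dmax + 1), 2 / N ^ D * S D H := by
    intro H hH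
    have hnn : ∀ D ∈ range (Dmax + 1), 0 ≤ 2 / N ^ D * S D H := fun D _ => mul_nonneg (by positivity) (hS0 D H)
    by_cases hV : V H
    · obtain ⟨D, hD, h2⟩ := hlow H hH hV
      rw [if_pos hV]
      refine le_trans ?_ (Finset.single_le_sum hnn (Finset.mem_range.2 (Nat.lt_succ_of_le hD)))
      have e : S D H = ((univ.filter fun p : (T1I D → Fin n) × (T1I D → Fin n) => T1Val l R o x H p.1 p.2).card : ℝ) := by
        rw [t1a_card_sum]
        simp only [hS, if_pos hV]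
      rw [e, div_mul_eq_mul_div, le_div_iff₀ (by positivity)]
      linarith
    · rw [if_neg hV]
      exact Finset.sum_nonneg hnn
  have h2 : ∀ D, D ≤ Dmax → ∑ H ∈ RG, S D H ≤ RG.card * (U * N ^ D) := by
    intro D hD
    have e := t1_exch (n := n) (d := d) (D := D) l R o x (fun G _ _ => if V G then (1 : ℝ) else 0)
    simp only [hS]
    rw [← e, ← nsmul_eq_mul, ← Finset.sum_const]
    refine Finset.sum_le_sum fun H hH => ?_
    refine le_trans (le_of_eq ?_) (hup D hD H hH)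
    have e2 := t1a_card_sum (fun v w : T1I D → Fin n => T1Val l R o x H v w ∧ V (t1Sw H v w))
    refine Eq.trans ?_ (Eq.trans e2.symm (by congr))
    refine Finset.sum_congr rfl fun v _ => Finset.sum_congr rfl fun w _ => ?_
    by_cases a1 : T1Val l R o x H v w <;> by_cases a2 : V (t1Sw H v w) <;> simp [a1, a2]
  have h3 : ∑ H ∈ RG, (if V H then (1 : ℝ) else 0) ≤ RG.card * (2 * (Dmax + 1) * U) := by
    calc ∑ H ∈ RG, (if V H then (1 : ℝ) else 0) ≤ ∑ H ∈ RG, ∑ D ∈ range (Dmax + 1), 2 / N ^ D * S D H := Finset.sum_le_sum h1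
      _ = ∑ D ∈ range (Dmax + 1), 2 / N ^ D * ∑ H ∈ RG, S D H := by
          rw [Finset.sum_comm]
          exact Finset.sum_congr rfl fun D _ => (Finset.mul_sum _ _ _).symm
      _ ≤ ∑ D ∈ range (Dmax + 1), 2 / N ^ D * (RG.card * (U * N ^ D)) :=
          Finset.sum_le_sum fun D hD => mul_le_mul_of_nonneg_left (h2 D (Nat.lt_succ_iff.1 (Finset.mem_range.1 hD))) (by positivity)
      _ = ∑ _D ∈ range (Dmax + 1), 2 * (RG.card * U) := by
          refine Finset.sum_congr rfl fun D _ => ?_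
          have : N ^ D ≠ 0 := by positivity
          field_simp
      _ = RG.card * (2 * (Dmax + 1) * U) := by
          rw [Finset.sum_const, Finset.card_range, nsmul_eq_mul]; push_cast; ring
  unfold rgP rgE
  rcases Nat.eq_zero_or_pos RG.card with h0 | h0
  · rw [h0]; simp only [Nat.cast_zero, div_zero]; positivity
  · rw [div_le_iff₀ (by exact_mod_cast h0)]
    linarith

/-! ### 3.2 the upper bound: boundary part times samples -/

open Classical in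
/-- valid marks = (boundary part, samples) -/
theorem t1a_up {n d D : ℕ} {l R : ℕ} {o x : Fin n} {H : Gr n} (hH : H ∈ regularGraphs n d)
    (V' : (T1I D → Fin n) → (T1I D → Fin n) → Prop) (Sp : (Fin D → Fin n) → (Fin D → Fin n) → Prop)
    (h : ∀ v w, T1Val l R o x H v w → V' v w → Sp (fun i => v (Sum.inr i)) (fun i => w (Sum.inr i))) :
    (univ.filter fun p : (T1I D → Fin n) × (T1I D → Fin n) => T1Val l R o x H p.1 p.2 ∧ V' p.1 p.2).card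
      ≤ ((rgBall H l {o, x}).card * d) ^ D *
        (univ.filter fun q : (Fin D → Fin n) × (Fin D → Fin n) => (∀ i, H.Adj (q.1 i) (q.2 i)) ∧ Sp q.1 q.2).card := by
  set E : Finset (Fin n × Fin n) := univ.filter fun e : Fin n × Fin n => H.Adj e.1 e.2 ∧ e.1 ∈ rgBall H l {o, x} with hE
  have hEc : E.card = (rgBall H l {o, x}).card * d := lc7_card_fst hH _
  set Sset := univ.filter fun q : (Fin D → Fin n) × (Fin D → Fin n) => (∀ i, H.Adj (q.1 i) (q.2 i)) ∧ Sp q.1 q.2 with hSset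
  set Φ : (T1I D → Fin n) × (T1I D → Fin n) → (Fin D → Fin n × Fin n) × ((Fin D → Fin n) × (Fin D → Fin n)) :=
    fun p => (fun i => (p.1 (Sum.inl i), p.2 (Sum.inl i)), (fun i => p.1 (Sum.inr i), fun i => p.2 (Sum.inr i))) with hΦ
  have hcard : ((Fintype.piFinset fun _ : Fin D => E) ×ˢ Sset).card = ((rgBall H l {o, x}).card * d) ^ D * Sset.card := by
    rw [Finset.card_product, Fintype.card_piFinset_const, hEc]
  rw [← hcard]
  refine Finset.card_le_card_of_injOn Φ ?_ ?_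
  · intro p hp
    rw [Finset.mem_coe, Finset.mem_filter] at hp
    obtain ⟨-, hv, hV⟩ := hp
    rw [Finset.mem_coe, Finset.mem_product, Fintype.mem_piFinset]
    refine ⟨fun i => ?_, ?_⟩
    · have := t1_valid_bdry hv i
      rw [hE, Finset.mem_filter]
      exact ⟨Finset.mem_univ _, this.2.1, this.1⟩
    · rw [hSset, Finset.mem_filter]
      exact ⟨Finset.mem_univ _, fun i => (t1_valid_bdry hv i).2.2, h _ _ hv hV⟩
  · intro p _ p' _ hpp
    simp only [hΦ, Prod.mk.injEq] at hpp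
    obtain ⟨h1, h2, h3⟩ := hpp
    refine Prod.ext (funext fun s => ?_) (funext fun s => ?_)
    · rcases s with i | i
      · exact (Prod.mk.inj (congrFun h1 i)).1
      · exact congrFun h2 i
    · rcases s with i | i
      · exact (Prod.mk.inj (congrFun h1 i)).2
      · exact congrFun h3 i

open Classical in
/-- the bad fraction controls the number of the edges which are not tree-like / whose block is large -/
theorem t1a_bad_count {n d : ℕ} (R : ℕ) (H : Gr n) (z : ℂ) (κ δ : ℝ) (hN : 0 < (n : ℝ) * d) (h : rgBad d R H z κ ≤ δ) :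
    ((univ.filter fun e : Fin n × Fin n => H.Adj e.1 e.2 ∧ ¬ RgTl H R {e.1, e.2}).card : ℝ) ≤ δ * (n * d) ∧
    ((univ.filter fun e : Fin n × Fin n => H.Adj e.1 e.2 ∧ κ < rgBlk d H z e.1 e.2).card : ℝ) ≤ δ * (n * d) := by
  unfold rgBad at h
  rw [div_le_iff₀ hN] at h
  constructor
  · refine le_trans ?_ h
    refine Nat.cast_le.2 (Finset.card_le_card fun e he => ?_)
    rw [Finset.mem_filter] at he ⊢
    exact ⟨he.1, he.2.1, fun hg => he.2.2 hg.1⟩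
  · refine le_trans ?_ h
    refine Nat.cast_le.2 (Finset.card_le_card fun e he => ?_)
    rw [Finset.mem_filter] at he ⊢
    exact ⟨he.1, he.2.1, fun hg => absurd hg.2 (not_le.2 he.2.2)⟩

/-! ### 3.3 numerics -/

theorem t1a_num_b (d : ℕ) (hd : 3 ≤ d) (c : ℝ) (hc : 0 < c) : ∃ L : ℕ, ∀ l : ℕ, L ≤ l → ((d : ℝ) - 1) ^ (-(l : ℝ) / 2) ≤ c := by
  have hb : (2 : ℝ) ≤ (d : ℝ) - 1 := by
    have : (3 : ℝ) ≤ d := by exact_mod_cast hd
    linarith
  have hb0 : (0 : ℝ) < (d : ℝ) - 1 := by linarith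
  set β : ℝ := ((d : ℝ) - 1) ^ (-(1 / 2) : ℝ) with hβ
  have hβ0 : 0 ≤ β := Real.rpow_nonneg hb0.le _
  have hβ1 : β < 1 := Real.rpow_lt_one_of_one_lt_of_neg (by linarith) (by norm_num)
  have ht := tendsto_pow_atTop_nhds_zero_of_lt_one hβ0 hβ1
  obtain ⟨L, hL⟩ := Filter.eventually_atTop.1 (ht.eventually (ge_mem_nhds hc))
  refine ⟨L, fun l hl => ?_⟩
  have e : ((d : ℝ) - 1) ^ (-(l : ℝ) / 2) = β ^ l := by
    rw [hβ, ← Real.rpow_natCast, ← Real.rpow_mul hb0.le]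
    congr 1; ring
  rw [e]
  exact hL l hl

theorem t1a_num_y (a : ℝ) (ha : 0 < a) (c : ℝ) (hc : 0 < c) : ∃ Y : ℝ, ∀ y : ℝ, Y ≤ y → y ^ (-a) ≤ c := by
  obtain ⟨Y, hY⟩ := Filter.eventually_atTop.1 ((tendsto_rpow_neg_atTop ha).eventually (ge_mem_nhds hc))
  exact ⟨Y, hY⟩

theorem t1a_num_n (ε : ℝ) (hε : 0 < ε) (Y : ℝ) : ∃ N : ℕ, ∀ n : ℕ, N ≤ n → Y ≤ (n : ℝ) ^ ε := by
  have h := (tendsto_rpow_atTop hε).comp tendsto_natCast_atTop_atTop
  obtain ⟨N, hN⟩ := Filter.eventually_atTop.1 (h.eventually (Filter.eventually_ge_atTop Y))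
  exact ⟨N, hN⟩

/-- `q ≤ (1 + Cb + Kl) y^(-1/8)` -/
theorem t1a_num_q {y Cb Kl : ℝ} (hy : 1 ≤ y) (hCb : 0 ≤ Cb) (hKl : 0 ≤ Kl) :
    y ^ (-(1 / 8) : ℝ) + Cb / y + Kl / ((y ^ (-(1 / 4) : ℝ)) ^ 2 * y) ≤ (1 + Cb + Kl) * y ^ (-(1 / 8) : ℝ) := by
  have hy0 : 0 < y := by linarith
  have e1 : (y ^ (-(1 / 4) : ℝ)) ^ 2 * y = y ^ (1 / 2 : ℝ) := by
    rw [← Real.rpow_natCast, ← Real.rpow_mul hy0.le]
    nth_rewrite 2 [← Real.rpow_one y]
    rw [← Real.rpow_add hy0]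
    congr 1; norm_num
  have e2 : Kl / y ^ (1 / 2 : ℝ) = Kl * y ^ (-(1 / 2) : ℝ) := by rw [Real.rpow_neg hy0.le, div_eq_mul_inv]
  have e3 : Cb / y = Cb * y ^ (-1 : ℝ) := by rw [Real.rpow_neg hy0.le, Real.rpow_one, div_eq_mul_inv]
  have h1 : y ^ (-(1 / 2) : ℝ) ≤ y ^ (-(1 / 8) : ℝ) := Real.rpow_le_rpow_of_exponent_le hy (by norm_num)
  have h2 : y ^ (-1 : ℝ) ≤ y ^ (-(1 / 8) : ℝ) := Real.rpow_le_rpow_of_exponent_le hy (by norm_num)
  rw [e1, e2, e3]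
  have h3 := mul_le_mul_of_nonneg_left h1 hKl
  have h4 := mul_le_mul_of_nonneg_left h2 hCb
  linarith

/-- `(y^(-1/8))^r ≤ n^(-6)` -/
theorem t1a_num_r {n : ℕ} (hn : 1 ≤ n) {ε y : ℝ} (hε : 0 < ε) (hy : (n : ℝ) ^ ε ≤ y) {r : ℕ} (hr : 48 ≤ ε * r) :
    (y ^ (-(1 / 8) : ℝ)) ^ r ≤ 1 / (n : ℝ) ^ 6 := by
  have hn1 : (1 : ℝ) ≤ n := by exact_mod_cast hn
  have hn0 : (0 : ℝ) < n := by linarith
  have hne : 0 < (n : ℝ) ^ ε := Real.rpow_pos_of_pos hn0 _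
  have h1 : y ^ (-(1 / 8) : ℝ) ≤ ((n : ℝ) ^ ε) ^ (-(1 / 8) : ℝ) := Real.rpow_le_rpow_of_nonpos hne hy (by norm_num)
  have h2 : (y ^ (-(1 / 8) : ℝ)) ^ r ≤ (((n : ℝ) ^ ε) ^ (-(1 / 8) : ℝ)) ^ r :=
    pow_le_pow_left₀ (Real.rpow_nonneg (hne.le.trans hy) _) h1 r
  refine h2.trans ?_
  rw [← Real.rpow_mul hn0.le, ← Real.rpow_natCast, ← Real.rpow_mul hn0.le]
  have e : 1 / (n : ℝ) ^ 6 = (n : ℝ) ^ (-6 : ℝ) := by
    rw [Real.rpow_neg hn0.le, one_div]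
    congr 1
    exact (Real.rpow_natCast _ 6).symm
  rw [e]
  refine Real.rpow_le_rpow_of_exponent_le hn1 ?_
  nlinarith

/-! ### 3.4 the assembly -/

/-- arithmetic of STEP 1 -/
theorem t1a_step1 {X a b c e C0 β κ0 M : ℝ} {N r : ℕ} (hX : X ≤ a + b + C0 * (16 + (N : ℝ)) * β * κ0 + c + e)
    (hM : 0 < M) (hC0 : 0 < C0) (hβ : 0 ≤ β) (hκ0 : 0 < κ0)
    (ha : a ≤ κ0 / (5 * M)) (hb : b ≤ κ0 / (5 * M)) (hc : c ≤ κ0 / (5 * M)) (he : e ≤ κ0 / (5 * M))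
    (hl : C0 * (16 + 11 * (r : ℝ) ^ 2) * β ≤ 1 / (5 * M)) (hv : κ0 / M < X) : 11 * r ^ 2 ≤ N := by
  by_contra hcon
  rw [not_le] at hcon
  have h1 : (N : ℝ) ≤ 11 * (r : ℝ) ^ 2 := by exact_mod_cast hcon.le
  have h2 : C0 * (16 + (N : ℝ)) * β ≤ C0 * (16 + 11 * (r : ℝ) ^ 2) * β :=
    mul_le_mul_of_nonneg_right (mul_le_mul_of_nonneg_left (by linarith) hC0.le) hβ
  have h3 : C0 * (16 + (N : ℝ)) * β * κ0 ≤ 1 / (5 * M) * κ0 := mul_le_mul_of_nonneg_right (h2.trans hl) hκ0.le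
  have h4 : 1 / (5 * M) * κ0 = κ0 / (5 * M) := by ring
  have h5 : κ0 / M = 5 * (κ0 / (5 * M)) := by field_simp
  linarith

set_option maxHeartbeats 400000 in
open Classical in
/-- **PAIR** -/
theorem t1_pair (d : ℕ) (hd : 3 ≤ d) (κb : ℝ) (hκ : 0 < κb) (ε : ℝ) (hε : 0 < ε) (M : ℝ) (hM : 1 ≤ M) :
    ∃ κs : ℝ, 0 < κs ∧ ∀ κ0 : ℝ, 0 < κ0 → κ0 ≤ κs → ∃ κ1s : ℝ, 0 < κ1s ∧ ∀ κ1 : ℝ, 0 < κ1 → κ1 ≤ κ1s →
      ∃ R0 : ℕ, ∀ R : ℕ, R0 ≤ R → ∃ N0 : ℕ, ∀ n : ℕ, N0 ≤ n → ∀ e η : ℝ, RgBulk d κb e → (n : ℝ) ^ ε ≤ n * η → η ≤ b1h κb → ∀ o x : Fin n,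
        rgP n d (fun H => RgOm d R H (rgz e η) κ0 κ1 ((n * η) ^ (-(1 / 8 : ℝ))) ∧
          κ0 / M < ‖rgG H (rgz e η) o x - rgPm d R H (rgz e η) o x‖) ≤ 1 / (n : ℝ) ^ 4 := by
  have hM0 : 0 < M := by linarith
  have hd0 : (0 : ℝ) < d := by exact_mod_cast (by omega : 0 < d)
  have hb0 : (0 : ℝ) < (d : ℝ) - 1 := by
    have : (3 : ℝ) ≤ d := by exact_mod_cast hd
    linarith
  obtain ⟨C0, hC0, hdet⟩ := t1_det d hd κb hκ
  set r : ℕ := ⌈48 / ε⌉₊ with hr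
  have hr48 : 48 ≤ ε * r := by
    have := Nat.le_ceil (48 / ε)
    rw [div_le_iff₀ hε] at this
    linarith
  obtain ⟨l, hl⟩ := t1a_num_b d hd (1 / (5 * M) / (C0 * (16 + 11 * (r : ℝ) ^ 2))) (by positivity)
  have hl' : C0 * (16 + 11 * (r : ℝ) ^ 2) * ((d : ℝ) - 1) ^ (-(l : ℝ) / 2) ≤ 1 / (5 * M) := by
    have := hl l le_rfl
    rw [le_div_iff₀ (by positivity)] at this
    linarith
  obtain ⟨Cl, hCl, hdet⟩ := hdet l
  obtain ⟨Kl, Rb, hKl, hback⟩ := t1_back d hd κb hκ l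
  refine ⟨min (1 / Cl) (min (1 / Kl) (1 / (5 * M * Cl))), by positivity, ?_⟩
  intro κ0 hκ0 hκ0s
  have hk1 : Cl * κ0 ≤ 1 := by
    have := hκ0s.trans (min_le_left _ _)
    rw [le_div_iff₀ hCl] at this; linarith
  have hk2 : Kl * κ0 ≤ 1 := by
    have := hκ0s.trans ((min_le_right _ _).trans (min_le_left _ _))
    rw [le_div_iff₀ hKl] at this; linarith
  have hk3 : Cl * κ0 ^ 2 ≤ κ0 / (5 * M) := by
    have := hκ0s.trans ((min_le_right _ _).trans (min_le_right _ _))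
    rw [le_div_iff₀ (by positivity)] at this
    rw [le_div_iff₀ (by positivity)]
    nlinarith
  refine ⟨κ0 / (10 * M * Cl), by positivity, ?_⟩
  intro κ1 hκ1 hκ1s
  have hk4 : Cl * (2 * κ1) ≤ κ0 / (5 * M) := by
    rw [le_div_iff₀ (by positivity)] at hκ1s
    rw [le_div_iff₀ (by positivity)]
    nlinarith
  obtain ⟨R1, hR1⟩ := t1a_num_b d hd (κ0 / (5 * M) / Cl) (by positivity)
  refine ⟨max (3 * l + 10) (max R1 Rb), ?_⟩
  intro R hR
  have hRl : 3 * l + 10 ≤ R := (le_max_left _ _).trans hR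
  have hk5 : Cl * ((d : ℝ) - 1) ^ (-(R : ℝ) / 2) ≤ κ0 / (5 * M) := by
    have := hR1 R (((le_max_left _ _).trans (le_max_right _ _)).trans hR)
    rw [le_div_iff₀ hCl] at this
    linarith
  obtain ⟨Cb, -, hCb⟩ := hback κ1 hκ1 R hRl (((le_max_right _ _).trans (le_max_right _ _)).trans hR)
  obtain ⟨Cv, hCv⟩ := t1_valid_many d hd l R hRl
  set Dmax : ℕ := 2 * d ^ (l + 1) with hDmax
  choose Cc hCc using fun D => t1c_count d l D r
  set Ccm : ℝ := ∑ D ∈ range (Dmax + 1), |Cc D| with hCcm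
  have hCcm0 : 0 ≤ Ccm := Finset.sum_nonneg fun D _ => abs_nonneg _
  have hCcD : ∀ D, D ≤ Dmax → Cc D ≤ Ccm := fun D hD =>
    (le_abs_self _).trans (Finset.single_le_sum (f := fun D => |Cc D|) (fun D _ => abs_nonneg _) (Finset.mem_range.2 (Nat.lt_succ_of_le hD)))
  set Cb' : ℝ := max Cb 0 with hCb'
  have hCb0 : 0 ≤ Cb' := le_max_right _ _
  set A : ℝ := 1 + Cb' + Kl with hA
  have hA0 : 0 < A := by positivity
  set Bd : ℝ := 2 * ((d : ℝ) + 1) ^ l * d with hBd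
  have hBd1 : 1 ≤ Bd := by
    have h1 : (1 : ℝ) ≤ ((d : ℝ) + 1) ^ l := one_le_pow₀ (by linarith)
    have h2 : (1 : ℝ) ≤ d := by exact_mod_cast (by omega : 1 ≤ d)
    rw [hBd]; nlinarith
  set W : ℝ := 2 * (Dmax + 1) * (Bd ^ Dmax * Ccm * A ^ r) with hW
  have hW0 : 0 ≤ W := by positivity
  obtain ⟨Y1, hY1⟩ := t1a_num_y (1 / 4) (by norm_num) (κ0 / (5 * M) / Cl) (by positivity)
  obtain ⟨Y2, hY2⟩ := t1a_num_y (1 / 8) (by norm_num) (1 / (4 * ((Dmax : ℝ) + 1))) (by positivity)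
  obtain ⟨N1, hN1⟩ := t1a_num_n ε hε (max 1 (max Y1 Y2))
  refine ⟨max N1 (max 1 (max ⌈4 * Cv⌉₊ ⌈W⌉₊)), ?_⟩
  intro n hn e η hbulk hy hη o x
  have hn1 : 1 ≤ n := ((le_max_left _ _).trans (le_max_right _ _)).trans hn
  have hnR : (1 : ℝ) ≤ n := by exact_mod_cast hn1
  have hn0 : (0 : ℝ) < n := by linarith
  have hnCv : 4 * Cv ≤ n := (Nat.le_ceil _).trans (by exact_mod_cast ((le_max_left _ _).trans ((le_max_right _ _).trans (le_max_right _ _))).trans hn)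
  have hnW : W ≤ n := (Nat.le_ceil _).trans (by exact_mod_cast ((le_max_right _ _).trans ((le_max_right _ _).trans (le_max_right _ _))).trans hn)
  set y : ℝ := n * η with hydef
  have hyY := (hN1 n ((le_max_left _ _).trans hn)).trans hy
  have hy1 : 1 ≤ y := (le_max_left _ _).trans hyY
  have hy0 : 0 < y := by linarith
  have hη0 : 0 < η := by
    by_contra hcon
    rw [not_lt] at hcon
    have : y ≤ 0 := mul_nonpos_of_nonneg_of_nonpos hn0.le hcon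
    linarith
  set θ : ℝ := y ^ (-(1 / 4) : ℝ) with hθ
  have hθ0 : 0 < θ := Real.rpow_pos_of_pos hy0 _
  set δ : ℝ := y ^ (-(1 / 8) : ℝ) with hδ
  have hδ0 : 0 < δ := Real.rpow_pos_of_pos hy0 _
  have hk6 : Cl * θ ≤ κ0 / (5 * M) := by
    have := hY1 y (((le_max_left _ _).trans (le_max_right _ _)).trans hyY)
    rw [le_div_iff₀ hCl] at this
    linarith
  have hk7 : ((Dmax : ℝ) + 1) * δ ≤ 1 / 4 := by
    have := hY2 y (((le_max_right _ _).trans (le_max_right _ _)).trans hyY)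
    rw [le_div_iff₀ (by positivity)] at this
    linarith
  have hN : 0 < (n : ℝ) * d := by positivity
  set z : ℂ := rgz e η with hz
  have hzim : z.im = η := rfl
  obtain ⟨V, hV⟩ : ∃ V : Gr n → Prop, V = fun H => RgOm d R H z κ0 κ1 δ ∧ κ0 / M < ‖rgG H z o x - rgPm d R H z o x‖ := ⟨_, rfl⟩
  have hVd : ∀ H, V H → RgOm d R H z κ0 κ1 δ ∧ κ0 / M < ‖rgG H z o x - rgPm d R H z o x‖ := fun H h => by rw [hV] at h; exact h
  rw [← hV]
  set U : ℝ := Bd ^ Dmax * Ccm * A ^ r / (n : ℝ) ^ 6 with hU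
  have hU0 : 0 ≤ U := by positivity
  have hfin : 2 * ((Dmax : ℝ) + 1) * U ≤ 1 / (n : ℝ) ^ 4 := by
    have e1 : 2 * ((Dmax : ℝ) + 1) * U = W / (n : ℝ) ^ 6 := by rw [hU, hW]; ring
    rw [e1, div_le_div_iff₀ (by positivity) (by positivity)]
    have h1 : W * (n : ℝ) ^ 4 ≤ (n : ℝ) ^ 2 * (n : ℝ) ^ 4 := by
      refine mul_le_mul_of_nonneg_right ?_ (by positivity)
      exact hnW.trans (le_self_pow₀ hnR (by norm_num))
    calc W * (n : ℝ) ^ 4 ≤ (n : ℝ) ^ 2 * (n : ℝ) ^ 4 := h1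
      _ = 1 * (n : ℝ) ^ 6 := by ring
  refine le_trans (t1a_dc l R o x V Dmax U hU0 hN ?_ ?_) hfin
  · -- lower bound
    intro H hH hVH
    obtain ⟨⟨hStr, -, hbad⟩, -⟩ := hVd H hVH
    obtain ⟨D, hD, hval⟩ := hCv n H o x δ hH hStr (t1a_bad_count R H z κ1 δ hN hbad).1
    refine ⟨D, hD, le_trans ?_ hval⟩
    have h1 : (D : ℝ) * δ ≤ 1 / 4 := by
      have : (D : ℝ) ≤ (Dmax : ℝ) + 1 := by
        have : (D : ℝ) ≤ Dmax := by exact_mod_cast hD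
        linarith
      exact (mul_le_mul_of_nonneg_right this hδ0.le).trans hk7
    have h2 : Cv / n ≤ 1 / 4 := by
      rw [div_le_iff₀ hn0]; linarith
    have h3 : (0 : ℝ) ≤ ((n : ℝ) * d) ^ D := by positivity
    have h4 : (1 : ℝ) / 2 ≤ 1 - D * δ - Cv / n := by linarith
    calc ((n : ℝ) * d) ^ D / 2 = ((n : ℝ) * d) ^ D * (1 / 2) := by ring
      _ ≤ ((n : ℝ) * d) ^ D * (1 - D * δ - Cv / n) := mul_le_mul_of_nonneg_left h4 h3
  · -- upper bound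
    intro D hD H hH
    rcases (univ.filter fun p : (T1I D → Fin n) × (T1I D → Fin n) => T1Val l R o x H p.1 p.2 ∧ V (t1Sw H p.1 p.2)).eq_empty_or_nonempty with hemp | ⟨p0, hp0⟩
    · rw [hemp]; simp only [Finset.card_empty, Nat.cast_zero]; positivity
    rw [Finset.mem_filter] at hp0
    obtain ⟨-, hv0, hV0⟩ := hp0
    obtain ⟨⟨hStr0, hDev0, hbad0⟩, -⟩ := hVd _ hV0
    obtain ⟨hGK, hbadH⟩ := hCb n D H p0.1 p0.2 o x e η κ0 hD hH hbulk hη0 hη hκ0 hk2 hv0 hStr0 hDev0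
    set δ' : ℝ := δ + Cb' / y with hδ'
    have hδ'0 : 0 ≤ δ' := by positivity
    have hbadH' : rgBad d R H z (2 * κ1) ≤ δ' := by
      have h1 : Cb / (n * η) ≤ Cb' / y := div_le_div_of_nonneg_right (le_max_left _ _) hy0.le
      linarith
    have hIm : ∀ s, (rgG H z s s).im ≤ Kl := fun s => (Complex.im_le_norm _).trans (hGK s s)
    have hstep : ∀ v w : T1I D → Fin n, T1Val l R o x H v w → V (t1Sw H v w) →
        11 * r ^ 2 ≤ t1Nb d l H z (2 * κ1) θ o x (fun i => v (Sum.inr i)) (fun i => w (Sum.inr i)) := by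
      intro v w hv hVv
      obtain ⟨⟨hStr, hDev, -⟩, hviol⟩ := hVd _ hVv
      have hX := hdet R n D H v w o x e η κ0 (2 * κ1) θ hD hRl hH hbulk hη0 hη hκ0 hk1 (by positivity) hθ0 hv hStr hDev
      exact t1a_step1 hX hM0 hC0 (Real.rpow_nonneg hb0.le _) hκ0 hk4 hk6 hk3 hk5 hl' hviol
    have hup := t1a_up hH (fun v w => V (t1Sw H v w))
      (fun b c => 11 * r ^ 2 ≤ t1Nb d l H z (2 * κ1) θ o x b c) hstep
    have hcnt := hCc D n H o x z Kl δ' (2 * κ1) θ hH hη0 hθ0 hδ'0 hKl.le hIm (t1a_bad_count R H z (2 * κ1) δ' hN hbadH').2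
    have hq : δ' + Kl / (θ ^ 2 * (n * z.im)) ≤ A * δ := by
      have := t1a_num_q hy1 hCb0 hKl.le
      rw [hzim]
      exact this
    have hq0 : 0 ≤ δ' + Kl / (θ ^ 2 * (n * z.im)) := by
      rw [hzim]; positivity
    have hqr : (δ' + Kl / (θ ^ 2 * (n * z.im))) ^ r ≤ A ^ r / (n : ℝ) ^ 6 := by
      calc (δ' + Kl / (θ ^ 2 * (n * z.im))) ^ r ≤ (A * δ) ^ r := pow_le_pow_left₀ hq0 hq r
        _ = A ^ r * δ ^ r := mul_pow _ _ _
        _ ≤ A ^ r * (1 / (n : ℝ) ^ 6) := mul_le_mul_of_nonneg_left (t1a_num_r hn1 hε hy hr48) (by positivity)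
        _ = A ^ r / (n : ℝ) ^ 6 := by ring
    have hball : (((rgBall H l {o, x}).card * d : ℕ) : ℝ) ≤ Bd := by
      have h5 := lc7_ball_card hH l {o, x}
      have h6 : ({o, x} : Finset (Fin n)).card ≤ 2 := Finset.card_le_two
      have h7 : (rgBall H l {o, x}).card ≤ 2 * (d + 1) ^ l := h5.trans (Nat.mul_le_mul_right _ h6)
      have h8 : ((rgBall H l {o, x}).card : ℝ) ≤ 2 * ((d : ℝ) + 1) ^ l := by exact_mod_cast h7
      push_cast
      rw [hBd]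
      exact mul_le_mul_of_nonneg_right h8 hd0.le
    have hballD : ((((rgBall H l {o, x}).card * d) ^ D : ℕ) : ℝ) ≤ Bd ^ Dmax := by
      push_cast
      calc (((rgBall H l {o, x}).card : ℝ) * d) ^ D ≤ Bd ^ D := pow_le_pow_left₀ (by positivity) (by exact_mod_cast hball) D
        _ ≤ Bd ^ Dmax := pow_le_pow_right₀ hBd1 hD
    set Sc : ℕ := (univ.filter fun q : (Fin D → Fin n) × (Fin D → Fin n) => (∀ i, H.Adj (q.1 i) (q.2 i)) ∧
        11 * r ^ 2 ≤ t1Nb d l H z (2 * κ1) θ o x q.1 q.2).card with hSc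
    have hSc' : (Sc : ℝ) ≤ Ccm * ((n : ℝ) * d) ^ D * (A ^ r / (n : ℝ) ^ 6) := by
      calc (Sc : ℝ) ≤ Cc D * ((n : ℝ) * d) ^ D * (δ' + Kl / (θ ^ 2 * (n * z.im))) ^ r := hcnt
        _ ≤ Ccm * ((n : ℝ) * d) ^ D * (δ' + Kl / (θ ^ 2 * (n * z.im))) ^ r := by
            gcongr
            exact hCcD D hD
        _ ≤ Ccm * ((n : ℝ) * d) ^ D * (A ^ r / (n : ℝ) ^ 6) := mul_le_mul_of_nonneg_left hqr (by positivity)
    calc ((univ.filter fun p : (T1I D → Fin n) × (T1I D → Fin n) => T1Val l R o x H p.1 p.2 ∧ V (t1Sw H p.1 p.2)).card : ℝ)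
        ≤ ((((rgBall H l {o, x}).card * d) ^ D * Sc : ℕ) : ℝ) := by exact_mod_cast hup
      _ = ((((rgBall H l {o, x}).card * d) ^ D : ℕ) : ℝ) * Sc := by push_cast; ring
      _ ≤ Bd ^ Dmax * (Ccm * ((n : ℝ) * d) ^ D * (A ^ r / (n : ℝ) ^ 6)) :=
          mul_le_mul hballD hSc' (Nat.cast_nonneg _) (by positivity)
      _ = U * ((n : ℝ) * d) ^ D := by rw [hU]; ring

end Assembly

/-- **GAP** union bound over the `n²` pairs.   Plan: `¬ RgDev` = `∃ o x`, `rg_P_exists` twice, `n² · n⁻⁴`. -/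
theorem t1_gap (d : ℕ) (hd : 3 ≤ d) (κb : ℝ) (hκ : 0 < κb) (ε : ℝ) (hε : 0 < ε) (M : ℝ) (hM : 1 ≤ M) :
    ∃ κs : ℝ, 0 < κs ∧ ∀ κ0 : ℝ, 0 < κ0 → κ0 ≤ κs → ∃ κ1s : ℝ, 0 < κ1s ∧ ∀ κ1 : ℝ, 0 < κ1 → κ1 ≤ κ1s →
      ∃ R0 : ℕ, ∀ R : ℕ, R0 ≤ R → ∃ N0 : ℕ, ∀ n : ℕ, N0 ≤ n → ∀ e η : ℝ, RgBulk d κb e → (n : ℝ) ^ ε ≤ n * η → η ≤ b1h κb →
        rgP n d (fun H => RgOm d R H (rgz e η) κ0 κ1 ((n * η) ^ (-(1 / 8 : ℝ))) ∧ ¬ RgDev d R H (rgz e η) (κ0 / M)) ≤ 1 / (n : ℝ) ^ 2 := by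
  obtain ⟨κs, hκs, H1⟩ := t1_pair d hd κb hκ ε hε M hM
  refine ⟨κs, hκs, fun κ0 h0 h0s => ?_⟩
  obtain ⟨κ1s, hκ1s, H2⟩ := H1 κ0 h0 h0s
  refine ⟨κ1s, hκ1s, fun κ1 h1 h1s => ?_⟩
  obtain ⟨R0, H3⟩ := H2 κ1 h1 h1s
  refine ⟨R0, fun R hR => ?_⟩
  obtain ⟨N0, H4⟩ := H3 R hR
  refine ⟨max N0 1, fun n hn e η he hη hη1 => ?_⟩
  have H5 := H4 n (le_of_max_le_left hn) e η he hη hη1
  have hn1 : 1 ≤ n := le_of_max_le_right hn
  have hn0 : (0 : ℝ) < n := by exact_mod_cast hn1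
  calc rgP n d (fun H => RgOm d R H (rgz e η) κ0 κ1 ((n * η) ^ (-(1 / 8 : ℝ))) ∧ ¬ RgDev d R H (rgz e η) (κ0 / M))
      ≤ rgP n d (fun H => ∃ o ∈ (Finset.univ : Finset (Fin n)), ∃ x ∈ (Finset.univ : Finset (Fin n)),
          RgOm d R H (rgz e η) κ0 κ1 ((n * η) ^ (-(1 / 8 : ℝ))) ∧ κ0 / M < ‖rgG H (rgz e η) o x - rgPm d R H (rgz e η) o x‖) := by
        refine rg_P_mono fun H _ h => ?_
        obtain ⟨h1, h2⟩ := h
        unfold RgDev at h2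
        push Not at h2
        obtain ⟨o, x, hox⟩ := h2
        exact ⟨o, Finset.mem_univ _, x, Finset.mem_univ _, h1, hox⟩
    _ ≤ ∑ o : Fin n, rgP n d (fun H => ∃ x ∈ (Finset.univ : Finset (Fin n)),
          RgOm d R H (rgz e η) κ0 κ1 ((n * η) ^ (-(1 / 8 : ℝ))) ∧ κ0 / M < ‖rgG H (rgz e η) o x - rgPm d R H (rgz e η) o x‖) :=
        rg_P_exists _ _
    _ ≤ ∑ _o : Fin n, ∑ _x : Fin n, 1 / (n : ℝ) ^ 4 :=
        Finset.sum_le_sum fun o _ => (rg_P_exists _ _).trans (Finset.sum_le_sum fun x _ => H5 o x)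
    _ = 1 / (n : ℝ) ^ 2 := by
        simp only [Finset.sum_const, Finset.card_univ, Fintype.card_fin, nsmul_eq_mul]
        field_simp

end Claimed.Agent.R287
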