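-- KEEP
import Claimed.Agent.R287.ResB

/-!
# Row 287 (S0534), B1-lite, block T2 (closing of the empirical cavity law at `w = 0`), file A: DETERMINISTIC PART      (helper284; prefix `t2`)
Source: `origin/helper284:notes/R287/A3_helper284.md` sec. 3 (route L7*), replaces route102 L7 + L8 and P2 Prop. 3.4.
Everything here is about ONE real symmetric matrix (or two) on a finite index set; resolvent kit = `R287/Res`, `R287/ResB` (helper240).
* sec. 0  edge matrices `t2E p q = E_pq + E_qp`, first order expansion, explicit update by one edge in multiplied form (no inverse);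
* sec. 1  cavity values `t2X A z v v' = G^[vv']_vv`, `t2Y A z v v' = G^[vv']_vv'`, `t2Dl = (1+Y)² - X X'`;  block of `G` <-> cavity values;
* sec. 2  generic first order bound `t2_pert` (matrices differing in few rows);
* sec. 3  regular `0/1` matrices, the EXACT mean equation `t2_mean_exact`, its summand in cavity variables `t2_edge_id`.
-/

set_option autoImplicit false
set_option linter.unusedSectionVars false

namespace Claimed.Agent.R287

open Matrix Finset

noncomputable section

variable {V : Type} [Fintype V] [DecidableEq V]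

/-! ## 0. edge matrices, first order expansions -/

/-- `E_pq + E_qp` -/
def t2E (p q : V) : Matrix V V ℝ := Matrix.single p q 1 + Matrix.single q p 1

theorem t2E_apply (p q x y : V) : t2E p q x y = (if p = x ∧ q = y then 1 else 0) + (if q = x ∧ p = y then 1 else 0) := by
  simp [t2E, Matrix.single_apply]

theorem t2E_herm (p q : V) : (t2E p q).IsHermitian := by
  apply rs_herm
  ext x y
  simp only [transpose_apply, t2E_apply]
  rw [add_comm]
  congr 1 <;> simp only [and_comm]

theorem t2E_comm (p q : V) : t2E p q = t2E q p := by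
  rw [t2E, t2E, add_comm]

theorem t2_smul_herm {A : Matrix V V ℝ} (hA : A.IsHermitian) (s : ℝ) : (s • A).IsHermitian := by
  ext x y
  have := hA.apply x y
  simp only [conjTranspose_apply, Matrix.smul_apply, smul_eq_mul, star_trivial] at this ⊢
  rw [this]

theorem t2C_smul (s : ℝ) (A : Matrix V V ℝ) : rsC (s • A) = (s : ℂ) • rsC A := by
  ext x y; simp

theorem t2C_single (p q : V) : rsC (Matrix.single p q 1) = Matrix.single p q 1 := by
  ext x y
  simp only [rs_C_apply, Matrix.single_apply]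
  split_ifs <;> simp

/-- `(G B G')_xy` for `B = s (E_pq + E_qp)` -/
theorem t2_sandwich (G G' : Matrix V V ℂ) (s : ℝ) (p q x y : V) :
    (G * rsC (s • t2E p q) * G') x y = s * (G x p * G' q y + G x q * G' p y) := by
  rw [t2C_smul, t2E, rs_C_add, t2C_single, t2C_single]
  simp only [Matrix.mul_smul, Matrix.smul_mul, Matrix.mul_add, Matrix.add_mul, Matrix.smul_apply, Matrix.add_apply, smul_eq_mul]
  congr 1
  have h : ∀ a c : V, (G * Matrix.single a c (1 : ℂ) * G') x y = G x a * G' c y := by
    intro a c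
    rw [Matrix.mul_assoc, Matrix.mul_apply, Finset.sum_eq_single a]
    · rw [Matrix.single_mul_apply_same, one_mul]
    · intro b _ hb
      rw [Matrix.single_mul_apply_of_ne _ _ _ _ _ hb, mul_zero]
    · intro h; exact absurd (Finset.mem_univ a) h
  rw [h, h]

/-- entrywise form of the second resolvent identity -/
theorem t2_res_entry {A A' : Matrix V V ℝ} (hA : A.IsHermitian) (hA' : A'.IsHermitian) {z : ℂ} (hz : z.im ≠ 0) (x y : V) :
    rsG A' z x y = rsG A z x y - ∑ s, ∑ s', rsG A z x s * ((A' s s' - A s s' : ℝ) : ℂ) * rsG A' z s' y := by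
  have h := congrFun (congrFun (rs_res_A hA hA' hz) x) y
  rw [Matrix.sub_apply, Matrix.mul_apply] at h
  simp only [Matrix.mul_apply, rs_C_apply, Matrix.sub_apply, Finset.sum_mul] at h
  rw [Finset.sum_comm] at h
  linear_combination -h

/-- first order form of the update by one edge -/
theorem t2_edge_first {A : Matrix V V ℝ} (hA : A.IsHermitian) (s : ℝ) (p q : V) {z : ℂ} (hz : z.im ≠ 0) (x y : V) :
    rsG (A + s • t2E p q) z x y
      = rsG A z x y - s * (rsG A z x p * rsG (A + s • t2E p q) z q y + rsG A z x q * rsG (A + s • t2E p q) z p y) := by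
  have hA' : (A + s • t2E p q).IsHermitian := hA.add (t2_smul_herm (t2E_herm p q) s)
  have h := congrFun (congrFun (rs_res_A hA hA' hz) x) y
  rw [add_sub_cancel_left, Matrix.sub_apply, t2_sandwich] at h
  linear_combination -h

/-- the determinant of the update -/
def t2D (A : Matrix V V ℝ) (s : ℝ) (p q : V) (z : ℂ) : ℂ :=
  (1 + s * rsG A z p q) ^ 2 - s ^ 2 * (rsG A z p p * rsG A z q q)

/-- the rows `p`, `q` after the update, multiplied form -/
theorem t2_edge_row {A : Matrix V V ℝ} (hA : A.IsHermitian) (s : ℝ) (p q : V) {z : ℂ} (hz : z.im ≠ 0) (y : V) :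
    t2D A s p q z * rsG (A + s • t2E p q) z p y = (1 + s * rsG A z p q) * rsG A z p y - s * rsG A z p p * rsG A z q y ∧
    t2D A s p q z * rsG (A + s • t2E p q) z q y = (1 + s * rsG A z p q) * rsG A z q y - s * rsG A z q q * rsG A z p y := by
  have h1 := t2_edge_first hA s p q hz p y
  have h2 := t2_edge_first hA s p q hz q y
  have h3 := rs_G_symm hA hz q p
  rw [h3] at h2
  unfold t2D
  constructor
  · linear_combination (1 + s * rsG A z p q) * h1 - s * rsG A z p p * h2
  · linear_combination (1 + s * rsG A z p q) * h2 - s * rsG A z q q * h1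

/-- **update by one edge**, all entries, multiplied form -/
theorem t2_edge {A : Matrix V V ℝ} (hA : A.IsHermitian) (s : ℝ) (p q : V) {z : ℂ} (hz : z.im ≠ 0) (x y : V) :
    t2D A s p q z * rsG (A + s • t2E p q) z x y = t2D A s p q z * rsG A z x y
      - s * (rsG A z x p * ((1 + s * rsG A z p q) * rsG A z q y - s * rsG A z q q * rsG A z p y)
           + rsG A z x q * ((1 + s * rsG A z p q) * rsG A z p y - s * rsG A z p p * rsG A z q y)) := by
  have h0 := t2_edge_first hA s p q hz x y
  obtain ⟨h1, h2⟩ := t2_edge_row hA s p q hz y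
  linear_combination t2D A s p q z * h0 - s * rsG A z x p * h2 - s * rsG A z x q * h1

/-! ## 1. cavity values -/

/-- the matrix with the edge `vv'` cut -/
def t2Cut (A : Matrix V V ℝ) (v v' : V) : Matrix V V ℝ := A + (-1 : ℝ) • t2E v v'
/-- `G^[vv']_vv` -/
def t2X (A : Matrix V V ℝ) (z : ℂ) (v v' : V) : ℂ := rsG (t2Cut A v v') z v v
/-- `G^[vv']_vv'` -/
def t2Y (A : Matrix V V ℝ) (z : ℂ) (v v' : V) : ℂ := rsG (t2Cut A v v') z v v'
/-- `Δ = (1 + Y)² - X X'` -/
def t2Dl (A : Matrix V V ℝ) (z : ℂ) (v v' : V) : ℂ := (1 + t2Y A z v v') ^ 2 - t2X A z v v' * t2X A z v' v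

theorem t2a_eqns_cite : True := by
  have := @t2E.eq_1
  have := @t2D.eq_1
  have := @t2Cut.eq_1
  have := @t2X.eq_1
  have := @t2Y.eq_1
  have := @t2Dl.eq_1
  trivial

theorem t2Cut_herm {A : Matrix V V ℝ} (hA : A.IsHermitian) (v v' : V) : (t2Cut A v v').IsHermitian :=
  hA.add (t2_smul_herm (t2E_herm v v') _)

theorem t2Cut_comm (A : Matrix V V ℝ) (v v' : V) : t2Cut A v v' = t2Cut A v' v := by
  rw [t2Cut, t2Cut, t2E_comm]

theorem t2Cut_add (A : Matrix V V ℝ) (v v' : V) : t2Cut A v v' + (1 : ℝ) • t2E v v' = A := by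
  rw [t2Cut, add_assoc, ← add_smul]
  simp

theorem t2Y_comm {A : Matrix V V ℝ} (hA : A.IsHermitian) {z : ℂ} (hz : z.im ≠ 0) (v v' : V) : t2Y A z v v' = t2Y A z v' v := by
  rw [t2Y, t2Y, t2Cut_comm A v' v, rs_G_symm (t2Cut_herm hA v v') hz]

theorem t2Dl_comm {A : Matrix V V ℝ} (hA : A.IsHermitian) {z : ℂ} (hz : z.im ≠ 0) (v v' : V) : t2Dl A z v v' = t2Dl A z v' v := by
  rw [t2Dl, t2Dl, t2Y_comm hA hz v v', mul_comm]

/-- the block of `G` at an edge in terms of the cavity values -/
theorem t2_block {A : Matrix V V ℝ} (hA : A.IsHermitian) {z : ℂ} (hz : z.im ≠ 0) (v v' : V) :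
    t2Dl A z v v' * rsG A z v v = t2X A z v v' ∧
    t2Dl A z v v' * rsG A z v v' = t2Y A z v v' + t2Y A z v v' ^ 2 - t2X A z v v' * t2X A z v' v := by
  have hA0 := t2Cut_herm hA v v'
  have h1 := (t2_edge_row hA0 1 v v' hz v).1
  have h2 := (t2_edge_row hA0 1 v v' hz v').1
  rw [t2Cut_add] at h1 h2
  have hX' : t2X A z v' v = rsG (t2Cut A v v') z v' v' := by rw [t2X, t2Cut_comm]
  have hs := rs_G_symm hA0 hz v' v
  unfold t2Dl
  rw [hX']
  unfold t2D at h1 h2
  unfold t2X t2Y
  constructor
  · rw [hs] at h1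
    push_cast at h1
    linear_combination h1
  · push_cast at h2
    linear_combination h2

/-- the cavity values in terms of the block of `G` -/
theorem t2_cav {A : Matrix V V ℝ} (hA : A.IsHermitian) {z : ℂ} (hz : z.im ≠ 0) (v v' : V) :
    t2D A (-1) v v' z * t2X A z v v' = rsG A z v v ∧
    t2D A (-1) v v' z * t2Y A z v v' = rsG A z v v' - rsG A z v v' ^ 2 + rsG A z v v * rsG A z v' v' := by
  have h1 := (t2_edge_row hA (-1) v v' hz v).1
  have h2 := (t2_edge_row hA (-1) v v' hz v').1
  have hs := rs_G_symm hA hz v' v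
  unfold t2X t2Y t2Cut
  constructor
  · rw [hs] at h1
    push_cast at h1
    linear_combination h1
  · push_cast at h2
    linear_combination h2

/-- `D Δ = 1` -/
theorem t2_D_mul_Dl {A : Matrix V V ℝ} (hA : A.IsHermitian) {z : ℂ} (hz : z.im ≠ 0) (v v' : V) :
    t2D A (-1) v v' z * t2Dl A z v v' = 1 := by
  have h1 := (t2_block hA hz v v').1
  have h2 := (t2_cav hA hz v v').1
  have h3 := rs_G_diag_ne hA hz v
  have : (t2D A (-1) v v' z * t2Dl A z v v' - 1) * rsG A z v v = 0 := by
    linear_combination t2D A (-1) v v' z * h1 + h2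
  rcases mul_eq_zero.1 this with h | h
  · linear_combination h
  · exact absurd h h3

/-- the row of `v` in the cut matrix:   `G^[vv']_vy = Δ ((1 - G_vv') G_vy + G_vv G_v'y)` -/
theorem t2_cut_row {A : Matrix V V ℝ} (hA : A.IsHermitian) {z : ℂ} (hz : z.im ≠ 0) (v v' y : V) :
    rsG (t2Cut A v v') z v y = t2Dl A z v v' * ((1 - rsG A z v v') * rsG A z v y + rsG A z v v * rsG A z v' y) := by
  have h1 := (t2_edge_row hA (-1) v v' hz y).1
  have h2 := t2_D_mul_Dl hA hz v v'
  push_cast at h1
  unfold t2Cut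
  linear_combination t2Dl A z v v' * h1 - rsG (A + (-1 : ℝ) • t2E v v') z v y * h2

/-! ## 2. the generic first order bound -/

/-- if `A'` and `A` differ only in the rows `s ∈ W`, the change of `G_xy` is controlled by the entries `G_xs`, `s ∈ W`, of the OLD resolvent and a bound of the NEW one -/
theorem t2_pert {A A' : Matrix V V ℝ} (hA : A.IsHermitian) (hA' : A'.IsHermitian) {z : ℂ} (hz : z.im ≠ 0) (x y : V) (K C2 : ℝ)
    (W : V → Prop) [DecidablePred W] (hrow : ∀ s, ¬ W s → ∀ s', A' s s' = A s s')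
    (hK : ∀ s, ∑ s', |A' s s' - A s s'| ≤ K) (hC2 : ∀ s', ‖rsG A' z s' y‖ ≤ C2) :
    ‖rsG A' z x y - rsG A z x y‖ ≤ K * C2 * ∑ s, (if W s then ‖rsG A z x s‖ else 0) := by
  have hC20 : 0 ≤ C2 := (norm_nonneg _).trans (hC2 x)
  rw [t2_res_entry hA hA' hz x y, sub_sub_cancel_left, norm_neg, Finset.mul_sum]
  refine (norm_sum_le _ _).trans (Finset.sum_le_sum fun s _ => ?_)
  by_cases hs : W s
  · rw [if_pos hs]
    refine (norm_sum_le _ _).trans ?_
    have e : ∀ s', ‖rsG A z x s * ((A' s s' - A s s' : ℝ) : ℂ) * rsG A' z s' y‖ ≤ ‖rsG A z x s‖ * C2 * |A' s s' - A s s'| := by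
      intro s'
      rw [norm_mul, norm_mul, Complex.norm_real, Real.norm_eq_abs]
      have := mul_le_mul_of_nonneg_left (hC2 s') (mul_nonneg (norm_nonneg (rsG A z x s)) (abs_nonneg (A' s s' - A s s')))
      linarith
    refine (Finset.sum_le_sum fun s' _ => e s').trans ?_
    rw [← Finset.mul_sum]
    have := mul_le_mul_of_nonneg_left (hK s) (mul_nonneg (norm_nonneg (rsG A z x s)) hC20)
    linarith
  · rw [if_neg hs, mul_zero]
    refine le_of_eq ?_
    rw [norm_eq_zero]
    refine Finset.sum_eq_zero fun s' _ => ?_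
    rw [hrow s hs s']
    simp

/-! ## 3. regular `0/1` matrices, the exact mean equation -/

/-- adjacency matrices of `d`-regular simple graphs -/
structure T2Reg (A : Matrix V V ℝ) (d : ℕ) : Prop where
  herm : A.IsHermitian
  zo : ∀ x y, A x y = 0 ∨ A x y = 1
  diag : ∀ x, A x x = 0
  row : ∀ x, ∑ y, A x y = d

/-- **the mean equation, exact**: it is `(A - z) G = 1` summed over the oriented edges -/
theorem t2_mean_exact {A : Matrix V V ℝ} {d : ℕ} (hA : T2Reg A d) {z : ℂ} (hz : z.im ≠ 0) :
    ∑ x, ∑ y, (A x y : ℂ) * (d * rsG A z x y - z * rsG A z x x - 1) = 0 := by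
  refine Finset.sum_eq_zero fun x _ => ?_
  have h1 := rs_eq_left hA.herm hz x x
  rw [if_pos rfl] at h1
  have h2 : ∑ y, (A x y : ℂ) = d := by
    rw [← Complex.ofReal_sum, hA.row x]
    simp
  have e : ∀ y, (A x y : ℂ) * (d * rsG A z x y - z * rsG A z x x - 1)
      = d * ((A x y : ℂ) * rsG A z y x) - (A x y : ℂ) * (z * rsG A z x x + 1) := by
    intro y
    rw [rs_G_symm hA.herm hz y x]
    ring
  simp only [e, Finset.sum_sub_distrib, ← Finset.mul_sum, ← Finset.sum_mul]
  rw [h1, h2]
  ring

/-- the summand of the mean equation in cavity variables -/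
theorem t2_edge_id {A : Matrix V V ℝ} (hA : A.IsHermitian) {z : ℂ} (hz : z.im ≠ 0) (v v' : V) (b : ℕ) (g : ℂ) (hg : b * g ^ 2 + z * g + 1 = 0) :
    g * t2Dl A z v v' * (((b + 1 : ℕ) : ℂ) * rsG A z v v' - z * rsG A z v v - 1)
      = (t2X A z v v' - g) - b * g ^ 2 * (t2X A z v' v - g) - b * g * (t2X A z v v' - g) * (t2X A z v' v - g)
        + (b - 1) * g * t2Y A z v v' + b * g * t2Y A z v v' ^ 2 := by
  obtain ⟨h1, h2⟩ := t2_block hA hz v v'
  push_cast
  have e : g * t2Dl A z v v' * ((b + 1) * rsG A z v v' - z * rsG A z v v - 1)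
      = g * ((b + 1) * (t2Dl A z v v' * rsG A z v v') - z * (t2Dl A z v v' * rsG A z v v) - t2Dl A z v v') := by ring
  rw [e, h1, h2, t2Dl]
  linear_combination (- t2X A z v v') * hg

end

end Claimed.Agent.R287
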