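-- KEEP
import Claimed.Agent.R287.T2a

/-!
# Row 287 (S0534), B1-lite, block T2, file B: QUANTITATIVE DETERMINISTIC PART      (helper284; prefix `t2`)
Source: `origin/helper284:notes/R287/A3_helper284.md` sec. 3 + `T2plan_284.md` (route L7*, ONE switch family = the `d`-fold star switch).
* sec. 4  parameters `T2Par` (facts on `g`), good edges `T2Good` (cavity form), consequences (`Δ`, rows of the cut matrix, lower bound of `G_vv`);
* sec. 5  the star switch at matrix level: `t2Sw A o t u v = A - ∑ E(o,t_a) - ∑ E(u_a,v_a) + ∑ E(o,u_a) + ∑ E(t_a,v_a)`, validity `T2Val`, rows, regularity, involution;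
* sec. 6  the star block in terms of `Q_aa' = G^(o)_{t_a t_a'}`;
* sec. 7  THE COMPARISON `|G^^(o)_{u_a u_a'} - δ_aa' X_(u_a,v_a)(A)| ≤ K (cross entries of G(A) + cross entries of G(A^))`;
* sec. 8  the mean bound (M).
-/

set_option autoImplicit false
set_option linter.unusedSectionVars false

namespace Claimed.Agent.R287

open Matrix Finset

noncomputable section

variable {V : Type} [Fintype V] [DecidableEq V] {ι : Type} [Fintype ι] [DecidableEq ι]

/-! ## 4. parameters, good edges -/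

/-- the facts on the cavity value `g` which the block uses (`b = d - 1`) -/
structure T2Par (b : ℕ) (z g : ℂ) (cg Z : ℝ) : Prop where
  b2 : 2 ≤ b
  im : 0 < z.im
  eq : (b : ℂ) * g ^ 2 + z * g + 1 = 0
  le : (b : ℝ) * ‖g‖ ^ 2 ≤ 1
  ph : cg ≤ ‖1 - (b : ℂ) * g ^ 2‖
  cg0 : 0 < cg
  zle : ‖z‖ ≤ Z

/-- the edge `vv'` is good (cavity form) -/
structure T2Good (A : Matrix V V ℝ) (z g : ℂ) (κ : ℝ) (v v' : V) : Prop where
  x1 : ‖t2X A z v v' - g‖ ≤ κ
  x2 : ‖t2X A z v' v - g‖ ≤ κ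
  y : ‖t2Y A z v v'‖ ≤ κ

theorem t2par_sq {b : ℕ} {z g : ℂ} {cg Z : ℝ} (h : T2Par b z g cg Z) : ‖g‖ ^ 2 ≤ 1 / 2 := by
  have h1 := h.le
  have h2 : (2 : ℝ) ≤ b := by exact_mod_cast h.b2
  nlinarith [sq_nonneg ‖g‖]

theorem t2par_le_one {b : ℕ} {z g : ℂ} {cg Z : ℝ} (h : T2Par b z g cg Z) : ‖g‖ ≤ 1 := by
  have h1 := t2par_sq h
  nlinarith [norm_nonneg g]

/-- `1/(Z + b) ≤ |g|`:   `g (-z - b g) = 1` -/
theorem t2par_ge {b : ℕ} {z g : ℂ} {cg Z : ℝ} (h : T2Par b z g cg Z) : 1 / (Z + b) ≤ ‖g‖ := by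
  have h1 : g * (-z - b * g) = 1 := by linear_combination -h.eq
  have h2 : ‖g‖ * ‖-z - b * g‖ = 1 := by rw [← norm_mul, h1, norm_one]
  have h3 : ‖-z - b * g‖ ≤ Z + b := by
    refine (norm_sub_le _ _).trans ?_
    rw [norm_neg, norm_mul, Complex.norm_natCast]
    have := mul_le_mul_of_nonneg_left (t2par_le_one h) (Nat.cast_nonneg (α := ℝ) b)
    linarith [h.zle]
  have hb : (0 : ℝ) < b := by exact_mod_cast (by have := h.b2; omega : 0 < b)
  have hZ : 0 < Z + b := by linarith [(norm_nonneg z).trans h.zle]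
  rw [div_le_iff₀ hZ]
  calc (1 : ℝ) = ‖g‖ * ‖-z - b * g‖ := h2.symm
    _ ≤ ‖g‖ * (Z + b) := mul_le_mul_of_nonneg_left h3 (norm_nonneg _)

theorem t2par_omg {b : ℕ} {z g : ℂ} {cg Z : ℝ} (h : T2Par b z g cg Z) : 1 / 2 ≤ ‖1 - g ^ 2‖ ∧ ‖1 - g ^ 2‖ ≤ 3 / 2 := by
  have h1 := t2par_sq h
  have h2 : ‖g ^ 2‖ ≤ 1 / 2 := by rwa [norm_pow]
  constructor
  · have := norm_sub_norm_le (1 : ℂ) (g ^ 2)
    rw [norm_one] at this
    linarith
  · have := norm_sub_le (1 : ℂ) (g ^ 2)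
    rw [norm_one] at this
    linarith

theorem T2Good.symm {A : Matrix V V ℝ} (hA : A.IsHermitian) {z g : ℂ} (hz : z.im ≠ 0) {κ : ℝ} {v v' : V} (h : T2Good A z g κ v v') :
    T2Good A z g κ v' v := ⟨h.x2, h.x1, by rw [t2Y_comm hA hz]; exact h.y⟩

/-- `|Δ - (1 - g²)| ≤ 3 (|ξ| + |ξ'| + |Y|)` -/
theorem t2good_Dl_sub {A : Matrix V V ℝ} {z g : ℂ} {κ : ℝ} {v v' : V} (h : T2Good A z g κ v v') (hg : ‖g‖ ≤ 1) (hκ : κ ≤ 1) :
    ‖t2Dl A z v v' - (1 - g ^ 2)‖ ≤ 3 * (‖t2X A z v v' - g‖ + ‖t2X A z v' v - g‖ + ‖t2Y A z v v'‖) := by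
  have e : t2Dl A z v v' - (1 - g ^ 2) = 2 * t2Y A z v v' + t2Y A z v v' * t2Y A z v v' - g * (t2X A z v' v - g) - g * (t2X A z v v' - g)
      - (t2X A z v v' - g) * (t2X A z v' v - g) := by
    rw [t2Dl]; ring
  rw [e]
  have n1 : ‖2 * t2Y A z v v'‖ = 2 * ‖t2Y A z v v'‖ := by rw [norm_mul]; norm_num
  have n2 : ‖t2Y A z v v' * t2Y A z v v'‖ ≤ 1 * ‖t2Y A z v v'‖ := by
    rw [norm_mul]; exact mul_le_mul_of_nonneg_right (h.y.trans hκ) (norm_nonneg _)
  have n3 : ‖g * (t2X A z v' v - g)‖ ≤ 1 * ‖t2X A z v' v - g‖ := by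
    rw [norm_mul]; exact mul_le_mul_of_nonneg_right hg (norm_nonneg _)
  have n4 : ‖g * (t2X A z v v' - g)‖ ≤ 1 * ‖t2X A z v v' - g‖ := by
    rw [norm_mul]; exact mul_le_mul_of_nonneg_right hg (norm_nonneg _)
  have n5 : ‖(t2X A z v v' - g) * (t2X A z v' v - g)‖ ≤ 1 * ‖t2X A z v' v - g‖ := by
    rw [norm_mul]; exact mul_le_mul_of_nonneg_right (h.x1.trans hκ) (norm_nonneg _)
  have t1 := norm_sub_le (2 * t2Y A z v v' + t2Y A z v v' * t2Y A z v v' - g * (t2X A z v' v - g) - g * (t2X A z v v' - g))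
    ((t2X A z v v' - g) * (t2X A z v' v - g))
  have t2 := norm_sub_le (2 * t2Y A z v v' + t2Y A z v v' * t2Y A z v v' - g * (t2X A z v' v - g)) (g * (t2X A z v v' - g))
  have t3 := norm_sub_le (2 * t2Y A z v v' + t2Y A z v v' * t2Y A z v v') (g * (t2X A z v' v - g))
  have t4 := norm_add_le (2 * t2Y A z v v') (t2Y A z v v' * t2Y A z v v')
  have p1 := norm_nonneg (t2X A z v v' - g)
  have p2 := norm_nonneg (t2X A z v' v - g)
  have p3 := norm_nonneg (t2Y A z v v')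
  linarith

/-- `1/4 ≤ |Δ| ≤ 2` at a good edge, `κ ≤ 1/36` -/
theorem t2good_Dl {b : ℕ} {z g : ℂ} {cg Z : ℝ} (hp : T2Par b z g cg Z) {A : Matrix V V ℝ} {κ : ℝ} {v v' : V} (h : T2Good A z g κ v v')
    (hκ : κ ≤ 1 / 36) : 1 / 4 ≤ ‖t2Dl A z v v'‖ ∧ ‖t2Dl A z v v'‖ ≤ 2 := by
  have h1 := t2good_Dl_sub h (t2par_le_one hp) (by linarith)
  have h2 : ‖t2Dl A z v v' - (1 - g ^ 2)‖ ≤ 1 / 4 := by linarith [h.x1, h.x2, h.y]
  obtain ⟨h3, h4⟩ := t2par_omg hp
  constructor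
  · have := norm_sub_norm_le (1 - g ^ 2) (t2Dl A z v v')
    rw [norm_sub_rev (1 - g ^ 2) (t2Dl A z v v')] at this
    linarith
  · have := norm_sub_norm_le (t2Dl A z v v') (1 - g ^ 2)
    linarith

/-- the row of `v` in the cut matrix is controlled by the rows of `v`, `v'` in `G` -/
theorem t2good_row {b : ℕ} {z g : ℂ} {cg Z : ℝ} (hp : T2Par b z g cg Z) {A : Matrix V V ℝ} (hA : A.IsHermitian) {κ C0 : ℝ} {v v' : V}
    (h : T2Good A z g κ v v') (hκ : κ ≤ 1 / 36) (hbd : ∀ x y, ‖rsG A z x y‖ ≤ C0) (y : V) :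
    ‖rsG (t2Cut A v v') z v y‖ ≤ 2 * (1 + C0) * (‖rsG A z v y‖ + ‖rsG A z v' y‖) := by
  have hC0 : 0 ≤ C0 := (norm_nonneg _).trans (hbd v v)
  rw [t2_cut_row hA hp.im.ne' v v' y, norm_mul]
  have h1 := (t2good_Dl hp h hκ).2
  have h2 : ‖(1 - rsG A z v v') * rsG A z v y + rsG A z v v * rsG A z v' y‖ ≤ (1 + C0) * (‖rsG A z v y‖ + ‖rsG A z v' y‖) := by
    refine (norm_add_le _ _).trans ?_
    rw [norm_mul, norm_mul]
    have a1 : ‖1 - rsG A z v v'‖ ≤ 1 + C0 := by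
      refine (norm_sub_le _ _).trans ?_
      rw [norm_one]; linarith [hbd v v']
    have a2 := mul_le_mul_of_nonneg_right a1 (norm_nonneg (rsG A z v y))
    have a3 := mul_le_mul_of_nonneg_right (hbd v v) (norm_nonneg (rsG A z v' y))
    nlinarith [norm_nonneg (rsG A z v' y)]
  calc ‖t2Dl A z v v'‖ * ‖(1 - rsG A z v v') * rsG A z v y + rsG A z v v * rsG A z v' y‖
      ≤ 2 * ((1 + C0) * (‖rsG A z v y‖ + ‖rsG A z v' y‖)) := mul_le_mul h1 h2 (norm_nonneg _) (by norm_num)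
    _ = _ := by ring

/-- `(|g| - κ)/2 ≤ |G_vv|` at a good edge -/
theorem t2good_diag {b : ℕ} {z g : ℂ} {cg Z : ℝ} (hp : T2Par b z g cg Z) {A : Matrix V V ℝ} (hA : A.IsHermitian) {κ : ℝ} {v v' : V}
    (h : T2Good A z g κ v v') (hκ : κ ≤ 1 / 36) : (‖g‖ - κ) / 2 ≤ ‖rsG A z v v‖ := by
  have h1 := (t2_block hA hp.im.ne' v v').1
  have h2 := (t2good_Dl hp h hκ).2
  have h3 : ‖g‖ - κ ≤ ‖t2X A z v v'‖ := by
    have := norm_sub_norm_le g (t2X A z v v')
    rw [norm_sub_rev g (t2X A z v v')] at this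
    linarith [h.x1]
  rw [← h1, norm_mul] at h3
  have := mul_le_mul_of_nonneg_right h2 (norm_nonneg (rsG A z v v))
  linarith

/-! ## 5. the star switch -/

/-- the star switch: the edges `o t_a`, `u_a v_a` are replaced by `o u_a`, `t_a v_a` -/
def t2Sw (A : Matrix V V ℝ) (o : V) (t u v : ι → V) : Matrix V V ℝ :=
  A - ∑ a, t2E o (t a) - ∑ a, t2E (u a) (v a) + ∑ a, t2E o (u a) + ∑ a, t2E (t a) (v a)

/-- valid marks: `t` enumerates the neighbours of `o`, `(u_a, v_a)` are edges, all marks are distinct, the new edges are not present -/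
structure T2Val (A : Matrix V V ℝ) (o : V) (t u v : ι → V) : Prop where
  ot : ∀ a, A o (t a) = 1
  uv : ∀ a, A (u a) (v a) = 1
  ou : ∀ a, A o (u a) = 0
  tv : ∀ a, A (t a) (v a) = 0
  en : ∀ y, A o y = 1 → ∃ a, t a = y
  ti : Function.Injective t
  ui : Function.Injective u
  vi : Function.Injective v
  nto : ∀ a, t a ≠ o
  nuo : ∀ a, u a ≠ o
  nvo : ∀ a, v a ≠ o
  ntu : ∀ a a', t a ≠ u a'
  ntv : ∀ a a', t a ≠ v a'
  nuv : ∀ a a', u a ≠ v a'

theorem t2sw_eqns_cite : True := by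
  have := @t2Sw.eq_1
  trivial

theorem t2sw_apply (A : Matrix V V ℝ) (o : V) (t u v : ι → V) (x y : V) :
    t2Sw A o t u v x y = A x y - ∑ a, t2E o (t a) x y - ∑ a, t2E (u a) (v a) x y + ∑ a, t2E o (u a) x y + ∑ a, t2E (t a) (v a) x y := by
  simp [t2Sw, Matrix.sum_apply]

theorem t2_sum_inj {f : ι → V} (hf : Function.Injective f) (a0 : ι) (c : ι → Prop) [DecidablePred c] :
    ∑ a, (if f a = f a0 ∧ c a then (1 : ℝ) else 0) = if c a0 then 1 else 0 := by
  rw [Finset.sum_eq_single a0]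
  · simp
  · intro a _ ha
    rw [if_neg]
    intro h
    exact ha (hf h.1)
  · intro h; exact absurd (Finset.mem_univ a0) h

theorem t2sw_row_o {A : Matrix V V ℝ} {o : V} {t u v : ι → V} (h : T2Val A o t u v) (y : V) :
    t2Sw A o t u v o y = A o y - ∑ a, (if t a = y then 1 else 0) + ∑ a, (if u a = y then 1 else 0) := by
  rw [t2sw_apply]
  simp [t2E_apply, h.nto, h.nuo, h.nvo]

theorem t2sw_row_t {A : Matrix V V ℝ} {o : V} {t u v : ι → V} (h : T2Val A o t u v) (a0 : ι) (y : V) :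
    t2Sw A o t u v (t a0) y = A (t a0) y - (if o = y then 1 else 0) + (if v a0 = y then 1 else 0) := by
  rw [t2sw_apply]
  have e1 : ∀ a, t2E o (t a) (t a0) y = if t a = t a0 ∧ o = y then 1 else 0 := by
    intro a; simp [t2E_apply, (h.nto a0).symm]
  have e2 : ∀ a, t2E (u a) (v a) (t a0) y = 0 := by
    intro a; simp [t2E_apply, (h.ntu a0 a).symm, (h.ntv a0 a).symm]
  have e3 : ∀ a, t2E o (u a) (t a0) y = 0 := by
    intro a; simp [t2E_apply, (h.nto a0).symm, (h.ntu a0 a).symm]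
  have e4 : ∀ a, t2E (t a) (v a) (t a0) y = if t a = t a0 ∧ v a = y then 1 else 0 := by
    intro a; simp [t2E_apply, (h.ntv a0 a).symm]
  simp only [e1, e2, e3, e4, Finset.sum_const_zero]
  rw [t2_sum_inj h.ti a0 (fun _ => o = y), t2_sum_inj h.ti a0 (fun a => v a = y)]
  ring

theorem t2sw_row_u {A : Matrix V V ℝ} {o : V} {t u v : ι → V} (h : T2Val A o t u v) (a0 : ι) (y : V) :
    t2Sw A o t u v (u a0) y = A (u a0) y - (if v a0 = y then 1 else 0) + (if o = y then 1 else 0) := by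
  rw [t2sw_apply]
  have e1 : ∀ a, t2E o (t a) (u a0) y = 0 := by
    intro a; simp [t2E_apply, (h.nuo a0).symm, h.ntu a a0]
  have e2 : ∀ a, t2E (u a) (v a) (u a0) y = if u a = u a0 ∧ v a = y then 1 else 0 := by
    intro a; simp [t2E_apply, (h.nuv a0 a).symm]
  have e3 : ∀ a, t2E o (u a) (u a0) y = if u a = u a0 ∧ o = y then 1 else 0 := by
    intro a; simp [t2E_apply, (h.nuo a0).symm]
  have e4 : ∀ a, t2E (t a) (v a) (u a0) y = 0 := by
    intro a; simp [t2E_apply, h.ntu a a0, (h.nuv a0 a).symm]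
  simp only [e1, e2, e3, e4, Finset.sum_const_zero]
  rw [t2_sum_inj h.ui a0 (fun _ => o = y), t2_sum_inj h.ui a0 (fun a => v a = y)]
  ring

theorem t2sw_row_v {A : Matrix V V ℝ} {o : V} {t u v : ι → V} (h : T2Val A o t u v) (a0 : ι) (y : V) :
    t2Sw A o t u v (v a0) y = A (v a0) y - (if u a0 = y then 1 else 0) + (if t a0 = y then 1 else 0) := by
  rw [t2sw_apply]
  have e1 : ∀ a, t2E o (t a) (v a0) y = 0 := by
    intro a; simp [t2E_apply, (h.nvo a0).symm, h.ntv a a0]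
  have e2 : ∀ a, t2E (u a) (v a) (v a0) y = if v a = v a0 ∧ u a = y then 1 else 0 := by
    intro a; simp [t2E_apply, h.nuv a a0]
  have e3 : ∀ a, t2E o (u a) (v a0) y = 0 := by
    intro a; simp [t2E_apply, (h.nvo a0).symm, h.nuv a a0]
  have e4 : ∀ a, t2E (t a) (v a) (v a0) y = if v a = v a0 ∧ t a = y then 1 else 0 := by
    intro a; simp [t2E_apply, h.ntv a a0]
  simp only [e1, e2, e3, e4, Finset.sum_const_zero]
  rw [t2_sum_inj h.vi a0 (fun a => u a = y), t2_sum_inj h.vi a0 (fun a => t a = y)]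
  ring

theorem t2sw_row_off (A : Matrix V V ℝ) (o : V) (t u v : ι → V) {x : V} (hxo : x ≠ o) (hxt : ∀ a, t a ≠ x) (hxu : ∀ a, u a ≠ x)
    (hxv : ∀ a, v a ≠ x) (y : V) : t2Sw A o t u v x y = A x y := by
  rw [t2sw_apply]
  simp [t2E_apply, hxo.symm, hxt, hxu, hxv]

theorem t2sw_inv (A : Matrix V V ℝ) (o : V) (t u v : ι → V) : t2Sw (t2Sw A o t u v) o u t v = A := by
  unfold t2Sw
  abel


theorem t2_sum_eq_one {f : ι → V} (hf : Function.Injective f) (a0 : ι) : ∑ a, (if f a = f a0 then (1 : ℝ) else 0) = 1 := by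
  have := t2_sum_inj hf a0 (fun _ => True)
  simpa using this

theorem t2_sum_eq_zero {f : ι → V} {y : V} (hf : ∀ a, f a ≠ y) : ∑ a, (if f a = y then (1 : ℝ) else 0) = 0 :=
  Finset.sum_eq_zero fun a _ => if_neg (hf a)

theorem t2sw_herm {A : Matrix V V ℝ} (hA : A.IsHermitian) (o : V) (t u v : ι → V) : (t2Sw A o t u v).IsHermitian := by
  apply rs_herm
  ext x y
  rw [transpose_apply, t2sw_apply, t2sw_apply, rs_A_symm hA y x]
  have e : ∀ p q : V, t2E p q y x = t2E p q x y := fun p q => rs_A_symm (t2E_herm p q) y x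
  simp only [e]

theorem t2E_row_sum (p q x : V) : ∑ y, t2E p q x y = (if p = x then 1 else 0) + (if q = x then 1 else 0) := by
  simp only [t2E_apply, Finset.sum_add_distrib]
  congr 1
  · by_cases h : p = x <;> simp [h]
  · by_cases h : q = x <;> simp [h]

theorem t2sw_row_sum (A : Matrix V V ℝ) (o : V) (t u v : ι → V) (x : V) : ∑ y, t2Sw A o t u v x y = ∑ y, A x y := by
  simp only [t2sw_apply, Finset.sum_add_distrib, Finset.sum_sub_distrib]
  rw [Finset.sum_comm (f := fun y a => t2E o (t a) x y), Finset.sum_comm (f := fun y a => t2E (u a) (v a) x y),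
    Finset.sum_comm (f := fun y a => t2E o (u a) x y), Finset.sum_comm (f := fun y a => t2E (t a) (v a) x y)]
  simp only [t2E_row_sum, Finset.sum_add_distrib]
  ring

/-- the switched matrix is again the adjacency matrix of a `d`-regular graph -/
theorem t2sw_reg {A : Matrix V V ℝ} {d : ℕ} (hA : T2Reg A d) {o : V} {t u v : ι → V} (h : T2Val A o t u v) : T2Reg (t2Sw A o t u v) d := by
  refine ⟨t2sw_herm hA.herm o t u v, ?_, ?_, fun x => by rw [t2sw_row_sum, hA.row]⟩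
  · intro x y
    by_cases hxo : x = o
    · subst hxo
      rw [t2sw_row_o h]
      by_cases h1 : ∃ a, t a = y
      · obtain ⟨a1, rfl⟩ := h1
        rw [t2_sum_eq_one h.ti, t2_sum_eq_zero (fun a => (h.ntu a1 a).symm), h.ot]
        left; ring
      · by_cases h2 : ∃ a, u a = y
        · obtain ⟨a1, rfl⟩ := h2
          rw [t2_sum_eq_one h.ui, t2_sum_eq_zero (fun a => h.ntu a a1), h.ou]
          right; ring
        · rw [t2_sum_eq_zero (fun a ha => h1 ⟨a, ha⟩), t2_sum_eq_zero (fun a ha => h2 ⟨a, ha⟩)]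
          simpa using hA.zo x y
    · by_cases h1 : ∃ a, t a = x
      · obtain ⟨a0, rfl⟩ := h1
        rw [t2sw_row_t h]
        by_cases hy : o = y
        · subst hy
          rw [if_pos rfl, if_neg (h.nvo a0), rs_A_symm hA.herm, h.ot]
          left; ring
        · by_cases hy2 : v a0 = y
          · subst hy2
            rw [if_neg hy, if_pos rfl, h.tv]
            right; ring
          · rw [if_neg hy, if_neg hy2]
            simpa using hA.zo _ y
      · by_cases h2 : ∃ a, u a = x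
        · obtain ⟨a0, rfl⟩ := h2
          rw [t2sw_row_u h]
          by_cases hy : o = y
          · subst hy
            rw [if_pos rfl, if_neg (h.nvo a0), rs_A_symm hA.herm, h.ou]
            right; ring
          · by_cases hy2 : v a0 = y
            · subst hy2
              rw [if_neg hy, if_pos rfl, h.uv]
              left; ring
            · rw [if_neg hy, if_neg hy2]
              simpa using hA.zo _ y
        · by_cases h3 : ∃ a, v a = x
          · obtain ⟨a0, rfl⟩ := h3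
            rw [t2sw_row_v h]
            by_cases hy : u a0 = y
            · subst hy
              rw [if_pos rfl, if_neg (h.ntu a0 a0), rs_A_symm hA.herm, h.uv]
              left; ring
            · by_cases hy2 : t a0 = y
              · subst hy2
                rw [if_neg hy, if_pos rfl, rs_A_symm hA.herm, h.tv]
                right; ring
              · rw [if_neg hy, if_neg hy2]
                simpa using hA.zo _ y
          · rw [t2sw_row_off A o t u v hxo (fun a ha => h1 ⟨a, ha⟩) (fun a ha => h2 ⟨a, ha⟩) (fun a ha => h3 ⟨a, ha⟩)]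
            exact hA.zo x y
  · intro x
    rw [t2sw_apply, hA.diag]
    have e : ∀ p q : V, p ≠ q → t2E p q x x = 0 := by
      intro p q hpq
      rw [t2E_apply, if_neg, if_neg, add_zero]
      · rintro ⟨h1, h2⟩; exact hpq (h2.trans h1.symm)
      · rintro ⟨h1, h2⟩; exact hpq (h1.trans h2.symm)
    rw [Finset.sum_eq_zero fun a _ => e _ _ (h.nto a).symm, Finset.sum_eq_zero fun a _ => e _ _ (h.nuv a a),
      Finset.sum_eq_zero fun a _ => e _ _ (h.nuo a).symm, Finset.sum_eq_zero fun a _ => e _ _ (h.ntv a a)]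
    ring

/-- the flipped marks are valid in the switched matrix -/
theorem t2sw_val {A : Matrix V V ℝ} {o : V} {t u v : ι → V} (h : T2Val A o t u v) :
    T2Val (t2Sw A o t u v) o u t v where
  ot a := by
    rw [t2sw_row_o h, t2_sum_eq_one h.ui, t2_sum_eq_zero (fun a' => h.ntu a' a), h.ou]; ring
  uv a := by
    rw [t2sw_row_t h, if_neg (h.nvo a).symm, if_pos rfl, h.tv]; ring
  ou a := by
    rw [t2sw_row_o h, t2_sum_eq_one h.ti, t2_sum_eq_zero (fun a' => (h.ntu a a').symm), h.ot]; ring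
  tv a := by
    rw [t2sw_row_u h, if_neg (h.nvo a).symm, if_pos rfl, h.uv]; ring
  en y hy := by
    by_contra hc
    rw [t2sw_row_o h, t2_sum_eq_zero (fun a ha => hc ⟨a, ha⟩)] at hy
    by_cases h1 : ∃ a, t a = y
    · obtain ⟨a1, rfl⟩ := h1
      rw [t2_sum_eq_one h.ti, h.ot] at hy
      norm_num at hy
    · rw [t2_sum_eq_zero (fun a ha => h1 ⟨a, ha⟩)] at hy
      exact h1 (h.en y (by linarith))
  ti := h.ui
  ui := h.ti
  vi := h.vi
  nto := h.nuo
  nuo := h.nto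
  nvo := h.nvo
  ntu a a' := (h.ntu a' a).symm
  ntv := h.nuv
  nuv := h.ntv

/-- marks `(o, t, u, v)` -/
abbrev T2Mk (V ι : Type) : Type := V × (ι → V) × (ι → V) × (ι → V)

/-- validity of a tuple of marks -/
def T2ValM (A : Matrix V V ℝ) (m : T2Mk V ι) : Prop := T2Val A m.1 m.2.1 m.2.2.1 m.2.2.2
/-- the switched matrix -/
def t2SwM (A : Matrix V V ℝ) (m : T2Mk V ι) : Matrix V V ℝ := t2Sw A m.1 m.2.1 m.2.2.1 m.2.2.2
/-- the flipped marks -/
def t2Fl (m : T2Mk V ι) : T2Mk V ι := (m.1, m.2.2.1, m.2.1, m.2.2.2)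

theorem t2swm_eqns_cite : True := by
  have := @T2ValM.eq_1
  have := @t2SwM.eq_1
  have := @t2Fl.eq_1
  trivial

open Classical in
/-- **exchangeability**: `(A, m) ↦ (A^, m^)` is an involution of the set of (regular matrix, valid marks) -/
theorem t2sw_sum (M : Finset (Matrix V V ℝ)) (d : ℕ) (hM : ∀ A, A ∈ M ↔ T2Reg A d) (F : Matrix V V ℝ → T2Mk V ι → ℝ) :
    ∑ A ∈ M, ∑ m : T2Mk V ι, (if T2ValM A m then F A m else 0) = ∑ A ∈ M, ∑ m : T2Mk V ι, (if T2ValM A m then F (t2SwM A m) (t2Fl m) else 0) := by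
  rw [← Finset.sum_product', ← Finset.sum_product', ← Finset.sum_filter, ← Finset.sum_filter]
  refine Finset.sum_nbij' (fun p => (t2SwM p.1 p.2, t2Fl p.2)) (fun p => (t2SwM p.1 p.2, t2Fl p.2)) ?_ ?_ ?_ ?_ ?_
  · intro p hp
    rw [Finset.mem_filter, Finset.mem_product] at hp ⊢
    exact ⟨⟨(hM _).2 (t2sw_reg ((hM _).1 hp.1.1) hp.2), Finset.mem_univ _⟩, t2sw_val hp.2⟩
  · intro p hp
    rw [Finset.mem_filter, Finset.mem_product] at hp ⊢
    exact ⟨⟨(hM _).2 (t2sw_reg ((hM _).1 hp.1.1) hp.2), Finset.mem_univ _⟩, t2sw_val hp.2⟩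
  · intro p _
    exact Prod.ext (t2sw_inv _ _ _ _ _) rfl
  · intro p _
    exact Prod.ext (t2sw_inv _ _ _ _ _) rfl
  · intro p _
    have e1 : t2SwM (t2SwM p.1 p.2) (t2Fl p.2) = p.1 := t2sw_inv _ _ _ _ _
    have e2 : t2Fl (t2Fl p.2) = p.2 := rfl
    show F p.1 p.2 = F (t2SwM (t2SwM p.1 p.2) (t2Fl p.2)) (t2Fl (t2Fl p.2))
    rw [e1, e2]

/-! ## 6. the star block in terms of `Q_aa' = G^(o)_{t_a t_a'}` -/

/-- a sum against a row which is a sum of indicators -/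
theorem t2_row_sum_eq {K : Matrix V V ℝ} {o : V} {t : ι → V} {S : Finset ι} (hrow : ∀ y, K o y = ∑ a ∈ S, (if t a = y then 1 else 0)) (f : V → ℂ) :
    ∑ y, (K o y : ℂ) * f y = ∑ a ∈ S, f (t a) := by
  have e : ∀ y, (K o y : ℂ) * f y = ∑ a ∈ S, (if t a = y then f y else 0) := by
    intro y
    rw [hrow y]
    push_cast
    rw [Finset.sum_mul]
    refine Finset.sum_congr rfl fun a _ => ?_
    split_ifs <;> simp
  simp only [e]
  rw [Finset.sum_comm]
  refine Finset.sum_congr rfl fun a _ => ?_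
  rw [Finset.sum_ite_eq]
  simp

/-- Schur complement at `o` when the row of `o` is the indicator of `{t_a : a ∈ S}` -/
theorem t2_psi_gen {K : Matrix V V ℝ} (hK : K.IsHermitian) {z : ℂ} (hz : z.im ≠ 0) {o : V} (hoo : K o o = 0) {t : ι → V} {S : Finset ι}
    (hrow : ∀ y, K o y = ∑ a ∈ S, (if t a = y then 1 else 0)) :
    rsG K z o o * (- z - ∑ a ∈ S, ∑ a' ∈ S, rsG (rsDel K {o}) z (t a) (t a')) = 1 ∧
    ∀ x, x ≠ o → rsG K z o x = - rsG K z o o * ∑ a ∈ S, rsG (rsDel K {o}) z (t a) x := by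
  constructor
  · have h := rs_cavity0 hK hz o hoo
    have e : ∑ u, ∑ u', (K o u : ℂ) * rsG (rsDel K {o}) z u u' * (K o u' : ℂ) = ∑ a ∈ S, ∑ a' ∈ S, rsG (rsDel K {o}) z (t a) (t a') := by
      have e1 : ∀ u, ∑ u', (K o u : ℂ) * rsG (rsDel K {o}) z u u' * (K o u' : ℂ) = (K o u : ℂ) * ∑ a' ∈ S, rsG (rsDel K {o}) z u (t a') := by
        intro u
        rw [← t2_row_sum_eq hrow (fun y => rsG (rsDel K {o}) z u y), Finset.mul_sum]
        exact Finset.sum_congr rfl fun u' _ => by ring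
      simp only [e1]
      rw [t2_row_sum_eq hrow (fun u => ∑ a' ∈ S, rsG (rsDel K {o}) z u (t a'))]
    rw [e] at h
    have h0 := rs_G_diag_ne hK hz o
    have hD : (- z - ∑ a ∈ S, ∑ a' ∈ S, rsG (rsDel K {o}) z (t a) (t a')) ≠ 0 := by
      intro hc
      rw [hc, div_zero] at h
      exact h0 h
    rw [h]
    field_simp
  · intro x hx
    rw [rs_row hK hz hx]
    congr 1
    rw [← t2_row_sum_eq hrow (fun y => rsG (rsDel K {o}) z y x), ← Finset.sum_add_sum_compl ({o} : Finset V), Finset.sum_singleton, hoo]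
    simp

theorem t2_del_cut (A : Matrix V V ℝ) (o y : V) : rsDel (t2Cut A o y) {o} = rsDel A {o} := by
  ext x x'
  simp only [rs_del_apply, Finset.mem_singleton]
  by_cases h1 : x = o
  · simp [h1]
  · by_cases h2 : x' = o
    · simp [h2]
    · simp only [h1, h2, or_self, if_false, t2Cut, Matrix.add_apply, Matrix.smul_apply, t2E_apply]
      simp [Ne.symm h1, Ne.symm h2]


/-- `t` enumerates the neighbours of `o` -/
structure T2En (A : Matrix V V ℝ) (o : V) (t : ι → V) : Prop where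
  ot : ∀ a, A o (t a) = 1
  en : ∀ y, A o y = 1 → ∃ a, t a = y
  ti : Function.Injective t

theorem t2en_row {A : Matrix V V ℝ} {d : ℕ} (hA : T2Reg A d) {o : V} {t : ι → V} (h : T2En A o t) (y : V) :
    A o y = ∑ a, (if t a = y then 1 else 0) := by
  by_cases h1 : ∃ a, t a = y
  · obtain ⟨a1, rfl⟩ := h1
    rw [h.ot, Finset.sum_eq_single a1]
    · simp
    · intro a _ ha
      exact if_neg fun hc => ha (h.ti hc)
    · intro hc; exact absurd (Finset.mem_univ a1) hc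
  · rw [Finset.sum_eq_zero fun a _ => if_neg fun hc => h1 ⟨a, hc⟩]
    rcases hA.zo o y with h0 | h0
    · exact h0
    · exact absurd (h.en y h0) h1

theorem t2en_ne {A : Matrix V V ℝ} {d : ℕ} (hA : T2Reg A d) {o : V} {t : ι → V} (h : T2En A o t) (a : ι) : t a ≠ o := by
  intro hc
  have := h.ot a
  rw [hc, hA.diag] at this
  norm_num at this

theorem t2en_cut_row {A : Matrix V V ℝ} {d : ℕ} (hA : T2Reg A d) {o : V} {t : ι → V} (h : T2En A o t) (a0 : ι) (y : V) :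
    t2Cut A o (t a0) o y = ∑ a ∈ Finset.univ.erase a0, (if t a = y then 1 else 0) := by
  have h1 := t2en_row hA h y
  rw [← Finset.add_sum_erase _ _ (Finset.mem_univ a0)] at h1
  have h2 : t2E o (t a0) o y = if t a0 = y then 1 else 0 := by
    rw [t2E_apply]
    simp [t2en_ne hA h a0]
  simp only [t2Cut, Matrix.add_apply, Matrix.smul_apply, h2, smul_eq_mul]
  rw [h1]
  ring

theorem t2_cut_diag {A : Matrix V V ℝ} {d : ℕ} (hA : T2Reg A d) {o y : V} (hy : y ≠ o) : t2Cut A o y o o = 0 := by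
  simp only [t2Cut, Matrix.add_apply, Matrix.smul_apply, t2E_apply, hA.diag]
  simp [hy]

/-- `X_(o,t_a0) (-z - ∑_{a,a' ≠ a0} Q_aa') = 1` and `Y_(o,t_a0) = - X_(o,t_a0) ∑_{a ≠ a0} Q_{a a0}` -/
theorem t2_psi_cav {A : Matrix V V ℝ} {d : ℕ} (hA : T2Reg A d) {z : ℂ} (hz : z.im ≠ 0) {o : V} {t : ι → V} (h : T2En A o t) (a0 : ι) :
    t2X A z o (t a0) * (- z - ∑ a ∈ Finset.univ.erase a0, ∑ a' ∈ Finset.univ.erase a0, rsG (rsDel A {o}) z (t a) (t a')) = 1 ∧
    t2Y A z o (t a0) = - t2X A z o (t a0) * ∑ a ∈ Finset.univ.erase a0, rsG (rsDel A {o}) z (t a) (t a0) := by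
  have h1 := t2_psi_gen (t2Cut_herm hA.herm o (t a0)) hz (t2_cut_diag hA (t2en_ne hA h a0)) (t2en_cut_row hA h a0)
  rw [t2_del_cut] at h1
  exact ⟨h1.1, h1.2 _ (t2en_ne hA h a0)⟩

/-- `G_oo (-z - ∑_{a,a'} Q_aa') = 1` and `G_{o x} = - G_oo ∑_a G^(o)_{t_a x}` -/
theorem t2_psi_star {A : Matrix V V ℝ} {d : ℕ} (hA : T2Reg A d) {z : ℂ} (hz : z.im ≠ 0) {o : V} {t : ι → V} (h : T2En A o t) :
    rsG A z o o * (- z - ∑ a, ∑ a', rsG (rsDel A {o}) z (t a) (t a')) = 1 ∧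
    ∀ x, x ≠ o → rsG A z o x = - rsG A z o o * ∑ a, rsG (rsDel A {o}) z (t a) x :=
  t2_psi_gen hA.herm hz (hA.diag o) (t2en_row hA h)

theorem T2Val.toEn {A : Matrix V V ℝ} {o : V} {t u v : ι → V} (h : T2Val A o t u v) : T2En A o t := ⟨h.ot, h.en, h.ti⟩

/-- the number of marks is the degree -/
theorem t2en_card {A : Matrix V V ℝ} {d : ℕ} (hA : T2Reg A d) {o : V} {t : ι → V} (h : T2En A o t) : Fintype.card ι = d := by
  have h1 := hA.row o
  simp only [t2en_row hA h] at h1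
  rw [Finset.sum_comm] at h1
  simp only [Finset.sum_ite_eq, Finset.mem_univ, if_true, Finset.sum_const, Finset.card_univ, nsmul_eq_mul, mul_one] at h1
  exact_mod_cast h1

/-! ## 7. the comparison -/

/-- cross entries of `G(A)` seen from the far edge `(u_a, v_a)`: against the closed star of `o` and against the other far edges -/
def t2Er (A : Matrix V V ℝ) (z : ℂ) (o : V) (u v : ι → V) (a : ι) : ℝ :=
  ∑ s, (if s = o ∨ A o s = 1 then ‖rsG A z (u a) s‖ + ‖rsG A z (v a) s‖ else 0)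
    + ∑ a', (if a' = a then 0 else ‖rsG A z (u a) (u a')‖ + ‖rsG A z (u a) (v a')‖ + ‖rsG A z (v a) (u a')‖ + ‖rsG A z (v a) (v a')‖)

/-- the constant of the comparison -/
def t2K1 (d : ℕ) (C0 co : ℝ) : ℝ := (2 * d * (C0 + C0 ^ 2 / co) + 1) * (2 * (1 + C0)) + 1 + C0 / co

theorem t2cmp_eqns_cite : True := by
  have := @t2Er.eq_1
  have := @t2K1.eq_1
  trivial

theorem t2Er_nonneg (A : Matrix V V ℝ) (z : ℂ) (o : V) (u v : ι → V) (a : ι) : 0 ≤ t2Er A z o u v a := by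
  unfold t2Er
  refine add_nonneg (Finset.sum_nonneg fun s _ => ?_) (Finset.sum_nonneg fun a' _ => ?_) <;> split_ifs <;> positivity

/-- basic first order bound -/
theorem t2_pert0 {A A' : Matrix V V ℝ} (hA : A.IsHermitian) (hA' : A'.IsHermitian) {z : ℂ} (hz : z.im ≠ 0) (x y : V) :
    ‖rsG A' z x y - rsG A z x y‖ ≤ ∑ s, ‖rsG A z x s‖ * ∑ s', |A' s s' - A s s'| * ‖rsG A' z s' y‖ := by
  rw [t2_res_entry hA hA' hz x y, sub_sub_cancel_left, norm_neg]
  refine (norm_sum_le _ _).trans (Finset.sum_le_sum fun s _ => ?_)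
  rw [Finset.mul_sum]
  refine (norm_sum_le _ _).trans (Finset.sum_le_sum fun s' _ => ?_)
  rw [norm_mul, norm_mul, Complex.norm_real, Real.norm_eq_abs, mul_assoc]

/-- entries of `G^(o)` off `o` -/
theorem t2_del_bd {A : Matrix V V ℝ} (hA : A.IsHermitian) {z : ℂ} (hz : z.im ≠ 0) {o : V} {C0 co : ℝ} (hbd : ∀ x y, ‖rsG A z x y‖ ≤ C0)
    (hco : 0 < co) (hco' : co ≤ ‖rsG A z o o‖) (x : V) {y : V} (hy : y ≠ o) : ‖rsG (rsDel A {o}) z x y‖ ≤ C0 + C0 ^ 2 / co := by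
  have hC0 : 0 ≤ C0 := (norm_nonneg _).trans (hbd o o)
  by_cases hx : x = o
  · subst hx
    rw [rs_del_G_in hA hz (Finset.mem_singleton_self x), if_neg (Ne.symm hy), norm_zero]
    positivity
  · rw [rs_remove hA hz hx y]
    refine (norm_sub_le _ _).trans (add_le_add (hbd x y) ?_)
    rw [norm_div, norm_mul, sq]
    exact div_le_div₀ (by positivity) (mul_le_mul (hbd x o) (hbd o y) (norm_nonneg _) hC0) hco hco'

theorem t2val_ov {A : Matrix V V ℝ} {d : ℕ} (hA : T2Reg A d) {o : V} {t u v : ι → V} (h : T2Val A o t u v) (a : ι) : A o (v a) = 0 := by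
  rcases hA.zo o (v a) with h0 | h0
  · exact h0
  · obtain ⟨a', ha'⟩ := h.en _ h0
    exact absurd ha' (h.ntv a' a)

theorem t2Cut_apply (A : Matrix V V ℝ) (p q x y : V) : t2Cut A p q x y = A x y - t2E p q x y := by
  simp [t2Cut, sub_eq_add_neg]

/-- entries of the cut matrix at an edge -/
theorem t2Cut_mem {A : Matrix V V ℝ} {d : ℕ} (hA : T2Reg A d) {p q : V} (hpq : A p q = 1) (x y : V) : 0 ≤ t2Cut A p q x y ∧ t2Cut A p q x y ≤ A x y := by
  have hne : p ≠ q := by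
    rintro rfl
    rw [hA.diag] at hpq
    norm_num at hpq
  rw [t2Cut_apply, t2E_apply]
  have h0 : 0 ≤ A x y := by rcases hA.zo x y with h | h <;> simp [h]
  by_cases h1 : p = x ∧ q = y
  · obtain ⟨rfl, rfl⟩ := h1
    rw [if_pos ⟨rfl, rfl⟩, if_neg (fun hc => hne hc.2), hpq]
    norm_num
  · by_cases h2 : q = x ∧ p = y
    · obtain ⟨rfl, rfl⟩ := h2
      rw [if_neg h1, if_pos ⟨rfl, rfl⟩, rs_A_symm hA.herm, hpq]
      norm_num
    · rw [if_neg h1, if_neg h2]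
      constructor <;> linarith

/-- rows of `A2 - A1`, `A2 = rsDel A^ {o}`, `A1 = t2Cut A (u a) (v a)` -/
theorem t2cmp_rows {A : Matrix V V ℝ} {d : ℕ} (hA : T2Reg A d) {o : V} {t u v : ι → V} (h : T2Val A o t u v) (a : ι) :
    (∀ s', rsDel (t2Sw A o t u v) {o} (v a) s' - t2Cut A (u a) (v a) (v a) s' = if t a = s' then 1 else 0) ∧
    (∀ s, s ≠ o → A o s ≠ 1 → (∀ a'', a'' ≠ a → u a'' ≠ s ∧ v a'' ≠ s) → s ≠ v a → ∀ s', rsDel (t2Sw A o t u v) {o} s s' = t2Cut A (u a) (v a) s s') ∧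
    (∀ s, ∑ s', |rsDel (t2Sw A o t u v) {o} s s' - t2Cut A (u a) (v a) s s'| ≤ 2 * d) := by
  refine ⟨?_, ?_, ?_⟩
  · intro s'
    rw [rs_del_apply, t2Cut_apply, t2E_apply]
    simp only [Finset.mem_singleton]
    by_cases hs : s' = o
    · subst hs
      rw [if_pos (Or.inr rfl), rs_A_symm hA.herm, t2val_ov hA h, if_neg (fun hc => h.nvo a hc.2), if_neg (fun hc => h.nuo a hc.2), if_neg (h.nto a)]
      ring
    · rw [if_neg (by rintro (hc | hc); exacts [h.nvo a hc, hs hc]), t2sw_row_v h, if_neg (fun hc : u a = v a ∧ v a = s' => h.nuv a a hc.1)]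
      by_cases h1 : u a = s'
      · simp [h1]
      · simp [h1]
  · intro s hso hos hoth hsv s'
    rw [rs_del_apply, t2Cut_apply, t2E_apply]
    simp only [Finset.mem_singleton]
    have hos0 : A o s = 0 := (hA.zo o s).resolve_right hos
    by_cases hsu : s = u a
    · subst hsu
      by_cases hs : s' = o
      · subst hs
        rw [if_pos (Or.inr rfl), rs_A_symm hA.herm, hos0, if_neg (fun hc => h.nvo a hc.2), if_neg (fun hc => h.nuo a hc.2)]
        ring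
      · rw [if_neg (by rintro (hc | hc); exacts [hso hc, hs hc]), t2sw_row_u h, if_neg (Ne.symm hs), if_neg (fun hc : v a = u a ∧ u a = s' => hsv hc.1.symm)]
        by_cases h1 : v a = s'
        · simp [h1]
        · simp [h1]
    · have hu : ∀ a'', u a'' ≠ s := by
        intro a''
        by_cases ha : a'' = a
        · subst ha; exact Ne.symm hsu
        · exact (hoth a'' ha).1
      have hv : ∀ a'', v a'' ≠ s := by
        intro a''
        by_cases ha : a'' = a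
        · subst ha; exact Ne.symm hsv
        · exact (hoth a'' ha).2
      have ht : ∀ a'', t a'' ≠ s := by
        intro a'' hc
        exact hos (hc ▸ h.ot a'')
      rw [if_neg (fun hc : u a = s ∧ v a = s' => hu a hc.1), if_neg (fun hc : v a = s ∧ u a = s' => hv a hc.1)]
      by_cases hs : s' = o
      · subst hs
        rw [if_pos (Or.inr rfl), rs_A_symm hA.herm, hos0]
        ring
      · rw [if_neg (by rintro (hc | hc); exacts [hso hc, hs hc]), t2sw_row_off A o t u v hso ht hu hv]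
        ring
  · intro s
    have hR := t2sw_reg hA h
    have h1 : ∀ s', |rsDel (t2Sw A o t u v) {o} s s' - t2Cut A (u a) (v a) s s'| ≤ t2Sw A o t u v s s' + A s s' := by
      intro s'
      have c := t2Cut_mem hA (h.uv a) s s'
      have p0 : 0 ≤ t2Sw A o t u v s s' := by rcases hR.zo s s' with h | h <;> simp [h]
      have c2 : 0 ≤ rsDel (t2Sw A o t u v) {o} s s' ∧ rsDel (t2Sw A o t u v) {o} s s' ≤ t2Sw A o t u v s s' := by
        rw [rs_del_apply]
        split_ifs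
        · exact ⟨le_rfl, p0⟩
        · exact ⟨p0, le_rfl⟩
      rw [abs_le]
      constructor <;> linarith [c.1, c.2, c2.1, c2.2]
    refine (Finset.sum_le_sum fun s' _ => h1 s').trans ?_
    rw [Finset.sum_add_distrib, hR.row, hA.row]
    linarith

/-- **THE COMPARISON** (note T2plan sec. 2).   `A^ = t2Sw A o t u v`, `A1 = t2Cut A (u a) (v a)`, `A2 = rsDel A^ {o}`.
PLAN: `t2_pert0` for `(A1, A2)` at `(x,y) = (u a, u a')`.  Rows: `A2 s · = A1 s ·` unless `s = o`, `A o s = 1`, `s = u a''`, `s = v a''` (`a'' ≠ a`) or `s = v a`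
(`t2sw_row_*`, `rs_del_apply`; the row `u a` agrees because `A o (u a) = 0`);  the row `v a`: `A2 (v a) s' - A1 (v a) s' = [t a = s']`, so its term is `|Y_a| |G2 (t a) (u a')|`,
`|Y_a| ≤ κ ≤ 1`, `G2 (t a) (u a') = G^ (t a) (u a') - G^ (t a) o G^ o (u a') / G^ o o` (`rs_remove`): two cross entries of `G^`, both summands of `t2Er A^ z o t v a` (`s = u a'`, `s = o`).
All other rows: `∑_s' |A2 - A1| ‖G2 s' y‖ ≤ 2 d (C0 + C0²/co)` (`t2_del_bd`; entries `≥ 0`, row sums `≤ d`), and `‖G1 (u a) s‖ ≤ 2 (1 + C0) (‖G (u a) s‖ + ‖G (v a) s‖)` (`t2good_row`).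
`G1 (u a) (u a) = X_a` by definition; for `a ≠ a'` the term `G1 (u a) (u a')` is again bounded by `t2good_row`. -/
theorem t2_cmp {b : ℕ} {z g : ℂ} {cg Z : ℝ} (hp : T2Par b z g cg Z) {A : Matrix V V ℝ} {d : ℕ} (hA : T2Reg A d) {o : V} {t u v : ι → V}
    (h : T2Val A o t u v) {κ C0 co : ℝ} (hκ : κ ≤ 1 / 36) (hbd : ∀ x y, ‖rsG A z x y‖ ≤ C0) (hbd' : ∀ x y, ‖rsG (t2Sw A o t u v) z x y‖ ≤ C0)
    (hco : 0 < co) (hco' : co ≤ ‖rsG (t2Sw A o t u v) z o o‖) (a a' : ι) (hgd : T2Good A z g κ (u a) (v a)) :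
    ‖rsG (rsDel (t2Sw A o t u v) {o}) z (u a) (u a') - (if a = a' then t2X A z (u a) (v a) else 0)‖
      ≤ t2K1 d C0 co * (t2Er A z o u v a + t2Er (t2Sw A o t u v) z o t v a) := by
  classical
  have hz : z.im ≠ 0 := hp.im.ne'
  have hR := t2sw_reg hA h
  have hV := t2sw_val h
  obtain ⟨r1, r2, r3⟩ := t2cmp_rows hA h a
  have hC0 : 0 ≤ C0 := (norm_nonneg _).trans (hbd o o)
  have hE0 := t2Er_nonneg A z o u v a
  have hE0' := t2Er_nonneg (t2Sw A o t u v) z o t v a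
  set Ah := t2Sw A o t u v with hAh
  set A1 := t2Cut A (u a) (v a) with hA1
  set A2 := rsDel Ah {o} with hA2
  have hA1h : A1.IsHermitian := t2Cut_herm hA.herm _ _
  have hA2h : A2.IsHermitian := rs_del_herm hR.herm _
  set Cd := C0 + C0 ^ 2 / co with hCd
  have hCd0 : 0 ≤ Cd := by positivity
  have hd0 : (0 : ℝ) ≤ d := Nat.cast_nonneg d
  have hG2 : ∀ s', ‖rsG A2 z s' (u a')‖ ≤ Cd := fun s' => t2_del_bd hR.herm hz hbd' hco hco' s' (h.nuo a')
  set f : V → ℝ := fun s => ‖rsG A z (u a) s‖ + ‖rsG A z (v a) s‖ with hf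
  have hf0 : ∀ s, 0 ≤ f s := fun s => by positivity
  have hG1 : ∀ s, ‖rsG A1 z (u a) s‖ ≤ 2 * (1 + C0) * f s := fun s => t2good_row hp hA.herm hgd hκ hbd s
  set T : V → ℝ := fun s => (if s = o ∨ A o s = 1 then f s else 0)
    + ∑ a'', (if a'' = a then 0 else (if u a'' = s then f s else 0) + (if v a'' = s then f s else 0)) with hT
  have hT0 : ∀ s, 0 ≤ T s := by
    intro s
    refine add_nonneg (by split_ifs; exacts [hf0 s, le_rfl]) (Finset.sum_nonneg fun a'' _ => ?_)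
    split_ifs <;> first | exact le_rfl | (have := hf0 s; positivity)
  have hpt : ∀ s, ‖rsG A1 z (u a) s‖ * ∑ s', |A2 s s' - A1 s s'| * ‖rsG A2 z s' (u a')‖
      ≤ 2 * d * Cd * (2 * (1 + C0)) * T s + (if v a = s then ‖rsG A2 z (t a) (u a')‖ else 0) := by
    intro s
    have hc0 : 0 ≤ 2 * d * Cd * (2 * (1 + C0)) * T s := by have := hT0 s; positivity
    by_cases hsv : s = v a
    · subst hsv
      have e : ∑ s', |A2 (v a) s' - A1 (v a) s'| * ‖rsG A2 z s' (u a')‖ = ‖rsG A2 z (t a) (u a')‖ := by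
        simp only [r1]
        rw [Finset.sum_eq_single (t a)]
        · simp
        · intro s' _ hs'
          rw [if_neg (Ne.symm hs')]; simp
        · intro hc; exact absurd (Finset.mem_univ _) hc
      rw [e, if_pos rfl]
      have hY : ‖rsG A1 z (u a) (v a)‖ ≤ 1 := hgd.y.trans (by linarith)
      have := mul_le_mul_of_nonneg_right hY (norm_nonneg (rsG A2 z (t a) (u a')))
      linarith
    · rw [if_neg (Ne.symm hsv), add_zero]
      by_cases hW : s = o ∨ A o s = 1 ∨ ∃ a'', a'' ≠ a ∧ (u a'' = s ∨ v a'' = s)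
      · have e : ∑ s', |A2 s s' - A1 s s'| * ‖rsG A2 z s' (u a')‖ ≤ 2 * d * Cd := by
          calc ∑ s', |A2 s s' - A1 s s'| * ‖rsG A2 z s' (u a')‖ ≤ ∑ s', |A2 s s' - A1 s s'| * Cd :=
                Finset.sum_le_sum fun s' _ => mul_le_mul_of_nonneg_left (hG2 s') (abs_nonneg _)
            _ = (∑ s', |A2 s s' - A1 s s'|) * Cd := by rw [Finset.sum_mul]
            _ ≤ 2 * d * Cd := mul_le_mul_of_nonneg_right (r3 s) hCd0
        have hb : f s ≤ T s := by
          have hsum0 : 0 ≤ ∑ a'', (if a'' = a then 0 else (if u a'' = s then f s else 0) + (if v a'' = s then f s else 0)) := by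
            refine Finset.sum_nonneg fun a'' _ => ?_
            split_ifs <;> first | exact le_rfl | (have := hf0 s; positivity)
          by_cases hW1 : s = o ∨ A o s = 1
          · simp only [hT]
            rw [if_pos hW1]
            linarith
          · obtain ⟨a'', ha, hW2⟩ : ∃ a'', a'' ≠ a ∧ (u a'' = s ∨ v a'' = s) := by
              rcases hW with hW | hW | hW
              · exact absurd (Or.inl hW) hW1
              · exact absurd (Or.inr hW) hW1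
              · exact hW
            have h1 : (if a'' = a then 0 else (if u a'' = s then f s else 0) + (if v a'' = s then f s else 0))
                ≤ ∑ a'', (if a'' = a then 0 else (if u a'' = s then f s else 0) + (if v a'' = s then f s else 0)) := by
              refine Finset.single_le_sum (f := fun a'' => (if a'' = a then 0 else (if u a'' = s then f s else 0) + (if v a'' = s then f s else 0))) (fun i _ => ?_) (Finset.mem_univ a'')
              split_ifs <;> first | exact le_rfl | (have := hf0 s; positivity)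
            rw [if_neg ha] at h1
            have h2 : f s ≤ (if u a'' = s then f s else 0) + (if v a'' = s then f s else 0) := by
              rcases hW2 with hW2 | hW2
              · rw [if_pos hW2]
                have : 0 ≤ (if v a'' = s then f s else 0) := by split_ifs; exacts [hf0 s, le_rfl]
                linarith
              · rw [if_pos hW2]
                have : 0 ≤ (if u a'' = s then f s else 0) := by split_ifs; exacts [hf0 s, le_rfl]
                linarith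
            simp only [hT]
            rw [if_neg hW1]
            linarith
        calc ‖rsG A1 z (u a) s‖ * ∑ s', |A2 s s' - A1 s s'| * ‖rsG A2 z s' (u a')‖
            ≤ (2 * (1 + C0) * T s) * (2 * d * Cd) :=
              mul_le_mul ((hG1 s).trans (mul_le_mul_of_nonneg_left hb (by positivity))) e
                (Finset.sum_nonneg fun s' _ => mul_nonneg (abs_nonneg _) (norm_nonneg _)) (by have := hT0 s; positivity)
          _ = _ := by ring
      · push Not at hW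
        have e : ∑ s', |A2 s s' - A1 s s'| * ‖rsG A2 z s' (u a')‖ = 0 :=
          Finset.sum_eq_zero fun s' _ => by rw [r2 s hW.1 hW.2.1 (fun a'' ha => hW.2.2 a'' ha) hsv s', sub_self, abs_zero, zero_mul]
        rw [e, mul_zero]
        exact hc0
  have hsumT : ∑ s, T s = t2Er A z o u v a := by
    simp only [hT]
    rw [Finset.sum_add_distrib, Finset.sum_comm, t2Er]
    congr 1
    refine Finset.sum_congr rfl fun a'' _ => ?_
    by_cases ha : a'' = a
    · simp [ha]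
    · simp only [if_neg ha, Finset.sum_add_distrib, Finset.sum_ite_eq, Finset.mem_univ, if_true, hf]
      ring
  have hmain : ‖rsG A2 z (u a) (u a') - rsG A1 z (u a) (u a')‖ ≤ 2 * d * Cd * (2 * (1 + C0)) * t2Er A z o u v a + ‖rsG A2 z (t a) (u a')‖ := by
    refine (t2_pert0 hA1h hA2h hz (u a) (u a')).trans ((Finset.sum_le_sum fun s _ => hpt s).trans ?_)
    rw [Finset.sum_add_distrib, ← Finset.mul_sum, hsumT, Finset.sum_ite_eq]
    simp
  have hthird : ‖rsG A2 z (t a) (u a')‖ ≤ (1 + C0 / co) * t2Er Ah z o t v a := by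
    rw [hA2, rs_remove hR.herm hz (h.nto a) (u a')]
    have h1 : ‖rsG Ah z (t a) o * rsG Ah z o (u a') / rsG Ah z o o‖ ≤ ‖rsG Ah z (t a) o‖ * (C0 / co) := by
      rw [norm_div, norm_mul, mul_div_assoc]
      exact mul_le_mul_of_nonneg_left (div_le_div₀ hC0 (hbd' _ _) hco hco') (norm_nonneg _)
    have h2 : ‖rsG Ah z (t a) o‖ + ‖rsG Ah z (t a) (u a')‖ ≤ t2Er Ah z o t v a := by
      unfold t2Er
      have hs0 : 0 ≤ ∑ a'', (if a'' = a then 0 else ‖rsG Ah z (t a) (t a'')‖ + ‖rsG Ah z (t a) (v a'')‖ + ‖rsG Ah z (v a) (t a'')‖ + ‖rsG Ah z (v a) (v a'')‖) :=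
        Finset.sum_nonneg fun a'' _ => by split_ifs <;> positivity
      have hs1 : ∑ s ∈ ({o, u a'} : Finset V), (if s = o ∨ Ah o s = 1 then ‖rsG Ah z (t a) s‖ + ‖rsG Ah z (v a) s‖ else 0)
          ≤ ∑ s, (if s = o ∨ Ah o s = 1 then ‖rsG Ah z (t a) s‖ + ‖rsG Ah z (v a) s‖ else 0) :=
        Finset.sum_le_sum_of_subset_of_nonneg (Finset.subset_univ _) fun s _ _ => by split_ifs <;> positivity
      rw [Finset.sum_pair (h.nuo a').symm, if_pos (Or.inl rfl), if_pos (Or.inr (hV.ot a'))] at hs1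
      have p1 := norm_nonneg (rsG Ah z (v a) o)
      have p2 := norm_nonneg (rsG Ah z (v a) (u a'))
      linarith
    have h3 : 0 ≤ C0 / co := by positivity
    refine (norm_sub_le _ _).trans ?_
    have p1 := norm_nonneg (rsG Ah z (t a) o)
    have p2 := norm_nonneg (rsG Ah z (t a) (u a'))
    nlinarith
  have hK1 : t2K1 d C0 co = (2 * d * Cd + 1) * (2 * (1 + C0)) + 1 + C0 / co := rfl
  have h3 : 0 ≤ C0 / co := by positivity
  by_cases haa : a = a'
  · subst haa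
    rw [if_pos rfl]
    have e : t2X A z (u a) (v a) = rsG A1 z (u a) (u a) := rfl
    rw [e, hK1]
    refine hmain.trans ?_
    nlinarith [mul_nonneg (mul_nonneg hd0 hCd0) hC0, mul_nonneg hd0 hCd0]
  · rw [if_neg haa, sub_zero, hK1]
    have h4 : ‖rsG A1 z (u a) (u a')‖ ≤ 2 * (1 + C0) * t2Er A z o u v a := by
      refine (hG1 (u a')).trans (mul_le_mul_of_nonneg_left ?_ (by positivity))
      unfold t2Er
      have hs0 : 0 ≤ ∑ s, (if s = o ∨ A o s = 1 then ‖rsG A z (u a) s‖ + ‖rsG A z (v a) s‖ else 0) :=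
        Finset.sum_nonneg fun s _ => by split_ifs <;> positivity
      have hs1 := Finset.single_le_sum (f := fun a'' => (if a'' = a then 0 else ‖rsG A z (u a) (u a'')‖ + ‖rsG A z (u a) (v a'')‖ + ‖rsG A z (v a) (u a'')‖ + ‖rsG A z (v a) (v a'')‖))
        (fun i _ => by split_ifs <;> positivity) (Finset.mem_univ a')
      rw [if_neg (Ne.symm haa)] at hs1
      have p1 := norm_nonneg (rsG A z (u a) (v a'))
      have p2 := norm_nonneg (rsG A z (v a) (v a'))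
      simp only [hf]
      linarith
    have h5 : ‖rsG A2 z (u a) (u a')‖ ≤ ‖rsG A2 z (u a) (u a') - rsG A1 z (u a) (u a')‖ + ‖rsG A1 z (u a) (u a')‖ := by
      have := norm_add_le (rsG A2 z (u a) (u a') - rsG A1 z (u a) (u a')) (rsG A1 z (u a) (u a'))
      rwa [sub_add_cancel] at this
    refine h5.trans ?_
    nlinarith [mul_nonneg (mul_nonneg hd0 hCd0) hC0, mul_nonneg hd0 hCd0]

/-! ## 8. the mean bound (M) -/

set_option maxHeartbeats 1000000 in
/-- one good edge, abstract form -/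
theorem t2mean_abs {b : ℕ} (hb : 2 ≤ b) {g ξ ξ' Y Δ T : ℂ} (hγ2 : (b : ℝ) * ‖g‖ ^ 2 ≤ 1)
    (hid : g * Δ * T = ξ - b * g ^ 2 * ξ' - b * g * ξ * ξ' + (b - 1) * g * Y + b * g * Y ^ 2)
    (hD1 : ‖Δ - (1 - g ^ 2)‖ ≤ 3 * (‖ξ‖ + ‖ξ'‖ + ‖Y‖)) (hD2 : 1 / 4 ≤ ‖Δ‖) (hx1 : ‖ξ‖ ≤ 1 / 36) (hx2 : ‖ξ'‖ ≤ 1 / 36) (hy : ‖Y‖ ≤ 1 / 36) :
    ‖g * (1 - g ^ 2) * T - ξ + b * g ^ 2 * ξ'‖ ≤ 37 * (b + 1) * (‖ξ‖ ^ 2 + ‖ξ'‖ ^ 2) + 3 * (b + 1) * ‖Y‖ := by
  have hb2 : (2 : ℝ) ≤ b := by exact_mod_cast hb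
  obtain ⟨p, hp⟩ : ∃ p, p = ‖ξ‖ := ⟨_, rfl⟩
  obtain ⟨q, hq⟩ : ∃ q, q = ‖ξ'‖ := ⟨_, rfl⟩
  obtain ⟨r, hr⟩ : ∃ r, r = ‖Y‖ := ⟨_, rfl⟩
  obtain ⟨γ, hγ⟩ : ∃ γ, γ = ‖g‖ := ⟨_, rfl⟩
  rw [← hp, ← hq, ← hr] at hD1 ⊢
  rw [← hp] at hx1
  rw [← hq] at hx2
  rw [← hr] at hy
  rw [← hγ] at hγ2
  have p0 : 0 ≤ p := hp ▸ norm_nonneg _
  have q0 : 0 ≤ q := hq ▸ norm_nonneg _
  have r0 : 0 ≤ r := hr ▸ norm_nonneg _
  have γ0 : 0 ≤ γ := hγ ▸ norm_nonneg _
  have hβ : (b : ℝ) * γ ≤ (b + 1) / 2 := by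
    by_contra hc
    push Not at hc
    have h1 : ((b : ℝ) + 1) / 2 * (((b : ℝ) + 1) / 2) < (b * γ) * (b * γ) := mul_self_lt_mul_self (by positivity) hc
    have h2 : (b * γ) * (b * γ) = b * (b * γ ^ 2) := by ring
    have h3 : (b : ℝ) * (b * γ ^ 2) ≤ b * 1 := mul_le_mul_of_nonneg_left hγ2 (by positivity)
    nlinarith [sq_nonneg ((b : ℝ) - 1)]
  have hβ0 : 0 ≤ (b : ℝ) * γ := by positivity
  have n1 : ‖(b : ℂ) * g * ξ * ξ'‖ ≤ (b + 1) / 2 * (p * q) := by
    rw [norm_mul, norm_mul, norm_mul, Complex.norm_natCast, ← hp, ← hq, ← hγ, mul_assoc ((b : ℝ) * γ)]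
    exact mul_le_mul_of_nonneg_right hβ (by positivity)
  have n2 : ‖((b : ℂ) - 1) * g * Y‖ ≤ (b + 1) / 2 * r := by
    rw [norm_mul, norm_mul, ← hr, ← hγ]
    have e : ‖(b : ℂ) - 1‖ = b - 1 := by
      have : (b : ℂ) - 1 = ((b - 1 : ℝ) : ℂ) := by push_cast; ring
      rw [this, Complex.norm_real, Real.norm_eq_abs, abs_of_nonneg (by linarith)]
    rw [e]
    refine mul_le_mul_of_nonneg_right ?_ r0
    nlinarith
  have n3 : ‖(b : ℂ) * g * Y ^ 2‖ ≤ (b + 1) / 2 * (r / 36) := by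
    rw [norm_mul, norm_mul, norm_pow, Complex.norm_natCast, ← hr, ← hγ]
    have h1 : r ^ 2 ≤ r / 36 := by nlinarith
    exact mul_le_mul hβ h1 (by positivity) (by positivity)
  have n4 : ‖(b : ℂ) * g ^ 2 * ξ'‖ ≤ q := by
    rw [norm_mul, norm_mul, norm_pow, Complex.norm_natCast, ← hq, ← hγ]
    exact mul_le_of_le_one_left q0 hγ2
  have hpq : p * q ≤ p / 36 := by nlinarith
  have hN : ‖g * Δ * T‖ ≤ (b + 1) * (p + q + r) := by
    rw [hid]
    have t1 := norm_add_le (ξ - b * g ^ 2 * ξ' - b * g * ξ * ξ' + (b - 1) * g * Y) (b * g * Y ^ 2)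
    have t2 := norm_add_le (ξ - b * g ^ 2 * ξ' - b * g * ξ * ξ') ((b - 1) * g * Y)
    have t3 := norm_sub_le (ξ - b * g ^ 2 * ξ') (b * g * ξ * ξ')
    have t4 := norm_sub_le ξ (b * g ^ 2 * ξ')
    rw [← hp] at t4
    have h1 : ((b : ℝ) + 1) / 2 * (p * q) ≤ (b + 1) / 2 * (p / 36) := mul_le_mul_of_nonneg_left hpq (by positivity)
    have h2 : 2 * p ≤ (b : ℝ) * p := mul_le_mul_of_nonneg_right hb2 p0
    have h3 : 0 ≤ (b : ℝ) * q := by positivity
    have h4 : 0 ≤ (b : ℝ) * r := by positivity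
    linarith
  have hgT : ‖g * T‖ ≤ 4 * ((b + 1) * (p + q + r)) := by
    have e : g * Δ * T = Δ * (g * T) := by ring
    rw [e, norm_mul] at hN
    have := mul_le_mul_of_nonneg_right hD2 (norm_nonneg (g * T))
    linarith
  have e : g * (1 - g ^ 2) * T - ξ + b * g ^ 2 * ξ' = (- (b * g * ξ * ξ') + (b - 1) * g * Y + b * g * Y ^ 2) - (Δ - (1 - g ^ 2)) * (g * T) := by
    linear_combination hid
  rw [e]
  have t1 := norm_sub_le (- (b * g * ξ * ξ') + (b - 1) * g * Y + b * g * Y ^ 2) ((Δ - (1 - g ^ 2)) * (g * T))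
  have t2 := norm_add_le (- (b * g * ξ * ξ') + (b - 1) * g * Y) (b * g * Y ^ 2)
  have t3 := norm_add_le (- (b * g * ξ * ξ')) ((b - 1) * g * Y)
  rw [norm_neg] at t3
  have t4 : ‖(Δ - (1 - g ^ 2)) * (g * T)‖ ≤ (3 * (p + q + r)) * (4 * ((b + 1) * (p + q + r))) := by
    rw [norm_mul]
    exact mul_le_mul hD1 hgT (norm_nonneg _) (by positivity)
  have s1 : (p + q + r) ^ 2 ≤ 3 * (p ^ 2 + q ^ 2) + r / 12 := by
    have h1 : r ^ 2 ≤ r / 36 := by nlinarith
    nlinarith [sq_nonneg (p - q), sq_nonneg (p - r), sq_nonneg (q - r)]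
  have s2 : p * q ≤ (p ^ 2 + q ^ 2) / 2 := by nlinarith [sq_nonneg (p - q)]
  have s3 : (3 * (p + q + r)) * (4 * ((b + 1) * (p + q + r))) = 12 * (b + 1) * (p + q + r) ^ 2 := by ring
  have s4 : 12 * ((b : ℝ) + 1) * (p + q + r) ^ 2 ≤ 12 * (b + 1) * (3 * (p ^ 2 + q ^ 2) + r / 12) :=
    mul_le_mul_of_nonneg_left s1 (by positivity)
  have s5 : ((b : ℝ) + 1) / 2 * (p * q) ≤ (b + 1) / 2 * ((p ^ 2 + q ^ 2) / 2) := mul_le_mul_of_nonneg_left s2 (by positivity)
  have s6 : 0 ≤ ((b : ℝ) + 1) * (p ^ 2 + q ^ 2) := by positivity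
  have s7 : 0 ≤ ((b : ℝ) + 1) * r := by positivity
  rw [s3] at t4
  linarith

/-- one good edge: `g (1-g²) T_e = ξ - b g² ξ' + O(σ² + |Y|)` -/
theorem t2mean_edge {b : ℕ} {z g : ℂ} {cg Z : ℝ} (hp : T2Par b z g cg Z) {A : Matrix V V ℝ} (hA : A.IsHermitian) {κ : ℝ} (hκ : κ ≤ 1 / 36)
    {x y : V} (h : T2Good A z g κ x y) :
    ‖g * (1 - g ^ 2) * (((b + 1 : ℕ) : ℂ) * rsG A z x y - z * rsG A z x x - 1) - (t2X A z x y - g) + b * g ^ 2 * (t2X A z y x - g)‖
      ≤ 37 * (b + 1) * (‖t2X A z x y - g‖ ^ 2 + ‖t2X A z y x - g‖ ^ 2) + 3 * (b + 1) * ‖t2Y A z x y‖ :=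
  t2mean_abs hp.b2 hp.le (t2_edge_id hA hp.im.ne' x y b g hp.eq) (t2good_Dl_sub h (t2par_le_one hp) (by linarith)) (t2good_Dl hp h hκ).1
    (h.x1.trans hκ) (h.x2.trans hκ) (h.y.trans hκ)

/-- **(M)**: the mean of the cavity deviations is of second order.   (note A3 sec. 3 step 2.)
PLAN: `t2_mean_exact` splits into good and bad oriented edges.  Good: `T_e := d G_vv' - z G_vv - 1`, `g Δ_e T_e = N_e` (`t2_edge_id`), `(1-g²)/Δ_e = 1 - ρ_e`, `|ρ_e| ≤ 12 σ_e`, `σ_e = |ξ|+|ξ'|+|Y|` (`t2good_Dl_sub`, `t2good_Dl`),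
`|N_e| ≤ (b+1) σ_e`.   `∑_good N_e = (1 - b g²) S1 + ∑_good (- b g ξ ξ' + (b-1) g Y + b g Y²)` because the good set is symmetric (`∑_good ξ' = ∑_good ξ`: swap `x ↔ y`, `A` symmetric).
Hence `|1 - b g²| |S1| ≤ b S2 + (2b-1) SY + 36 (b+1) (2 S2 + SY) + (3/2) ((b+1) C0 + Z C0 + 1) NB`. -/
theorem t2_mean {b : ℕ} {z g : ℂ} {cg Z : ℝ} (hp : T2Par b z g cg Z) {A : Matrix V V ℝ} (hA : T2Reg A (b + 1)) (Gd : V → V → Prop) [DecidableRel Gd]
    (hs : ∀ x y, Gd x y → Gd y x) {κ C0 : ℝ} (hκ : κ ≤ 1 / 36) (hgd : ∀ x y, Gd x y → T2Good A z g κ x y) (hbd : ∀ x y, ‖rsG A z x y‖ ≤ C0) :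
    cg * ‖∑ x, ∑ y, (A x y : ℂ) * (if Gd x y then t2X A z x y - g else 0)‖
      ≤ 100 * (b + 1) * (∑ x, ∑ y, A x y * (if Gd x y then ‖t2X A z x y - g‖ ^ 2 + ‖t2Y A z x y‖ else 0))
        + 2 * ((b + 1 + Z) * C0 + 1) * ∑ x, ∑ y, A x y * (if Gd x y then 0 else 1) := by
  have hz := hp.im.ne'
  have hex := t2_mean_exact hA hz
  have hiff : ∀ x y, Gd y x ↔ Gd x y := fun x y => ⟨hs y x, hs x y⟩
  have hA0 : ∀ x y, 0 ≤ A x y := fun x y => by rcases hA.zo x y with h | h <;> simp [h]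
  have hZ0 : 0 ≤ Z := (norm_nonneg z).trans hp.zle
  have hb0 : (0 : ℝ) ≤ b := Nat.cast_nonneg b
  obtain ⟨T, hT⟩ : ∃ T : V → V → ℂ, T = fun x y => ((b + 1 : ℕ) : ℂ) * rsG A z x y - z * rsG A z x x - 1 := ⟨_, rfl⟩
  obtain ⟨ξ, hξ⟩ : ∃ ξ : V → V → ℂ, ξ = fun x y => t2X A z x y - g := ⟨_, rfl⟩
  obtain ⟨Y, hY⟩ : ∃ Y : V → V → ℝ, Y = fun x y => ‖t2Y A z x y‖ := ⟨_, rfl⟩
  have hex' : ∑ x, ∑ y, (A x y : ℂ) * T x y = 0 := by rw [hT]; exact hex
  have hedge : ∀ x y, Gd x y → ‖g * (1 - g ^ 2) * T x y - ξ x y + b * g ^ 2 * ξ y x‖ ≤ 37 * (b + 1) * (‖ξ x y‖ ^ 2 + ‖ξ y x‖ ^ 2) + 3 * (b + 1) * Y x y := by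
    intro x y hxy
    rw [hT, hξ, hY]
    exact t2mean_edge hp hA.herm hκ (hgd x y hxy)
  have hTb : ∀ x y, ‖g * (1 - g ^ 2) * T x y‖ ≤ 3 / 2 * ((b + 1 + Z) * C0 + 1) := by
    intro x y
    have hC0 : 0 ≤ C0 := (norm_nonneg _).trans (hbd x x)
    rw [norm_mul, norm_mul]
    have h1 : ‖T x y‖ ≤ (b + 1 + Z) * C0 + 1 := by
      rw [hT]
      refine (norm_sub_le _ _).trans ?_
      rw [norm_one]
      refine add_le_add ((norm_sub_le _ _).trans ?_) le_rfl
      rw [norm_mul, norm_mul, Complex.norm_natCast]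
      have a1 := mul_le_mul_of_nonneg_left (hbd x y) (Nat.cast_nonneg (α := ℝ) (b + 1))
      have a2 := mul_le_mul hp.zle (hbd x x) (norm_nonneg _) hZ0
      push_cast at a1 ⊢
      nlinarith
    have h2 : ‖g‖ * ‖1 - g ^ 2‖ ≤ 3 / 2 := by
      have := (t2par_omg hp).2
      have h3 := t2par_le_one hp
      nlinarith [norm_nonneg g, norm_nonneg (1 - g ^ 2)]
    exact mul_le_mul h2 h1 (norm_nonneg _) (by norm_num)
  show cg * ‖∑ x, ∑ y, (A x y : ℂ) * (if Gd x y then t2X A z x y - g else 0)‖ ≤ _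
  have eS : ∑ x, ∑ y, (A x y : ℂ) * (if Gd x y then t2X A z x y - g else 0) = ∑ x, ∑ y, (A x y : ℂ) * (if Gd x y then ξ x y else 0) := by rw [hξ]
  have eU : ∑ x, ∑ y, A x y * (if Gd x y then ‖t2X A z x y - g‖ ^ 2 + ‖t2Y A z x y‖ else 0)
      = ∑ x, ∑ y, A x y * (if Gd x y then ‖ξ x y‖ ^ 2 else 0) + ∑ x, ∑ y, A x y * (if Gd x y then Y x y else 0) := by
    rw [hξ, hY, ← Finset.sum_add_distrib]
    refine Finset.sum_congr rfl fun x _ => ?_
    rw [← Finset.sum_add_distrib]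
    refine Finset.sum_congr rfl fun y _ => ?_
    split_ifs <;> ring
  rw [eS, eU]
  obtain ⟨S1, hS1⟩ : ∃ S1, S1 = ∑ x, ∑ y, (A x y : ℂ) * (if Gd x y then ξ x y else 0) := ⟨_, rfl⟩
  obtain ⟨U, hU⟩ : ∃ U, U = ∑ x, ∑ y, A x y * (if Gd x y then ‖ξ x y‖ ^ 2 else 0) := ⟨_, rfl⟩
  obtain ⟨SY, hSY⟩ : ∃ SY, SY = ∑ x, ∑ y, A x y * (if Gd x y then Y x y else 0) := ⟨_, rfl⟩
  obtain ⟨NB, hNB⟩ : ∃ NB, NB = ∑ x, ∑ y, A x y * (if Gd x y then (0 : ℝ) else 1) := ⟨_, rfl⟩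
  rw [← hS1, ← hU, ← hSY, ← hNB]
  have hsw : ∑ x, ∑ y, (A x y : ℂ) * (if Gd x y then ξ y x else 0) = S1 := by
    rw [hS1, Finset.sum_comm]
    refine Finset.sum_congr rfl fun x _ => Finset.sum_congr rfl fun y _ => ?_
    rw [rs_A_symm hA.herm y x]
    simp only [hiff x y]
  have hswU : ∑ x, ∑ y, A x y * (if Gd x y then ‖ξ y x‖ ^ 2 else 0) = U := by
    rw [hU, Finset.sum_comm]
    refine Finset.sum_congr rfl fun x _ => Finset.sum_congr rfl fun y _ => ?_
    rw [rs_A_symm hA.herm y x]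
    simp only [hiff x y]
  have key : (1 - b * g ^ 2) * S1
      = - ∑ x, ∑ y, (A x y : ℂ) * (g * (1 - g ^ 2) * T x y - (if Gd x y then ξ x y else 0) + b * g ^ 2 * (if Gd x y then ξ y x else 0)) := by
    have e1 : ∑ x, ∑ y, (A x y : ℂ) * (g * (1 - g ^ 2) * T x y - (if Gd x y then ξ x y else 0) + b * g ^ 2 * (if Gd x y then ξ y x else 0))
        = g * (1 - g ^ 2) * (∑ x, ∑ y, (A x y : ℂ) * T x y) - ∑ x, ∑ y, (A x y : ℂ) * (if Gd x y then ξ x y else 0)
          + b * g ^ 2 * ∑ x, ∑ y, (A x y : ℂ) * (if Gd x y then ξ y x else 0) := by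
      simp only [Finset.mul_sum, ← Finset.sum_sub_distrib, ← Finset.sum_add_distrib]
      refine Finset.sum_congr rfl fun x _ => Finset.sum_congr rfl fun y _ => ?_
      ring
    rw [e1, hex', hsw, ← hS1]
    ring
  have hterm : ∀ x y, ‖(A x y : ℂ) * (g * (1 - g ^ 2) * T x y - (if Gd x y then ξ x y else 0) + b * g ^ 2 * (if Gd x y then ξ y x else 0))‖
      ≤ 37 * (b + 1) * (A x y * (if Gd x y then ‖ξ x y‖ ^ 2 else 0)) + 37 * (b + 1) * (A x y * (if Gd x y then ‖ξ y x‖ ^ 2 else 0))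
        + 3 * (b + 1) * (A x y * (if Gd x y then Y x y else 0)) + 3 / 2 * ((b + 1 + Z) * C0 + 1) * (A x y * (if Gd x y then 0 else 1)) := by
    intro x y
    rw [norm_mul, Complex.norm_real, Real.norm_eq_abs, abs_of_nonneg (hA0 x y)]
    by_cases hxy : Gd x y
    · simp only [if_pos hxy]
      have := mul_le_mul_of_nonneg_left (hedge x y hxy) (hA0 x y)
      linarith
    · simp only [if_neg hxy, sub_zero, mul_zero, add_zero, zero_add, mul_one]
      have := mul_le_mul_of_nonneg_left (hTb x y) (hA0 x y)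
      linarith
  have hsum : ‖(1 - b * g ^ 2) * S1‖ ≤ 37 * (b + 1) * U + 37 * (b + 1) * U + 3 * (b + 1) * SY + 3 / 2 * ((b + 1 + Z) * C0 + 1) * NB := by
    rw [key, norm_neg]
    refine (norm_sum_le _ _).trans ((Finset.sum_le_sum fun x _ => (norm_sum_le _ _).trans (Finset.sum_le_sum fun y _ => hterm x y)).trans ?_)
    simp only [Finset.sum_add_distrib, ← Finset.mul_sum]
    rw [hswU, ← hU, ← hSY, ← hNB]
  have hU0 : 0 ≤ U := by
    rw [hU]
    exact Finset.sum_nonneg fun x _ => Finset.sum_nonneg fun y _ => mul_nonneg (hA0 x y) (by split_ifs <;> positivity)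
  have hSY0 : 0 ≤ SY := by
    rw [hSY, hY]
    exact Finset.sum_nonneg fun x _ => Finset.sum_nonneg fun y _ => mul_nonneg (hA0 x y) (by split_ifs <;> positivity)
  have hNB0 : 0 ≤ NB := by
    rw [hNB]
    exact Finset.sum_nonneg fun x _ => Finset.sum_nonneg fun y _ => mul_nonneg (hA0 x y) (by split_ifs <;> norm_num)
  have hTN : 0 ≤ ((b + 1 + Z) * C0 + 1) * NB := by
    by_cases hV : Nonempty V
    · obtain ⟨x⟩ := hV
      have hC0 : 0 ≤ C0 := (norm_nonneg _).trans (hbd x x)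
      positivity
    · have : NB = 0 := by
        rw [hNB]
        exact Finset.sum_eq_zero fun x _ => absurd ⟨x⟩ hV
      rw [this, mul_zero]
  rw [norm_mul] at hsum
  have h1 := mul_le_mul_of_nonneg_right hp.ph (norm_nonneg S1)
  have h2 : 0 ≤ ((b : ℝ) + 1) * U := by positivity
  have h3 : 0 ≤ ((b : ℝ) + 1) * SY := by positivity
  nlinarith

/-! ## 9. the recursion, pointwise -/

/-- total cross functional of the pair (old matrix with its marks, new matrix with the flipped marks) -/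
def t2Et (A : Matrix V V ℝ) (z : ℂ) (o : V) (t u v : ι → V) : ℝ := ∑ a, (t2Er A z o u v a + t2Er (t2Sw A o t u v) z o t v a)

theorem t2rec_eqns_cite : True := by
  have := @t2Et.eq_1
  trivial

theorem t2K1_nonneg {d : ℕ} {C0 co : ℝ} (hC0 : 0 ≤ C0) (hco : 0 < co) : 0 ≤ t2K1 d C0 co := by
  unfold t2K1
  positivity

theorem t2Er_le_Et (A : Matrix V V ℝ) (z : ℂ) (o : V) (t u v : ι → V) (a : ι) :
    t2Er A z o u v a + t2Er (t2Sw A o t u v) z o t v a ≤ t2Et A z o t u v := by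
  unfold t2Et
  exact Finset.single_le_sum (f := fun a => t2Er A z o u v a + t2Er (t2Sw A o t u v) z o t v a)
    (fun a _ => add_nonneg (t2Er_nonneg _ _ _ _ _ _) (t2Er_nonneg _ _ _ _ _ _)) (Finset.mem_univ a)

theorem t2Et_nonneg (A : Matrix V V ℝ) (z : ℂ) (o : V) (t u v : ι → V) : 0 ≤ t2Et A z o t u v := by
  unfold t2Et
  exact Finset.sum_nonneg fun a _ => add_nonneg (t2Er_nonneg _ _ _ _ _ _) (t2Er_nonneg _ _ _ _ _ _)

/-- **cavity recursion after the switch**.   PLAN: `t2_psi_cav` for `A^` with the enumeration `u` (`(t2sw_val h).toEn`): `X^ (-z - s^) = 1`, `g (-z - b g) = 1` (`hp.eq`), so `X^ - g = X^ g (s^ - b g)`;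
`#(erase a0) = b` (`t2en_card`), `s^ - b g = ∑_{a ≠ a0} (X_a - g) + ∑_{a,a' ≠ a0} (Q^_aa' - δ_aa' X_a)`, each term of the last sum `≤ K1 (..)` by `t2_cmp` with `co = (|g| - κ)/2` (`t2good_diag` for `A^` at `(o, u a0)`);  `|X^| ≤ |g| + κ`. -/
theorem t2_rec_cav {b : ℕ} {z g : ℂ} {cg Z : ℝ} (hp : T2Par b z g cg Z) {A : Matrix V V ℝ} (hA : T2Reg A (b + 1)) {o : V} {t u v : ι → V}
    (h : T2Val A o t u v) {κ C0 co : ℝ} (hκ : κ ≤ 1 / 36) (hbd : ∀ x y, ‖rsG A z x y‖ ≤ C0) (hbd' : ∀ x y, ‖rsG (t2Sw A o t u v) z x y‖ ≤ C0)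
    (hco : 0 < co) (hco' : co ≤ (‖g‖ - κ) / 2) (hgd : ∀ a, T2Good A z g κ (u a) (v a)) (a0 : ι) (hgd' : T2Good (t2Sw A o t u v) z g κ o (u a0)) :
    ‖t2X (t2Sw A o t u v) z o (u a0) - g‖
      ≤ (‖g‖ + κ) * ‖g‖ * (‖∑ a ∈ Finset.univ.erase a0, (t2X A z (u a) (v a) - g)‖ + (b + 1) * t2K1 (b + 1) C0 co * t2Et A z o t u v) := by
  have hC0 : 0 ≤ C0 := (norm_nonneg _).trans (hbd o o)
  have hK := t2K1_nonneg (d := b + 1) hC0 hco
  have hEt := t2Et_nonneg A z o t u v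
  have hA' := t2sw_reg hA h
  have hEn := (t2sw_val h).toEn
  have hz : z.im ≠ 0 := hp.im.ne'
  have hdiag : co ≤ ‖rsG (t2Sw A o t u v) z o o‖ := hco'.trans (t2good_diag hp hA'.herm hgd' hκ)
  have h1 := (t2_psi_cav hA' hz hEn a0).1
  have hcard : (Finset.univ.erase a0 : Finset ι).card = b := by
    rw [Finset.card_erase_of_mem (Finset.mem_univ a0), Finset.card_univ, t2en_card hA' hEn]; rfl
  set X := t2X (t2Sw A o t u v) z o (u a0) with hX
  set E := (Finset.univ.erase a0 : Finset ι) with hE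
  set s := ∑ a ∈ E, ∑ a' ∈ E, rsG (rsDel (t2Sw A o t u v) {o}) z (u a) (u a') with hs
  have e1 : X - g = X * g * (s - b * g) := by
    linear_combination g * h1 + X * hp.eq
  have e2 : s - b * g = ∑ a ∈ E, (t2X A z (u a) (v a) - g)
      + ∑ a ∈ E, ∑ a' ∈ E, (rsG (rsDel (t2Sw A o t u v) {o}) z (u a) (u a') - (if a = a' then t2X A z (u a) (v a) else 0)) := by
    simp only [Finset.sum_sub_distrib, Finset.sum_const, hcard, nsmul_eq_mul]
    have : ∑ a ∈ E, ∑ a' ∈ E, (if a = a' then t2X A z (u a) (v a) else 0) = ∑ a ∈ E, t2X A z (u a) (v a) := by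
      refine Finset.sum_congr rfl fun a ha => ?_
      rw [Finset.sum_ite_eq, if_pos ha]
    rw [this, hs]
    ring
  have b1 : ‖∑ a ∈ E, ∑ a' ∈ E, (rsG (rsDel (t2Sw A o t u v) {o}) z (u a) (u a') - (if a = a' then t2X A z (u a) (v a) else 0))‖
      ≤ (b + 1) * t2K1 (b + 1) C0 co * t2Et A z o t u v := by
    refine (norm_sum_le _ _).trans ?_
    have b2 : ∀ a ∈ E, ‖∑ a' ∈ E, (rsG (rsDel (t2Sw A o t u v) {o}) z (u a) (u a') - (if a = a' then t2X A z (u a) (v a) else 0))‖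
        ≤ b * (t2K1 (b + 1) C0 co * (t2Er A z o u v a + t2Er (t2Sw A o t u v) z o t v a)) := by
      intro a _
      refine (norm_sum_le _ _).trans ?_
      refine (Finset.sum_le_sum fun a' _ => t2_cmp hp hA h hκ hbd hbd' hco hdiag a a' (hgd a)).trans ?_
      rw [Finset.sum_const, hcard, nsmul_eq_mul]
    refine (Finset.sum_le_sum b2).trans ?_
    rw [← Finset.mul_sum, ← Finset.mul_sum]
    have b3 : ∑ a ∈ E, (t2Er A z o u v a + t2Er (t2Sw A o t u v) z o t v a) ≤ t2Et A z o t u v := by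
      unfold t2Et
      exact Finset.sum_le_sum_of_subset_of_nonneg (Finset.subset_univ _)
        fun a _ _ => add_nonneg (t2Er_nonneg _ _ _ _ _ _) (t2Er_nonneg _ _ _ _ _ _)
    have b4 := mul_le_mul_of_nonneg_left b3 hK
    have hb0 : (0 : ℝ) ≤ b := Nat.cast_nonneg b
    have b5 := mul_le_mul_of_nonneg_left b4 hb0
    have b6 : 0 ≤ t2K1 (b + 1) C0 co * t2Et A z o t u v := mul_nonneg hK hEt
    nlinarith
  have hXn : ‖X‖ ≤ ‖g‖ + κ := by
    have := norm_sub_norm_le X g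
    linarith [hgd'.x1]
  rw [e1, norm_mul, norm_mul]
  have b7 : ‖s - b * g‖ ≤ ‖∑ a ∈ E, (t2X A z (u a) (v a) - g)‖ + (b + 1) * t2K1 (b + 1) C0 co * t2Et A z o t u v := by
    rw [e2]
    exact (norm_add_le _ _).trans (by linarith)
  exact mul_le_mul (mul_le_mul_of_nonneg_right hXn (norm_nonneg _)) b7 (norm_nonneg _)
    (mul_nonneg ((norm_nonneg _).trans hXn) (norm_nonneg _))

/-- **the off-diagonal cavity value after the switch is a cross term**.   PLAN: `t2_psi_cav`: `Y^ = - X^ ∑_{a ≠ a0} Q^_{a a0}`, `t2_cmp` with `a ≠ a0`. -/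
theorem t2_rec_Y {b : ℕ} {z g : ℂ} {cg Z : ℝ} (hp : T2Par b z g cg Z) {A : Matrix V V ℝ} (hA : T2Reg A (b + 1)) {o : V} {t u v : ι → V}
    (h : T2Val A o t u v) {κ C0 co : ℝ} (hκ : κ ≤ 1 / 36) (hbd : ∀ x y, ‖rsG A z x y‖ ≤ C0) (hbd' : ∀ x y, ‖rsG (t2Sw A o t u v) z x y‖ ≤ C0)
    (hco : 0 < co) (hco' : co ≤ (‖g‖ - κ) / 2) (hgd : ∀ a, T2Good A z g κ (u a) (v a)) (a0 : ι) (hgd' : T2Good (t2Sw A o t u v) z g κ o (u a0)) :
    ‖t2Y (t2Sw A o t u v) z o (u a0)‖ ≤ (‖g‖ + κ) * t2K1 (b + 1) C0 co * t2Et A z o t u v := by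
  have hC0 : 0 ≤ C0 := (norm_nonneg _).trans (hbd o o)
  have hK := t2K1_nonneg (d := b + 1) hC0 hco
  have hEt := t2Et_nonneg A z o t u v
  have hA' := t2sw_reg hA h
  have hEn := (t2sw_val h).toEn
  have hz : z.im ≠ 0 := hp.im.ne'
  have hdiag : co ≤ ‖rsG (t2Sw A o t u v) z o o‖ := hco'.trans (t2good_diag hp hA'.herm hgd' hκ)
  have h1 := (t2_psi_cav hA' hz hEn a0).2
  have hXn : ‖t2X (t2Sw A o t u v) z o (u a0)‖ ≤ ‖g‖ + κ := by
    have := norm_sub_norm_le (t2X (t2Sw A o t u v) z o (u a0)) g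
    linarith [hgd'.x1]
  rw [h1, norm_mul, norm_neg, mul_assoc]
  refine mul_le_mul hXn ?_ (norm_nonneg _) ((norm_nonneg _).trans hXn)
  refine (norm_sum_le _ _).trans ?_
  have b2 : ∀ a ∈ (Finset.univ.erase a0 : Finset ι), ‖rsG (rsDel (t2Sw A o t u v) {o}) z (u a) (u a0)‖
      ≤ t2K1 (b + 1) C0 co * (t2Er A z o u v a + t2Er (t2Sw A o t u v) z o t v a) := by
    intro a ha
    have := t2_cmp hp hA h hκ hbd hbd' hco hdiag a a0 (hgd a)
    rwa [if_neg (Finset.ne_of_mem_erase ha), sub_zero] at this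
  refine (Finset.sum_le_sum b2).trans ?_
  rw [← Finset.mul_sum]
  refine mul_le_mul_of_nonneg_left ?_ hK
  unfold t2Et
  exact Finset.sum_le_sum_of_subset_of_nonneg (Finset.subset_univ _)
    fun a _ _ => add_nonneg (t2Er_nonneg _ _ _ _ _ _) (t2Er_nonneg _ _ _ _ _ _)

/-! ## 10'. the star block after the switch; block of `G` <-> cavity values, quantitative -/

/-- tree value at distance `k` -/
def t2Tv (g m : ℂ) (k : ℕ) : ℂ := m * (-g) ^ k
/-- distance inside a tree star with centre `o` -/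
def t2Sd (o x y : V) : ℕ := if x = y then 0 else if x = o ∨ y = o then 1 else 2
/-- square deviation of the star block at `o` from the tree values -/
def t2St (A : Matrix V V ℝ) (z g m : ℂ) (o : V) : ℝ :=
  ∑ x, ∑ y, (if (x = o ∨ A o x = 1) ∧ (y = o ∨ A o y = 1) then ‖rsG A z x y - t2Tv g m (t2Sd o x y)‖ ^ 2 else 0)
/-- the constant of the star -/
def t2KS (d : ℕ) (C0 co : ℝ) : ℝ := 2 * ((d : ℝ) + 1) ^ 2 * (1 + 4 * C0) ^ 2 * (d + (d : ℝ) ^ 4 * t2K1 d C0 co ^ 2)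

theorem t2star_eqns_cite : True := by
  have := @t2Tv.eq_1
  have := @t2Sd.eq_1
  have := @t2St.eq_1
  have := @t2KS.eq_1
  trivial

/-- pointwise deviation of the star block after the switch (helper77; the plan of `t2_rec_star`) -/
theorem t2_star_dev {b : ℕ} {z g m : ℂ} {cg Z : ℝ} (hp : T2Par b z g cg Z) (hm : m * (1 - g ^ 2) = g) {A : Matrix V V ℝ} (hA : T2Reg A (b + 1)) {o : V} {t u v : ι → V}
    (h : T2Val A o t u v) {κ C0 co : ℝ} (hκ : κ ≤ 1 / 36) (hbd : ∀ x y, ‖rsG A z x y‖ ≤ C0) (hbd' : ∀ x y, ‖rsG (t2Sw A o t u v) z x y‖ ≤ C0)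
    (hco : 0 < co) (hco' : co ≤ ‖rsG (t2Sw A o t u v) z o o‖) (hgd : ∀ a, T2Good A z g κ (u a) (v a)) (x y : V)
    (hx : x = o ∨ t2Sw A o t u v o x = 1) (hy : y = o ∨ t2Sw A o t u v o y = 1) :
    ‖rsG (t2Sw A o t u v) z x y - t2Tv g m (t2Sd o x y)‖
      ≤ (1 + 4 * C0) * (∑ a, ‖t2X A z (u a) (v a) - g‖ + ((b + 1 : ℕ) : ℝ) ^ 2 * t2K1 (b + 1) C0 co * t2Et A z o t u v) := by
  have hC0 : 0 ≤ C0 := (norm_nonneg _).trans (hbd o o)
  have hK := t2K1_nonneg (d := b + 1) hC0 hco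
  have hEt := t2Et_nonneg A z o t u v
  have hA' := t2sw_reg hA h
  have hV' := t2sw_val h
  have hEn := hV'.toEn
  have hz : z.im ≠ 0 := hp.im.ne'
  have hcard : (Finset.univ : Finset ι).card = b + 1 := by rw [Finset.card_univ, t2en_card hA' hEn]
  obtain ⟨hs1, hs2⟩ := t2_psi_star hA' hz hEn
  set Ah := t2Sw A o t u v with hAh
  set K1 := t2K1 (b + 1) C0 co with hK1
  set Et := t2Et A z o t u v with hEtd
  set Q : ι → ι → ℂ := fun a a' => rsG (rsDel Ah {o}) z (u a) (u a') with hQd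
  set ξ : ι → ℂ := fun a => t2X A z (u a) (v a) - g with hξd
  set Er : ι → ℝ := fun a => t2Er A z o u v a + t2Er Ah z o t v a with hErd
  have hErs : ∑ a, Er a = Et := rfl
  have hEr0 : ∀ a, 0 ≤ Er a := fun a => add_nonneg (t2Er_nonneg _ _ _ _ _ _) (t2Er_nonneg _ _ _ _ _ _)
  have hErle : ∀ a, Er a ≤ Et := fun a => t2Er_le_Et A z o t u v a
  set D : ℝ := ((b + 1 : ℕ) : ℝ) with hD
  have hD1 : 1 ≤ D := by rw [hD]; push_cast; linarith [Nat.cast_nonneg (α := ℝ) b]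
  set S1 : ℝ := ∑ a, ‖ξ a‖ with hS1
  have hS10 : 0 ≤ S1 := Finset.sum_nonneg fun a _ => norm_nonneg _
  have hξle : ∀ a, ‖ξ a‖ ≤ S1 := fun a => Finset.single_le_sum (f := fun a => ‖ξ a‖) (fun a _ => norm_nonneg _) (Finset.mem_univ a)
  set e : ℝ := S1 + D ^ 2 * K1 * Et with he
  have hKE : 0 ≤ K1 * Et := mul_nonneg hK hEt
  have hDD : D ≤ D ^ 2 := by nlinarith
  have hKEe : K1 * Et ≤ D ^ 2 * K1 * Et := by
    have := mul_le_mul_of_nonneg_right (hD1.trans hDD) hKE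
    linarith
  have hDKEe : D * (K1 * Et) ≤ D ^ 2 * K1 * Et := by
    have := mul_le_mul_of_nonneg_right hDD hKE
    linarith
  have he0 : 0 ≤ e := by rw [he]; linarith
  have hρ : ∀ a a', ‖Q a a' - (if a = a' then t2X A z (u a) (v a) else 0)‖ ≤ K1 * Er a :=
    fun a a' => t2_cmp hp hA h hκ hbd hbd' hco hco' a a' (hgd a)
  -- (F1)
  have hF1 : ∀ a a', ‖Q a a' - (if a = a' then g else 0)‖ ≤ e := by
    intro a a'
    have e1 : Q a a' - (if a = a' then g else 0) = (Q a a' - (if a = a' then t2X A z (u a) (v a) else 0)) + (if a = a' then ξ a else 0) := by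
      by_cases haa : a = a'
      · simp only [haa, if_true, hξd]; ring
      · simp only [haa, if_false, add_zero]
    rw [e1]
    refine (norm_add_le _ _).trans ?_
    have e2 : ‖(if a = a' then ξ a else 0)‖ ≤ S1 := by
      split_ifs
      · exact hξle a
      · rw [norm_zero]; exact hS10
    have e3 := mul_le_mul_of_nonneg_left (hErle a) hK
    linarith [hρ a a']
  -- (F2)
  have hF2 : ∀ a, ‖∑ a', Q a' a - g‖ ≤ e := by
    intro a
    have e1 : ∑ a', Q a' a - g = ∑ a', (Q a' a - (if a' = a then t2X A z (u a') (v a') else 0)) + ξ a := by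
      rw [Finset.sum_sub_distrib, Finset.sum_ite_eq' Finset.univ a (fun a' => t2X A z (u a') (v a')), if_pos (Finset.mem_univ a)]
      simp only [hξd]; ring
    rw [e1]
    refine (norm_add_le _ _).trans ?_
    have e2 : ‖∑ a', (Q a' a - (if a' = a then t2X A z (u a') (v a') else 0))‖ ≤ K1 * Et := by
      refine (norm_sum_le _ _).trans ((Finset.sum_le_sum fun a' _ => hρ a' a).trans ?_)
      rw [← Finset.mul_sum, hErs]
    linarith [hξle a]
  -- (F3)
  have hF3 : ‖∑ a, ∑ a', Q a a' - D * g‖ ≤ e := by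
    have e1 : ∑ a, ∑ a', Q a a' - D * g = ∑ a, ∑ a', (Q a a' - (if a = a' then t2X A z (u a) (v a) else 0)) + ∑ a, ξ a := by
      simp only [Finset.sum_sub_distrib, Finset.sum_ite_eq, Finset.mem_univ, if_true, hξd, Finset.sum_const, hcard, nsmul_eq_mul, hD]
      push_cast
      ring
    rw [e1]
    refine (norm_add_le _ _).trans ?_
    have e2 : ‖∑ a, ∑ a', (Q a a' - (if a = a' then t2X A z (u a) (v a) else 0))‖ ≤ D * (K1 * Et) := by
      refine (norm_sum_le _ _).trans ?_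
      have : ∀ a ∈ (Finset.univ : Finset ι), ‖∑ a', (Q a a' - (if a = a' then t2X A z (u a) (v a) else 0))‖ ≤ D * (K1 * Er a) := by
        intro a _
        refine (norm_sum_le _ _).trans ((Finset.sum_le_sum fun a' _ => hρ a a').trans ?_)
        rw [Finset.sum_const, hcard, nsmul_eq_mul]
      refine (Finset.sum_le_sum this).trans ?_
      rw [← Finset.mul_sum, ← Finset.mul_sum, hErs]
    have e3 : ‖∑ a, ξ a‖ ≤ S1 := norm_sum_le _ _
    linarith
  -- (F4)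
  have hg1 : ‖g‖ ≤ 1 := t2par_le_one hp
  have hg0 : g ≠ 0 := by
    intro hc
    have := hp.eq
    rw [hc] at this
    norm_num at this
  have hm1 : m * (-z - D * g) = 1 := by
    have : (m * (-z - D * g) - 1) * g = 0 := by
      rw [hD]; push_cast
      linear_combination hm - m * hp.eq
    rcases mul_eq_zero.1 this with h0 | h0
    · linear_combination h0
    · exact absurd h0 hg0
  have hm2 : ‖m‖ ≤ 2 := by
    have h1 : ‖m‖ * ‖1 - g ^ 2‖ = ‖g‖ := by rw [← norm_mul, hm]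
    have h2 := (t2par_omg hp).1
    nlinarith [norm_nonneg m]
  -- (F5)
  have hF5 : ‖rsG Ah z o o - m‖ ≤ 2 * C0 * e := by
    have e1 : rsG Ah z o o - m = rsG Ah z o o * m * (∑ a, ∑ a', Q a a' - D * g) := by
      linear_combination (-rsG Ah z o o) * hm1 + m * hs1
    rw [e1, norm_mul, norm_mul]
    have := mul_le_mul (mul_le_mul (hbd' o o) hm2 (norm_nonneg _) hC0) hF3 (norm_nonneg _) (by positivity)
    linarith
  -- (F6)
  have hG6 : ∀ a, rsG Ah z o (u a) = - rsG Ah z o o * ∑ a', Q a' a := fun a => hs2 (u a) (h.nuo a)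
  have hF6 : ∀ a, ‖rsG Ah z o (u a) + m * g‖ ≤ 3 * C0 * e := by
    intro a
    have e1 : rsG Ah z o (u a) + m * g = - rsG Ah z o o * (∑ a', Q a' a - g) - (rsG Ah z o o - m) * g := by
      rw [hG6 a]; ring
    rw [e1]
    refine (norm_sub_le _ _).trans ?_
    rw [norm_mul, norm_mul, norm_neg]
    have a1 := mul_le_mul (hbd' o o) (hF2 a) (norm_nonneg _) hC0
    have a2 := mul_le_mul hF5 hg1 (norm_nonneg _) (by positivity)
    linarith
  -- (F7)
  have hF7 : ∀ a a', ‖rsG Ah z (u a) (u a') - (if a = a' then g else 0) - m * g ^ 2‖ ≤ (1 + 4 * C0) * e := by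
    intro a a'
    have hoo := rs_G_diag_ne hA'.herm hz o
    have r1 : Q a a' = rsG Ah z (u a) (u a') - rsG Ah z (u a) o * rsG Ah z o (u a') / rsG Ah z o o := rs_remove hA'.herm hz (h.nuo a) (u a')
    have r2 : rsG Ah z (u a) o = - rsG Ah z o o * ∑ a', Q a' a := by rw [rs_G_symm hA'.herm hz, hG6 a]
    have r3 : rsG Ah z (u a) (u a') = Q a a' - (∑ a', Q a' a) * rsG Ah z o (u a') := by
      rw [r1, r2]; field_simp; ring
    have e1 : rsG Ah z (u a) (u a') - (if a = a' then g else 0) - m * g ^ 2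
        = (Q a a' - (if a = a' then g else 0)) - (∑ a', Q a' a - g) * rsG Ah z o (u a') - g * (rsG Ah z o (u a') + m * g) := by
      rw [r3]; ring
    rw [e1]
    refine (norm_sub_le _ _).trans ?_
    have a0 := norm_sub_le (Q a a' - (if a = a' then g else 0)) ((∑ a', Q a' a - g) * rsG Ah z o (u a'))
    rw [norm_mul] at a0
    rw [norm_mul]
    have a1 := mul_le_mul (hF2 a) (hbd' o (u a')) (norm_nonneg _) he0
    have a2 := mul_le_mul hg1 (hF6 a') (norm_nonneg _) (by norm_num)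
    linarith [hF1 a a']
  -- pointwise bound
  have hCe : 0 ≤ C0 * e := mul_nonneg hC0 he0
  rcases hx with rfl | hx
  · rcases hy with rfl | hy
    · simp only [t2Sd, if_true, t2Tv, pow_zero, mul_one]
      linarith
    · obtain ⟨a, rfl⟩ := hEn.en y hy
      have hne : x ≠ u a := (h.nuo a).symm
      simp only [t2Sd, if_neg hne, true_or, if_true, t2Tv, pow_one]
      have := hF6 a
      rw [show rsG Ah z x (u a) - m * -g = rsG Ah z x (u a) + m * g by ring]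
      linarith
  · obtain ⟨a, rfl⟩ := hEn.en x hx
    rcases hy with rfl | hy
    · have hne : u a ≠ y := h.nuo a
      simp only [t2Sd, if_neg hne, or_true, if_true, t2Tv, pow_one]
      have := hF6 a
      rw [rs_G_symm hA'.herm hz, show rsG Ah z y (u a) - m * -g = rsG Ah z y (u a) + m * g by ring]
      linarith
    · obtain ⟨a', rfl⟩ := hEn.en y hy
      have := hF7 a a'
      by_cases haa : a = a'
      · subst haa
        simp only [t2Sd, if_true, t2Tv, pow_zero, mul_one]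
        rw [if_pos rfl] at this
        rwa [show rsG Ah z (u a) (u a) - m = rsG Ah z (u a) (u a) - g - m * g ^ 2 by linear_combination -hm]
      · have hne : u a ≠ u a' := fun hc => haa (h.ui hc)
        simp only [t2Sd, if_neg hne, h.nuo a, h.nuo a', or_self, if_false, t2Tv]
        rw [if_neg haa, sub_zero] at this
        rwa [show rsG Ah z (u a) (u a') - m * (-g) ^ 2 = rsG Ah z (u a) (u a') - m * g ^ 2 by ring]

theorem t2_star_arith {D C0 K1 Et S1 S2 : ℝ} (hD1 : 1 ≤ D) (hS2 : 0 ≤ S2) (hCS : S1 ^ 2 ≤ D * S2) :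
    (D + 1) ^ 2 * ((1 + 4 * C0) * (S1 + D ^ 2 * K1 * Et)) ^ 2 ≤ 2 * (D + 1) ^ 2 * (1 + 4 * C0) ^ 2 * (D + D ^ 4 * K1 ^ 2) * (S2 + Et ^ 2) := by
  have he2 : (S1 + D ^ 2 * K1 * Et) ^ 2 ≤ 2 * (D * S2 + D ^ 4 * K1 ^ 2 * Et ^ 2) := by
    have : (S1 + D ^ 2 * K1 * Et) ^ 2 ≤ 2 * (S1 ^ 2 + (D ^ 2 * K1 * Et) ^ 2) := by
      nlinarith [sq_nonneg (S1 - D ^ 2 * K1 * Et)]
    have e : (D ^ 2 * K1 * Et) ^ 2 = D ^ 4 * K1 ^ 2 * Et ^ 2 := by ring
    rw [e] at this
    linarith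
  have he3 : D * S2 + D ^ 4 * K1 ^ 2 * Et ^ 2 ≤ (D + D ^ 4 * K1 ^ 2) * (S2 + Et ^ 2) := by
    have p1 : 0 ≤ D * Et ^ 2 := by positivity
    have p2 : 0 ≤ D ^ 4 * K1 ^ 2 * S2 := by positivity
    have e : (D + D ^ 4 * K1 ^ 2) * (S2 + Et ^ 2) = D * S2 + D ^ 4 * K1 ^ 2 * Et ^ 2 + D * Et ^ 2 + D ^ 4 * K1 ^ 2 * S2 := by ring
    rw [e]; linarith
  calc (D + 1) ^ 2 * ((1 + 4 * C0) * (S1 + D ^ 2 * K1 * Et)) ^ 2 = (D + 1) ^ 2 * (1 + 4 * C0) ^ 2 * (S1 + D ^ 2 * K1 * Et) ^ 2 := by ring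
    _ ≤ (D + 1) ^ 2 * (1 + 4 * C0) ^ 2 * (2 * ((D + D ^ 4 * K1 ^ 2) * (S2 + Et ^ 2))) :=
        mul_le_mul_of_nonneg_left (he2.trans (by linarith)) (by positivity)
    _ = _ := by ring

/-- **the star block after the switch**.   `m = g/(1-g²)`, so `m (-z - d g) = 1`, `|m| ≤ 2`.
PLAN: `Q_aa' = G^^(o)_{u_a u_a'} = δ_aa' (g + ξ_a) + ρ_aa'`, `|ρ| ≤ K1 Et` (`t2_cmp`);  `e := ∑_a |ξ_a| + d² K1 Et`.   `t2_psi_star` for `A^` with the enumeration `u`:
`G^_oo - m = G^_oo m (∑ Q - d g)`;   `c_a := ∑_a' Q_a'a`, `G^_{o u_a} = - G^_oo c_a`, `G^_{o u_a} + m g = - G^_oo (c_a - g) - (G^_oo - m) g`;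
`G^_{u_a u_a'} = Q_aa' - c_a G^_{o u_a'}` (`rs_remove`), `G^_{u_a u_a'} - δ g - m g² = (Q_aa' - δ g) - (c_a - g) G^_{o u_a'} - g (G^_{o u_a'} + m g)`, and `g + m g² = m`.
All deviations `≤ (1 + 4 C0) e`; the star of `o` in `A^` is `{o} ∪ {u_a}` (`t2en_row`): `(d+1)²` pairs;  `e² ≤ 2 (d ∑ |ξ_a|² + d⁴ K1² Et²)`. -/
theorem t2_rec_star {b : ℕ} {z g m : ℂ} {cg Z : ℝ} (hp : T2Par b z g cg Z) (hm : m * (1 - g ^ 2) = g) {A : Matrix V V ℝ} (hA : T2Reg A (b + 1)) {o : V} {t u v : ι → V}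
    (h : T2Val A o t u v) {κ C0 co : ℝ} (hκ : κ ≤ 1 / 36) (hbd : ∀ x y, ‖rsG A z x y‖ ≤ C0) (hbd' : ∀ x y, ‖rsG (t2Sw A o t u v) z x y‖ ≤ C0)
    (hco : 0 < co) (hco' : co ≤ ‖rsG (t2Sw A o t u v) z o o‖) (hgd : ∀ a, T2Good A z g κ (u a) (v a)) :
    t2St (t2Sw A o t u v) z g m o ≤ t2KS (b + 1) C0 co * (∑ a, ‖t2X A z (u a) (v a) - g‖ ^ 2 + t2Et A z o t u v ^ 2) := by
  have hA' := t2sw_reg hA h
  have hEn := (t2sw_val h).toEn
  have hcard : (Finset.univ : Finset ι).card = b + 1 := by rw [Finset.card_univ, t2en_card hA' hEn]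
  have hpt := t2_star_dev hp hm hA h hκ hbd hbd' hco hco' hgd
  generalize t2Sw A o t u v = Ah at hA' hEn hpt ⊢
  generalize hBd : (1 + 4 * C0) * (∑ a, ‖t2X A z (u a) (v a) - g‖ + ((b + 1 : ℕ) : ℝ) ^ 2 * t2K1 (b + 1) C0 co * t2Et A z o t u v) = Bd at hpt
  have hindS : ∑ x, (if x = o ∨ Ah o x = 1 then (1 : ℝ) else 0) ≤ ((b + 1 : ℕ) : ℝ) + 1 := by
    have e1 : ∀ x ∈ (Finset.univ : Finset V), (if x = o ∨ Ah o x = 1 then (1 : ℝ) else 0) ≤ (if x = o then 1 else 0) + Ah o x := by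
      intro x _
      rcases hA'.zo o x with h0 | h0
      · rw [h0]; by_cases hx : x = o <;> simp [hx]
      · rw [h0]; by_cases hx : x = o <;> simp [hx]
    refine (Finset.sum_le_sum e1).trans ?_
    rw [Finset.sum_add_distrib, hA'.row o, Finset.sum_ite_eq' Finset.univ o (fun _ => (1 : ℝ)), if_pos (Finset.mem_univ o)]
    linarith
  have hind0 : 0 ≤ ∑ x, (if x = o ∨ Ah o x = 1 then (1 : ℝ) else 0) := Finset.sum_nonneg fun x _ => by split_ifs <;> norm_num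
  have hSt : t2St Ah z g m o ≤ (∑ x, (if x = o ∨ Ah o x = 1 then (1 : ℝ) else 0)) ^ 2 * Bd ^ 2 := by
    unfold t2St
    rw [sq, Finset.sum_mul_sum, Finset.sum_mul]
    refine Finset.sum_le_sum fun x _ => ?_
    rw [Finset.sum_mul]
    refine Finset.sum_le_sum fun y _ => ?_
    by_cases hx : x = o ∨ Ah o x = 1
    · by_cases hy : y = o ∨ Ah o y = 1
      · rw [if_pos ⟨hx, hy⟩, if_pos hx, if_pos hy, one_mul, one_mul]
        exact pow_le_pow_left₀ (norm_nonneg _) (hpt x y hx hy) 2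
      · rw [if_neg (fun hc => hy hc.2), if_neg hy]; simp
    · rw [if_neg (fun hc => hx hc.1), if_neg hx]; simp
  have hind2 := pow_le_pow_left₀ hind0 hindS 2
  have hCS : (∑ a, ‖t2X A z (u a) (v a) - g‖) ^ 2 ≤ ((b + 1 : ℕ) : ℝ) * ∑ a, ‖t2X A z (u a) (v a) - g‖ ^ 2 := by
    have := sq_sum_le_card_mul_sum_sq (s := (Finset.univ : Finset ι)) (f := fun a => ‖t2X A z (u a) (v a) - g‖)
    rw [hcard] at this
    exact this
  have hD1 : (1 : ℝ) ≤ ((b + 1 : ℕ) : ℝ) := by push_cast; linarith [Nat.cast_nonneg (α := ℝ) b]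
  have hfin := t2_star_arith (C0 := C0) (K1 := t2K1 (b + 1) C0 co) (Et := t2Et A z o t u v) hD1
    (Finset.sum_nonneg fun a _ => sq_nonneg ‖t2X A z (u a) (v a) - g‖) hCS
  rw [hBd] at hfin
  unfold t2KS
  exact (hSt.trans (mul_le_mul_of_nonneg_right hind2 (sq_nonneg _))).trans hfin

/-- `|g| ≤ 3/4`, `|m| ≤ 3/2` -/
theorem t2par_gm {b : ℕ} {z g m : ℂ} {cg Z : ℝ} (hp : T2Par b z g cg Z) (hm : m * (1 - g ^ 2) = g) : ‖g‖ ≤ 3 / 4 ∧ ‖m‖ ≤ 3 / 2 := by
  have h1 := t2par_sq hp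
  have hg : ‖g‖ ≤ 3 / 4 := by nlinarith [norm_nonneg g]
  refine ⟨hg, ?_⟩
  have h2 : ‖m‖ * ‖1 - g ^ 2‖ = ‖g‖ := by rw [← norm_mul, hm]
  have h3 := (t2par_omg hp).1
  nlinarith [norm_nonneg m]

/-- division by a number bounded below -/
theorem t2_div_le {D w n : ℂ} {c r : ℝ} (h : D * w = n) (hc : 0 < c) (hD : c ≤ ‖D‖) (hn : ‖n‖ ≤ c * r) : ‖w‖ ≤ r := by
  have h1 : ‖D‖ * ‖w‖ = ‖n‖ := by rw [← norm_mul, h]
  have h2 : c * ‖w‖ ≤ c * r := by
    calc c * ‖w‖ ≤ ‖D‖ * ‖w‖ := mul_le_mul_of_nonneg_right hD (norm_nonneg _)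
      _ = ‖n‖ := h1
      _ ≤ c * r := hn
  exact le_of_mul_le_mul_left h2 hc

/-- **block ⟹ cavity**.   PLAN: `t2_cav`: `X = a/D`, `Y = (β - β² + a c)/D`, `D = (1-β)² - a c`; tree values `a = c = m`, `β = - m g`, `D0 = 1/(1-g²)`, `|D0| ≥ 2/3`, `|1 + m g| = |D0| ≤ 2`, `|m| ≤ 3/2`;
`|D - D0| ≤ 9 κ'`, `|D| ≥ 1/3`;  `X - g = (a - m)/D + m (D0 - D)/(D D0)`;  the numerator of `Y` vanishes at the tree values. -/
theorem t2_good_of_blk {b : ℕ} {z g m : ℂ} {cg Z : ℝ} (hp : T2Par b z g cg Z) (hm : m * (1 - g ^ 2) = g) {A : Matrix V V ℝ} (hA : A.IsHermitian) {κ' : ℝ} (hκ : κ' ≤ 1 / 27)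
    {x y : V} (h1 : ‖rsG A z x x - m‖ ≤ κ') (h2 : ‖rsG A z y y - m‖ ≤ κ') (h3 : ‖rsG A z x y + m * g‖ ≤ κ') : T2Good A z g (64 * κ') x y := by
  obtain ⟨hg, hmm⟩ := t2par_gm hp hm
  have hz := hp.im.ne'
  have hκ0 : 0 ≤ κ' := (norm_nonneg _).trans h1
  obtain ⟨c1, c2⟩ := t2_cav hA hz x y
  obtain ⟨c3, -⟩ := t2_cav hA hz y x
  have hsym := rs_G_symm hA hz y x
  have hDD : t2D A (-1) y x z = t2D A (-1) x y z := by
    unfold t2D; rw [hsym]; ring
  rw [hDD] at c3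
  set a := rsG A z x x with ha
  set c := rsG A z y y with hc
  set β := rsG A z x y with hβ
  set D := t2D A (-1) x y z with hD
  have hDe : D = (1 - β) ^ 2 - a * c := by
    rw [hD]; unfold t2D; push_cast; ring
  -- `D0 = 1 + m g`
  have hne : (1 - g ^ 2) ≠ 0 := by
    intro h0
    have := (t2par_omg hp).1
    rw [h0, norm_zero] at this
    norm_num at this
  set D0 : ℂ := 1 + m * g with hD0
  have e0 : D0 * (1 - g ^ 2) = 1 := by rw [hD0]; linear_combination g * hm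
  have e1 : (1 + m * g) ^ 2 - m * m = D0 := by
    rw [hD0]; linear_combination (-m) * hm
  have hD0lo : 2 / 3 ≤ ‖D0‖ := by
    have h4 : ‖D0‖ * ‖1 - g ^ 2‖ = 1 := by rw [← norm_mul, e0, norm_one]
    have h5 := (t2par_omg hp).2
    nlinarith [norm_nonneg D0]
  have hD0hi : ‖D0‖ ≤ 2 := by
    have h4 : ‖D0‖ * ‖1 - g ^ 2‖ = 1 := by rw [← norm_mul, e0, norm_one]
    have h5 := (t2par_omg hp).1
    nlinarith [norm_nonneg D0]
  have hcn : ‖c‖ ≤ 3 / 2 + κ' := by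
    have := norm_add_le (c - m) m
    rw [sub_add_cancel] at this
    linarith
  have hmg : ‖m * g‖ ≤ 9 / 8 := by
    rw [norm_mul]
    have : ‖m‖ * ‖g‖ ≤ 3 / 2 * (3 / 4) := mul_le_mul hmm hg (norm_nonneg _) (by norm_num)
    linarith
  -- `D - D0`
  have eD : D - D0 = -((β + m * g) * (2 * D0 - (β + m * g))) - (a - m) * c - m * (c - m) := by
    rw [hDe]; linear_combination e1 + 2 * (β + m * g) * hD0
  have q1 : ‖(β + m * g) * (2 * D0 - (β + m * g))‖ ≤ κ' * (4 + κ') := by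
    rw [norm_mul]
    refine mul_le_mul h3 ?_ (norm_nonneg _) hκ0
    refine (norm_sub_le _ _).trans ?_
    rw [norm_mul]
    norm_num
    linarith
  have q2 : ‖(a - m) * c‖ ≤ κ' * (3 / 2 + κ') := by
    rw [norm_mul]; exact mul_le_mul h1 hcn (norm_nonneg _) hκ0
  have q3 : ‖m * (c - m)‖ ≤ 3 / 2 * κ' := by
    rw [norm_mul]; exact mul_le_mul hmm h2 (norm_nonneg _) (by norm_num)
  have hDD0 : ‖D - D0‖ ≤ 9 * κ' := by
    rw [eD]
    have t1 := norm_sub_le (-((β + m * g) * (2 * D0 - (β + m * g))) - (a - m) * c) (m * (c - m))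
    have t2 := norm_sub_le (-((β + m * g) * (2 * D0 - (β + m * g)))) ((a - m) * c)
    rw [norm_neg] at t2
    nlinarith
  have hDlo : 1 / 3 ≤ ‖D‖ := by
    have := norm_sub_norm_le D0 D
    rw [norm_sub_rev D0 D] at this
    linarith
  have eg : m - g * D0 = 0 := by
    have : (m - g * D0) * (1 - g ^ 2) = 0 := by linear_combination hm - g * e0
    rcases mul_eq_zero.1 this with h | h
    · exact h
    · exact absurd h hne
  have qg : ‖g * (D - D0)‖ ≤ 3 / 4 * (9 * κ') := by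
    rw [norm_mul]; exact mul_le_mul hg hDD0 (norm_nonneg _) (by norm_num)
  refine ⟨?_, ?_, ?_⟩
  · have e : D * (t2X A z x y - g) = (a - m) - g * (D - D0) := by linear_combination c1 + eg
    refine t2_div_le e (by norm_num : (0 : ℝ) < 1 / 3) hDlo ?_
    have := norm_sub_le (a - m) (g * (D - D0))
    linarith
  · have e : D * (t2X A z y x - g) = (c - m) - g * (D - D0) := by linear_combination c3 + eg
    refine t2_div_le e (by norm_num : (0 : ℝ) < 1 / 3) hDlo ?_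
    have := norm_sub_le (c - m) (g * (D - D0))
    linarith
  · have e : D * t2Y A z x y = (β + m * g) - (β + m * g) * ((β + m * g) - 2 * (m * g)) + (a - m) * c + m * (c - m) := by
      linear_combination c2 + m * hm
    refine t2_div_le e (by norm_num : (0 : ℝ) < 1 / 3) hDlo ?_
    have q4 : ‖(β + m * g) * ((β + m * g) - 2 * (m * g))‖ ≤ κ' * (κ' + 9 / 4) := by
      rw [norm_mul]
      refine mul_le_mul h3 ?_ (norm_nonneg _) hκ0
      refine (norm_sub_le _ _).trans ?_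
      have : ‖2 * (m * g)‖ = 2 * ‖m * g‖ := by rw [norm_mul]; norm_num
      rw [this]
      linarith
    have t1 := norm_add_le ((β + m * g) - (β + m * g) * ((β + m * g) - 2 * (m * g)) + (a - m) * c) (m * (c - m))
    have t2 := norm_add_le ((β + m * g) - (β + m * g) * ((β + m * g) - 2 * (m * g))) ((a - m) * c)
    have t3 := norm_sub_le (β + m * g) ((β + m * g) * ((β + m * g) - 2 * (m * g)))
    nlinarith

/-- **cavity ⟹ block**.   PLAN: `t2_block`: `G_xx = X/Δ`, `G_xy = (Y + Y² - X X')/Δ`; `m = g/(1-g²)`; `|Δ| ≥ 1/4`, `|Δ - (1-g²)| ≤ 3 σ` (`t2good_Dl`, `t2good_Dl_sub`), `σ = |ξ| + |ξ'| + |Y|`. -/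
theorem t2_blk_of_good {b : ℕ} {z g m : ℂ} {cg Z : ℝ} (hp : T2Par b z g cg Z) (hm : m * (1 - g ^ 2) = g) {A : Matrix V V ℝ} (hA : A.IsHermitian) {κ : ℝ} (hκ : κ ≤ 1 / 36)
    {x y : V} (h : T2Good A z g κ x y) :
    ‖rsG A z x x - m‖ ≤ 28 * (‖t2X A z x y - g‖ + ‖t2X A z y x - g‖ + ‖t2Y A z x y‖) ∧
    ‖rsG A z x y + m * g‖ ≤ 28 * (‖t2X A z x y - g‖ + ‖t2X A z y x - g‖ + ‖t2Y A z x y‖) := by
  obtain ⟨hg, hmm⟩ := t2par_gm hp hm
  obtain ⟨b1, b2⟩ := t2_block hA hp.im.ne' x y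
  have hD := (t2good_Dl hp h hκ).1
  have hs := t2good_Dl_sub h (t2par_le_one hp) (by linarith)
  set X := t2X A z x y with hX
  set X' := t2X A z y x with hX'
  set Y := t2Y A z x y with hY
  set Δ := t2Dl A z x y with hΔ
  set E := Δ - (1 - g ^ 2) with hE
  have p1 := norm_nonneg (X - g)
  have p2 := norm_nonneg (X' - g)
  have p3 := norm_nonneg Y
  have pE := norm_nonneg E
  have x1 : ‖X - g‖ ≤ 1 / 36 := h.x1.trans hκ
  have y1 : ‖Y‖ ≤ 1 / 36 := h.y.trans hκ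
  constructor
  · have e : Δ * (rsG A z x x - m) = (X - g) - m * E := by
      rw [hE]; linear_combination b1 - hm
    refine t2_div_le e (by norm_num : (0 : ℝ) < 1 / 4) hD ?_
    refine (norm_sub_le _ _).trans ?_
    rw [norm_mul]
    have := mul_le_mul hmm hs pE (by norm_num : (0 : ℝ) ≤ 3 / 2)
    linarith
  · have e : Δ * (rsG A z x y + m * g) = Y + Y * Y - g * (X' - g) - g * (X - g) - (X - g) * (X' - g) + m * g * E := by
      rw [hE]; linear_combination b2 + g * hm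
    refine t2_div_le e (by norm_num : (0 : ℝ) < 1 / 4) hD ?_
    have n1 : ‖Y * Y‖ ≤ 1 / 36 * ‖Y‖ := by rw [norm_mul]; exact mul_le_mul_of_nonneg_right y1 p3
    have n2 : ‖g * (X' - g)‖ ≤ 3 / 4 * ‖X' - g‖ := by rw [norm_mul]; exact mul_le_mul_of_nonneg_right hg p2
    have n3 : ‖g * (X - g)‖ ≤ 3 / 4 * ‖X - g‖ := by rw [norm_mul]; exact mul_le_mul_of_nonneg_right hg p1
    have n4 : ‖(X - g) * (X' - g)‖ ≤ 1 / 36 * ‖X' - g‖ := by rw [norm_mul]; exact mul_le_mul_of_nonneg_right x1 p2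
    have n5 : ‖m * g * E‖ ≤ 9 / 8 * ‖E‖ := by
      rw [norm_mul, norm_mul]
      have : ‖m‖ * ‖g‖ ≤ 3 / 2 * (3 / 4) := mul_le_mul hmm hg (norm_nonneg _) (by norm_num)
      nlinarith
    have t1 := norm_add_le (Y + Y * Y - g * (X' - g) - g * (X - g) - (X - g) * (X' - g)) (m * g * E)
    have t2 := norm_sub_le (Y + Y * Y - g * (X' - g) - g * (X - g)) ((X - g) * (X' - g))
    have t3 := norm_sub_le (Y + Y * Y - g * (X' - g)) (g * (X - g))
    have t4 := norm_sub_le (Y + Y * Y) (g * (X' - g))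
    have t5 := norm_add_le Y (Y * Y)
    linarith

end

end Claimed.Agent.R287
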