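-- KEEP
import Claimed.Agent.R287.T2b

/-!
# Row 287 (S0534), B1-lite, block T2, file C: MARKS, WEIGHTED ENSEMBLE, CLOSING      (helper284; prefix `t2`)
Source: `origin/helper284:notes/R287/A3_helper284.md` sec. 3 + `T2plan_284.md`.
The probability space is FINITE: `M` = the set of all adjacency matrices of `d`-regular graphs on `V` (`d = b + 1`), marks `m = (o, t, u, v)`:
`o` a vertex, `t : ι → V` an enumeration of its neighbours, `(u_a, v_a)` iid uniform oriented edges.   `t2Ex A d f` = sum over the marks with the weight `[T2En A o t] ∏_a A (u_a) (v_a) / (n d)`; total mass `n d!`.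
* sec. 10  iid marks kit (`t2k_*`);      * sec. 11  `t2Ex` and its marginals (`t2x_*`);      * sec. 12  the ensemble, pointwise inequalities with weights;      * sec. 13  closing: `t2_close_Y`, `t2_close_F`.
-/

set_option autoImplicit false
set_option linter.unusedSectionVars false

namespace Claimed.Agent.R287

open Matrix Finset

noncomputable section

variable {V : Type} [Fintype V] [DecidableEq V] {ι : Type} [Fintype ι] [DecidableEq ι]

/-! ## 10. iid marks -/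

/-- product formula -/
theorem t2k_prod (h : ι → V → V → ℝ) : ∑ u : ι → V, ∑ v : ι → V, ∏ a, h a (u a) (v a) = ∏ a, ∑ x, ∑ y, h a x y := by
  rw [Finset.prod_univ_sum]
  simp only [Fintype.piFinset_univ]
  refine Finset.sum_congr rfl fun u _ => ?_
  rw [Finset.prod_univ_sum]
  simp only [Fintype.piFinset_univ]

theorem t2k_tot (p : V → V → ℝ) (hp : ∑ x, ∑ y, p x y = 1) : ∑ u : ι → V, ∑ v : ι → V, ∏ a, p (u a) (v a) = 1 := by
  rw [t2k_prod (fun _ => p)]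
  simp [hp]

/-- marginal of one mark -/
theorem t2k_one (p : V → V → ℝ) (hp : ∑ x, ∑ y, p x y = 1) (a0 : ι) (f : V → V → ℝ) :
    ∑ u : ι → V, ∑ v : ι → V, (∏ a, p (u a) (v a)) * f (u a0) (v a0) = ∑ x, ∑ y, p x y * f x y := by
  have e : ∀ u v : ι → V, (∏ a, p (u a) (v a)) * f (u a0) (v a0) = ∏ a, (p (u a) (v a) * (if a = a0 then f (u a) (v a) else 1)) := by
    intro u v
    rw [Finset.prod_mul_distrib, Finset.prod_ite_eq' Finset.univ a0 (fun a => f (u a) (v a))]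
    simp
  simp only [e]
  rw [t2k_prod (fun a x y => p x y * (if a = a0 then f x y else 1)), Finset.prod_eq_single a0]
  · simp
  · intro a _ ha
    simp [ha, hp]
  · intro h; exact absurd (Finset.mem_univ a0) h

/-- marginal of two marks, product test functions -/
theorem t2k_two_prod (p : V → V → ℝ) (hp : ∑ x, ∑ y, p x y = 1) {a0 a1 : ι} (hne : a0 ≠ a1) (f f' : V → V → ℝ) :
    ∑ u : ι → V, ∑ v : ι → V, (∏ a, p (u a) (v a)) * (f (u a0) (v a0) * f' (u a1) (v a1)) = (∑ x, ∑ y, p x y * f x y) * ∑ x, ∑ y, p x y * f' x y := by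
  have e : ∀ u v : ι → V, (∏ a, p (u a) (v a)) * (f (u a0) (v a0) * f' (u a1) (v a1))
      = ∏ a, (p (u a) (v a) * ((if a = a0 then f (u a) (v a) else 1) * (if a = a1 then f' (u a) (v a) else 1))) := by
    intro u v
    rw [Finset.prod_mul_distrib, Finset.prod_mul_distrib, Finset.prod_ite_eq' Finset.univ a0 (fun a => f (u a) (v a)),
      Finset.prod_ite_eq' Finset.univ a1 (fun a => f' (u a) (v a))]
    simp
  simp only [e]
  rw [t2k_prod (fun a x y => p x y * ((if a = a0 then f x y else 1) * (if a = a1 then f' x y else 1))),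
    Finset.prod_eq_mul a0 a1 hne]
  · simp [hne, hne.symm]
  · intro a _ ha
    simp [ha.1, ha.2, hp]
  · intro h; exact absurd (Finset.mem_univ a0) h
  · intro h; exact absurd (Finset.mem_univ a1) h

/-- marginal of two marks.   PLAN: `F x y x' y' = ∑ F p q p' q' [x = p][y = q][x' = p'][y' = q']`, `t2k_two_prod`. -/
theorem t2k_two (p : V → V → ℝ) (hp : ∑ x, ∑ y, p x y = 1) {a0 a1 : ι} (hne : a0 ≠ a1) (F : V → V → V → V → ℝ) :
    ∑ u : ι → V, ∑ v : ι → V, (∏ a, p (u a) (v a)) * F (u a0) (v a0) (u a1) (v a1) = ∑ x, ∑ y, ∑ x', ∑ y', p x y * p x' y' * F x y x' y' := by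
  have d1 : ∀ r q : V, ∑ x, ∑ y, p x y * (if x = r ∧ y = q then 1 else 0) = p r q := by
    intro r q
    rw [Finset.sum_eq_single r, Finset.sum_eq_single q]
    · simp
    · intro b _ hb; simp [hb]
    · intro h; exact absurd (Finset.mem_univ _) h
    · intro b _ hb
      refine Finset.sum_eq_zero fun _ _ => ?_
      simp [hb]
    · intro h; exact absurd (Finset.mem_univ _) h
  calc ∑ u : ι → V, ∑ v : ι → V, (∏ a, p (u a) (v a)) * F (u a0) (v a0) (u a1) (v a1)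
      = ∑ u : ι → V, ∑ v : ι → V, ∑ s : V × V × V × V, F s.1 s.2.1 s.2.2.1 s.2.2.2 * ((∏ a, p (u a) (v a)) *
          ((fun x y => if x = s.1 ∧ y = s.2.1 then (1 : ℝ) else 0) (u a0) (v a0) * (fun x y => if x = s.2.2.1 ∧ y = s.2.2.2 then (1 : ℝ) else 0) (u a1) (v a1))) := by
        refine Finset.sum_congr rfl fun u _ => Finset.sum_congr rfl fun v _ => ?_
        rw [Finset.sum_eq_single (u a0, v a0, u a1, v a1)]
        · simp [mul_comm]
        · rintro ⟨r, q, r', q'⟩ _ hb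
          have : ¬ ((u a0 = r ∧ v a0 = q) ∧ (u a1 = r' ∧ v a1 = q')) := by
            rintro ⟨⟨rfl, rfl⟩, rfl, rfl⟩
            exact hb rfl
          by_cases h1 : u a0 = r ∧ v a0 = q
          · have h2 : ¬ (u a1 = r' ∧ v a1 = q') := fun h2 => this ⟨h1, h2⟩
            simp [h2]
          · simp [h1]
        · intro h; exact absurd (Finset.mem_univ _) h
    _ = ∑ s : V × V × V × V, F s.1 s.2.1 s.2.2.1 s.2.2.2 * ∑ u : ι → V, ∑ v : ι → V, (∏ a, p (u a) (v a)) *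
          ((fun x y => if x = s.1 ∧ y = s.2.1 then (1 : ℝ) else 0) (u a0) (v a0) * (fun x y => if x = s.2.2.1 ∧ y = s.2.2.2 then (1 : ℝ) else 0) (u a1) (v a1)) := by
        simp only [Finset.mul_sum]
        exact (Finset.sum_congr rfl fun u _ => Finset.sum_comm).trans Finset.sum_comm
    _ = ∑ x, ∑ y, ∑ x', ∑ y', p x y * p x' y' * F x y x' y' := by
        simp only [Fintype.sum_prod_type]
        refine Finset.sum_congr rfl fun r _ => Finset.sum_congr rfl fun q _ => Finset.sum_congr rfl fun r' _ => Finset.sum_congr rfl fun q' _ => ?_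
        rw [t2k_two_prod p hp hne (fun x y => if x = r ∧ y = q then (1 : ℝ) else 0) (fun x y => if x = r' ∧ y = q' then (1 : ℝ) else 0), d1, d1]
        ring

/-- `‖∑ z_a‖² = ∑∑ Re (z_a conj z_a')` -/
theorem t2k_norm_sq_sum {κ : Type} (S : Finset κ) (w : κ → ℂ) :
    ‖∑ a ∈ S, w a‖ ^ 2 = ∑ a ∈ S, ∑ a' ∈ S, (w a * (starRingEnd ℂ) (w a')).re := by
  have h1 : ((‖∑ a ∈ S, w a‖ ^ 2 : ℝ) : ℂ) = (∑ a ∈ S, w a) * (starRingEnd ℂ) (∑ a ∈ S, w a) := by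
    rw [Complex.mul_conj, Complex.normSq_eq_norm_sq]
  have h2 := congrArg Complex.re h1
  rw [Complex.ofReal_re] at h2
  rw [h2, map_sum, Finset.sum_mul_sum, Complex.re_sum]
  exact Finset.sum_congr rfl fun a _ => Complex.re_sum _ _

/-- second moment of a sum over iid marks.   PLAN: `‖∑_S h_a‖² = ∑_a ‖h_a‖² + ∑_{a ≠ a'} Re (h_a conj h_a')`; `t2k_one`, `t2k_two` (real and imaginary parts). -/
theorem t2k_second (p : V → V → ℝ) (hp : ∑ x, ∑ y, p x y = 1) (S : Finset ι) (h : V → V → ℂ) :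
    ∑ u : ι → V, ∑ v : ι → V, (∏ a, p (u a) (v a)) * ‖∑ a ∈ S, h (u a) (v a)‖ ^ 2
      = S.card * (∑ x, ∑ y, p x y * ‖h x y‖ ^ 2) + S.card * (S.card - 1) * ‖∑ x, ∑ y, (p x y : ℂ) * h x y‖ ^ 2 := by
  set D : ℝ := ∑ x, ∑ y, p x y * ‖h x y‖ ^ 2 with hD
  set O : ℝ := ‖∑ x, ∑ y, (p x y : ℂ) * h x y‖ ^ 2 with hO
  have hT : ∀ a a' : ι, ∑ u : ι → V, ∑ v : ι → V, (∏ b, p (u b) (v b)) * (h (u a) (v a) * (starRingEnd ℂ) (h (u a') (v a'))).re
      = if a = a' then D else O := by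
    intro a a'
    by_cases haa : a = a'
    · subst haa
      rw [if_pos rfl, t2k_one p hp a (fun x y => (h x y * (starRingEnd ℂ) (h x y)).re), hD]
      refine Finset.sum_congr rfl fun x _ => Finset.sum_congr rfl fun y _ => ?_
      rw [Complex.mul_conj, Complex.ofReal_re, Complex.normSq_eq_norm_sq]
    · rw [if_neg haa, t2k_two p hp haa (fun x y x' y' => (h x y * (starRingEnd ℂ) (h x' y')).re), hO]
      have e1 : ∑ x, ∑ y, (p x y : ℂ) * h x y = ∑ s : V × V, (p s.1 s.2 : ℂ) * h s.1 s.2 := by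
        rw [Fintype.sum_prod_type]
      rw [e1, t2k_norm_sq_sum]
      simp only [Fintype.sum_prod_type]
      refine Finset.sum_congr rfl fun x _ => Finset.sum_congr rfl fun y _ => Finset.sum_congr rfl fun x' _ => Finset.sum_congr rfl fun y' _ => ?_
      rw [map_mul, Complex.conj_ofReal]
      have : (p x y : ℂ) * h x y * ((p x' y' : ℂ) * (starRingEnd ℂ) (h x' y')) = ((p x y * p x' y' : ℝ) : ℂ) * (h x y * (starRingEnd ℂ) (h x' y')) := by
        push_cast; ring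
      rw [this, Complex.re_ofReal_mul]
  calc ∑ u : ι → V, ∑ v : ι → V, (∏ a, p (u a) (v a)) * ‖∑ a ∈ S, h (u a) (v a)‖ ^ 2
      = ∑ u : ι → V, ∑ v : ι → V, ∑ a ∈ S, ∑ a' ∈ S, (∏ b, p (u b) (v b)) * (h (u a) (v a) * (starRingEnd ℂ) (h (u a') (v a'))).re := by
        refine Finset.sum_congr rfl fun u _ => Finset.sum_congr rfl fun v _ => ?_
        rw [t2k_norm_sq_sum, Finset.mul_sum]
        exact Finset.sum_congr rfl fun a _ => Finset.mul_sum _ _ _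
    _ = ∑ a ∈ S, ∑ a' ∈ S, ∑ u : ι → V, ∑ v : ι → V, (∏ b, p (u b) (v b)) * (h (u a) (v a) * (starRingEnd ℂ) (h (u a') (v a'))).re := by
        refine ((Finset.sum_congr rfl fun u _ => Finset.sum_comm).trans Finset.sum_comm).trans ?_
        refine Finset.sum_congr rfl fun a _ => ?_
        exact (Finset.sum_congr rfl fun u _ => Finset.sum_comm).trans Finset.sum_comm
    _ = ∑ a ∈ S, ∑ a' ∈ S, (O + if a = a' then D - O else 0) := by
        refine Finset.sum_congr rfl fun a _ => Finset.sum_congr rfl fun a' _ => ?_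
        rw [hT]
        split_ifs <;> ring
    _ = ∑ a ∈ S, (S.card * O + (D - O)) := by
        refine Finset.sum_congr rfl fun a ha => ?_
        rw [Finset.sum_add_distrib, Finset.sum_ite_eq, if_pos ha]
        simp
    _ = S.card * D + S.card * (S.card - 1) * O := by
        rw [Finset.sum_const, nsmul_eq_mul]
        ring

open Classical in
/-- the number of enumerations of the neighbours of a vertex.   PLAN: `{t | T2En A o t}` = injections of `ι` into `N(o) = {y | A o y = 1}`, `#N(o) = d = #ι` (row sum), `Fintype.card_embedding_eq`, `Nat.descFactorial_self`. -/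
theorem t2k_en_card {A : Matrix V V ℝ} {d : ℕ} (hA : T2Reg A d) (hc : Fintype.card ι = d) (o : V) :
    ∑ t : ι → V, (if T2En A o t then (1 : ℝ) else 0) = d.factorial := by
  have hN : Fintype.card {y // A o y = 1} = d := by
    have h1 := hA.row o
    have h2 : ∀ y, A o y = if A o y = 1 then 1 else 0 := by
      intro y
      rcases hA.zo o y with h | h <;> simp [h]
    rw [Finset.sum_congr rfl fun y _ => h2 y, Finset.sum_boole] at h1
    rw [Fintype.card_subtype]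
    exact_mod_cast h1
  have e0 : ι ≃ {y // A o y = 1} := Fintype.equivOfCardEq (hc.trans hN.symm)
  let Φ : {t : ι → V // T2En A o t} ≃ (ι ≃ {y // A o y = 1}) :=
    { toFun := fun t => Equiv.ofBijective (fun a => ⟨t.1 a, t.2.ot a⟩)
        ⟨fun a b hab => t.2.ti (congrArg Subtype.val hab), fun y => by
          obtain ⟨a, ha⟩ := t.2.en y.1 y.2
          exact ⟨a, Subtype.ext ha⟩⟩
      invFun := fun e => ⟨fun a => (e a).1, ⟨fun a => (e a).2, fun y hy => ⟨e.symm ⟨y, hy⟩, by simp⟩,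
        fun a b hab => e.injective (Subtype.ext hab)⟩⟩
      left_inv := fun t => rfl
      right_inv := fun e => by ext a; rfl }
  rw [Finset.sum_boole, ← Fintype.card_subtype, Fintype.card_congr Φ, Fintype.card_equiv e0, hc]

/-! ## 11. the sum over the marks -/

/-- uniform weight on the oriented edges -/
def t2P (A : Matrix V V ℝ) (d : ℕ) (x y : V) : ℝ := A x y / (Fintype.card V * d)

open Classical in
/-- sum over the marks: `o` any vertex, `t` any enumeration of its neighbours, `(u_a, v_a)` iid uniform oriented edges.   Total mass `n d!`. -/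
def t2Ex (A : Matrix V V ℝ) (d : ℕ) (f : T2Mk V ι → ℝ) : ℝ :=
  ∑ o, ∑ t : ι → V, if T2En A o t then ∑ u : ι → V, ∑ v : ι → V, (∏ a, t2P A d (u a) (v a)) * f (o, t, u, v) else 0

theorem t2x_eqns_cite : True := by
  have := @t2P.eq_1
  have := @t2Ex.eq_1
  trivial

theorem t2P_nonneg {A : Matrix V V ℝ} {d : ℕ} (hA : T2Reg A d) (x y : V) : 0 ≤ t2P A d x y := by
  unfold t2P
  rcases hA.zo x y with h | h <;> rw [h] <;> positivity

theorem t2P_sum {A : Matrix V V ℝ} {d : ℕ} (hA : T2Reg A d) (hd : 0 < d) [Nonempty V] : ∑ x, ∑ y, t2P A d x y = 1 := by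
  unfold t2P
  simp only [← Finset.sum_div, hA.row, Finset.sum_const, Finset.card_univ, nsmul_eq_mul]
  have h1 : (0 : ℝ) < Fintype.card V := by exact_mod_cast Fintype.card_pos
  have h2 : (0 : ℝ) < d := by exact_mod_cast hd
  field_simp

theorem t2P_row {A : Matrix V V ℝ} {d : ℕ} (hA : T2Reg A d) (hd : 0 < d) (x : V) : ∑ y, t2P A d x y = 1 / Fintype.card V := by
  unfold t2P
  rw [← Finset.sum_div, hA.row]
  have h2 : (0 : ℝ) < d := by exact_mod_cast hd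
  by_cases h1 : (Fintype.card V : ℝ) = 0
  · simp [h1]
  · field_simp

theorem t2x_mono {A : Matrix V V ℝ} {d : ℕ} (hA : T2Reg A d) {f f' : T2Mk V ι → ℝ} (h : ∀ m, f m ≤ f' m) : t2Ex A d f ≤ t2Ex A d f' := by
  classical
  unfold t2Ex
  refine Finset.sum_le_sum fun o _ => Finset.sum_le_sum fun t _ => ?_
  split_ifs
  · exact Finset.sum_le_sum fun u _ => Finset.sum_le_sum fun v _ =>
      mul_le_mul_of_nonneg_left (h _) (Finset.prod_nonneg fun a _ => t2P_nonneg hA _ _)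
  · exact le_rfl

theorem t2x_nonneg {A : Matrix V V ℝ} {d : ℕ} (hA : T2Reg A d) {f : T2Mk V ι → ℝ} (h : ∀ m, 0 ≤ f m) : 0 ≤ t2Ex A d f := by
  classical
  unfold t2Ex
  refine Finset.sum_nonneg fun o _ => Finset.sum_nonneg fun t _ => ?_
  split_ifs
  · exact Finset.sum_nonneg fun u _ => Finset.sum_nonneg fun v _ => mul_nonneg (Finset.prod_nonneg fun a _ => t2P_nonneg hA _ _) (h _)
  · exact le_rfl

theorem t2x_add (A : Matrix V V ℝ) (d : ℕ) (f f' : T2Mk V ι → ℝ) : t2Ex A d (fun m => f m + f' m) = t2Ex A d f + t2Ex A d f' := by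
  classical
  unfold t2Ex
  simp only [← Finset.sum_add_distrib]
  refine Finset.sum_congr rfl fun o _ => Finset.sum_congr rfl fun t _ => ?_
  split_ifs
  · simp only [← Finset.sum_add_distrib, mul_add]
  · simp

theorem t2x_smul (A : Matrix V V ℝ) (d : ℕ) (c : ℝ) (f : T2Mk V ι → ℝ) : t2Ex A d (fun m => c * f m) = c * t2Ex A d f := by
  classical
  unfold t2Ex
  simp only [Finset.mul_sum]
  refine Finset.sum_congr rfl fun o _ => Finset.sum_congr rfl fun t _ => ?_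
  split_ifs
  · simp only [Finset.mul_sum]
    exact Finset.sum_congr rfl fun u _ => Finset.sum_congr rfl fun v _ => by ring
  · simp

theorem t2x_sum {κ : Type} (A : Matrix V V ℝ) (d : ℕ) (S : Finset κ) (f : κ → T2Mk V ι → ℝ) :
    t2Ex A d (fun m => ∑ i ∈ S, f i m) = ∑ i ∈ S, t2Ex A d (f i) := by
  classical
  induction S using Finset.induction_on with
  | empty => simp [t2Ex]
  | insert i S hi ih => simp only [Finset.sum_insert hi]; rw [t2x_add, ih]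

open Classical in
/-- on valid marks the weight is `(n d)^(-#ι)`.   PLAN: split `∑ m` with `Fintype.sum_prod_type`; a valid `m` has `T2En` (`T2Val.toEn`) and `t2P A d (u a) (v a) = 1/(n d)` (`h.uv`). -/
theorem t2x_val (A : Matrix V V ℝ) {d : ℕ} (hd : 0 < d) (F : T2Mk V ι → ℝ) :
    ∑ m : T2Mk V ι, (if T2ValM A m then F m else 0)
      = ((Fintype.card V : ℝ) * d) ^ Fintype.card ι * t2Ex A d (fun m => if T2ValM A m then F m else 0) := by
  unfold t2Ex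
  simp only [Fintype.sum_prod_type, Finset.mul_sum]
  refine Finset.sum_congr rfl fun o _ => Finset.sum_congr rfl fun t _ => ?_
  have hn : (0 : ℝ) < Fintype.card V := by
    have : Nonempty V := ⟨o⟩
    exact_mod_cast Fintype.card_pos
  have hd' : (0 : ℝ) < d := by exact_mod_cast hd
  by_cases hE : T2En A o t
  · rw [if_pos hE]
    simp only [Finset.mul_sum]
    refine Finset.sum_congr rfl fun u _ => Finset.sum_congr rfl fun v _ => ?_
    by_cases hv : T2ValM A (o, t, u, v)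
    · rw [if_pos hv]
      have h1 : ∏ a, t2P A d (u a) (v a) = (((Fintype.card V : ℝ) * d) ^ Fintype.card ι)⁻¹ := by
        have : ∀ a ∈ (Finset.univ : Finset ι), t2P A d (u a) (v a) = ((Fintype.card V : ℝ) * d)⁻¹ := by
          intro a _
          have := T2Val.uv hv a
          simp only at this
          rw [t2P, this, one_div]
        rw [Finset.prod_congr rfl this, Finset.prod_const, Finset.card_univ, inv_pow]
      rw [h1]
      have : ((Fintype.card V : ℝ) * d) ^ Fintype.card ι ≠ 0 := by positivity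
      field_simp
    · simp [hv]
  · rw [if_neg hE, mul_zero]
    refine Finset.sum_eq_zero fun u _ => Finset.sum_eq_zero fun v _ => ?_
    rw [if_neg]
    exact fun hv => hE (T2Val.toEn hv)

open Classical in
/-- integrate the far marks first -/
theorem t2x_gen (A : Matrix V V ℝ) (d : ℕ) (f : T2Mk V ι → ℝ) (c : V → (ι → V) → ℝ)
    (h : ∀ o t, ∑ u : ι → V, ∑ v : ι → V, (∏ a, t2P A d (u a) (v a)) * f (o, t, u, v) = c o t) :
    t2Ex A d f = ∑ o, ∑ t : ι → V, if T2En A o t then c o t else 0 := by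
  unfold t2Ex
  simp only [h]

open Classical in
/-- sum over the enumerations -/
theorem t2x_en_const {A : Matrix V V ℝ} {d : ℕ} (hA : T2Reg A d) (hc : Fintype.card ι = d) (c : V → ℝ) :
    ∑ o, ∑ t : ι → V, (if T2En A o t then c o else 0) = d.factorial * ∑ o, c o := by
  rw [Finset.mul_sum]
  refine Finset.sum_congr rfl fun o _ => ?_
  rw [← t2k_en_card hA hc o, Finset.sum_mul]
  exact Finset.sum_congr rfl fun t _ => by split_ifs <;> simp

/-- functions of the base edge `(o, t_a0)`, summed over `a0`.   PLAN: for an enumeration `∑_a0 φ o (t a0) = ∑_y A o y φ o y` (`t2en_row`), far marks integrate to `1` (`t2k_tot`, `t2P_sum`), `t2k_en_card`. -/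
theorem t2x_base {A : Matrix V V ℝ} {d : ℕ} (hA : T2Reg A d) (hd : 0 < d) (hc : Fintype.card ι = d) (φ : V → V → ℝ) :
    t2Ex A d (fun m : T2Mk V ι => ∑ a0, φ m.1 (m.2.1 a0)) = d.factorial * ∑ x, ∑ y, A x y * φ x y := by
  classical
  rw [t2x_gen A d _ (fun o t => ∑ a0, φ o (t a0)), ← t2x_en_const hA hc]
  · refine Finset.sum_congr rfl fun o _ => Finset.sum_congr rfl fun t _ => ?_
    by_cases hE : T2En A o t
    · rw [if_pos hE, if_pos hE]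
      simp only [t2en_row hA hE, Finset.sum_mul]
      rw [Finset.sum_comm]
      refine Finset.sum_congr rfl fun a _ => ?_
      simp
    · rw [if_neg hE, if_neg hE]
  · intro o t
    have : Nonempty V := ⟨o⟩
    simp only [← Finset.sum_mul]
    rw [t2k_tot _ (t2P_sum hA hd), one_mul]

open Classical in
/-- functions of the base marks and one far edge.   PLAN: `t2k_one`, `t2P_sum` (if `V` is empty everything vanishes). -/
theorem t2x_far1g {A : Matrix V V ℝ} {d : ℕ} (hA : T2Reg A d) (hd : 0 < d) (a0 : ι) (f : V → (ι → V) → V → V → ℝ) :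
    t2Ex A d (fun m : T2Mk V ι => f m.1 m.2.1 (m.2.2.1 a0) (m.2.2.2 a0)) = ∑ o, ∑ t : ι → V, if T2En A o t then ∑ x, ∑ y, t2P A d x y * f o t x y else 0 := by
  refine t2x_gen A d _ _ fun o t => ?_
  have : Nonempty V := ⟨o⟩
  exact t2k_one _ (t2P_sum hA hd) a0 (f o t)

/-- functions of `o` and one far edge.   PLAN: `t2x_far1g`, `t2k_en_card`. -/
theorem t2x_far1 {A : Matrix V V ℝ} {d : ℕ} (hA : T2Reg A d) (hd : 0 < d) (hc : Fintype.card ι = d) (a0 : ι) (f : V → V → V → ℝ) :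
    t2Ex A d (fun m : T2Mk V ι => f m.1 (m.2.2.1 a0) (m.2.2.2 a0)) = d.factorial * ∑ o, ∑ x, ∑ y, t2P A d x y * f o x y := by
  classical
  rw [t2x_far1g hA hd a0 (fun o _ x y => f o x y), t2x_en_const hA hc]

/-- functions of two far edges.   PLAN: `t2k_two`, `t2k_en_card`. -/
theorem t2x_far2 {A : Matrix V V ℝ} {d : ℕ} (hA : T2Reg A d) (hd : 0 < d) (hc : Fintype.card ι = d) {a0 a1 : ι} (hne : a0 ≠ a1) (F : V → V → V → V → ℝ) :
    t2Ex A d (fun m : T2Mk V ι => F (m.2.2.1 a0) (m.2.2.2 a0) (m.2.2.1 a1) (m.2.2.2 a1))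
      = Fintype.card V * d.factorial * ∑ x, ∑ y, ∑ x', ∑ y', t2P A d x y * t2P A d x' y' * F x y x' y' := by
  classical
  rw [t2x_gen A d _ (fun _ _ => ∑ x, ∑ y, ∑ x', ∑ y', t2P A d x y * t2P A d x' y' * F x y x' y'), t2x_en_const hA hc]
  · simp only [Finset.sum_const, Finset.card_univ, nsmul_eq_mul]
    ring
  · intro o t
    have : Nonempty V := ⟨o⟩
    exact t2k_two _ (t2P_sum hA hd) hne F

/-- second moment of the sum of a function of the far edges.   PLAN: `t2k_second`, `t2k_en_card`. -/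
theorem t2x_second {A : Matrix V V ℝ} {d : ℕ} (hA : T2Reg A d) (hd : 0 < d) (hc : Fintype.card ι = d) (S : Finset ι) (h : V → V → ℂ) :
    t2Ex A d (fun m : T2Mk V ι => ‖∑ a ∈ S, h (m.2.2.1 a) (m.2.2.2 a)‖ ^ 2)
      = Fintype.card V * d.factorial * (S.card * (∑ x, ∑ y, t2P A d x y * ‖h x y‖ ^ 2) + S.card * (S.card - 1) * ‖∑ x, ∑ y, (t2P A d x y : ℂ) * h x y‖ ^ 2) := by
  classical
  rw [t2x_gen A d _ (fun _ _ => S.card * (∑ x, ∑ y, t2P A d x y * ‖h x y‖ ^ 2) + S.card * (S.card - 1) * ‖∑ x, ∑ y, (t2P A d x y : ℂ) * h x y‖ ^ 2),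
    t2x_en_const hA hc]
  · simp only [Finset.sum_const, Finset.card_univ, nsmul_eq_mul]
    ring
  · intro o t
    have : Nonempty V := ⟨o⟩
    exact t2k_second _ (t2P_sum hA hd) S h

theorem t2P_col {A : Matrix V V ℝ} {d : ℕ} (hA : T2Reg A d) (hd : 0 < d) (y : V) : ∑ x, t2P A d x y = 1 / Fintype.card V := by
  rw [← t2P_row hA hd y]
  refine Finset.sum_congr rfl fun x _ => ?_
  unfold t2P
  have := congrFun (congrFun hA.herm y) x
  rw [Matrix.conjTranspose_apply, star_trivial] at this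
  rw [this]

theorem t2P_pick_l {A : Matrix V V ℝ} {d : ℕ} (hA : T2Reg A d) (hd : 0 < d) (s : V) :
    ∑ x, ∑ y, t2P A d x y * (if x = s then 1 else 0) = 1 / Fintype.card V := by
  rw [← t2P_row hA hd s, Finset.sum_eq_single s]
  · simp
  · intro b _ hb; simp [hb]
  · intro h; exact absurd (Finset.mem_univ _) h

theorem t2P_pick_r {A : Matrix V V ℝ} {d : ℕ} (hA : T2Reg A d) (hd : 0 < d) (s : V) :
    ∑ x, ∑ y, t2P A d x y * (if y = s then 1 else 0) = 1 / Fintype.card V := by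
  rw [← t2P_col hA hd s]
  refine Finset.sum_congr rfl fun x _ => ?_
  simp

theorem t2P_pick_nb {A : Matrix V V ℝ} {d : ℕ} (hA : T2Reg A d) (hd : 0 < d) (s : V) :
    ∑ x, ∑ y, t2P A d x y * (if A s y = 1 then 1 else 0) = d / Fintype.card V := by
  rw [Finset.sum_comm]
  simp only [← Finset.sum_mul, t2P_col hA hd]
  rw [← Finset.mul_sum]
  have h2 : ∀ y, (if A s y = 1 then (1 : ℝ) else 0) = A s y := by
    intro y
    rcases hA.zo s y with h | h <;> simp [h]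
  simp only [h2, hA.row]
  ring

/-- monotonicity, where the weight does not vanish -/
theorem t2x_mono_w {A : Matrix V V ℝ} {d : ℕ} (hA : T2Reg A d) {f f' : T2Mk V ι → ℝ}
    (h : ∀ o t u v, T2En A o t → (∀ a, A (u a) (v a) = 1) → f (o, t, u, v) ≤ f' (o, t, u, v)) : t2Ex A d f ≤ t2Ex A d f' := by
  classical
  unfold t2Ex
  refine Finset.sum_le_sum fun o _ => Finset.sum_le_sum fun t _ => ?_
  split_ifs with hE
  · refine Finset.sum_le_sum fun u _ => Finset.sum_le_sum fun v _ => ?_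
    by_cases huv : ∀ a, A (u a) (v a) = 1
    · exact mul_le_mul_of_nonneg_left (h o t u v hE huv) (Finset.prod_nonneg fun a _ => t2P_nonneg hA _ _)
    · push Not at huv
      obtain ⟨a, ha⟩ := huv
      have h0 : A (u a) (v a) = 0 := (hA.zo _ _).resolve_right ha
      have : ∏ a, t2P A d (u a) (v a) = 0 := Finset.prod_eq_zero (Finset.mem_univ a) (by simp [t2P, h0])
      rw [this, zero_mul, zero_mul]
  · exact le_rfl

/-- mass of an event which involves the base marks and one far edge -/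
theorem t2x_far1_le {A : Matrix V V ℝ} {d : ℕ} (hA : T2Reg A d) (hd : 0 < d) (hc : Fintype.card ι = d) [Nonempty V] (a0 : ι) (f : V → (ι → V) → V → V → ℝ) {c : ℝ}
    (hb : ∀ o t, T2En A o t → ∑ x, ∑ y, t2P A d x y * f o t x y ≤ c / Fintype.card V) :
    t2Ex A d (fun m : T2Mk V ι => f m.1 m.2.1 (m.2.2.1 a0) (m.2.2.2 a0)) ≤ c * d.factorial := by
  classical
  have hn : (0 : ℝ) < Fintype.card V := by exact_mod_cast Fintype.card_pos
  rw [t2x_far1g hA hd a0 f]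
  calc ∑ o, ∑ t : ι → V, (if T2En A o t then ∑ x, ∑ y, t2P A d x y * f o t x y else 0)
      ≤ ∑ o, ∑ t : ι → V, (if T2En A o t then (fun _ : V => c / Fintype.card V) o else 0) := by
        refine Finset.sum_le_sum fun o _ => Finset.sum_le_sum fun t _ => ?_
        split_ifs with hE
        · exact hb o t hE
        · exact le_rfl
    _ = c * d.factorial := by
        rw [t2x_en_const hA hc]
        simp only [Finset.sum_const, Finset.card_univ, nsmul_eq_mul]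
        field_simp

/-- mass of a coincidence between two far edges -/
theorem t2x_far2_le {A : Matrix V V ℝ} {d : ℕ} (hA : T2Reg A d) (hd : 0 < d) (hc : Fintype.card ι = d) [Nonempty V] (a0 a1 : ι) (F : V → V → V → V → ℝ)
    (hb : ∀ x y, ∑ x', ∑ y', t2P A d x' y' * F x y x' y' = 1 / Fintype.card V) :
    t2Ex A d (fun m : T2Mk V ι => if a0 ≠ a1 then F (m.2.2.1 a0) (m.2.2.2 a0) (m.2.2.1 a1) (m.2.2.2 a1) else 0) ≤ d.factorial := by
  have hn : (0 : ℝ) < Fintype.card V := by exact_mod_cast Fintype.card_pos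
  by_cases hne : a0 ≠ a1
  · simp only [if_pos hne]
    rw [t2x_far2 hA hd hc hne F]
    have : ∑ x, ∑ y, ∑ x', ∑ y', t2P A d x y * t2P A d x' y' * F x y x' y' = 1 / Fintype.card V := by
      have e : ∀ x y, ∑ x', ∑ y', t2P A d x y * t2P A d x' y' * F x y x' y' = t2P A d x y * (1 / Fintype.card V) := by
        intro x y
        rw [← hb x y, Finset.mul_sum]
        refine Finset.sum_congr rfl fun x' _ => ?_
        rw [Finset.mul_sum]
        exact Finset.sum_congr rfl fun y' _ => by ring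
      simp only [e, ← Finset.sum_mul, t2P_sum hA hd, one_mul]
    rw [this]
    apply le_of_eq
    field_simp
  · simp only [if_neg hne]
    have : t2Ex A d (fun _ : T2Mk V ι => (0 : ℝ)) = 0 := by
      have := t2x_smul A d 0 (fun _ : T2Mk V ι => (0 : ℝ))
      simpa using this
    rw [this]
    positivity

open Classical in
/-- the union bound behind `t2x_inval` -/
theorem t2x_inval_pt {A : Matrix V V ℝ} {d : ℕ} (hA : T2Reg A d) {o : V} {t u v : ι → V} (hE : T2En A o t) (huv : ∀ a, A (u a) (v a) = 1) :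
    (if T2ValM A (o, t, u, v) then (0 : ℝ) else 1)
      ≤ ∑ a, ((if A (t a) (v a) = 1 then (1 : ℝ) else 0) + (if u a = o then 1 else 0) + (if v a = o then 1 else 0))
        + ∑ q : ι × ι, ((if u q.2 = t q.1 then (1 : ℝ) else 0) + (if v q.2 = t q.1 then 1 else 0)
            + (if q.1 ≠ q.2 then (if u q.2 = u q.1 then 1 else 0) else 0) + (if q.1 ≠ q.2 then (if v q.2 = v q.1 then 1 else 0) else 0)
            + (if q.1 ≠ q.2 then (if v q.2 = u q.1 then 1 else 0) else 0)) := by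
  set f1 : ι → ℝ := fun a => (if A (t a) (v a) = 1 then (1 : ℝ) else 0) + (if u a = o then 1 else 0) + (if v a = o then 1 else 0) with hf1
  set f2 : ι × ι → ℝ := fun q => (if u q.2 = t q.1 then (1 : ℝ) else 0) + (if v q.2 = t q.1 then 1 else 0)
            + (if q.1 ≠ q.2 then (if u q.2 = u q.1 then 1 else 0) else 0) + (if q.1 ≠ q.2 then (if v q.2 = v q.1 then 1 else 0) else 0)
            + (if q.1 ≠ q.2 then (if v q.2 = u q.1 then 1 else 0) else 0) with hf2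
  have n1 : ∀ a, 0 ≤ f1 a := fun a => by
    simp only [hf1]
    refine add_nonneg (add_nonneg ?_ ?_) ?_ <;> split_ifs <;> norm_num
  have n2 : ∀ q, 0 ≤ f2 q := fun q => by
    simp only [hf2]
    refine add_nonneg (add_nonneg (add_nonneg (add_nonneg ?_ ?_) ?_) ?_) ?_ <;> split_ifs <;> norm_num
  have s1 : 0 ≤ ∑ a, f1 a := Finset.sum_nonneg fun a _ => n1 a
  have s2 : 0 ≤ ∑ q, f2 q := Finset.sum_nonneg fun q _ => n2 q
  split_ifs with hV
  · exact add_nonneg s1 s2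
  · by_contra hlt
    push Not at hlt
    have b1 : ∀ a, f1 a < 1 := fun a => by
      have := Finset.single_le_sum (f := f1) (fun a _ => n1 a) (Finset.mem_univ a)
      linarith
    have b2 : ∀ q, f2 q < 1 := fun q => by
      have := Finset.single_le_sum (f := f2) (fun a _ => n2 a) (Finset.mem_univ q)
      linarith
    have c1 : ∀ a, A (t a) (v a) ≠ 1 ∧ u a ≠ o ∧ v a ≠ o := by
      intro a
      have := b1 a
      simp only [hf1] at this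
      refine ⟨fun h => ?_, fun h => ?_, fun h => ?_⟩ <;> rw [if_pos h] at this <;> split_ifs at this <;> linarith
    have c2 : ∀ a a', u a' ≠ t a ∧ v a' ≠ t a ∧ (a ≠ a' → u a' ≠ u a ∧ v a' ≠ v a ∧ v a' ≠ u a) := by
      intro a a'
      have := b2 (a, a')
      simp only [hf2] at this
      refine ⟨fun h => ?_, fun h => ?_, fun hne => ⟨fun h => ?_, fun h => ?_, fun h => ?_⟩⟩
      · rw [if_pos h] at this; split_ifs at this <;> linarith
      · rw [if_pos h] at this; split_ifs at this <;> linarith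
      · rw [if_pos hne, if_pos hne, if_pos hne, if_pos h] at this; split_ifs at this <;> linarith
      · rw [if_pos hne, if_pos hne, if_pos hne, if_pos h] at this; split_ifs at this <;> linarith
      · rw [if_pos hne, if_pos hne, if_pos hne, if_pos h] at this; split_ifs at this <;> linarith
    refine hV ⟨hE.ot, huv, fun a => ?_, fun a => (hA.zo _ _).resolve_right (c1 a).1, hE.en, hE.ti, fun a a' h => ?_, fun a a' h => ?_,
      t2en_ne hA hE, fun a => (c1 a).2.1, fun a => (c1 a).2.2, fun a a' h => (c2 a a').1 h.symm, fun a a' h => (c2 a a').2.1 h.symm, fun a a' h => ?_⟩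
    · refine (hA.zo _ _).resolve_right fun h1 => ?_
      obtain ⟨a', ha'⟩ := hE.en _ h1
      exact (c2 a' a).1 ha'.symm
    · by_contra hne
      exact ((c2 a a').2.2 hne).1 h.symm
    · by_contra hne
      exact ((c2 a a').2.2 hne).2.1 h.symm
    · by_cases hne : a = a'
      · subst hne
        have := huv a
        simp only at h
        rw [← h, hA.diag] at this
        norm_num at this
      · exact ((c2 a a').2.2 hne).2.2 h.symm

open Classical in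
/-- **invalid marks are rare**: mass `≤ 8 d² d!` out of `n d!`.
PLAN: under the weight (`T2En A o t`, all `A (u a) (v a) = 1`) a mark is invalid only if for some `a, a'`: `A (t a) (v a) = 1`, `u a = o`, `v a = o`, `t a = u a'`, `t a = v a'`, or (`a ≠ a'`) `u a = u a'`, `v a = v a'`, `u a = v a'`
(`A o (u a) = 1` is the case `t a' = u a`; `u a = v a` contradicts the zero diagonal; `t a ≠ o` is `t2en_ne`).   Union bound + `t2x_far1` / `t2x_far2`: each event with one far edge has mass `≤ d!·n·d/(n d)·..`: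
`[A (t a) (v a) = 1]`: `d! n d²/(n d)`... (use `f o x y` after summing over `t`: bound `[A (t a) y = 1] ≤ ∑_s A o s A s y`), the others `d! n · d/(n d)`; two far edges: `n d! · n d²/(n d)²`.   Total `≤ d! (d² + 2 d + 2 d² ... ) ≤ 8 d² d!`. -/
theorem t2x_inval {A : Matrix V V ℝ} {d : ℕ} (hA : T2Reg A d) (hd : 0 < d) (hc : Fintype.card ι = d) :
    t2Ex A d (fun m : T2Mk V ι => if T2ValM A m then 0 else 1) ≤ 8 * (d : ℝ) ^ 3 * d.factorial := by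
  rcases isEmpty_or_nonempty V with hV | hV
  · have : t2Ex A d (fun m : T2Mk V ι => if T2ValM A m then (0 : ℝ) else 1) = 0 := by
      unfold t2Ex
      exact Finset.sum_eq_zero fun o _ => (hV.false o).elim
    rw [this]
    positivity
  have hn : (0 : ℝ) < Fintype.card V := by exact_mod_cast Fintype.card_pos
  have hd1 : (1 : ℝ) ≤ d := by exact_mod_cast hd
  have hf : (0 : ℝ) < d.factorial := by exact_mod_cast d.factorial_pos
  refine (t2x_mono_w hA (f' := fun m : T2Mk V ι =>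
      ∑ a, ((if A (m.2.1 a) (m.2.2.2 a) = 1 then (1 : ℝ) else 0) + (if m.2.2.1 a = m.1 then 1 else 0) + (if m.2.2.2 a = m.1 then 1 else 0))
        + ∑ q : ι × ι, ((if m.2.2.1 q.2 = m.2.1 q.1 then (1 : ℝ) else 0) + (if m.2.2.2 q.2 = m.2.1 q.1 then 1 else 0)
            + (if q.1 ≠ q.2 then (if m.2.2.1 q.2 = m.2.2.1 q.1 then 1 else 0) else 0) + (if q.1 ≠ q.2 then (if m.2.2.2 q.2 = m.2.2.2 q.1 then 1 else 0) else 0)
            + (if q.1 ≠ q.2 then (if m.2.2.2 q.2 = m.2.2.1 q.1 then 1 else 0) else 0)))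
      fun o t u v hE huv => t2x_inval_pt hA hE huv).trans ?_
  rw [t2x_add, t2x_sum, t2x_sum]
  have B1 : ∀ a : ι, t2Ex A d (fun m : T2Mk V ι => (if A (m.2.1 a) (m.2.2.2 a) = 1 then (1 : ℝ) else 0) + (if m.2.2.1 a = m.1 then 1 else 0) + (if m.2.2.2 a = m.1 then 1 else 0))
      ≤ ((d : ℝ) + 2) * d.factorial := by
    intro a
    rw [t2x_add, t2x_add]
    have h1 := t2x_far1_le hA hd hc a (fun _ t _ y => if A (t a) y = 1 then (1 : ℝ) else 0) (c := d) fun o t _ => (t2P_pick_nb hA hd (t a)).le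
    have h2 := t2x_far1_le hA hd hc a (fun o _ x _ => if x = o then (1 : ℝ) else 0) (c := 1) fun o t _ => (t2P_pick_l hA hd o).le
    have h3 := t2x_far1_le hA hd hc a (fun o _ _ y => if y = o then (1 : ℝ) else 0) (c := 1) fun o t _ => (t2P_pick_r hA hd o).le
    linarith
  have B2 : ∀ q : ι × ι, t2Ex A d (fun m : T2Mk V ι => (if m.2.2.1 q.2 = m.2.1 q.1 then (1 : ℝ) else 0) + (if m.2.2.2 q.2 = m.2.1 q.1 then 1 else 0)
            + (if q.1 ≠ q.2 then (if m.2.2.1 q.2 = m.2.2.1 q.1 then 1 else 0) else 0) + (if q.1 ≠ q.2 then (if m.2.2.2 q.2 = m.2.2.2 q.1 then 1 else 0) else 0)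
            + (if q.1 ≠ q.2 then (if m.2.2.2 q.2 = m.2.2.1 q.1 then 1 else 0) else 0))
      ≤ 5 * d.factorial := by
    intro q
    rw [t2x_add, t2x_add, t2x_add, t2x_add]
    have h1 := t2x_far1_le hA hd hc q.2 (fun _ t x _ => if x = t q.1 then (1 : ℝ) else 0) (c := 1) fun o t _ => (t2P_pick_l hA hd (t q.1)).le
    have h2 := t2x_far1_le hA hd hc q.2 (fun _ t _ y => if y = t q.1 then (1 : ℝ) else 0) (c := 1) fun o t _ => (t2P_pick_r hA hd (t q.1)).le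
    have h3 := t2x_far2_le hA hd hc q.1 q.2 (fun x _ x' _ => if x' = x then (1 : ℝ) else 0) fun x _ => t2P_pick_l hA hd x
    have h4 := t2x_far2_le hA hd hc q.1 q.2 (fun _ y _ y' => if y' = y then (1 : ℝ) else 0) fun _ y => t2P_pick_r hA hd y
    have h5 := t2x_far2_le hA hd hc q.1 q.2 (fun x _ _ y' => if y' = x then (1 : ℝ) else 0) fun x _ => t2P_pick_r hA hd x
    linarith
  have C1 := Finset.sum_le_sum fun a (_ : a ∈ (Finset.univ : Finset ι)) => B1 a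
  have C2 := Finset.sum_le_sum fun q (_ : q ∈ (Finset.univ : Finset (ι × ι))) => B2 q
  simp only [Finset.sum_const, Finset.card_univ, Fintype.card_prod, hc, nsmul_eq_mul, Nat.cast_mul] at C1 C2
  refine (add_le_add C1 C2).trans ?_
  have : (d : ℝ) * ((d : ℝ) + 2) + d * d * 5 ≤ 8 * (d : ℝ) ^ 3 := by nlinarith [mul_nonneg (sub_nonneg.2 hd1) (sub_nonneg.2 hd1), mul_self_nonneg (d : ℝ)]
  calc (d : ℝ) * (((d : ℝ) + 2) * d.factorial) + d * d * (5 * d.factorial) = ((d : ℝ) * ((d : ℝ) + 2) + d * d * 5) * d.factorial := by ring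
    _ ≤ 8 * (d : ℝ) ^ 3 * d.factorial := mul_le_mul_of_nonneg_right this hf.le

/-- Cauchy-Schwarz for two blocks -/
theorem t2_cs_two {X Y p q SX SY : ℝ} (hp : 0 ≤ p) (hq : 0 ≤ q) (hSX : 0 ≤ SX) (hSY : 0 ≤ SY) (hX : X ^ 2 ≤ p * SX) (hY : Y ^ 2 ≤ q * SY) :
    (X + Y) ^ 2 ≤ (p + q) * (SX + SY) := by
  have hW : 0 ≤ p * SY + q * SX := by positivity
  have h2 : 2 * (X * Y) ≤ p * SY + q * SX := by
    by_contra hlt
    push Not at hlt
    have h3 : (p * SY + q * SX) ^ 2 < (2 * (X * Y)) ^ 2 := pow_lt_pow_left₀ hlt hW (by norm_num)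
    have h4 : X ^ 2 * Y ^ 2 ≤ (p * SX) * (q * SY) := mul_le_mul hX hY (sq_nonneg _) (by positivity)
    nlinarith [sq_nonneg (p * SY - q * SX)]
  nlinarith

open Classical in
/-- the closed star of a vertex has `d + 1` elements -/
theorem t2_star_card {A : Matrix V V ℝ} {d : ℕ} (hA : T2Reg A d) (o : V) :
    (((Finset.univ : Finset V).filter fun s => s = o ∨ A o s = 1).card : ℝ) = d + 1 := by
  rw [← hA.row o, ← Finset.sum_boole]
  have e : ∀ s, (if s = o ∨ A o s = 1 then (1 : ℝ) else 0) = A o s + if s = o then 1 else 0 := by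
    intro s
    by_cases hs : s = o
    · subst hs
      simp [hA.diag]
    · rcases hA.zo o s with h | h <;> simp [hs, h]
  simp only [e, Finset.sum_add_distrib]
  simp

open Classical in
theorem t2_star_card' {A : Matrix V V ℝ} {d : ℕ} (hA : T2Reg A d) (s : V) :
    ∑ o, (if s = o ∨ A o s = 1 then (1 : ℝ) else 0) = d + 1 := by
  rw [← t2_star_card hA s, ← Finset.sum_boole]
  refine Finset.sum_congr rfl fun o _ => ?_
  have := congrFun (congrFun hA.herm o) s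
  rw [Matrix.conjTranspose_apply, star_trivial] at this
  rw [this]
  simp only [eq_comm]

/-- the sum of squares which dominates `t2Er²`: star part -/
def t2ErX (A : Matrix V V ℝ) (z : ℂ) (o x y : V) : ℝ :=
  ∑ s, (if s = o ∨ A o s = 1 then ‖rsG A z x s‖ ^ 2 + ‖rsG A z y s‖ ^ 2 else 0)

/-- far part -/
def t2ErY (A : Matrix V V ℝ) (z : ℂ) (x y x' y' : V) : ℝ :=
  ‖rsG A z x x'‖ ^ 2 + ‖rsG A z x y'‖ ^ 2 + ‖rsG A z y x'‖ ^ 2 + ‖rsG A z y y'‖ ^ 2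

theorem t2ErXY_eqns_cite : True := by
  have := @t2ErX.eq_1
  have := @t2ErY.eq_1
  trivial

/-- pointwise Cauchy-Schwarz for `t2Er` -/
theorem t2Er_sq_le {A : Matrix V V ℝ} {d : ℕ} (hA : T2Reg A d) (hd : 0 < d) (hc : Fintype.card ι = d) (z : ℂ) (o : V) (u v : ι → V) (a : ι) :
    t2Er A z o u v a ^ 2 ≤ 6 * (d : ℝ) * (t2ErX A z o (u a) (v a) + ∑ a', (if a ≠ a' then t2ErY A z (u a) (v a) (u a') (v a') else 0)) := by
  classical
  have hd1 : (1 : ℝ) ≤ d := by exact_mod_cast hd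
  have hdp : (0 : ℝ) ≤ (d : ℝ) + 1 := by positivity
  have hdm : (0 : ℝ) ≤ (d : ℝ) - 1 := by linarith
  have hSX : 0 ≤ t2ErX A z o (u a) (v a) := by
    unfold t2ErX
    exact Finset.sum_nonneg fun s _ => by split_ifs <;> positivity
  have hSY : 0 ≤ ∑ a', (if a ≠ a' then t2ErY A z (u a) (v a) (u a') (v a') else 0) := by
    unfold t2ErY
    exact Finset.sum_nonneg fun s _ => by split_ifs <;> positivity
  have hX : (∑ s, (if s = o ∨ A o s = 1 then ‖rsG A z (u a) s‖ + ‖rsG A z (v a) s‖ else 0)) ^ 2 ≤ (2 * ((d : ℝ) + 1)) * t2ErX A z o (u a) (v a) := by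
    unfold t2ErX
    rw [← Finset.sum_filter, ← Finset.sum_filter]
    refine (sq_sum_le_card_mul_sum_sq).trans ?_
    rw [t2_star_card hA o, mul_comm 2, mul_assoc, Finset.mul_sum (a := (2 : ℝ))]
    refine mul_le_mul_of_nonneg_left (Finset.sum_le_sum fun s _ => ?_) hdp
    nlinarith [sq_nonneg (‖rsG A z (u a) s‖ - ‖rsG A z (v a) s‖)]
  have hcard : (((Finset.univ : Finset ι).filter fun a' => a ≠ a').card : ℝ) = d - 1 := by
    have : (Finset.univ : Finset ι).filter (fun a' => a ≠ a') = Finset.univ.erase a := by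
      ext a'; simp [eq_comm]
    rw [this, Finset.card_erase_of_mem (Finset.mem_univ a), Finset.card_univ, hc, Nat.cast_sub hd]
    simp
  have hY : (∑ a', (if a' = a then 0 else ‖rsG A z (u a) (u a')‖ + ‖rsG A z (u a) (v a')‖ + ‖rsG A z (v a) (u a')‖ + ‖rsG A z (v a) (v a')‖)) ^ 2
      ≤ (4 * ((d : ℝ) - 1)) * ∑ a', (if a ≠ a' then t2ErY A z (u a) (v a) (u a') (v a') else 0) := by
    have e : ∀ a', (if a' = a then 0 else ‖rsG A z (u a) (u a')‖ + ‖rsG A z (u a) (v a')‖ + ‖rsG A z (v a) (u a')‖ + ‖rsG A z (v a) (v a')‖)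
        = if a ≠ a' then ‖rsG A z (u a) (u a')‖ + ‖rsG A z (u a) (v a')‖ + ‖rsG A z (v a) (u a')‖ + ‖rsG A z (v a) (v a')‖ else 0 := by
      intro a'
      by_cases h : a' = a
      · simp [h]
      · simp [h, Ne.symm h]
    simp only [e]
    unfold t2ErY
    rw [← Finset.sum_filter, ← Finset.sum_filter]
    refine (sq_sum_le_card_mul_sum_sq).trans ?_
    rw [hcard, mul_comm 4, mul_assoc, Finset.mul_sum (a := (4 : ℝ))]
    refine mul_le_mul_of_nonneg_left (Finset.sum_le_sum fun s _ => ?_) hdm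
    generalize ‖rsG A z (u a) (u s)‖ = α
    generalize ‖rsG A z (u a) (v s)‖ = β
    generalize ‖rsG A z (v a) (u s)‖ = γ
    generalize ‖rsG A z (v a) (v s)‖ = δ
    nlinarith [sq_nonneg (α - β), sq_nonneg (α - γ), sq_nonneg (α - δ), sq_nonneg (β - γ), sq_nonneg (β - δ), sq_nonneg (γ - δ)]
  have h := t2_cs_two (by positivity) (by linarith) hSX hSY hX hY
  unfold t2Er
  refine h.trans ?_
  refine mul_le_mul_of_nonneg_right (by linarith) (add_nonneg hSX hSY)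

theorem t2P_fun_l {A : Matrix V V ℝ} {d : ℕ} (hA : T2Reg A d) (hd : 0 < d) (g : V → ℝ) :
    ∑ x, ∑ y, t2P A d x y * g x = (∑ x, g x) / Fintype.card V := by
  simp only [← Finset.sum_mul, t2P_row hA hd]
  rw [← Finset.mul_sum]
  ring

theorem t2P_fun_r {A : Matrix V V ℝ} {d : ℕ} (hA : T2Reg A d) (hd : 0 < d) (g : V → ℝ) :
    ∑ x, ∑ y, t2P A d x y * g y = (∑ x, g x) / Fintype.card V := by
  rw [Finset.sum_comm]
  simp only [← Finset.sum_mul, t2P_col hA hd]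
  rw [← Finset.mul_sum]
  ring

/-- **Ward for sampled marks**.   PLAN: Cauchy-Schwarz `(t2Er ..)² ≤ 6 d ∑ squares` (at most `2 (d+1) + 4 (d-1)` non-zero terms: `#{s | s = o ∨ A o s = 1} = d + 1`);
star part: `t2x_far1` with `f o x y = ∑_s [s = o ∨ A o s = 1] (‖G x s‖² + ‖G y s‖²)`, `∑_o [s = o ∨ A o s = 1] = d + 1`, `rs_ward`, `Im G ≤ C0`, `t2P_sum`;
far part: `t2x_far2`, `∑_y t2P x y = 1/n` (`t2P_row`), `rs_ward`. -/
theorem t2x_ward {A : Matrix V V ℝ} {d : ℕ} (hA : T2Reg A d) (hd : 0 < d) (hc : Fintype.card ι = d) {z : ℂ} (hz : 0 < z.im) {C0 : ℝ} (hC0 : 0 ≤ C0)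
    (hbd : ∀ x y, ‖rsG A z x y‖ ≤ C0) (a : ι) :
    t2Ex A d (fun m : T2Mk V ι => t2Er A z m.1 m.2.2.1 m.2.2.2 a ^ 2) ≤ 36 * (d : ℝ) ^ 2 * d.factorial * C0 / z.im := by
  classical
  rcases isEmpty_or_nonempty V with hV | hV
  · have : t2Ex A d (fun m : T2Mk V ι => t2Er A z m.1 m.2.2.1 m.2.2.2 a ^ 2) = 0 := by
      unfold t2Ex
      exact Finset.sum_eq_zero fun o _ => (hV.false o).elim
    rw [this]
    positivity
  have hn : (0 : ℝ) < Fintype.card V := by exact_mod_cast Fintype.card_pos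
  have hd1 : (1 : ℝ) ≤ d := by exact_mod_cast hd
  have hf : (0 : ℝ) < d.factorial := by exact_mod_cast d.factorial_pos
  set K : ℝ := C0 / z.im with hK
  have hK0 : 0 ≤ K := by positivity
  have hW : ∀ x, ∑ s, ‖rsG A z x s‖ ^ 2 ≤ K := by
    intro x
    rw [rs_ward hA.herm hz.ne' x, hK]
    exact div_le_div_of_nonneg_right (((le_abs_self _).trans (Complex.abs_im_le_norm _)).trans (hbd x x)) hz.le
  -- star part
  have hA1 : t2Ex A d (fun m : T2Mk V ι => t2ErX A z m.1 (m.2.2.1 a) (m.2.2.2 a)) ≤ d.factorial * (2 * ((d : ℝ) + 1) * K) := by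
    rw [t2x_far1 hA hd hc a (fun o x y => t2ErX A z o x y)]
    refine mul_le_mul_of_nonneg_left ?_ hf.le
    have e1 : ∀ x y, ∑ o, t2ErX A z o x y = ((d : ℝ) + 1) * (∑ s, ‖rsG A z x s‖ ^ 2 + ∑ s, ‖rsG A z y s‖ ^ 2) := by
      intro x y
      unfold t2ErX
      rw [Finset.sum_comm, ← Finset.sum_add_distrib, Finset.mul_sum]
      refine Finset.sum_congr rfl fun s _ => ?_
      rw [← t2_star_card' hA s, Finset.sum_mul]
      exact Finset.sum_congr rfl fun o _ => by split_ifs <;> simp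
    calc ∑ o, ∑ x, ∑ y, t2P A d x y * t2ErX A z o x y = ∑ x, ∑ y, t2P A d x y * ∑ o, t2ErX A z o x y := by
          simp only [Finset.mul_sum]
          exact Finset.sum_comm.trans (Finset.sum_congr rfl fun x _ => Finset.sum_comm)
      _ ≤ ∑ x, ∑ y, t2P A d x y * (2 * ((d : ℝ) + 1) * K) := by
          refine Finset.sum_le_sum fun x _ => Finset.sum_le_sum fun y _ => mul_le_mul_of_nonneg_left ?_ (t2P_nonneg hA x y)
          rw [e1]
          have := hW x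
          have := hW y
          nlinarith
      _ = 2 * ((d : ℝ) + 1) * K := by
          simp only [← Finset.sum_mul, t2P_sum hA hd, one_mul]
  -- far part
  have hB1 : ∀ a', t2Ex A d (fun m : T2Mk V ι => if a ≠ a' then t2ErY A z (m.2.2.1 a) (m.2.2.2 a) (m.2.2.1 a') (m.2.2.2 a') else 0)
      ≤ if a ≠ a' then d.factorial * (4 * K) else 0 := by
    intro a'
    by_cases hne : a ≠ a'
    · simp only [if_pos hne]
      rw [t2x_far2 hA hd hc hne (fun x y x' y' => t2ErY A z x y x' y')]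
      have e2 : ∀ x y, ∑ x', ∑ y', t2P A d x' y' * t2ErY A z x y x' y' ≤ 4 * K / Fintype.card V := by
        intro x y
        unfold t2ErY
        simp only [mul_add, Finset.sum_add_distrib]
        rw [t2P_fun_l hA hd (fun x' => ‖rsG A z x x'‖ ^ 2), t2P_fun_r hA hd (fun y' => ‖rsG A z x y'‖ ^ 2),
          t2P_fun_l hA hd (fun x' => ‖rsG A z y x'‖ ^ 2), t2P_fun_r hA hd (fun y' => ‖rsG A z y y'‖ ^ 2), ← add_div, ← add_div, ← add_div]
        refine div_le_div_of_nonneg_right ?_ hn.le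
        have := hW x
        have := hW y
        linarith
      have e3 : ∑ x, ∑ y, ∑ x', ∑ y', t2P A d x y * t2P A d x' y' * t2ErY A z x y x' y' ≤ 4 * K / Fintype.card V := by
        calc ∑ x, ∑ y, ∑ x', ∑ y', t2P A d x y * t2P A d x' y' * t2ErY A z x y x' y'
            = ∑ x, ∑ y, t2P A d x y * ∑ x', ∑ y', t2P A d x' y' * t2ErY A z x y x' y' := by
              refine Finset.sum_congr rfl fun x _ => Finset.sum_congr rfl fun y _ => ?_
              rw [Finset.mul_sum]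
              refine Finset.sum_congr rfl fun x' _ => ?_
              rw [Finset.mul_sum]
              exact Finset.sum_congr rfl fun y' _ => by ring
          _ ≤ ∑ x, ∑ y, t2P A d x y * (4 * K / Fintype.card V) :=
              Finset.sum_le_sum fun x _ => Finset.sum_le_sum fun y _ => mul_le_mul_of_nonneg_left (e2 x y) (t2P_nonneg hA x y)
          _ = 4 * K / Fintype.card V := by
              simp only [← Finset.sum_mul, t2P_sum hA hd, one_mul]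
      calc (Fintype.card V : ℝ) * d.factorial * ∑ x, ∑ y, ∑ x', ∑ y', t2P A d x y * t2P A d x' y' * t2ErY A z x y x' y'
          ≤ (Fintype.card V : ℝ) * d.factorial * (4 * K / Fintype.card V) := mul_le_mul_of_nonneg_left e3 (by positivity)
        _ = d.factorial * (4 * K) := by field_simp
    · simp only [if_neg hne]
      have := t2x_smul A d 0 (fun _ : T2Mk V ι => (0 : ℝ))
      simp only [mul_zero, zero_mul] at this
      exact this.le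
  have hcard : (((Finset.univ : Finset ι).filter fun a' => a ≠ a').card : ℝ) = d - 1 := by
    have : (Finset.univ : Finset ι).filter (fun a' => a ≠ a') = Finset.univ.erase a := by
      ext a'; simp [eq_comm]
    rw [this, Finset.card_erase_of_mem (Finset.mem_univ a), Finset.card_univ, hc, Nat.cast_sub hd]
    simp
  have hB2 : ∑ a', t2Ex A d (fun m : T2Mk V ι => if a ≠ a' then t2ErY A z (m.2.2.1 a) (m.2.2.2 a) (m.2.2.1 a') (m.2.2.2 a') else 0)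
      ≤ ((d : ℝ) - 1) * (d.factorial * (4 * K)) := by
    refine (Finset.sum_le_sum fun a' _ => hB1 a').trans ?_
    rw [← Finset.sum_filter, Finset.sum_const, nsmul_eq_mul, hcard]
  calc t2Ex A d (fun m : T2Mk V ι => t2Er A z m.1 m.2.2.1 m.2.2.2 a ^ 2)
      ≤ t2Ex A d (fun m : T2Mk V ι => 6 * (d : ℝ) * (t2ErX A z m.1 (m.2.2.1 a) (m.2.2.2 a)
          + ∑ a', (if a ≠ a' then t2ErY A z (m.2.2.1 a) (m.2.2.2 a) (m.2.2.1 a') (m.2.2.2 a') else 0))) :=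
        t2x_mono hA fun m => t2Er_sq_le hA hd hc z m.1 m.2.2.1 m.2.2.2 a
    _ = 6 * (d : ℝ) * (t2Ex A d (fun m : T2Mk V ι => t2ErX A z m.1 (m.2.2.1 a) (m.2.2.2 a))
          + ∑ a', t2Ex A d (fun m : T2Mk V ι => if a ≠ a' then t2ErY A z (m.2.2.1 a) (m.2.2.2 a) (m.2.2.1 a') (m.2.2.2 a') else 0)) := by
        rw [t2x_smul, t2x_add, t2x_sum]
    _ ≤ 6 * (d : ℝ) * (d.factorial * (2 * ((d : ℝ) + 1) * K) + ((d : ℝ) - 1) * (d.factorial * (4 * K))) :=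
        mul_le_mul_of_nonneg_left (add_le_add hA1 hB2) (by positivity)
    _ = 6 * (d : ℝ) * (6 * (d : ℝ) - 2) * (d.factorial * K) := by ring
    _ ≤ 6 * (d : ℝ) * (6 * (d : ℝ)) * (d.factorial * K) := by
        refine mul_le_mul_of_nonneg_right ?_ (by positivity)
        exact mul_le_mul_of_nonneg_left (by linarith) (by positivity)
    _ = 36 * (d : ℝ) ^ 2 * d.factorial * C0 / z.im := by
        rw [hK]; ring

/-! ## 12. the weighted ensemble -/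

/-- the data: the set of matrices, the weight `Θ`, the good (tree-like) oriented edges -/
structure T2Ens (V : Type) [Fintype V] [DecidableEq V] where
  M : Finset (Matrix V V ℝ)
  Θ : Matrix V V ℝ → ℝ
  Gd : Matrix V V ℝ → V → V → Prop

/-- the hypotheses: `M` = all `d`-regular adjacency matrices; `0 ≤ Θ ≤ 1`; on `{Θ > 0}` all entries of `G` are bounded and the good edges are good in the cavity sense -/
structure T2Hyp (𝓔 : T2Ens V) (b : ℕ) (z g : ℂ) (C0 κ : ℝ) : Prop where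
  mem : ∀ A, A ∈ 𝓔.M ↔ T2Reg A (b + 1)
  c0 : 0 ≤ C0
  th0 : ∀ A, 0 ≤ 𝓔.Θ A
  th1 : ∀ A, 𝓔.Θ A ≤ 1
  gs : ∀ A x y, 𝓔.Gd A x y → 𝓔.Gd A y x
  bd : ∀ A ∈ 𝓔.M, 0 < 𝓔.Θ A → ∀ x y, ‖rsG A z x y‖ ≤ C0
  gd : ∀ A ∈ 𝓔.M, 0 < 𝓔.Θ A → ∀ x y, 𝓔.Gd A x y → T2Good A z g κ x y

open Classical in
/-- `ξ~_(x,y) = (X_(x,y) - g) 1[good]` -/
def T2Ens.xi (𝓔 : T2Ens V) (z g : ℂ) (A : Matrix V V ℝ) (x y : V) : ℂ := if 𝓔.Gd A x y then t2X A z x y - g else 0
open Classical in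
/-- `Y~_(x,y) = Y_(x,y) 1[good]` -/
def T2Ens.yy (𝓔 : T2Ens V) (z : ℂ) (A : Matrix V V ℝ) (x y : V) : ℂ := if 𝓔.Gd A x y then t2Y A z x y else 0
/-- `∑_e |ξ~_e|²` -/
def T2Ens.S2 (𝓔 : T2Ens V) (z g : ℂ) (A : Matrix V V ℝ) : ℝ := ∑ x, ∑ y, A x y * ‖𝓔.xi z g A x y‖ ^ 2
/-- `∑_e |Y~_e|²` -/
def T2Ens.SY (𝓔 : T2Ens V) (z : ℂ) (A : Matrix V V ℝ) : ℝ := ∑ x, ∑ y, A x y * ‖𝓔.yy z A x y‖ ^ 2
/-- `∑_e ξ~_e` -/
def T2Ens.S1 (𝓔 : T2Ens V) (z g : ℂ) (A : Matrix V V ℝ) : ℂ := ∑ x, ∑ y, (A x y : ℂ) * 𝓔.xi z g A x y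
open Classical in
/-- the number of oriented edges which are not good -/
def T2Ens.NB (𝓔 : T2Ens V) (A : Matrix V V ℝ) : ℝ := ∑ x, ∑ y, A x y * (if 𝓔.Gd A x y then 0 else 1)
open Classical in
/-- **the instability of the weight under the switch** (mass `n d!` per matrix) -/
def T2Ens.Eps (𝓔 : T2Ens V) (ι : Type) [Fintype ι] [DecidableEq ι] (d : ℕ) : ℝ :=
  ∑ A ∈ 𝓔.M, t2Ex A d (fun m : T2Mk V ι => if T2ValM A m then |𝓔.Θ (t2SwM A m) - 𝓔.Θ A| else 0)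

theorem t2ens_eqns_cite : True := by
  have := @T2Ens.xi.eq_1
  have := @T2Ens.yy.eq_1
  have := @T2Ens.S2.eq_1
  have := @T2Ens.SY.eq_1
  have := @T2Ens.S1.eq_1
  have := @T2Ens.NB.eq_1
  have := @T2Ens.Eps.eq_1
  trivial

/-- no vertex: the sum over the marks is empty -/
theorem t2x_empty [IsEmpty V] (A : Matrix V V ℝ) (d : ℕ) (f : T2Mk V ι → ℝ) : t2Ex A d f = 0 := by
  classical
  unfold t2Ex
  simp

open Classical in
/-- **exchangeability in the weighted form**.   PLAN: `t2x_val` on both sides of `t2sw_sum` (the factor `(n d)^#ι` is the same and positive, or `V` is empty). -/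
theorem t2x_exch {𝓔 : T2Ens V} {b : ℕ} (hM : ∀ A, A ∈ 𝓔.M ↔ T2Reg A (b + 1)) (F : Matrix V V ℝ → T2Mk V ι → ℝ) :
    ∑ A ∈ 𝓔.M, t2Ex A (b + 1) (fun m : T2Mk V ι => if T2ValM A m then F A m else 0)
      = ∑ A ∈ 𝓔.M, t2Ex A (b + 1) (fun m : T2Mk V ι => if T2ValM A m then F (t2SwM A m) (t2Fl m) else 0) := by
  rcases isEmpty_or_nonempty V with hV | hV
  · simp only [t2x_empty]
  · have hc : ((Fintype.card V : ℝ) * ((b + 1 : ℕ) : ℝ)) ^ Fintype.card ι ≠ 0 := by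
      have h1 : (0 : ℝ) < Fintype.card V := by exact_mod_cast Fintype.card_pos
      positivity
    refine mul_left_cancel₀ hc ?_
    rw [Finset.mul_sum, Finset.mul_sum]
    simp only [← t2x_val _ (Nat.succ_pos b)]
    exact t2sw_sum 𝓔.M (b + 1) hM F

theorem t2x_zero (A : Matrix V V ℝ) (d : ℕ) : t2Ex A d (fun _ : T2Mk V ι => (0 : ℝ)) = 0 := by
  have := t2x_smul A d 0 (fun _ : T2Mk V ι => (0 : ℝ))
  simpa using this

/-- Ward on the support of the weight -/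
theorem t2e_ward_w {𝓔 : T2Ens V} {b : ℕ} {z g : ℂ} {C0 κ : ℝ} (h : T2Hyp 𝓔 b z g C0 κ) (hz : 0 < z.im) (hc : Fintype.card ι = b + 1)
    {A : Matrix V V ℝ} (hA : A ∈ 𝓔.M) (a : ι) :
    t2Ex A (b + 1) (fun m : T2Mk V ι => if 0 < 𝓔.Θ A then t2Er A z m.1 m.2.2.1 m.2.2.2 a ^ 2 else 0)
      ≤ 36 * ((b : ℝ) + 1) ^ 2 * (b + 1).factorial * C0 / z.im := by
  by_cases hΘ : 0 < 𝓔.Θ A
  · simp only [hΘ, if_true]
    have := t2x_ward (ι := ι) ((h.mem A).1 hA) (Nat.succ_pos b) hc hz h.c0 (h.bd A hA hΘ) a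
    push_cast at this
    exact this
  · simp only [hΘ, if_false]
    rw [t2x_zero]
    have := h.c0
    positivity

/-- the square of the cross functional -/
theorem t2Et_sq_le (A : Matrix V V ℝ) (z : ℂ) (o : V) (t u v : ι → V) :
    t2Et A z o t u v ^ 2 ≤ ∑ a, 2 * (Fintype.card ι : ℝ) * (t2Er A z o u v a ^ 2 + t2Er (t2Sw A o t u v) z o t v a ^ 2) := by
  unfold t2Et
  have h := sq_sum_le_card_mul_sum_sq (s := (Finset.univ : Finset ι)) (f := fun a => t2Er A z o u v a + t2Er (t2Sw A o t u v) z o t v a)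
  rw [Finset.card_univ] at h
  refine h.trans ?_
  rw [Finset.mul_sum]
  refine Finset.sum_le_sum fun a _ => ?_
  have hc : (0 : ℝ) ≤ Fintype.card ι := Nat.cast_nonneg _
  have : (t2Er A z o u v a + t2Er (t2Sw A o t u v) z o t v a) ^ 2 ≤ 2 * (t2Er A z o u v a ^ 2 + t2Er (t2Sw A o t u v) z o t v a ^ 2) := by
    nlinarith [sq_nonneg (t2Er A z o u v a - t2Er (t2Sw A o t u v) z o t v a)]
  calc (Fintype.card ι : ℝ) * (t2Er A z o u v a + t2Er (t2Sw A o t u v) z o t v a) ^ 2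
      ≤ (Fintype.card ι : ℝ) * (2 * (t2Er A z o u v a ^ 2 + t2Er (t2Sw A o t u v) z o t v a ^ 2)) := mul_le_mul_of_nonneg_left this hc
    _ = _ := by ring

open Classical in
/-- the cross functional, summed: both halves are controlled by Ward (the second one after the exchange).
PLAN: `t2Et² ≤ 2 d ∑_a (Er_a² + Er^_a²)`; first half: drop `[Val]` and `[0 < Θ A^]`, `t2x_ward` on `{0 < Θ A}` (`h.bd`); second half: `t2x_exch` with `F A m = [0 < Θ A] (t2Er A z m.1 m.2.2.1 m.2.2.2 a)²`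
(note `t2Er (t2SwM A m) z o t v a` is `t2Er` of the switched matrix with the flipped marks), then the same. -/
theorem t2e_cross {𝓔 : T2Ens V} {b : ℕ} {z g : ℂ} {C0 κ : ℝ} (h : T2Hyp 𝓔 b z g C0 κ) (hz : 0 < z.im) (hc : Fintype.card ι = b + 1) :
    ∑ A ∈ 𝓔.M, t2Ex A (b + 1) (fun m : T2Mk V ι => if T2ValM A m ∧ 0 < 𝓔.Θ A ∧ 0 < 𝓔.Θ (t2SwM A m) then t2Et A z m.1 m.2.1 m.2.2.1 m.2.2.2 ^ 2 else 0)
      ≤ 144 * ((b : ℝ) + 1) ^ 4 * (b + 1).factorial * C0 / z.im * 𝓔.M.card := by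
  set W : ℝ := 36 * ((b : ℝ) + 1) ^ 2 * (b + 1).factorial * C0 / z.im with hW
  have hcr : (Fintype.card ι : ℝ) = (b : ℝ) + 1 := by rw [hc]; push_cast; ring
  -- the test function of the exchange
  set F : ι → Matrix V V ℝ → T2Mk V ι → ℝ := fun a A m => if 0 < 𝓔.Θ A then t2Er A z m.1 m.2.2.1 m.2.2.2 a ^ 2 else 0 with hF
  have hF0 : ∀ a A m, 0 ≤ F a A m := by
    intro a A m
    simp only [hF]
    split_ifs <;> positivity
  have hreg : ∀ A ∈ 𝓔.M, T2Reg A (b + 1) := fun A hA => (h.mem A).1 hA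
  -- the sum of `[Val] F` is bounded by Ward
  have k1 : ∀ a, ∑ A ∈ 𝓔.M, t2Ex A (b + 1) (fun m : T2Mk V ι => if T2ValM A m then F a A m else 0) ≤ W * 𝓔.M.card := by
    intro a
    calc _ ≤ ∑ _A ∈ 𝓔.M, W := by
          refine Finset.sum_le_sum fun A hA => ?_
          refine (t2x_mono (hreg A hA) fun m => ?_).trans (t2e_ward_w h hz hc hA a)
          split_ifs with h1 h2
          · simp only [hF, h2, if_true]; exact le_rfl
          · simp only [hF, h2, if_false]; exact le_rfl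
          · positivity
          · exact le_rfl
      _ = W * 𝓔.M.card := by rw [Finset.sum_const, nsmul_eq_mul, mul_comm]
  have k2 : ∀ a, ∑ A ∈ 𝓔.M, t2Ex A (b + 1) (fun m : T2Mk V ι => if T2ValM A m then F a (t2SwM A m) (t2Fl m) else 0) ≤ W * 𝓔.M.card := by
    intro a
    rw [← t2x_exch h.mem (F a)]
    exact k1 a
  -- pointwise
  have hpt : ∀ (A : Matrix V V ℝ) (m : T2Mk V ι),
      (if T2ValM A m ∧ 0 < 𝓔.Θ A ∧ 0 < 𝓔.Θ (t2SwM A m) then t2Et A z m.1 m.2.1 m.2.2.1 m.2.2.2 ^ 2 else 0)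
        ≤ ∑ a, (2 * ((b : ℝ) + 1)) * ((if T2ValM A m then F a A m else 0) + (if T2ValM A m then F a (t2SwM A m) (t2Fl m) else 0)) := by
    intro A m
    by_cases h1 : T2ValM A m ∧ 0 < 𝓔.Θ A ∧ 0 < 𝓔.Θ (t2SwM A m)
    · rw [if_pos h1]
      refine (t2Et_sq_le A z m.1 m.2.1 m.2.2.1 m.2.2.2).trans (le_of_eq ?_)
      refine Finset.sum_congr rfl fun a _ => ?_
      simp only [hF, h1.1, h1.2.1, h1.2.2, if_true, hcr]
      rfl
    · rw [if_neg h1]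
      refine Finset.sum_nonneg fun a _ => mul_nonneg (by positivity) (add_nonneg ?_ ?_)
      · by_cases h2 : T2ValM A m
        · rw [if_pos h2]; exact hF0 _ _ _
        · rw [if_neg h2]
      · by_cases h2 : T2ValM A m
        · rw [if_pos h2]; exact hF0 _ _ _
        · rw [if_neg h2]
  calc _ ≤ ∑ A ∈ 𝓔.M, t2Ex A (b + 1) (fun m : T2Mk V ι => ∑ a, (2 * ((b : ℝ) + 1)) * ((if T2ValM A m then F a A m else 0) + (if T2ValM A m then F a (t2SwM A m) (t2Fl m) else 0))) :=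
        Finset.sum_le_sum fun A hA => t2x_mono (hreg A hA) (hpt A)
    _ = ∑ a, (2 * ((b : ℝ) + 1)) * ((∑ A ∈ 𝓔.M, t2Ex A (b + 1) (fun m : T2Mk V ι => if T2ValM A m then F a A m else 0))
          + ∑ A ∈ 𝓔.M, t2Ex A (b + 1) (fun m : T2Mk V ι => if T2ValM A m then F a (t2SwM A m) (t2Fl m) else 0)) := by
        simp only [t2x_sum, t2x_smul, t2x_add]
        rw [Finset.sum_comm]
        refine Finset.sum_congr rfl fun a _ => ?_
        rw [← Finset.mul_sum, Finset.sum_add_distrib]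
    _ ≤ ∑ _a : ι, (2 * ((b : ℝ) + 1)) * (W * 𝓔.M.card + W * 𝓔.M.card) :=
        Finset.sum_le_sum fun a _ => mul_le_mul_of_nonneg_left (add_le_add (k1 a) (k2 a)) (by positivity)
    _ = _ := by
        rw [Finset.sum_const, Finset.card_univ, nsmul_eq_mul, hcr, hW]
        ring

/-- the case analysis common to the three pointwise inequalities -/
theorem t2e_pt_gen {Th TA W B R1 R2 nb : ℝ} {P : Prop} (h0 : 0 ≤ Th) (h1 : Th ≤ 1) (a0 : 0 ≤ TA) (a1 : TA ≤ 1) (hW : 0 ≤ W) (hB : 0 ≤ B)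
    (hR1 : 0 ≤ R1) (hR2 : 0 ≤ R2) (hnb : 0 ≤ nb) (hP : ¬ P → 1 ≤ nb) (hWB : 0 < Th → W ≤ B) (hmain : 0 < Th → 0 < TA → P → W ≤ R1 + R2) :
    Th * W ≤ TA * R1 + (if 0 < TA ∧ 0 < Th then R2 else 0) + B * |Th - TA| + B * nb := by
  have e1 : 0 ≤ TA * R1 := mul_nonneg a0 hR1
  have e2 : 0 ≤ (if 0 < TA ∧ 0 < Th then R2 else 0) := by split_ifs <;> [exact hR2; exact le_rfl]
  have e3 : 0 ≤ B * |Th - TA| := mul_nonneg hB (abs_nonneg _)
  have e4 : 0 ≤ B * nb := mul_nonneg hB hnb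
  by_cases c1 : 0 < Th
  · have hw := hWB c1
    by_cases c2 : 0 < TA
    · by_cases c3 : P
      · have hm := hmain c1 c2 c3
        rw [if_pos ⟨c2, c1⟩]
        have k1 : (Th - TA) * W ≤ B * |Th - TA| := by
          calc (Th - TA) * W ≤ |Th - TA| * W := mul_le_mul_of_nonneg_right (le_abs_self _) hW
            _ ≤ |Th - TA| * B := mul_le_mul_of_nonneg_left hw (abs_nonneg _)
            _ = _ := mul_comm _ _
        have k2 : TA * W ≤ TA * R1 + R2 := by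
          calc TA * W ≤ TA * (R1 + R2) := mul_le_mul_of_nonneg_left hm a0
            _ = TA * R1 + TA * R2 := by ring
            _ ≤ TA * R1 + 1 * R2 := by gcongr
            _ = _ := by ring
        nlinarith
      · have k1 : Th * W ≤ B * nb := by
          calc Th * W ≤ 1 * B := mul_le_mul h1 hw hW zero_le_one
            _ = B * 1 := by ring
            _ ≤ B * nb := mul_le_mul_of_nonneg_left (hP c3) hB
        linarith
    · have c2' : TA = 0 := le_antisymm (not_lt.1 c2) a0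
      have k1 : Th * W ≤ B * |Th - TA| := by
        rw [c2', sub_zero, abs_of_nonneg h0, mul_comm B]
        exact mul_le_mul_of_nonneg_left hw h0
      linarith
  · have c1' : Th = 0 := le_antisymm (not_lt.1 c1) h0
    have : Th * W = 0 := by rw [c1', zero_mul]
    linarith

open Classical in
/-- the count of the bad far edges -/
theorem t2e_nb (𝓔 : T2Ens V) (A : Matrix V V ℝ) (m : T2Mk V ι) :
    0 ≤ ∑ a, (if 𝓔.Gd A (m.2.2.1 a) (m.2.2.2 a) then (0 : ℝ) else 1) ∧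
    (¬ (∀ a, 𝓔.Gd A (m.2.2.1 a) (m.2.2.2 a)) → 1 ≤ ∑ a, (if 𝓔.Gd A (m.2.2.1 a) (m.2.2.2 a) then (0 : ℝ) else 1)) := by
  have h0 : ∀ a, 0 ≤ (if 𝓔.Gd A (m.2.2.1 a) (m.2.2.2 a) then (0 : ℝ) else 1) := by
    intro a; split_ifs <;> norm_num
  refine ⟨Finset.sum_nonneg fun a _ => h0 a, fun hn => ?_⟩
  obtain ⟨a, ha⟩ := not_forall.1 hn
  calc (1 : ℝ) = (if 𝓔.Gd A (m.2.2.1 a) (m.2.2.2 a) then (0 : ℝ) else 1) := by rw [if_neg ha]
    _ ≤ _ := Finset.single_le_sum (fun a _ => h0 a) (Finset.mem_univ a)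

/-- the switched matrix is in the ensemble -/
theorem t2e_sw_mem {𝓔 : T2Ens V} {b : ℕ} {z g : ℂ} {C0 κ : ℝ} (h : T2Hyp 𝓔 b z g C0 κ) {A : Matrix V V ℝ} (hA : A ∈ 𝓔.M) {m : T2Mk V ι} (hm : T2ValM A m) :
    t2SwM A m ∈ 𝓔.M := (h.mem _).2 (t2sw_reg ((h.mem A).1 hA) hm)

open Classical in
/-- **pointwise inequality for `Y`, with weights** (valid marks).   PLAN: cases `Θ A^ = 0`; `(o, u a0)` not good in `A^`; `Θ A = 0` (then `Θ A^ = |ΔΘ|`, `|Y^| ≤ κ`); some far edge not good in `A`; else `t2_rec_Y`. -/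
theorem t2e_pt_Y {𝓔 : T2Ens V} {b : ℕ} {z g : ℂ} {cg Z C0 κ co : ℝ} (hp : T2Par b z g cg Z) (h : T2Hyp 𝓔 b z g C0 κ) (hκ0 : 0 ≤ κ) (hκ : κ ≤ 1 / 36)
    (hco : 0 < co) (hco' : co ≤ (‖g‖ - κ) / 2) {A : Matrix V V ℝ} (hA : A ∈ 𝓔.M) {m : T2Mk V ι} (hm : T2ValM A m) (a0 : ι) :
    𝓔.Θ (t2SwM A m) * ‖𝓔.yy z (t2SwM A m) m.1 (m.2.2.1 a0)‖ ^ 2
      ≤ ((‖g‖ + κ) * t2K1 (b + 1) C0 co) ^ 2 * (if T2ValM A m ∧ 0 < 𝓔.Θ A ∧ 0 < 𝓔.Θ (t2SwM A m) then t2Et A z m.1 m.2.1 m.2.2.1 m.2.2.2 ^ 2 else 0)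
        + κ ^ 2 * |𝓔.Θ (t2SwM A m) - 𝓔.Θ A| + κ ^ 2 * ∑ a, (if 𝓔.Gd A (m.2.2.1 a) (m.2.2.2 a) then 0 else 1) := by
  have hA' := t2e_sw_mem h hA hm
  have key := t2e_pt_gen (Th := 𝓔.Θ (t2SwM A m)) (TA := 𝓔.Θ A) (W := ‖𝓔.yy z (t2SwM A m) m.1 (m.2.2.1 a0)‖ ^ 2) (B := κ ^ 2) (R1 := 0)
    (R2 := ((‖g‖ + κ) * t2K1 (b + 1) C0 co) ^ 2 * t2Et A z m.1 m.2.1 m.2.2.1 m.2.2.2 ^ 2)
    (nb := ∑ a, (if 𝓔.Gd A (m.2.2.1 a) (m.2.2.2 a) then (0 : ℝ) else 1)) (P := ∀ a, 𝓔.Gd A (m.2.2.1 a) (m.2.2.2 a))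
    (h.th0 _) (h.th1 _) (h.th0 _) (h.th1 _) (by positivity) (by positivity) le_rfl (by positivity) (t2e_nb 𝓔 A m).1 (t2e_nb 𝓔 A m).2
    (by
      intro hT
      unfold T2Ens.yy
      split_ifs with hg
      · exact pow_le_pow_left₀ (norm_nonneg _) (h.gd _ hA' hT _ _ hg).y 2
      · rw [norm_zero, zero_pow two_ne_zero]; positivity)
    (by
      intro hT hTA hP
      rw [zero_add]
      unfold T2Ens.yy
      split_ifs with hg
      · rw [← mul_pow]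
        refine pow_le_pow_left₀ (norm_nonneg _) ?_ 2
        exact t2_rec_Y hp ((h.mem A).1 hA) hm hκ (h.bd A hA hTA) (h.bd _ hA' hT) hco hco' (fun a => h.gd A hA hTA _ _ (hP a)) a0 (h.gd _ hA' hT _ _ hg)
      · rw [norm_zero, zero_pow two_ne_zero]; positivity)
  refine key.trans (le_of_eq ?_)
  by_cases c : 0 < 𝓔.Θ A ∧ 0 < 𝓔.Θ (t2SwM A m)
  · rw [if_pos c, if_pos ⟨hm, c⟩]; ring
  · rw [if_neg c, if_neg (fun hc => c hc.2)]; ring

open Classical in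
/-- **pointwise inequality for `ξ`, with weights** (valid marks).   PLAN: same cases; in the main case `t2_rec_cav`, `(x + y)² ≤ (1 + θ) x² + (1 + 1/θ) y²` with `θ = 1/10`, `Θ A^ ≤ Θ A + |ΔΘ|`, `|ξ^| ≤ κ`;
on the event "all far edges good" `∑_{a ≠ a0} (X_a - g) = ∑_{a ≠ a0} ξ~_a`. -/
theorem t2e_pt_F {𝓔 : T2Ens V} {b : ℕ} {z g : ℂ} {cg Z C0 κ co : ℝ} (hp : T2Par b z g cg Z) (h : T2Hyp 𝓔 b z g C0 κ) (hκ0 : 0 ≤ κ) (hκ : κ ≤ 1 / 36)
    (hco : 0 < co) (hco' : co ≤ (‖g‖ - κ) / 2) {A : Matrix V V ℝ} (hA : A ∈ 𝓔.M) {m : T2Mk V ι} (hm : T2ValM A m) (a0 : ι) :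
    𝓔.Θ (t2SwM A m) * ‖𝓔.xi z g (t2SwM A m) m.1 (m.2.2.1 a0)‖ ^ 2
      ≤ ((‖g‖ + κ) * ‖g‖) ^ 2 * (11 / 10) * (𝓔.Θ A * ‖∑ a ∈ Finset.univ.erase a0, 𝓔.xi z g A (m.2.2.1 a) (m.2.2.2 a)‖ ^ 2)
        + ((‖g‖ + κ) * ‖g‖) ^ 2 * 11 * ((b + 1) * t2K1 (b + 1) C0 co) ^ 2
            * (if T2ValM A m ∧ 0 < 𝓔.Θ A ∧ 0 < 𝓔.Θ (t2SwM A m) then t2Et A z m.1 m.2.1 m.2.2.1 m.2.2.2 ^ 2 else 0)
        + κ ^ 2 * |𝓔.Θ (t2SwM A m) - 𝓔.Θ A| + κ ^ 2 * ∑ a, (if 𝓔.Gd A (m.2.2.1 a) (m.2.2.2 a) then 0 else 1) := by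
  have hA' := t2e_sw_mem h hA hm
  have key := t2e_pt_gen (Th := 𝓔.Θ (t2SwM A m)) (TA := 𝓔.Θ A) (W := ‖𝓔.xi z g (t2SwM A m) m.1 (m.2.2.1 a0)‖ ^ 2) (B := κ ^ 2)
    (R1 := ((‖g‖ + κ) * ‖g‖) ^ 2 * (11 / 10) * ‖∑ a ∈ Finset.univ.erase a0, 𝓔.xi z g A (m.2.2.1 a) (m.2.2.2 a)‖ ^ 2)
    (R2 := ((‖g‖ + κ) * ‖g‖) ^ 2 * 11 * ((b + 1) * t2K1 (b + 1) C0 co) ^ 2 * t2Et A z m.1 m.2.1 m.2.2.1 m.2.2.2 ^ 2)
    (nb := ∑ a, (if 𝓔.Gd A (m.2.2.1 a) (m.2.2.2 a) then (0 : ℝ) else 1)) (P := ∀ a, 𝓔.Gd A (m.2.2.1 a) (m.2.2.2 a))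
    (h.th0 _) (h.th1 _) (h.th0 _) (h.th1 _) (by positivity) (by positivity) (by positivity) (by positivity) (t2e_nb 𝓔 A m).1 (t2e_nb 𝓔 A m).2
    (by
      intro hT
      unfold T2Ens.xi
      split_ifs with hg
      · exact pow_le_pow_left₀ (norm_nonneg _) (h.gd _ hA' hT _ _ hg).x1 2
      · rw [norm_zero, zero_pow two_ne_zero]; positivity)
    (by
      intro hT hTA hP
      have es : ∑ a ∈ Finset.univ.erase a0, 𝓔.xi z g A (m.2.2.1 a) (m.2.2.2 a) = ∑ a ∈ Finset.univ.erase a0, (t2X A z (m.2.2.1 a) (m.2.2.2 a) - g) := by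
        refine Finset.sum_congr rfl fun a _ => ?_
        unfold T2Ens.xi
        rw [if_pos (hP a)]
      rw [es]
      unfold T2Ens.xi
      split_ifs with hg
      · have k := t2_rec_cav hp ((h.mem A).1 hA) hm hκ (h.bd A hA hTA) (h.bd _ hA' hT) hco hco' (fun a => h.gd A hA hTA _ _ (hP a)) a0 (h.gd _ hA' hT _ _ hg)
        have k2 := pow_le_pow_left₀ (norm_nonneg _) k 2
        refine k2.trans ?_
        set x := ‖∑ a ∈ Finset.univ.erase a0, (t2X A z (m.2.2.1 a) (m.2.2.2 a) - g)‖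
        set y := ((b : ℝ) + 1) * t2K1 (b + 1) C0 co * t2Et A z m.1 m.2.1 m.2.2.1 m.2.2.2 with hy
        have e : (x + y) ^ 2 ≤ 11 / 10 * x ^ 2 + 11 * y ^ 2 := by nlinarith [sq_nonneg (x - 10 * y)]
        calc ((‖g‖ + κ) * ‖g‖ * (x + y)) ^ 2 = ((‖g‖ + κ) * ‖g‖) ^ 2 * (x + y) ^ 2 := by ring
          _ ≤ ((‖g‖ + κ) * ‖g‖) ^ 2 * (11 / 10 * x ^ 2 + 11 * y ^ 2) := mul_le_mul_of_nonneg_left e (by positivity)
          _ = _ := by rw [hy]; ring
      · rw [norm_zero, zero_pow two_ne_zero]; positivity)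
  refine key.trans (le_of_eq ?_)
  by_cases c : 0 < 𝓔.Θ A ∧ 0 < 𝓔.Θ (t2SwM A m)
  · rw [if_pos c, if_pos ⟨hm, c⟩]; ring
  · rw [if_neg c, if_neg (fun hc => c hc.2)]; ring

/-! ## 13. closing -/

/-- the constant in front of the Ward term for `Y` -/
def t2KY (b : ℕ) (C0 co : ℝ) : ℝ := 144 * ((b : ℝ) + 1) ^ 5 * (2 * t2K1 (b + 1) C0 co) ^ 2

/-- sum over the far edges of a function of the edge -/
theorem t2e_far_sum {A : Matrix V V ℝ} {d : ℕ} (hA : T2Reg A d) (hd : 0 < d) (hc : Fintype.card ι = d) (φ : V → V → ℝ) :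
    t2Ex A d (fun m : T2Mk V ι => ∑ a, φ (m.2.2.1 a) (m.2.2.2 a)) = d.factorial * ∑ x, ∑ y, A x y * φ x y := by
  rcases isEmpty_or_nonempty V with hV | hV
  · rw [t2x_empty]; simp
  · rw [t2x_sum]
    have e : ∀ a : ι, t2Ex A d (fun m : T2Mk V ι => φ (m.2.2.1 a) (m.2.2.2 a)) = d.factorial * ((∑ x, ∑ y, A x y * φ x y) / d) := by
      intro a
      rw [t2x_far1 hA hd hc a (fun _ x y => φ x y)]
      congr 1
      rw [Finset.sum_const, Finset.card_univ, nsmul_eq_mul]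
      unfold t2P
      have h1 : (0 : ℝ) < Fintype.card V := by exact_mod_cast Fintype.card_pos
      have h2 : (0 : ℝ) < d := by exact_mod_cast hd
      have e2 : ∀ x y, A x y / ((Fintype.card V : ℝ) * d) * φ x y = (A x y * φ x y) / ((Fintype.card V : ℝ) * d) := by
        intro x y; ring
      simp only [e2, ← Finset.sum_div]
      field_simp
    simp only [e]
    rw [Finset.sum_const, Finset.card_univ, nsmul_eq_mul, hc]
    have h2 : (0 : ℝ) < d := by exact_mod_cast hd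
    field_simp

open Classical in
/-- **the general closing**: split valid / invalid, exchange, pointwise inequality, evaluation of the error terms -/
theorem t2e_close_gen {𝓔 : T2Ens V} {b : ℕ} {z g : ℂ} {C0 κ : ℝ} (h : T2Hyp 𝓔 b z g C0 κ) (hz : 0 < z.im) (hc : Fintype.card ι = b + 1)
    (W Mn : Matrix V V ℝ → T2Mk V ι → ℝ) {B B' c2 : ℝ} (hB : 0 ≤ B) (hB' : 0 ≤ B') (hc2 : 0 ≤ c2)
    (hMn : ∀ A ∈ 𝓔.M, ∀ m, 0 ≤ Mn A m) (hWB : ∀ A ∈ 𝓔.M, ∀ m, W A m ≤ B)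
    (hpt : ∀ A ∈ 𝓔.M, ∀ m, T2ValM A m → W (t2SwM A m) (t2Fl m) ≤ Mn A m
        + c2 * (if T2ValM A m ∧ 0 < 𝓔.Θ A ∧ 0 < 𝓔.Θ (t2SwM A m) then t2Et A z m.1 m.2.1 m.2.2.1 m.2.2.2 ^ 2 else 0)
        + B' * |𝓔.Θ (t2SwM A m) - 𝓔.Θ A| + B' * ∑ a, (if 𝓔.Gd A (m.2.2.1 a) (m.2.2.2 a) then 0 else 1)) :
    ∑ A ∈ 𝓔.M, t2Ex A (b + 1) (W A)
      ≤ ∑ A ∈ 𝓔.M, t2Ex A (b + 1) (Mn A) + c2 * (144 * ((b : ℝ) + 1) ^ 4 * (b + 1).factorial * C0 / z.im * 𝓔.M.card)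
        + B' * 𝓔.Eps ι (b + 1) + B' * ((b + 1).factorial * ∑ A ∈ 𝓔.M, 𝓔.NB A) + B * (8 * ((b : ℝ) + 1) ^ 3 * (b + 1).factorial * 𝓔.M.card) := by
  have hreg : ∀ A ∈ 𝓔.M, T2Reg A (b + 1) := fun A hA => (h.mem A).1 hA
  -- step 1: valid / invalid
  have s1 : ∀ A ∈ 𝓔.M, t2Ex A (b + 1) (W A) ≤ t2Ex A (b + 1) (fun m : T2Mk V ι => if T2ValM A m then W A m else 0) + B * (8 * ((b : ℝ) + 1) ^ 3 * (b + 1).factorial) := by
    intro A hA
    calc t2Ex A (b + 1) (W A) ≤ t2Ex A (b + 1) (fun m : T2Mk V ι => (if T2ValM A m then W A m else 0) + B * (if T2ValM A m then 0 else 1)) := by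
          refine t2x_mono (hreg A hA) fun m => ?_
          by_cases hv : T2ValM A m
          · rw [if_pos hv, if_pos hv]; linarith
          · rw [if_neg hv, if_neg hv]; linarith [hWB A hA m]
      _ = t2Ex A (b + 1) (fun m : T2Mk V ι => if T2ValM A m then W A m else 0) + B * t2Ex A (b + 1) (fun m : T2Mk V ι => if T2ValM A m then 0 else 1) := by
          rw [t2x_add, t2x_smul]
      _ ≤ _ := by
          have := t2x_inval (ι := ι) (hreg A hA) (Nat.succ_pos b) hc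
          push_cast at this
          exact add_le_add le_rfl (mul_le_mul_of_nonneg_left this hB)
  -- step 3: pointwise
  have s3 : ∀ A ∈ 𝓔.M, t2Ex A (b + 1) (fun m : T2Mk V ι => if T2ValM A m then W (t2SwM A m) (t2Fl m) else 0)
      ≤ t2Ex A (b + 1) (Mn A)
        + c2 * t2Ex A (b + 1) (fun m : T2Mk V ι => if T2ValM A m ∧ 0 < 𝓔.Θ A ∧ 0 < 𝓔.Θ (t2SwM A m) then t2Et A z m.1 m.2.1 m.2.2.1 m.2.2.2 ^ 2 else 0)
        + B' * t2Ex A (b + 1) (fun m : T2Mk V ι => if T2ValM A m then |𝓔.Θ (t2SwM A m) - 𝓔.Θ A| else 0)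
        + B' * ((b + 1).factorial * 𝓔.NB A) := by
    intro A hA
    have eb : t2Ex A (b + 1) (fun m : T2Mk V ι => ∑ a, (if 𝓔.Gd A (m.2.2.1 a) (m.2.2.2 a) then (0 : ℝ) else 1)) = (b + 1).factorial * 𝓔.NB A :=
      t2e_far_sum (hreg A hA) (Nat.succ_pos b) hc (fun x y => if 𝓔.Gd A x y then (0 : ℝ) else 1)
    rw [← eb, ← t2x_smul, ← t2x_smul, ← t2x_smul, ← t2x_add, ← t2x_add, ← t2x_add]
    refine t2x_mono (hreg A hA) fun m => ?_
    by_cases hv : T2ValM A m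
    · rw [if_pos hv, if_pos hv]
      exact hpt A hA m hv
    · rw [if_neg hv, if_neg hv, if_neg (fun hh => hv hh.1)]
      have := mul_nonneg hB' (t2e_nb 𝓔 A m).1
      have := hMn A hA m
      linarith
  calc ∑ A ∈ 𝓔.M, t2Ex A (b + 1) (W A)
      ≤ ∑ A ∈ 𝓔.M, (t2Ex A (b + 1) (fun m : T2Mk V ι => if T2ValM A m then W A m else 0) + B * (8 * ((b : ℝ) + 1) ^ 3 * (b + 1).factorial)) := Finset.sum_le_sum s1
    _ = ∑ A ∈ 𝓔.M, t2Ex A (b + 1) (fun m : T2Mk V ι => if T2ValM A m then W (t2SwM A m) (t2Fl m) else 0) + B * (8 * ((b : ℝ) + 1) ^ 3 * (b + 1).factorial * 𝓔.M.card) := by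
        rw [Finset.sum_add_distrib, t2x_exch h.mem W, Finset.sum_const, nsmul_eq_mul]
        ring
    _ ≤ ∑ A ∈ 𝓔.M, (t2Ex A (b + 1) (Mn A)
        + c2 * t2Ex A (b + 1) (fun m : T2Mk V ι => if T2ValM A m ∧ 0 < 𝓔.Θ A ∧ 0 < 𝓔.Θ (t2SwM A m) then t2Et A z m.1 m.2.1 m.2.2.1 m.2.2.2 ^ 2 else 0)
        + B' * t2Ex A (b + 1) (fun m : T2Mk V ι => if T2ValM A m then |𝓔.Θ (t2SwM A m) - 𝓔.Θ A| else 0)
        + B' * ((b + 1).factorial * 𝓔.NB A)) + B * (8 * ((b : ℝ) + 1) ^ 3 * (b + 1).factorial * 𝓔.M.card) := add_le_add (Finset.sum_le_sum s3) le_rfl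
    _ = ∑ A ∈ 𝓔.M, t2Ex A (b + 1) (Mn A)
        + c2 * ∑ A ∈ 𝓔.M, t2Ex A (b + 1) (fun m : T2Mk V ι => if T2ValM A m ∧ 0 < 𝓔.Θ A ∧ 0 < 𝓔.Θ (t2SwM A m) then t2Et A z m.1 m.2.1 m.2.2.1 m.2.2.2 ^ 2 else 0)
        + B' * 𝓔.Eps ι (b + 1) + B' * ((b + 1).factorial * ∑ A ∈ 𝓔.M, 𝓔.NB A) + B * (8 * ((b : ℝ) + 1) ^ 3 * (b + 1).factorial * 𝓔.M.card) := by
        unfold T2Ens.Eps
        simp only [Finset.sum_add_distrib, Finset.mul_sum]
    _ ≤ _ := by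
        have := mul_le_mul_of_nonneg_left (t2e_cross (ι := ι) h hz hc) hc2
        linarith

theorem t2e_yy_le {𝓔 : T2Ens V} {b : ℕ} {z g : ℂ} {C0 κ : ℝ} (h : T2Hyp 𝓔 b z g C0 κ) {A : Matrix V V ℝ} (hA : A ∈ 𝓔.M) (hΘ : 0 < 𝓔.Θ A) (x y : V) :
    ‖𝓔.yy z A x y‖ ^ 2 ≤ κ ^ 2 := by
  classical
  unfold T2Ens.yy
  split_ifs with hg
  · exact pow_le_pow_left₀ (norm_nonneg _) (h.gd _ hA hΘ _ _ hg).y 2
  · rw [norm_zero, zero_pow two_ne_zero]; positivity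

theorem t2e_xi_le {𝓔 : T2Ens V} {b : ℕ} {z g : ℂ} {C0 κ : ℝ} (h : T2Hyp 𝓔 b z g C0 κ) {A : Matrix V V ℝ} (hA : A ∈ 𝓔.M) (hΘ : 0 < 𝓔.Θ A) (x y : V) :
    ‖𝓔.xi z g A x y‖ ^ 2 ≤ κ ^ 2 := by
  classical
  unfold T2Ens.xi
  split_ifs with hg
  · exact pow_le_pow_left₀ (norm_nonneg _) (h.gd _ hA hΘ _ _ hg).x1 2
  · rw [norm_zero, zero_pow two_ne_zero]; positivity

/-- trivial bound of a weighted sum over the marks of the base star -/
theorem t2e_triv {𝓔 : T2Ens V} {b : ℕ} {z g : ℂ} {C0 κ : ℝ} (h : T2Hyp 𝓔 b z g C0 κ) (hc : Fintype.card ι = b + 1) (A : Matrix V V ℝ) (f : ι → ℝ)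
    (hf0 : ∀ a, 0 ≤ f a) (hf : 0 < 𝓔.Θ A → ∀ a, f a ≤ κ ^ 2) : 𝓔.Θ A * ∑ a, f a ≤ ((b : ℝ) + 1) * κ ^ 2 := by
  by_cases hΘ : 0 < 𝓔.Θ A
  · calc 𝓔.Θ A * ∑ a, f a ≤ 1 * ∑ _a : ι, κ ^ 2 :=
          mul_le_mul (h.th1 A) (Finset.sum_le_sum fun a _ => hf hΘ a) (Finset.sum_nonneg fun a _ => hf0 a) zero_le_one
      _ = _ := by rw [Finset.sum_const, Finset.card_univ, hc, nsmul_eq_mul]; push_cast; ring
  · have : 𝓔.Θ A = 0 := le_antisymm (not_lt.1 hΘ) (h.th0 A)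
    rw [this, zero_mul]
    positivity

/-- **closing for `Y`**:   `E[Θ Y2] ≤ C (1/y + ε_Θ + δ + 1/n)` in unnormalised form.
PLAN (note T2plan sec. 3): `d! ∑_A Θ SY = ∑_A Θ t2Ex (∑_a0 |Y~_(o,t a0)|²)` (`t2x_base`); split valid / invalid; invalid `≤ d κ² · 8 d³ d!` per matrix (`t2x_inval`, `|Y~| ≤ κ` on `{Θ > 0}`);
valid: `t2x_exch`, `t2e_pt_Y` summed over `a0`, `t2e_cross`, definition of `Eps`, `t2x_far1` for the bad far edges (`t2Ex [not good (u a, v a)] = d! n NB/(n d)`). -/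
theorem t2_close_Y {𝓔 : T2Ens V} {b : ℕ} {z g : ℂ} {cg Z C0 κ co : ℝ} (hp : T2Par b z g cg Z) (h : T2Hyp 𝓔 b z g C0 κ) (hκ0 : 0 ≤ κ) (hκ : κ ≤ 1 / 36)
    (hco : 0 < co) (hco' : co ≤ (‖g‖ - κ) / 2) (hc : Fintype.card ι = b + 1) :
    ∑ A ∈ 𝓔.M, 𝓔.Θ A * 𝓔.SY z A
      ≤ t2KY b C0 co * C0 / z.im * 𝓔.M.card + (b + 1) * κ ^ 2 * (𝓔.Eps ι (b + 1) / (b + 1).factorial) + (b + 1) * κ ^ 2 * ∑ A ∈ 𝓔.M, 𝓔.NB A
        + 8 * ((b : ℝ) + 1) ^ 4 * κ ^ 2 * 𝓔.M.card := by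
  classical
  have hcr : (Fintype.card ι : ℝ) = (b : ℝ) + 1 := by rw [hc]; push_cast; ring
  have key := t2e_close_gen (ι := ι) h hp.im hc (fun A m => 𝓔.Θ A * ∑ a0, ‖𝓔.yy z A m.1 (m.2.1 a0)‖ ^ 2) (fun _ _ => 0)
    (B := ((b : ℝ) + 1) * κ ^ 2) (B' := ((b : ℝ) + 1) * κ ^ 2) (c2 := ((b : ℝ) + 1) * ((‖g‖ + κ) * t2K1 (b + 1) C0 co) ^ 2)
    (by positivity) (by positivity) (by positivity) (fun _ _ _ => le_rfl)
    (fun A hA m => t2e_triv h hc A _ (fun a => by positivity) (fun hΘ a => t2e_yy_le h hA hΘ _ _))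
    (by
      intro A hA m hm
      show 𝓔.Θ (t2SwM A m) * ∑ a0, ‖𝓔.yy z (t2SwM A m) m.1 (m.2.2.1 a0)‖ ^ 2 ≤ _
      rw [Finset.mul_sum]
      refine (Finset.sum_le_sum fun a0 _ => t2e_pt_Y hp h hκ0 hκ hco hco' hA hm a0).trans (le_of_eq ?_)
      rw [Finset.sum_const, Finset.card_univ, nsmul_eq_mul, hcr]
      ring)
  have eL : ∀ A ∈ 𝓔.M, t2Ex A (b + 1) (fun m : T2Mk V ι => 𝓔.Θ A * ∑ a0, ‖𝓔.yy z A m.1 (m.2.1 a0)‖ ^ 2) = (b + 1).factorial * (𝓔.Θ A * 𝓔.SY z A) := by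
    intro A hA
    rw [t2x_smul, t2x_base ((h.mem A).1 hA) (Nat.succ_pos b) hc (fun x y => ‖𝓔.yy z A x y‖ ^ 2)]
    unfold T2Ens.SY
    ring
  rw [Finset.sum_congr rfl eL, ← Finset.mul_sum] at key
  simp only [t2x_zero, Finset.sum_const_zero, zero_add] at key
  have hD : (0 : ℝ) < (b + 1).factorial := by exact_mod_cast Nat.factorial_pos _
  refine le_of_mul_le_mul_left (key.trans ?_) hD
  have hg2 : (‖g‖ + κ) ^ 2 ≤ 4 := by
    have := t2par_le_one hp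
    have := norm_nonneg g
    nlinarith
  have hq : 0 ≤ C0 / z.im * 𝓔.M.card := by
    have := h.c0
    have := hp.im
    positivity
  have e1 : ((b : ℝ) + 1) * ((‖g‖ + κ) * t2K1 (b + 1) C0 co) ^ 2 * (144 * ((b : ℝ) + 1) ^ 4 * (b + 1).factorial * C0 / z.im * 𝓔.M.card)
      ≤ (b + 1).factorial * (t2KY b C0 co * C0 / z.im * 𝓔.M.card) := by
    unfold t2KY
    have e2 : (‖g‖ + κ) ^ 2 * t2K1 (b + 1) C0 co ^ 2 ≤ 4 * t2K1 (b + 1) C0 co ^ 2 := mul_le_mul_of_nonneg_right hg2 (by positivity)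
    have e3 : 0 ≤ 144 * ((b : ℝ) + 1) ^ 5 * (b + 1).factorial * (C0 / z.im * 𝓔.M.card) := by positivity
    have e4 := mul_le_mul_of_nonneg_left e2 e3
    calc _ = 144 * ((b : ℝ) + 1) ^ 5 * (b + 1).factorial * (C0 / z.im * 𝓔.M.card) * ((‖g‖ + κ) ^ 2 * t2K1 (b + 1) C0 co ^ 2) := by ring
      _ ≤ _ := e4
      _ = _ := by ring
  have e5 : ((b + 1).factorial : ℝ) * ((b + 1) * κ ^ 2 * (𝓔.Eps ι (b + 1) / (b + 1).factorial)) = ((b : ℝ) + 1) * κ ^ 2 * 𝓔.Eps ι (b + 1) := by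
    field_simp
  calc _ ≤ (b + 1).factorial * (t2KY b C0 co * C0 / z.im * 𝓔.M.card) + ((b : ℝ) + 1) * κ ^ 2 * 𝓔.Eps ι (b + 1)
        + ((b : ℝ) + 1) * κ ^ 2 * ((b + 1).factorial * ∑ A ∈ 𝓔.M, 𝓔.NB A) + ((b : ℝ) + 1) * κ ^ 2 * (8 * ((b : ℝ) + 1) ^ 3 * (b + 1).factorial * 𝓔.M.card) := by
        linarith
    _ = _ := by rw [← e5]; ring

/-- weighted sums over the oriented edges: monotone bound -/
theorem t2e_edge_le {A : Matrix V V ℝ} {d : ℕ} (hA : T2Reg A d) (f : V → V → ℝ) {c : ℝ} (hf : ∀ x y, f x y ≤ c) :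
    ∑ x, ∑ y, A x y * f x y ≤ c * (Fintype.card V * d) := by
  calc ∑ x, ∑ y, A x y * f x y ≤ ∑ x, ∑ y, A x y * c := by
        refine Finset.sum_le_sum fun x _ => Finset.sum_le_sum fun y _ => mul_le_mul_of_nonneg_left (hf x y) ?_
        rcases hA.zo x y with h | h <;> rw [h] <;> norm_num
    _ = c * (Fintype.card V * d) := by
        simp only [← Finset.sum_mul, hA.row, Finset.sum_const, Finset.card_univ, nsmul_eq_mul]
        ring

theorem t2e_edge_nonneg {A : Matrix V V ℝ} {d : ℕ} (hA : T2Reg A d) (f : V → V → ℝ) (hf : ∀ x y, 0 ≤ f x y) :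
    0 ≤ ∑ x, ∑ y, A x y * f x y := by
  refine Finset.sum_nonneg fun x _ => Finset.sum_nonneg fun y _ => mul_nonneg ?_ (hf x y)
  rcases hA.zo x y with h | h <;> rw [h] <;> norm_num

/-- Cauchy-Schwarz over the oriented edges -/
theorem t2e_edge_cs {A : Matrix V V ℝ} {d : ℕ} (hA : T2Reg A d) (f : V → V → ℝ) :
    (∑ x, ∑ y, A x y * f x y) ^ 2 ≤ (Fintype.card V * d) * ∑ x, ∑ y, A x y * f x y ^ 2 := by
  have hsq : ∀ x y, A x y * A x y = A x y := by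
    intro x y
    rcases hA.zo x y with h | h <;> rw [h] <;> norm_num
  have h := Finset.sum_mul_sq_le_sq_mul_sq (Finset.univ : Finset (V × V)) (fun p => A p.1 p.2) (fun p => A p.1 p.2 * f p.1 p.2)
  simp only [Fintype.sum_prod_type] at h
  have e1 : ∀ x y, A x y * (A x y * f x y) = A x y * f x y := by
    intro x y; rw [← mul_assoc, hsq]
  have e2 : ∀ x y, A x y ^ 2 = A x y := by
    intro x y; rw [sq, hsq]
  have e3 : ∀ x y, (A x y * f x y) ^ 2 = A x y * f x y ^ 2 := by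
    intro x y; rw [mul_pow, e2]
  simp only [e1, e2, e3, hA.row, Finset.sum_const, Finset.card_univ, nsmul_eq_mul] at h
  exact h

/-- `|S1|²/N` by (M).   PLAN: `t2_mean` with `Gd = 𝓔.Gd A`; `(x+y+w)² ≤ 3 (x²+y²+w²)`; `S2 ≤ κ² N`; Cauchy-Schwarz `(∑ A |Y~|)² ≤ N SY`; `NB ≤ N`. -/
theorem t2e_mean {𝓔 : T2Ens V} {b : ℕ} {z g : ℂ} {cg Z C0 κ : ℝ} (hp : T2Par b z g cg Z) (h : T2Hyp 𝓔 b z g C0 κ) (hκ0 : 0 ≤ κ) (hκ : κ ≤ 1 / 36)
    {A : Matrix V V ℝ} (hA : A ∈ 𝓔.M) (hΘ : 0 < 𝓔.Θ A) :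
    cg ^ 2 * ‖𝓔.S1 z g A‖ ^ 2 ≤ 3 * (Fintype.card V * (b + 1)) *
      ((100 * ((b : ℝ) + 1)) ^ 2 * κ ^ 2 * 𝓔.S2 z g A + (100 * ((b : ℝ) + 1)) ^ 2 * 𝓔.SY z A + (2 * ((b + 1 + Z) * C0 + 1)) ^ 2 * 𝓔.NB A) := by
  classical
  have hR := (h.mem A).1 hA
  have k := t2_mean hp hR (𝓔.Gd A) (h.gs A) hκ (h.gd A hA hΘ) (h.bd A hA hΘ)
  set N : ℝ := Fintype.card V * (b + 1) with hN
  have hNd : (Fintype.card V : ℝ) * ((b + 1 : ℕ) : ℝ) = N := by rw [hN]; push_cast; ring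
  set T : ℝ := ∑ x, ∑ y, A x y * ‖𝓔.yy z A x y‖ with hT
  have e1 : ∑ x, ∑ y, (A x y : ℂ) * (if 𝓔.Gd A x y then t2X A z x y - g else 0) = 𝓔.S1 z g A := by
    unfold T2Ens.S1 T2Ens.xi
    rfl
  have e2 : ∑ x, ∑ y, A x y * (if 𝓔.Gd A x y then ‖t2X A z x y - g‖ ^ 2 + ‖t2Y A z x y‖ else 0) = 𝓔.S2 z g A + T := by
    rw [hT]
    unfold T2Ens.S2 T2Ens.xi T2Ens.yy
    simp only [← Finset.sum_add_distrib]
    refine Finset.sum_congr rfl fun x _ => Finset.sum_congr rfl fun y _ => ?_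
    split_ifs
    · ring
    · simp
  have e3 : ∑ x, ∑ y, A x y * (if 𝓔.Gd A x y then (0 : ℝ) else 1) = 𝓔.NB A := by
    unfold T2Ens.NB
    rfl
  rw [e1, e2, e3] at k
  have hS0 : 0 ≤ 𝓔.S2 z g A := t2e_edge_nonneg hR _ fun x y => by positivity
  have hS1 : 𝓔.S2 z g A ≤ κ ^ 2 * N := by
    rw [← hNd]
    exact t2e_edge_le hR _ fun x y => t2e_xi_le h hA hΘ x y
  have hB0 : 0 ≤ 𝓔.NB A := t2e_edge_nonneg hR _ fun x y => by split_ifs <;> norm_num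
  have hB1 : 𝓔.NB A ≤ 1 * N := by
    rw [← hNd]
    exact t2e_edge_le hR _ fun x y => by split_ifs <;> norm_num
  have hT2 : T ^ 2 ≤ N * 𝓔.SY z A := by
    rw [← hNd]
    exact t2e_edge_cs hR _
  have hT0 : 0 ≤ T := t2e_edge_nonneg hR _ fun x y => norm_nonneg _
  have hN0 : 0 ≤ N := by rw [hN]; positivity
  set a : ℝ := 100 * ((b : ℝ) + 1) with ha
  set c : ℝ := 2 * ((b + 1 + Z) * C0 + 1) with hc
  have k' : cg * ‖𝓔.S1 z g A‖ ≤ a * 𝓔.S2 z g A + a * T + c * 𝓔.NB A := by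
    rw [ha, hc]; linarith
  have k0 : 0 ≤ cg * ‖𝓔.S1 z g A‖ := mul_nonneg hp.cg0.le (norm_nonneg _)
  have k2 := pow_le_pow_left₀ k0 k' 2
  have q1 : 𝓔.S2 z g A ^ 2 ≤ κ ^ 2 * N * 𝓔.S2 z g A := by
    rw [sq]; exact mul_le_mul_of_nonneg_right hS1 hS0
  have q3 : 𝓔.NB A ^ 2 ≤ N * 𝓔.NB A := by
    rw [sq]; exact mul_le_mul_of_nonneg_right (by linarith) hB0
  calc cg ^ 2 * ‖𝓔.S1 z g A‖ ^ 2 = (cg * ‖𝓔.S1 z g A‖) ^ 2 := by ring
    _ ≤ (a * 𝓔.S2 z g A + a * T + c * 𝓔.NB A) ^ 2 := k2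
    _ ≤ 3 * (a ^ 2 * 𝓔.S2 z g A ^ 2 + a ^ 2 * T ^ 2 + c ^ 2 * 𝓔.NB A ^ 2) := by
        nlinarith [sq_nonneg (a * 𝓔.S2 z g A - a * T), sq_nonneg (a * 𝓔.S2 z g A - c * 𝓔.NB A), sq_nonneg (a * T - c * 𝓔.NB A)]
    _ ≤ 3 * (a ^ 2 * (κ ^ 2 * N * 𝓔.S2 z g A) + a ^ 2 * (N * 𝓔.SY z A) + c ^ 2 * (N * 𝓔.NB A)) := by
        have := mul_le_mul_of_nonneg_left q1 (sq_nonneg a)
        have := mul_le_mul_of_nonneg_left hT2 (sq_nonneg a)
        have := mul_le_mul_of_nonneg_left q3 (sq_nonneg c)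
        linarith
    _ = _ := by ring

/-- the main term of the recursion -/
theorem t2e_main_F (𝓔 : T2Ens V) {b : ℕ} (z g : ℂ) (hc : Fintype.card ι = b + 1) {A : Matrix V V ℝ} (hA : T2Reg A (b + 1)) :
    t2Ex A (b + 1) (fun m : T2Mk V ι => ∑ a0, ‖∑ a ∈ Finset.univ.erase a0, 𝓔.xi z g A (m.2.2.1 a) (m.2.2.2 a)‖ ^ 2)
      = (b + 1).factorial * (b * 𝓔.S2 z g A + b * (b - 1) * ‖𝓔.S1 z g A‖ ^ 2 / (Fintype.card V * (b + 1))) := by
  rcases isEmpty_or_nonempty V with hV | hV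
  · rw [t2x_empty]
    unfold T2Ens.S2 T2Ens.S1
    simp
  · have h1 : (0 : ℝ) < Fintype.card V := by exact_mod_cast Fintype.card_pos
    have hcr : (Fintype.card ι : ℝ) = (b : ℝ) + 1 := by rw [hc]; push_cast; ring
    have eP2 : ∑ x, ∑ y, t2P A (b + 1) x y * ‖𝓔.xi z g A x y‖ ^ 2 = 𝓔.S2 z g A / (Fintype.card V * (b + 1)) := by
      unfold T2Ens.S2 t2P
      simp only [Finset.sum_div]
      refine Finset.sum_congr rfl fun x _ => Finset.sum_congr rfl fun y _ => ?_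
      push_cast
      ring
    have eP1 : ∑ x, ∑ y, (t2P A (b + 1) x y : ℂ) * 𝓔.xi z g A x y = 𝓔.S1 z g A / ((Fintype.card V * ((b : ℝ) + 1) : ℝ) : ℂ) := by
      unfold T2Ens.S1 t2P
      simp only [Finset.sum_div]
      refine Finset.sum_congr rfl fun x _ => Finset.sum_congr rfl fun y _ => ?_
      push_cast
      ring
    have ecard : ∀ a0 : ι, ((Finset.univ.erase a0).card : ℝ) = b := by
      intro a0
      rw [Finset.card_erase_of_mem (Finset.mem_univ a0), Finset.card_univ, hc]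
      simp
    rw [t2x_sum]
    have e : ∀ a0 : ι, t2Ex A (b + 1) (fun m : T2Mk V ι => ‖∑ a ∈ Finset.univ.erase a0, 𝓔.xi z g A (m.2.2.1 a) (m.2.2.2 a)‖ ^ 2)
        = Fintype.card V * (b + 1).factorial * (b * (𝓔.S2 z g A / (Fintype.card V * (b + 1))) + b * (b - 1) * (‖𝓔.S1 z g A‖ ^ 2 / (Fintype.card V * ((b : ℝ) + 1)) ^ 2)) := by
      intro a0
      rw [t2x_second hA (Nat.succ_pos b) hc (Finset.univ.erase a0) (fun x y => 𝓔.xi z g A x y), eP2, eP1, ecard, norm_div, Complex.norm_real, Real.norm_eq_abs,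
        abs_of_pos (by positivity), div_pow]
    simp only [e]
    rw [Finset.sum_const, Finset.card_univ, nsmul_eq_mul, hcr]
    field_simp

/-- **the recursion inequality in the mean**.
PLAN: as `t2_close_Y` with `t2e_pt_F`; the main term by `t2x_second` with `S = univ.erase a0` (`#S = b`), `h = ξ~`: `∑_a0 t2Ex |s~_a0|² = d! (b S2 + b (b-1) |S1|²/N)`. -/
theorem t2e_rec {𝓔 : T2Ens V} {b : ℕ} {z g : ℂ} {cg Z C0 κ co : ℝ} (hp : T2Par b z g cg Z) (h : T2Hyp 𝓔 b z g C0 κ) (hκ0 : 0 ≤ κ) (hκ : κ ≤ 1 / 36)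
    (hco : 0 < co) (hco' : co ≤ (‖g‖ - κ) / 2) (hc : Fintype.card ι = b + 1) :
    ∑ A ∈ 𝓔.M, 𝓔.Θ A * 𝓔.S2 z g A
      ≤ ((‖g‖ + κ) * ‖g‖) ^ 2 * (11 / 10) * ∑ A ∈ 𝓔.M, 𝓔.Θ A * (b * 𝓔.S2 z g A + b * (b - 1) * ‖𝓔.S1 z g A‖ ^ 2 / (Fintype.card V * (b + 1)))
        + 11 * ((b : ℝ) + 1) ^ 2 * t2KY b C0 co * C0 / z.im * 𝓔.M.card + (b + 1) * κ ^ 2 * (𝓔.Eps ι (b + 1) / (b + 1).factorial)
        + (b + 1) * κ ^ 2 * ∑ A ∈ 𝓔.M, 𝓔.NB A + 8 * ((b : ℝ) + 1) ^ 4 * κ ^ 2 * 𝓔.M.card := by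
  classical
  have hcr : (Fintype.card ι : ℝ) = (b : ℝ) + 1 := by rw [hc]; push_cast; ring
  have key := t2e_close_gen (ι := ι) h hp.im hc (fun A m => 𝓔.Θ A * ∑ a0, ‖𝓔.xi z g A m.1 (m.2.1 a0)‖ ^ 2)
    (fun A m => ((‖g‖ + κ) * ‖g‖) ^ 2 * (11 / 10) * 𝓔.Θ A * ∑ a0, ‖∑ a ∈ Finset.univ.erase a0, 𝓔.xi z g A (m.2.2.1 a) (m.2.2.2 a)‖ ^ 2)
    (B := ((b : ℝ) + 1) * κ ^ 2) (B' := ((b : ℝ) + 1) * κ ^ 2) (c2 := ((b : ℝ) + 1) * (((‖g‖ + κ) * ‖g‖) ^ 2 * 11 * ((b + 1) * t2K1 (b + 1) C0 co) ^ 2))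
    (by positivity) (by positivity) (by positivity)
    (fun A _ m => mul_nonneg (mul_nonneg (by positivity) (h.th0 A)) (Finset.sum_nonneg fun a _ => by positivity))
    (fun A hA m => t2e_triv h hc A _ (fun a => by positivity) (fun hΘ a => t2e_xi_le h hA hΘ _ _))
    (by
      intro A hA m hm
      show 𝓔.Θ (t2SwM A m) * ∑ a0, ‖𝓔.xi z g (t2SwM A m) m.1 (m.2.2.1 a0)‖ ^ 2 ≤ _
      rw [Finset.mul_sum]
      refine (Finset.sum_le_sum fun a0 _ => t2e_pt_F hp h hκ0 hκ hco hco' hA hm a0).trans (le_of_eq ?_)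
      simp only [Finset.sum_add_distrib]
      rw [Finset.sum_const, Finset.sum_const, Finset.sum_const, Finset.card_univ, nsmul_eq_mul, nsmul_eq_mul, nsmul_eq_mul, hcr, ← Finset.mul_sum, ← Finset.mul_sum]
      ring)
  have eL : ∀ A ∈ 𝓔.M, t2Ex A (b + 1) (fun m : T2Mk V ι => 𝓔.Θ A * ∑ a0, ‖𝓔.xi z g A m.1 (m.2.1 a0)‖ ^ 2) = (b + 1).factorial * (𝓔.Θ A * 𝓔.S2 z g A) := by
    intro A hA
    rw [t2x_smul, t2x_base ((h.mem A).1 hA) (Nat.succ_pos b) hc (fun x y => ‖𝓔.xi z g A x y‖ ^ 2)]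
    unfold T2Ens.S2
    ring
  have eM : ∀ A ∈ 𝓔.M, t2Ex A (b + 1) (fun m : T2Mk V ι => ((‖g‖ + κ) * ‖g‖) ^ 2 * (11 / 10) * 𝓔.Θ A * ∑ a0, ‖∑ a ∈ Finset.univ.erase a0, 𝓔.xi z g A (m.2.2.1 a) (m.2.2.2 a)‖ ^ 2)
      = (b + 1).factorial * (((‖g‖ + κ) * ‖g‖) ^ 2 * (11 / 10) * (𝓔.Θ A * (b * 𝓔.S2 z g A + b * (b - 1) * ‖𝓔.S1 z g A‖ ^ 2 / (Fintype.card V * (b + 1))))) := by
    intro A hA
    rw [t2x_smul, t2e_main_F 𝓔 z g hc ((h.mem A).1 hA)]
    ring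
  rw [Finset.sum_congr rfl eL, Finset.sum_congr rfl eM, ← Finset.mul_sum, ← Finset.mul_sum, ← Finset.mul_sum] at key
  have hD : (0 : ℝ) < (b + 1).factorial := by exact_mod_cast Nat.factorial_pos _
  refine le_of_mul_le_mul_left (key.trans ?_) hD
  have hg2 : ((‖g‖ + κ) * ‖g‖) ^ 2 ≤ 4 := by
    have h1 := t2par_le_one hp
    have h0 := norm_nonneg g
    have h3 : (‖g‖ + κ) * ‖g‖ ≤ 2 * 1 := mul_le_mul (by linarith) h1 h0 (by norm_num)
    have h4 : 0 ≤ (‖g‖ + κ) * ‖g‖ := by positivity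
    nlinarith
  have hq : 0 ≤ C0 / z.im * 𝓔.M.card := by
    have := h.c0
    have := hp.im
    positivity
  have e1 : ((b : ℝ) + 1) * (((‖g‖ + κ) * ‖g‖) ^ 2 * 11 * ((b + 1) * t2K1 (b + 1) C0 co) ^ 2) * (144 * ((b : ℝ) + 1) ^ 4 * (b + 1).factorial * C0 / z.im * 𝓔.M.card)
      ≤ (b + 1).factorial * (11 * ((b : ℝ) + 1) ^ 2 * t2KY b C0 co * C0 / z.im * 𝓔.M.card) := by
    unfold t2KY
    have e2 : ((‖g‖ + κ) * ‖g‖) ^ 2 * t2K1 (b + 1) C0 co ^ 2 ≤ 4 * t2K1 (b + 1) C0 co ^ 2 := mul_le_mul_of_nonneg_right hg2 (by positivity)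
    have e3 : 0 ≤ 11 * 144 * ((b : ℝ) + 1) ^ 7 * (b + 1).factorial * (C0 / z.im * 𝓔.M.card) := by positivity
    have e4 := mul_le_mul_of_nonneg_left e2 e3
    calc _ = 11 * 144 * ((b : ℝ) + 1) ^ 7 * (b + 1).factorial * (C0 / z.im * 𝓔.M.card) * (((‖g‖ + κ) * ‖g‖) ^ 2 * t2K1 (b + 1) C0 co ^ 2) := by ring
      _ ≤ _ := e4
      _ = _ := by ring
  have e5 : ((b + 1).factorial : ℝ) * ((b + 1) * κ ^ 2 * (𝓔.Eps ι (b + 1) / (b + 1).factorial)) = ((b : ℝ) + 1) * κ ^ 2 * 𝓔.Eps ι (b + 1) := by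
    field_simp
  calc _ ≤ (b + 1).factorial * (((‖g‖ + κ) * ‖g‖) ^ 2 * (11 / 10) * ∑ A ∈ 𝓔.M, 𝓔.Θ A * (b * 𝓔.S2 z g A + b * (b - 1) * ‖𝓔.S1 z g A‖ ^ 2 / (Fintype.card V * (b + 1))))
        + (b + 1).factorial * (11 * ((b : ℝ) + 1) ^ 2 * t2KY b C0 co * C0 / z.im * 𝓔.M.card) + ((b : ℝ) + 1) * κ ^ 2 * 𝓔.Eps ι (b + 1)
        + ((b : ℝ) + 1) * κ ^ 2 * ((b + 1).factorial * ∑ A ∈ 𝓔.M, 𝓔.NB A) + ((b : ℝ) + 1) * κ ^ 2 * (8 * ((b : ℝ) + 1) ^ 3 * (b + 1).factorial * 𝓔.M.card) := by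
        linarith
    _ = _ := by rw [← e5]; ring

/-- the final constant -/
def t2KF (b : ℕ) (cg Z C0 co : ℝ) : ℝ :=
  4 * (1 + 3 * (b : ℝ) / cg ^ 2 * ((100 * ((b : ℝ) + 1)) ^ 2 + (2 * ((b + 1 + Z) * C0 + 1)) ^ 2)) * (12 * ((b : ℝ) + 1) ^ 2 * t2KY b C0 co + 8 * ((b : ℝ) + 1) ^ 4 + 1)

theorem t2close_eqns_cite : True := by
  have := @t2KY.eq_1
  have := @t2KF.eq_1
  trivial

/-- the arithmetic of the closing -/
theorem t2close_arith {S2 SY NB W E Mc a β c3 L T κ KY R : ℝ} (hS2 : 0 ≤ S2) (hSY : 0 ≤ SY) (hNB : 0 ≤ NB) (hW : 0 ≤ W) (hE : 0 ≤ E) (hMc : 0 ≤ Mc)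
    (ha : 0 ≤ a) (hβ : 2 ≤ β) (hc3 : 0 ≤ c3) (hκ0 : 0 ≤ κ) (hκ : κ ≤ 1 / 36) (hKY : 0 ≤ KY)
    (hab : a * β ≤ 3 / 5) (hw : β * c3 * (L ^ 2 * κ ^ 2) ≤ 1 / 4)
    (hR : R = (β + 1) * κ ^ 2 * E + (β + 1) * κ ^ 2 * NB + 8 * (β + 1) ^ 4 * κ ^ 2 * Mc)
    (hrec : S2 ≤ a * (β * S2 + β * (β - 1) * (c3 * (L ^ 2 * κ ^ 2 * S2 + L ^ 2 * SY + T ^ 2 * NB))) + 11 * (β + 1) ^ 2 * KY * W + R)
    (hY : SY ≤ KY * W + R) :
    S2 ≤ 4 * (1 + β * c3 * (L ^ 2 + T ^ 2)) * (12 * (β + 1) ^ 2 * KY + 8 * (β + 1) ^ 4 + 1) * (W + E + NB + Mc) := by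
  have hβ1 : 1 ≤ (β + 1) := by linarith
  have hp2 : 1 ≤ (β + 1) ^ 2 := one_le_pow₀ hβ1
  have hp4 : (β + 1) ≤ (β + 1) ^ 4 := by
    calc (β + 1) = (β + 1) ^ 1 := (pow_one _).symm
      _ ≤ (β + 1) ^ 4 := pow_le_pow_right₀ hβ1 (by norm_num)
  obtain ⟨p2, hp2d⟩ : ∃ p2, p2 = (β + 1) ^ 2 := ⟨_, rfl⟩
  obtain ⟨p4, hp4d⟩ : ∃ p4, p4 = (β + 1) ^ 4 := ⟨_, rfl⟩
  rw [← hp2d] at hp2 hrec ⊢
  rw [← hp4d] at hp4 hR ⊢
  obtain ⟨P, hP⟩ : ∃ P, P = 12 * p2 * KY + 8 * p4 + 1 := ⟨_, rfl⟩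
  obtain ⟨X, hX⟩ : ∃ X, X = W + E + NB + Mc := ⟨_, rfl⟩
  rw [← hP, ← hX]
  have hκ2 : κ ^ 2 ≤ 1 := by nlinarith
  have hκ20 : 0 ≤ κ ^ 2 := sq_nonneg κ
  have hp40 : 0 ≤ p4 := by linarith
  have hp20 : 0 ≤ p2 := by linarith
  have hKY2 : KY ≤ p2 * KY := le_mul_of_one_le_left hKY hp2
  have hX0 : 0 ≤ X := by rw [hX]; positivity
  have hP1 : 1 ≤ P := by
    rw [hP]
    have := mul_nonneg hp20 hKY
    linarith
  have hR1 : R ≤ 8 * p4 * (E + NB + Mc) := by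
    rw [hR]
    have e0 : (β + 1) * κ ^ 2 ≤ (β + 1) * 1 := mul_le_mul_of_nonneg_left hκ2 (by linarith)
    have e1 : (β + 1) * κ ^ 2 ≤ 8 * p4 := by linarith
    have e2 : 8 * p4 * κ ^ 2 ≤ 8 * p4 * 1 := mul_le_mul_of_nonneg_left hκ2 (by linarith)
    have f1 := mul_le_mul_of_nonneg_right e1 hE
    have f2 := mul_le_mul_of_nonneg_right e1 hNB
    have f3 := mul_le_mul_of_nonneg_right e2 hMc
    linarith
  have hR0 : 0 ≤ R := by
    rw [hR]
    have : 0 ≤ β + 1 := by linarith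
    positivity
  have g1 : 0 ≤ p2 * KY * W := by positivity
  have g2 : 0 ≤ p2 * KY * (E + NB + Mc) := by positivity
  have g3 : 0 ≤ p4 * W := by positivity
  have hPXe : P * X = 12 * (p2 * KY * W) + 12 * (p2 * KY * (E + NB + Mc)) + 8 * (p4 * W) + 8 * p4 * (E + NB + Mc) + X := by
    rw [hP, hX]; ring
  have hA1 : 11 * p2 * KY * W + R ≤ P * X := by
    rw [hPXe]
    linarith
  have hA2 : SY ≤ P * X := by
    refine hY.trans ?_
    rw [hPXe]
    have g4 : KY * W ≤ p2 * KY * W := mul_le_mul_of_nonneg_right hKY2 hW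
    linarith
  have hA3 : NB ≤ P * X := by
    have h1 : NB ≤ X := by rw [hX]; linarith
    have h2 : 1 * X ≤ P * X := mul_le_mul_of_nonneg_right hP1 hX0
    linarith
  have hPX : 0 ≤ P * X := by positivity
  -- expand the recursion
  obtain ⟨u, hu⟩ : ∃ u, u = a * β := ⟨_, rfl⟩
  have hu0 : 0 ≤ u := by rw [hu]; positivity
  rw [← hu] at hab
  have e1 : a * (β * S2 + β * (β - 1) * (c3 * (L ^ 2 * κ ^ 2 * S2 + L ^ 2 * SY + T ^ 2 * NB)))
      = u * S2 + u * (((β - 1) * c3 * (L ^ 2 * κ ^ 2)) * S2) + u * ((β - 1) * c3 * (L ^ 2 * SY + T ^ 2 * NB)) := by rw [hu]; ring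
  rw [e1] at hrec
  have hL0 : 0 ≤ c3 * (L ^ 2 * κ ^ 2) := by positivity
  have w1 : (β - 1) * c3 * (L ^ 2 * κ ^ 2) ≤ 1 / 4 := by
    have : (β - 1) * c3 * (L ^ 2 * κ ^ 2) = β * c3 * (L ^ 2 * κ ^ 2) - c3 * (L ^ 2 * κ ^ 2) := by ring
    linarith
  have w0 : 0 ≤ (β - 1) * c3 * (L ^ 2 * κ ^ 2) := by
    have : 0 ≤ β - 1 := by linarith
    positivity
  have t1 : u * S2 ≤ 3 / 5 * S2 := mul_le_mul_of_nonneg_right hab hS2
  have t2 : u * (((β - 1) * c3 * (L ^ 2 * κ ^ 2)) * S2) ≤ 3 / 5 * (1 / 4 * S2) :=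
    mul_le_mul hab (mul_le_mul_of_nonneg_right w1 hS2) (by positivity) (by norm_num)
  have t3 : u * ((β - 1) * c3 * (L ^ 2 * SY + T ^ 2 * NB)) ≤ 1 * (β * c3 * ((L ^ 2 + T ^ 2) * (P * X))) := by
    have h1 : L ^ 2 * SY + T ^ 2 * NB ≤ (L ^ 2 + T ^ 2) * (P * X) := by
      have := mul_le_mul_of_nonneg_left hA2 (sq_nonneg L)
      have := mul_le_mul_of_nonneg_left hA3 (sq_nonneg T)
      linarith
    have h2 : 0 ≤ L ^ 2 * SY + T ^ 2 * NB := by positivity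
    have h3 : (β - 1) * c3 ≤ β * c3 := mul_le_mul_of_nonneg_right (by linarith) hc3
    have h4 : 0 ≤ (β - 1) * c3 := mul_nonneg (by linarith) hc3
    exact mul_le_mul (by linarith) (mul_le_mul h3 h1 h2 (by positivity)) (by positivity) (by norm_num)
  have fin : 1 / 4 * S2 ≤ β * c3 * ((L ^ 2 + T ^ 2) * (P * X)) + P * X := by linarith
  calc S2 = 4 * (1 / 4 * S2) := by ring
    _ ≤ 4 * (β * c3 * ((L ^ 2 + T ^ 2) * (P * X)) + P * X) := by linarith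
    _ = _ := by ring

/-- **EXPORT E1 (T2-closing)**:   `E[Θ F2] ≤ C (C0/y + ε_Θ + δ + 1/n)`, unnormalised (divide by `n d #M`).
PLAN: `t2e_rec` + `t2e_mean` + `t2_close_Y`.   `q b (11/10) ≤ (|g| + κ)² (11/10) ≤ 0.6` (`b |g|² ≤ 1`, `|g|² ≤ 1/2`, `κ ≤ 1/36`); the `κ² S2` part of `|S1|²/N` has the coefficient `≤ 0.6 (b-1) 3 (100 d)² κ²/cg² ≤ 0.15` by `hκ2`;
so `(1/4) ∑ Θ S2 ≤` the rest. -/
theorem t2_close_F {𝓔 : T2Ens V} {b : ℕ} {z g : ℂ} {cg Z C0 κ co : ℝ} (hp : T2Par b z g cg Z) (h : T2Hyp 𝓔 b z g C0 κ) (hκ0 : 0 ≤ κ) (hκ : κ ≤ 1 / 36)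
    (hκ2 : 12 * (100 * ((b : ℝ) + 1)) ^ 2 * b * κ ^ 2 ≤ cg ^ 2) (hco : 0 < co) (hco' : co ≤ (‖g‖ - κ) / 2) (hc : Fintype.card ι = b + 1) :
    ∑ A ∈ 𝓔.M, 𝓔.Θ A * 𝓔.S2 z g A
      ≤ t2KF b cg Z C0 co * (C0 / z.im * 𝓔.M.card + 𝓔.Eps ι (b + 1) / (b + 1).factorial + ∑ A ∈ 𝓔.M, 𝓔.NB A + 𝓔.M.card) := by
  classical
  have hrec := t2e_rec (ι := ι) hp h hκ0 hκ hco hco' hc
  have hY := t2_close_Y (ι := ι) hp h hκ0 hκ hco hco' hc
  have hA0 : ∀ A ∈ 𝓔.M, ∀ x y, 0 ≤ A x y := fun A hA x y => by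
    rcases ((h.mem A).1 hA).zo x y with h' | h' <;> simp [h']
  have hS2 : ∀ A ∈ 𝓔.M, 0 ≤ 𝓔.S2 z g A := fun A hA =>
    Finset.sum_nonneg fun x _ => Finset.sum_nonneg fun y _ => mul_nonneg (hA0 A hA x y) (by positivity)
  have hSY : ∀ A ∈ 𝓔.M, 0 ≤ 𝓔.SY z A := fun A hA =>
    Finset.sum_nonneg fun x _ => Finset.sum_nonneg fun y _ => mul_nonneg (hA0 A hA x y) (by positivity)
  have hNB : ∀ A ∈ 𝓔.M, 0 ≤ 𝓔.NB A := fun A hA =>
    Finset.sum_nonneg fun x _ => Finset.sum_nonneg fun y _ => mul_nonneg (hA0 A hA x y) (by split_ifs <;> norm_num)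
  have hEps : 0 ≤ 𝓔.Eps ι (b + 1) :=
    Finset.sum_nonneg fun A hA => t2x_nonneg ((h.mem A).1 hA) fun m => by split_ifs <;> positivity
  have hcg := hp.cg0
  have hb2 : (2 : ℝ) ≤ b := by exact_mod_cast hp.b2
  obtain ⟨L, hL⟩ : ∃ L : ℝ, L = 100 * ((b : ℝ) + 1) := ⟨_, rfl⟩
  obtain ⟨T, hT⟩ : ∃ T : ℝ, T = 2 * ((b + 1 + Z) * C0 + 1) := ⟨_, rfl⟩
  obtain ⟨N, hN⟩ : ∃ N : ℝ, N = Fintype.card V * ((b : ℝ) + 1) := ⟨_, rfl⟩
  have hN0 : 0 ≤ N := by rw [hN]; positivity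
  -- per matrix
  have hper : ∀ A ∈ 𝓔.M, 𝓔.Θ A * (b * 𝓔.S2 z g A + b * (b - 1) * ‖𝓔.S1 z g A‖ ^ 2 / N)
      ≤ b * (𝓔.Θ A * 𝓔.S2 z g A) + b * (b - 1) * (3 / cg ^ 2 * (L ^ 2 * κ ^ 2 * (𝓔.Θ A * 𝓔.S2 z g A) + L ^ 2 * (𝓔.Θ A * 𝓔.SY z A) + T ^ 2 * 𝓔.NB A)) := by
    intro A hA
    have hb1 : (0 : ℝ) ≤ b * (b - 1) := mul_nonneg (by linarith) (by linarith)
    rcases (h.th0 A).eq_or_lt with h0 | h0
    · rw [← h0]
      simp only [zero_mul, mul_zero, zero_add]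
      have := hNB A hA
      positivity
    · have hm := t2e_mean hp h hκ0 hκ hA h0
      rw [← hL, ← hT, ← hN] at hm
      obtain ⟨Q, hQ⟩ : ∃ Q, Q = L ^ 2 * κ ^ 2 * 𝓔.S2 z g A + L ^ 2 * 𝓔.SY z A + T ^ 2 * 𝓔.NB A := ⟨_, rfl⟩
      rw [← hQ] at hm
      have hQ0 : 0 ≤ Q := by
        rw [hQ]
        have := hS2 A hA
        have := hSY A hA
        have := hNB A hA
        positivity
      have h1 : ‖𝓔.S1 z g A‖ ^ 2 / N ≤ 3 / cg ^ 2 * Q := by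
        rcases hN0.eq_or_lt with hN1 | hN1
        · rw [← hN1, div_zero]
          positivity
        · rw [div_le_iff₀ hN1, div_mul_eq_mul_div, div_mul_eq_mul_div, le_div_iff₀ (by positivity)]
          linarith
      have h2 : 𝓔.Θ A * (T ^ 2 * 𝓔.NB A) ≤ 1 * (T ^ 2 * 𝓔.NB A) :=
        mul_le_mul_of_nonneg_right (h.th1 A) (mul_nonneg (sq_nonneg T) (hNB A hA))
      have h3 : 𝓔.Θ A * (b * (b - 1) * (‖𝓔.S1 z g A‖ ^ 2 / N)) ≤ 𝓔.Θ A * (b * (b - 1) * (3 / cg ^ 2 * Q)) :=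
        mul_le_mul_of_nonneg_left (mul_le_mul_of_nonneg_left h1 hb1) h0.le
      have h4 : (b : ℝ) * (b - 1) * (3 / cg ^ 2) * (𝓔.Θ A * (T ^ 2 * 𝓔.NB A)) ≤ b * (b - 1) * (3 / cg ^ 2) * (1 * (T ^ 2 * 𝓔.NB A)) :=
        mul_le_mul_of_nonneg_left h2 (by positivity)
      calc 𝓔.Θ A * (b * 𝓔.S2 z g A + b * (b - 1) * ‖𝓔.S1 z g A‖ ^ 2 / N)
          = b * (𝓔.Θ A * 𝓔.S2 z g A) + 𝓔.Θ A * (b * (b - 1) * (‖𝓔.S1 z g A‖ ^ 2 / N)) := by ring
        _ ≤ b * (𝓔.Θ A * 𝓔.S2 z g A) + 𝓔.Θ A * (b * (b - 1) * (3 / cg ^ 2 * Q)) := by linarith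
        _ = b * (𝓔.Θ A * 𝓔.S2 z g A) + b * (b - 1) * (3 / cg ^ 2 * (L ^ 2 * κ ^ 2 * (𝓔.Θ A * 𝓔.S2 z g A) + L ^ 2 * (𝓔.Θ A * 𝓔.SY z A)))
            + (b : ℝ) * (b - 1) * (3 / cg ^ 2) * (𝓔.Θ A * (T ^ 2 * 𝓔.NB A)) := by rw [hQ]; ring
        _ ≤ b * (𝓔.Θ A * 𝓔.S2 z g A) + b * (b - 1) * (3 / cg ^ 2 * (L ^ 2 * κ ^ 2 * (𝓔.Θ A * 𝓔.S2 z g A) + L ^ 2 * (𝓔.Θ A * 𝓔.SY z A)))
            + (b : ℝ) * (b - 1) * (3 / cg ^ 2) * (1 * (T ^ 2 * 𝓔.NB A)) := by linarith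
        _ = _ := by ring
  have hsum : ∑ A ∈ 𝓔.M, 𝓔.Θ A * (b * 𝓔.S2 z g A + b * (b - 1) * ‖𝓔.S1 z g A‖ ^ 2 / N)
      ≤ b * (∑ A ∈ 𝓔.M, 𝓔.Θ A * 𝓔.S2 z g A) + b * (b - 1) * (3 / cg ^ 2 * (L ^ 2 * κ ^ 2 * (∑ A ∈ 𝓔.M, 𝓔.Θ A * 𝓔.S2 z g A)
          + L ^ 2 * (∑ A ∈ 𝓔.M, 𝓔.Θ A * 𝓔.SY z A) + T ^ 2 * ∑ A ∈ 𝓔.M, 𝓔.NB A)) := by
    refine (Finset.sum_le_sum hper).trans (le_of_eq ?_)
    simp only [Finset.mul_sum, ← Finset.sum_add_distrib]
  rw [← hN] at hrec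
  obtain ⟨a, ha⟩ : ∃ a : ℝ, a = ((‖g‖ + κ) * ‖g‖) ^ 2 * (11 / 10) := ⟨_, rfl⟩
  rw [← ha] at hrec
  have ha0 : 0 ≤ a := by rw [ha]; positivity
  have hab : a * b ≤ 3 / 5 := by
    have h1 := t2par_sq hp
    have h2 := hp.le
    have h3 := norm_nonneg g
    have h4 : ‖g‖ ≤ 0.7072 := by
      by_contra hc'
      push Not at hc'
      nlinarith
    have h5 : (‖g‖ + κ) ^ 2 ≤ 6 / 11 := by
      have : ‖g‖ + κ ≤ 0.735 := by linarith
      have h6 : 0 ≤ ‖g‖ + κ := by positivity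
      nlinarith
    have e : a * b = (‖g‖ + κ) ^ 2 * (b * ‖g‖ ^ 2) * (11 / 10) := by rw [ha]; ring
    rw [e]
    have h7 : (‖g‖ + κ) ^ 2 * (b * ‖g‖ ^ 2) ≤ 6 / 11 * 1 := mul_le_mul h5 h2 (by positivity) (by norm_num)
    linarith
  have hw : (b : ℝ) * (3 / cg ^ 2) * (L ^ 2 * κ ^ 2) ≤ 1 / 4 := by
    rw [← hL] at hκ2
    have e : (b : ℝ) * (3 / cg ^ 2) * (L ^ 2 * κ ^ 2) = (3 * (L ^ 2 * b * κ ^ 2)) / cg ^ 2 := by ring
    rw [e, div_le_iff₀ (by positivity)]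
    linarith
  have hKY : 0 ≤ t2KY b C0 co := by unfold t2KY; positivity
  have hfin := t2close_arith (S2 := ∑ A ∈ 𝓔.M, 𝓔.Θ A * 𝓔.S2 z g A) (SY := ∑ A ∈ 𝓔.M, 𝓔.Θ A * 𝓔.SY z A) (NB := ∑ A ∈ 𝓔.M, 𝓔.NB A)
    (W := C0 / z.im * 𝓔.M.card) (E := 𝓔.Eps ι (b + 1) / (b + 1).factorial) (Mc := 𝓔.M.card) (a := a) (β := b) (c3 := 3 / cg ^ 2) (L := L) (T := T) (κ := κ)
    (KY := t2KY b C0 co) (R := _)
    (Finset.sum_nonneg fun A hA => mul_nonneg (h.th0 A) (hS2 A hA)) (Finset.sum_nonneg fun A hA => mul_nonneg (h.th0 A) (hSY A hA))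
    (Finset.sum_nonneg hNB) (by have := h.c0; have := hp.im; positivity) (by positivity) (by positivity) ha0 hb2 (by positivity) hκ0 hκ hKY hab hw rfl
    (by
      have := mul_le_mul_of_nonneg_left hsum ha0
      have e : 11 * ((b : ℝ) + 1) ^ 2 * t2KY b C0 co * C0 / z.im * 𝓔.M.card = 11 * ((b : ℝ) + 1) ^ 2 * t2KY b C0 co * (C0 / z.im * 𝓔.M.card) := by ring
      linarith)
    (by
      have e : t2KY b C0 co * C0 / z.im * 𝓔.M.card = t2KY b C0 co * (C0 / z.im * 𝓔.M.card) := by ring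
      linarith)
  refine hfin.trans (le_of_eq ?_)
  unfold t2KF
  rw [hL, hT]
  ring

/-! ## 14. the star -/

/-- functions of the base vertex.   PLAN: `t2k_tot`, `t2P_sum`, `t2k_en_card`. -/
theorem t2x_o {A : Matrix V V ℝ} {d : ℕ} (hA : T2Reg A d) (hd : 0 < d) (hc : Fintype.card ι = d) (f : V → ℝ) :
    t2Ex A d (fun m : T2Mk V ι => f m.1) = d.factorial * ∑ o, f o := by
  classical
  unfold t2Ex
  rw [Finset.mul_sum]
  refine Finset.sum_congr rfl fun o _ => ?_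
  have : Nonempty V := ⟨o⟩
  have e : ∀ t : ι → V, (if T2En A o t then ∑ u : ι → V, ∑ v : ι → V, (∏ a, t2P A d (u a) (v a)) * f o else 0)
      = f o * (if T2En A o t then (1 : ℝ) else 0) := by
    intro t
    split_ifs
    · simp only [← Finset.sum_mul]
      rw [t2k_tot _ (t2P_sum hA hd)]
      ring
    · simp
  simp only [e]
  rw [← Finset.mul_sum, t2k_en_card hA hc o, mul_comm]

/-- all edges at `o` are good -/
def T2Ens.Gv (𝓔 : T2Ens V) (A : Matrix V V ℝ) (o : V) : Prop := ∀ y, A o y = 1 → 𝓔.Gd A o y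

open Classical in
/-- `∑_o [o good] StD_o` -/
def T2Ens.SS (𝓔 : T2Ens V) (z g m : ℂ) (A : Matrix V V ℝ) : ℝ := ∑ o, (if 𝓔.Gv A o then t2St A z g m o else 0)

theorem t2ens2_eqns_cite : True := by
  have := @T2Ens.Gv.eq_1
  have := @T2Ens.SS.eq_1
  trivial

theorem t2St_nonneg (A : Matrix V V ℝ) (z g m : ℂ) (o : V) : 0 ≤ t2St A z g m o := by
  unfold t2St
  exact Finset.sum_nonneg fun x _ => Finset.sum_nonneg fun y _ => by split_ifs <;> positivity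

/-- the trivial bound of the star deviation -/
theorem t2St_le {b : ℕ} {z g m : ℂ} {cg Z : ℝ} (hp : T2Par b z g cg Z) (hm : m * (1 - g ^ 2) = g) {A : Matrix V V ℝ} (hA : T2Reg A (b + 1)) {C0 : ℝ}
    (hbd : ∀ x y, ‖rsG A z x y‖ ≤ C0) (o : V) : t2St A z g m o ≤ ((b : ℝ) + 2) ^ 2 * (C0 + 2) ^ 2 := by
  classical
  have hgm := t2par_gm hp hm
  have hC0 : 0 ≤ C0 := (norm_nonneg _).trans (hbd o o)
  have htv : ∀ k, ‖t2Tv g m k‖ ≤ 2 := by
    intro k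
    unfold t2Tv
    rw [norm_mul, norm_pow, norm_neg]
    have h1 : ‖g‖ ^ k ≤ 1 := pow_le_one₀ (norm_nonneg _) (by linarith [hgm.1])
    calc ‖m‖ * ‖g‖ ^ k ≤ 3 / 2 * 1 := mul_le_mul hgm.2 h1 (by positivity) (by norm_num)
      _ ≤ 2 := by norm_num
  have hterm : ∀ x y, ‖rsG A z x y - t2Tv g m (t2Sd o x y)‖ ^ 2 ≤ (C0 + 2) ^ 2 := by
    intro x y
    refine pow_le_pow_left₀ (norm_nonneg _) ?_ 2
    exact (norm_sub_le _ _).trans (add_le_add (hbd x y) (htv _))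
  have hcard : ∑ x, (if x = o ∨ A o x = 1 then (1 : ℝ) else 0) = (b : ℝ) + 2 := by
    rw [Finset.sum_boole, t2_star_card hA o]
    push_cast; ring
  unfold t2St
  calc ∑ x, ∑ y, (if (x = o ∨ A o x = 1) ∧ (y = o ∨ A o y = 1) then ‖rsG A z x y - t2Tv g m (t2Sd o x y)‖ ^ 2 else 0)
      ≤ ∑ x, ∑ y, (if x = o ∨ A o x = 1 then (1 : ℝ) else 0) * ((if y = o ∨ A o y = 1 then (1 : ℝ) else 0) * (C0 + 2) ^ 2) := by
        refine Finset.sum_le_sum fun x _ => Finset.sum_le_sum fun y _ => ?_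
        by_cases hx : x = o ∨ A o x = 1 <;> by_cases hy : y = o ∨ A o y = 1
        · rw [if_pos ⟨hx, hy⟩, if_pos hx, if_pos hy]; linarith [hterm x y]
        · rw [if_neg (fun hh => hy hh.2), if_neg hy]; simp
        · rw [if_neg (fun hh => hx hh.1), if_neg hx]; simp
        · rw [if_neg (fun hh => hx hh.1), if_neg hx]; simp
    _ = ((b : ℝ) + 2) ^ 2 * (C0 + 2) ^ 2 := by
        simp only [← Finset.mul_sum, ← Finset.sum_mul, hcard]
        ring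

theorem t2KS_nonneg (d : ℕ) (C0 co : ℝ) : 0 ≤ t2KS d C0 co := by
  unfold t2KS
  positivity

open Classical in
/-- **pointwise inequality for the star, with weights** (valid marks).   PLAN: as `t2e_pt_F`; trivial bound `t2St ≤ (d+1)² (C0 + 2)²` on `{Θ > 0}` (`|t2Tv| ≤ |m| ≤ 2`; `#star = d+1`);
main case `t2_rec_star` with `co ≤ (|g|-κ)/2 ≤ |G^_oo|` (`t2good_diag` at the good edge `(o, u a0)`, `ι` is not empty). -/
theorem t2e_pt_S {𝓔 : T2Ens V} {b : ℕ} {z g m : ℂ} {cg Z C0 κ co : ℝ} (hp : T2Par b z g cg Z) (hm : m * (1 - g ^ 2) = g) (h : T2Hyp 𝓔 b z g C0 κ) (hκ0 : 0 ≤ κ) (hκ : κ ≤ 1 / 36)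
    (hco : 0 < co) (hco' : co ≤ (‖g‖ - κ) / 2) {A : Matrix V V ℝ} (hA : A ∈ 𝓔.M) {mk : T2Mk V ι} (hm' : T2ValM A mk) :
    𝓔.Θ (t2SwM A mk) * (if 𝓔.Gv (t2SwM A mk) mk.1 then t2St (t2SwM A mk) z g m mk.1 else 0)
      ≤ t2KS (b + 1) C0 co * (𝓔.Θ A * ∑ a, ‖𝓔.xi z g A (mk.2.2.1 a) (mk.2.2.2 a)‖ ^ 2
          + (if T2ValM A mk ∧ 0 < 𝓔.Θ A ∧ 0 < 𝓔.Θ (t2SwM A mk) then t2Et A z mk.1 mk.2.1 mk.2.2.1 mk.2.2.2 ^ 2 else 0))
        + ((b : ℝ) + 2) ^ 2 * (C0 + 2) ^ 2 * |𝓔.Θ (t2SwM A mk) - 𝓔.Θ A|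
        + ((b : ℝ) + 2) ^ 2 * (C0 + 2) ^ 2 * ∑ a, (if 𝓔.Gd A (mk.2.2.1 a) (mk.2.2.2 a) then 0 else 1) := by
  have hA' := t2e_sw_mem h hA hm'
  have hK := t2KS_nonneg (b + 1) C0 co
  have key := t2e_pt_gen (Th := 𝓔.Θ (t2SwM A mk)) (TA := 𝓔.Θ A) (W := if 𝓔.Gv (t2SwM A mk) mk.1 then t2St (t2SwM A mk) z g m mk.1 else 0)
    (B := ((b : ℝ) + 2) ^ 2 * (C0 + 2) ^ 2)
    (R1 := t2KS (b + 1) C0 co * ∑ a, ‖𝓔.xi z g A (mk.2.2.1 a) (mk.2.2.2 a)‖ ^ 2)
    (R2 := t2KS (b + 1) C0 co * t2Et A z mk.1 mk.2.1 mk.2.2.1 mk.2.2.2 ^ 2)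
    (nb := ∑ a, (if 𝓔.Gd A (mk.2.2.1 a) (mk.2.2.2 a) then (0 : ℝ) else 1)) (P := ∀ a, 𝓔.Gd A (mk.2.2.1 a) (mk.2.2.2 a))
    (h.th0 _) (h.th1 _) (h.th0 _) (h.th1 _) (by split_ifs <;> [exact t2St_nonneg _ _ _ _ _; exact le_rfl]) (by positivity)
    (mul_nonneg hK (Finset.sum_nonneg fun a _ => by positivity)) (mul_nonneg hK (by positivity)) (t2e_nb 𝓔 A mk).1 (t2e_nb 𝓔 A mk).2
    (by
      intro hT
      split_ifs with hg
      · exact t2St_le hp hm ((h.mem _).1 hA') (h.bd _ hA' hT) _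
      · positivity)
    (by
      intro hT hTA hP
      have es : ∑ a, ‖𝓔.xi z g A (mk.2.2.1 a) (mk.2.2.2 a)‖ ^ 2 = ∑ a, ‖t2X A z (mk.2.2.1 a) (mk.2.2.2 a) - g‖ ^ 2 := by
        refine Finset.sum_congr rfl fun a _ => ?_
        unfold T2Ens.xi
        rw [if_pos (hP a)]
      rw [es]
      split_ifs with hg
      · have hcard := t2en_card ((h.mem A).1 hA) (T2Val.toEn hm')
        have hne : Nonempty ι := by
          rw [← Fintype.card_pos_iff, hcard]; exact Nat.succ_pos b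
        obtain ⟨a0⟩ := hne
        have hot : t2SwM A mk mk.1 (mk.2.2.1 a0) = 1 := (t2sw_val hm').ot a0
        have hgood := h.gd _ hA' hT _ _ (hg _ hot)
        have hdiag := t2good_diag hp ((h.mem _).1 hA').herm hgood hκ
        have k := t2_rec_star hp hm ((h.mem A).1 hA) hm' hκ (h.bd A hA hTA) (h.bd _ hA' hT) hco (hco'.trans hdiag) (fun a => h.gd A hA hTA _ _ (hP a))
        refine k.trans (le_of_eq ?_)
        ring
      · exact add_nonneg (mul_nonneg hK (Finset.sum_nonneg fun a _ => by positivity)) (mul_nonneg hK (by positivity)))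
  refine key.trans (le_of_eq ?_)
  by_cases c : 0 < 𝓔.Θ A ∧ 0 < 𝓔.Θ (t2SwM A mk)
  · rw [if_pos c, if_pos ⟨hm', c⟩]; ring
  · rw [if_neg c, if_neg (fun hc => c hc.2)]; ring

/-- **EXPORT E2 (typical star)**, unnormalised.   PLAN: as `t2_close_Y` with `t2x_o`, `t2e_pt_S`; `t2Ex (∑_a |ξ~_a|²) = d! S2` (`t2x_far1`). -/
theorem t2_close_S {𝓔 : T2Ens V} {b : ℕ} {z g m : ℂ} {cg Z C0 κ co : ℝ} (hp : T2Par b z g cg Z) (hm : m * (1 - g ^ 2) = g) (h : T2Hyp 𝓔 b z g C0 κ) (hκ0 : 0 ≤ κ) (hκ : κ ≤ 1 / 36)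
    (hco : 0 < co) (hco' : co ≤ (‖g‖ - κ) / 2) (hc : Fintype.card ι = b + 1) :
    ∑ A ∈ 𝓔.M, 𝓔.Θ A * 𝓔.SS z g m A
      ≤ t2KS (b + 1) C0 co * (∑ A ∈ 𝓔.M, 𝓔.Θ A * 𝓔.S2 z g A + 144 * ((b : ℝ) + 1) ^ 4 * C0 / z.im * 𝓔.M.card)
        + ((b : ℝ) + 2) ^ 2 * (C0 + 2) ^ 2 * (𝓔.Eps ι (b + 1) / (b + 1).factorial + ∑ A ∈ 𝓔.M, 𝓔.NB A + 8 * ((b : ℝ) + 1) ^ 3 * 𝓔.M.card) := by
  classical
  have hK := t2KS_nonneg (b + 1) C0 co
  have hB : 0 ≤ ((b : ℝ) + 2) ^ 2 * (C0 + 2) ^ 2 := by positivity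
  have key := t2e_close_gen (ι := ι) h hp.im hc (fun A mk => 𝓔.Θ A * (if 𝓔.Gv A mk.1 then t2St A z g m mk.1 else 0))
    (fun A mk => t2KS (b + 1) C0 co * (𝓔.Θ A * ∑ a, ‖𝓔.xi z g A (mk.2.2.1 a) (mk.2.2.2 a)‖ ^ 2))
    (B := ((b : ℝ) + 2) ^ 2 * (C0 + 2) ^ 2) (B' := ((b : ℝ) + 2) ^ 2 * (C0 + 2) ^ 2) (c2 := t2KS (b + 1) C0 co)
    hB hB hK (fun A _ mk => mul_nonneg hK (mul_nonneg (h.th0 A) (Finset.sum_nonneg fun a _ => by positivity)))
    (by
      intro A hA mk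
      by_cases hΘ : 0 < 𝓔.Θ A
      · have h1 : (if 𝓔.Gv A mk.1 then t2St A z g m mk.1 else 0) ≤ ((b : ℝ) + 2) ^ 2 * (C0 + 2) ^ 2 := by
          split_ifs
          · exact t2St_le hp hm ((h.mem _).1 hA) (h.bd _ hA hΘ) _
          · exact hB
        calc 𝓔.Θ A * (if 𝓔.Gv A mk.1 then t2St A z g m mk.1 else 0) ≤ 1 * (((b : ℝ) + 2) ^ 2 * (C0 + 2) ^ 2) :=
              mul_le_mul (h.th1 A) h1 (by split_ifs <;> [exact t2St_nonneg _ _ _ _ _; exact le_rfl]) zero_le_one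
          _ = _ := one_mul _
      · have : 𝓔.Θ A = 0 := le_antisymm (not_lt.1 hΘ) (h.th0 A)
        simp only [this, zero_mul]
        exact hB)
    (by
      intro A hA mk hmk
      show 𝓔.Θ (t2SwM A mk) * (if 𝓔.Gv (t2SwM A mk) mk.1 then t2St (t2SwM A mk) z g m mk.1 else 0) ≤ _
      refine (t2e_pt_S hp hm h hκ0 hκ hco hco' hA hmk).trans (le_of_eq ?_)
      ring)
  have eL : ∀ A ∈ 𝓔.M, t2Ex A (b + 1) (fun mk : T2Mk V ι => 𝓔.Θ A * (if 𝓔.Gv A mk.1 then t2St A z g m mk.1 else 0)) = (b + 1).factorial * (𝓔.Θ A * 𝓔.SS z g m A) := by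
    intro A hA
    rw [t2x_smul, t2x_o ((h.mem A).1 hA) (Nat.succ_pos b) hc (fun o => if 𝓔.Gv A o then t2St A z g m o else 0)]
    unfold T2Ens.SS
    ring
  have eM : ∀ A ∈ 𝓔.M, t2Ex A (b + 1) (fun mk : T2Mk V ι => t2KS (b + 1) C0 co * (𝓔.Θ A * ∑ a, ‖𝓔.xi z g A (mk.2.2.1 a) (mk.2.2.2 a)‖ ^ 2))
      = (b + 1).factorial * (t2KS (b + 1) C0 co * (𝓔.Θ A * 𝓔.S2 z g A)) := by
    intro A hA
    rw [t2x_smul, t2x_smul, t2e_far_sum ((h.mem A).1 hA) (Nat.succ_pos b) hc (fun x y => ‖𝓔.xi z g A x y‖ ^ 2)]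
    unfold T2Ens.S2
    ring
  rw [Finset.sum_congr rfl eL, Finset.sum_congr rfl eM, ← Finset.mul_sum, ← Finset.mul_sum, ← Finset.mul_sum] at key
  have hD : (0 : ℝ) < (b + 1).factorial := by exact_mod_cast Nat.factorial_pos _
  refine le_of_mul_le_mul_left (key.trans (le_of_eq ?_)) hD
  field_simp
  ring

end

end Claimed.Agent.R287
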