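-- KEEP
import Claimed.Agent.R287.T2c
import Claimed.Agent.R287.TreeRg270
import Claimed.Agent.R287.B1x270
import Claimed.Agent.R287.Loc222b

/-!
# Row 287 (S0534), B1-lite, block T2, file D: GRAPH LEVEL, THE WEIGHT, GLUE TO THE CONTRACT `b1_T2`      (helper284; prefix `t2g`, `t2w`)
Source: `origin/helper284:notes/R287/T2plan_284.md` sec. 5.
* sec. 15  graphs <-> `0/1` matrices;      * sec. 16  parameters (`T2Par` for `rgg`);      * sec. 17  the weight `Θ = 1{structure} 1{T1 at κ0/2} θ(y^(1/8) Fφ)`;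
* sec. 18  stability of the weight: FS (forward stability of T1 under a finite modification), stability of `Fφ` (Ward), `ε_Θ`;      * sec. 19  `rgF2`, `rgStarF` from `S2`, `SY`, `SS`;      * sec. 20  `b1_T2'`.
-/

set_option autoImplicit false
set_option linter.unusedSectionVars false

namespace Claimed.Agent.R287

open Claims.C0462 Matrix Finset

noncomputable section

/-! ## 15. graphs and matrices -/

theorem t2g245_A_zero {n : ℕ} (H : Gr n) {x y : Fin n} (h : ¬ H.Adj x y) : rgA H x y = 0 := by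
  classical
  unfold rgA
  rw [SimpleGraph.adjMatrix_apply, if_neg h]

/-- the trivial bound of a block -/
theorem t2g245_blk_triv {n d : ℕ} (hd : 3 ≤ d) {H : Gr n} {z : ℂ} (hz : 0 < z.im) (hbd : ∀ x y, ‖rgG H z x y‖ ≤ 14) (k : ℕ) (x y : Fin n) :
    ‖rgG H z x y - rgTv d z k‖ ≤ 16 := by
  obtain ⟨h1, h2, _⟩ := tgr_bounds hd hz
  have h3 : ‖rgTv d z k‖ ≤ 3 / 2 := by
    unfold rgTv
    rw [norm_mul, norm_pow, norm_neg]
    have : ‖rgg d z‖ ^ k ≤ 1 := pow_le_one₀ (norm_nonneg _) (by linarith)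
    calc ‖rgm d z‖ * ‖rgg d z‖ ^ k ≤ ‖rgm d z‖ * 1 := mul_le_mul_of_nonneg_left this (norm_nonneg _)
      _ ≤ 3 / 2 := by linarith
  have := norm_sub_le (rgG H z x y) (rgTv d z k)
  linarith [hbd x y]

/-- the graph of a `0/1` matrix -/
def t2Gr {n : ℕ} (A : Matrix (Fin n) (Fin n) ℝ) : Gr n where
  Adj x y := x ≠ y ∧ A x y = 1 ∧ A y x = 1
  symm := ⟨fun _ _ h => ⟨h.1.symm, h.2.2, h.2.1⟩⟩
  loopless := ⟨fun _ h => h.1 rfl⟩

open Classical in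
/-- the set of all adjacency matrices of `d`-regular graphs -/
def t2M (n d : ℕ) : Finset (Matrix (Fin n) (Fin n) ℝ) := (regularGraphs n d).image rgA

theorem t2g_eqns_cite : True := by
  have := @t2Gr.eq_1
  have := @t2M.eq_1
  trivial

theorem t2g_A_apply {n : ℕ} (H : Gr n) (x y : Fin n) : rgA H x y = 1 ↔ H.Adj x y := by
  classical
  unfold rgA
  rw [SimpleGraph.adjMatrix_apply]
  by_cases h : H.Adj x y <;> simp [h]

/-- row sums of the adjacency matrix -/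
theorem t2g_row {n : ℕ} (H : Gr n) (x : Fin n) : ∑ y, rgA H x y = tgDeg H x := by
  classical
  unfold rgA tgDeg
  simp only [SimpleGraph.adjMatrix_apply]
  rw [Finset.sum_boole]

/-- PLAN: `rg_A_herm`; `SimpleGraph.adjMatrix_apply`; row sums = degree (`b1x_mem_reg` or `SimpleGraph.adjMatrix_mulVec_const_apply`-type lemma, `IsRegularOfDegree`). -/
theorem t2g_reg {n d : ℕ} {H : Gr n} (hH : H ∈ regularGraphs n d) : T2Reg (rgA H) d := by
  classical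
  refine ⟨rg_A_herm H, fun x y => ?_, fun x => ?_, fun x => ?_⟩
  · unfold rgA
    rw [SimpleGraph.adjMatrix_apply]
    by_cases h : H.Adj x y <;> simp [h]
  · unfold rgA
    simp
  · rw [t2g_row, (b1x_mem_reg n d H).1 hH x]

theorem t2g_Gr_A {n : ℕ} (H : Gr n) : t2Gr (rgA H) = H := by
  ext x y
  show (x ≠ y ∧ rgA H x y = 1 ∧ rgA H y x = 1) ↔ H.Adj x y
  rw [t2g_A_apply, t2g_A_apply]
  exact ⟨fun h => h.2.1, fun h => ⟨h.ne, h, h.symm⟩⟩

/-- PLAN: entrywise, `hA.zo`, `hA.diag`, symmetry `rs_A_symm hA.herm`. -/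
theorem t2g_A_Gr {n d : ℕ} {A : Matrix (Fin n) (Fin n) ℝ} (hA : T2Reg A d) : rgA (t2Gr A) = A := by
  classical
  ext x y
  rcases hA.zo x y with h | h
  · rw [h]
    have hn : ¬ (t2Gr A).Adj x y := fun hh => by
      have h1 : A x y = 1 := hh.2.1
      rw [h] at h1
      norm_num at h1
    unfold rgA
    rw [SimpleGraph.adjMatrix_apply, if_neg hn]
  · rw [h, t2g_A_apply]
    refine ⟨fun hxy => ?_, h, by rw [rs_A_symm hA.herm]; exact h⟩
    rw [hxy, hA.diag] at h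
    norm_num at h

/-- PLAN: `b1x_mem_reg`: the degree is the row sum of `rgA (t2Gr A) = A`. -/
theorem t2g_mem {n d : ℕ} {A : Matrix (Fin n) (Fin n) ℝ} (hA : T2Reg A d) : t2Gr A ∈ regularGraphs n d := by
  rw [b1x_mem_reg]
  intro v
  have h := t2g_row (t2Gr A) v
  rw [t2g_A_Gr hA, hA.row v] at h
  exact_mod_cast h.symm

theorem t2g_mem_M {n d : ℕ} (A : Matrix (Fin n) (Fin n) ℝ) : A ∈ t2M n d ↔ T2Reg A d := by
  classical
  unfold t2M
  rw [Finset.mem_image]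
  constructor
  · rintro ⟨H, hH, rfl⟩
    exact t2g_reg hH
  · intro hA
    exact ⟨t2Gr A, t2g_mem hA, t2g_A_Gr hA⟩

theorem t2g_sum {n d : ℕ} (F : Matrix (Fin n) (Fin n) ℝ → ℝ) : ∑ A ∈ t2M n d, F A = ∑ H ∈ regularGraphs n d, F (rgA H) := by
  classical
  unfold t2M
  rw [Finset.sum_image]
  intro H _ H' _ h
  rw [← t2g_Gr_A H, ← t2g_Gr_A H', h]

theorem t2g_card {n d : ℕ} : (t2M n d).card = (regularGraphs n d).card := by
  classical
  unfold t2M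
  rw [Finset.card_image_of_injOn]
  intro H _ H' _ h
  rw [← t2g_Gr_A H, ← t2g_Gr_A H', h]

/-! ## 16. parameters -/

/-- PLAN: `tgr_cav`, `tgr_normSq_lt` (casts: `((b+1 : ℕ) : ℂ) - 1 = b`), `tg_one_sub_ge` + `b1x_im_ge` + `t2par_ge`-type lower bound of `|g|`;  `‖z‖ ≤ |e| + η ≤ 2 √b + 1 ≤ 2 (b+1)`. -/
theorem t2g_par (b : ℕ) (hb : 2 ≤ b) (κb : ℝ) (hκ : 0 < κb) :
    ∃ cg : ℝ, 0 < cg ∧ ∀ e η : ℝ, RgBulk (b + 1) κb e → 0 < η → η ≤ b1h κb → T2Par b (rgz e η) (rgg (b + 1) (rgz e η)) cg (2 * (b + 1)) := by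
  have hbR : (2 : ℝ) ≤ b := by exact_mod_cast hb
  refine ⟨κb / (4 * b), by positivity, fun e η he hη hh => ?_⟩
  have hz : 0 < (rgz e η).im := hη
  have hd2 : 2 ≤ b + 1 := by omega
  have hcast : (((b + 1 : ℕ) : ℝ) - 1) = b := by push_cast; ring
  have hcastC : (((b + 1 : ℕ) : ℂ) - 1) = b := by push_cast; ring
  have hcav := tgr_cav hd2 (rgz e η)
  refine ⟨hb, hz, ?_, ?_, ?_, by positivity, ?_⟩
  · have h := hcav
    unfold TgCav at h
    rw [hcastC] at h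
    exact h
  · have h := tgr_normSq_lt hd2 hz
    rw [hcast] at h
    exact h.le
  · have h1 := tg_one_sub_ge hcav hd2 hz
    have h2 := b1x_im_ge (b + 1) (by omega) hκ he hη hh
    rw [hcast] at h1 h2
    rw [hcastC] at h1
    refine le_trans ?_ h1
    obtain ⟨s, hs⟩ : ∃ s, s = Real.sqrt (κb / 8) := ⟨_, rfl⟩
    have hs2 : s * s = κb / 8 := by rw [hs]; exact Real.mul_self_sqrt (by positivity)
    have hs0 : 0 ≤ s := by rw [hs]; exact Real.sqrt_nonneg _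
    rw [← hs] at h2
    have h3 : (rgg (b + 1) (rgz e η)).im ≤ ‖rgg (b + 1) (rgz e η)‖ := (le_abs_self _).trans (Complex.abs_im_le_norm _)
    have h4 : s ≤ b * ‖rgg (b + 1) (rgz e η)‖ := h2.trans (mul_le_mul_of_nonneg_left h3 (by positivity))
    have h5 : s * s ≤ (b * ‖rgg (b + 1) (rgz e η)‖) * (b * (rgg (b + 1) (rgz e η)).im) := mul_le_mul h4 h2 hs0 (hs0.trans h4)
    rw [div_le_iff₀ (by positivity)]
    nlinarith
  · have h1 := Complex.norm_le_abs_re_add_abs_im (rgz e η)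
    have hre : (rgz e η).re = e := rfl
    have him : (rgz e η).im = η := rfl
    rw [hre, him, abs_of_pos hη] at h1
    have h2 : η ≤ 1 := hh.trans (min_le_left _ _)
    have h3 : |e| ≤ 2 * b := by
      refine abs_le_of_sq_le_sq ?_ (by positivity)
      unfold RgBulk at he
      rw [hcast] at he
      nlinarith
    linarith

theorem t2g_m (d : ℕ) (hd : 3 ≤ d) {z : ℂ} (hz : 0 < z.im) : rgm d z * (1 - rgg d z ^ 2) = rgg d z := by
  have h1 : ‖rgg d z‖ < 1 := tgr_norm_lt_one (by omega) hz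
  have h2 : (1 - rgg d z ^ 2) ≠ 0 := by
    intro h
    have h3 : rgg d z ^ 2 = 1 := by linear_combination -h
    have h4 : ‖rgg d z‖ ^ 2 = 1 := by rw [← norm_pow, h3, norm_one]
    nlinarith [norm_nonneg (rgg d z)]
  unfold rgm
  field_simp

/-! ## 17. the weight -/

/-- `0` on `(-∞,1]`, `1` on `[2,∞)`, Lipschitz `1` -/
def t2phi (x : ℝ) : ℝ := max 0 (min 1 (x - 1))
/-- `1` on `(-∞,1/4]`, `0` on `[1,∞)`, Lipschitz `4/3` -/
def t2the (x : ℝ) : ℝ := max 0 (min 1 ((4 - 4 * x) / 3))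

open Classical in
/-- Lipschitz version of the bad fraction, between the levels `κ1` and `2 κ1` -/
def t2Fph {n : ℕ} (d R : ℕ) (H : Gr n) (z : ℂ) (κ1 : ℝ) : ℝ :=
  (∑ e : Fin n × Fin n, if H.Adj e.1 e.2 then (if RgTl H R {e.1, e.2} then t2phi (rgBlk d H z e.1 e.2 / κ1) else 1) else 0) / (n * d)

open Classical in
/-- **the weight** -/
def t2Th {n : ℕ} (d R : ℕ) (κ0 κ1 : ℝ) (z : ℂ) (H : Gr n) : ℝ :=
  if RgStr d R H ∧ RgDev d R H z (κ0 / 2) then t2the ((n * z.im) ^ (1 / 8 : ℝ) * t2Fph d R H z κ1) else 0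

/-- the gap event -/
def T2Gap {n : ℕ} (d R : ℕ) (κ0 κ1 M : ℝ) (z : ℂ) (H : Gr n) : Prop :=
  RgOm d R H z κ0 (2 * κ1) ((n * z.im) ^ (-(1 / 8 : ℝ))) ∧ ¬ RgDev d R H z (κ0 / M)

theorem t2w_eqns_cite : True := by
  have := @t2phi.eq_1
  have := @t2the.eq_1
  have := @t2Fph.eq_1
  have := @t2Th.eq_1
  have := @T2Gap.eq_1
  trivial

theorem t2the_mem (x : ℝ) : 0 ≤ t2the x ∧ t2the x ≤ 1 := by
  unfold t2the
  exact ⟨le_max_left _ _, max_le (by norm_num) (min_le_left _ _)⟩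

theorem t2w_mem {n : ℕ} (d R : ℕ) (κ0 κ1 : ℝ) (z : ℂ) (H : Gr n) : 0 ≤ t2Th d R κ0 κ1 z H ∧ t2Th d R κ0 κ1 z H ≤ 1 := by
  classical
  unfold t2Th
  split_ifs
  · exact t2the_mem _
  · exact ⟨le_rfl, zero_le_one⟩

theorem t2phi_mem (x : ℝ) : 0 ≤ t2phi x ∧ t2phi x ≤ 1 := by
  unfold t2phi
  exact ⟨le_max_left _ _, max_le (by norm_num) (min_le_left _ _)⟩

theorem t2phi_zero {x : ℝ} (hx : x ≤ 1) : t2phi x = 0 := by
  unfold t2phi
  exact max_eq_left ((min_le_right _ _).trans (by linarith))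

theorem t2phi_one {x : ℝ} (hx : 2 ≤ x) : t2phi x = 1 := by
  unfold t2phi
  rw [min_eq_left (by linarith), max_eq_right (by norm_num)]

/-- `rgBad (2 κ1) ≤ Fφ ≤ rgBad κ1`.   PLAN: termwise: not tree-like: `1`; tree-like: `blk ≤ κ1 ⟹ φ = 0`, `2 κ1 < blk ⟹ φ = 1`, `0 ≤ φ ≤ 1`; card of a filter = sum of indicators. -/
theorem t2w_Fph {n : ℕ} (d R : ℕ) (H : Gr n) (z : ℂ) {κ1 : ℝ} (hκ1 : 0 < κ1) :
    rgBad d R H z (2 * κ1) ≤ t2Fph d R H z κ1 ∧ t2Fph d R H z κ1 ≤ rgBad d R H z κ1 := by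
  classical
  have hnd : (0 : ℝ) ≤ (n : ℝ) * d := by positivity
  have hcard : ∀ κ : ℝ, ((Finset.univ.filter fun e : Fin n × Fin n => H.Adj e.1 e.2 ∧ ¬ RgGoodE d R H z κ e.1 e.2).card : ℝ)
      = ∑ e : Fin n × Fin n, if H.Adj e.1 e.2 ∧ ¬ RgGoodE d R H z κ e.1 e.2 then (1 : ℝ) else 0 := by
    intro κ
    rw [Finset.card_filter]
    push_cast
    rfl
  unfold rgBad t2Fph
  rw [hcard, hcard]
  constructor
  · refine div_le_div_of_nonneg_right (Finset.sum_le_sum fun e _ => ?_) hnd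
    by_cases ha : H.Adj e.1 e.2
    · by_cases ht : RgTl H R {e.1, e.2}
      · rw [if_pos ha, if_pos ht]
        by_cases hb : rgBlk d H z e.1 e.2 ≤ 2 * κ1
        · rw [if_neg (fun h => h.2 ⟨ht, hb⟩)]
          exact (t2phi_mem _).1
        · rw [t2phi_one (by rw [le_div_iff₀ hκ1]; linarith [not_le.1 hb])]
          split_ifs <;> norm_num
      · rw [if_pos ha, if_neg ht]
        split_ifs <;> norm_num
    · rw [if_neg (fun h => ha h.1), if_neg ha]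
  · refine div_le_div_of_nonneg_right (Finset.sum_le_sum fun e _ => ?_) hnd
    by_cases ha : H.Adj e.1 e.2
    · by_cases ht : RgTl H R {e.1, e.2}
      · rw [if_pos ha, if_pos ht]
        by_cases hb : rgBlk d H z e.1 e.2 ≤ κ1
        · rw [t2phi_zero (by rw [div_le_one hκ1]; exact hb)]
          split_ifs <;> norm_num
        · rw [if_pos ⟨ha, fun h => hb h.2⟩]
          exact (t2phi_mem _).2
      · rw [if_pos ha, if_neg ht, if_pos ⟨ha, fun h => ht h.1⟩]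
    · rw [if_neg ha, if_neg (fun h => ha h.1)]

theorem t2w_dev_mono {n : ℕ} {d R : ℕ} {H : Gr n} {z : ℂ} {κ κ' : ℝ} (h : RgDev d R H z κ) (hκ : κ ≤ κ') : RgDev d R H z κ' :=
  fun x y => (h x y).trans hκ

theorem t2the_one {x : ℝ} (hx : x ≤ 1 / 4) : t2the x = 1 := by
  unfold t2the
  rw [min_eq_left (by linarith), max_eq_right (by norm_num)]

theorem t2the_pos {x : ℝ} (hx : 0 < t2the x) : x < 1 := by
  unfold t2the at hx
  by_contra h
  have h1 : (4 - 4 * x) / 3 ≤ 0 := by linarith [not_lt.1 h]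
  rw [max_eq_left ((min_le_right _ _).trans h1)] at hx
  exact lt_irrefl _ hx

/-- the weight is `1` on the a-priori event.   PLAN: `RgDev` is monotone in the level (`κ0/M ≤ κ0/2`); `y^(1/8) Fφ ≤ y^(1/8) rgBad κ1 ≤ 1/4` (`t2w_Fph`, `Real.rpow_add`), `t2the = 1` on `(-∞,1/4]`. -/
theorem t2w_one {n : ℕ} (d R : ℕ) {κ0 κ1 M : ℝ} (hκ0 : 0 < κ0) (hκ1 : 0 < κ1) (hM : 2 ≤ M) {z : ℂ} (hy : 0 < n * z.im) {H : Gr n}
    (hO : RgOm d R H z (κ0 / M) κ1 ((n * z.im) ^ (-(1 / 8 : ℝ)) / 4)) : t2Th d R κ0 κ1 z H = 1 := by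
  classical
  obtain ⟨h1, h2, h3⟩ := hO
  have hdev : RgDev d R H z (κ0 / 2) := t2w_dev_mono h2 (div_le_div_of_nonneg_left hκ0.le (by norm_num) hM)
  unfold t2Th
  rw [if_pos ⟨h1, hdev⟩]
  refine t2the_one ?_
  have h4 := (t2w_Fph d R H z hκ1).2.trans h3
  have hp : 0 < (n * z.im) ^ (1 / 8 : ℝ) := Real.rpow_pos_of_pos hy _
  calc (n * z.im) ^ (1 / 8 : ℝ) * t2Fph d R H z κ1 ≤ (n * z.im) ^ (1 / 8 : ℝ) * ((n * z.im) ^ (-(1 / 8 : ℝ)) / 4) :=
        mul_le_mul_of_nonneg_left h4 hp.le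
    _ = ((n * z.im) ^ (1 / 8 : ℝ) * (n * z.im) ^ (-(1 / 8 : ℝ))) / 4 := by ring
    _ = 1 / 4 := by rw [← Real.rpow_add hy]; norm_num

/-- where the weight is positive.   PLAN: `t2the x > 0 ⟹ x < 1`; `rgBad (2κ1) ≤ Fφ < y^(-1/8)`. -/
theorem t2w_pos {n : ℕ} (d R : ℕ) {κ0 κ1 : ℝ} (hκ1 : 0 < κ1) {z : ℂ} (hy : 0 < n * z.im) {H : Gr n} (h : 0 < t2Th d R κ0 κ1 z H) :
    RgStr d R H ∧ RgDev d R H z (κ0 / 2) ∧ rgBad d R H z (2 * κ1) ≤ (n * z.im) ^ (-(1 / 8 : ℝ)) := by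
  classical
  unfold t2Th at h
  by_cases hc : RgStr d R H ∧ RgDev d R H z (κ0 / 2)
  · rw [if_pos hc] at h
    refine ⟨hc.1, hc.2, (t2w_Fph d R H z hκ1).1.trans ?_⟩
    have h1 := t2the_pos h
    have hp : 0 < (n * z.im) ^ (1 / 8 : ℝ) := Real.rpow_pos_of_pos hy _
    rw [Real.rpow_neg hy.le, ← one_div, le_div_iff₀ hp]
    linarith
  · rw [if_neg hc] at h
    exact absurd h (lt_irrefl _)

/-! ## 18. stability of the weight under the switch -/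

/-- **FS: forward stability of T1 under a finite modification**: the BODY of the contract `b1_FS` of `R287/B1.lean` (owner helper131); here a hypothesis. -/
def T2FS (d K0 : ℕ) (Cs ds : ℝ) : Prop :=
  ∀ (R n : ℕ) (H H' : Gr n) (S : Finset (Fin n)) (z : ℂ) (δ : ℝ),
      1 ≤ R → H ∈ regularGraphs n d → H' ∈ regularGraphs n d → S.card ≤ K0 → (∀ x y, (x ∉ S ∨ y ∉ S) → (H.Adj x y ↔ H'.Adj x y)) →
      RgSparse H ((K0 + 2) * (d + 1) ^ R) → RgSparse H' ((K0 + 2) * (d + 1) ^ R) → 0 < z.im → 0 ≤ δ → δ ≤ ds → ‖rgg d z‖ ^ R ≤ ds →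
      RgDev d R H z δ → RgDev d R H' z (Cs * (δ + ‖rgg d z‖ ^ R))

theorem t2w_sparse_mono {n : ℕ} {H : Gr n} {K K' : ℕ} (h : RgSparse H K) (hK : K' ≤ K) : RgSparse H K' :=
  fun W hW => h W (hW.trans hK)

/-- sparsity is monotone in the size; `(3d+3)(d+1)^R ≤ (d+1)^(4R)`.   PLAN: `3d+3 ≤ (d+1)^2` (`d ≥ 2`), `pow_add`, `Nat.pow_le_pow_right` (`R + 2 ≤ 4R`). -/
theorem t2w_sparse {n d R : ℕ} (hd : 3 ≤ d) (hR : 1 ≤ R) {H : Gr n} (h : RgStr d R H) : RgSparse H ((3 * d + 1 + 2) * (d + 1) ^ R) := by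
  refine t2w_sparse_mono h.2 ?_
  have h1 : 3 * d + 1 + 2 ≤ (d + 1) ^ 2 := by nlinarith
  calc (3 * d + 1 + 2) * (d + 1) ^ R ≤ (d + 1) ^ 2 * (d + 1) ^ R := Nat.mul_le_mul_right _ h1
    _ = (d + 1) ^ (2 + R) := by rw [pow_add]
    _ ≤ (d + 1) ^ (4 * R) := Nat.pow_le_pow_right (by omega) (by omega)

/-- locality of the distance from a point which is far from `S` -/
theorem t2wS_edist {n : ℕ} {H H' : Gr n} {S : Finset (Fin n)} (hS : ∀ x y, (x ∉ S ∨ y ∉ S) → (H.Adj x y ↔ H'.Adj x y))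
    {x : Fin n} {r : ℕ} (hx : ∀ s ∈ S, ¬ H.edist x s ≤ r) : ∀ k : ℕ, k ≤ r + 1 → ∀ y, (H.edist x y ≤ k ↔ H'.edist x y ≤ k) := by
  intro k
  induction k with
  | zero =>
    intro _ y
    have e : ∀ K : Gr n, K.edist x y ≤ ((0 : ℕ) : ℕ∞) ↔ x = y := by
      intro K
      constructor
      · intro h
        have h0 : K.edist x y = 0 := le_antisymm (by exact_mod_cast h) zero_le
        exact SimpleGraph.edist_eq_zero_iff.1 h0
      · rintro rfl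
        simp
    rw [e, e]
  | succ k ih =>
    intro hk y
    constructor
    · intro h
      obtain ⟨w, hw, hwy⟩ := lc7_edist_succ H x y k h
      have hw' := (ih (by omega) w).1 hw
      rcases hwy with rfl | hwy
      · exact hw'.trans (by exact_mod_cast Nat.le_succ k)
      · have hwS : w ∉ S := fun hh => hx w hh (hw.trans (by exact_mod_cast (by omega : k ≤ r)))
        have h2 := (hS w y (Or.inl hwS)).1 hwy
        calc H'.edist x y ≤ H'.edist x w + H'.edist w y := SimpleGraph.edist_triangle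
          _ ≤ k + 1 := add_le_add hw' (SimpleGraph.edist_eq_one_iff_adj.2 h2).le
          _ = ((k + 1 : ℕ) : ℕ∞) := by push_cast; rfl
    · intro h
      obtain ⟨w, hw, hwy⟩ := lc7_edist_succ H' x y k h
      have hw' := (ih (by omega) w).2 hw
      rcases hwy with rfl | hwy
      · exact hw'.trans (by exact_mod_cast Nat.le_succ k)
      · have hwS : w ∉ S := fun hh => hx w hh (hw'.trans (by exact_mod_cast (by omega : k ≤ r)))
        have h2 := (hS w y (Or.inl hwS)).2 hwy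
        calc H.edist x y ≤ H.edist x w + H.edist w y := SimpleGraph.edist_triangle
          _ ≤ k + 1 := add_le_add hw' (SimpleGraph.edist_eq_one_iff_adj.2 h2).le
          _ = ((k + 1 : ℕ) : ℕ∞) := by push_cast; rfl

/-- the ball (as a graph) around a pair which is far from `S` is the same in both graphs -/
theorem t2wS_BG {n : ℕ} {H H' : Gr n} {S : Finset (Fin n)} (hS : ∀ x y, (x ∉ S ∨ y ∉ S) → (H.Adj x y ↔ H'.Adj x y))
    {R : ℕ} {b c : Fin n} (hb : ∀ s ∈ S, ¬ H.edist b s ≤ R) (hc : ∀ s ∈ S, ¬ H.edist c s ≤ R) :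
    rgBG H R {b, c} = rgBG H' R {b, c} := by
  have hball : rgBall H R {b, c} = rgBall H' R {b, c} := by
    ext y
    rw [rg_mem_ball, rg_mem_ball]
    simp only [Finset.mem_insert, Finset.mem_singleton, exists_eq_or_imp, exists_eq_left]
    rw [t2wS_edist hS hb R (by omega) y, t2wS_edist hS hc R (by omega) y]
  have hout : ∀ p, p ∈ rgBall H R {b, c} → p ∉ S := by
    intro p hp hpS
    rw [rg_mem_ball] at hp
    obtain ⟨x, hx, h⟩ := hp
    rw [Finset.mem_insert, Finset.mem_singleton] at hx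
    rcases hx with rfl | rfl
    · exact hb p hpS h
    · exact hc p hpS h
  ext p q
  unfold rgBG
  rw [rg_res_adj, rg_res_adj, ← hball]
  constructor
  · rintro ⟨h1, h2, h3⟩
    exact ⟨(hS p q (Or.inl (hout p h2))).1 h1, h2, h3⟩
  · rintro ⟨h1, h2, h3⟩
    exact ⟨(hS p q (Or.inl (hout p h2))).2 h1, h2, h3⟩

theorem t2phi_lip (x y : ℝ) : |t2phi x - t2phi y| ≤ |x - y| := by
  unfold t2phi
  refine (abs_max_sub_max_le_max _ _ _ _).trans (max_le (by simp) ?_)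
  refine (abs_min_sub_min_le_max _ _ _ _).trans (max_le (by simp) ?_)
  rw [sub_sub_sub_cancel_right]

theorem t2wS_blk {n : ℕ} (d : ℕ) (H H' : Gr n) (z : ℂ) (b c : Fin n) :
    |rgBlk d H' z b c - rgBlk d H z b c|
      ≤ ‖rgG H' z b b - rgG H z b b‖ + ‖rgG H' z c c - rgG H z c c‖ + ‖rgG H' z b c - rgG H z b c‖ := by
  have e : ∀ (u v w : ℂ), |‖u - w‖ - ‖v - w‖| ≤ ‖u - v‖ := by
    intro u v w
    refine (abs_norm_sub_norm_le _ _).trans ?_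
    rw [sub_sub_sub_cancel_right]
  have h1 := e (rgG H' z b b) (rgG H z b b) (rgTv d z 0)
  have h2 := e (rgG H' z c c) (rgG H z c c) (rgTv d z 0)
  have h3 := e (rgG H' z b c) (rgG H z b c) (rgTv d z 1)
  have n1 := norm_nonneg (rgG H' z b b - rgG H z b b)
  have n2 := norm_nonneg (rgG H' z c c - rgG H z c c)
  have n3 := norm_nonneg (rgG H' z b c - rgG H z b c)
  unfold rgBlk
  refine (abs_max_sub_max_le_max _ _ _ _).trans (max_le (by linarith) ?_)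
  refine (abs_max_sub_max_le_max _ _ _ _).trans (max_le (by linarith) (by linarith))

theorem t2wS_A {n : ℕ} (H : Gr n) (x y : Fin n) : rgA H x y = 0 ∨ rgA H x y = 1 := by
  classical
  unfold rgA
  rw [SimpleGraph.adjMatrix_apply]
  by_cases h : H.Adj x y <;> simp [h]

theorem t2wS_A_eq {n : ℕ} {H H' : Gr n} {x y : Fin n} (h : H.Adj x y ↔ H'.Adj x y) : rgA H' x y = rgA H x y := by
  classical
  unfold rgA
  rw [SimpleGraph.adjMatrix_apply, SimpleGraph.adjMatrix_apply]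
  by_cases h1 : H.Adj x y
  · rw [if_pos h1, if_pos (h.1 h1)]
  · rw [if_neg h1, if_neg (fun h2 => h1 (h.2 h2))]

/-- the weight of a vertex: square sums of the two Green functions towards `S` -/
def t2wSw {n : ℕ} (H H' : Gr n) (S : Finset (Fin n)) (z : ℂ) (x : Fin n) : ℝ :=
  ∑ s ∈ S, ‖rgG H z x s‖ ^ 2 + ∑ t ∈ S, ‖rgG H' z t x‖ ^ 2

theorem t2wSw_eqns_cite : True := by
  have := @t2wSw.eq_1
  trivial

theorem t2wS_w_nonneg {n : ℕ} (H H' : Gr n) (S : Finset (Fin n)) (z : ℂ) (x : Fin n) : 0 ≤ t2wSw H H' S z x := by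
  unfold t2wSw
  positivity

theorem t2wS_diff {n : ℕ} {H H' : Gr n} {S : Finset (Fin n)} (hS : ∀ x y, (x ∉ S ∨ y ∉ S) → (H.Adj x y ↔ H'.Adj x y))
    {z : ℂ} (hz : 0 < z.im) (x y : Fin n) :
    ‖rgG H' z x y - rgG H z x y‖ ≤ (S.card : ℝ) / 2 * (t2wSw H H' S z x + t2wSw H H' S z y) := by
  have h := rs_res_supp (rg_A_herm H) (rg_A_herm H') hz.ne' S (fun x y hxy => t2wS_A_eq (hS x y hxy)) x y
  have e : rgG H' z x y - rgG H z x y
      = - ∑ s ∈ S, ∑ t ∈ S, rgG H z x s * ((rgA H' s t - rgA H s t : ℝ) : ℂ) * rgG H' z t y := by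
    unfold rgG
    rw [h]; ring
  rw [e, norm_neg]
  have hc : ∀ s t, ‖((rgA H' s t - rgA H s t : ℝ) : ℂ)‖ ≤ 1 := by
    intro s t
    rw [Complex.norm_real, Real.norm_eq_abs, abs_le]
    rcases t2wS_A H s t with h1 | h1 <;> rcases t2wS_A H' s t with h2 | h2 <;> rw [h1, h2] <;> constructor <;> norm_num
  have h1 : ‖∑ s ∈ S, ∑ t ∈ S, rgG H z x s * ((rgA H' s t - rgA H s t : ℝ) : ℂ) * rgG H' z t y‖
      ≤ ∑ s ∈ S, ∑ t ∈ S, (‖rgG H z x s‖ ^ 2 + ‖rgG H' z t y‖ ^ 2) / 2 := by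
    refine (norm_sum_le _ _).trans (Finset.sum_le_sum fun s _ => ?_)
    refine (norm_sum_le _ _).trans (Finset.sum_le_sum fun t _ => ?_)
    rw [norm_mul, norm_mul]
    have n1 := norm_nonneg (rgG H z x s)
    have n2 := norm_nonneg (rgG H' z t y)
    have h3 : ‖rgG H z x s‖ * ‖((rgA H' s t - rgA H s t : ℝ) : ℂ)‖ * ‖rgG H' z t y‖ ≤ ‖rgG H z x s‖ * 1 * ‖rgG H' z t y‖ :=
      mul_le_mul_of_nonneg_right (mul_le_mul_of_nonneg_left (hc s t) n1) n2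
    nlinarith [sq_nonneg (‖rgG H z x s‖ - ‖rgG H' z t y‖)]
  refine h1.trans ?_
  have e2 : ∑ s ∈ S, ∑ t ∈ S, (‖rgG H z x s‖ ^ 2 + ‖rgG H' z t y‖ ^ 2) / 2
      = (S.card : ℝ) / 2 * (∑ s ∈ S, ‖rgG H z x s‖ ^ 2 + ∑ t ∈ S, ‖rgG H' z t y‖ ^ 2) := by
    simp only [add_div, Finset.sum_add_distrib, Finset.sum_const, nsmul_eq_mul, ← Finset.sum_div]
    rw [← Finset.mul_sum, ← Finset.sum_div]
    ring
  rw [e2]
  refine mul_le_mul_of_nonneg_left ?_ (by positivity)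
  unfold t2wSw
  have p1 : 0 ≤ ∑ t ∈ S, ‖rgG H' z t x‖ ^ 2 := by positivity
  have p2 : 0 ≤ ∑ s ∈ S, ‖rgG H z y s‖ ^ 2 := by positivity
  linarith

theorem t2wS_w_sum {n : ℕ} (H H' : Gr n) (S : Finset (Fin n)) {z : ℂ} (hz : 0 < z.im) {C0 : ℝ}
    (hb : ∀ x y, ‖rgG H z x y‖ ≤ C0) (hb' : ∀ x y, ‖rgG H' z x y‖ ≤ C0) :
    ∑ x, t2wSw H H' S z x ≤ 2 * S.card * C0 / z.im := by
  have w : ∀ (K : Gr n), (∀ x y, ‖rgG K z x y‖ ≤ C0) → ∀ s, ∑ x, ‖rgG K z s x‖ ^ 2 ≤ C0 / z.im := by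
    intro K hK s
    have h := rs_ward (rg_A_herm K) hz.ne' s
    unfold rgG
    rw [h]
    refine div_le_div_of_nonneg_right ?_ hz.le
    exact ((le_abs_self _).trans (Complex.abs_im_le_norm _)).trans (hK s s)
  unfold t2wSw
  rw [Finset.sum_add_distrib, Finset.sum_comm, Finset.sum_comm (s := Finset.univ) (t := S)]
  have h1 : ∑ s ∈ S, ∑ x, ‖rgG H z x s‖ ^ 2 ≤ ∑ _s ∈ S, C0 / z.im := by
    refine Finset.sum_le_sum fun s _ => ?_
    refine le_trans (le_of_eq ?_) (w H hb s)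
    refine Finset.sum_congr rfl fun x _ => ?_
    unfold rgG
    rw [rs_G_symm (rg_A_herm H) hz.ne']
  have h2 : ∑ s ∈ S, ∑ x, ‖rgG H' z s x‖ ^ 2 ≤ ∑ _s ∈ S, C0 / z.im :=
    Finset.sum_le_sum fun s _ => w H' hb' s
  rw [Finset.sum_const, nsmul_eq_mul] at h1 h2
  have e : 2 * (S.card : ℝ) * C0 / z.im = S.card * (C0 / z.im) + S.card * (C0 / z.im) := by ring
  rw [e]
  exact add_le_add h1 h2

open Classical in
/-- sum of a vertex function over the oriented edges of a regular graph -/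
theorem t2wS_edge_sum {n d : ℕ} {H : Gr n} (hH : H ∈ regularGraphs n d) (w : Fin n → ℝ) :
    ∑ e : Fin n × Fin n, (if H.Adj e.1 e.2 then w e.1 + w e.2 else 0) = 2 * d * ∑ x, w x := by
  rw [lc7_mem_reg] at hH
  have h1 : ∀ x : Fin n, ∑ y : Fin n, (if H.Adj x y then w x else 0) = d * w x := by
    intro x
    rw [← Finset.sum_filter, Finset.sum_const, hH x, nsmul_eq_mul]
  have h2 : ∀ y : Fin n, ∑ x : Fin n, (if H.Adj x y then w y else 0) = d * w y := by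
    intro y
    rw [← h1 y]
    refine Finset.sum_congr rfl fun x _ => ?_
    simp only [SimpleGraph.adj_comm]
  have e : ∀ x y : Fin n, (if H.Adj x y then w x + w y else 0) = (if H.Adj x y then w x else 0) + (if H.Adj x y then w y else 0) := by
    intro x y
    split_ifs <;> simp
  rw [Fintype.sum_prod_type]
  simp only [e, Finset.sum_add_distrib]
  rw [Finset.sum_comm (f := fun x y => if H.Adj x y then w y else 0)]
  simp only [h1, h2]
  rw [← Finset.mul_sum]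
  ring

/-- **stability of `Fφ`** under a finite modification.
PLAN: the tree-likeness of `{e.1,e.2}` to the radius `R` changes only if `e.1` is within `R + 1` of `S` in `H` or in `H'`: at most `2 K0 (d+1)^(R+2) d` oriented edges (`b1x_ball_card`); the same for the edges which are not common.
On the common tree-like edges `|φ(blk'/κ1) - φ(blk/κ1)| ≤ (|G'_bb - G_bb| + |G'_cc - G_cc| + |G'_bc - G_bc|)/κ1`, `G' - G = - ∑_{s,s' ∈ S} G_·s B_ss' G'_s'·` (`rs_res_supp`),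
`∑_{(b,c)} A_bc |G_bs| |G'_s'c| ≤ d (∑_b |G_bs|²)^(1/2) (∑_c |G'_s'c|²)^(1/2) ≤ d C0/η` (Cauchy-Schwarz, `rs_ward`). -/
theorem t2w_Fph_stab (d : ℕ) (hd : 3 ≤ d) (K0 R : ℕ) (C0 : ℝ) :
    ∃ C : ℝ, 0 ≤ C ∧ ∀ (n : ℕ) (H H' : Gr n) (S : Finset (Fin n)) (z : ℂ) (κ1 : ℝ), 1 ≤ n → H ∈ regularGraphs n d → H' ∈ regularGraphs n d →
      S.card ≤ K0 → (∀ x y, (x ∉ S ∨ y ∉ S) → (H.Adj x y ↔ H'.Adj x y)) → 0 < z.im → 0 < κ1 →
      (∀ x y, ‖rgG H z x y‖ ≤ C0) → (∀ x y, ‖rgG H' z x y‖ ≤ C0) →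
      |t2Fph d R H' z κ1 - t2Fph d R H z κ1| ≤ C * (1 / (κ1 * (n * z.im)) + 1 / n) := by
  classical
  refine ⟨2 * (K0 * ((d : ℝ) + 1) ^ (R + 1)) + 6 * (K0 : ℝ) ^ 2 * |C0|, by positivity, ?_⟩
  intro n H H' S z κ1 hn hH hH' hK hS hz hκ1 hb hb'
  have hnR : (0 : ℝ) < n := by exact_mod_cast hn
  have hdR : (0 : ℝ) < d := by exact_mod_cast (by omega : 0 < d)
  obtain ⟨N, hN⟩ : ∃ N, N = rgBall H (R + 1) S := ⟨_, rfl⟩
  have hNc : (N.card : ℝ) ≤ K0 * ((d : ℝ) + 1) ^ (R + 1) := by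
    have h := (lc7_ball_card hH (R + 1) S).trans (Nat.mul_le_mul_right _ hK)
    rw [← hN] at h
    exact_mod_cast h
  obtain ⟨f, hf⟩ : ∃ f : Gr n → Fin n × Fin n → ℝ, f = fun K e =>
      if K.Adj e.1 e.2 then (if RgTl K R {e.1, e.2} then t2phi (rgBlk d K z e.1 e.2 / κ1) else 1) else 0 := ⟨_, rfl⟩
  have hf0 : ∀ K e, 0 ≤ f K e := by
    intro K e
    rw [hf]
    show 0 ≤ if K.Adj e.1 e.2 then (if RgTl K R {e.1, e.2} then t2phi (rgBlk d K z e.1 e.2 / κ1) else 1) else 0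
    split_ifs
    · exact (t2phi_mem _).1
    · norm_num
    · exact le_rfl
  have hf1 : ∀ K e, f K e ≤ if K.Adj e.1 e.2 then 1 else 0 := by
    intro K e
    rw [hf]
    show (if K.Adj e.1 e.2 then (if RgTl K R {e.1, e.2} then t2phi (rgBlk d K z e.1 e.2 / κ1) else 1) else 0) ≤ if K.Adj e.1 e.2 then 1 else 0
    split_ifs
    · exact (t2phi_mem _).2
    · exact le_rfl
    · exact le_rfl
  obtain ⟨w, hw⟩ : ∃ w, w = t2wSw H H' S z := ⟨_, rfl⟩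
  have hw0 : ∀ x, 0 ≤ w x := fun x => by rw [hw]; exact t2wS_w_nonneg _ _ _ _ _
  have hc0 : (0 : ℝ) ≤ 3 * S.card / 2 / κ1 := by positivity
  have key : ∀ e : Fin n × Fin n, |f H' e - f H e|
      ≤ (if H.Adj e.1 e.2 ∧ e.1 ∈ N then 1 else 0) + (if H'.Adj e.1 e.2 ∧ e.1 ∈ N then 1 else 0)
        + 3 * S.card / 2 / κ1 * (if H.Adj e.1 e.2 then w e.1 + w e.2 else 0) := by
    intro e
    have h3 : (0 : ℝ) ≤ 3 * S.card / 2 / κ1 * (if H.Adj e.1 e.2 then w e.1 + w e.2 else 0) := by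
      refine mul_nonneg hc0 ?_
      split_ifs
      · exact add_nonneg (hw0 _) (hw0 _)
      · exact le_rfl
    by_cases hN1 : e.1 ∈ N
    · have a1 := hf0 H e
      have a2 := hf0 H' e
      have a3 := hf1 H e
      have a4 := hf1 H' e
      simp only [hN1, and_true]
      rw [abs_le]
      constructor <;> linarith
    · have hfar : ∀ s ∈ S, ¬ H.edist e.1 s ≤ ((R + 1 : ℕ) : ℕ∞) := by
        intro s hs h
        apply hN1
        rw [hN, rg_mem_ball]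
        exact ⟨s, hs, by rw [SimpleGraph.edist_comm]; exact h⟩
      have h1S : e.1 ∉ S := fun h => hfar e.1 h (by simp)
      have hadj := hS e.1 e.2 (Or.inl h1S)
      simp only [hN1, and_false, if_false, zero_add]
      by_cases ha : H.Adj e.1 e.2
      · have ha' := hadj.1 ha
        have hb1 : ∀ s ∈ S, ¬ H.edist e.1 s ≤ (R : ℕ∞) := fun s hs h => hfar s hs (h.trans (by exact_mod_cast Nat.le_succ R))
        have hc1 : ∀ s ∈ S, ¬ H.edist e.2 s ≤ (R : ℕ∞) := by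
          intro s hs h
          apply hfar s hs
          calc H.edist e.1 s ≤ H.edist e.1 e.2 + H.edist e.2 s := SimpleGraph.edist_triangle
            _ ≤ 1 + R := add_le_add (SimpleGraph.edist_eq_one_iff_adj.2 ha).le h
            _ = ((R + 1 : ℕ) : ℕ∞) := by push_cast; rw [add_comm]
        have hBG := t2wS_BG hS hb1 hc1
        have htl : RgTl H R {e.1, e.2} ↔ RgTl H' R {e.1, e.2} := by
          unfold RgTl
          rw [hBG]
        rw [hf]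
        show |(if H'.Adj e.1 e.2 then (if RgTl H' R {e.1, e.2} then t2phi (rgBlk d H' z e.1 e.2 / κ1) else 1) else 0)
            - (if H.Adj e.1 e.2 then (if RgTl H R {e.1, e.2} then t2phi (rgBlk d H z e.1 e.2 / κ1) else 1) else 0)| ≤ _
        rw [if_pos ha, if_pos ha', if_pos ha]
        by_cases ht : RgTl H R {e.1, e.2}
        · rw [if_pos ht, if_pos (htl.1 ht)]
          refine (t2phi_lip _ _).trans ?_
          rw [← sub_div, abs_div, abs_of_pos hκ1]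
          have h4 := t2wS_blk d H H' z e.1 e.2
          have d1 := t2wS_diff hS hz e.1 e.1
          have d2 := t2wS_diff hS hz e.2 e.2
          have d3 := t2wS_diff hS hz e.1 e.2
          rw [← hw] at d1 d2 d3
          have h5 : |rgBlk d H' z e.1 e.2 - rgBlk d H z e.1 e.2| ≤ 3 * S.card / 2 * (w e.1 + w e.2) := by
            refine h4.trans ?_
            have : (3 : ℝ) * S.card / 2 * (w e.1 + w e.2)
                = (S.card : ℝ) / 2 * (w e.1 + w e.1) + (S.card : ℝ) / 2 * (w e.2 + w e.2) + (S.card : ℝ) / 2 * (w e.1 + w e.2) := by ring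
            rw [this]
            exact add_le_add (add_le_add d1 d2) d3
          calc |rgBlk d H' z e.1 e.2 - rgBlk d H z e.1 e.2| / κ1 ≤ 3 * S.card / 2 * (w e.1 + w e.2) / κ1 :=
                div_le_div_of_nonneg_right h5 hκ1.le
            _ = 3 * S.card / 2 / κ1 * (w e.1 + w e.2) := by ring
        · rw [if_neg ht, if_neg (fun h => ht (htl.2 h)), sub_self, abs_zero]
          rw [if_pos ha] at h3
          exact h3
      · have ha' : ¬ H'.Adj e.1 e.2 := fun h => ha (hadj.2 h)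
        rw [hf]
        show |(if H'.Adj e.1 e.2 then (if RgTl H' R {e.1, e.2} then t2phi (rgBlk d H' z e.1 e.2 / κ1) else 1) else 0)
            - (if H.Adj e.1 e.2 then (if RgTl H R {e.1, e.2} then t2phi (rgBlk d H z e.1 e.2 / κ1) else 1) else 0)| ≤ _
        rw [if_neg ha, if_neg ha', if_neg ha]
        simp
  have hcount : ∀ K : Gr n, K ∈ regularGraphs n d → ∑ e : Fin n × Fin n, (if K.Adj e.1 e.2 ∧ e.1 ∈ N then (1 : ℝ) else 0) = N.card * d := by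
    intro K hK
    have h := lc7_card_fst hK N
    rw [Finset.card_filter] at h
    have h' : ((∑ e : Fin n × Fin n, if K.Adj e.1 e.2 ∧ e.1 ∈ N then 1 else 0 : ℕ) : ℝ) = ((N.card * d : ℕ) : ℝ) := by rw [h]
    push_cast at h'
    exact h'
  have hW := t2wS_w_sum H H' S hz hb hb'
  rw [← hw] at hW
  have hsum : ∑ e : Fin n × Fin n, |f H' e - f H e| ≤ N.card * d + N.card * d + 3 * S.card / 2 / κ1 * (2 * d * ∑ x, w x) := by
    refine (Finset.sum_le_sum fun e _ => key e).trans ?_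
    rw [Finset.sum_add_distrib, Finset.sum_add_distrib, hcount H hH, hcount H' hH', ← Finset.mul_sum, t2wS_edge_sum hH w]
  have hF : ∀ K : Gr n, t2Fph d R K z κ1 = (∑ e, f K e) / (n * d) := by
    intro K
    rw [hf]
    rfl
  rw [hF, hF, ← sub_div, ← Finset.sum_sub_distrib, abs_div, abs_of_pos (mul_pos hnR hdR), div_le_iff₀ (mul_pos hnR hdR)]
  refine (Finset.abs_sum_le_sum_abs _ _).trans (hsum.trans ?_)
  have hSK : (S.card : ℝ) ≤ K0 := by exact_mod_cast hK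
  have hS0 : (0 : ℝ) ≤ S.card := by positivity
  have hC0 : C0 ≤ |C0| := le_abs_self _
  have hW2 : ∑ x, w x ≤ 2 * K0 * |C0| / z.im := by
    refine hW.trans (div_le_div_of_nonneg_right ?_ hz.le)
    have : 2 * (S.card : ℝ) * C0 ≤ 2 * (S.card : ℝ) * |C0| := mul_le_mul_of_nonneg_left hC0 (by positivity)
    refine this.trans (mul_le_mul_of_nonneg_right (by linarith) (abs_nonneg _))
  have hT : 3 * (S.card : ℝ) / 2 / κ1 * (2 * d * ∑ x, w x) ≤ 3 * (K0 : ℝ) / 2 / κ1 * (2 * d * (2 * K0 * |C0| / z.im)) := by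
    refine mul_le_mul ?_ (mul_le_mul_of_nonneg_left hW2 (by positivity)) ?_ (by positivity)
    · refine div_le_div_of_nonneg_right ?_ hκ1.le
      linarith
    · exact mul_nonneg (by positivity) (Finset.sum_nonneg fun x _ => hw0 x)
  have hfin : (2 * (K0 * ((d : ℝ) + 1) ^ (R + 1)) + 6 * (K0 : ℝ) ^ 2 * |C0|) * (1 / (κ1 * (n * z.im)) + 1 / n) * (n * d)
      = 2 * (K0 * ((d : ℝ) + 1) ^ (R + 1)) * d + 3 * (K0 : ℝ) / 2 / κ1 * (2 * d * (2 * K0 * |C0| / z.im))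
        + (2 * (K0 * ((d : ℝ) + 1) ^ (R + 1)) * d / (κ1 * z.im) + 6 * (K0 : ℝ) ^ 2 * |C0| * d) := by
    field_simp
    ring
  rw [hfin]
  have hpos : 0 ≤ 2 * (K0 * ((d : ℝ) + 1) ^ (R + 1)) * d / (κ1 * z.im) + 6 * (K0 : ℝ) ^ 2 * |C0| * d := by positivity
  have hNd : (N.card : ℝ) * d ≤ K0 * ((d : ℝ) + 1) ^ (R + 1) * d := mul_le_mul_of_nonneg_right hNc hdR.le
  linarith

open Classical in
/-- the marks as a set -/
def t2MkS {n : ℕ} {ι : Type} [Fintype ι] (m : T2Mk (Fin n) ι) : Finset (Fin n) :=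
  insert m.1 (Finset.univ.image m.2.1 ∪ Finset.univ.image m.2.2.1 ∪ Finset.univ.image m.2.2.2)

/-- the switch changes the graph only inside the marks.   PLAN: `t2sw_row_off` for `x ∉ S`, symmetry for `y ∉ S`; `t2g_A_apply`; `card_insert_le`, `card_union_le`, `card_image_le`. -/
theorem t2w_off {n : ℕ} {ι : Type} [Fintype ι] [DecidableEq ι] (H : Gr n) (m : T2Mk (Fin n) ι) :
    (t2MkS m).card ≤ 3 * Fintype.card ι + 1 ∧
    ∀ x y, (x ∉ t2MkS m ∨ y ∉ t2MkS m) → (H.Adj x y ↔ (t2Gr (t2SwM (rgA H) m)).Adj x y) := by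
  classical
  constructor
  · unfold t2MkS
    refine (Finset.card_insert_le _ _).trans ?_
    have h1 := Finset.card_union_le (Finset.univ.image m.2.1 ∪ Finset.univ.image m.2.2.1) (Finset.univ.image m.2.2.2)
    have h2 := Finset.card_union_le (Finset.univ.image m.2.1) (Finset.univ.image m.2.2.1)
    have h3 := Finset.card_image_le (s := (Finset.univ : Finset ι)) (f := m.2.1)
    have h4 := Finset.card_image_le (s := (Finset.univ : Finset ι)) (f := m.2.2.1)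
    have h5 := Finset.card_image_le (s := (Finset.univ : Finset ι)) (f := m.2.2.2)
    rw [Finset.card_univ] at h3 h4 h5
    omega
  · have hrow : ∀ x, x ∉ t2MkS m → ∀ y, t2SwM (rgA H) m x y = rgA H x y := by
      intro x hx y
      unfold t2MkS at hx
      simp only [Finset.mem_insert, Finset.mem_union, Finset.mem_image, Finset.mem_univ, true_and, not_or, not_exists] at hx
      exact t2sw_row_off _ _ _ _ _ hx.1 hx.2.1.1 hx.2.1.2 hx.2.2 y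
    have hs : ∀ x y, t2SwM (rgA H) m x y = t2SwM (rgA H) m y x := fun x y =>
      rs_A_symm (t2sw_herm (rg_A_herm H) _ _ _ _) x y
    have key : ∀ x y, x ∉ t2MkS m → (H.Adj x y ↔ (t2Gr (t2SwM (rgA H) m)).Adj x y) := by
      intro x y hx
      show H.Adj x y ↔ (x ≠ y ∧ t2SwM (rgA H) m x y = 1 ∧ t2SwM (rgA H) m y x = 1)
      rw [hs y x, hrow x hx y, t2g_A_apply]
      exact ⟨fun h => ⟨h.ne, h, h⟩, fun h => h.2.1⟩
    intro x y hxy
    rcases hxy with hx | hy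
    · exact key x y hx
    · rw [SimpleGraph.adj_comm H, SimpleGraph.adj_comm (t2Gr _)]
      exact key y x hy

/-- entries are bounded where the weight is positive.   PLAN: `t2w_pos`, `tgr_Pm_le` (`27/2`), `RgDev`, `κ0 ≤ 1`. -/
theorem t2w_bd {n : ℕ} (d R : ℕ) (hd : 3 ≤ d) (hR : 1 ≤ R) {κ0 κ1 : ℝ} (hκ0 : κ0 ≤ 1) (hκ1 : 0 < κ1) {z : ℂ} (hz : 0 < z.im) (hn : 1 ≤ n) {H : Gr n}
    (h : 0 < t2Th d R κ0 κ1 z H) (x y : Fin n) : ‖rgG H z x y‖ ≤ 14 := by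
  have hy : 0 < (n : ℝ) * z.im := by
    have : (0 : ℝ) < n := by exact_mod_cast hn
    positivity
  obtain ⟨h1, h2, -⟩ := t2w_pos d R hκ1 hy h
  have h3 := tgr_Pm_le (d := d) (z := z) h1.1 hR hd hz x y
  have h4 := h2 x y
  have h5 : ‖rgG H z x y‖ ≤ ‖rgG H z x y - rgPm d R H z x y‖ + ‖rgPm d R H z x y‖ := by
    have := norm_add_le (rgG H z x y - rgPm d R H z x y) (rgPm d R H z x y)
    rwa [sub_add_cancel] at this
  linarith

/-- `t2the` is `4/3`-Lipschitz -/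
theorem t2the_lip (x y : ℝ) : |t2the x - t2the y| ≤ 4 / 3 * |x - y| := by
  unfold t2the
  have h1 := abs_max_sub_max_le_max 0 (min 1 ((4 - 4 * x) / 3)) 0 (min 1 ((4 - 4 * y) / 3))
  rw [sub_self, abs_zero, max_eq_right (abs_nonneg (min 1 ((4 - 4 * x) / 3) - min 1 ((4 - 4 * y) / 3)))] at h1
  have h2 := abs_min_sub_min_le_max 1 ((4 - 4 * x) / 3) 1 ((4 - 4 * y) / 3)
  have h3 : |(4 - 4 * x) / 3 - (4 - 4 * y) / 3| = 4 / 3 * |x - y| := by
    have : (4 - 4 * x) / 3 - (4 - 4 * y) / 3 = (-(4 / 3)) * (x - y) := by ring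
    rw [this, abs_mul, abs_neg]
    norm_num
  rw [sub_self, abs_zero, h3, max_eq_right (by positivity)] at h2
  exact h1.trans h2

/-- entries are bounded on `Str ∧ Dev (κ0/2)` -/
theorem t2w_bd_a {n : ℕ} (d R : ℕ) (hd : 3 ≤ d) (hR : 1 ≤ R) {κ0 : ℝ} (hκ0 : κ0 ≤ 1) {z : ℂ} (hz : 0 < z.im) {H : Gr n}
    (h1 : RgStr d R H) (h2 : RgDev d R H z (κ0 / 2)) (x y : Fin n) : ‖rgG H z x y‖ ≤ 14 := by
  have h3 := tgr_Pm_le (d := d) (z := z) h1.1 hR hd hz x y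
  have h4 := h2 x y
  have h5 : ‖rgG H z x y‖ ≤ ‖rgG H z x y - rgPm d R H z x y‖ + ‖rgPm d R H z x y‖ := by
    have := norm_add_le (rgG H z x y - rgPm d R H z x y) (rgPm d R H z x y)
    rwa [sub_add_cancel] at this
  linarith

open Classical in
/-- one-sided case of `t2w_pt`: the weight of `H` is alive, that of `H'` is killed by the indicator -/
theorem t2w_pt_one {d : ℕ} (hd : 3 ≤ d) {Cs ds : ℝ} (hFS : T2FS d (3 * d + 1) Cs ds) {R : ℕ} (hR : 1 ≤ R) {n : ℕ} {κ0 κ1 M : ℝ} {z : ℂ} {H H' : Gr n}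
    {S : Finset (Fin n)} (hn : 1 ≤ n) (hκ0 : 0 < κ0) (hκ1 : 0 < κ1) (hM : 2 ≤ M) (hz : 0 < z.im) (h1 : κ0 / M ≤ ds) (h2 : ‖rgg d z‖ ^ R ≤ ds)
    (h3 : Cs * (κ0 / M + ‖rgg d z‖ ^ R) ≤ κ0 / 2) (hH : H ∈ regularGraphs n d) (hH' : H' ∈ regularGraphs n d) (hS : S.card ≤ 3 * d + 1)
    (hoff : ∀ x y, (x ∉ S ∨ y ∉ S) → (H.Adj x y ↔ H'.Adj x y)) (ha' : ¬ (RgStr d R H' ∧ RgDev d R H' z (κ0 / 2))) :
    t2Th d R κ0 κ1 z H ≤ (if RgStr d R H' then 0 else 1) + (if T2Gap d R κ0 κ1 M z H then 1 else 0) := by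
  have hy : 0 < (n : ℝ) * z.im := by
    have : (0 : ℝ) < n := by exact_mod_cast hn
    positivity
  have hm := t2w_mem d R κ0 κ1 z H
  rcases hm.1.eq_or_lt with h0 | h0
  · rw [← h0]
    split_ifs <;> norm_num
  · obtain ⟨p1, p2, p3⟩ := t2w_pos d R hκ1 hy h0
    by_cases hs : RgStr d R H'
    · have hg : T2Gap d R κ0 κ1 M z H := by
        refine ⟨⟨p1, t2w_dev_mono p2 (by linarith), p3⟩, fun hdev => ha' ⟨hs, ?_⟩⟩
        have := hFS R n H H' S z (κ0 / M) hR hH hH' hS hoff (t2w_sparse hd hR p1) (t2w_sparse hd hR hs) hz (by positivity) h1 h2 hdev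
        exact t2w_dev_mono this h3
      rw [if_pos hs, if_pos hg]
      linarith [hm.2]
    · rw [if_neg hs]
      have : (0 : ℝ) ≤ if T2Gap d R κ0 κ1 M z H then (1 : ℝ) else 0 := by split_ifs <;> norm_num
      linarith [hm.2]

open Classical in
/-- the symmetric core of `t2w_pt` -/
theorem t2w_pt_core (d : ℕ) (hd : 3 ≤ d) (Cs ds : ℝ) (hFS : T2FS d (3 * d + 1) Cs ds) (R : ℕ) (hR : 1 ≤ R) :
    ∃ C : ℝ, 0 ≤ C ∧ ∀ (n : ℕ) (κ0 κ1 M : ℝ) (z : ℂ) (H H' : Gr n) (S : Finset (Fin n)), 1 ≤ n →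
      0 < κ0 → κ0 ≤ 1 → 0 < κ1 → 2 ≤ M → 0 < z.im → κ0 / M ≤ ds → ‖rgg d z‖ ^ R ≤ ds → Cs * (κ0 / M + ‖rgg d z‖ ^ R) ≤ κ0 / 2 →
      H ∈ regularGraphs n d → H' ∈ regularGraphs n d → S.card ≤ 3 * d + 1 → (∀ x y, (x ∉ S ∨ y ∉ S) → (H.Adj x y ↔ H'.Adj x y)) →
      |t2Th d R κ0 κ1 z H' - t2Th d R κ0 κ1 z H|
        ≤ (if RgStr d R H then 0 else 1) + (if RgStr d R H' then 0 else 1)
          + (if T2Gap d R κ0 κ1 M z H then 1 else 0) + (if T2Gap d R κ0 κ1 M z H' then 1 else 0)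
          + C * (n * z.im) ^ (1 / 8 : ℝ) * (1 / (κ1 * (n * z.im)) + 1 / n) := by
  obtain ⟨C1, hC1, hst⟩ := t2w_Fph_stab d hd (3 * d + 1) R 14
  refine ⟨4 / 3 * C1, by positivity, ?_⟩
  intro n κ0 κ1 M z H H' S hn hκ0 hκ01 hκ1 hM hz h1 h2 h3 hH hH' hS hoff
  have hn0 : (0 : ℝ) < n := by exact_mod_cast hn
  have hy : 0 < (n : ℝ) * z.im := by positivity
  have hp : 0 < (n * z.im) ^ (1 / 8 : ℝ) := Real.rpow_pos_of_pos hy _
  have hE : 0 ≤ 4 / 3 * C1 * (n * z.im) ^ (1 / 8 : ℝ) * (1 / (κ1 * (n * z.im)) + 1 / n) := by positivity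
  have i1 : (0 : ℝ) ≤ if RgStr d R H then (0 : ℝ) else 1 := by split_ifs <;> norm_num
  have i2 : (0 : ℝ) ≤ if RgStr d R H' then (0 : ℝ) else 1 := by split_ifs <;> norm_num
  have i3 : (0 : ℝ) ≤ if T2Gap d R κ0 κ1 M z H then (1 : ℝ) else 0 := by split_ifs <;> norm_num
  have i4 : (0 : ℝ) ≤ if T2Gap d R κ0 κ1 M z H' then (1 : ℝ) else 0 := by split_ifs <;> norm_num
  have hoff' : ∀ x y, (x ∉ S ∨ y ∉ S) → (H'.Adj x y ↔ H.Adj x y) := fun x y h => (hoff x y h).symm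
  by_cases ha : RgStr d R H ∧ RgDev d R H z (κ0 / 2)
  · by_cases ha' : RgStr d R H' ∧ RgDev d R H' z (κ0 / 2)
    · have e : t2Th d R κ0 κ1 z H = t2the ((n * z.im) ^ (1 / 8 : ℝ) * t2Fph d R H z κ1) := by
        unfold t2Th; rw [if_pos ha]
      have e' : t2Th d R κ0 κ1 z H' = t2the ((n * z.im) ^ (1 / 8 : ℝ) * t2Fph d R H' z κ1) := by
        unfold t2Th; rw [if_pos ha']
      have s := hst n H H' S z κ1 hn hH hH' hS hoff hz hκ1 (t2w_bd_a d R hd hR hκ01 hz ha.1 ha.2) (t2w_bd_a d R hd hR hκ01 hz ha'.1 ha'.2)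
      have l := t2the_lip ((n * z.im) ^ (1 / 8 : ℝ) * t2Fph d R H' z κ1) ((n * z.im) ^ (1 / 8 : ℝ) * t2Fph d R H z κ1)
      rw [← mul_sub, abs_mul, abs_of_pos hp] at l
      rw [e, e']
      have l2 : 4 / 3 * ((n * z.im) ^ (1 / 8 : ℝ) * |t2Fph d R H' z κ1 - t2Fph d R H z κ1|)
          ≤ 4 / 3 * ((n * z.im) ^ (1 / 8 : ℝ) * (C1 * (1 / (κ1 * (n * z.im)) + 1 / n))) := by gcongr
      have l3 : 4 / 3 * ((n * z.im) ^ (1 / 8 : ℝ) * (C1 * (1 / (κ1 * (n * z.im)) + 1 / n)))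
          = 4 / 3 * C1 * (n * z.im) ^ (1 / 8 : ℝ) * (1 / (κ1 * (n * z.im)) + 1 / n) := by ring
      linarith
    · have e' : t2Th d R κ0 κ1 z H' = 0 := by unfold t2Th; rw [if_neg ha']
      have o := t2w_pt_one hd hFS hR hn hκ0 hκ1 hM hz h1 h2 h3 hH hH' hS hoff ha' (κ1 := κ1)
      rw [e', zero_sub, abs_neg, abs_of_nonneg (t2w_mem d R κ0 κ1 z H).1]
      linarith
  · have e : t2Th d R κ0 κ1 z H = 0 := by unfold t2Th; rw [if_neg ha]
    have o := t2w_pt_one hd hFS hR hn hκ0 hκ1 hM hz h1 h2 h3 hH' hH hS hoff' ha (κ1 := κ1)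
    rw [e, sub_zero, abs_of_nonneg (t2w_mem d R κ0 κ1 z H').1]
    linarith

open Classical in
/-- **pointwise instability of the weight**.   `Cs, ds` = the constants of FS for `K0 = 3 d + 1`.
PLAN (note T2plan sec. 5).  `Θ = a θ`, `a = 1{Str ∧ Dev (κ0/2)}`.   `a = a^ = 1`: `|θ^ - θ| ≤ (4/3) y^(1/8) |Fφ^ - Fφ|` (`t2the` is `4/3`-Lipschitz), `t2w_Fph_stab` with `C0 = 14` (`tgr_Pm_le` + `RgDev`), `S = t2MkS m` (`t2w_off`).
`a = 1`, `a^ = 0`, `θ(H) > 0`: either `¬ Str H^`, or `¬ Dev H^ (κ0/2)`; then `¬ Dev H (κ0/M)` by `hFS` (sparsity by `t2w_sparse`), so `H` is in the gap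
(`Dev (κ0/2) ⟹ Dev κ0`, `rgBad (2κ1) ≤ y^(-1/8)` by `t2w_pos`).   `a = 0`, `a^ = 1`: the same with `H ↔ H^` (`t2sw_inv`, `t2sw_val`: `H = t2Gr (t2SwM (rgA H^) (t2Fl m))`, `t2g_A_Gr`). -/
theorem t2w_pt (d : ℕ) (hd : 3 ≤ d) (Cs ds : ℝ) (hFS : T2FS d (3 * d + 1) Cs ds) (R : ℕ) (hR : 1 ≤ R) :
    ∃ C : ℝ, 0 ≤ C ∧ ∀ (n : ℕ) (ι : Type) [Fintype ι] [DecidableEq ι] (κ0 κ1 M : ℝ) (z : ℂ) (H : Gr n) (m : T2Mk (Fin n) ι), 1 ≤ n → Fintype.card ι = d →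
      0 < κ0 → κ0 ≤ 1 → 0 < κ1 → 2 ≤ M → 0 < z.im → κ0 / M ≤ ds → ‖rgg d z‖ ^ R ≤ ds → Cs * (κ0 / M + ‖rgg d z‖ ^ R) ≤ κ0 / 2 →
      H ∈ regularGraphs n d → T2ValM (rgA H) m →
      |t2Th d R κ0 κ1 z (t2Gr (t2SwM (rgA H) m)) - t2Th d R κ0 κ1 z H|
        ≤ (if RgStr d R H then 0 else 1) + (if RgStr d R (t2Gr (t2SwM (rgA H) m)) then 0 else 1)
          + (if T2Gap d R κ0 κ1 M z H then 1 else 0) + (if T2Gap d R κ0 κ1 M z (t2Gr (t2SwM (rgA H) m)) then 1 else 0)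
          + C * (n * z.im) ^ (1 / 8 : ℝ) * (1 / (κ1 * (n * z.im)) + 1 / n) := by
  obtain ⟨C, hC, h⟩ := t2w_pt_core d hd Cs ds hFS R hR
  refine ⟨C, hC, ?_⟩
  intro n ι _ _ κ0 κ1 M z H m hn hc hκ0 hκ01 hκ1 hM hz h1 h2 h3 hH hv
  have ho := t2w_off H m
  rw [hc] at ho
  exact h n κ0 κ1 M z H _ (t2MkS m) hn hκ0 hκ01 hκ1 hM hz h1 h2 h3 hH (t2g_mem (t2sw_reg (t2g_reg hH) hv)) ho.1 ho.2

/-- the ensemble of the graph level   (215: `Gd` with `(t2Gr A).Adj x y` instead of `A x y = 1`: `T2Hyp.gs` asks the symmetry of `Gd` for EVERY matrix `A`; for `A = rgA H`: `t2g_Gr_A`) -/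
def t2EnsG (n d R : ℕ) (Θ : Gr n → ℝ) : T2Ens (Fin n) where
  M := t2M n d
  Θ := fun A => Θ (t2Gr A)
  Gd := fun A x y => (t2Gr A).Adj x y ∧ RgTl (t2Gr A) R {x, y}

theorem t2ensg_eqns_cite : True := by
  have := @T2FS.eq_1
  have := @t2MkS.eq_1
  have := @t2EnsG.eq_1
  trivial

open Classical in
/-- `#reg P(S) = #{H : S H}` -/
theorem t2w_card_P (n d : ℕ) (S : Gr n → Prop) :
    ((regularGraphs n d).card : ℝ) * rgP n d S = ∑ H ∈ regularGraphs n d, if S H then (1 : ℝ) else 0 := by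
  unfold rgP rgE
  by_cases h : ((regularGraphs n d).card : ℝ) = 0
  · have h0 : regularGraphs n d = ∅ := by
      rw [← Finset.card_eq_zero]; exact_mod_cast h
    rw [h0]; simp
  · field_simp

open Classical in
/-- **`ε_Θ`**.   PLAN: sum `hpt` (= conclusion of `t2w_pt`) against `t2Ex`; the two terms with `H^` by `t2x_exch` (`F A m = 1{..}(t2Gr A)`); drop `[Val]`; mass `t2Ex A d 1 = n d!` (`t2x_o`); `t2g_sum`, definition of `rgP`. -/
theorem t2w_eps {n d R : ℕ} (hd : 3 ≤ d) {ι : Type} [Fintype ι] [DecidableEq ι] (hc : Fintype.card ι = d) {κ0 κ1 M : ℝ} {z : ℂ} {c : ℝ} (hc0 : 0 ≤ c)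
    (hpt : ∀ (H : Gr n) (m : T2Mk (Fin n) ι), H ∈ regularGraphs n d → T2ValM (rgA H) m →
      |t2Th d R κ0 κ1 z (t2Gr (t2SwM (rgA H) m)) - t2Th d R κ0 κ1 z H|
        ≤ (if RgStr d R H then 0 else 1) + (if RgStr d R (t2Gr (t2SwM (rgA H) m)) then 0 else 1)
          + (if T2Gap d R κ0 κ1 M z H then 1 else 0) + (if T2Gap d R κ0 κ1 M z (t2Gr (t2SwM (rgA H) m)) then 1 else 0) + c) :
    (t2EnsG n d R (t2Th d R κ0 κ1 z)).Eps ι d
      ≤ n * d.factorial * (regularGraphs n d).card * (2 * rgP n d (fun H => ¬ RgStr d R H) + 2 * rgP n d (T2Gap d R κ0 κ1 M z) + c) := by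
  obtain ⟨b, rfl⟩ : ∃ b, d = b + 1 := ⟨d - 1, by omega⟩
  set 𝓔 := t2EnsG n (b + 1) R (t2Th (b + 1) R κ0 κ1 z) with h𝓔
  have hM : ∀ A, A ∈ 𝓔.M ↔ T2Reg A (b + 1) := fun A => t2g_mem_M A
  set Fa : Matrix (Fin n) (Fin n) ℝ → ℝ := fun A =>
    (if RgStr (b + 1) R (t2Gr A) then 0 else 1) + (if T2Gap (b + 1) R κ0 κ1 M z (t2Gr A) then 1 else 0) with hFa
  have hFa0 : ∀ A, 0 ≤ Fa A := fun A => by
    simp only [hFa]
    split_ifs <;> norm_num
  have hconst : ∀ A ∈ 𝓔.M, ∀ x : ℝ, t2Ex A (b + 1) (fun _ : T2Mk (Fin n) ι => x) = (b + 1).factorial * (n * x) := by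
    intro A hA x
    have := t2x_o (ι := ι) ((hM A).1 hA) (by omega) hc (fun _ => x)
    rw [this]
    simp
  have s1 : 𝓔.Eps ι (b + 1) ≤ ∑ A ∈ 𝓔.M, (t2Ex A (b + 1) (fun m : T2Mk (Fin n) ι => if T2ValM A m then Fa A + c else 0)
      + t2Ex A (b + 1) (fun m : T2Mk (Fin n) ι => if T2ValM A m then Fa (t2SwM A m) else 0)) := by
    unfold T2Ens.Eps
    refine Finset.sum_le_sum fun A hA => ?_
    have hA' := (hM A).1 hA
    rw [← t2x_add]
    refine t2x_mono hA' fun m => ?_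
    by_cases hv : T2ValM A m
    · rw [if_pos hv, if_pos hv, if_pos hv]
      have h := hpt (t2Gr A) m (t2g_mem hA') (by rw [t2g_A_Gr hA']; exact hv)
      rw [t2g_A_Gr hA'] at h
      show |t2Th (b + 1) R κ0 κ1 z (t2Gr (t2SwM A m)) - t2Th (b + 1) R κ0 κ1 z (t2Gr A)| ≤ _
      simp only [hFa]
      linarith
    · rw [if_neg hv, if_neg hv, if_neg hv]; simp
  have s2 : ∑ A ∈ 𝓔.M, t2Ex A (b + 1) (fun m : T2Mk (Fin n) ι => if T2ValM A m then Fa (t2SwM A m) else 0)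
      = ∑ A ∈ 𝓔.M, t2Ex A (b + 1) (fun m : T2Mk (Fin n) ι => if T2ValM A m then Fa A else 0) :=
    (t2x_exch hM (fun A _ => Fa A)).symm
  have s3 : ∀ x : Matrix (Fin n) (Fin n) ℝ → ℝ, (∀ A, 0 ≤ x A) →
      ∑ A ∈ 𝓔.M, t2Ex A (b + 1) (fun m : T2Mk (Fin n) ι => if T2ValM A m then x A else 0)
        ≤ ∑ A ∈ 𝓔.M, (b + 1).factorial * (n * x A) := by
    intro x hx
    refine Finset.sum_le_sum fun A hA => ?_
    rw [← hconst A hA]
    refine t2x_mono ((hM A).1 hA) fun m => ?_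
    split_ifs
    · exact le_rfl
    · exact hx A
  rw [Finset.sum_add_distrib, s2] at s1
  have s4 := s3 (fun A => Fa A + c) (fun A => add_nonneg (hFa0 A) hc0)
  have s5 := s3 Fa hFa0
  have s6 : ∑ A ∈ 𝓔.M, ((b + 1).factorial : ℝ) * (n * (Fa A + c)) + ∑ A ∈ 𝓔.M, ((b + 1).factorial : ℝ) * (n * Fa A)
      = n * (b + 1).factorial * (regularGraphs n (b + 1)).card *
        (2 * rgP n (b + 1) (fun H => ¬ RgStr (b + 1) R H) + 2 * rgP n (b + 1) (T2Gap (b + 1) R κ0 κ1 M z) + c) := by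
    have e1 : ∀ F : Matrix (Fin n) (Fin n) ℝ → ℝ, ∑ A ∈ 𝓔.M, F A = ∑ H ∈ regularGraphs n (b + 1), F (rgA H) := fun F => t2g_sum F
    rw [e1, e1]
    simp only [hFa, t2g_Gr_A]
    have p1 := t2w_card_P n (b + 1) (fun H => ¬ RgStr (b + 1) R H)
    have p2 := t2w_card_P n (b + 1) (T2Gap (b + 1) R κ0 κ1 M z)
    have p1' : ((regularGraphs n (b + 1)).card : ℝ) * rgP n (b + 1) (fun H => ¬ RgStr (b + 1) R H)
        = ∑ H ∈ regularGraphs n (b + 1), if RgStr (b + 1) R H then (0 : ℝ) else 1 := by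
      rw [p1]
      refine Finset.sum_congr rfl fun H _ => ?_
      by_cases h : RgStr (b + 1) R H <;> simp [h]
    have e2 : (n : ℝ) * (b + 1).factorial * (regularGraphs n (b + 1)).card *
        (2 * rgP n (b + 1) (fun H => ¬ RgStr (b + 1) R H) + 2 * rgP n (b + 1) (T2Gap (b + 1) R κ0 κ1 M z) + c)
        = n * (b + 1).factorial * (2 * ((regularGraphs n (b + 1)).card * rgP n (b + 1) (fun H => ¬ RgStr (b + 1) R H))
          + 2 * ((regularGraphs n (b + 1)).card * rgP n (b + 1) (T2Gap (b + 1) R κ0 κ1 M z)) + (regularGraphs n (b + 1)).card * c) := by ring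
    rw [e2, p1', p2, ← Finset.sum_add_distrib]
    have e3 : ((regularGraphs n (b + 1)).card : ℝ) * c = ∑ _H ∈ regularGraphs n (b + 1), c := by simp
    rw [e3, Finset.mul_sum, Finset.mul_sum, ← Finset.sum_add_distrib, ← Finset.sum_add_distrib, Finset.mul_sum]
    refine Finset.sum_congr rfl fun H _ => ?_
    ring
  linarith

/-! ## 19. hypotheses of the ensemble; `rgF2`, `rgStarF` -/

/-- T1 controls the block of every tree-like edge.   PLAN: `b1_model_diag'` at both ends (`lc7_tl_anti`: `B_R({b}) ⊆ B_R({b,c})`), `b1_model_edge'`, `max_le`. -/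
theorem t2g_blk_le (d : ℕ) (hd : 3 ≤ d) {n : ℕ} (H : Gr n) (R : ℕ) (z : ℂ) (hz : 0 < z.im) {κ : ℝ}
    (hdev : RgDev d R H z κ) {b c : Fin n} (hbc : H.Adj b c) (ht : RgTl H R {b, c}) : rgBlk d H z b c ≤ κ := by
  have hsub : ∀ x ∈ ({b, c} : Finset (Fin n)), rgBall H R {x} ⊆ rgBall H R {b, c} := by
    intro x hx y hy
    unfold rgBall at hy ⊢
    rw [Finset.mem_filter] at hy ⊢
    obtain ⟨-, x', hx', hxy⟩ := hy
    rw [Finset.mem_singleton] at hx'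
    exact ⟨Finset.mem_univ _, x, hx, hx' ▸ hxy⟩
  have tb : RgTl H R {b} := lc7_tl_anti H (hsub b (by simp)) ht
  have tc : RgTl H R {c} := lc7_tl_anti H (hsub c (by simp)) ht
  have h1 := hdev b b
  have h2 := hdev c c
  have h3 := hdev b c
  rw [b1_model_diag' d hd H R z hz b tb] at h1
  rw [b1_model_diag' d hd H R z hz c tc] at h2
  rw [b1_model_edge' d hd H R z hz b c hbc ht] at h3
  unfold rgBlk
  exact max_le h1 (max_le h2 h3)

/-- **the hypotheses of the abstract closing hold**, `C0 = 14`, `κ = 32 κ0`.   PLAN: `t2g_mem_M`; `t2w_mem`; `Finset.pair_comm` + symmetry of `A`; `t2w_bd` (`rgG (t2Gr A) = rsG A` by `t2g_A_Gr`);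
`t2w_pos` + `t2g_blk_le` + `t2_good_of_blk` with `κ' = κ0/2` (`rgTv d z 0 = m`, `rgTv d z 1 = - m g`, `t2g_m`). -/
theorem t2g_hyp {n b R : ℕ} (hb : 2 ≤ b) (hR : 1 ≤ R) (hn : 1 ≤ n) {κ0 κ1 cg Z : ℝ} (hκ0 : 0 < κ0) (hκ0' : κ0 ≤ 2 / 27) (hκ1 : 0 < κ1) {z : ℂ}
    (hp : T2Par b z (rgg (b + 1) z) cg Z) :
    T2Hyp (t2EnsG n (b + 1) R (t2Th (b + 1) R κ0 κ1 z)) b z (rgg (b + 1) z) 14 (32 * κ0) := by
  have hz : 0 < z.im := hp.im
  have hd : 3 ≤ b + 1 := by omega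
  have hnR : (0 : ℝ) < n := by exact_mod_cast hn
  have hy : 0 < n * z.im := mul_pos hnR hz
  have hG : ∀ A : Matrix (Fin n) (Fin n) ℝ, T2Reg A (b + 1) → rgG (t2Gr A) z = rsG A z := by
    intro A hA
    unfold rgG
    rw [t2g_A_Gr hA]
  refine ⟨fun A => t2g_mem_M A, by norm_num, fun A => (t2w_mem _ _ _ _ _ _).1, fun A => (t2w_mem _ _ _ _ _ _).2, ?_, ?_, ?_⟩
  · intro A x y h
    refine ⟨h.1.symm, ?_⟩
    rw [Finset.pair_comm]
    exact h.2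
  · intro A hA hΘ x y
    have hA' := (t2g_mem_M A).1 hA
    rw [← hG A hA']
    exact t2w_bd (b + 1) R hd hR (by linarith) hκ1 hz hn hΘ x y
  · intro A hA hΘ x y hgd
    have hA' := (t2g_mem_M A).1 hA
    obtain ⟨-, hdev, -⟩ := t2w_pos (b + 1) R hκ1 hy hΘ
    have hblk := t2g_blk_le (b + 1) hd (t2Gr A) R z hz hdev hgd.1 hgd.2
    unfold rgBlk at hblk
    rw [hG A hA'] at hblk
    have h1 := (le_max_left _ _).trans hblk
    have h2 := ((le_max_left _ _).trans (le_max_right _ _)).trans hblk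
    have h3 := ((le_max_right _ _).trans (le_max_right _ _)).trans hblk
    have e0 : rgTv (b + 1) z 0 = rgm (b + 1) z := by unfold rgTv; simp
    have e1 : rsG A z x y - rgTv (b + 1) z 1 = rsG A z x y + rgm (b + 1) z * rgg (b + 1) z := by unfold rgTv; ring
    rw [e0] at h1 h2
    rw [e1] at h3
    have h := t2_good_of_blk hp (t2g_m (b + 1) hd hz) hA'.herm (by linarith : κ0 / 2 ≤ 1 / 27) h1 h2 h3
    have e : 64 * (κ0 / 2) = 32 * κ0 := by ring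
    rw [e] at h
    exact h

/-- `rgF2` from the cavity sums.   PLAN: good edges: `rgBlk ≤ 28 σ_e` (`t2_blk_of_good` at `(x,y)` and `(y,x)`), `σ² ≤ 3 (..)`, `∑_good A σ² ≤ 3 (2 S2 + SY)` (swap `x ↔ y`); the others: `rgBlk ≤ 14 + 2` (`‖rgTv‖ ≤ 3/2`, `tgr_bounds`). -/
theorem t2g_F2 {n b R : ℕ} {Θ : Gr n → ℝ} {z : ℂ} {cg Z κ : ℝ} (hp : T2Par b z (rgg (b + 1) z) cg Z) (hκ : κ ≤ 1 / 36)
    (h : T2Hyp (t2EnsG n (b + 1) R Θ) b z (rgg (b + 1) z) 14 κ) {H : Gr n} (hH : H ∈ regularGraphs n (b + 1)) (hΘ : 0 < Θ H) :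
    n * ((b : ℝ) + 1) * rgF2 (b + 1) H z
      ≤ 4704 * (t2EnsG n (b + 1) R Θ).S2 z (rgg (b + 1) z) (rgA H) + 2352 * (t2EnsG n (b + 1) R Θ).SY z (rgA H) + 256 * (t2EnsG n (b + 1) R Θ).NB (rgA H) := by
  classical
  have hd : 3 ≤ b + 1 := by have := hp.b2; omega
  have hz := hp.im
  set g := rgg (b + 1) z with hg
  set m := rgm (b + 1) z with hmdef
  have hm : m * (1 - g ^ 2) = g := t2g_m (b + 1) hd hz
  set 𝓔 := t2EnsG n (b + 1) R Θ with hE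
  set A := rgA H with hAdef
  have hreg : T2Reg A (b + 1) := t2g_reg hH
  have hA : A ∈ 𝓔.M := (h.mem A).2 hreg
  have hΘ' : 0 < 𝓔.Θ A := by
    show 0 < Θ (t2Gr (rgA H))
    rw [t2g_Gr_A]; exact hΘ
  have hbd : ∀ x y, ‖rgG H z x y‖ ≤ 14 := h.bd A hA hΘ'
  have hT0 : rgTv (b + 1) z 0 = m := by unfold rgTv; rw [pow_zero, mul_one]
  have hT1 : rgTv (b + 1) z 1 = -(m * g) := by unfold rgTv; rw [pow_one, mul_neg]
  -- pointwise
  have key : ∀ x y : Fin n, (if H.Adj x y then rgBlk (b + 1) H z x y ^ 2 else 0)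
      ≤ 2352 * (A x y * ‖𝓔.xi z g A x y‖ ^ 2) + 2352 * (A y x * ‖𝓔.xi z g A y x‖ ^ 2) + 2352 * (A x y * ‖𝓔.yy z A x y‖ ^ 2)
        + 256 * (A x y * (if 𝓔.Gd A x y then 0 else 1)) := by
    intro x y
    by_cases hxy : H.Adj x y
    · have a1 : A x y = 1 := (t2g_A_apply H x y).2 hxy
      have a2 : A y x = 1 := (t2g_A_apply H y x).2 hxy.symm
      rw [if_pos hxy, a1, a2]
      by_cases hG : 𝓔.Gd A x y
      · have hG' := h.gs A x y hG
        have g1 := h.gd A hA hΘ' x y hG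
        have g2 := h.gd A hA hΘ' y x hG'
        obtain ⟨b1, b2⟩ := t2_blk_of_good hp hm hreg.herm hκ g1
        obtain ⟨b3, _⟩ := t2_blk_of_good hp hm hreg.herm hκ g2
        rw [t2Y_comm hreg.herm hz.ne' y x] at b3
        have e1 : 𝓔.xi z g A x y = t2X A z x y - g := by unfold T2Ens.xi; rw [if_pos hG]
        have e2 : 𝓔.xi z g A y x = t2X A z y x - g := by unfold T2Ens.xi; rw [if_pos hG']
        have e3 : 𝓔.yy z A x y = t2Y A z x y := by unfold T2Ens.yy; rw [if_pos hG]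
        rw [e1, e2, e3, if_pos hG]
        set s1 := ‖t2X A z x y - g‖
        set s2 := ‖t2X A z y x - g‖
        set s3 := ‖t2Y A z x y‖
        have hs1 : 0 ≤ s1 := norm_nonneg _
        have hs2 : 0 ≤ s2 := norm_nonneg _
        have hs3 : 0 ≤ s3 := norm_nonneg _
        have hB : rgBlk (b + 1) H z x y ≤ 28 * (s1 + s2 + s3) := by
          unfold rgBlk
          rw [hT0, hT1]
          refine max_le b1 (max_le (b3.trans (le_of_eq (by ring))) ?_)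
          rw [sub_neg_eq_add]; exact b2
        have hB0 : 0 ≤ rgBlk (b + 1) H z x y := by
          unfold rgBlk
          exact le_max_of_le_left (norm_nonneg _)
        have hsq : rgBlk (b + 1) H z x y ^ 2 ≤ (28 * (s1 + s2 + s3)) ^ 2 := pow_le_pow_left₀ hB0 hB 2
        nlinarith [sq_nonneg (s1 - s2), sq_nonneg (s1 - s3), sq_nonneg (s2 - s3)]
      · rw [if_neg hG]
        have hB : rgBlk (b + 1) H z x y ≤ 16 := by
          unfold rgBlk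
          exact max_le (t2g245_blk_triv hd hz hbd 0 x x) (max_le (t2g245_blk_triv hd hz hbd 0 y y) (t2g245_blk_triv hd hz hbd 1 x y))
        have hB0 : 0 ≤ rgBlk (b + 1) H z x y := by
          unfold rgBlk
          exact le_max_of_le_left (norm_nonneg _)
        have hsq : rgBlk (b + 1) H z x y ^ 2 ≤ 16 ^ 2 := pow_le_pow_left₀ hB0 hB 2
        have p1 : 0 ≤ ‖𝓔.xi z g A x y‖ ^ 2 := by positivity
        have p2 : 0 ≤ ‖𝓔.xi z g A y x‖ ^ 2 := by positivity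
        have p3 : 0 ≤ ‖𝓔.yy z A x y‖ ^ 2 := by positivity
        linarith
    · have a1 : A x y = 0 := t2g245_A_zero H hxy
      have a2 : A y x = 0 := t2g245_A_zero H (fun h' => hxy h'.symm)
      rw [if_neg hxy, a1, a2]
      simp
  have hsum : ∑ e : Fin n × Fin n, (if H.Adj e.1 e.2 then rgBlk (b + 1) H z e.1 e.2 ^ 2 else 0)
      ≤ 4704 * 𝓔.S2 z g A + 2352 * 𝓔.SY z A + 256 * 𝓔.NB A := by
    rw [Fintype.sum_prod_type]
    refine (Finset.sum_le_sum fun x _ => Finset.sum_le_sum fun y _ => key x y).trans (le_of_eq ?_)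
    simp only [Finset.sum_add_distrib, ← Finset.mul_sum]
    have sw : ∑ x, ∑ y, A y x * ‖𝓔.xi z g A y x‖ ^ 2 = ∑ x, ∑ y, A x y * ‖𝓔.xi z g A x y‖ ^ 2 := Finset.sum_comm
    rw [sw]
    unfold T2Ens.S2 T2Ens.SY T2Ens.NB
    ring
  refine le_trans (le_of_eq ?_) hsum
  unfold rgF2
  rcases Nat.eq_zero_or_pos n with rfl | hn
  · simp
  have hn0 : (n : ℝ) ≠ 0 := by positivity
  have hb0 : ((b : ℝ) + 1) ≠ 0 := by positivity
  push_cast
  field_simp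

/-- the star deviation in the two vocabularies -/
theorem t2g245_StD {n : ℕ} (d : ℕ) (H : Gr n) (z : ℂ) (o : Fin n) : rgStD d H z o = t2St (rgA H) z (rgg d z) (rgm d z) o := by
  classical
  unfold rgStD t2St rgStar
  rw [Finset.sum_filter]
  refine Finset.sum_congr rfl fun x _ => ?_
  rw [Finset.sum_filter]
  by_cases hx : x = o ∨ H.Adj o x
  · have hx' : x = o ∨ rgA H o x = 1 := by rwa [t2g_A_apply]
    rw [if_pos hx]
    refine Finset.sum_congr rfl fun y _ => ?_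
    by_cases hy : y = o ∨ H.Adj o y
    · have hy' : y = o ∨ rgA H o y = 1 := by rwa [t2g_A_apply]
      rw [if_pos hy, if_pos ⟨hx', hy'⟩]
      rfl
    · have hy' : ¬ (y = o ∨ rgA H o y = 1) := by rwa [t2g_A_apply]
      rw [if_neg hy, if_neg (fun h => hy' h.2)]
  · have hx' : ¬ (x = o ∨ rgA H o x = 1) := by rwa [t2g_A_apply]
    rw [if_neg hx]
    exact (Finset.sum_eq_zero fun y _ => if_neg (fun h => hx' h.1)).symm

/-- the trivial bound of the star -/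
theorem t2g245_St_triv {n d : ℕ} (hd : 3 ≤ d) {H : Gr n} (hH : H ∈ regularGraphs n d) {z : ℂ} (hz : 0 < z.im) (hbd : ∀ x y, ‖rgG H z x y‖ ≤ 14) (o : Fin n) :
    rgStD d H z o ≤ 256 * ((d : ℝ) + 1) ^ 2 := by
  classical
  have hreg : T2Reg (rgA H) d := t2g_reg hH
  rw [t2g245_StD]
  unfold t2St
  set ind : Fin n → ℝ := fun x => if (x = o ∨ rgA H o x = 1) then (1 : ℝ) else 0 with hind
  have h0 : ∀ x, 0 ≤ ind x := fun x => by simp only [hind]; split_ifs <;> norm_num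
  have h1 : ∀ x, ind x ≤ (if x = o then 1 else 0) + rgA H o x := by
    intro x
    simp only [hind]
    rcases hreg.zo o x with h | h
    · rw [h]; by_cases hx : x = o <;> simp [hx]
    · rw [h]; by_cases hx : x = o <;> simp [hx]
  have h2 : ∑ x, ind x ≤ (d : ℝ) + 1 := by
    refine (Finset.sum_le_sum fun x _ => h1 x).trans ?_
    rw [Finset.sum_add_distrib, hreg.row o]
    simp
    linarith
  have h3 : 0 ≤ ∑ x, ind x := Finset.sum_nonneg fun x _ => h0 x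
  have h4 : ∀ x y, (if (x = o ∨ rgA H o x = 1) ∧ (y = o ∨ rgA H o y = 1) then ‖rsG (rgA H) z x y - t2Tv (rgg d z) (rgm d z) (t2Sd o x y)‖ ^ 2 else 0)
      ≤ 256 * (ind x * ind y) := by
    intro x y
    simp only [hind]
    by_cases hx : x = o ∨ rgA H o x = 1
    · by_cases hy : y = o ∨ rgA H o y = 1
      · rw [if_pos ⟨hx, hy⟩, if_pos hx, if_pos hy]
        have := t2g245_blk_triv hd hz hbd (t2Sd o x y) x y
        have e : ‖rsG (rgA H) z x y - t2Tv (rgg d z) (rgm d z) (t2Sd o x y)‖ ≤ 16 := this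
        have := pow_le_pow_left₀ (norm_nonneg _) e 2
        linarith
      · rw [if_neg (fun h => hy h.2), if_neg hy]; simp
    · rw [if_neg (fun h => hx h.1), if_neg hx]; simp
  calc _ ≤ ∑ x, ∑ y, 256 * (ind x * ind y) := Finset.sum_le_sum fun x _ => Finset.sum_le_sum fun y _ => h4 x y
    _ = 256 * (∑ x, ind x) ^ 2 := by
        simp only [← Finset.mul_sum, ← Finset.sum_mul]
        ring
    _ ≤ 256 * ((d : ℝ) + 1) ^ 2 := by
        have := pow_le_pow_left₀ h3 h2 2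
        linarith

/-- `rgStarF` from `SS`.   PLAN: `rgStD d H z o = t2St (rgA H) z g m o` (sums over the filter = sums of `if`; `rgSd = t2Sd`, `rgTv = t2Tv`); vertices with a bad edge: `≤ NB` of them, each `≤ (d+1)² 16²`. -/
theorem t2g_Star {n b R : ℕ} {Θ : Gr n → ℝ} {z : ℂ} {cg Z κ : ℝ} (hp : T2Par b z (rgg (b + 1) z) cg Z)
    (h : T2Hyp (t2EnsG n (b + 1) R Θ) b z (rgg (b + 1) z) 14 κ) {H : Gr n} (hH : H ∈ regularGraphs n (b + 1)) (hΘ : 0 < Θ H) :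
    n * rgStarF (b + 1) H z
      ≤ (t2EnsG n (b + 1) R Θ).SS z (rgg (b + 1) z) (rgm (b + 1) z) (rgA H) + 256 * ((b : ℝ) + 2) ^ 2 * (t2EnsG n (b + 1) R Θ).NB (rgA H) := by
  classical
  have hd : 3 ≤ b + 1 := by have := hp.b2; omega
  have hz := hp.im
  set 𝓔 := t2EnsG n (b + 1) R Θ with hE
  set A := rgA H with hAdef
  have hreg : T2Reg A (b + 1) := t2g_reg hH
  have hA : A ∈ 𝓔.M := (h.mem A).2 hreg
  have hΘ' : 0 < 𝓔.Θ A := by
    show 0 < Θ (t2Gr (rgA H))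
    rw [t2g_Gr_A]; exact hΘ
  have hbd : ∀ x y, ‖rgG H z x y‖ ≤ 14 := h.bd A hA hΘ'
  have key : ∀ o : Fin n, rgStD (b + 1) H z o
      ≤ (if 𝓔.Gv A o then t2St A z (rgg (b + 1) z) (rgm (b + 1) z) o else 0) + 256 * ((b : ℝ) + 2) ^ 2 * ∑ y, A o y * (if 𝓔.Gd A o y then 0 else 1) := by
    intro o
    have hnn : 0 ≤ ∑ y, A o y * (if 𝓔.Gd A o y then (0 : ℝ) else 1) := by
      refine Finset.sum_nonneg fun y _ => mul_nonneg ?_ (by split_ifs <;> norm_num)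
      rcases hreg.zo o y with h' | h' <;> rw [h'] <;> norm_num
    by_cases hG : 𝓔.Gv A o
    · rw [if_pos hG, t2g245_StD]
      have : 0 ≤ 256 * ((b : ℝ) + 2) ^ 2 * ∑ y, A o y * (if 𝓔.Gd A o y then (0 : ℝ) else 1) := by positivity
      linarith
    · rw [if_neg hG, zero_add]
      unfold T2Ens.Gv at hG
      push Not at hG
      obtain ⟨y, hy1, hy2⟩ := hG
      have h1 : (1 : ℝ) ≤ ∑ y, A o y * (if 𝓔.Gd A o y then (0 : ℝ) else 1) := by
        refine le_trans (le_of_eq ?_) (Finset.single_le_sum (f := fun y => A o y * (if 𝓔.Gd A o y then (0 : ℝ) else 1)) (fun y _ => ?_) (Finset.mem_univ y))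
        · simp only [hy1, if_neg hy2, mul_one]
        · refine mul_nonneg ?_ (by split_ifs <;> norm_num)
          rcases hreg.zo o y with h' | h' <;> rw [h'] <;> norm_num
      have h2 := t2g245_St_triv hd hH hz hbd o
      have e : (((b + 1 : ℕ) : ℝ) + 1) = (b : ℝ) + 2 := by push_cast; ring
      rw [e] at h2
      calc _ ≤ 256 * ((b : ℝ) + 2) ^ 2 * 1 := by linarith
        _ ≤ _ := mul_le_mul_of_nonneg_left h1 (by positivity)
  have hsum : ∑ o, rgStD (b + 1) H z o ≤ 𝓔.SS z (rgg (b + 1) z) (rgm (b + 1) z) A + 256 * ((b : ℝ) + 2) ^ 2 * 𝓔.NB A := by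
    refine (Finset.sum_le_sum fun o _ => key o).trans (le_of_eq ?_)
    rw [Finset.sum_add_distrib, ← Finset.mul_sum]
    rfl
  refine le_trans (le_of_eq ?_) hsum
  unfold rgStarF
  rcases Nat.eq_zero_or_pos n with rfl | hn
  · simp
  have hn0 : (n : ℝ) ≠ 0 := by positivity
  field_simp

/-- PLAN: `lc7_nt_edges`; `NB` = number of adjacent pairs which are not tree-like (`t2g_Gr_A`, `t2g_A_apply`). -/
theorem t2g_NB {n d R : ℕ} (hd : 1 ≤ d) {Θ : Gr n → ℝ} {H : Gr n} (hH : H ∈ regularGraphs n d) :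
    (t2EnsG n d R Θ).NB (rgA H) ≤ n * d * rgNT H (R + 1) := by
  classical
  have h1 := lc7_nt_edges hd hH R
  have e : (t2EnsG n d R Θ).NB (rgA H) = ((Finset.univ.filter fun e : Fin n × Fin n => H.Adj e.1 e.2 ∧ ¬ RgTl H R {e.1, e.2}).card : ℝ) := by
    unfold T2Ens.NB
    rw [Finset.card_filter, Nat.cast_sum, Fintype.sum_prod_type]
    refine Finset.sum_congr rfl fun x _ => Finset.sum_congr rfl fun y _ => ?_
    have hG : (t2EnsG n d R Θ).Gd (rgA H) x y ↔ (H.Adj x y ∧ RgTl H R {x, y}) := by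
      show ((t2Gr (rgA H)).Adj x y ∧ RgTl (t2Gr (rgA H)) R {x, y}) ↔ _
      rw [t2g_Gr_A]
    by_cases hxy : H.Adj x y
    · have h2 : rgA H x y = 1 := (t2g_A_apply H x y).2 hxy
      by_cases ht : RgTl H R {x, y} <;> simp [h2, hxy, ht, hG]
    · have h2 : rgA H x y = 0 := t2g245_A_zero H hxy
      simp [h2, hxy]
  rw [e]
  rcases Nat.eq_zero_or_pos n with rfl | hn
  · simp
  have hnd : (0 : ℝ) < n * d := by positivity
  rw [div_le_iff₀ hnd] at h1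
  linarith

/-! ## 20. the contract -/

/-- pure algebra of `t2g_first` -/
theorem t2g245_alg {KF KY KS D k2 W E sNB N B2 sS2 sSY sSS : ℝ} (hKF : 0 ≤ KF) (hKY : 0 ≤ KY) (hKS : 0 ≤ KS) (hD : 1 ≤ D) (hk0 : 0 ≤ k2) (hk1 : k2 ≤ 1)
    (hW : 0 ≤ W) (hE : 0 ≤ E) (hNB : 0 ≤ sNB) (hN : 0 ≤ N) (hB2 : 0 ≤ B2)
    (h1 : sS2 ≤ KF * (W + E + sNB + N)) (h2 : sSY ≤ KY * W + D * k2 * E + D * k2 * sNB + 8 * D ^ 4 * k2 * N)
    (h3 : sSS ≤ KS * (sS2 + 144 * D ^ 4 * W) + B2 * 256 * (E + sNB + 8 * D ^ 3 * N)) :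
    4704 * sS2 + 2352 * sSY + sSS + 256 * (1 + B2) * sNB
      ≤ (4704 * KF + 2352 * (KY + 8 * D ^ 4) + KS * (KF + 144 * D ^ 4) + 2048 * B2 * D ^ 3 + 256 * (1 + B2)) * (W + E + sNB + N) := by
  set Q := W + E + sNB + N with hQ
  have hQ0 : 0 ≤ Q := by positivity
  have hD3 : 1 ≤ D ^ 3 := one_le_pow₀ hD
  have hD4 : 1 ≤ D ^ 4 := one_le_pow₀ hD
  have hDD : D ≤ D ^ 4 := by
    calc D = D * 1 := (mul_one D).symm
      _ ≤ D * D ^ 3 := mul_le_mul_of_nonneg_left hD3 (by linarith)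
      _ = D ^ 4 := by ring
  have c1 : D * k2 ≤ KY + 8 * D ^ 4 := by
    have : D * k2 ≤ D * 1 := mul_le_mul_of_nonneg_left hk1 (by linarith)
    linarith
  have c2 : 8 * D ^ 4 * k2 ≤ KY + 8 * D ^ 4 := by
    have : 8 * D ^ 4 * k2 ≤ 8 * D ^ 4 * 1 := mul_le_mul_of_nonneg_left hk1 (by positivity)
    linarith
  have y : sSY ≤ (KY + 8 * D ^ 4) * Q := by
    have a1 : KY * W ≤ (KY + 8 * D ^ 4) * W := mul_le_mul_of_nonneg_right (by linarith) hW
    have a2 := mul_le_mul_of_nonneg_right c1 hE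
    have a3 := mul_le_mul_of_nonneg_right c1 hNB
    have a4 := mul_le_mul_of_nonneg_right c2 hN
    rw [hQ]; linarith
  have s : sSS ≤ (KS * (KF + 144 * D ^ 4) + 2048 * B2 * D ^ 3) * Q := by
    have a1 : sS2 + 144 * D ^ 4 * W ≤ (KF + 144 * D ^ 4) * Q := by
      have : 144 * D ^ 4 * W ≤ 144 * D ^ 4 * Q := mul_le_mul_of_nonneg_left (by rw [hQ]; linarith) (by positivity)
      linarith
    have a2 := mul_le_mul_of_nonneg_left a1 hKS
    have a3 : E + sNB + 8 * D ^ 3 * N ≤ 8 * D ^ 3 * Q := by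
      have b1 : E ≤ 8 * D ^ 3 * E := by nlinarith
      have b2 : sNB ≤ 8 * D ^ 3 * sNB := by nlinarith
      have b3 : 0 ≤ 8 * D ^ 3 * W := by positivity
      rw [hQ]; linarith
    have a4 := mul_le_mul_of_nonneg_left a3 (by positivity : 0 ≤ B2 * 256)
    linarith
  have nb : 256 * (1 + B2) * sNB ≤ 256 * (1 + B2) * Q := mul_le_mul_of_nonneg_left (by rw [hQ]; linarith) (by positivity)
  linarith

/-- pure algebra of `t2g_first`, the normalisation -/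
theorem t2g245_fin {nn η N fa Ep sNT sNB D C1 S : ℝ} (hnR : 0 < nn) (hz : 0 < η) (hN0 : 0 ≤ N) (hfa0 : 0 < fa) (hEp0 : 0 ≤ Ep) (hNT0 : 0 ≤ sNT) (hD1 : 1 ≤ D)
    (hC10 : 0 ≤ C1) (hnb : sNB ≤ nn * D * sNT) (hsum : nn * S ≤ C1 * (14 / η * N + Ep / fa + sNB + N)) :
    S / N ≤ C1 * (14 + D) * (1 / (nn * η) + Ep / (nn * fa * N) + sNT / N + 1 / nn) := by
  rcases hN0.eq_or_lt with h0 | h0
  · rw [← h0]
    simp only [div_zero, mul_zero, add_zero]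
    positivity
  have hq : 14 / η * N + Ep / fa + sNB + N ≤ nn * N * (14 * (1 / (nn * η)) + Ep / (nn * fa * N) + D * (sNT / N) + 1 / nn) := by
    have e1 : nn * N * (14 * (1 / (nn * η)) + Ep / (nn * fa * N) + D * (sNT / N) + 1 / nn) = 14 / η * N + Ep / fa + nn * D * sNT + N := by
      field_simp
    rw [e1]; linarith
  have h5 : nn * S ≤ nn * N * (C1 * (14 * (1 / (nn * η)) + Ep / (nn * fa * N) + D * (sNT / N) + 1 / nn)) := by
    have := mul_le_mul_of_nonneg_left hq hC10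
    linarith
  have h6 : S / N ≤ C1 * (14 * (1 / (nn * η)) + Ep / (nn * fa * N) + D * (sNT / N) + 1 / nn) := by
    rw [div_le_iff₀ h0]
    have : nn * S ≤ nn * (C1 * (14 * (1 / (nn * η)) + Ep / (nn * fa * N) + D * (sNT / N) + 1 / nn) * N) := by linarith
    exact le_of_mul_le_mul_left this hnR
  refine h6.trans ?_
  rw [mul_assoc C1 (14 + D)]
  refine mul_le_mul_of_nonneg_left ?_ hC10
  have p1 : 0 ≤ 1 / (nn * η) := by positivity
  have p2 : 0 ≤ Ep / (nn * fa * N) := by positivity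
  have p3 : 0 ≤ sNT / N := by positivity
  have p4 : (0 : ℝ) ≤ 1 / nn := by positivity
  nlinarith [mul_nonneg (by linarith : 0 ≤ D) p1, mul_nonneg (by linarith : 0 ≤ D) p2, mul_nonneg (by linarith : 0 ≤ D) p4]

theorem t2g245_nn {n d : ℕ} {A : Matrix (Fin n) (Fin n) ℝ} (hA : T2Reg A d) (f : Fin n → Fin n → ℝ) (hf : ∀ x y, 0 ≤ f x y) : 0 ≤ ∑ x, ∑ y, A x y * f x y := by
  refine Finset.sum_nonneg fun x _ => Finset.sum_nonneg fun y _ => mul_nonneg ?_ (hf x y)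
  rcases hA.zo x y with h | h <;> rw [h] <;> norm_num

/-- the pointwise inequality of `t2g_first` -/
theorem t2g245_pt {n b R : ℕ} {Θ : Gr n → ℝ} {z : ℂ} {cg Z κ : ℝ} (hp : T2Par b z (rgg (b + 1) z) cg Z) (hκ : κ ≤ 1 / 36)
    (h : T2Hyp (t2EnsG n (b + 1) R Θ) b z (rgg (b + 1) z) 14 κ) {H : Gr n} (hH : H ∈ regularGraphs n (b + 1)) (t0 : 0 ≤ Θ H) (t1 : Θ H ≤ 1) :
    (n : ℝ) * (Θ H * (rgF2 (b + 1) H z + rgStarF (b + 1) H z))
      ≤ 4704 * ((t2EnsG n (b + 1) R Θ).Θ (rgA H) * (t2EnsG n (b + 1) R Θ).S2 z (rgg (b + 1) z) (rgA H))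
        + 2352 * ((t2EnsG n (b + 1) R Θ).Θ (rgA H) * (t2EnsG n (b + 1) R Θ).SY z (rgA H))
        + (t2EnsG n (b + 1) R Θ).Θ (rgA H) * (t2EnsG n (b + 1) R Θ).SS z (rgg (b + 1) z) (rgm (b + 1) z) (rgA H)
        + 256 * (1 + ((b : ℝ) + 2) ^ 2) * (t2EnsG n (b + 1) R Θ).NB (rgA H) := by
  classical
  set 𝓔 := t2EnsG n (b + 1) R Θ with h𝓔
  have hreg : T2Reg (rgA H) (b + 1) := t2g_reg hH
  have eΘ : 𝓔.Θ (rgA H) = Θ H := by
    show Θ (t2Gr (rgA H)) = Θ H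
    rw [t2g_Gr_A]
  rw [eΘ]
  have hnb : 0 ≤ 𝓔.NB (rgA H) := t2g245_nn hreg _ fun x y => by split_ifs <;> norm_num
  have hB : 0 ≤ 256 * (1 + ((b : ℝ) + 2) ^ 2) * 𝓔.NB (rgA H) := mul_nonneg (by positivity) hnb
  rcases t0.eq_or_lt with h0 | h0
  · rw [← h0]
    simp only [zero_mul, mul_zero, add_zero, zero_add]
    exact hB
  · have f2 := t2g_F2 hp hκ h hH h0
    have st := t2g_Star hp h hH h0
    have hF0 : 0 ≤ rgF2 (b + 1) H z := by
      unfold rgF2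
      refine div_nonneg (Finset.sum_nonneg fun e _ => ?_) (mul_nonneg (Nat.cast_nonneg _) (Nat.cast_nonneg _))
      split_ifs
      · exact sq_nonneg _
      · exact le_rfl
    have hb0 : (0 : ℝ) ≤ b := Nat.cast_nonneg _
    have hn0 : (0 : ℝ) ≤ n := Nat.cast_nonneg _
    have h1 : (n : ℝ) * rgF2 (b + 1) H z ≤ n * ((b : ℝ) + 1) * rgF2 (b + 1) H z := by
      have : (n : ℝ) * rgF2 (b + 1) H z * 1 ≤ n * rgF2 (b + 1) H z * ((b : ℝ) + 1) := mul_le_mul_of_nonneg_left (by linarith) (mul_nonneg hn0 hF0)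
      linarith
    have h2 : (n : ℝ) * (rgF2 (b + 1) H z + rgStarF (b + 1) H z)
        ≤ 4704 * 𝓔.S2 z (rgg (b + 1) z) (rgA H) + 2352 * 𝓔.SY z (rgA H) + 𝓔.SS z (rgg (b + 1) z) (rgm (b + 1) z) (rgA H)
          + 256 * (1 + ((b : ℝ) + 2) ^ 2) * 𝓔.NB (rgA H) := by
      linarith
    have h3 := mul_le_mul_of_nonneg_left h2 t0
    have h4 : Θ H * (256 * (1 + ((b : ℝ) + 2) ^ 2) * 𝓔.NB (rgA H)) ≤ 1 * (256 * (1 + ((b : ℝ) + 2) ^ 2) * 𝓔.NB (rgA H)) := mul_le_mul_of_nonneg_right t1 hB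
    linarith

/-- **first moment**: `E[Θ (F2 + StarF)] ≤ C (1/y + ε_Θ/(n d!) + E rgNT + 1/n)`.
PLAN: `t2g_F2`, `t2g_Star` (terms with `Θ H = 0` vanish), `t2g_sum`, `t2_close_F`, `t2_close_Y`, `t2_close_S` with `ι = Fin (b+1)`, `co = 1/(4 (3 b + 2))` (`t2par_ge`, `κ ≤ 1/(2 (Z + b))`), `t2g_NB`, `t2g_card`; divide by `n #reg`. -/
theorem t2g_first (b : ℕ) (hb : 2 ≤ b) (cg : ℝ) (hcg : 0 < cg) :
    ∃ κs : ℝ, 0 < κs ∧ ∃ C : ℝ, 0 ≤ C ∧ ∀ (n R : ℕ) (κ0 κ1 : ℝ) (z : ℂ), 1 ≤ n → 1 ≤ R → 0 < κ0 → κ0 ≤ κs → 0 < κ1 → T2Par b z (rgg (b + 1) z) cg (2 * (b + 1)) →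
      rgE n (b + 1) (fun H => t2Th (b + 1) R κ0 κ1 z H * (rgF2 (b + 1) H z + rgStarF (b + 1) H z))
        ≤ C * (1 / (n * z.im) + (t2EnsG n (b + 1) R (t2Th (b + 1) R κ0 κ1 z)).Eps (Fin (b + 1)) (b + 1) / (n * (b + 1).factorial * (regularGraphs n (b + 1)).card)
            + rgE n (b + 1) (fun H => rgNT H (R + 1)) + 1 / n) := by
  classical
  have hb0 : (2 : ℝ) ≤ b := by exact_mod_cast hb
  set D : ℝ := (b : ℝ) + 1 with hD
  have hD1 : 1 ≤ D := by rw [hD]; linarith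
  set co : ℝ := 1 / (4 * (3 * b + 2)) with hco
  have hco0 : 0 < co := by rw [hco]; positivity
  set KF := t2KF b cg (2 * (b + 1)) 14 co with hKF
  set KY := t2KY b 14 co with hKY
  set KS := t2KS (b + 1) 14 co with hKS
  have hKY0 : 0 ≤ KY := by rw [hKY]; unfold t2KY; positivity
  have hKF0 : 0 ≤ KF := by rw [hKF]; unfold t2KF; positivity
  have hKS0 : 0 ≤ KS := by rw [hKS]; unfold t2KS; positivity
  set B2 : ℝ := ((b : ℝ) + 2) ^ 2 with hB2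
  have hB20 : 0 ≤ B2 := by positivity
  set C1 : ℝ := 4704 * KF + 2352 * (KY + 8 * D ^ 4) + KS * (KF + 144 * D ^ 4) + 2048 * B2 * D ^ 3 + 256 * (1 + B2) with hC1
  have hC10 : 0 ≤ C1 := by rw [hC1]; positivity
  refine ⟨min (1 / 1152) (min (cg / (32 * (1200 * (b + 1) * b))) (1 / (64 * (3 * b + 2)))), by positivity, C1 * (14 + D), by positivity, ?_⟩
  intro n R κ0 κ1 z hn hR hκ0 hκs hκ1 hp
  have k1 : κ0 ≤ 1 / 1152 := hκs.trans (min_le_left _ _)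
  have k2 : κ0 ≤ cg / (32 * (1200 * (b + 1) * b)) := hκs.trans ((min_le_right _ _).trans (min_le_left _ _))
  have k3 : κ0 ≤ 1 / (64 * (3 * b + 2)) := hκs.trans ((min_le_right _ _).trans (min_le_right _ _))
  set κ : ℝ := 32 * κ0 with hκ
  have hκ0' : 0 ≤ κ := by rw [hκ]; positivity
  have hκ36 : κ ≤ 1 / 36 := by rw [hκ]; linarith
  have hκ1' : κ ^ 2 ≤ 1 := by nlinarith
  have hz := hp.im
  have hd : 3 ≤ b + 1 := by omega
  set g := rgg (b + 1) z with hg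
  set m := rgm (b + 1) z with hmdef
  have hm : m * (1 - g ^ 2) = g := t2g_m (b + 1) hd hz
  set Θ := t2Th (b + 1) R κ0 κ1 z with hΘ
  set 𝓔 := t2EnsG n (b + 1) R Θ with h𝓔
  have hyp : T2Hyp 𝓔 b z g 14 κ := t2g_hyp hb hR hn hκ0 (by linarith) hκ1 hp
  have hc : Fintype.card (Fin (b + 1)) = b + 1 := Fintype.card_fin _
  have hκ2 : 12 * (100 * ((b : ℝ) + 1)) ^ 2 * b * κ ^ 2 ≤ cg ^ 2 := by
    have h0 : κ ≤ cg / (1200 * (b + 1) * b) := by
      rw [hκ]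
      calc 32 * κ0 ≤ 32 * (cg / (32 * (1200 * (b + 1) * b))) := mul_le_mul_of_nonneg_left k2 (by norm_num)
        _ = cg / (1200 * (b + 1) * b) := by field_simp
    have h' : κ * (1200 * (b + 1) * b) ≤ cg := by rwa [le_div_iff₀ (by positivity)] at h0
    have h'' : (κ * (1200 * (b + 1) * b)) ^ 2 ≤ cg ^ 2 := pow_le_pow_left₀ (by positivity) h' 2
    have h3 : 12 * (100 * ((b : ℝ) + 1)) ^ 2 * b * κ ^ 2 ≤ (κ * (1200 * (b + 1) * b)) ^ 2 := by
      have : 0 ≤ κ ^ 2 * ((b : ℝ) + 1) ^ 2 * b * (1440000 * b - 120000) := mul_nonneg (by positivity) (by linarith)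
      nlinarith
    linarith
  have hco' : co ≤ (‖g‖ - κ) / 2 := by
    have h1 := t2par_ge hp
    have e : (2 * ((b : ℝ) + 1) + b) = 3 * b + 2 := by ring
    rw [e] at h1
    have h2 : κ ≤ 1 / (2 * (3 * b + 2)) := by
      rw [hκ]
      calc 32 * κ0 ≤ 32 * (1 / (64 * (3 * b + 2))) := mul_le_mul_of_nonneg_left k3 (by norm_num)
        _ = 1 / (2 * (3 * b + 2)) := by field_simp; norm_num
    have e2 : co = (1 / (3 * b + 2) - 1 / (2 * (3 * (b : ℝ) + 2))) / 2 := by rw [hco]; field_simp; norm_num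
    rw [e2]; linarith
  have cF := t2_close_F (ι := Fin (b + 1)) hp hyp hκ0' hκ36 hκ2 hco0 hco' hc
  have cY := t2_close_Y (ι := Fin (b + 1)) hp hyp hκ0' hκ36 hco0 hco' hc
  have cS := t2_close_S (ι := Fin (b + 1)) hp hm hyp hκ0' hκ36 hco0 hco' hc
  set N : ℝ := ((regularGraphs n (b + 1)).card : ℝ) with hN
  have hN0 : 0 ≤ N := Nat.cast_nonneg _
  have hMc : (𝓔.M.card : ℝ) = N := by rw [hN]; exact_mod_cast (t2g_card (n := n) (d := b + 1))
  rw [hMc] at cF cY cS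
  set Ep : ℝ := 𝓔.Eps (Fin (b + 1)) (b + 1) with hEp
  have hEp0 : 0 ≤ Ep := by
    rw [hEp]; unfold T2Ens.Eps
    refine Finset.sum_nonneg fun A hA => t2x_nonneg ((hyp.mem A).1 hA) fun mk => ?_
    split_ifs
    · exact abs_nonneg _
    · exact le_rfl
  set fa : ℝ := ((b + 1).factorial : ℝ) with hfa
  have hfa0 : 0 < fa := by rw [hfa]; exact_mod_cast Nat.factorial_pos _
  set sNB : ℝ := ∑ A ∈ 𝓔.M, 𝓔.NB A with hsNB
  have hNBA : ∀ A ∈ 𝓔.M, 0 ≤ 𝓔.NB A := fun A hA => t2g245_nn ((hyp.mem A).1 hA) _ fun x y => by split_ifs <;> norm_num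
  have hsNB0 : 0 ≤ sNB := Finset.sum_nonneg hNBA
  set sS2 : ℝ := ∑ A ∈ 𝓔.M, 𝓔.Θ A * 𝓔.S2 z g A with hsS2
  set sSY : ℝ := ∑ A ∈ 𝓔.M, 𝓔.Θ A * 𝓔.SY z A with hsSY
  set sSS : ℝ := ∑ A ∈ 𝓔.M, 𝓔.Θ A * 𝓔.SS z g m A with hsSS
  have hW0 : 0 ≤ 14 / z.im * N := mul_nonneg (div_nonneg (by norm_num) hz.le) hN0
  have cF' : sS2 ≤ KF * (14 / z.im * N + Ep / fa + sNB + N) := cF
  have cY' : sSY ≤ KY * (14 / z.im * N) + D * κ ^ 2 * (Ep / fa) + D * κ ^ 2 * sNB + 8 * D ^ 4 * κ ^ 2 * N := cY.trans (le_of_eq (by ring))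
  have cS' : sSS ≤ KS * (sS2 + 144 * D ^ 4 * (14 / z.im * N)) + B2 * 256 * (Ep / fa + sNB + 8 * D ^ 3 * N) := cS.trans (le_of_eq (by rw [hB2]; ring))
  have hEf : 0 ≤ Ep / fa := div_nonneg hEp0 hfa0.le
  have alg : 4704 * sS2 + 2352 * sSY + sSS + 256 * (1 + B2) * sNB ≤ C1 * (14 / z.im * N + Ep / fa + sNB + N) :=
    t2g245_alg hKF0 hKY0 hKS0 hD1 (sq_nonneg κ) hκ1' hW0 hEf hsNB0 hN0 hB20 cF' cY' cS'
  have hnR : (0 : ℝ) < n := by exact_mod_cast hn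
  have pt : ∀ H ∈ regularGraphs n (b + 1), (n : ℝ) * (Θ H * (rgF2 (b + 1) H z + rgStarF (b + 1) H z))
      ≤ 4704 * (𝓔.Θ (rgA H) * 𝓔.S2 z g (rgA H)) + 2352 * (𝓔.Θ (rgA H) * 𝓔.SY z (rgA H)) + 𝓔.Θ (rgA H) * 𝓔.SS z g m (rgA H)
        + 256 * (1 + B2) * 𝓔.NB (rgA H) := fun H hH => t2g245_pt hp hκ36 hyp hH (t2w_mem (b + 1) R κ0 κ1 z H).1 (t2w_mem (b + 1) R κ0 κ1 z H).2
  set S : ℝ := ∑ H ∈ regularGraphs n (b + 1), Θ H * (rgF2 (b + 1) H z + rgStarF (b + 1) H z) with hS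
  have hsum : (n : ℝ) * S ≤ C1 * (14 / z.im * N + Ep / fa + sNB + N) := by
    refine le_trans ?_ alg
    rw [hS, Finset.mul_sum]
    refine (Finset.sum_le_sum pt).trans (le_of_eq ?_)
    rw [hsS2, hsSY, hsSS, hsNB]
    have e := fun F => (t2g_sum (n := n) (d := b + 1) F)
    have eM : 𝓔.M = t2M n (b + 1) := rfl
    rw [eM, e, e, e, e]
    simp only [Finset.sum_add_distrib, Finset.mul_sum]
  set sNT : ℝ := ∑ H ∈ regularGraphs n (b + 1), rgNT H (R + 1) with hsNT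
  have hNT0 : 0 ≤ sNT := Finset.sum_nonneg fun H _ => div_nonneg (Nat.cast_nonneg _) (Nat.cast_nonneg _)
  have hnb : sNB ≤ n * D * sNT := by
    rw [hsNB, hsNT, Finset.mul_sum]
    have eM : 𝓔.M = t2M n (b + 1) := rfl
    rw [eM, t2g_sum]
    refine Finset.sum_le_sum fun H hH => ?_
    have := t2g_NB (R := R) (Θ := Θ) (by omega : 1 ≤ b + 1) hH
    rw [hD]
    push_cast at this
    exact this
  exact t2g245_fin hnR hz hN0 hfa0 hEp0 hNT0 hD1 hC10 hnb hsum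

theorem t2g_F_nonneg {n : ℕ} (d : ℕ) (H : Gr n) (z : ℂ) : 0 ≤ rgF2 d H z + rgStarF d H z := by
  classical
  refine add_nonneg ?_ ?_
  · unfold rgF2
    refine div_nonneg (Finset.sum_nonneg fun p _ => ?_) (by positivity)
    split_ifs <;> positivity
  · unfold rgStarF rgStD
    exact div_nonneg (Finset.sum_nonneg fun o _ => Finset.sum_nonneg fun x _ => Finset.sum_nonneg fun y _ => by positivity) (Nat.cast_nonneg _)

/-- powers of `y ≥ 1` -/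
theorem t2g_pow {y : ℝ} (hy : 1 ≤ y) :
    y ^ (1 / 2 : ℝ) * (1 / y) ≤ y ^ (-(1 / 4 : ℝ)) ∧ y ^ (1 / 2 : ℝ) * (y ^ (1 / 8 : ℝ) * (1 / y)) ≤ y ^ (-(1 / 4 : ℝ)) ∧ y ^ (1 / 2 : ℝ) ≤ y ∧
    1 / y ^ (-(1 / 2 : ℝ)) = y ^ (1 / 2 : ℝ) := by
  have h0 : 0 < y := by linarith
  have e1 : 1 / y = y ^ (-1 : ℝ) := by rw [Real.rpow_neg_one, one_div]
  refine ⟨?_, ?_, ?_, ?_⟩
  · rw [e1, ← Real.rpow_add h0]
    exact Real.rpow_le_rpow_of_exponent_le hy (by norm_num)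
  · rw [e1, ← Real.rpow_add h0, ← Real.rpow_add h0]
    exact Real.rpow_le_rpow_of_exponent_le hy (by norm_num)
  · calc y ^ (1 / 2 : ℝ) ≤ y ^ (1 : ℝ) := Real.rpow_le_rpow_of_exponent_le hy (by norm_num)
      _ = y := Real.rpow_one y
  · rw [Real.rpow_neg h0.le, one_div, inv_inv]

set_option maxHeartbeats 1600000 in
/-- **THE CONTRACT** (`b1_T2` of `R287/B1.lean`): call `b1_T2' d hd κb hκ (b1_FS d hd (3 * d + 1)) (b1_L0_sparse d hd)`.
PLAN: `d = b + 1`; `Cs, ds` from `hFS`, `M = 4 Cs`; `cg` from `t2g_par`; `κs = min` of `t2g_first`, `1`, `ds`; `R0`: `Cs (3/4)^R ≤ κ0/4`, `(3/4)^R ≤ ds` (`tgr_bounds`: `|g| ≤ 3/4`), `R0 ≥ 3`.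
`P(Ω ∧ y^(-1/2) < F) ≤ P(y^(-1/2) < Θ F)` (`t2w_one`) `≤ y^(1/2) E[Θ F]` (`rg_P_markov`), `t2g_first`, `t2w_eps` + `t2w_pt`,
`P(¬ Str) ≤ C/n` (`hSp`, `lc7_L0_struct`, `rg_P_or`), `lc7_L0_nt`; `1/n ≤ 1/y` (`η ≤ b1h ≤ 1`), `y ≥ 1`: `y^(1/2) (1/y + y^(1/8)/y + gp) ≤ 3 (y^(-1/4) + y gp)`. -/
theorem b1_T2' (d : ℕ) (hd : 3 ≤ d) (κb : ℝ) (hκ : 0 < κb) (hFS : ∃ Cs : ℝ, 1 ≤ Cs ∧ ∃ ds : ℝ, 0 < ds ∧ T2FS d (3 * d + 1) Cs ds)
    (hSp : ∀ K : ℕ, ∃ C : ℝ, ∀ n : ℕ, 1 ≤ n → rgP n d (fun H => ¬ RgSparse H K) ≤ C / n) :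
    ∃ M : ℝ, 2 ≤ M ∧ ∃ κs : ℝ, 0 < κs ∧ ∀ κ0 : ℝ, 0 < κ0 → κ0 ≤ κs → ∀ κ1 : ℝ, 0 < κ1 → ∃ R0 : ℕ, ∀ R : ℕ, R0 ≤ R →
      ∃ C : ℝ, ∀ n : ℕ, 1 ≤ n → ∀ e η gp : ℝ, RgBulk d κb e → 1 ≤ n * η → η ≤ b1h κb →
        rgP n d (fun H => RgOm d R H (rgz e η) κ0 (2 * κ1) ((n * η) ^ (-(1 / 8 : ℝ))) ∧ ¬ RgDev d R H (rgz e η) (κ0 / M)) ≤ gp →
        rgP n d (fun H => RgOm d R H (rgz e η) (κ0 / M) κ1 ((n * η) ^ (-(1 / 8 : ℝ)) / 4) ∧
            (n * η) ^ (-(1 / 2 : ℝ)) < rgF2 d H (rgz e η) + rgStarF d H (rgz e η))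
          ≤ C * ((n * η) ^ (-(1 / 4 : ℝ)) + n * η * gp) := by
  classical
  obtain ⟨b, rfl⟩ : ∃ b, d = b + 1 := ⟨d - 1, by omega⟩
  have hb : 2 ≤ b := by omega
  obtain ⟨Cs, hCs1, ds, hds, hFS⟩ := hFS
  obtain ⟨cg, hcg, hpar⟩ := t2g_par b hb κb hκ
  obtain ⟨κs1, hκs1, C1, hC1, hfirst⟩ := t2g_first b hb cg hcg
  have hCs0 : 0 < Cs := by linarith
  refine ⟨4 * Cs, by linarith, min κs1 (min 1 ds), lt_min hκs1 (lt_min one_pos hds), ?_⟩
  intro κ0 hκ0 hκ0s κ1 hκ1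
  have hκ0a : κ0 ≤ κs1 := hκ0s.trans (min_le_left _ _)
  have hκ0b : κ0 ≤ 1 := hκ0s.trans ((min_le_right _ _).trans (min_le_left _ _))
  have hκ0c : κ0 ≤ ds := hκ0s.trans ((min_le_right _ _).trans (min_le_right _ _))
  obtain ⟨N, hN⟩ := exists_pow_lt_of_lt_one (lt_min hds (div_pos hκ0 (mul_pos (by norm_num : (0 : ℝ) < 4) hCs0))) (by norm_num : (3 / 4 : ℝ) < 1)
  refine ⟨max 1 N, ?_⟩
  intro R hR
  have hR1 : 1 ≤ R := (le_max_left _ _).trans hR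
  have hRN : N ≤ R := (le_max_right _ _).trans hR
  have hpowR : (3 / 4 : ℝ) ^ R ≤ min ds (κ0 / (4 * Cs)) :=
    (pow_le_pow_of_le_one (by norm_num) (by norm_num) hRN).trans hN.le
  obtain ⟨C2, hC2, hpt⟩ := t2w_pt (b + 1) hd Cs ds hFS R hR1
  obtain ⟨C3, hstr⟩ := lc7_L0_struct (b + 1) hd (4 * R)
  obtain ⟨C4, hsp⟩ := hSp ((b + 1 + 1) ^ (4 * R))
  obtain ⟨C5, hnt⟩ := lc7_L0_nt (b + 1) hd (R + 1)
  refine ⟨C1 * ((2 + 2 * |C3| + 2 * |C4| + |C5|) + C2 * (1 / κ1 + 1) + 2), ?_⟩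
  intro n hn e η gp hbulk hy hηh hgap
  have hn0 : (0 : ℝ) < n := by exact_mod_cast hn
  have hη : 0 < η := by
    by_contra hc
    push Not at hc
    have := mul_nonpos_of_nonneg_of_nonpos hn0.le hc
    linarith
  have hη1 : η ≤ 1 := hηh.trans (min_le_left _ _)
  obtain ⟨y, hyd⟩ : ∃ y : ℝ, y = n * η := ⟨_, rfl⟩
  have hy0 : 0 < y := by rw [hyd]; positivity
  have hy1 : 1 ≤ y := by rw [hyd]; exact hy
  have hyn : y ≤ n := by rw [hyd]; nlinarith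
  have hun : 1 / (n : ℝ) ≤ 1 / y := one_div_le_one_div_of_le hy0 hyn
  have hp := hpar e η hbulk hη hηh
  have hzim : (rgz e η).im = η := rfl
  have hgp0 : 0 ≤ gp := (rg_P_nonneg _).trans hgap
  have hg34 : ‖rgg (b + 1) (rgz e η)‖ ≤ 3 / 4 := (tgr_bounds hd (z := rgz e η) hη).1
  have hgR : ‖rgg (b + 1) (rgz e η)‖ ^ R ≤ min ds (κ0 / (4 * Cs)) := (pow_le_pow_left₀ (norm_nonneg _) hg34 R).trans hpowR
  have hc1 : κ0 / (4 * Cs) ≤ ds := by
    refine le_trans ?_ hκ0c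
    rw [div_le_iff₀ (by positivity)]
    nlinarith
  have hc3 : Cs * (κ0 / (4 * Cs) + ‖rgg (b + 1) (rgz e η)‖ ^ R) ≤ κ0 / 2 := by
    have h1 := hgR.trans (min_le_right _ _)
    have h2 : Cs * (κ0 / (4 * Cs)) = κ0 / 4 := by field_simp
    have h3 := mul_le_mul_of_nonneg_left h1 hCs0.le
    rw [mul_add]
    linarith
  -- the instability of the weight
  obtain ⟨c, hc⟩ : ∃ c : ℝ, c = C2 * (n * (rgz e η).im) ^ (1 / 8 : ℝ) * (1 / (κ1 * (n * (rgz e η).im)) + 1 / n) := ⟨_, rfl⟩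
  have hc0 : 0 ≤ c := by
    rw [hc, hzim]
    have : 0 ≤ (n * η) ^ (1 / 8 : ℝ) := Real.rpow_nonneg (by positivity) _
    positivity
  have heps := t2w_eps (n := n) (d := b + 1) (R := R) hd (ι := Fin (b + 1)) (Fintype.card_fin _) (κ0 := κ0) (κ1 := κ1) (M := 4 * Cs) (z := rgz e η) hc0
    (fun H m hH hm => by
      rw [hc]
      exact hpt n (Fin (b + 1)) κ0 κ1 (4 * Cs) (rgz e η) H m hn (Fintype.card_fin _) hκ0 hκ0b hκ1 (by linarith) hη hc1 (hgR.trans (min_le_left _ _)) hc3 hH hm)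
  have hPstr : rgP n (b + 1) (fun H => ¬ RgStr (b + 1) R H) ≤ (|C3| + |C4|) * (1 / y) := by
    have h1 : rgP n (b + 1) (fun H => ¬ RgStr (b + 1) R H)
        ≤ rgP n (b + 1) (fun H => ¬ RgStruct H (4 * R) ∨ ¬ RgSparse H ((b + 1 + 1) ^ (4 * R))) := by
      refine rg_P_mono fun H _ hH => ?_
      by_contra hcon
      push Not at hcon
      exact hH ⟨hcon.1, hcon.2⟩
    have h2 := rg_P_or (n := n) (d := b + 1) (fun H => ¬ RgStruct H (4 * R)) (fun H => ¬ RgSparse H ((b + 1 + 1) ^ (4 * R)))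
    have h3 := hstr n hn
    have h4 := hsp n hn
    have h5 : C3 / n ≤ |C3| * (1 / y) := by
      rw [div_eq_mul_one_div]
      exact mul_le_mul (le_abs_self _) hun (by positivity) (abs_nonneg _)
    have h6 : C4 / n ≤ |C4| * (1 / y) := by
      rw [div_eq_mul_one_div]
      exact mul_le_mul (le_abs_self _) hun (by positivity) (abs_nonneg _)
    linarith
  have hPgap : rgP n (b + 1) (T2Gap (b + 1) R κ0 κ1 (4 * Cs) (rgz e η)) ≤ gp := hgap
  have hcle : c ≤ C2 * (1 / κ1 + 1) * (y ^ (1 / 8 : ℝ) * (1 / y)) := by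
    rw [hc, hzim, ← hyd]
    have hy8 : 0 ≤ y ^ (1 / 8 : ℝ) := Real.rpow_nonneg hy0.le _
    have h1 : 1 / (κ1 * y) + 1 / (n : ℝ) ≤ (1 / κ1 + 1) * (1 / y) := by
      have : 1 / (κ1 * y) = 1 / κ1 * (1 / y) := by rw [one_div_mul_one_div]
      rw [this]
      linarith
    calc C2 * y ^ (1 / 8 : ℝ) * (1 / (κ1 * y) + 1 / (n : ℝ)) ≤ C2 * y ^ (1 / 8 : ℝ) * ((1 / κ1 + 1) * (1 / y)) :=
          mul_le_mul_of_nonneg_left h1 (by positivity)
      _ = _ := by ring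
  have hEpsN : (t2EnsG n (b + 1) R (t2Th (b + 1) R κ0 κ1 (rgz e η))).Eps (Fin (b + 1)) (b + 1) / (n * (b + 1).factorial * (regularGraphs n (b + 1)).card)
      ≤ 2 * rgP n (b + 1) (fun H => ¬ RgStr (b + 1) R H) + 2 * rgP n (b + 1) (T2Gap (b + 1) R κ0 κ1 (4 * Cs) (rgz e η)) + c := by
    refine div_le_of_le_mul₀ (by positivity) ?_ ?_
    · have := rg_P_nonneg (n := n) (d := b + 1) (fun H => ¬ RgStr (b + 1) R H)
      have := rg_P_nonneg (n := n) (d := b + 1) (T2Gap (b + 1) R κ0 κ1 (4 * Cs) (rgz e η))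
      positivity
    · rw [mul_comm]
      exact heps
  have hNT : rgE n (b + 1) (fun H => rgNT H (R + 1)) ≤ |C5| * (1 / y) := by
    refine (hnt n hn).trans ?_
    rw [div_eq_mul_one_div]
    exact mul_le_mul (le_abs_self _) hun (by positivity) (abs_nonneg _)
  have hF := hfirst n R κ0 κ1 (rgz e η) hn hR1 hκ0 hκ0a hκ1 hp
  rw [hzim, ← hyd] at hF
  -- Markov
  obtain ⟨p1, p2, p3, p4⟩ := t2g_pow hy1
  have hyh : 0 < y ^ (-(1 / 2 : ℝ)) := Real.rpow_pos_of_pos hy0 _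
  have hMk : rgP n (b + 1) (fun H => RgOm (b + 1) R H (rgz e η) (κ0 / (4 * Cs)) κ1 ((n * η) ^ (-(1 / 8 : ℝ)) / 4) ∧
            (n * η) ^ (-(1 / 2 : ℝ)) < rgF2 (b + 1) H (rgz e η) + rgStarF (b + 1) H (rgz e η))
      ≤ rgE n (b + 1) (fun H => t2Th (b + 1) R κ0 κ1 (rgz e η) H * (rgF2 (b + 1) H (rgz e η) + rgStarF (b + 1) H (rgz e η))) / y ^ (-(1 / 2 : ℝ)) := by
    refine le_trans (rg_P_mono fun H _ hH => ?_) (rg_P_markov (fun H _ => mul_nonneg (t2w_mem _ _ _ _ _ H).1 (t2g_F_nonneg _ H _)) hyh)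
    have h1 : t2Th (b + 1) R κ0 κ1 (rgz e η) H = 1 :=
      t2w_one (b + 1) R hκ0 hκ1 (by linarith) (z := rgz e η) (by rw [hzim]; positivity) hH.1
    rw [h1, one_mul, hyd]
    exact hH.2.le
  refine hMk.trans ?_
  rw [div_eq_mul_one_div, p4, ← hyd]
  have hyh2 : 0 ≤ y ^ (1 / 2 : ℝ) := Real.rpow_nonneg hy0.le _
  obtain ⟨s, hs⟩ : ∃ s, s = y ^ (-(1 / 4 : ℝ)) := ⟨_, rfl⟩
  obtain ⟨r, hr⟩ : ∃ r, r = y ^ (1 / 2 : ℝ) := ⟨_, rfl⟩
  obtain ⟨w, hw⟩ : ∃ w, w = y ^ (1 / 8 : ℝ) * (1 / y) := ⟨_, rfl⟩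
  obtain ⟨u, hu⟩ : ∃ u, u = 1 / y := ⟨_, rfl⟩
  rw [← hs, ← hr, ← hw] at p2
  rw [← hs, ← hr, ← hu] at p1
  rw [← hr] at p3 hyh2 ⊢
  rw [← hs]
  rw [← hu] at hF hNT hPstr hun
  rw [← hw] at hcle
  have hu0 : 0 ≤ u := by rw [hu]; positivity
  have hw0 : 0 ≤ w := by
    rw [hw]
    have : 0 ≤ y ^ (1 / 8 : ℝ) := Real.rpow_nonneg hy0.le _
    positivity
  obtain ⟨Ka, hKa⟩ : ∃ Ka, Ka = 2 + 2 * |C3| + 2 * |C4| + |C5| := ⟨_, rfl⟩
  obtain ⟨Kb, hKb⟩ : ∃ Kb, Kb = C2 * (1 / κ1 + 1) := ⟨_, rfl⟩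
  have hKa0 : 0 ≤ Ka := by rw [hKa]; positivity
  have hKb0 : 0 ≤ Kb := by rw [hKb]; positivity
  rw [← hKa, ← hKb]
  rw [← hKb] at hcle
  obtain ⟨EF, hEF⟩ : ∃ EF, EF = rgE n (b + 1) (fun H => t2Th (b + 1) R κ0 κ1 (rgz e η) H * (rgF2 (b + 1) H (rgz e η) + rgStarF (b + 1) H (rgz e η))) := ⟨_, rfl⟩
  rw [← hEF] at hF ⊢
  have hin : u + (t2EnsG n (b + 1) R (t2Th (b + 1) R κ0 κ1 (rgz e η))).Eps (Fin (b + 1)) (b + 1) / (n * (b + 1).factorial * (regularGraphs n (b + 1)).card)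
      + rgE n (b + 1) (fun H => rgNT H (R + 1)) + 1 / (n : ℝ) ≤ Ka * u + Kb * w + 2 * gp := by
    rw [hKa]
    linarith
  have h1 : EF ≤ C1 * (Ka * u + Kb * w + 2 * gp) := hF.trans (mul_le_mul_of_nonneg_left hin hC1)
  have h2 : EF * r ≤ C1 * (Ka * u + Kb * w + 2 * gp) * r := mul_le_mul_of_nonneg_right h1 hyh2
  have h3 : Ka * (r * u) ≤ Ka * s := mul_le_mul_of_nonneg_left p1 hKa0
  have h4 : Kb * (r * w) ≤ Kb * s := mul_le_mul_of_nonneg_left p2 hKb0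
  have h5 : r * gp ≤ y * gp := mul_le_mul_of_nonneg_right p3 hgp0
  have hs0 : 0 ≤ s := by rw [hs]; exact Real.rpow_nonneg hy0.le _
  have h6 : (Ka * u + Kb * w + 2 * gp) * r ≤ (Ka + Kb + 2) * (s + y * gp) := by
    have e : (Ka * u + Kb * w + 2 * gp) * r = Ka * (r * u) + Kb * (r * w) + 2 * (r * gp) := by ring
    rw [e]
    have g1 : 0 ≤ Ka * (y * gp) := by positivity
    have g2 : 0 ≤ Kb * (y * gp) := by positivity
    nlinarith
  calc EF * r ≤ C1 * ((Ka * u + Kb * w + 2 * gp) * r) := by linarith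
    _ ≤ C1 * ((Ka + Kb + 2) * (s + y * gp)) := mul_le_mul_of_nonneg_left h6 hC1
    _ = _ := by ring

end

end Claimed.Agent.R287
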