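-- KEEP
import Claimed.Agent.R287.DefsB1
import Claimed.Agent.R287.ResB
import Claimed.Agent.R287.T1A
import Claimed.Agent.R287.T2d
import Claimed.Agent.R287.B1x270
import Claimed.Agent.R287.Loc222b
import Claimed.Agent.R287.Ct270
import Claimed.Agent.R287.B1FS

/-!
# Row 287 (S0534), unit B1 = weak local law at one energy (B1-lite of route102): CONTRACTS of the sub-units and GLUE to the exports      head helper271

Exports (consumers ENT 277, S4 289; typed in their form by 274 in `X123.lean`):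
* `b1_state`  at ONE height `n^ε ≤ n η`, `η ≤ b1h κb`, ONE energy `e` in the bulk, off an event of probability `C (nη)^(-1/8)`:
              all entries of `G` bounded, mean square deviation of the star blocks `≤ (nη)^(-1/2)`;
* `b1_X1` (delocalisation), `b1_X2` (trace + typical stars), `b1_X3` (one sided log-determinant).

Sub-units:   TREE + CT (helper270) `b1_g_cav … b1_start`, `b1_phi_*`, `b1_u3_high` | L0 (helper222) `b1_L0_*` | T1 (helper271) `b1_gap` | T2 (helper284) `b1_T2` | DESCENT, U3 (helper271) the glue.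
ORDER OF CONSTANTS:  (d, κb) → M, κs (T2) ;  ε → κs' (T1, after M) → κ0 → κ1 → R → C (T2), r0 (grid ratio) → N.
Heights: `η_k` any sequence with `r0 η_k ≤ η_(k+1) ≤ η_k`, start at the CONSTANT height `b1h κb` where T1 is deterministic (Combes-Thomas).
State at a height (`B1Good`): structure, T1 with `κ0/M`, fraction of `κ1/2`-bad edges `≤ y^(-1/8)/4`.
One step (`b1_step`): continuity (`rs_height`) gives T1 with `κ0` and bad edges at level `κ1`; the GAP (`b1_gap`) gives back `κ0/M`; `b1_T2` gives `F2 ≤ y^(-1/2)`; Markov gives back the bad fraction.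
The failure probabilities ADD (this is why T1 is exported as a gap and T2 carries no a-priori probability): see notes A2_271, A3_helper284.
-/

set_option autoImplicit false

namespace Claimed.Agent.R287

open Claims.C0462

/-! ## 1. Contracts of TREE + CT (helper270) -/

/-- **TR1** the explicit branch solves the cavity equation, `Im g > 0` (also on the real axis).
Plan: `w = (4b - z²)^(1/2)`, `w² = 4b - z²` (`Complex.cpow_nat_inv_pow` or `Complex.sq_cpow_two_inv`-type), `Re w > 0`; `(Re w)² ≥ 4b - e² + η² > η²`. -/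
theorem b1_g_cav (d : ℕ) (hd : 3 ≤ d) (z : ℂ) (hz : 0 ≤ z.im) (hb : z.re ^ 2 < 4 * ((d : ℝ) - 1)) :
    ((d : ℂ) - 1) * rgg d z ^ 2 + z * rgg d z + 1 = 0 ∧ 0 < (rgg d z).im :=
  b1_g_cav' d hd z hz hb

/-- **TR2** tree values are bounded in the bulk strip.   Plan: `|g| < 1`, `|1 - g²| ≥ c` (A1 (g1)-(g3)). -/
theorem b1_tv_bd (d : ℕ) (hd : 3 ≤ d) (κb : ℝ) (hκ : 0 < κb) :
    ∃ C : ℝ, ∀ e η : ℝ, RgBulk d κb e → 0 < η → η ≤ b1h κb → ∀ k : ℕ, ‖rgTv d (rgz e η) k‖ ≤ C :=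
  b1_tv_bd' d hd κb hκ

/-- **TR3** tree values at distance `≤ 2` are Lipschitz in the height.   Plan: `tg_lip` (A1 (g4)). -/
theorem b1_tv_cont (d : ℕ) (hd : 3 ≤ d) (κb : ℝ) (hκ : 0 < κb) :
    ∃ C : ℝ, ∀ e η η' : ℝ, RgBulk d κb e → 0 < η' → η' ≤ η → η ≤ b1h κb → ∀ k : ℕ, k ≤ 2 →
      ‖rgTv d (rgz e η') k - rgTv d (rgz e η) k‖ ≤ C * (η - η') :=
  b1_tv_cont' d hd κb hκ

/-- **TR4a** the model on a tree-like ball, diagonal.   Plan: `tg_forest`. -/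
theorem b1_model_diag (d : ℕ) (hd : 3 ≤ d) {n : ℕ} (H : Gr n) (R : ℕ) (z : ℂ) (hz : 0 < z.im) (hb : z.re ^ 2 < 4 * ((d : ℝ) - 1))
    (x : Fin n) (h : RgTl H R {x}) : rgPm d R H z x x = rgTv d z 0 :=
  b1_model_diag' d hd H R z hz x h

/-- **TR4b** the model on a tree-like ball, adjacent entry.   Plan: `tg_forest`, the distance of `b, c` in the ball graph is `1`. -/
theorem b1_model_edge (d : ℕ) (hd : 3 ≤ d) {n : ℕ} (H : Gr n) (R : ℕ) (z : ℂ) (hz : 0 < z.im) (hb : z.re ^ 2 < 4 * ((d : ℝ) - 1))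
    (b c : Fin n) (hbc : H.Adj b c) (h : RgTl H R {b, c}) : rgPm d R H z b c = rgTv d z 1 :=
  b1_model_edge' d hd H R z hz b c hbc h

/-- **TR5** (E6) the model entries are bounded, with a constant which does NOT depend on the radius.
Plan: `dist x y ≤ 2R+1`: the union of the two balls lies in `B_(4R)(x)`, excess `≤ 1`: Woodbury on the deleted edge (A1 K2.2 (b)); else two components. -/
theorem b1_model_bd (d : ℕ) (hd : 3 ≤ d) (κb : ℝ) (hκ : 0 < κb) :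
    ∃ C : ℝ, ∀ (n R : ℕ) (H : Gr n), H ∈ regularGraphs n d → 1 ≤ R → RgStruct H (4 * R) →
      ∀ e η : ℝ, RgBulk d κb e → 0 < η → η ≤ b1h κb → ∀ x y : Fin n, ‖rgPm d R H (rgz e η) x y‖ ≤ C :=
  b1_model_bd' d hd κb hκ

/-- **TR6** (E11) the model entries are Lipschitz in the height (constant may depend on `R`).
Plan: `P(z') - P(z) = P(z') (M(z) - M(z')) P(z)`, `M(z) - M(z')` diagonal of size `(1 + d |g'|)|z - z'|`, `‖P e_x‖₂ ≤ C_R`. -/
theorem b1_model_cont (d : ℕ) (hd : 3 ≤ d) (κb : ℝ) (hκ : 0 < κb) (R : ℕ) (hR : 1 ≤ R) :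
    ∃ C : ℝ, ∀ (n : ℕ) (H : Gr n), H ∈ regularGraphs n d → RgStruct H (4 * R) →
      ∀ e η η' : ℝ, RgBulk d κb e → 0 < η' → η' ≤ η → η ≤ b1h κb → ∀ x y : Fin n,
        ‖rgPm d R H (rgz e η') x y - rgPm d R H (rgz e η) x y‖ ≤ C * (η - η') :=
  b1_model_cont' d hd κb hκ R hR

/-- **CT** (E8, E9) at the constant height T1 is deterministic: Combes-Thomas.   No structure of the balls is used. -/
theorem b1_start (d : ℕ) (hd : 3 ≤ d) (κb : ℝ) (hκ : 0 < κb) (κ : ℝ) (hκ' : 0 < κ) :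
    ∃ R0 : ℕ, ∀ R : ℕ, R0 ≤ R → ∀ (n : ℕ) (H : Gr n), H ∈ regularGraphs n d → ∀ e : ℝ, RgBulk d κb e →
      RgDev d R H (rgz e (b1h κb)) κ :=
  b1_start' d hd κb hκ κ hκ'

/-! ## 2. Contracts of L0 (helper222) -/

/-- **L0a** (E1) -/
theorem b1_L0_struct (d : ℕ) (hd : 3 ≤ d) (R : ℕ) : ∃ C : ℝ, ∀ n : ℕ, 1 ≤ n → rgP n d (fun H => ¬ RgStruct H R) ≤ C / n :=
  lc7_L0_struct d hd R

/-- **L0b** first moment of the number of non tree-like vertices, constant radius -/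
theorem b1_L0_nt (d : ℕ) (hd : 3 ≤ d) (R : ℕ) : ∃ C : ℝ, ∀ n : ℕ, 1 ≤ n → rgE n d (fun H => rgNT H R) ≤ C / n :=
  lc7_L0_nt d hd R

/-- **L0c** (E2) logarithmic radius -/
theorem b1_L0_log (d : ℕ) (hd : 3 ≤ d) : ∃ c : ℝ, 0 < c ∧ ∃ N : ℕ, ∀ n : ℕ, N ≤ n →
    rgE n d (fun H => rgNT H ⌊c * Real.log n⌋₊) ≤ (n : ℝ) ^ (-c) :=
  lc7_L0_log d hd

open Classical in
/-- the darts inside `W` are at most twice the edges inside `W` -/
theorem b1s_darts_le {n : ℕ} (H : Gr n) (W : Finset (Fin n)) :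
    ∑ x ∈ W, (W.filter fun y => H.Adj x y).card ≤ 2 * (lc7EB H W).card := by
  rw [← tg_card_pairs]
  have himg : ((W ×ˢ W).filter fun e => H.Adj e.1 e.2).image (fun e => s(e.1, e.2)) ⊆ lc7EB H W := by
    intro q hq
    rw [Finset.mem_image] at hq
    obtain ⟨e, he, rfl⟩ := hq
    rw [Finset.mem_filter, Finset.mem_product] at he
    exact (lc7_mk_mem_EB H W e.1 e.2).2 ⟨he.2, he.1.1, he.1.2⟩
  refine (Finset.card_le_mul_card_image _ 2 ?_).trans (Nat.mul_le_mul_left 2 (Finset.card_le_card himg))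
  intro q _
  induction q using Sym2.ind with
  | _ a b =>
    refine (Finset.card_le_card (t := {(a, b), (b, a)}) ?_).trans Finset.card_le_two
    intro e he
    rw [Finset.mem_filter] at he
    rw [Finset.mem_insert, Finset.mem_singleton]
    rcases Sym2.eq_iff.1 he.2 with ⟨h1, h2⟩ | ⟨h1, h2⟩
    · exact Or.inl (Prod.ext h1 h2)
    · exact Or.inr (Prod.ext h1 h2)

/-- **L0d** the set form of the structure event.   Plan: `lc7_dense` (first moment over the sets of `v ≤ K` vertices spanning `v + 1` edges). -/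
theorem b1_L0_sparse (d : ℕ) (hd : 3 ≤ d) (K : ℕ) : ∃ C : ℝ, ∀ n : ℕ, 1 ≤ n → rgP n d (fun H => ¬ RgSparse H K) ≤ C / n := by
  classical
  have hd1' : 1 ≤ d := by omega
  refine ⟨((4 * (d + 1) + 4 * (K + 1) : ℕ) : ℝ) + (K + 1) * (2 ^ ((K + 1) ^ 2) * (2 * d) ^ (K + 1)), ?_⟩
  intro n hn0
  have hn0' : (0 : ℝ) < n := by exact_mod_cast hn0
  have hRG : (0 : ℝ) ≤ ((regularGraphs n d).card : ℝ) := by positivity
  by_cases hn : 4 * (d + 1) + 4 * (K + 1) ≤ n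
  · refine lc7_P_le _ _ _ _ (by positivity) ?_
    have hsub : ((regularGraphs n d).filter fun H => ¬ RgSparse H K)
        ⊆ (Finset.range (K + 1)).biUnion fun v =>
          (regularGraphs n d).filter fun G => ∃ B : Finset (Fin n), B.card = v ∧ v + 1 ≤ (lc7EB G B).card := by
      intro G hG
      rw [Finset.mem_filter] at hG
      obtain ⟨hG, hx⟩ := hG
      unfold RgSparse at hx
      push Not at hx
      obtain ⟨W, hW, hx⟩ := hx
      have h2 := b1s_darts_le G W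
      rw [Finset.mem_biUnion]
      refine ⟨W.card, ?_, Finset.mem_filter.2 ⟨hG, W, rfl, by omega⟩⟩
      rw [Finset.mem_range]
      omega
    have hd1 : (1 : ℝ) ≤ 2 * d := by
      have : (1 : ℝ) ≤ d := by exact_mod_cast hd1'
      linarith
    have hv : ∀ v ∈ Finset.range (K + 1),
        (((regularGraphs n d).filter fun G => ∃ B : Finset (Fin n), B.card = v ∧ v + 1 ≤ (lc7EB G B).card).card : ℝ)
          ≤ 2 ^ ((K + 1) ^ 2) * (2 * d) ^ (K + 1) / n * (regularGraphs n d).card := by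
      intro v hv
      rw [Finset.mem_range] at hv
      refine (lc7_dense n d v 1 hd1' (by omega)).trans ?_
      refine mul_le_mul_of_nonneg_right ?_ hRG
      rw [pow_one]
      refine div_le_div_of_nonneg_right ?_ hn0'.le
      refine mul_le_mul ?_ ?_ (by positivity) (by positivity)
      · refine pow_le_pow_right₀ (by norm_num) ?_
        exact Nat.pow_le_pow_left (by omega) 2
      · exact pow_le_pow_right₀ hd1 (by omega)
    calc (((regularGraphs n d).filter fun H => ¬ RgSparse H K).card : ℝ)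
        ≤ (((Finset.range (K + 1)).biUnion fun v =>
          (regularGraphs n d).filter fun G => ∃ B : Finset (Fin n), B.card = v ∧ v + 1 ≤ (lc7EB G B).card).card : ℝ) := by
          exact_mod_cast Finset.card_le_card hsub
      _ ≤ ∑ v ∈ Finset.range (K + 1),
          (((regularGraphs n d).filter fun G => ∃ B : Finset (Fin n), B.card = v ∧ v + 1 ≤ (lc7EB G B).card).card : ℝ) := by
          exact_mod_cast Finset.card_biUnion_le
      _ ≤ ∑ _v ∈ Finset.range (K + 1), 2 ^ ((K + 1) ^ 2) * (2 * d) ^ (K + 1) / n * ((regularGraphs n d).card : ℝ) :=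
          Finset.sum_le_sum hv
      _ = ((K + 1) * (2 ^ ((K + 1) ^ 2) * (2 * d) ^ (K + 1))) / n * (regularGraphs n d).card := by
          rw [Finset.sum_const, Finset.card_range, nsmul_eq_mul]
          push_cast
          ring
      _ ≤ _ := by
          refine mul_le_mul_of_nonneg_right ?_ hRG
          refine div_le_div_of_nonneg_right ?_ hn0'.le
          have : (0 : ℝ) ≤ ((4 * (d + 1) + 4 * (K + 1) : ℕ) : ℝ) := by positivity
          linarith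
  · have h1 : (1 : ℝ) ≤ (((4 * (d + 1) + 4 * (K + 1) : ℕ) : ℝ) + (K + 1) * (2 ^ ((K + 1) ^ 2) * (2 * d) ^ (K + 1))) / n := by
      rw [le_div_iff₀ hn0', one_mul]
      have h2 : (n : ℝ) ≤ ((4 * (d + 1) + 4 * (K + 1) : ℕ) : ℝ) := by exact_mod_cast (not_le.1 hn).le
      have h3 : (0 : ℝ) ≤ ((K : ℝ) + 1) * (2 ^ ((K + 1) ^ 2) * (2 * d) ^ (K + 1)) := by positivity
      linarith
    exact (rg_P_le_one _).trans h1

/-! ## 2'. FS = forward stability of T1 under a finite modification (generic; consumers T2 `ε_Θ`, T1 `t1_back`) -/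

/-- **FS** (proposal of helper284).   `H`, `H'` regular, equal off `S × S`, `|S| ≤ K0`, both sparse.   `Cs` depends on `d`, `K0` only.
Plan: fix `x y`; `B = rgBall H R ({x,y} ∪ S)` (the same set for `H'`: a path restarts at its last visit of `S`; it contains the `R`-balls of `{x,y}` in both graphs; `|B| ≤ (K0+2)(d+1)^R`);
`Γ = rgRes H B`, `Γ' = rgRes H' B` have the same degrees (`1 ≤ R`), so `rgMod d Γ' z = rgMod d Γ z + (A' - A)`;  `E = G - rgPB d Γ z` is `≤ δ' = δ + 27/2 |g|^R` on the pairs of `{x,y} ∪ S` (`tgr_Pm_cons`);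
exact identity `E' = (1 - P' Δ) E (1 - Δ G')`, `|P'| ≤ 27/2` (`tgr_PB_le`), `G' = P' + E'`: with `e = max |E'|`: `e ≤ δ' (1+c)(1 + c 27/2 + c e)`, linear in `e`: closes for `δ' (1+c) c ≤ 1/2`;  `tgr_Pm_cons` again in `H'`. -/
theorem b1_FS (d : ℕ) (hd : 3 ≤ d) (K0 : ℕ) :
    ∃ Cs : ℝ, 1 ≤ Cs ∧ ∃ ds : ℝ, 0 < ds ∧ ∀ (R n : ℕ) (H H' : Gr n) (S : Finset (Fin n)) (z : ℂ) (δ : ℝ),
      1 ≤ R → H ∈ regularGraphs n d → H' ∈ regularGraphs n d → S.card ≤ K0 → (∀ x y, (x ∉ S ∨ y ∉ S) → (H.Adj x y ↔ H'.Adj x y)) →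
      RgSparse H ((K0 + 2) * (d + 1) ^ R) → RgSparse H' ((K0 + 2) * (d + 1) ^ R) → 0 < z.im → 0 ≤ δ → δ ≤ ds → ‖rgg d z‖ ^ R ≤ ds →
      RgDev d R H z δ → RgDev d R H' z (Cs * (δ + ‖rgg d z‖ ^ R)) :=
  b1_FS' d hd K0

/-! ## 3. Contract of T1 (helper271; cut in `R287/T1.lean`) -/

/-- **GAP** (T1-closing, route102 L4-L6 in the gap form): on the a-priori event `Ω(κ0, κ1, y^(-1/8))` the deviation is in fact `≤ κ0 / M`, off `n⁻²`.   `M` is FREE and fixed before everything else. -/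
theorem b1_gap (d : ℕ) (hd : 3 ≤ d) (κb : ℝ) (hκ : 0 < κb) (ε : ℝ) (hε : 0 < ε) (M : ℝ) (hM : 1 ≤ M) :
    ∃ κs : ℝ, 0 < κs ∧ ∀ κ0 : ℝ, 0 < κ0 → κ0 ≤ κs → ∃ κ1s : ℝ, 0 < κ1s ∧ ∀ κ1 : ℝ, 0 < κ1 → κ1 ≤ κ1s →
      ∃ R0 : ℕ, ∀ R : ℕ, R0 ≤ R → ∃ N0 : ℕ, ∀ n : ℕ, N0 ≤ n → ∀ e η : ℝ, RgBulk d κb e → (n : ℝ) ^ ε ≤ n * η → η ≤ b1h κb →
        rgP n d (fun H => RgOm d R H (rgz e η) κ0 κ1 ((n * η) ^ (-(1 / 8 : ℝ))) ∧ ¬ RgDev d R H (rgz e η) (κ0 / M)) ≤ 1 / (n : ℝ) ^ 2 :=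
  t1_gap d hd κb hκ ε hε M hM

/-! ## 4. Contract of T2 (helper284; cut in `R287/T2.lean`) -/

/-- **T2** (L7* of note A3: one base, first moments, weight `Θ`).  `gp` = probability of the gap at the SAME height, level `2 κ1`.
`E[Θ (F2 + StarF)] ≤ C (1/y + ε_Θ + 1/n)`, `ε_Θ ≤ 2 gp + C/n + C y^(-7/8)`, Markov at the level `y^(-1/2)`, `y ≤ n`. -/
theorem b1_T2 (d : ℕ) (hd : 3 ≤ d) (κb : ℝ) (hκ : 0 < κb) :
    ∃ M : ℝ, 2 ≤ M ∧ ∃ κs : ℝ, 0 < κs ∧ ∀ κ0 : ℝ, 0 < κ0 → κ0 ≤ κs → ∀ κ1 : ℝ, 0 < κ1 → ∃ R0 : ℕ, ∀ R : ℕ, R0 ≤ R →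
      ∃ C : ℝ, ∀ n : ℕ, 1 ≤ n → ∀ e η gp : ℝ, RgBulk d κb e → 1 ≤ n * η → η ≤ b1h κb →
        rgP n d (fun H => RgOm d R H (rgz e η) κ0 (2 * κ1) ((n * η) ^ (-(1 / 8 : ℝ))) ∧ ¬ RgDev d R H (rgz e η) (κ0 / M)) ≤ gp →
        rgP n d (fun H => RgOm d R H (rgz e η) (κ0 / M) κ1 ((n * η) ^ (-(1 / 8 : ℝ)) / 4) ∧
            (n * η) ^ (-(1 / 2 : ℝ)) < rgF2 d H (rgz e η) + rgStarF d H (rgz e η))
          ≤ C * ((n * η) ^ (-(1 / 4 : ℝ)) + n * η * gp) :=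
  b1_T2' d hd κb hκ (b1_FS d hd (3 * d + 1)) (b1_L0_sparse d hd)

/-! ## 5. DESCENT: deterministic glue (helper271) -/

/-- a sub-ball of a tree-like ball is tree-like.   Plan: `rgBG H R X ≤ rgBG H R' X'` (`rg_res_adj`), a subgraph of an acyclic graph is acyclic (`SimpleGraph.IsAcyclic.anti` or map the cycle). -/
theorem b1_tl_mono {n : ℕ} (H : Gr n) {R R' : ℕ} {X X' : Finset (Fin n)} (h : rgBall H R X ⊆ rgBall H R' X') (ht : RgTl H R' X') : RgTl H R X :=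
  lc7_tl_anti H h ht

/-- the ball of radius `R` around an edge lies in the ball of radius `R+1` around one end.   Plan: `rg_mem_ball`, triangle inequality of `edist`, `edist b c = 1`. -/
theorem b1_ball_edge {n : ℕ} (H : Gr n) (R : ℕ) {b c : Fin n} (hbc : H.Adj b c) : rgBall H R {b, c} ⊆ rgBall H (R + 1) {b} :=
  lc7_ball_pair H R hbc

/-- balls are monotone in the set of centres -/
theorem b1_ball_sub {n : ℕ} (H : Gr n) (R : ℕ) {X Y : Finset (Fin n)} (h : X ⊆ Y) : rgBall H R X ⊆ rgBall H R Y := by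
  intro y hy
  rw [rg_mem_ball] at hy ⊢
  obtain ⟨x, hx, h1⟩ := hy
  exact ⟨x, h hx, h1⟩

/-- T1 controls the block of every tree-like edge.   Plan: `b1_model_diag` at `b`, `c` (`b1_tl_mono`: `B_R({b}) ⊆ B_R({b,c})`), `b1_model_edge`; then `hdev b b`, `hdev c c`, `hdev b c`; `max_le`. -/
theorem b1_blk_le (d : ℕ) (hd : 3 ≤ d) {n : ℕ} (H : Gr n) (R : ℕ) (z : ℂ) (hz : 0 < z.im) (hb : z.re ^ 2 < 4 * ((d : ℝ) - 1)) {κ : ℝ}
    (hdev : RgDev d R H z κ) {b c : Fin n} (hbc : H.Adj b c) (ht : RgTl H R {b, c}) : rgBlk d H z b c ≤ κ := by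
  have h1 : RgTl H R {b} := b1_tl_mono H (b1_ball_sub H R (by simp)) ht
  have h2 : RgTl H R {c} := b1_tl_mono H (b1_ball_sub H R (by simp)) ht
  have e1 := b1_model_diag d hd H R z hz hb b h1
  have e2 := b1_model_diag d hd H R z hz hb c h2
  have e3 := b1_model_edge d hd H R z hz hb b c hbc ht
  unfold rgBlk
  refine max_le ?_ (max_le ?_ ?_)
  · rw [← e1]; exact hdev b b
  · rw [← e2]; exact hdev c c
  · rw [← e3]; exact hdev b c

/-- oriented edges whose first end has the property `P`: `d` per vertex -/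
theorem b1_edge_card17 {n d : ℕ} {H : Gr n} (hH : H ∈ regularGraphs n d) (P : Fin n → Prop) [DecidablePred P]
    [DecidablePred fun e : Fin n × Fin n => H.Adj e.1 e.2 ∧ P e.1] :
    (Finset.univ.filter fun e : Fin n × Fin n => H.Adj e.1 e.2 ∧ P e.1).card = d * (Finset.univ.filter P).card := by
  rw [b1x_mem_reg] at hH
  rw [Finset.card_filter, Fintype.sum_prod_type]
  refine (Finset.sum_congr rfl fun b _ => ?_ : _ = ∑ b : Fin n, if P b then d else 0).trans ?_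
  · by_cases hb : P b
    · rw [if_pos hb]
      have := hH b
      unfold tgDeg at this
      rw [← this, Finset.card_filter]
      refine Finset.sum_congr rfl fun c _ => ?_
      by_cases hc : H.Adj b c <;> simp [hc, hb]
    · rw [if_neg hb]
      exact Finset.sum_eq_zero fun c _ => if_neg fun h => hb h.2
  · rw [← Finset.sum_filter, Finset.sum_const, smul_eq_mul, mul_comm]

theorem b1_nt_of_edge17 {n : ℕ} (H : Gr n) (R : ℕ) {b c : Fin n} (hbc : H.Adj b c) (h : ¬ RgTl H R {b, c}) : ¬ RgTl H (R + 1) {b} :=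
  fun ht => h (b1_tl_mono H (b1_ball_edge H R hbc) ht)

/-- under T1 at the level `κ` only the non tree-like edges are `κ`-bad.   Plan: bad `(b,c)` ⟹ `¬ RgTl H R {b,c}` (`b1_blk_le`) ⟹ `¬ RgTl H (R+1) {b}` (`b1_ball_edge`, `b1_tl_mono`); each `b` has `d` neighbours: card `≤ d * #{b}`; divide by `n d`. -/
theorem b1_bad_le_nt (d : ℕ) (hd : 3 ≤ d) {n : ℕ} (H : Gr n) (hH : H ∈ regularGraphs n d) (R : ℕ) (z : ℂ) (hz : 0 < z.im)
    (hb : z.re ^ 2 < 4 * ((d : ℝ) - 1)) {κ : ℝ} (hdev : RgDev d R H z κ) : rgBad d R H z κ ≤ rgNT H (R + 1) := by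
  classical
  have hd0 : (d : ℝ) ≠ 0 := by
    have : 0 < d := by omega
    exact_mod_cast this.ne'
  have hsub : (Finset.univ.filter fun e : Fin n × Fin n => H.Adj e.1 e.2 ∧ ¬ RgGoodE d R H z κ e.1 e.2)
      ⊆ Finset.univ.filter fun e : Fin n × Fin n => H.Adj e.1 e.2 ∧ ¬ RgTl H (R + 1) {e.1} := by
    intro e he
    rw [Finset.mem_filter] at he ⊢
    refine ⟨he.1, he.2.1, b1_nt_of_edge17 H R he.2.1 fun ht => he.2.2 ⟨ht, b1_blk_le d hd H R z hz hb hdev he.2.1 ht⟩⟩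
  have hc := Finset.card_le_card hsub
  rw [b1_edge_card17 hH fun x => ¬ RgTl H (R + 1) {x}] at hc
  unfold rgBad rgNT
  have hc' : ((Finset.univ.filter fun e : Fin n × Fin n => H.Adj e.1 e.2 ∧ ¬ RgGoodE d R H z κ e.1 e.2).card : ℝ)
      ≤ ((Finset.univ.filter fun x => ¬ RgTl H (R + 1) {x}).card : ℝ) * d := by
    rw [mul_comm]
    exact_mod_cast hc
  calc _ ≤ ((Finset.univ.filter fun x => ¬ RgTl H (R + 1) {x}).card : ℝ) * d / (n * d) :=
        div_le_div_of_nonneg_right hc' (by positivity)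
    _ = _ := mul_div_mul_right _ _ hd0

/-- Markov: bad fraction from the mean square.   Plan: bad ⊆ {non tree-like} ∪ {`κ < rgBlk`}; first set as in `b1_bad_le_nt`; second: `1 ≤ rgBlk²/κ²` termwise. -/
theorem b1_bad_markov (d : ℕ) (hd : 3 ≤ d) {n : ℕ} (H : Gr n) (hH : H ∈ regularGraphs n d) (R : ℕ) (z : ℂ) {κ : ℝ} (hκ : 0 < κ) :
    rgBad d R H z κ ≤ rgF2 d H z / κ ^ 2 + rgNT H (R + 1) := by
  classical
  have hd0 : (d : ℝ) ≠ 0 := by
    have : 0 < d := by omega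
    exact_mod_cast this.ne'
  have hsub : (Finset.univ.filter fun e : Fin n × Fin n => H.Adj e.1 e.2 ∧ ¬ RgGoodE d R H z κ e.1 e.2)
      ⊆ (Finset.univ.filter fun e : Fin n × Fin n => H.Adj e.1 e.2 ∧ ¬ RgTl H (R + 1) {e.1}) ∪
        (Finset.univ.filter fun e : Fin n × Fin n => H.Adj e.1 e.2 ∧ κ < rgBlk d H z e.1 e.2) := by
    intro e he
    rw [Finset.mem_filter] at he
    rw [Finset.mem_union, Finset.mem_filter, Finset.mem_filter]
    by_cases ht : RgTl H R {e.1, e.2}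
    · exact Or.inr ⟨he.1, he.2.1, not_le.1 fun hle => he.2.2 ⟨ht, hle⟩⟩
    · exact Or.inl ⟨he.1, he.2.1, b1_nt_of_edge17 H R he.2.1 ht⟩
  have hc := (Finset.card_le_card hsub).trans (Finset.card_union_le _ _)
  rw [b1_edge_card17 hH fun x => ¬ RgTl H (R + 1) {x}] at hc
  have h2 : ((Finset.univ.filter fun e : Fin n × Fin n => H.Adj e.1 e.2 ∧ κ < rgBlk d H z e.1 e.2).card : ℝ)
      ≤ (∑ e : Fin n × Fin n, if H.Adj e.1 e.2 then rgBlk d H z e.1 e.2 ^ 2 else 0) / κ ^ 2 := by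
    rw [Finset.card_filter, Finset.sum_div]
    push_cast
    refine Finset.sum_le_sum fun e _ => ?_
    by_cases ha : H.Adj e.1 e.2
    · by_cases hk : κ < rgBlk d H z e.1 e.2
      · simp only [ha, hk, and_self, if_true]
        rw [one_le_div (by positivity)]
        exact pow_le_pow_left₀ hκ.le hk.le 2
      · simp only [ha, hk, and_false, if_false, if_true]
        positivity
    · simp [ha]
  unfold rgBad rgNT rgF2
  have hc' : ((Finset.univ.filter fun e : Fin n × Fin n => H.Adj e.1 e.2 ∧ ¬ RgGoodE d R H z κ e.1 e.2).card : ℝ)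
      ≤ ((Finset.univ.filter fun x => ¬ RgTl H (R + 1) {x}).card : ℝ) * d
        + (∑ e : Fin n × Fin n, if H.Adj e.1 e.2 then rgBlk d H z e.1 e.2 ^ 2 else 0) / κ ^ 2 := by
    have : ((Finset.univ.filter fun e : Fin n × Fin n => H.Adj e.1 e.2 ∧ ¬ RgGoodE d R H z κ e.1 e.2).card : ℝ)
        ≤ (d : ℝ) * ((Finset.univ.filter fun x => ¬ RgTl H (R + 1) {x}).card : ℝ)
          + ((Finset.univ.filter fun e : Fin n × Fin n => H.Adj e.1 e.2 ∧ κ < rgBlk d H z e.1 e.2).card : ℝ) := by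
      exact_mod_cast hc
    linarith
  calc _ ≤ (((Finset.univ.filter fun x => ¬ RgTl H (R + 1) {x}).card : ℝ) * d
        + (∑ e : Fin n × Fin n, if H.Adj e.1 e.2 then rgBlk d H z e.1 e.2 ^ 2 else 0) / κ ^ 2) / (n * d) :=
        div_le_div_of_nonneg_right hc' (by positivity)
    _ = _ := by
        rw [add_div, mul_div_mul_right _ _ hd0, add_comm, div_div, div_div, mul_comm (κ ^ 2)]

/-- the bad fraction is nonincreasing in the level.   Plan: `Finset.card_le_card` of the filters, `div_le_div_of_nonneg_right`. -/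
theorem b1_bad_anti (d : ℕ) {n : ℕ} (H : Gr n) (R : ℕ) (z : ℂ) {κ κ' : ℝ} (h : κ ≤ κ') : rgBad d R H z κ' ≤ rgBad d R H z κ := by
  classical
  unfold rgBad
  refine div_le_div_of_nonneg_right ?_ (by positivity)
  have : (Finset.univ.filter fun e : Fin n × Fin n => H.Adj e.1 e.2 ∧ ¬ RgGoodE d R H z κ' e.1 e.2)
      ⊆ Finset.univ.filter fun e : Fin n × Fin n => H.Adj e.1 e.2 ∧ ¬ RgGoodE d R H z κ e.1 e.2 := by
    intro e he
    rw [Finset.mem_filter] at he ⊢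
    exact ⟨he.1, he.2.1, fun hg => he.2.2 ⟨hg.1, hg.2.trans h⟩⟩
  exact_mod_cast Finset.card_le_card this

/-- continuity of one entry of `G` in the height (`rs_height`) -/
theorem b1_G_cont {n : ℕ} (H : Gr n) (e : ℝ) {η η' r0 K : ℝ} (hη' : 0 < η') (hr0 : 0 < r0) (h1 : r0 * η ≤ η') (h2 : η' ≤ η)
    (hK : ∀ x, (rgG H (rgz e η) x x).im ≤ K) (x y : Fin n) :
    ‖rgG H (rgz e η') x y - rgG H (rgz e η) x y‖ ≤ (1 - r0) * (K / r0) := by
  have hη : 0 < η := lt_of_lt_of_le hη' h2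
  set r : ℝ := η' / η with hr
  have hr_pos : 0 < r := div_pos hη' hη
  have hr1 : r ≤ 1 := (div_le_one hη).2 h2
  have hr0r : r0 ≤ r := (le_div_iff₀ hη).2 h1
  have hrη : r * η = η' := div_mul_cancel₀ _ hη.ne'
  have key := rs_height (rg_A_herm H) e hη hr_pos hr1 x y
  rw [hrη] at key
  have hx0 : 0 < (rgG H (rgz e η) x x).im := rs_G_im_pos (rg_A_herm H) (z := rgz e η) hη x
  have hy0 : 0 < (rgG H (rgz e η) y y).im := rs_G_im_pos (rg_A_herm H) (z := rgz e η) hη y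
  have hK0 : 0 ≤ K := hx0.le.trans (hK x)
  have hsq : Real.sqrt ((rgG H (rgz e η) x x).im * (rgG H (rgz e η) y y).im) ≤ K := by
    rw [show K = Real.sqrt (K * K) by rw [Real.sqrt_mul_self hK0]]
    exact Real.sqrt_le_sqrt (mul_le_mul (hK x) (hK y) hy0.le hK0)
  have hfr : (1 - r) / r ≤ (1 - r0) / r0 := by
    rw [div_le_div_iff₀ hr_pos hr0]
    nlinarith
  calc ‖rgG H (rgz e η') x y - rgG H (rgz e η) x y‖
      ≤ (1 - r) / r * Real.sqrt ((rgG H (rgz e η) x x).im * (rgG H (rgz e η) y y).im) := key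
    _ ≤ (1 - r0) / r0 * K := by
        refine mul_le_mul hfr hsq (Real.sqrt_nonneg _) ?_
        exact div_nonneg (by linarith) hr0.le
    _ = (1 - r0) * (K / r0) := by ring

theorem b1_eta_sub {η η' r0 : ℝ} (h1 : r0 * η ≤ η') (h3 : η ≤ 1) (hη : 0 ≤ η) (hr : r0 ≤ 1) : η - η' ≤ 1 - r0 := by
  nlinarith

/-- continuity of T1 in the height.   Plan: `η' = r η`, `r = η'/η ∈ [r0,1]`; `rs_height` (`rgz = rsZ` by `rfl`), `√(ab) ≤ K`, `(1-r)/r ≤ (1-r0)/r0`; `η - η' ≤ (1-r0) η ≤ 1 - r0`; triangle inequality. -/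
theorem b1_cont_dev (d : ℕ) {n : ℕ} (H : Gr n) (R : ℕ) (e : ℝ) {η η' r0 K CR κ : ℝ} (hη' : 0 < η') (hr0 : 0 < r0) (h1 : r0 * η ≤ η') (h2 : η' ≤ η) (h3 : η ≤ 1)
    (hK : ∀ x, (rgG H (rgz e η) x x).im ≤ K)
    (hP : ∀ x y, ‖rgPm d R H (rgz e η') x y - rgPm d R H (rgz e η) x y‖ ≤ CR * (η - η')) (hCR : 0 ≤ CR)
    (hdev : RgDev d R H (rgz e η) κ) : RgDev d R H (rgz e η') (κ + (1 - r0) * (K / r0 + CR)) := by
  intro x y
  have hη : 0 < η := lt_of_lt_of_le hη' h2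
  have hr : r0 ≤ 1 := by
    by_contra hcon
    push Not at hcon
    nlinarith
  have a1 := b1_G_cont H e hη' hr0 h1 h2 hK x y
  have a2 := hP x y
  have a3 := hdev x y
  have a4 : CR * (η - η') ≤ CR * (1 - r0) := mul_le_mul_of_nonneg_left (b1_eta_sub h1 h3 hη.le hr) hCR
  have e1 : rgG H (rgz e η') x y - rgPm d R H (rgz e η') x y
      = (rgG H (rgz e η') x y - rgG H (rgz e η) x y) + (rgG H (rgz e η) x y - rgPm d R H (rgz e η) x y)
        - (rgPm d R H (rgz e η') x y - rgPm d R H (rgz e η) x y) := by ring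
  rw [e1]
  calc _ ≤ ‖(rgG H (rgz e η') x y - rgG H (rgz e η) x y) + (rgG H (rgz e η) x y - rgPm d R H (rgz e η) x y)‖
        + ‖rgPm d R H (rgz e η') x y - rgPm d R H (rgz e η) x y‖ := norm_sub_le _ _
    _ ≤ ‖rgG H (rgz e η') x y - rgG H (rgz e η) x y‖ + ‖rgG H (rgz e η) x y - rgPm d R H (rgz e η) x y‖
        + ‖rgPm d R H (rgz e η') x y - rgPm d R H (rgz e η) x y‖ := by gcongr; exact norm_add_le _ _
    _ ≤ κ + (1 - r0) * (K / r0 + CR) := by nlinarith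

/-- continuity of the block -/
theorem b1_blk_cont (d : ℕ) {n : ℕ} (H : Gr n) (e : ℝ) {η η' r0 K CT : ℝ} (hη' : 0 < η') (hr0 : 0 < r0) (h1 : r0 * η ≤ η') (h2 : η' ≤ η) (h3 : η ≤ 1)
    (hK : ∀ x, (rgG H (rgz e η) x x).im ≤ K)
    (hT : ∀ k : ℕ, k ≤ 2 → ‖rgTv d (rgz e η') k - rgTv d (rgz e η) k‖ ≤ CT * (η - η')) (hCT : 0 ≤ CT) (b c : Fin n) :
    rgBlk d H (rgz e η') b c ≤ rgBlk d H (rgz e η) b c + (1 - r0) * (K / r0 + CT) := by
  have hη : 0 < η := lt_of_lt_of_le hη' h2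
  have hr : r0 ≤ 1 := by
    by_contra hcon
    push Not at hcon
    nlinarith
  have a4 : CT * (η - η') ≤ CT * (1 - r0) := mul_le_mul_of_nonneg_left (b1_eta_sub h1 h3 hη.le hr) hCT
  have key : ∀ (x y : Fin n) (k : ℕ), k ≤ 2 →
      ‖rgG H (rgz e η') x y - rgTv d (rgz e η') k‖ ≤ ‖rgG H (rgz e η) x y - rgTv d (rgz e η) k‖ + (1 - r0) * (K / r0 + CT) := by
    intro x y k hk
    have a1 := b1_G_cont H e hη' hr0 h1 h2 hK x y
    have a2 := hT k hk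
    have e1 : rgG H (rgz e η') x y - rgTv d (rgz e η') k
        = (rgG H (rgz e η') x y - rgG H (rgz e η) x y) + (rgG H (rgz e η) x y - rgTv d (rgz e η) k)
          - (rgTv d (rgz e η') k - rgTv d (rgz e η) k) := by ring
    rw [e1]
    calc _ ≤ ‖(rgG H (rgz e η') x y - rgG H (rgz e η) x y) + (rgG H (rgz e η) x y - rgTv d (rgz e η) k)‖
          + ‖rgTv d (rgz e η') k - rgTv d (rgz e η) k‖ := norm_sub_le _ _
      _ ≤ ‖rgG H (rgz e η') x y - rgG H (rgz e η) x y‖ + ‖rgG H (rgz e η) x y - rgTv d (rgz e η) k‖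
          + ‖rgTv d (rgz e η') k - rgTv d (rgz e η) k‖ := by gcongr; exact norm_add_le _ _
      _ ≤ _ := by nlinarith
  unfold rgBlk
  refine max_le ?_ (max_le ?_ ?_)
  · exact (key b b 0 (by norm_num)).trans (by gcongr; exact le_max_left _ _)
  · exact (key c c 0 (by norm_num)).trans (by gcongr; exact (le_max_left _ _).trans (le_max_right _ _))
  · exact (key b c 1 (by norm_num)).trans (by gcongr; exact (le_max_right _ _).trans (le_max_right _ _))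

/-- continuity of the bad fraction in the height.   Plan: as `b1_cont_dev`: each of the three terms of `rgBlk` moves by at most `(1-r0)(K/r0 + CT) ≤ κ`; so `2κ < rgBlk(z')` ⟹ `κ < rgBlk(z)`; nested filters. -/
theorem b1_cont_bad (d : ℕ) {n : ℕ} (H : Gr n) (R : ℕ) (e : ℝ) {η η' r0 K CT κ : ℝ} (hη' : 0 < η') (hr0 : 0 < r0) (h1 : r0 * η ≤ η') (h2 : η' ≤ η) (h3 : η ≤ 1)
    (hK : ∀ x, (rgG H (rgz e η) x x).im ≤ K)
    (hT : ∀ k : ℕ, k ≤ 2 → ‖rgTv d (rgz e η') k - rgTv d (rgz e η) k‖ ≤ CT * (η - η')) (hCT : 0 ≤ CT)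
    (hs : (1 - r0) * (K / r0 + CT) ≤ κ) : rgBad d R H (rgz e η') (2 * κ) ≤ rgBad d R H (rgz e η) κ := by
  classical
  unfold rgBad
  refine div_le_div_of_nonneg_right ?_ (by positivity)
  refine Nat.cast_le.2 (Finset.card_le_card ?_)
  intro p hp
  simp only [Finset.mem_filter, Finset.mem_univ, true_and] at hp ⊢
  refine ⟨hp.1, fun hg => hp.2 ⟨hg.1, ?_⟩⟩
  have := b1_blk_cont d H e hη' hr0 h1 h2 h3 hK hT hCT p.1 p.2
  have h5 := hg.2
  linarith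

/-! ## 6. DESCENT: the probabilistic glue (helper271) -/

theorem b1_dev_mono {n : ℕ} {d R : ℕ} {H : Gr n} {z : ℂ} {κ κ' : ℝ} (h : κ ≤ κ') (hd : RgDev d R H z κ) : RgDev d R H z κ' :=
  fun x y => (hd x y).trans h

theorem b1_h_le_one (κb : ℝ) : b1h κb ≤ 1 := min_le_left _ _

theorem b1_h_pos {κb : ℝ} (hκ : 0 < κb) : 0 < b1h κb := by
  unfold b1h
  exact lt_min one_pos (div_pos (Real.sqrt_pos.2 hκ) (by norm_num))

/-- the grid ratio -/
theorem b1_ratio {K A s : ℝ} (hK : 0 ≤ K) (hA : 0 ≤ A) (hs : 0 < s) :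
    ∃ r0 : ℝ, 0 < r0 ∧ r0 < 1 ∧ (1 - r0) * (K / r0 + A) ≤ s := by
  set t : ℝ := min (1 / 2) (s / (2 * K + A + 1)) with ht
  have hden : 0 < 2 * K + A + 1 := by linarith
  have ht0 : 0 < t := lt_min (by norm_num) (div_pos hs hden)
  have ht1 : t ≤ 1 / 2 := min_le_left _ _
  have ht2 : t * (2 * K + A + 1) ≤ s := by
    have : t ≤ s / (2 * K + A + 1) := min_le_right _ _
    rwa [le_div_iff₀ hden] at this
  refine ⟨1 - t, by linarith, by linarith, ?_⟩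
  have h1 : K / (1 - t) ≤ 2 * K := by
    rw [div_le_iff₀ (by linarith)]
    nlinarith
  have h2 : (1 - (1 - t)) * (K / (1 - t) + A) ≤ t * (2 * K + A + 1) := by
    have : (1 - (1 - t)) = t := by ring
    rw [this]
    exact mul_le_mul_of_nonneg_left (by linarith) ht0.le
  linarith

/-- **choice of the constants** (pure bookkeeping from the contracts of sections 1, 3, 4 and `b1_cont_dev`, `b1_cont_bad`).
Plan: `M, κsT` from `b1_T2`; `κsG` from `b1_gap … M`; `κ0 = min 1 (min κsT κsG)`; `κ1s` from the gap, `κ1 = κ1s/2`; `R = max 3 (max R0T2 (max R0gap R0start))` with `b1_start` at `min (κ0/M) (κ1/2)`;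
`K = C_P + 1` (`b1_model_bd`); `C` from `b1_T2` (replace by `max C 0`); `r0 < 1` with `(1-r0)(K/r0 + CR + CT) ≤ min (κ0/2) (κ1/2)` (e.g. `r0 = 1 - t`, `t = min (1/2) (s/(2K + CR + CT + 1))`); `N` from the gap. -/
theorem b1_con (d : ℕ) (hd : 3 ≤ d) (κb : ℝ) (hκ : 0 < κb) (ε : ℝ) (hε : 0 < ε) :
    ∃ (M κ0 κ1 : ℝ) (R : ℕ) (C r0 K : ℝ) (N : ℕ), B1Con d κb ε M κ0 κ1 R C r0 K N := by
  obtain ⟨M, hM, κsT, hκsT, hT2⟩ := b1_T2 d hd κb hκ
  obtain ⟨κsG, hκsG, hG⟩ := b1_gap d hd κb hκ ε hε M (by linarith)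
  set κ0 : ℝ := min 1 (min κsT κsG) with hκ0def
  have hκ0 : 0 < κ0 := lt_min one_pos (lt_min hκsT hκsG)
  have hκ01 : κ0 ≤ 1 := min_le_left _ _
  have hκ0T : κ0 ≤ κsT := (min_le_right _ _).trans (min_le_left _ _)
  have hκ0G : κ0 ≤ κsG := (min_le_right _ _).trans (min_le_right _ _)
  obtain ⟨κ1s, hκ1s, hG⟩ := hG κ0 hκ0 hκ0G
  set κ1 : ℝ := κ1s / 2 with hκ1def
  have hκ1 : 0 < κ1 := by positivity
  obtain ⟨R0G, hG⟩ := hG (2 * κ1) (by positivity) (by rw [hκ1def]; linarith)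
  obtain ⟨R0T, hT2⟩ := hT2 κ0 hκ0 hκ0T κ1 hκ1
  have hM0 : 0 < M := by linarith
  obtain ⟨R0S, hS⟩ := b1_start d hd κb hκ (min (κ0 / M) (κ1 / 2)) (lt_min (by positivity) (by positivity))
  set R : ℕ := max 3 (max R0T (max R0G R0S)) with hRdef
  have hR3 : 3 ≤ R := le_max_left _ _
  have hRT : R0T ≤ R := (le_max_left _ _).trans (le_max_right _ _)
  have hRG : R0G ≤ R := ((le_max_left _ _).trans (le_max_right _ _)).trans (le_max_right _ _)
  have hRS : R0S ≤ R := ((le_max_right _ _).trans (le_max_right _ _)).trans (le_max_right _ _)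
  obtain ⟨N, hG⟩ := hG R hRG
  obtain ⟨C, hT2⟩ := hT2 R hRT
  obtain ⟨CP, hCP⟩ := b1_model_bd d hd κb hκ
  obtain ⟨CR, hCR⟩ := b1_model_cont d hd κb hκ R (by omega)
  obtain ⟨CT, hCT⟩ := b1_tv_cont d hd κb hκ
  set K : ℝ := max CP 0 + 1 with hKdef
  have hK0 : 0 ≤ K := by have := le_max_right CP 0; linarith
  set A : ℝ := max CR 0 + max CT 0 with hAdef
  have hA0 : 0 ≤ A := add_nonneg (le_max_right _ _) (le_max_right _ _)
  obtain ⟨r0, hr0, hr1, hr⟩ := b1_ratio hK0 hA0 (lt_min (half_pos hκ0) (half_pos hκ1))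
  have hbd : ∀ (n : ℕ) (H : Gr n), H ∈ regularGraphs n d → RgStruct H (4 * R) → ∀ e η : ℝ, RgBulk d κb e → 0 < η → η ≤ b1h κb →
      RgDev d R H (rgz e η) κ0 → ∀ x y, ‖rgG H (rgz e η) x y‖ ≤ K := by
    intro n H hH hst e η he hη hηh hdev x y
    have h1 := hCP n R H hH (by omega) hst e η he hη hηh x y
    have h2 := hdev x y
    have h3 : rgG H (rgz e η) x y = (rgG H (rgz e η) x y - rgPm d R H (rgz e η) x y) + rgPm d R H (rgz e η) x y := by ring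
    rw [h3]
    refine (norm_add_le _ _).trans ?_
    have := le_max_left CP 0
    linarith
  refine ⟨M, κ0, κ1, R, max C 0, r0, K, N, ⟨hM, hκ0, hκ01, hκ1, hR3, le_max_right _ _, hr0, hr1, hbd, ?_, ?_, ?_, ?_⟩⟩
  · intro n H hH hst e η η' he hη' h1 h2 h3 hdev
    have hη : 0 < η := lt_of_lt_of_le hη' h2
    have hdev0 : RgDev d R H (rgz e η) κ0 := b1_dev_mono (div_le_self hκ0.le (by linarith)) hdev
    have hKim : ∀ x, (rgG H (rgz e η) x x).im ≤ K := fun x =>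
      ((le_abs_self _).trans (Complex.abs_im_le_norm _)).trans (hbd n H hH hst e η he hη h3 hdev0 x x)
    have hη1 : η ≤ 1 := h3.trans (b1_h_le_one κb)
    have hsub : 0 ≤ η - η' := by linarith
    have hfac : 0 ≤ 1 - r0 := by linarith
    constructor
    · have := b1_cont_dev d H R e (CR := max CR 0) (κ := κ0 / M) hη' hr0 h1 h2 hη1 hKim
        (fun x y => (hCR n H hH hst e η η' he hη' h2 h3 x y).trans (mul_le_mul_of_nonneg_right (le_max_left _ _) hsub))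
        (le_max_right _ _) hdev
      refine b1_dev_mono ?_ this
      have h5 : (1 - r0) * (K / r0 + max CR 0) ≤ (1 - r0) * (K / r0 + A) :=
        mul_le_mul_of_nonneg_left (by have := le_max_right CT 0; rw [hAdef]; linarith) hfac
      have h6 : κ0 / M ≤ κ0 / 2 := div_le_div_of_nonneg_left hκ0.le (by norm_num) hM
      have h7 := hr.trans (min_le_left _ _)
      linarith
    · have := b1_cont_bad d H R e (CT := max CT 0) (κ := κ1 / 2) hη' hr0 h1 h2 hη1 hKim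
        (fun k hk => (hCT e η η' he hη' h2 h3 k hk).trans (mul_le_mul_of_nonneg_right (le_max_left _ _) hsub))
        (le_max_right _ _) ?_
      · rwa [show 2 * (κ1 / 2) = κ1 by ring] at this
      · have h5 : (1 - r0) * (K / r0 + max CT 0) ≤ (1 - r0) * (K / r0 + A) :=
          mul_le_mul_of_nonneg_left (by have := le_max_right CR 0; rw [hAdef]; linarith) hfac
        exact h5.trans (hr.trans (min_le_right _ _))
  · intro n H hH e he
    exact hS R hRS n H hH e he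
  · intro n hn e η he h1 h2
    exact hG n hn e η he h1 h2
  · intro n hn e η gp he h1 h2 hgp
    refine (hT2 n hn e η gp he h1 h2 hgp).trans (mul_le_mul_of_nonneg_right (le_max_left _ _) ?_)
    have hy : 0 ≤ (n : ℝ) * η := by linarith
    have hgp0 : 0 ≤ gp := (rg_P_nonneg _).trans hgp
    have := Real.rpow_nonneg hy (-(1 / 4 : ℝ))
    positivity

theorem b1_StD_nonneg {n : ℕ} (d : ℕ) (H : Gr n) (z : ℂ) (o : Fin n) : 0 ≤ rgStD d H z o := by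
  unfold rgStD
  exact Finset.sum_nonneg fun x _ => Finset.sum_nonneg fun y _ => by positivity

theorem b1_StarF_nonneg {n : ℕ} (d : ℕ) (H : Gr n) (z : ℂ) : 0 ≤ rgStarF d H z := by
  unfold rgStarF
  exact div_nonneg (Finset.sum_nonneg fun o _ => b1_StD_nonneg d H z o) (Nat.cast_nonneg _)

theorem b1_F2_nonneg {n : ℕ} (d : ℕ) (H : Gr n) (z : ℂ) : 0 ≤ rgF2 d H z := by
  classical
  unfold rgF2
  refine div_nonneg (Finset.sum_nonneg fun p _ => ?_) (by positivity)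
  split_ifs <;> positivity

/-- `n^a` is eventually above any constant -/
theorem b1_large (a : ℝ) (ha : 0 < a) (A : ℝ) : ∃ N : ℕ, 1 ≤ N ∧ ∀ n : ℕ, N ≤ n → A ≤ (n : ℝ) ^ a := by
  have h1 : Filter.Tendsto (fun n : ℕ => (n : ℝ) ^ a) Filter.atTop Filter.atTop :=
    (tendsto_rpow_atTop ha).comp tendsto_natCast_atTop_atTop
  obtain ⟨N, hN⟩ := Filter.eventually_atTop.1 (h1.eventually_ge_atTop A)
  exact ⟨max N 1, le_max_right _ _, fun n hn => hN n ((le_max_left _ _).trans hn)⟩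

/-- arithmetic of the Markov step -/
theorem b1_arith {y nn κ1 : ℝ} (hy : 0 < y) (hyn : y ≤ nn) (hκ1 : 0 < κ1) (hbig : 16 / κ1 ^ 2 + 4 ≤ y ^ (3 / 8 : ℝ)) :
    y ^ (-(1 / 2 : ℝ)) / (κ1 / 2) ^ 2 + nn ^ (-(1 / 2 : ℝ)) ≤ y ^ (-(1 / 8 : ℝ)) / 4 := by
  have h1 : nn ^ (-(1 / 2 : ℝ)) ≤ y ^ (-(1 / 2 : ℝ)) := Real.rpow_le_rpow_of_nonpos hy hyn (by norm_num)
  have h2 : y ^ (-(1 / 8 : ℝ)) = y ^ (-(1 / 2 : ℝ)) * y ^ (3 / 8 : ℝ) := by
    rw [← Real.rpow_add hy]; norm_num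
  have h3 : 0 < y ^ (-(1 / 2 : ℝ)) := Real.rpow_pos_of_pos hy _
  have h4 : y ^ (-(1 / 2 : ℝ)) / (κ1 / 2) ^ 2 = y ^ (-(1 / 2 : ℝ)) * (4 / κ1 ^ 2) := by
    field_simp
    norm_num
  rw [h2, h4]
  have h5 : 16 / κ1 ^ 2 = 4 * (4 / κ1 ^ 2) := by ring
  nlinarith

/-- **one step of the descent**: the failure probabilities add.
Plan: `rg_P_mono` + `rg_P_or` twice with the inclusion  ¬(Good(η') ∧ Star) ⊆ ¬Good(η) ∪ GAP(η') ∪ T2ev(η').  Given Good(η): `hc.cont` gives T1(κ0) and `bad_κ1(z') ≤ bad_(κ1/2)(z) ≤ y^(-1/8)/4 ≤ y'^(-1/8)/4`;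
`b1_bad_anti` gives the level `2κ1`; not in GAP ⟹ T1(κ0/M); not in T2ev ⟹ `F2, StarF ≤ y'^(-1/2)` (both are `≥ 0`); `b1_bad_markov` at `κ1/2`: `4 y'^(-1/2)/κ1² + n^(-1/2) ≤ y'^(-1/8)/4` as soon as `y'^(3/8) ≥ 32/κ1² + 8` (`n^ε ≤ y' ≤ n`).
`hc.t2` with `gp = 1/n²`, `y' gp ≤ 1/n`. -/
theorem b1_step {d : ℕ} (hd : 3 ≤ d) {κb ε M κ0 κ1 : ℝ} {R : ℕ} {C r0 K : ℝ} {N : ℕ} (hκ : 0 < κb) (hε : 0 < ε) (hc : B1Con d κb ε M κ0 κ1 R C r0 K N) :
    ∃ N' : ℕ, ∀ n : ℕ, N' ≤ n → ∀ e η η' : ℝ, RgBulk d κb e → (n : ℝ) ^ ε ≤ n * η' → r0 * η ≤ η' → η' ≤ η → η ≤ b1h κb →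
      rgP n d (fun H => ¬ (B1Good d R κ0 κ1 M e η' H ∧ rgStarF d H (rgz e η') ≤ (n * η') ^ (-(1 / 2 : ℝ))))
        ≤ rgP n d (fun H => ¬ B1Good d R κ0 κ1 M e η H) + (1 / (n : ℝ) ^ 2 + C * ((n * η') ^ (-(1 / 4 : ℝ)) + 1 / n)) := by
  obtain ⟨N1, hN11, hN1⟩ := b1_large (ε * (3 / 8)) (by positivity) (16 / κ1 ^ 2 + 4)
  refine ⟨max N N1, fun n hn e η η' he hy h1 h2 h3 => ?_⟩
  have hnN : N ≤ n := (le_max_left _ _).trans hn
  have hnN1 : N1 ≤ n := (le_max_right _ _).trans hn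
  have hn1 : 1 ≤ n := hN11.trans hnN1
  have hn0 : (0 : ℝ) < n := by exact_mod_cast hn1
  have hn1' : (1 : ℝ) ≤ n := by exact_mod_cast hn1
  have hpow1 : (1 : ℝ) ≤ (n : ℝ) ^ ε := Real.one_le_rpow hn1' hε.le
  have hy1 : 1 ≤ (n : ℝ) * η' := hpow1.trans hy
  have hy0 : 0 < (n : ℝ) * η' := by linarith
  have hη' : 0 < η' := by
    by_contra hcon
    push Not at hcon
    nlinarith
  have hη : 0 < η := lt_of_lt_of_le hη' h2
  have hη'h : η' ≤ b1h κb := h2.trans h3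
  have hη'1 : η' ≤ 1 := hη'h.trans (b1_h_le_one κb)
  have hyn : (n : ℝ) * η' ≤ n := by nlinarith
  have hyy : (n : ℝ) * η' ≤ n * η := mul_le_mul_of_nonneg_left h2 hn0.le
  have hbig : 16 / κ1 ^ 2 + 4 ≤ ((n : ℝ) * η') ^ (3 / 8 : ℝ) := by
    refine (hN1 n hnN1).trans ?_
    rw [Real.rpow_mul hn0.le]
    exact Real.rpow_le_rpow (by positivity) hy (by norm_num)
  have hgap := hc.gap n hnN e η' he hy hη'h
  have ht2 := hc.t2 n hn1 e η' (1 / (n : ℝ) ^ 2) he hy1 hη'h hgap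
  have ht2' : C * (((n : ℝ) * η') ^ (-(1 / 4 : ℝ)) + n * η' * (1 / (n : ℝ) ^ 2)) ≤ C * (((n : ℝ) * η') ^ (-(1 / 4 : ℝ)) + 1 / n) := by
    refine mul_le_mul_of_nonneg_left ?_ hc.hC
    have : (n : ℝ) * η' * (1 / (n : ℝ) ^ 2) ≤ n * (1 / (n : ℝ) ^ 2) := mul_le_mul_of_nonneg_right hyn (by positivity)
    have e2 : (n : ℝ) * (1 / (n : ℝ) ^ 2) = 1 / n := by field_simp
    linarith
  have hincl : rgP n d (fun H => ¬ (B1Good d R κ0 κ1 M e η' H ∧ rgStarF d H (rgz e η') ≤ (n * η') ^ (-(1 / 2 : ℝ))))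
      ≤ rgP n d (fun H => ¬ B1Good d R κ0 κ1 M e η H ∨
          ((RgOm d R H (rgz e η') κ0 (2 * κ1) ((n * η') ^ (-(1 / 8 : ℝ))) ∧ ¬ RgDev d R H (rgz e η') (κ0 / M)) ∨
           (RgOm d R H (rgz e η') (κ0 / M) κ1 ((n * η') ^ (-(1 / 8 : ℝ)) / 4) ∧
              (n * η') ^ (-(1 / 2 : ℝ)) < rgF2 d H (rgz e η') + rgStarF d H (rgz e η')))) := by
    refine rg_P_mono fun H hH hbad => ?_
    by_contra hcon
    push Not at hcon
    obtain ⟨hgood, hng, hnt⟩ := hcon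
    apply hbad
    obtain ⟨hNT, hstr, hdev, hbd⟩ := hgood
    obtain ⟨hdev', hbad'⟩ := hc.cont n H hH hstr.1 e η η' he hη' h1 h2 h3 hdev
    have hmono : ((n : ℝ) * η) ^ (-(1 / 8 : ℝ)) ≤ ((n : ℝ) * η') ^ (-(1 / 8 : ℝ)) :=
      Real.rpow_le_rpow_of_nonpos hy0 hyy (by norm_num)
    have hpos8 : 0 < ((n : ℝ) * η') ^ (-(1 / 8 : ℝ)) := Real.rpow_pos_of_pos hy0 _
    have hb1 : rgBad d R H (rgz e η') κ1 ≤ ((n : ℝ) * η') ^ (-(1 / 8 : ℝ)) / 4 := by linarith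
    have hb2 : rgBad d R H (rgz e η') (2 * κ1) ≤ ((n : ℝ) * η') ^ (-(1 / 8 : ℝ)) := by
      have := b1_bad_anti d H R (rgz e η') (κ := κ1) (κ' := 2 * κ1) (by linarith [hc.hκ1])
      linarith
    have hdevM : RgDev d R H (rgz e η') (κ0 / M) := hng ⟨hstr, hdev', hb2⟩
    have hF := hnt ⟨hstr, hdevM, hb1⟩
    have hF2 := b1_F2_nonneg d H (rgz e η')
    have hSt := b1_StarF_nonneg d H (rgz e η')
    refine ⟨⟨hNT, hstr, hdevM, ?_⟩, by linarith⟩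
    have hmk := b1_bad_markov d hd H hH R (rgz e η') (κ := κ1 / 2) (half_pos hc.hκ1)
    have har := b1_arith hy0 hyn hc.hκ1 hbig
    have h8 : rgF2 d H (rgz e η') / (κ1 / 2) ^ 2 ≤ ((n : ℝ) * η') ^ (-(1 / 2 : ℝ)) / (κ1 / 2) ^ 2 :=
      div_le_div_of_nonneg_right (by linarith) (by positivity)
    linarith
  refine hincl.trans ((rg_P_or _ _).trans ?_)
  have := rg_P_or (n := n) (d := d) (fun H => RgOm d R H (rgz e η') κ0 (2 * κ1) ((n * η') ^ (-(1 / 8 : ℝ))) ∧ ¬ RgDev d R H (rgz e η') (κ0 / M))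
    (fun H => RgOm d R H (rgz e η') (κ0 / M) κ1 ((n * η') ^ (-(1 / 8 : ℝ)) / 4) ∧
              (n * η') ^ (-(1 / 2 : ℝ)) < rgF2 d H (rgz e η') + rgStarF d H (rgz e η'))
  linarith


theorem b1_bulk_lt {d : ℕ} {κb e : ℝ} (hκ : 0 < κb) (he : RgBulk d κb e) : e ^ 2 < 4 * ((d : ℝ) - 1) := by
  unfold RgBulk at he
  linarith

/-- **the start of the descent**.   Plan: ¬Good(h) ⊆ ¬Struct(4R) ∪ ¬Sparse ∪ {n^(-1/2) < NT(R+1)}: `b1_L0_struct`, `b1_L0_sparse`, `rg_P_markov` + `b1_L0_nt`; on the complement `hc.start` + `b1_bad_le_nt`: `bad ≤ n^(-1/2) ≤ (n h)^(-1/8)/4`. -/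
theorem b1_init {d : ℕ} (hd : 3 ≤ d) {κb ε M κ0 κ1 : ℝ} {R : ℕ} {C r0 K : ℝ} {N : ℕ} (hκ : 0 < κb) (hc : B1Con d κb ε M κ0 κ1 R C r0 K N) :
    ∃ (C' : ℝ) (N' : ℕ), ∀ n : ℕ, N' ≤ n → ∀ e : ℝ, RgBulk d κb e →
      rgP n d (fun H => ¬ B1Good d R κ0 κ1 M e (b1h κb) H) ≤ C' * (n : ℝ) ^ (-(1 / 2 : ℝ)) := by
  obtain ⟨C1, hC1⟩ := b1_L0_struct d hd (4 * R)
  obtain ⟨C2, hC2⟩ := b1_L0_sparse d hd ((d + 1) ^ (4 * R))
  obtain ⟨C3, hC3⟩ := b1_L0_nt d hd (R + 1)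
  obtain ⟨N1, hN11, hN1⟩ := b1_large (3 / 8) (by norm_num) 4
  refine ⟨|C1| + |C2| + |C3|, N1, fun n hn e he => ?_⟩
  have hn1 : 1 ≤ n := hN11.trans hn
  have hn0 : (0 : ℝ) < n := by exact_mod_cast hn1
  have hn1' : (1 : ℝ) ≤ n := by exact_mod_cast hn1
  have hh := b1_h_pos hκ
  have hh1 := b1_h_le_one κb
  have hs : 0 < (n : ℝ) ^ (-(1 / 2 : ℝ)) := Real.rpow_pos_of_pos hn0 _
  have hinv : 1 / (n : ℝ) ≤ (n : ℝ) ^ (-(1 / 2 : ℝ)) := by
    rw [one_div, ← Real.rpow_neg_one]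
    exact Real.rpow_le_rpow_of_exponent_le hn1' (by norm_num)
  have hsmall : (n : ℝ) ^ (-(1 / 2 : ℝ)) ≤ ((n : ℝ) * b1h κb) ^ (-(1 / 8 : ℝ)) / 4 := by
    have h1 : (n : ℝ) ^ (-(1 / 8 : ℝ)) ≤ ((n : ℝ) * b1h κb) ^ (-(1 / 8 : ℝ)) :=
      Real.rpow_le_rpow_of_nonpos (by positivity) (by nlinarith) (by norm_num)
    have h2 : (n : ℝ) ^ (-(1 / 8 : ℝ)) = (n : ℝ) ^ (-(1 / 2 : ℝ)) * (n : ℝ) ^ (3 / 8 : ℝ) := by
      rw [← Real.rpow_add hn0]; norm_num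
    have h3 := hN1 n hn
    nlinarith
  have hincl : rgP n d (fun H => ¬ B1Good d R κ0 κ1 M e (b1h κb) H)
      ≤ rgP n d (fun H => ¬ RgStruct H (4 * R) ∨ (¬ RgSparse H ((d + 1) ^ (4 * R)) ∨ (n : ℝ) ^ (-(1 / 2 : ℝ)) ≤ rgNT H (R + 1))) := by
    refine rg_P_mono fun H hH hbad => ?_
    by_contra hcon
    push Not at hcon
    obtain ⟨h1, h2, h3⟩ := hcon
    apply hbad
    have hst := hc.start n H hH e he
    refine ⟨h3.le, ⟨h1, h2⟩, b1_dev_mono (min_le_left _ _) hst, ?_⟩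
    have := b1_bad_le_nt d hd H hH R (rgz e (b1h κb)) hh (b1_bulk_lt hκ he) (b1_dev_mono (min_le_right _ _) hst)
    linarith
  have hNTnn : ∀ H ∈ regularGraphs n d, 0 ≤ rgNT H (R + 1) := fun H _ => by
    unfold rgNT; positivity
  have hmk := rg_P_markov hNTnn hs
  have h3 : rgE n d (fun H => rgNT H (R + 1)) / (n : ℝ) ^ (-(1 / 2 : ℝ)) ≤ |C3| * (n : ℝ) ^ (-(1 / 2 : ℝ)) := by
    rw [div_le_iff₀ hs]
    refine (hC3 n hn1).trans ?_
    have e1 : (n : ℝ) ^ (-(1 / 2 : ℝ)) * (n : ℝ) ^ (-(1 / 2 : ℝ)) = 1 / n := by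
      rw [← Real.rpow_add hn0, show (-(1 / 2 : ℝ) + -(1 / 2 : ℝ)) = -1 by norm_num, Real.rpow_neg_one, one_div]
    rw [mul_assoc, e1, mul_one_div]
    exact div_le_div_of_nonneg_right (le_abs_self _) hn0.le
  have hdiv : ∀ c : ℝ, c / (n : ℝ) ≤ |c| * (n : ℝ) ^ (-(1 / 2 : ℝ)) := fun c => by
    rw [div_eq_mul_one_div]
    exact mul_le_mul (le_abs_self _) hinv (by positivity) (abs_nonneg _)
  have h1 := (hC1 n hn1).trans (hdiv C1)
  have h2 := (hC2 n hn1).trans (hdiv C2)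
  refine hincl.trans ((rg_P_or _ _).trans ?_)
  have := rg_P_or (n := n) (d := d) (fun H => ¬ RgSparse H ((d + 1) ^ (4 * R))) (fun H => (n : ℝ) ^ (-(1 / 2 : ℝ)) ≤ rgNT H (R + 1))
  nlinarith

/-- **the descent**: induction on `k` over all heights in `[r0^k h, h)`.
Plan: `k = 0` is void.  `k+1`: `η₁ = min h (η/r0)`; if `η₁ = h` use `b1_init` + `b1_step`; else `η₁ ∈ [r0^k h, h)`, induction hypothesis at `η₁` (same `ym`), `rg_P_mono` (drop the star part), `b1_step`, `(nη)^(-1/4) ≤ ym^(-1/4)`. -/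
theorem b1_desc {d : ℕ} (hd : 3 ≤ d) {κb ε M κ0 κ1 : ℝ} {R : ℕ} {C r0 K : ℝ} {N : ℕ} (hκ : 0 < κb) (hε : 0 < ε) (hc : B1Con d κb ε M κ0 κ1 R C r0 K N) :
    ∃ (C' : ℝ) (N' : ℕ), ∀ n : ℕ, N' ≤ n → ∀ e : ℝ, RgBulk d κb e → ∀ (k : ℕ) (η ym : ℝ), (n : ℝ) ^ ε ≤ ym → ym ≤ n * η → r0 ^ k * b1h κb ≤ η → η < b1h κb →
      rgP n d (fun H => ¬ (B1Good d R κ0 κ1 M e η H ∧ rgStarF d H (rgz e η) ≤ (n * η) ^ (-(1 / 2 : ℝ))))
        ≤ C' * (n : ℝ) ^ (-(1 / 2 : ℝ)) + k * (1 / (n : ℝ) ^ 2 + C * (ym ^ (-(1 / 4 : ℝ)) + 1 / n)) := by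
  obtain ⟨C', N1, hinit⟩ := b1_init hd hκ hc
  obtain ⟨N2, hstep⟩ := b1_step hd hκ hε hc
  refine ⟨C', max 1 (max N1 N2), fun n hn e he k => ?_⟩
  have hn1 : 1 ≤ n := (le_max_left _ _).trans hn
  have hnN1 : N1 ≤ n := ((le_max_left _ _).trans (le_max_right _ _)).trans hn
  have hnN2 : N2 ≤ n := ((le_max_right _ _).trans (le_max_right _ _)).trans hn
  have hn0 : (0 : ℝ) < n := by exact_mod_cast hn1
  have hpow : 0 < (n : ℝ) ^ ε := Real.rpow_pos_of_pos hn0 _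
  induction k with
  | zero =>
    intro η ym _ _ h3 h4
    simp only [pow_zero, one_mul] at h3
    exact absurd h4 (not_lt.2 h3)
  | succ k ih =>
    intro η ym h1 h2 h3 h4
    have hym : 0 < ym := lt_of_lt_of_le hpow h1
    have hη : 0 < η := by
      by_contra hcon
      push Not at hcon
      nlinarith
    have hr0 := hc.hr0
    have hr1 := hc.hr1
    have hdivge : η ≤ η / r0 := by
      rw [le_div_iff₀ hr0]; nlinarith
    set T : ℝ := 1 / (n : ℝ) ^ 2 + C * (ym ^ (-(1 / 4 : ℝ)) + 1 / n) with hT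
    have hT0 : 0 ≤ T := by
      have := Real.rpow_nonneg hym.le (-(1 / 4 : ℝ))
      have := hc.hC
      positivity
    have hle : 1 / (n : ℝ) ^ 2 + C * (((n : ℝ) * η) ^ (-(1 / 4 : ℝ)) + 1 / n) ≤ T := by
      have : ((n : ℝ) * η) ^ (-(1 / 4 : ℝ)) ≤ ym ^ (-(1 / 4 : ℝ)) := Real.rpow_le_rpow_of_nonpos hym h2 (by norm_num)
      have := mul_le_mul_of_nonneg_left this hc.hC
      rw [hT]; nlinarith
    push_cast
    rcases le_or_gt (b1h κb) (η / r0) with hcase | hcase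
    · have hs := hstep n hnN2 e (b1h κb) η he (h1.trans h2) (by rwa [le_div_iff₀ hr0, mul_comm] at hcase) h4.le le_rfl
      have hi := hinit n hnN1 e he
      have : 0 ≤ (k : ℝ) * T := by positivity
      nlinarith
    · have hs := hstep n hnN2 e (η / r0) η he (h1.trans h2) (by rw [mul_div_cancel₀ _ hr0.ne']) hdivge hcase.le
      have h3' : r0 ^ k * b1h κb ≤ η / r0 := by
        rw [le_div_iff₀ hr0]
        calc r0 ^ k * b1h κb * r0 = r0 ^ (k + 1) * b1h κb := by ring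
          _ ≤ η := h3
      have hi := ih (η / r0) ym h1 (h2.trans (mul_le_mul_of_nonneg_left hdivge hn0.le)) h3' hcase
      have hm : rgP n d (fun H => ¬ B1Good d R κ0 κ1 M e (η / r0) H)
          ≤ rgP n d (fun H => ¬ (B1Good d R κ0 κ1 M e (η / r0) H ∧ rgStarF d H (rgz e (η / r0)) ≤ (n * (η / r0)) ^ (-(1 / 2 : ℝ)))) :=
        rg_P_mono fun H _ h hh => h hh.1
      nlinarith

/-! ## 7. The exports -/

/-- number of steps of the grid -/
theorem b1_steps {r0 ε : ℝ} (hr0 : 0 < r0) (hr1 : r0 < 1) (hε : 0 < ε) :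
    ∃ Ck : ℝ, 0 ≤ Ck ∧ ∀ (nn h η : ℝ), 1 ≤ nn → 0 < h → h ≤ 1 → 0 < η → 1 ≤ nn * η →
      ∃ k : ℕ, r0 ^ k * h ≤ η ∧ (k : ℝ) ≤ Ck * nn ^ (ε / 8) := by
  set L : ℝ := Real.log (1 / r0) with hL
  have hL0 : 0 < L := Real.log_pos (by rw [lt_div_iff₀ hr0]; linarith)
  refine ⟨1 + 8 / (ε * L), by positivity, fun nn h η hnn hh hh1 hη hy => ?_⟩
  have hnn0 : 0 < nn := by linarith
  refine ⟨⌈Real.log nn / L⌉₊, ?_, ?_⟩
  · have h1 : Real.log nn / L ≤ (⌈Real.log nn / L⌉₊ : ℝ) := Nat.le_ceil _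
    have h2 : Real.log nn ≤ (⌈Real.log nn / L⌉₊ : ℝ) * L := by rwa [div_le_iff₀ hL0] at h1
    have h3 : r0 ^ ⌈Real.log nn / L⌉₊ ≤ 1 / nn := by
      have e1 : r0 ^ ⌈Real.log nn / L⌉₊ = Real.exp (-((⌈Real.log nn / L⌉₊ : ℝ) * L)) := by
        rw [hL, Real.log_div one_ne_zero hr0.ne', Real.log_one, zero_sub, mul_neg, neg_neg, mul_comm, Real.exp_mul, Real.exp_log hr0,
          Real.rpow_natCast]
      have e2 : 1 / nn = Real.exp (-Real.log nn) := by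
        rw [Real.exp_neg, Real.exp_log hnn0, one_div]
      rw [e1, e2]
      exact Real.exp_le_exp.2 (by linarith)
    have h4 : 1 / nn ≤ η := by rw [div_le_iff₀ hnn0]; linarith
    have h5 : 0 ≤ r0 ^ ⌈Real.log nn / L⌉₊ := by positivity
    calc r0 ^ ⌈Real.log nn / L⌉₊ * h ≤ r0 ^ ⌈Real.log nn / L⌉₊ * 1 := mul_le_mul_of_nonneg_left hh1 h5
      _ ≤ η := by linarith
  · have h0 : 0 ≤ Real.log nn / L := div_nonneg (Real.log_nonneg hnn) hL0.le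
    have h1 : (⌈Real.log nn / L⌉₊ : ℝ) < Real.log nn / L + 1 := Nat.ceil_lt_add_one h0
    have h2 : Real.log nn ≤ nn ^ (ε / 8) / (ε / 8) := Real.log_le_rpow_div hnn0.le (by positivity)
    have h3 : 1 ≤ nn ^ (ε / 8) := Real.one_le_rpow hnn (by positivity)
    have h4 : Real.log nn / L ≤ 8 / (ε * L) * nn ^ (ε / 8) := by
      rw [div_le_iff₀ hL0]
      calc Real.log nn ≤ nn ^ (ε / 8) / (ε / 8) := h2
        _ = 8 / (ε * L) * nn ^ (ε / 8) * L := by field_simp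
    nlinarith

/-- **STATE at one height and one energy**, quantitative.
Plan: `b1_con`, `b1_desc` with `ym = nη`, `k = ⌈log(h/η)/log(1/r0)⌉₊ ≤ 1 + log n/log(1/r0) ≤ C_ε n^(ε/8) ≤ C_ε y^(1/8)` (`Real.log_le_rpow_div`), `y ≤ n`; entries bounded by `hc.bd`. -/
theorem b1_state (d : ℕ) (hd : 3 ≤ d) (κb : ℝ) (hκ : 0 < κb) (ε : ℝ) (hε : 0 < ε) :
    ∃ (C : ℝ) (N : ℕ), ∀ n : ℕ, N ≤ n → ∀ e η : ℝ, RgBulk d κb e → (n : ℝ) ^ ε ≤ n * η → η < b1h κb →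
      rgP n d (fun H => ¬ ((∀ x y, ‖rgG H (rgz e η) x y‖ ≤ C) ∧ rgStarF d H (rgz e η) ≤ (n * η) ^ (-(1 / 2 : ℝ)))) ≤ C * (n * η) ^ (-(1 / 8 : ℝ)) := by
  obtain ⟨M, κ0, κ1, R, Cc, r0, K, N0, hc⟩ := b1_con d hd κb hκ ε hε
  obtain ⟨C', N1, hdesc⟩ := b1_desc hd hκ hε hc
  obtain ⟨Ck, hCk0, hsteps⟩ := b1_steps hc.hr0 hc.hr1 hε
  set C2 : ℝ := |C'| + Ck * (1 + 2 * Cc) with hC2
  refine ⟨max K C2, max 1 N1, fun n hn e η he hy hηh => ?_⟩
  have hn1 : 1 ≤ n := (le_max_left _ _).trans hn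
  have hnN1 : N1 ≤ n := (le_max_right _ _).trans hn
  have hn0 : (0 : ℝ) < n := by exact_mod_cast hn1
  have hn1' : (1 : ℝ) ≤ n := by exact_mod_cast hn1
  have hpow1 : (1 : ℝ) ≤ (n : ℝ) ^ ε := Real.one_le_rpow hn1' hε.le
  have hy1 : 1 ≤ (n : ℝ) * η := hpow1.trans hy
  have hy0 : 0 < (n : ℝ) * η := by linarith
  have hη : 0 < η := by
    by_contra hcon
    push Not at hcon
    nlinarith
  have hh1 := b1_h_le_one κb
  have hyn : (n : ℝ) * η ≤ n := by nlinarith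
  obtain ⟨k, hk1, hk2⟩ := hsteps n (b1h κb) η hn1' (b1_h_pos hκ) hh1 hη hy1
  have hd1 := hdesc n hnN1 e he k η (n * η) hy le_rfl hk1 hηh
  set y : ℝ := (n : ℝ) * η with hydef
  have hCc := hc.hC
  -- the event
  have hincl : rgP n d (fun H => ¬ ((∀ x y, ‖rgG H (rgz e η) x y‖ ≤ max K C2) ∧ rgStarF d H (rgz e η) ≤ y ^ (-(1 / 2 : ℝ))))
      ≤ rgP n d (fun H => ¬ (B1Good d R κ0 κ1 M e η H ∧ rgStarF d H (rgz e η) ≤ y ^ (-(1 / 2 : ℝ)))) := by
    refine rg_P_mono fun H hH hbad hgood => hbad ⟨fun x y' => ?_, hgood.2⟩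
    obtain ⟨_, hstr, hdev, _⟩ := hgood.1
    have hdev0 : RgDev d R H (rgz e η) κ0 := b1_dev_mono (div_le_self hc.hκ0.le (by linarith [hc.hM])) hdev
    exact (hc.bd n H hH hstr.1 e η he hη hηh.le hdev0 x y').trans (le_max_left _ _)
  refine hincl.trans (hd1.trans ?_)
  -- the arithmetic
  have y8 : 0 < y ^ (-(1 / 8 : ℝ)) := Real.rpow_pos_of_pos hy0 _
  have a1 : (n : ℝ) ^ (-(1 / 2 : ℝ)) ≤ y ^ (-(1 / 8 : ℝ)) :=
    (Real.rpow_le_rpow_of_nonpos hy0 hyn (by norm_num)).trans (Real.rpow_le_rpow_of_exponent_le hy1 (by norm_num))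
  have a2 : 1 / (n : ℝ) ≤ y ^ (-(1 / 4 : ℝ)) := by
    rw [one_div, ← Real.rpow_neg_one]
    exact (Real.rpow_le_rpow_of_nonpos hy0 hyn (by norm_num)).trans (Real.rpow_le_rpow_of_exponent_le hy1 (by norm_num))
  have a3 : 1 / (n : ℝ) ^ 2 ≤ 1 / (n : ℝ) := by
    rw [div_le_div_iff₀ (by positivity) hn0]; nlinarith
  have a4 : (k : ℝ) ≤ Ck * y ^ (1 / 8 : ℝ) := by
    refine hk2.trans (mul_le_mul_of_nonneg_left ?_ hCk0)
    rw [show ε / 8 = ε * (1 / 8) by ring, Real.rpow_mul hn0.le]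
    exact Real.rpow_le_rpow (by positivity) hy (by norm_num)
  have y4 : 0 < y ^ (-(1 / 4 : ℝ)) := Real.rpow_pos_of_pos hy0 _
  have a5 : y ^ (1 / 8 : ℝ) * y ^ (-(1 / 4 : ℝ)) = y ^ (-(1 / 8 : ℝ)) := by
    rw [← Real.rpow_add hy0]; norm_num
  have a6 : 1 / (n : ℝ) ^ 2 + Cc * (y ^ (-(1 / 4 : ℝ)) + 1 / n) ≤ (1 + 2 * Cc) * y ^ (-(1 / 4 : ℝ)) := by nlinarith
  have a7 : 0 ≤ 1 / (n : ℝ) ^ 2 + Cc * (y ^ (-(1 / 4 : ℝ)) + 1 / n) := by positivity
  have a8 : (k : ℝ) * (1 / (n : ℝ) ^ 2 + Cc * (y ^ (-(1 / 4 : ℝ)) + 1 / n)) ≤ Ck * (1 + 2 * Cc) * y ^ (-(1 / 8 : ℝ)) := by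
    calc (k : ℝ) * (1 / (n : ℝ) ^ 2 + Cc * (y ^ (-(1 / 4 : ℝ)) + 1 / n))
        ≤ (Ck * y ^ (1 / 8 : ℝ)) * ((1 + 2 * Cc) * y ^ (-(1 / 4 : ℝ))) :=
          mul_le_mul a4 a6 a7 (by positivity)
      _ = Ck * (1 + 2 * Cc) * (y ^ (1 / 8 : ℝ) * y ^ (-(1 / 4 : ℝ))) := by ring
      _ = _ := by rw [a5]
  have a9 : C' * (n : ℝ) ^ (-(1 / 2 : ℝ)) ≤ |C'| * y ^ (-(1 / 8 : ℝ)) :=
    mul_le_mul (le_abs_self _) a1 (Real.rpow_nonneg hn0.le _) (abs_nonneg _)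
  have a10 : C2 * y ^ (-(1 / 8 : ℝ)) ≤ max K C2 * y ^ (-(1 / 8 : ℝ)) := mul_le_mul_of_nonneg_right (le_max_right _ _) y8.le
  rw [hC2] at a10
  nlinarith

/-- `C y^(-1/8) ≤ δ` as soon as `n^ε ≤ y`, `n` large -/
theorem b1_small (C ε δ : ℝ) (hε : 0 < ε) (hδ : 0 < δ) : ∃ N : ℕ, 1 ≤ N ∧ ∀ n : ℕ, N ≤ n → ∀ y : ℝ, (n : ℝ) ^ ε ≤ y → C * y ^ (-(1 / 8 : ℝ)) ≤ δ := by
  obtain ⟨N, hN1, hN⟩ := b1_large (ε * (1 / 8)) (by positivity) (|C| / δ)
  refine ⟨N, hN1, fun n hn y hy => ?_⟩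
  have hn0 : (0 : ℝ) < n := by exact_mod_cast hN1.trans hn
  have hp : 0 < (n : ℝ) ^ ε := Real.rpow_pos_of_pos hn0 _
  have hy0 : 0 < y := lt_of_lt_of_le hp hy
  have h1 : |C| / δ ≤ y ^ (1 / 8 : ℝ) := by
    refine (hN n hn).trans ?_
    rw [Real.rpow_mul hn0.le]
    exact Real.rpow_le_rpow hp.le hy (by norm_num)
  have h2 : 0 < y ^ (1 / 8 : ℝ) := Real.rpow_pos_of_pos hy0 _
  rw [Real.rpow_neg hy0.le, ← div_eq_mul_inv, div_le_iff₀ h2]
  rw [div_le_iff₀ hδ] at h1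
  have := le_abs_self C
  linarith

theorem b1_bulk_of {d : ℕ} {E : ℝ} (hd : 3 ≤ d) (hE : |E| < 2 * Real.sqrt ((d : ℝ) - 1)) : E ^ 2 < 4 * ((d : ℝ) - 1) := by
  have hd1 : (0 : ℝ) ≤ (d : ℝ) - 1 := by
    have : (3 : ℝ) ≤ d := by exact_mod_cast hd
    linarith
  have h1 : |E| ^ 2 < (2 * Real.sqrt ((d : ℝ) - 1)) ^ 2 := pow_lt_pow_left₀ hE (abs_nonneg _) (by norm_num)
  rw [sq_abs, mul_pow, Real.sq_sqrt hd1] at h1
  linarith

/-- **X1** delocalisation: `Im G_vv(E + i n^(-1+ε)) ≤ C` for ALL vertices.   Plan: `b1_state` with `κb = 4(d-1) - E²`, `n · n^(-1+ε) = n^ε`, `rg_P_not`, `Complex.abs_im_le_norm`. -/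
theorem b1_X1 (d : ℕ) (hd : 3 ≤ d) (E : ℝ) (hE : |E| < 2 * Real.sqrt ((d : ℝ) - 1)) (ε : ℝ) (hε : 0 < ε) (hε1 : ε < 1) :
    ∃ C : ℝ, RgWhp d fun n H => ∀ v, (rgG H (rgz E ((n : ℝ) ^ (-1 + ε))) v v).im ≤ C := by
  have hb := b1_bulk_of hd hE
  set κb : ℝ := 4 * ((d : ℝ) - 1) - E ^ 2 with hκb
  have hκ : 0 < κb := by linarith
  have hbulk : RgBulk d κb E := by unfold RgBulk; linarith
  obtain ⟨C, N, hst⟩ := b1_state d hd κb hκ ε hε
  refine ⟨C, fun δ hδ => ?_⟩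
  obtain ⟨N1, hN11, hN1⟩ := b1_small C ε δ hε hδ
  obtain ⟨N2, hN21, hN2⟩ := b1_large (1 - ε) (by linarith) (1 / b1h κb + 1)
  refine ⟨max N (max N1 N2), fun n hn hne => ?_⟩
  have hnN : N ≤ n := (le_max_left _ _).trans hn
  have hnN1 : N1 ≤ n := ((le_max_left _ _).trans (le_max_right _ _)).trans hn
  have hnN2 : N2 ≤ n := ((le_max_right _ _).trans (le_max_right _ _)).trans hn
  have hn0 : (0 : ℝ) < n := by exact_mod_cast hN11.trans hnN1
  have hy : (n : ℝ) * (n : ℝ) ^ (-1 + ε) = (n : ℝ) ^ ε := by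
    nth_rewrite 1 [← Real.rpow_one (n : ℝ)]
    rw [← Real.rpow_add hn0]; norm_num
  have hh := b1_h_pos hκ
  have hηh : (n : ℝ) ^ (-1 + ε) < b1h κb := by
    have h1 := hN2 n hnN2
    have h2 : 0 < (n : ℝ) ^ (1 - ε) := Real.rpow_pos_of_pos hn0 _
    rw [show -1 + ε = -(1 - ε) by ring, Real.rpow_neg hn0.le, inv_lt_comm₀ h2 hh, ← one_div]
    linarith
  have h1 := hst n hnN E _ hbulk hy.ge hηh
  have h2 := hN1 n hnN1 _ hy.ge
  have h3 : rgP n d (fun H => ¬ ∀ v, (rgG H (rgz E ((n : ℝ) ^ (-1 + ε))) v v).im ≤ C) ≤ δ := by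
    refine le_trans ?_ (h1.trans h2)
    refine rg_P_mono fun H _ hbad hgood => hbad fun v => ?_
    exact ((le_abs_self _).trans (Complex.abs_im_le_norm _)).trans (hgood.1 v v)
  have h4 := rg_P_not hne (fun H => ∀ v, (rgG H (rgz E ((n : ℝ) ^ (-1 + ε))) v v).im ≤ C)
  linarith

theorem b1_StD_diag {n : ℕ} (d : ℕ) (H : Gr n) (z : ℂ) (o : Fin n) : ‖rgG H z o o - rgm d z‖ ^ 2 ≤ rgStD d H z o := by
  classical
  have ho : o ∈ rgStar H o := by simp [rgStar]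
  have h0 : rgTv d z (rgSd o o o) = rgm d z := by simp [rgTv, rgSd]
  unfold rgStD
  calc ‖rgG H z o o - rgm d z‖ ^ 2 = ‖rgG H z o o - rgTv d z (rgSd o o o)‖ ^ 2 := by rw [h0]
    _ ≤ ∑ y ∈ rgStar H o, ‖rgG H z o y - rgTv d z (rgSd o o y)‖ ^ 2 :=
        Finset.single_le_sum (f := fun y => ‖rgG H z o y - rgTv d z (rgSd o o y)‖ ^ 2) (fun y _ => by positivity) ho
    _ ≤ _ := Finset.single_le_sum (f := fun x => ∑ y ∈ rgStar H o, ‖rgG H z x y - rgTv d z (rgSd o x y)‖ ^ 2)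
        (fun x _ => Finset.sum_nonneg fun y _ => by positivity) ho

/-- deterministic: trace from the stars.   Plan: `rgTr - m = n⁻¹ ∑ (G_oo - m)`, Cauchy-Schwarz (`inner_mul_le_norm_mul_norm` or `sq_sum_le_card_mul_sum_sq`), the term `x = y = o` of `rgStD` (`rgSd o o o = 0`, `rgTv d z 0 = rgm d z`). -/
theorem b1_tr_le {n : ℕ} (hn : 1 ≤ n) (d : ℕ) (H : Gr n) (z : ℂ) : ‖rgTr H z - rgm d z‖ ^ 2 ≤ rgStarF d H z := by
  have hn0 : (0 : ℝ) < n := by exact_mod_cast hn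
  have hnc : (n : ℂ) ≠ 0 := by exact_mod_cast (by omega : n ≠ 0)
  have e1 : rgTr H z - rgm d z = (∑ x, (rgG H z x x - rgm d z)) / n := by
    unfold rgTr
    rw [Finset.sum_sub_distrib]
    simp only [Finset.sum_const, Finset.card_univ, Fintype.card_fin, nsmul_eq_mul]
    field_simp
  have h1 : ‖∑ x, (rgG H z x x - rgm d z)‖ ≤ ∑ x, ‖rgG H z x x - rgm d z‖ := norm_sum_le _ _
  have h2 : (∑ x : Fin n, ‖rgG H z x x - rgm d z‖) ^ 2 ≤ n * ∑ x, ‖rgG H z x x - rgm d z‖ ^ 2 := by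
    have := sq_sum_le_card_mul_sum_sq (s := (Finset.univ : Finset (Fin n))) (f := fun x => ‖rgG H z x x - rgm d z‖)
    simpa using this
  have h3 : ∑ x, ‖rgG H z x x - rgm d z‖ ^ 2 ≤ ∑ o, rgStD d H z o := Finset.sum_le_sum fun o _ => b1_StD_diag d H z o
  rw [e1, norm_div, div_pow]
  unfold rgStarF
  have hnn : ‖(n : ℂ)‖ = n := by simp
  rw [hnn, div_le_div_iff₀ (by positivity) hn0]
  have h4 : ‖∑ x, (rgG H z x x - rgm d z)‖ ^ 2 ≤ (∑ x : Fin n, ‖rgG H z x x - rgm d z‖) ^ 2 :=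
    pow_le_pow_left₀ (norm_nonneg _) h1 2
  nlinarith

open Classical in
/-- deterministic: number of bad stars.   Plan: Markov on the finite sum. -/
theorem b1_star_count {n : ℕ} (d : ℕ) (H : Gr n) (z : ℂ) {t : ℝ} (ht : 0 < t) :
    ((Finset.univ.filter fun o => t < rgStD d H z o).card : ℝ) ≤ n * rgStarF d H z / t := by
  rcases Nat.eq_zero_or_pos n with rfl | hn
  · simp
  have hn0 : (0 : ℝ) < n := by exact_mod_cast hn
  have e1 : (n : ℝ) * rgStarF d H z = ∑ o, rgStD d H z o := by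
    unfold rgStarF
    field_simp
  rw [e1, le_div_iff₀ ht]
  calc ((Finset.univ.filter fun o => t < rgStD d H z o).card : ℝ) * t = ∑ o ∈ Finset.univ.filter (fun o => t < rgStD d H z o), t := by
        rw [Finset.sum_const, nsmul_eq_mul]
    _ ≤ ∑ o ∈ Finset.univ.filter (fun o => t < rgStD d H z o), rgStD d H z o :=
        Finset.sum_le_sum fun o ho => (Finset.mem_filter.1 ho).2.le
    _ ≤ ∑ o, rgStD d H z o := Finset.sum_le_sum_of_subset_of_nonneg (Finset.filter_subset _ _) fun o _ _ => b1_StD_nonneg d H z o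

open Classical in
/-- **X2** trace and typical stars; exponents universal; energies `E + s_n/n`, heights `n^(-1+ε) ≤ η_n → 0`. -/
theorem b1_X2 (d : ℕ) (hd : 3 ≤ d) (E : ℝ) (hE : |E| < 2 * Real.sqrt ((d : ℝ) - 1)) (ε : ℝ) (hε : 0 < ε) (s0 : ℝ)
    (s η : ℕ → ℝ) (hs : ∀ n : ℕ, |s n| ≤ s0) (hη : ∀ n : ℕ, (n : ℝ) ^ ε ≤ n * η n) (hη0 : Filter.Tendsto η Filter.atTop (nhds 0)) :
    RgWhp d fun n H =>
      ‖rgTr H (rgz (E + s n / n) (η n)) - rgm d (rgz (E + s n / n) (η n))‖ ≤ (n * η n) ^ (-(1 / 4 : ℝ)) ∧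
      ((Finset.univ.filter fun o => (n * η n) ^ (-(1 / 4 : ℝ)) < rgStD d H (rgz (E + s n / n) (η n)) o).card : ℝ) ≤ n * (n * η n) ^ (-(1 / 4 : ℝ)) := by
  have hb := b1_bulk_of hd hE
  set κb : ℝ := (4 * ((d : ℝ) - 1) - E ^ 2) / 2 with hκb
  have hκ : 0 < κb := by rw [hκb]; linarith
  obtain ⟨C, N, hst⟩ := b1_state d hd κb hκ ε hε
  intro δ hδ
  obtain ⟨N1, hN11, hN1⟩ := b1_small C ε δ hε hδ
  have hh := b1_h_pos hκ
  obtain ⟨N2, hN2⟩ := Filter.eventually_atTop.1 (hη0.eventually (gt_mem_nhds hh))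
  -- energies stay in the bulk
  have hs0 : 0 ≤ s0 := (abs_nonneg _).trans (hs 0)
  obtain ⟨N3, hN3⟩ := exists_nat_ge ((2 * |E| * s0 + s0 ^ 2) / κb + 1)
  refine ⟨max (max N N1) (max N2 N3), fun n hn hne => ?_⟩
  have hnN : N ≤ n := ((le_max_left _ _).trans (le_max_left _ _)).trans hn
  have hnN1 : N1 ≤ n := ((le_max_right _ _).trans (le_max_left _ _)).trans hn
  have hnN2 : N2 ≤ n := ((le_max_left _ _).trans (le_max_right _ _)).trans hn
  have hnN3 : N3 ≤ n := ((le_max_right _ _).trans (le_max_right _ _)).trans hn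
  have hn1 : 1 ≤ n := hN11.trans hnN1
  have hn0 : (0 : ℝ) < n := by exact_mod_cast hn1
  have hn1' : (1 : ℝ) ≤ n := by exact_mod_cast hn1
  have hbulk : RgBulk d κb (E + s n / n) := by
    unfold RgBulk
    have h1 : (2 * |E| * s0 + s0 ^ 2) / κb ≤ n := by
      have : (N3 : ℝ) ≤ n := by exact_mod_cast hnN3
      linarith
    rw [div_le_iff₀ hκ] at h1
    have h2 : |s n / n| ≤ s0 / n := by
      rw [abs_div, abs_of_pos hn0]
      exact div_le_div_of_nonneg_right (hs n) hn0.le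
    have h3 : s0 / n ≤ s0 := div_le_self hs0 hn1'
    have h4 : (E + s n / n) ^ 2 ≤ E ^ 2 + (2 * |E| * s0 + s0 ^ 2) / n := by
      have e1 : (E + s n / n) ^ 2 = E ^ 2 + 2 * E * (s n / n) + (s n / n) ^ 2 := by ring
      have e2 : 2 * E * (s n / n) ≤ 2 * |E| * (s0 / n) := by
        have : E * (s n / n) ≤ |E| * |s n / n| := by rw [← abs_mul]; exact le_abs_self _
        have : |E| * |s n / n| ≤ |E| * (s0 / n) := mul_le_mul_of_nonneg_left h2 (abs_nonneg _)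
        linarith
      have e3 : (s n / n) ^ 2 ≤ s0 * (s0 / n) := by
        rw [← sq_abs, sq]
        exact mul_le_mul (h2.trans h3) h2 (abs_nonneg _) hs0
      have e4 : (2 * |E| * s0 + s0 ^ 2) / n = 2 * |E| * (s0 / n) + s0 * (s0 / n) := by ring
      rw [e1, e4]; linarith
    have h5 : (2 * |E| * s0 + s0 ^ 2) / n ≤ κb := by
      rw [div_le_iff₀ hn0]; linarith
    have h6 : 4 * ((d : ℝ) - 1) - κb = E ^ 2 + κb := by rw [hκb]; ring
    linarith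
  have hy := hη n
  have hpow : 0 < (n : ℝ) ^ ε := Real.rpow_pos_of_pos hn0 _
  have hy0 : 0 < (n : ℝ) * η n := lt_of_lt_of_le hpow hy
  have h1 := hst n hnN _ _ hbulk hy (hN2 n hnN2)
  have h2 := hN1 n hnN1 _ hy
  set z : ℂ := rgz (E + s n / n) (η n) with hz
  set y : ℝ := (n : ℝ) * η n with hydef
  have y4 : 0 < y ^ (-(1 / 4 : ℝ)) := Real.rpow_pos_of_pos hy0 _
  have e5 : y ^ (-(1 / 4 : ℝ)) * y ^ (-(1 / 4 : ℝ)) = y ^ (-(1 / 2 : ℝ)) := by
    rw [← Real.rpow_add hy0]; norm_num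
  have h3 : rgP n d (fun H => ¬ (‖rgTr H z - rgm d z‖ ≤ y ^ (-(1 / 4 : ℝ)) ∧
      ((Finset.univ.filter fun o => y ^ (-(1 / 4 : ℝ)) < rgStD d H z o).card : ℝ) ≤ n * y ^ (-(1 / 4 : ℝ)))) ≤ δ := by
    refine le_trans ?_ (h1.trans h2)
    refine rg_P_mono fun H _ hbad hgood => hbad ⟨?_, ?_⟩
    · have := (b1_tr_le hn1 d H z).trans hgood.2
      rw [← e5, ← sq] at this
      exact (sq_le_sq₀ (norm_nonneg _) y4.le).1 this
    · refine (b1_star_count d H z y4).trans ?_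
      rw [div_le_iff₀ y4, mul_assoc, e5]
      exact mul_le_mul_of_nonneg_left hgood.2 hn0.le
  have h4 := rg_P_not hne (fun H => ‖rgTr H z - rgm d z‖ ≤ y ^ (-(1 / 4 : ℝ)) ∧
      ((Finset.univ.filter fun o => y ^ (-(1 / 4 : ℝ)) < rgStD d H z o).card : ℝ) ≤ n * y ^ (-(1 / 4 : ℝ)))
  linarith

end Claimed.Agent.R287
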