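-- KEEP
import Claimed.Prelude.Def_0462

/-!
# Row 287 (S0534), kit EIG + FRZ      owner helper251      prefixes `eig_`, `frz_`;  defs `eigCo eigCnt eigCntS eigD eigExt eigOv eigHS`      0 sorry

Real symmetric matrices `A : Matrix ι ι ℝ` (`ι : Type`, any `Fintype`), hypothesis `A.IsHermitian`.
* `eigCnt A t`, `eigCntS A t` = number of eigenvalues `≥ t`, `> t` (roots of the characteristic polynomial);   `eigD A k` = the `k`-th LARGEST eigenvalue, `k : ℕ`, `k = 0` the largest (junk `0` for `k ≥ card ι`).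
* coordinates: `eigCo hA x`, `eig_norm`, `eig_quad` (`x·x = ∑ c²`, `x·Ax = ∑ λ c²`).
* MIN-MAX by dimension count: `eig_dim_le(S)`, `eig_dim_ex(S)`;   GENERAL COMPARISON `eig_cnt_cmp`, `eig_cntS_cmp` (subspace `W`, map `T` isometric on `W`, `A ≤ T^* B T + ε` on `W`).
* dictionary: `eig_D_ge_iff : t ≤ eigD A k ↔ k < eigCnt A t`, `eig_D_gt_iff`, `eig_D_anti`, `eig_D_sum : ∑ k < card, φ (eigD A k) = (roots.map φ).sum`, `eig_D_eq` (`= hA.eigenvalues₀`), `eig_sum_D`.
* WEYL: `eig_weyl_mono`, `eig_weyl_le`, `eig_weyl_pert`.      RANK: `eig_cnt_rank`, `eig_rank_interlace`.      CAUCHY (any principal submatrix `A.submatrix e e`, `e` injective): `eig_cnt_minor_le`, `eig_cnt_le_minor`, `eig_cauchy_le`, `eig_cauchy_ge`.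
* HOFFMAN-WIELANDT: `eig_hw : ∑ k, (eigD A k - eigD B k)² ≤ eigHS (A - B)` (`eigHS M = ∑ M i j ²`), `eig_hw'` (Mathlib's enumeration: the two are sorted by the same bijection, `eig_monovary`), `eig_trace_mul(_le)`, `eig_ds_le` (Birkhoff + rearrangement),
  `eig_D_lip`, `eig_stat_lip` (linear statistics of a Lipschitz function), `eig_quad_le_hs`.
* continuity: `eig_D_cont`, `eig_stat_cont`.
* FROZEN OBJECTS: `frz_sum_eq`, `frz_sum_D` (`spectralSum A φ = ∑ k < n, φ (eigD A k)`), `frz_adj_herm`, `frz_goe_herm`, `frz_goe_D_cont`, `frz_goe_sum_cont`, `frz_goe_intble`, `frz_goe_mem`, `frz_reg_mem` (both Laplace functionals lie in `[0,1]`).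
HELLMANN-FEYNMAN: `R287/EigHF.lean`.
-/

set_option autoImplicit false

namespace Claimed.Agent.R287

open Matrix Finset

section coords

variable {ι : Type} [Fintype ι] [DecidableEq ι]

/-- spectral coordinates of a vector -/
noncomputable def eigCo {A : Matrix ι ι ℝ} (hA : A.IsHermitian) (x : ι → ℝ) : ι → ℝ :=
  (hA.eigenvectorUnitary : Matrix ι ι ℝ)ᵀ *ᵥ x

theorem eig_U_mul {A : Matrix ι ι ℝ} (hA : A.IsHermitian) :
    (hA.eigenvectorUnitary : Matrix ι ι ℝ) * (hA.eigenvectorUnitary : Matrix ι ι ℝ)ᵀ = 1 := by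
  have := Unitary.coe_mul_star_self hA.eigenvectorUnitary
  simpa [Matrix.star_eq_conjTranspose] using this

theorem eig_Ut_mul {A : Matrix ι ι ℝ} (hA : A.IsHermitian) :
    (hA.eigenvectorUnitary : Matrix ι ι ℝ)ᵀ * (hA.eigenvectorUnitary : Matrix ι ι ℝ) = 1 := by
  have := Unitary.coe_star_mul_self hA.eigenvectorUnitary
  simpa [Matrix.star_eq_conjTranspose] using this

theorem eig_spec {A : Matrix ι ι ℝ} (hA : A.IsHermitian) :
    A = (hA.eigenvectorUnitary : Matrix ι ι ℝ) * diagonal hA.eigenvalues * (hA.eigenvectorUnitary : Matrix ι ι ℝ)ᵀ := by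
  have := hA.spectral_theorem
  rw [Unitary.conjStarAlgAut_apply] at this
  simpa [Matrix.star_eq_conjTranspose, Function.comp_def] using this

theorem eig_co_inv {A : Matrix ι ι ℝ} (hA : A.IsHermitian) (x : ι → ℝ) :
    (hA.eigenvectorUnitary : Matrix ι ι ℝ) *ᵥ eigCo hA x = x := by
  unfold eigCo
  rw [Matrix.mulVec_mulVec, eig_U_mul, Matrix.one_mulVec]

theorem eig_co_of {A : Matrix ι ι ℝ} (hA : A.IsHermitian) (c : ι → ℝ) :
    eigCo hA ((hA.eigenvectorUnitary : Matrix ι ι ℝ) *ᵥ c) = c := by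
  unfold eigCo
  rw [Matrix.mulVec_mulVec, eig_Ut_mul, Matrix.one_mulVec]

theorem eig_norm {A : Matrix ι ι ℝ} (hA : A.IsHermitian) (x : ι → ℝ) :
    x ⬝ᵥ x = ∑ i, eigCo hA x i ^ 2 := by
  have h : eigCo hA x ⬝ᵥ eigCo hA x = x ⬝ᵥ x := by
    have := eig_co_inv hA x
    unfold eigCo at this ⊢
    rw [Matrix.dotProduct_mulVec, Matrix.vecMul_transpose, this]
  rw [← h]
  simp [dotProduct, pow_two]

theorem eig_quad {A : Matrix ι ι ℝ} (hA : A.IsHermitian) (x : ι → ℝ) :
    x ⬝ᵥ A *ᵥ x = ∑ i, hA.eigenvalues i * eigCo hA x i ^ 2 := by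
  conv_lhs => rw [eig_spec hA, ← Matrix.mulVec_mulVec, ← Matrix.mulVec_mulVec, Matrix.dotProduct_mulVec,
    ← Matrix.mulVec_transpose]
  change eigCo hA x ⬝ᵥ diagonal hA.eigenvalues *ᵥ eigCo hA x = _
  simp only [dotProduct, Matrix.mulVec_diagonal]
  exact Finset.sum_congr rfl fun i _ => by ring

theorem eig_co_add {A : Matrix ι ι ℝ} (hA : A.IsHermitian) (x y : ι → ℝ) : eigCo hA (x + y) = eigCo hA x + eigCo hA y :=
  Matrix.mulVec_add _ _ _

theorem eig_co_smul {A : Matrix ι ι ℝ} (hA : A.IsHermitian) (c : ℝ) (x : ι → ℝ) : eigCo hA (c • x) = c • eigCo hA x :=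
  Matrix.mulVec_smul _ _ _

theorem eig_co_eq_zero {A : Matrix ι ι ℝ} (hA : A.IsHermitian) {x : ι → ℝ} (h : eigCo hA x = 0) : x = 0 := by
  rw [← eig_co_inv hA x, h, Matrix.mulVec_zero]

/-- number of eigenvalues `≥ t` -/
noncomputable def eigCnt (A : Matrix ι ι ℝ) (t : ℝ) : ℕ := (A.charpoly.roots.filter fun s => t ≤ s).card

/-- number of eigenvalues `> t` -/
noncomputable def eigCntS (A : Matrix ι ι ℝ) (t : ℝ) : ℕ := (A.charpoly.roots.filter fun s => t < s).card

theorem eig_cnt_eq {A : Matrix ι ι ℝ} (hA : A.IsHermitian) (t : ℝ) :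
    eigCnt A t = (univ.filter fun i => t ≤ hA.eigenvalues i).card := by
  unfold eigCnt
  rw [hA.roots_charpoly_eq_eigenvalues, Multiset.filter_map, Multiset.card_map]
  rfl

theorem eig_cntS_eq {A : Matrix ι ι ℝ} (hA : A.IsHermitian) (t : ℝ) :
    eigCntS A t = (univ.filter fun i => t < hA.eigenvalues i).card := by
  unfold eigCntS
  rw [hA.roots_charpoly_eq_eigenvalues, Multiset.filter_map, Multiset.card_map]
  rfl

/-- a subspace which meets `{x : the coordinates of S vanish}` only at `0` has dimension `≤ #S` -/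
theorem eig_dim_le_card {A : Matrix ι ι ℝ} (hA : A.IsHermitian) (S : Finset ι) (V : Submodule ℝ (ι → ℝ))
    (hV : ∀ x ∈ V, (∀ i ∈ S, eigCo hA x i = 0) → x = 0) : Module.finrank ℝ V ≤ S.card := by
  classical
  let f : V →ₗ[ℝ] (S → ℝ) :=
    { toFun := fun x i => eigCo hA x.1 i.1
      map_add' := fun x y => by funext i; simp [eig_co_add]
      map_smul' := fun c x => by funext i; simp [eig_co_smul] }
  have hinj : Function.Injective f := by
    rw [← LinearMap.ker_eq_bot, LinearMap.ker_eq_bot']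
    intro x hx
    exact Subtype.ext (hV x.1 x.2 fun i hi => congrFun hx ⟨i, hi⟩)
  have := LinearMap.finrank_le_finrank_of_injective hinj
  simpa using this

/-- the span of the eigenvectors of the indices of `S` -/
theorem eig_span {A : Matrix ι ι ℝ} (hA : A.IsHermitian) (S : Finset ι) :
    ∃ V : Submodule ℝ (ι → ℝ), Module.finrank ℝ V = S.card ∧ ∀ x ∈ V, ∀ i, i ∉ S → eigCo hA x i = 0 := by
  classical
  let e : (S → ℝ) →ₗ[ℝ] (ι → ℝ) :=
    { toFun := fun c i => if h : i ∈ S then c ⟨i, h⟩ else 0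
      map_add' := fun x y => by funext i; by_cases h : i ∈ S <;> simp [h]
      map_smul' := fun c x => by funext i; by_cases h : i ∈ S <;> simp [h] }
  let g : (S → ℝ) →ₗ[ℝ] (ι → ℝ) := (Matrix.mulVecLin (hA.eigenvectorUnitary : Matrix ι ι ℝ)).comp e
  have hg : ∀ c, eigCo hA (g c) = e c := fun c => eig_co_of hA (e c)
  have hinj : Function.Injective g := by
    intro c c' h
    have h1 : e c = e c' := by rw [← hg, ← hg, h]
    funext i
    have := congrFun h1 i.1
    simpa [e, i.2] using this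
  refine ⟨LinearMap.range g, ?_, ?_⟩
  · rw [LinearMap.finrank_range_of_inj hinj]
    simp
  · rintro x ⟨c, rfl⟩ i hi
    rw [hg]
    simp [e, hi]

/-- **MIN-MAX, upper bound of the dimension**: a subspace on which `A ≥ t` has dimension at most the number of eigenvalues `≥ t` -/
theorem eig_dim_le {A : Matrix ι ι ℝ} (hA : A.IsHermitian) (t : ℝ) (V : Submodule ℝ (ι → ℝ))
    (hV : ∀ x ∈ V, t * (x ⬝ᵥ x) ≤ x ⬝ᵥ A *ᵥ x) : Module.finrank ℝ V ≤ eigCnt A t := by
  classical
  rw [eig_cnt_eq hA]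
  refine eig_dim_le_card hA _ V fun x hx h0 => ?_
  have h0' : ∀ i, t ≤ hA.eigenvalues i → eigCo hA x i = 0 := fun i hi => h0 i (by simp [hi])
  have h1 := hV x hx
  rw [eig_norm hA, eig_quad hA, Finset.mul_sum, ← sub_nonneg, ← Finset.sum_sub_distrib] at h1
  have h2 : ∀ i, hA.eigenvalues i * eigCo hA x i ^ 2 - t * eigCo hA x i ^ 2 ≤ 0 := fun i => by
    by_cases hi : t ≤ hA.eigenvalues i
    · simp [h0' i hi]
    · have : hA.eigenvalues i - t < 0 := by linarith [not_le.1 hi]
      nlinarith [sq_nonneg (eigCo hA x i)]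
  have h3 : ∀ i ∈ univ, hA.eigenvalues i * eigCo hA x i ^ 2 - t * eigCo hA x i ^ 2 = 0 :=
    (Finset.sum_eq_zero_iff_of_nonpos fun i _ => h2 i).1 (le_antisymm (Finset.sum_nonpos fun i _ => h2 i) h1)
  refine eig_co_eq_zero hA ?_
  funext i
  by_cases hi : t ≤ hA.eigenvalues i
  · exact h0' i hi
  · have h5 := h3 i (mem_univ i)
    have : hA.eigenvalues i - t ≠ 0 := by linarith [not_le.1 hi] |> ne_of_lt
    have h6 : (hA.eigenvalues i - t) * eigCo hA x i ^ 2 = 0 := by linarith
    simpa [this] using h6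

/-- strict form -/
theorem eig_dim_leS {A : Matrix ι ι ℝ} (hA : A.IsHermitian) (t : ℝ) (V : Submodule ℝ (ι → ℝ))
    (hV : ∀ x ∈ V, x ≠ 0 → t * (x ⬝ᵥ x) < x ⬝ᵥ A *ᵥ x) : Module.finrank ℝ V ≤ eigCntS A t := by
  classical
  rw [eig_cntS_eq hA]
  refine eig_dim_le_card hA _ V fun x hx h0 => ?_
  by_contra hne
  have h1 := hV x hx hne
  rw [eig_norm hA, eig_quad hA, Finset.mul_sum] at h1
  refine absurd h1 (not_lt.2 (Finset.sum_le_sum fun i _ => ?_))
  by_cases hi : t < hA.eigenvalues i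
  · simp [h0 i (by simp [hi])]
  · exact mul_le_mul_of_nonneg_right (not_lt.1 hi) (sq_nonneg _)

/-- **MIN-MAX, existence** -/
theorem eig_dim_ex {A : Matrix ι ι ℝ} (hA : A.IsHermitian) (t : ℝ) :
    ∃ V : Submodule ℝ (ι → ℝ), Module.finrank ℝ V = eigCnt A t ∧ ∀ x ∈ V, t * (x ⬝ᵥ x) ≤ x ⬝ᵥ A *ᵥ x := by
  classical
  obtain ⟨V, h1, h2⟩ := eig_span hA (univ.filter fun i => t ≤ hA.eigenvalues i)
  refine ⟨V, by rw [h1, eig_cnt_eq hA], fun x hx => ?_⟩
  rw [eig_norm hA, eig_quad hA, Finset.mul_sum]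
  refine Finset.sum_le_sum fun i _ => ?_
  by_cases hi : t ≤ hA.eigenvalues i
  · exact mul_le_mul_of_nonneg_right hi (sq_nonneg _)
  · simp [h2 x hx i (by simp [hi])]

theorem eig_dim_exS {A : Matrix ι ι ℝ} (hA : A.IsHermitian) (t : ℝ) :
    ∃ V : Submodule ℝ (ι → ℝ), Module.finrank ℝ V = eigCntS A t ∧ ∀ x ∈ V, x ≠ 0 → t * (x ⬝ᵥ x) < x ⬝ᵥ A *ᵥ x := by
  classical
  obtain ⟨V, h1, h2⟩ := eig_span hA (univ.filter fun i => t < hA.eigenvalues i)
  refine ⟨V, by rw [h1, eig_cntS_eq hA], fun x hx hne => ?_⟩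
  rw [eig_norm hA, eig_quad hA, Finset.mul_sum]
  have hc : eigCo hA x ≠ 0 := fun h => hne (eig_co_eq_zero hA h)
  obtain ⟨j, hj⟩ := Function.ne_iff.1 hc
  have hle : ∀ i ∈ univ, t * eigCo hA x i ^ 2 ≤ hA.eigenvalues i * eigCo hA x i ^ 2 := fun i _ => by
    by_cases hi : t < hA.eigenvalues i
    · exact mul_le_mul_of_nonneg_right hi.le (sq_nonneg _)
    · simp [h2 x hx i (by simp [hi])]
  refine Finset.sum_lt_sum hle ⟨j, mem_univ j, ?_⟩
  have hjl : t < hA.eigenvalues j := by
    by_contra hi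
    exact hj (h2 x hx j (by simp [hi]))
  have hj' : eigCo hA x j ≠ 0 := hj
  exact mul_lt_mul_of_pos_right hjl (by positivity)

/-- **GENERAL COMPARISON of the counting functions**: `W` a subspace, `T` a linear map which is isometric on `W`, `A ≤ T^* B T + ε` on `W` -/
theorem eig_cnt_cmp {κ : Type} [Fintype κ] [DecidableEq κ] {A : Matrix ι ι ℝ} {B : Matrix κ κ ℝ} (hA : A.IsHermitian)
    (hB : B.IsHermitian) (W : Submodule ℝ (ι → ℝ)) (T : (ι → ℝ) →ₗ[ℝ] (κ → ℝ)) (ε : ℝ)
    (hT : ∀ x ∈ W, T x ⬝ᵥ T x = x ⬝ᵥ x) (hAB : ∀ x ∈ W, x ⬝ᵥ A *ᵥ x ≤ T x ⬝ᵥ B *ᵥ T x + ε * (x ⬝ᵥ x)) (t : ℝ) :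
    eigCnt A t + Module.finrank ℝ W ≤ eigCnt B (t - ε) + Fintype.card ι := by
  obtain ⟨V, hV1, hV2⟩ := eig_dim_ex hA t
  have h1 := Submodule.finrank_sup_add_finrank_inf_eq V W
  have h2 : Module.finrank ℝ (V ⊔ W : Submodule ℝ (ι → ℝ)) ≤ Fintype.card ι := by
    have := Submodule.finrank_le (V ⊔ W)
    simpa using this
  have hinj : Function.Injective (T.domRestrict (V ⊓ W)) := by
    rw [← LinearMap.ker_eq_bot, LinearMap.ker_eq_bot']
    intro x hx
    have h3 : T x.1 = 0 := hx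
    have h4 := hT x.1 x.2.2
    rw [h3, dotProduct_zero] at h4
    exact Subtype.ext (dotProduct_self_eq_zero.1 h4.symm)
  have h3 := LinearMap.finrank_range_of_inj hinj
  have h4 : Module.finrank ℝ (LinearMap.range (T.domRestrict (V ⊓ W))) ≤ eigCnt B (t - ε) := by
    refine eig_dim_le hB _ _ ?_
    rintro y ⟨x, rfl⟩
    have e : (T.domRestrict (V ⊓ W)) x = T x.1 := rfl
    rw [e, hT x.1 x.2.2]
    have := hV2 x.1 x.2.1
    have := hAB x.1 x.2.2
    linarith
  omega

/-- strict form -/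
theorem eig_cntS_cmp {κ : Type} [Fintype κ] [DecidableEq κ] {A : Matrix ι ι ℝ} {B : Matrix κ κ ℝ} (hA : A.IsHermitian)
    (hB : B.IsHermitian) (W : Submodule ℝ (ι → ℝ)) (T : (ι → ℝ) →ₗ[ℝ] (κ → ℝ)) (ε : ℝ)
    (hT : ∀ x ∈ W, T x ⬝ᵥ T x = x ⬝ᵥ x) (hAB : ∀ x ∈ W, x ⬝ᵥ A *ᵥ x ≤ T x ⬝ᵥ B *ᵥ T x + ε * (x ⬝ᵥ x)) (t : ℝ) :
    eigCntS A t + Module.finrank ℝ W ≤ eigCntS B (t - ε) + Fintype.card ι := by
  obtain ⟨V, hV1, hV2⟩ := eig_dim_exS hA t
  have h1 := Submodule.finrank_sup_add_finrank_inf_eq V W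
  have h2 : Module.finrank ℝ (V ⊔ W : Submodule ℝ (ι → ℝ)) ≤ Fintype.card ι := by
    have := Submodule.finrank_le (V ⊔ W)
    simpa using this
  have hinj : Function.Injective (T.domRestrict (V ⊓ W)) := by
    rw [← LinearMap.ker_eq_bot, LinearMap.ker_eq_bot']
    intro x hx
    have h3 : T x.1 = 0 := hx
    have h4 := hT x.1 x.2.2
    rw [h3, dotProduct_zero] at h4
    exact Subtype.ext (dotProduct_self_eq_zero.1 h4.symm)
  have h3 := LinearMap.finrank_range_of_inj hinj
  have h4 : Module.finrank ℝ (LinearMap.range (T.domRestrict (V ⊓ W))) ≤ eigCntS B (t - ε) := by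
    refine eig_dim_leS hB _ _ ?_
    rintro y ⟨x, rfl⟩ hy
    have e : (T.domRestrict (V ⊓ W)) x = T x.1 := rfl
    rw [e] at hy ⊢
    rw [hT x.1 x.2.2]
    have hx0 : x.1 ≠ 0 := fun h => hy (by rw [h, map_zero])
    have := hV2 x.1 x.2.1 hx0
    have := hAB x.1 x.2.2
    linarith
  omega

end coords

/-! ### sorted lists -/

theorem eig_list_getD : ∀ (L : List ℝ), L.Pairwise (· ≥ ·) → ∀ (t : ℝ) (k : ℕ), k < L.length →
    (t ≤ L.getD k 0 ↔ k < (L.filter fun s => decide (t ≤ s)).length)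
  | [], _, _, k, hk => absurd hk (by simp)
  | a :: L, hL, t, k, hk => by
    rw [List.pairwise_cons] at hL
    by_cases ha : t ≤ a
    · rw [List.filter_cons_of_pos (by simpa using ha)]
      cases k with
      | zero => simpa using ha
      | succ k =>
        have := eig_list_getD L hL.2 t k (by simpa using hk)
        simpa using this
    · have hnil : (L.filter fun s => decide (t ≤ s)) = [] := by
        rw [List.filter_eq_nil_iff]
        intro b hb
        have := hL.1 b hb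
        simp only [decide_eq_true_eq, not_le]
        exact lt_of_le_of_lt this (not_le.1 ha)
      rw [List.filter_cons_of_neg (by simpa using ha), hnil]
      cases k with
      | zero => simpa using ha
      | succ k =>
        have hk' : k < L.length := by simpa using hk
        have hb := hL.1 (L.getD k 0) (by rw [List.getD_eq_getElem _ _ hk']; exact List.getElem_mem hk')
        simp only [List.getD_cons_succ, List.length_nil, not_lt_zero, iff_false, not_le]
        exact lt_of_le_of_lt hb (not_le.1 ha)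

theorem eig_list_getDS : ∀ (L : List ℝ), L.Pairwise (· ≥ ·) → ∀ (t : ℝ) (k : ℕ), k < L.length →
    (t < L.getD k 0 ↔ k < (L.filter fun s => decide (t < s)).length)
  | [], _, _, k, hk => absurd hk (by simp)
  | a :: L, hL, t, k, hk => by
    rw [List.pairwise_cons] at hL
    by_cases ha : t < a
    · rw [List.filter_cons_of_pos (by simpa using ha)]
      cases k with
      | zero => simpa using ha
      | succ k =>
        have := eig_list_getDS L hL.2 t k (by simpa using hk)
        simpa using this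
    · have hnil : (L.filter fun s => decide (t < s)) = [] := by
        rw [List.filter_eq_nil_iff]
        intro b hb
        have := hL.1 b hb
        simp only [decide_eq_true_eq, not_lt]
        exact le_trans this (not_lt.1 ha)
      rw [List.filter_cons_of_neg (by simpa using ha), hnil]
      cases k with
      | zero => simpa using ha
      | succ k =>
        have hk' : k < L.length := by simpa using hk
        have hb := hL.1 (L.getD k 0) (by rw [List.getD_eq_getElem _ _ hk']; exact List.getElem_mem hk')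
        simp only [List.getD_cons_succ, List.length_nil, not_lt_zero, iff_false, not_lt]
        exact le_trans hb (not_lt.1 ha)

theorem eig_list_sum (φ : ℝ → ℝ) : ∀ L : List ℝ, ∑ k ∈ range L.length, φ (L.getD k 0) = (L.map φ).sum
  | [] => by simp
  | a :: L => by
    rw [List.length_cons, Finset.sum_range_succ', List.map_cons, List.sum_cons, ← eig_list_sum φ L]
    simp [add_comm]

theorem eig_list_anti (L : List ℝ) (hL : L.Pairwise (· ≥ ·)) {j k : ℕ} (hjk : j ≤ k) (hk : k < L.length) :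
    L.getD k 0 ≤ L.getD j 0 := by
  rcases hjk.eq_or_lt with rfl | h
  · exact le_rfl
  · rw [List.getD_eq_getElem _ _ hk, List.getD_eq_getElem _ _ (h.trans hk)]
    exact List.pairwise_iff_getElem.1 hL j k (h.trans hk) hk h

section sorted

variable {ι : Type} [Fintype ι] [DecidableEq ι]

/-- the `k`-th largest eigenvalue (`k = 0` is the largest; junk value `0` for `k ≥ card ι`) -/
noncomputable def eigD (A : Matrix ι ι ℝ) (k : ℕ) : ℝ := (A.charpoly.roots.sort (· ≥ ·)).getD k 0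

theorem eig_eqns_cite : True := by
  have := @eigCo.eq_1
  have := @eigCnt.eq_1
  have := @eigCntS.eq_1
  have := @eigD.eq_1
  trivial

theorem eig_roots_card {A : Matrix ι ι ℝ} (hA : A.IsHermitian) : A.charpoly.roots.card = Fintype.card ι := by
  rw [hA.roots_charpoly_eq_eigenvalues]
  simp

theorem eig_D_ge_iff {A : Matrix ι ι ℝ} (hA : A.IsHermitian) {k : ℕ} (hk : k < Fintype.card ι) (t : ℝ) :
    t ≤ eigD A k ↔ k < eigCnt A t := by
  unfold eigD eigCnt
  rw [eig_list_getD _ (Multiset.pairwise_sort _ _) t k (by rw [Multiset.length_sort, eig_roots_card hA]; exact hk)]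
  conv_rhs => rw [← Multiset.sort_eq A.charpoly.roots (· ≥ ·), Multiset.filter_coe, Multiset.coe_card]

theorem eig_D_gt_iff {A : Matrix ι ι ℝ} (hA : A.IsHermitian) {k : ℕ} (hk : k < Fintype.card ι) (t : ℝ) :
    t < eigD A k ↔ k < eigCntS A t := by
  unfold eigD eigCntS
  rw [eig_list_getDS _ (Multiset.pairwise_sort _ _) t k (by rw [Multiset.length_sort, eig_roots_card hA]; exact hk)]
  conv_rhs => rw [← Multiset.sort_eq A.charpoly.roots (· ≥ ·), Multiset.filter_coe, Multiset.coe_card]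

theorem eig_D_anti {A : Matrix ι ι ℝ} (hA : A.IsHermitian) {j k : ℕ} (hjk : j ≤ k) (hk : k < Fintype.card ι) :
    eigD A k ≤ eigD A j :=
  eig_list_anti _ (Multiset.pairwise_sort _ _) hjk (by rw [Multiset.length_sort, eig_roots_card hA]; exact hk)

/-- sums over the spectrum -/
theorem eig_D_sum {A : Matrix ι ι ℝ} (hA : A.IsHermitian) (φ : ℝ → ℝ) :
    ∑ k ∈ range (Fintype.card ι), φ (eigD A k) = (A.charpoly.roots.map φ).sum := by
  have h := eig_list_sum φ (A.charpoly.roots.sort (· ≥ ·))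
  rw [Multiset.length_sort, eig_roots_card hA] at h
  unfold eigD
  rw [h]
  conv_rhs => rw [← Multiset.sort_eq A.charpoly.roots (· ≥ ·), Multiset.map_coe, Multiset.sum_coe]

theorem eig_cnt_le_card {A : Matrix ι ι ℝ} (hA : A.IsHermitian) (t : ℝ) : eigCnt A t ≤ Fintype.card ι := by
  rw [← eig_roots_card hA]
  exact Multiset.card_le_card (Multiset.filter_le _ _)

/-- from counting functions to sorted eigenvalues -/
theorem eig_D_of_cnt {κ : Type} [Fintype κ] [DecidableEq κ] {A : Matrix ι ι ℝ} {B : Matrix κ κ ℝ} (hA : A.IsHermitian)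
    (hB : B.IsHermitian) {ε : ℝ} {r : ℕ} (h : ∀ t, eigCnt A t ≤ eigCnt B (t - ε) + r) {k : ℕ} (hk : k + r < Fintype.card ι) :
    eigD A (k + r) ≤ eigD B k + ε := by
  have h1 := (eig_D_ge_iff hA hk (eigD A (k + r))).1 le_rfl
  have h2 : k < eigCnt B (eigD A (k + r) - ε) := by have := h (eigD A (k + r)); omega
  have hk' : k < Fintype.card κ := lt_of_lt_of_le h2 (eig_cnt_le_card hB _)
  have := (eig_D_ge_iff hB hk' _).2 h2
  linarith

/-- **WEYL, monotone form** -/
theorem eig_weyl_mono {A B : Matrix ι ι ℝ} (hA : A.IsHermitian) (hB : B.IsHermitian)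
    (h : ∀ x, x ⬝ᵥ A *ᵥ x ≤ x ⬝ᵥ B *ᵥ x) {k : ℕ} (hk : k < Fintype.card ι) : eigD A k ≤ eigD B k := by
  have key : ∀ t, eigCnt A t ≤ eigCnt B (t - 0) + 0 := fun t => by
    have := eig_cnt_cmp hA hB ⊤ LinearMap.id 0 (fun x _ => rfl) (fun x _ => by simpa using h x) t
    simp only [finrank_top, Module.finrank_fintype_fun_eq_card] at this
    omega
  simpa using eig_D_of_cnt hA hB key (k := k) (by simpa using hk)

/-- **WEYL, one-sided perturbation** -/
theorem eig_weyl_le {A B : Matrix ι ι ℝ} (hA : A.IsHermitian) (hB : B.IsHermitian) {ε : ℝ}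
    (h : ∀ x, x ⬝ᵥ A *ᵥ x ≤ x ⬝ᵥ B *ᵥ x + ε * (x ⬝ᵥ x)) {k : ℕ} (hk : k < Fintype.card ι) : eigD A k ≤ eigD B k + ε := by
  have key : ∀ t, eigCnt A t ≤ eigCnt B (t - ε) + 0 := fun t => by
    have := eig_cnt_cmp hA hB ⊤ LinearMap.id ε (fun x _ => rfl) (fun x _ => by simpa using h x) t
    simp only [finrank_top, Module.finrank_fintype_fun_eq_card] at this
    omega
  simpa using eig_D_of_cnt hA hB key (k := k) (by simpa using hk)

/-- **WEYL, perturbation** -/
theorem eig_weyl_pert {A B : Matrix ι ι ℝ} (hA : A.IsHermitian) (hB : B.IsHermitian) {ε : ℝ}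
    (h : ∀ x, |x ⬝ᵥ A *ᵥ x - x ⬝ᵥ B *ᵥ x| ≤ ε * (x ⬝ᵥ x)) {k : ℕ} (hk : k < Fintype.card ι) : |eigD A k - eigD B k| ≤ ε := by
  have h1 := eig_weyl_le hA hB (ε := ε) (fun x => by have := (abs_le.1 (h x)).2; linarith) hk
  have h2 := eig_weyl_le hB hA (ε := ε) (fun x => by have := (abs_le.1 (h x)).1; linarith) hk
  rw [abs_le]
  constructor <;> linarith

/-- counting functions and finite rank perturbations -/
theorem eig_cnt_rank {A B : Matrix ι ι ℝ} (hA : A.IsHermitian) (hB : B.IsHermitian) (t : ℝ) :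
    eigCnt A t ≤ eigCnt B t + (A - B).rank := by
  have h1 := LinearMap.finrank_range_add_finrank_ker (A - B).mulVecLin
  have h2 := eig_cnt_cmp hA hB (LinearMap.ker (A - B).mulVecLin) LinearMap.id 0 (fun x _ => rfl) (fun x hx => by
    have h3 : (A - B) *ᵥ x = 0 := hx
    rw [Matrix.sub_mulVec, sub_eq_zero] at h3
    simp [h3]) t
  simp only [Module.finrank_fintype_fun_eq_card, sub_zero] at h1 h2
  unfold Matrix.rank
  omega

/-- **INTERLACING for a perturbation of rank `r`** -/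
theorem eig_rank_interlace {A B : Matrix ι ι ℝ} (hA : A.IsHermitian) (hB : B.IsHermitian) {k : ℕ}
    (hk : k + (A - B).rank < Fintype.card ι) : eigD A (k + (A - B).rank) ≤ eigD B k := by
  simpa using eig_D_of_cnt hA hB (ε := 0) (r := (A - B).rank) (fun t => by simpa using eig_cnt_rank hA hB t) hk

end sorted

/-! ### principal submatrices -/

section minor

variable {ι κ : Type} [Fintype ι] [DecidableEq ι] [Fintype κ] [DecidableEq κ]

/-- extension by zero along `e` -/
noncomputable def eigExt (e : κ → ι) : (κ → ℝ) →ₗ[ℝ] (ι → ℝ) :=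
  Matrix.mulVecLin (Matrix.of fun (i : ι) (j : κ) => if i = e j then (1 : ℝ) else 0)

theorem eig_ext_dot (e : κ → ι) (y : ι → ℝ) (x : κ → ℝ) : y ⬝ᵥ eigExt e x = (y ∘ e) ⬝ᵥ x := by
  simp only [eigExt, Matrix.mulVecLin_apply, dotProduct, Matrix.mulVec, Matrix.of_apply, Finset.mul_sum, Function.comp]
  rw [Finset.sum_comm]
  refine Finset.sum_congr rfl fun j _ => ?_
  simp [Finset.sum_ite_eq']

theorem eig_ext_comp {e : κ → ι} (he : Function.Injective e) (x : κ → ℝ) : eigExt e x ∘ e = x := by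
  funext j
  simp only [eigExt, Matrix.mulVecLin_apply, dotProduct, Matrix.mulVec, Matrix.of_apply, Function.comp, he.eq_iff]
  simp

theorem eig_ext_norm {e : κ → ι} (he : Function.Injective e) (x : κ → ℝ) : eigExt e x ⬝ᵥ eigExt e x = x ⬝ᵥ x := by
  rw [eig_ext_dot, eig_ext_comp he]

theorem eig_ext_quad {e : κ → ι} (he : Function.Injective e) (A : Matrix ι ι ℝ) (x : κ → ℝ) :
    eigExt e x ⬝ᵥ A *ᵥ eigExt e x = x ⬝ᵥ (A.submatrix e e) *ᵥ x := by
  rw [dotProduct_comm, eig_ext_dot, dotProduct_comm]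
  congr 1
  funext j
  change A (e j) ⬝ᵥ eigExt e x = _
  rw [eig_ext_dot]
  rfl

theorem eig_ext_inj {e : κ → ι} (he : Function.Injective e) : Function.Injective (eigExt e) := fun x y h => by
  rw [← eig_ext_comp he x, ← eig_ext_comp he y, h]

theorem eig_sub_herm {A : Matrix ι ι ℝ} (hA : A.IsHermitian) (e : κ → ι) : (A.submatrix e e).IsHermitian :=
  hA.submatrix e

theorem eig_cnt_minor_le {A : Matrix ι ι ℝ} (hA : A.IsHermitian) {e : κ → ι} (he : Function.Injective e) (t : ℝ) :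
    eigCnt (A.submatrix e e) t ≤ eigCnt A t := by
  have := eig_cnt_cmp (eig_sub_herm hA e) hA ⊤ (eigExt e) 0 (fun x _ => eig_ext_norm he x)
    (fun x _ => by rw [eig_ext_quad he]; simp) t
  simp only [finrank_top, Module.finrank_fintype_fun_eq_card, sub_zero] at this
  omega

theorem eig_cnt_le_minor {A : Matrix ι ι ℝ} (hA : A.IsHermitian) {e : κ → ι} (he : Function.Injective e) (t : ℝ) :
    eigCnt A t + Fintype.card κ ≤ eigCnt (A.submatrix e e) t + Fintype.card ι := by
  have h1 := LinearMap.finrank_range_of_inj (eig_ext_inj he)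
  have := eig_cnt_cmp hA (eig_sub_herm hA e) (LinearMap.range (eigExt e)) (LinearMap.funLeft ℝ ℝ e) 0
    (by
      rintro x ⟨c, rfl⟩
      have : (LinearMap.funLeft ℝ ℝ e) (eigExt e c) = c := eig_ext_comp he c
      rw [this, eig_ext_norm he])
    (by
      rintro x ⟨c, rfl⟩
      have : (LinearMap.funLeft ℝ ℝ e) (eigExt e c) = c := eig_ext_comp he c
      rw [this, eig_ext_quad he]; simp) t
  simp only [Module.finrank_fintype_fun_eq_card, sub_zero] at this h1
  omega

/-- **CAUCHY INTERLACING**, upper half -/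
theorem eig_cauchy_le {A : Matrix ι ι ℝ} (hA : A.IsHermitian) {e : κ → ι} (he : Function.Injective e) {k : ℕ}
    (hk : k < Fintype.card κ) : eigD (A.submatrix e e) k ≤ eigD A k := by
  simpa using eig_D_of_cnt (eig_sub_herm hA e) hA (ε := 0) (r := 0) (fun t => by simpa using eig_cnt_minor_le hA he t)
    (k := k) (by simpa using hk)

/-- **CAUCHY INTERLACING**, lower half -/
theorem eig_cauchy_ge {A : Matrix ι ι ℝ} (hA : A.IsHermitian) {e : κ → ι} (he : Function.Injective e) {k : ℕ}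
    (hk : k + (Fintype.card ι - Fintype.card κ) < Fintype.card ι) :
    eigD A (k + (Fintype.card ι - Fintype.card κ)) ≤ eigD (A.submatrix e e) k := by
  have hc := Fintype.card_le_of_injective e he
  simpa using eig_D_of_cnt hA (eig_sub_herm hA e) (ε := 0) (r := Fintype.card ι - Fintype.card κ)
    (fun t => by have := eig_cnt_le_minor hA he t; simp only [sub_zero]; omega) hk

end minor

/-! ### Hoffman-Wielandt -/

theorem eig_ds_le {ι : Type} [Fintype ι] [DecidableEq ι] {l m : ι → ℝ} (hlm : Monovary l m) {S : Matrix ι ι ℝ} (hS : S ∈ doublyStochastic ℝ ι) :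
    ∑ i, ∑ j, l i * m j * S i j ≤ ∑ i, l i * m i := by
  obtain ⟨w, hw0, hw1, hwS⟩ := exists_eq_sum_perm_of_mem_doublyStochastic hS
  have hS' : ∀ i j, S i j = ∑ σ : Equiv.Perm ι, w σ * (if σ i = j then 1 else 0) := fun i j => by
    rw [← hwS]
    simp [Matrix.sum_apply, Equiv.Perm.permMatrix, PEquiv.toMatrix_apply, Equiv.toPEquiv_apply]
  calc ∑ i, ∑ j, l i * m j * S i j = ∑ σ : Equiv.Perm ι, w σ * ∑ i, l i * m (σ i) := by
        have h1 : ∀ i, ∑ j, l i * m j * S i j = ∑ σ : Equiv.Perm ι, w σ * (l i * m (σ i)) := fun i => by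
          simp only [hS', Finset.mul_sum]
          rw [Finset.sum_comm]
          refine Finset.sum_congr rfl fun σ _ => ?_
          rw [Finset.sum_eq_single (σ i)]
          · simp; ring
          · intro j _ hj
            simp [Ne.symm hj]
          · simp
        simp only [h1, Finset.mul_sum]
        exact Finset.sum_comm
    _ ≤ ∑ σ : Equiv.Perm ι, w σ * ∑ i, l i * m i :=
        Finset.sum_le_sum fun σ _ => mul_le_mul_of_nonneg_left hlm.sum_mul_comp_perm_le_sum_mul (hw0 σ)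
    _ = ∑ i, l i * m i := by rw [← Finset.sum_mul, hw1, one_mul]


section hw

variable {ι : Type} [Fintype ι] [DecidableEq ι]

theorem eig_D_eq {A : Matrix ι ι ℝ} (hA : A.IsHermitian) {k : ℕ} (hk : k < Fintype.card ι) :
    eigD A k = hA.eigenvalues₀ ⟨k, hk⟩ := by
  have h := hA.sort_roots_charpoly_eq_eigenvalues₀
  have h' : (A.charpoly.roots.map (RCLike.re : ℝ → ℝ)) = A.charpoly.roots := by simp
  rw [h'] at h
  unfold eigD
  rw [h, List.getD_eq_getElem _ _ (by simpa using hk)]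
  simp

/-- Mathlib's two enumerations `hA.eigenvalues`, `hB.eigenvalues` are sorted by the SAME bijection -/
theorem eig_sum_D {A B : Matrix ι ι ℝ} (hA : A.IsHermitian) (hB : B.IsHermitian) (f : ℝ → ℝ → ℝ) :
    ∑ i, f (hA.eigenvalues i) (hB.eigenvalues i) = ∑ k ∈ range (Fintype.card ι), f (eigD A k) (eigD B k) := by
  rw [← Fin.sum_univ_eq_sum_range (fun k => f (eigD A k) (eigD B k))]
  rw [← Equiv.sum_comp (Fintype.equivOfCardEq (Fintype.card_fin (Fintype.card ι)) : Fin (Fintype.card ι) ≃ ι)]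
  refine Finset.sum_congr rfl fun k _ => ?_
  rw [eig_D_eq hA k.2, eig_D_eq hB k.2]
  simp [Matrix.IsHermitian.eigenvalues]

theorem eig_monovary {A B : Matrix ι ι ℝ} (hA : A.IsHermitian) (hB : B.IsHermitian) :
    Monovary hA.eigenvalues hB.eigenvalues := by
  intro i j hij
  have h : (Fintype.equivOfCardEq (Fintype.card_fin (Fintype.card ι))).symm j
      < (Fintype.equivOfCardEq (Fintype.card_fin (Fintype.card ι))).symm i := by
    by_contra h
    exact absurd hij (not_lt.2 (hB.eigenvalues₀_antitone (not_lt.1 h)))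
  exact hA.eigenvalues₀_antitone h.le

/-- overlaps of the two eigenbases -/
noncomputable def eigOv {A B : Matrix ι ι ℝ} (hA : A.IsHermitian) (hB : B.IsHermitian) : Matrix ι ι ℝ :=
  (hA.eigenvectorUnitary : Matrix ι ι ℝ)ᵀ * (hB.eigenvectorUnitary : Matrix ι ι ℝ)

theorem eig_ov_mul {A B : Matrix ι ι ℝ} (hA : A.IsHermitian) (hB : B.IsHermitian) : eigOv hA hB * (eigOv hA hB)ᵀ = 1 := by
  unfold eigOv
  rw [Matrix.transpose_mul, Matrix.transpose_transpose, Matrix.mul_assoc,
    ← Matrix.mul_assoc (hB.eigenvectorUnitary : Matrix ι ι ℝ), eig_U_mul, Matrix.one_mul, eig_Ut_mul]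

theorem eig_ov_mul' {A B : Matrix ι ι ℝ} (hA : A.IsHermitian) (hB : B.IsHermitian) : (eigOv hA hB)ᵀ * eigOv hA hB = 1 := by
  unfold eigOv
  rw [Matrix.transpose_mul, Matrix.transpose_transpose, Matrix.mul_assoc,
    ← Matrix.mul_assoc (hA.eigenvectorUnitary : Matrix ι ι ℝ), eig_U_mul, Matrix.one_mul, eig_Ut_mul]

theorem eig_ov_ds {A B : Matrix ι ι ℝ} (hA : A.IsHermitian) (hB : B.IsHermitian) :
    (Matrix.of fun i j => eigOv hA hB i j ^ 2) ∈ doublyStochastic ℝ ι := by
  rw [mem_doublyStochastic_iff_sum]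
  refine ⟨fun i j => by simp only [Matrix.of_apply]; positivity, fun i => ?_, fun j => ?_⟩
  · have := congrFun (congrFun (eig_ov_mul hA hB) i) i
    simp only [Matrix.mul_apply, Matrix.transpose_apply, Matrix.one_apply_eq] at this
    simpa [pow_two] using this
  · have := congrFun (congrFun (eig_ov_mul' hA hB) j) j
    simp only [Matrix.mul_apply, Matrix.transpose_apply, Matrix.one_apply_eq] at this
    simpa [pow_two] using this

/-- `Tr AB` in the two eigenbases -/
theorem eig_trace_mul {A B : Matrix ι ι ℝ} (hA : A.IsHermitian) (hB : B.IsHermitian) :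
    (A * B).trace = ∑ i, ∑ j, hA.eigenvalues i * hB.eigenvalues j * eigOv hA hB i j ^ 2 := by
  have h1 : (A * B).trace = (diagonal hA.eigenvalues * eigOv hA hB * diagonal hB.eigenvalues * (eigOv hA hB)ᵀ).trace := by
    conv_lhs => rw [eig_spec hA, eig_spec hB]
    unfold eigOv
    rw [Matrix.transpose_mul, Matrix.transpose_transpose]
    simp only [Matrix.mul_assoc]
    rw [Matrix.trace_mul_comm]
    simp only [Matrix.mul_assoc]
  rw [h1]
  simp only [Matrix.trace, Matrix.diag_apply, Matrix.mul_apply (M := _ * diagonal hB.eigenvalues), Matrix.mul_diagonal,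
    Matrix.diagonal_mul, Matrix.transpose_apply]
  exact Finset.sum_congr rfl fun i _ => Finset.sum_congr rfl fun j _ => by ring

theorem eig_trace_sq {A : Matrix ι ι ℝ} (hA : A.IsHermitian) : (A * A).trace = ∑ i, hA.eigenvalues i ^ 2 := by
  rw [eig_trace_mul hA hA]
  have : eigOv hA hA = 1 := eig_Ut_mul hA
  rw [this]
  refine Finset.sum_congr rfl fun i _ => ?_
  rw [Finset.sum_eq_single i]
  · simp; ring
  · intro j _ hj
    simp [Matrix.one_apply_ne (Ne.symm hj)]
  · simp

/-- `Tr AB ≤ ∑ λ_k(A) λ_k(B)` -/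
theorem eig_trace_mul_le {A B : Matrix ι ι ℝ} (hA : A.IsHermitian) (hB : B.IsHermitian) :
    (A * B).trace ≤ ∑ i, hA.eigenvalues i * hB.eigenvalues i := by
  rw [eig_trace_mul hA hB]
  exact eig_ds_le (eig_monovary hA hB) (eig_ov_ds hA hB)

/-- **HOFFMAN-WIELANDT** in Mathlib's enumeration -/
theorem eig_hw' {A B : Matrix ι ι ℝ} (hA : A.IsHermitian) (hB : B.IsHermitian) :
    ∑ i, (hA.eigenvalues i - hB.eigenvalues i) ^ 2 ≤ ((A - B) * (A - B)).trace := by
  have h1 : ((A - B) * (A - B)).trace = (A * A).trace + (B * B).trace - 2 * (A * B).trace := by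
    simp only [Matrix.sub_mul, Matrix.mul_sub, Matrix.trace_sub]
    rw [Matrix.trace_mul_comm B A]
    ring
  have h2 : ∑ i, (hA.eigenvalues i - hB.eigenvalues i) ^ 2
      = ∑ i, hA.eigenvalues i ^ 2 + ∑ i, hB.eigenvalues i ^ 2 - 2 * ∑ i, hA.eigenvalues i * hB.eigenvalues i := by
    rw [Finset.mul_sum, ← Finset.sum_add_distrib, ← Finset.sum_sub_distrib]
    exact Finset.sum_congr rfl fun i _ => by ring
  rw [h1, h2, eig_trace_sq hA, eig_trace_sq hB]
  have := eig_trace_mul_le hA hB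
  linarith

/-- squared Hilbert-Schmidt distance -/
noncomputable def eigHS (M : Matrix ι ι ℝ) : ℝ := ∑ i, ∑ j, M i j ^ 2

theorem eig_hs_nonneg (M : Matrix ι ι ℝ) : 0 ≤ eigHS M := Finset.sum_nonneg fun _ _ => Finset.sum_nonneg fun _ _ => sq_nonneg _

theorem eig_hs_trace {M : Matrix ι ι ℝ} (hM : M.IsHermitian) : (M * M).trace = eigHS M := by
  unfold eigHS
  simp only [Matrix.trace, Matrix.diag_apply, Matrix.mul_apply]
  refine Finset.sum_congr rfl fun i _ => Finset.sum_congr rfl fun j _ => ?_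
  have : M j i = M i j := by simpa using hM.apply i j
  rw [this, pow_two]

/-- **HOFFMAN-WIELANDT** for the sorted eigenvalues -/
theorem eig_hw {A B : Matrix ι ι ℝ} (hA : A.IsHermitian) (hB : B.IsHermitian) :
    ∑ k ∈ range (Fintype.card ι), (eigD A k - eigD B k) ^ 2 ≤ eigHS (A - B) := by
  rw [← eig_sum_D hA hB fun s t => (s - t) ^ 2, ← eig_hs_trace (hA.sub hB)]
  exact eig_hw' hA hB

/-- each sorted eigenvalue is `1`-Lipschitz in the Hilbert-Schmidt distance -/
theorem eig_D_lip {A B : Matrix ι ι ℝ} (hA : A.IsHermitian) (hB : B.IsHermitian) (k : ℕ) :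
    |eigD A k - eigD B k| ≤ Real.sqrt (eigHS (A - B)) := by
  by_cases hk : k < Fintype.card ι
  · refine Real.abs_le_sqrt ?_
    exact (Finset.single_le_sum (f := fun k => (eigD A k - eigD B k) ^ 2) (fun _ _ => sq_nonneg _) (Finset.mem_range.2 hk)).trans
      (eig_hw hA hB)
  · have h1 : ∀ {C : Matrix ι ι ℝ}, C.IsHermitian → eigD C k = 0 := fun {C} hC => by
      unfold eigD
      rw [List.getD_eq_default]
      rw [Multiset.length_sort, eig_roots_card hC]
      exact not_lt.1 hk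
    rw [h1 hA, h1 hB]
    simpa using Real.sqrt_nonneg _

/-- linear statistics of a Lipschitz function -/
theorem eig_stat_lip {A B : Matrix ι ι ℝ} (hA : A.IsHermitian) (hB : B.IsHermitian) {φ : ℝ → ℝ} {L : ℝ}
    (hφ : ∀ s t, |φ s - φ t| ≤ L * |s - t|) :
    |(A.charpoly.roots.map φ).sum - (B.charpoly.roots.map φ).sum| ≤ L * (Real.sqrt (Fintype.card ι) * Real.sqrt (eigHS (A - B))) := by
  have hL : 0 ≤ L := by
    have := hφ 0 1
    have h0 := abs_nonneg (φ 0 - φ 1)
    simp only [zero_sub, abs_neg, abs_one, mul_one] at this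
    linarith
  rw [← eig_D_sum hA, ← eig_D_sum hB, ← Finset.sum_sub_distrib]
  calc |∑ k ∈ range (Fintype.card ι), (φ (eigD A k) - φ (eigD B k))|
      ≤ ∑ k ∈ range (Fintype.card ι), |φ (eigD A k) - φ (eigD B k)| := Finset.abs_sum_le_sum_abs _ _
    _ ≤ ∑ k ∈ range (Fintype.card ι), L * |eigD A k - eigD B k| := Finset.sum_le_sum fun k _ => hφ _ _
    _ = L * ∑ k ∈ range (Fintype.card ι), 1 * |eigD A k - eigD B k| := by rw [Finset.mul_sum]; simp
    _ ≤ L * (Real.sqrt (∑ k ∈ range (Fintype.card ι), (1 : ℝ) ^ 2) * Real.sqrt (∑ k ∈ range (Fintype.card ι), |eigD A k - eigD B k| ^ 2)) :=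
        mul_le_mul_of_nonneg_left (Real.sum_mul_le_sqrt_mul_sqrt _ _ _) hL
    _ ≤ L * (Real.sqrt (Fintype.card ι) * Real.sqrt (eigHS (A - B))) := by
        refine mul_le_mul_of_nonneg_left ?_ hL
        refine mul_le_mul (le_of_eq (by simp)) (Real.sqrt_le_sqrt ?_) (Real.sqrt_nonneg _) (Real.sqrt_nonneg _)
        simp only [sq_abs]
        exact eig_hw hA hB

/-- the quadratic form is bounded by the Hilbert-Schmidt norm -/
theorem eig_quad_le_hs (M : Matrix ι ι ℝ) (x : ι → ℝ) : |x ⬝ᵥ M *ᵥ x| ≤ Real.sqrt (eigHS M) * (x ⬝ᵥ x) := by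
  have h1 : (x ⬝ᵥ M *ᵥ x) = ∑ p : ι × ι, M p.1 p.2 * (x p.1 * x p.2) := by
    rw [Fintype.sum_prod_type]
    simp only [dotProduct, Matrix.mulVec, Finset.mul_sum]
    exact Finset.sum_congr rfl fun i _ => Finset.sum_congr rfl fun j _ => by ring
  have h2 : ∑ p : ι × ι, (x p.1 * x p.2) ^ 2 = (x ⬝ᵥ x) ^ 2 := by
    rw [Fintype.sum_prod_type, pow_two (x ⬝ᵥ x)]
    simp only [dotProduct, Finset.sum_mul_sum]
    exact Finset.sum_congr rfl fun i _ => Finset.sum_congr rfl fun j _ => by ring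
  have h3 : ∑ p : ι × ι, M p.1 p.2 ^ 2 = eigHS M := by
    rw [Fintype.sum_prod_type]; rfl
  have hx : 0 ≤ x ⬝ᵥ x := Finset.sum_nonneg fun i _ => mul_self_nonneg _
  rw [h1]
  refine abs_le.2 ⟨?_, ?_⟩
  · have := Real.sum_mul_le_sqrt_mul_sqrt univ (fun p : ι × ι => -M p.1 p.2) fun p => x p.1 * x p.2
    simp only [neg_mul, Finset.sum_neg_distrib, neg_sq] at this
    rw [h2, h3, Real.sqrt_sq hx] at this
    linarith
  · have := Real.sum_mul_le_sqrt_mul_sqrt univ (fun p : ι × ι => M p.1 p.2) fun p => x p.1 * x p.2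
    rwa [h2, h3, Real.sqrt_sq hx] at this

theorem eig_hw_eqns_cite : True := by
  have := @eigOv.eq_1
  have := @eigHS.eq_1
  have := @eigExt.eq_1
  trivial

end hw

/-! ### continuity -/

section cont

variable {ι : Type} [Fintype ι] [DecidableEq ι]

/-- the sorted eigenvalues are continuous functions of a continuous symmetric family -/
theorem eig_D_cont {X : Type} [TopologicalSpace X] {f : X → Matrix ι ι ℝ} (hf : ∀ i j, Continuous fun x => f x i j)
    (hH : ∀ x, (f x).IsHermitian) (k : ℕ) : Continuous fun x => eigD (f x) k := by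
  rw [continuous_iff_continuousAt]
  intro x0
  have hg : Continuous fun x => Real.sqrt (eigHS (f x - f x0)) := by
    unfold eigHS
    simp only [Matrix.sub_apply]
    refine Real.continuous_sqrt.comp ?_
    exact continuous_finsetSum _ fun i _ => continuous_finsetSum _ fun j _ => ((hf i j).sub continuous_const).pow 2
  have hg0 : Filter.Tendsto (fun x => Real.sqrt (eigHS (f x - f x0))) (nhds x0) (nhds 0) := by
    have := hg.tendsto x0
    simpa [eigHS] using this
  refine tendsto_iff_dist_tendsto_zero.2 (squeeze_zero (fun _ => dist_nonneg) (fun x => ?_) hg0)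
  rw [Real.dist_eq]
  exact eig_D_lip (hH x) (hH x0) k

theorem eig_stat_cont {X : Type} [TopologicalSpace X] {f : X → Matrix ι ι ℝ} (hf : ∀ i j, Continuous fun x => f x i j)
    (hH : ∀ x, (f x).IsHermitian) {φ : ℝ → ℝ} (hφ : Continuous φ) : Continuous fun x => ((f x).charpoly.roots.map φ).sum := by
  have : (fun x => ((f x).charpoly.roots.map φ).sum) = fun x => ∑ k ∈ range (Fintype.card ι), φ (eigD (f x) k) := by
    funext x; rw [eig_D_sum (hH x)]
  rw [this]
  exact continuous_finsetSum _ fun k _ => hφ.comp (eig_D_cont hf hH k)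

end cont

/-! ### THE FROZEN OBJECTS of `Def_0462` -/

section frz

open Claims.C0462 MeasureTheory ProbabilityTheory

variable {n : ℕ}

theorem frz_sum_eq {A : Matrix (Fin n) (Fin n) ℝ} (hA : A.IsHermitian) (φ : ℝ → ℝ) :
    spectralSum A φ = ∑ i, φ (hA.eigenvalues i) := by
  unfold spectralSum
  rw [hA.roots_charpoly_eq_eigenvalues, Multiset.map_map]
  rfl

theorem frz_sum_D {A : Matrix (Fin n) (Fin n) ℝ} (hA : A.IsHermitian) (φ : ℝ → ℝ) :
    spectralSum A φ = ∑ k ∈ range n, φ (eigD A k) := by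
  have := eig_D_sum hA φ
  rw [Fintype.card_fin] at this
  exact this.symm

theorem frz_adj_herm (G : SimpleGraph (Fin n)) [DecidableRel G.Adj] : (G.adjMatrix ℝ).IsHermitian :=
  G.isSymm_adjMatrix (α := ℝ)

theorem frz_goe_herm (x : Fin n × Fin n → ℝ) : (goeMatrix x).IsHermitian := by
  ext i j
  simp [goeMatrix, min_comm, max_comm]

theorem frz_goe_D_cont (k : ℕ) : Continuous fun x : Fin n × Fin n → ℝ => eigD (goeMatrix x) k :=
  eig_D_cont (fun i j => continuous_apply (min i j, max i j)) frz_goe_herm k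

theorem frz_goe_sum_cont {φ : ℝ → ℝ} (hφ : Continuous φ) : Continuous fun x : Fin n × Fin n → ℝ => spectralSum (goeMatrix x) φ :=
  eig_stat_cont (fun i j => continuous_apply (min i j, max i j)) frz_goe_herm hφ

theorem frz_sum_nonneg {A : Matrix (Fin n) (Fin n) ℝ} {φ : ℝ → ℝ} (hφ : ∀ t, 0 ≤ φ t) : 0 ≤ spectralSum A φ := by
  unfold spectralSum
  exact Multiset.sum_nonneg fun x hx => by
    obtain ⟨t, _, rfl⟩ := Multiset.mem_map.1 hx
    exact hφ t

theorem frz_exp_mem {A : Matrix (Fin n) (Fin n) ℝ} {φ : ℝ → ℝ} (hφ : ∀ t, 0 ≤ φ t) :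
    0 < Real.exp (-spectralSum A φ) ∧ Real.exp (-spectralSum A φ) ≤ 1 :=
  ⟨Real.exp_pos _, Real.exp_le_one_iff.2 (by have := frz_sum_nonneg (A := A) hφ; linarith)⟩

instance frz_goe_prob : IsProbabilityMeasure (goeArray n) := by
  unfold goeArray
  infer_instance

theorem frz_goe_intble {h : ℝ → ℝ} (hc : Continuous h) (hnn : ∀ t, 0 ≤ h t) (c : ℝ) :
    Integrable (fun x => Real.exp (-spectralSum (goeMatrix x) fun t => h (c * t))) (goeArray n) := by
  have hcont : Continuous fun x : Fin n × Fin n → ℝ => Real.exp (-spectralSum (goeMatrix x) fun t => h (c * t)) :=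
    Real.continuous_exp.comp (frz_goe_sum_cont (hc.comp (continuous_const.mul continuous_id))).neg
  refine Integrable.of_bound hcont.aestronglyMeasurable 1 (Filter.Eventually.of_forall fun x => ?_)
  rw [Real.norm_eq_abs, abs_of_pos (Real.exp_pos _)]
  exact (frz_exp_mem fun t => hnn _).2

theorem frz_goe_mem {h : ℝ → ℝ} (hc : Continuous h) (hnn : ∀ t, 0 ≤ h t) : 0 ≤ goeLaplace n h ∧ goeLaplace n h ≤ 1 := by
  unfold goeLaplace
  refine ⟨integral_nonneg fun x => (Real.exp_pos _).le, ?_⟩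
  have := integral_mono (frz_goe_intble (n := n) hc hnn (n / Real.pi)) (integrable_const (1 : ℝ))
    fun x => (frz_exp_mem fun t => hnn _).2
  simpa using this

theorem frz_reg_mem (d : ℕ) (E : ℝ) {h : ℝ → ℝ} (hnn : ∀ t, 0 ≤ h t) :
    0 ≤ regularLaplace n d E h ∧ regularLaplace n d E h ≤ 1 := by
  unfold regularLaplace
  refine ⟨div_nonneg (Finset.sum_nonneg fun G _ => (Real.exp_pos _).le) (Nat.cast_nonneg _), ?_⟩
  refine div_le_one_of_le₀ ?_ (Nat.cast_nonneg _)
  calc _ ≤ ∑ _G ∈ regularGraphs n d, (1 : ℝ) := Finset.sum_le_sum fun G _ => (frz_exp_mem fun t => hnn _).2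
    _ = _ := by simp

end frz

end Claimed.Agent.R287
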