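/-
Row 287 (S0534), unit B1, sec.8 (U3): the log-potential `rgPhi` of the tree along a vertical line.      helper270.   prefix `phx`.
Contracts of `B1.lean`: `b1_phi_deriv'`, `b1_phi_top'`, `b1_phi_cont'`.
`phxF = - log g - (d-2)/2 log (1 - g²)` is holomorphic near the line, `phxF' = - m_d`, `rgPhi = Re phxF`.
-/
import Claimed.Agent.R287.B1x270
set_option autoImplicit false
namespace Claimed.Agent.R287
open Claims.C0462

/-! ### the log-potential of the tree along a vertical line -/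

theorem phx_b_ge (d : ℕ) (hd : 3 ≤ d) : (2 : ℝ) ≤ (d : ℝ) - 1 := by
  have : (3 : ℝ) ≤ d := by exact_mod_cast hd
  linarith

theorem phx_slit (d : ℕ) {e u : ℝ} (he : e ^ 2 < 4 * ((d : ℝ) - 1)) :
    4 * ((d : ℂ) - 1) - (rgz e u) ^ 2 ∈ Complex.slitPlane := by
  rw [Complex.mem_slitPlane_iff]
  left
  have h4 : (4 : ℂ).re = 4 := rfl
  have h5 : (4 : ℂ).im = 0 := rfl
  simp only [pow_two, Complex.sub_re, Complex.mul_re, Complex.natCast_re, Complex.one_re, Complex.sub_im,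
    Complex.natCast_im, Complex.one_im, rg_z_re, rg_z_im, h4, h5]
  nlinarith [sq_nonneg u]

theorem phx_g_diff (d : ℕ) {e u : ℝ} (he : e ^ 2 < 4 * ((d : ℝ) - 1)) :
    DifferentiableAt ℂ (rgg d) (rgz e u) := by
  have h1 : DifferentiableAt ℂ (fun z : ℂ => 4 * ((d : ℂ) - 1) - z ^ 2) (rgz e u) := by fun_prop
  have h2 := h1.cpow_const (c := (1 / 2 : ℂ)) (phx_slit d he)
  exact ((differentiableAt_id.neg).add (h2.const_mul Complex.I)).div_const _

/-- `g' (z + 2 b g) = - g` -/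
theorem phx_g_deriv (d : ℕ) (hd : 3 ≤ d) {z g' : ℂ} (h : HasDerivAt (rgg d) g' z) :
    g' * (z + 2 * ((d : ℂ) - 1) * rgg d z) = - rgg d z := by
  have h1 : HasDerivAt (fun w : ℂ => ((d : ℂ) - 1) * rgg d w ^ 2 + w * rgg d w + 1)
      (((d : ℂ) - 1) * (2 * rgg d z ^ (2 - 1) * g') + (1 * rgg d z + z * g')) z :=
    (((h.pow 2).const_mul _).add ((hasDerivAt_id z).mul h)).add_const 1
  have h2 : (fun w : ℂ => ((d : ℂ) - 1) * rgg d w ^ 2 + w * rgg d w + 1) = fun _ => 0 := by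
    funext w
    exact tgr_cav (by omega) w
  rw [h2] at h1
  have h3 := h1.unique (hasDerivAt_const z (0 : ℂ))
  simp only [Nat.add_one_sub_one, pow_one] at h3
  linear_combination h3

/-- the holomorphic potential -/
noncomputable def phxF (d : ℕ) (z : ℂ) : ℂ :=
  - Complex.log (rgg d z) - (((d : ℝ) - 2) / 2 : ℝ) * Complex.log (1 - rgg d z ^ 2)

theorem phx_eqns_cite : True := by
  have := @phxF.eq_1
  trivial

theorem phx_re (d : ℕ) (z : ℂ) : (phxF d z).re = rgPhi d z := by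
  rw [phxF, rgPhi, Complex.sub_re, Complex.neg_re, Complex.re_ofReal_mul, Complex.log_re, Complex.log_re]

theorem phx_one_sub_slit (d : ℕ) (hd : 3 ≤ d) {z : ℂ} (hz : 0 < z.im) : 1 - rgg d z ^ 2 ∈ Complex.slitPlane := by
  rw [Complex.mem_slitPlane_iff]
  left
  have h1 := b1x_g_sq_le d hd hz
  have h2 : (rgg d z ^ 2).re ≤ ‖rgg d z ^ 2‖ := Complex.re_le_norm _
  rw [norm_pow] at h2
  rw [Complex.sub_re, Complex.one_re]
  linarith

theorem phx_g_slit (d : ℕ) (hd : 3 ≤ d) {z : ℂ} (hz : 0 < z.im) : rgg d z ∈ Complex.slitPlane := by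
  rw [Complex.mem_slitPlane_iff]
  right
  exact (tgr_im_pos (by omega) hz).ne'

/-- `F' = - m_d` -/
theorem phx_F_deriv (d : ℕ) (hd : 3 ≤ d) {e u : ℝ} (he : e ^ 2 < 4 * ((d : ℝ) - 1)) (hu : 0 < u) :
    HasDerivAt (phxF d) (- rgm d (rgz e u)) (rgz e u) := by
  set z := rgz e u with hzdef
  have hz : 0 < z.im := hu
  have hg := (phx_g_diff d (u := u) he).hasDerivAt
  rw [← hzdef] at hg
  set g' := deriv (rgg d) z with hg'
  have hrel := phx_g_deriv d hd hg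
  have h1 := hg.clog (phx_g_slit d hd hz)
  have h2 : HasDerivAt (fun w => 1 - rgg d w ^ 2) (-(2 * rgg d z ^ (2 - 1) * g')) z :=
    (hg.pow 2).const_sub 1
  have h3 := h2.clog (phx_one_sub_slit d hd hz)
  have h4 := (h1.neg).sub (h3.const_mul ((((d : ℝ) - 2) / 2 : ℝ) : ℂ))
  have hg0 : rgg d z ≠ 0 := tg_ne_zero (tgr_cav (by omega) z)
  have hne : (1 : ℂ) - rgg d z ^ 2 ≠ 0 := Complex.slitPlane_ne_zero (phx_one_sub_slit d hd hz)
  have hcav : ((d : ℂ) - 1) * rgg d z ^ 2 + z * rgg d z + 1 = 0 := tgr_cav (by omega) z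
  have hval : -(g' / rgg d z) - ((((d : ℝ) - 2) / 2 : ℝ) : ℂ) * (-(2 * rgg d z ^ (2 - 1) * g') / (1 - rgg d z ^ 2))
      = - rgm d z := by
    simp only [rgm, Nat.add_one_sub_one, pow_one]
    push_cast
    field_simp
    linear_combination (rgg d z) * hrel - g' * hcav
  have hfun : phxF d = ((-fun t => Complex.log (rgg d t))
      - fun y => ((((d : ℝ) - 2) / 2 : ℝ) : ℂ) * Complex.log (1 - rgg d y ^ 2)) := by
    funext w
    simp [phxF]
  rw [hfun]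
  exact h4.congr_deriv hval

/-- the curve `u ↦ e + i u` -/
theorem phx_curve (e u : ℝ) : HasDerivAt (fun t : ℝ => rgz e t) Complex.I u := by
  have h1 : (fun t : ℝ => rgz e t) = fun t : ℝ => (e : ℂ) + (t : ℂ) * Complex.I := by
    funext t
    apply Complex.ext <;> simp [rgz]
  rw [h1]
  have h2 : HasDerivAt (fun t : ℝ => (t : ℂ)) 1 u := Complex.ofRealCLM.hasDerivAt
  simpa using (h2.mul_const Complex.I).const_add (e : ℂ)

/-- `∂_u Φ(e + i u) = Im m_d(e + i u)` -/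
theorem phx_phi_deriv (d : ℕ) (hd : 3 ≤ d) {e u : ℝ} (he : e ^ 2 < 4 * ((d : ℝ) - 1)) (hu : 0 < u) :
    HasDerivAt (fun t : ℝ => rgPhi d (rgz e t)) (rgm d (rgz e u)).im u := by
  have h1 := (phx_F_deriv d hd he hu).comp u (phx_curve e u)
  have h2 := Complex.reCLM.hasFDerivAt.comp_hasDerivAt u h1
  have e1 : (fun t : ℝ => rgPhi d (rgz e t)) = (⇑Complex.reCLM ∘ (phxF d ∘ fun t : ℝ => rgz e t)) := by
    funext t
    simp [phx_re]
  rw [e1]
  refine h2.congr_deriv ?_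
  simp

theorem phx_m_cont (d : ℕ) (hd : 3 ≤ d) {e u : ℝ} (he : e ^ 2 < 4 * ((d : ℝ) - 1)) (hu : 0 < u) :
    ContinuousAt (fun t : ℝ => (rgm d (rgz e t)).im) u := by
  have hz : 0 < (rgz e u).im := hu
  have hg : ContinuousAt (rgg d) (rgz e u) := (phx_g_diff d he).continuousAt
  have hne : (1 : ℂ) - rgg d (rgz e u) ^ 2 ≠ 0 := Complex.slitPlane_ne_zero (phx_one_sub_slit d hd hz)
  have hm : ContinuousAt (rgm d) (rgz e u) := by
    unfold rgm
    exact hg.div (continuousAt_const.sub (hg.pow 2)) hne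
  have hc : ContinuousAt (fun t : ℝ => rgz e t) u := (phx_curve e u).continuousAt
  exact Complex.continuous_im.continuousAt.comp (ContinuousAt.comp (f := fun t : ℝ => rgz e t) hm hc)

/-- **U3b** -/
theorem b1_phi_deriv' (d : ℕ) (hd : 3 ≤ d) (e : ℝ) (he : e ^ 2 < 4 * ((d : ℝ) - 1)) {η U : ℝ} (hη : 0 < η)
    (hU : η ≤ U) :
    rgPhi d (rgz e η) = rgPhi d (rgz e U) - ∫ u in η..U, (rgm d (rgz e u)).im := by
  have hpos : ∀ u ∈ Set.uIcc η U, 0 < u := by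
    intro u hu
    rw [Set.uIcc_of_le hU] at hu
    linarith [hu.1]
  have h1 := intervalIntegral.integral_eq_sub_of_hasDerivAt
    (f := fun t : ℝ => rgPhi d (rgz e t)) (f' := fun u => (rgm d (rgz e u)).im) (a := η) (b := U)
    (fun u hu => phx_phi_deriv d hd he (hpos u hu))
    (ContinuousOn.intervalIntegrable fun u hu => (phx_m_cont d hd he (hpos u hu)).continuousWithinAt)
  rw [h1]; ring

/-- `‖g‖ ≤ 1 / Im z` -/
theorem phx_g_le (d : ℕ) (hd : 3 ≤ d) {z : ℂ} (hz : 0 < z.im) : ‖rgg d z‖ ≤ 1 / z.im := by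
  have hb := phx_b_ge d hd
  have hcav : ((d : ℂ) - 1) * rgg d z ^ 2 + z * rgg d z + 1 = 0 := tgr_cav (by omega) z
  have hg := tgr_im_pos (d := d) (by omega) hz
  have e1 : rgg d z * (z + ((d : ℂ) - 1) * rgg d z) = -1 := by linear_combination hcav
  have e2 := congrArg norm e1
  rw [norm_mul, norm_neg, norm_one] at e2
  have h1 : (z + ((d : ℂ) - 1) * rgg d z).im = z.im + ((d : ℝ) - 1) * (rgg d z).im := by
    simp [Complex.add_im, Complex.mul_im]
  have h2 : z.im ≤ ‖z + ((d : ℂ) - 1) * rgg d z‖ := by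
    refine le_trans ?_ (le_trans (le_abs_self _) (Complex.abs_im_le_norm _))
    rw [h1]
    have : 0 ≤ ((d : ℝ) - 1) * (rgg d z).im := by positivity
    linarith
  rw [le_div_iff₀ hz]
  calc ‖rgg d z‖ * z.im ≤ ‖rgg d z‖ * ‖z + ((d : ℂ) - 1) * rgg d z‖ :=
        mul_le_mul_of_nonneg_left h2 (norm_nonneg _)
    _ = 1 := e2

/-- **U3d** -/
theorem b1_phi_top' (d : ℕ) (hd : 3 ≤ d) : ∃ C U0 : ℝ, ∀ e U : ℝ, e ^ 2 < 4 * ((d : ℝ) - 1) → U0 ≤ U →
    Real.log U - C / U ≤ rgPhi d (rgz e U) := by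
  refine ⟨d, 1, fun e U _ hU => ?_⟩
  have hb := phx_b_ge d hd
  have hU0 : 0 < U := by linarith
  have hz : 0 < (rgz e U).im := hU0
  have h1 := phx_g_le d hd hz
  rw [rg_z_im] at h1
  have hg0 : 0 < ‖rgg d (rgz e U)‖ := norm_pos_iff.mpr (tg_ne_zero (tgr_cav (by omega) _))
  have h2 : Real.log ‖rgg d (rgz e U)‖ ≤ - Real.log U := by
    have := Real.log_le_log hg0 h1
    rwa [one_div, Real.log_inv] at this
  have hne : (1 : ℂ) - rgg d (rgz e U) ^ 2 ≠ 0 := Complex.slitPlane_ne_zero (phx_one_sub_slit d hd hz)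
  have h3 : Real.log ‖1 - rgg d (rgz e U) ^ 2‖ ≤ 1 / U := by
    have a1 := Real.log_le_sub_one_of_pos (norm_pos_iff.mpr hne)
    have a2 : ‖1 - rgg d (rgz e U) ^ 2‖ ≤ 1 + ‖rgg d (rgz e U)‖ ^ 2 := by
      refine (norm_sub_le _ _).trans ?_
      rw [norm_one, norm_pow]
    have a3 : ‖rgg d (rgz e U)‖ ^ 2 ≤ 1 / U := by
      have a4 : 1 / U ≤ 1 := by rw [div_le_one hU0]; exact hU
      have a5 : 0 ≤ 1 / U := by positivity
      nlinarith [norm_nonneg (rgg d (rgz e U))]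
    linarith
  rw [rgPhi]
  have h4 : ((d : ℝ) - 2) / 2 * Real.log ‖1 - rgg d (rgz e U) ^ 2‖ ≤ ((d : ℝ) - 2) / 2 * (1 / U) :=
    mul_le_mul_of_nonneg_left h3 (by linarith)
  have h5 : ((d : ℝ) - 2) / 2 * (1 / U) ≤ d / U := by
    rw [mul_one_div]
    apply div_le_div_of_nonneg_right _ hU0.le
    linarith
  linarith

/-- `log a - log b ≤ (a - b) / b` -/
theorem phx_log_sub {a b : ℝ} (ha : 0 < a) (hb : 0 < b) : Real.log a - Real.log b ≤ (a - b) / b := by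
  rw [← Real.log_div ha.ne' hb.ne']
  have := Real.log_le_sub_one_of_pos (div_pos ha hb)
  have e : a / b - 1 = (a - b) / b := by field_simp
  linarith

/-- **U3e** -/
theorem b1_phi_cont' (d : ℕ) (hd : 3 ≤ d) (κb : ℝ) (hκ : 0 < κb) : ∃ C : ℝ, ∀ e η : ℝ, RgBulk d κb e → 0 < η →
    η ≤ b1h κb → rgPhi d (rgz e η) ≤ rgPhi d (e : ℂ) + C * η := by
  have hs : 0 < Real.sqrt (κb / 8) := Real.sqrt_pos.mpr (by positivity)
  have hb := phx_b_ge d hd
  refine ⟨4 * d / Real.sqrt (κb / 8), fun e η he hη hh => ?_⟩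
  have he' : e ^ 2 ≤ 4 * ((d : ℝ) - 1) - κb := he
  have hz : 0 < (rgz e η).im := hη
  set g := rgg d (rgz e η) with hg
  set g₀ := rgg d (e : ℂ) with hg₀
  have hcav : TgCav d (rgz e η) g := tgr_cav (by omega) _
  obtain ⟨hcav₀, him₀⟩ := b1_g_cav' d hd (e : ℂ) (by simp) (by simp; linarith)
  have hcav₀' : TgCav d (e : ℂ) g₀ := hcav₀
  have him := tgr_im_pos (d := d) (by omega) hz
  -- `b |g₀|² = 1`
  have hN₀ : ((d : ℝ) - 1) * Complex.normSq g₀ = 1 := by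
    have := tg_im_eq hcav₀'
    simp only [Complex.ofReal_im, zero_mul] at this
    rcases mul_eq_zero.mp this with h | h
    · exact absurd h him₀.ne'
    · linarith
  have hn₀ : ‖g₀‖ ^ 2 ≤ 1 / 2 := by
    rw [← Complex.normSq_eq_norm_sq]
    nlinarith [Complex.normSq_nonneg g₀]
  have hn₀' : ‖g₀‖ ≤ 3 / 4 := by nlinarith [norm_nonneg g₀]
  have hn := b1x_g_sq_le d hd hz
  have hn' := (tgr_bounds hd hz).1
  rw [← hg] at hn hn'
  -- Lipschitz
  have hlip := tg_lip hcav hcav₀' (by omega) hz.le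
  have hzz : ‖rgz e η - (e : ℂ)‖ = η := by
    have : rgz e η - (e : ℂ) = ((η : ℝ) : ℂ) * Complex.I := by
      apply Complex.ext <;> simp [rgz]
    rw [this, norm_mul, Complex.norm_I, mul_one, Complex.norm_real, Real.norm_eq_abs, abs_of_pos hη]
  rw [hzz] at hlip
  have hge := b1x_im_ge d hd hκ he hη hh
  rw [← hg] at hge
  set D := ‖g - g₀‖ with hD
  have hD0 : 0 ≤ D := norm_nonneg _
  have hDle : D ≤ η / Real.sqrt (κb / 8) := by
    rw [le_div_iff₀ hs]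
    have h5 : Real.sqrt (κb / 8) ≤ ((d : ℝ) - 1) * (g.im + g₀.im) := by
      have : 0 ≤ ((d : ℝ) - 1) * g₀.im := by positivity
      nlinarith
    calc D * Real.sqrt (κb / 8) = Real.sqrt (κb / 8) * D := mul_comm _ _
      _ ≤ ((d : ℝ) - 1) * (g.im + g₀.im) * D := mul_le_mul_of_nonneg_right h5 hD0
      _ ≤ η * ‖g₀‖ := hlip
      _ ≤ η * 1 := mul_le_mul_of_nonneg_left (by linarith) hη.le
      _ = η := mul_one _
  -- lower bound of `‖g‖`
  have h16 := b1x_h_sq hκ hη.le hh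
  have hNge := tg_normSq_ge hcav (by omega) hz him (by rw [rg_z_im, rg_z_re]; linarith)
  have hgpos : 0 < ‖g‖ := norm_pos_iff.mpr (tg_ne_zero hcav)
  have hg₀pos : 0 < ‖g₀‖ := norm_pos_iff.mpr (tg_ne_zero hcav₀')
  have hgge : 1 / (2 * ((d : ℝ) - 1)) ≤ ‖g‖ := by
    rw [Complex.normSq_eq_norm_sq] at hNge
    rw [div_le_iff₀ (by linarith)]
    nlinarith
  -- first logarithm
  have l1 : Real.log ‖g₀‖ - Real.log ‖g‖ ≤ 2 * ((d : ℝ) - 1) * D := by
    refine (phx_log_sub hg₀pos hgpos).trans ?_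
    rw [div_le_iff₀ hgpos]
    have a1 : ‖g₀‖ - ‖g‖ ≤ D := by
      rw [hD, norm_sub_rev]; exact norm_sub_norm_le _ _
    have a2 : 1 ≤ 2 * ((d : ℝ) - 1) * ‖g‖ := by
      rw [div_le_iff₀ (by linarith)] at hgge
      linarith
    nlinarith
  -- second logarithm
  have b1 : 1 / 2 ≤ ‖1 - g ^ 2‖ := by
    have := norm_sub_norm_le (1 : ℂ) (g ^ 2)
    rw [norm_one, norm_pow] at this
    linarith
  have b2 : 1 / 2 ≤ ‖1 - g₀ ^ 2‖ := by
    have := norm_sub_norm_le (1 : ℂ) (g₀ ^ 2)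
    rw [norm_one, norm_pow] at this
    linarith
  have l2 : Real.log ‖1 - g₀ ^ 2‖ - Real.log ‖1 - g ^ 2‖ ≤ 4 * D := by
    refine (phx_log_sub (by linarith) (by linarith)).trans ?_
    rw [div_le_iff₀ (by linarith)]
    have a1 : ‖1 - g₀ ^ 2‖ - ‖1 - g ^ 2‖ ≤ ‖(1 - g₀ ^ 2) - (1 - g ^ 2)‖ := norm_sub_norm_le _ _
    have a2 : (1 - g₀ ^ 2) - (1 - g ^ 2) = (g - g₀) * (g + g₀) := by ring
    rw [a2, norm_mul] at a1
    have a3 : ‖g + g₀‖ ≤ 3 / 2 := (norm_add_le _ _).trans (by linarith)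
    nlinarith
  rw [rgPhi, rgPhi, ← hg, ← hg₀]
  have l2' : ((d : ℝ) - 2) / 2 * (Real.log ‖1 - g₀ ^ 2‖ - Real.log ‖1 - g ^ 2‖) ≤ ((d : ℝ) - 2) / 2 * (4 * D) :=
    mul_le_mul_of_nonneg_left l2 (by linarith)
  have hfin : (2 * ((d : ℝ) - 1) + ((d : ℝ) - 2) / 2 * 4) * D ≤ 4 * d / Real.sqrt (κb / 8) * η := by
    have c1 : 2 * ((d : ℝ) - 1) + ((d : ℝ) - 2) / 2 * 4 ≤ 4 * d := by linarith
    calc (2 * ((d : ℝ) - 1) + ((d : ℝ) - 2) / 2 * 4) * D ≤ 4 * d * D := mul_le_mul_of_nonneg_right c1 hD0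
      _ ≤ 4 * d * (η / Real.sqrt (κb / 8)) := mul_le_mul_of_nonneg_left hDle (by linarith)
      _ = _ := by ring
  nlinarith

end Claimed.Agent.R287
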