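-- KEEP
import Claimed.Agent.R287.B1
import Claimed.Agent.R287.Phi270
import Claimed.Agent.R287.Eig

/-!
# Row 287 (S0534), unit B1, section U3 = the vertical line: one sided log-determinant `b1_X3`      head helper271, owner of the file helper57

Split off `B1.lean` (sections 1-7 = contracts, descent, X1, X2) so that the two files are edited by different seats.
Leaves: `b1_ld_deriv`, `b1_ld_top` (graph side, helper57), `b1_phi_deriv`, `b1_phi_top`, `b1_phi_cont` (tree side, helper270: primed versions in his file, closed here by calls),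
`b1_u3_high` (closed: helper270), `b1_u3_low` (from `b1_state`), **`b1_X3a`** (error `n^(-c)`, `c` free of `α`, against `Φ(E + iη)`; form asked by helper274), `b1_X3` (from `b1_X3a` + `b1_phi_cont`).
STATE: 0 sorry in this file; the only debts are `b1_state`, `b1_tr_le` of `B1.lean`.
-/

set_option autoImplicit false

namespace Claimed.Agent.R287

open Claims.C0462

/-! ## 8. U3: the vertical line (leaves: calculus 270 / free; glue 271) -/

/-- one term of the log-determinant -/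
theorem b1_u3_norm (l e u : ℝ) : ‖((l : ℝ) : ℂ) - rgz e u‖ = Real.sqrt ((l - e) ^ 2 + u ^ 2) := by
  rw [Complex.norm_def, rs_normSq]
  rfl

theorem b1_u3_term_deriv (l e : ℝ) {u : ℝ} (hu : 0 < u) :
    HasDerivAt (fun u : ℝ => Real.log ‖((l : ℝ) : ℂ) - rgz e u‖) (u / ((l - e) ^ 2 + u ^ 2)) u := by
  have hpos : 0 < (l - e) ^ 2 + u ^ 2 := by positivity
  have h1 : HasDerivAt (fun u : ℝ => (l - e) ^ 2 + u ^ 2) (2 * u) u := by
    have := (hasDerivAt_pow 2 u).const_add ((l - e) ^ 2)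
    simpa using this
  have h2 := (h1.log hpos.ne').const_mul (1 / 2 : ℝ)
  have e1 : (fun u : ℝ => Real.log ‖((l : ℝ) : ℂ) - rgz e u‖) = fun u : ℝ => 1 / 2 * Real.log ((l - e) ^ 2 + u ^ 2) := by
    funext v
    rw [b1_u3_norm, Real.log_sqrt (by positivity)]
    ring
  rw [e1]
  have e2 : u / ((l - e) ^ 2 + u ^ 2) = 1 / 2 * (2 * u / ((l - e) ^ 2 + u ^ 2)) := by ring
  rw [e2]
  exact h2

theorem b1_u3_tr_im {n : ℕ} (H : Gr n) (e : ℝ) {u : ℝ} (hu : 0 < u) :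
    (rgTr H (rgz e u)).im = (∑ i, u / (((rg_A_herm H).eigenvalues i - e) ^ 2 + u ^ 2)) / n := by
  have h := rs_trace_im (rg_A_herm H) (z := rgz e u) (by rw [rg_z_im]; exact hu.ne')
  rw [rg_z_im, rg_z_re] at h
  rw [← h, rgTr]
  have : (∑ x, rgG H (rgz e u) x x) = (rsG (rgA H) (rgz e u)).trace := rfl
  rw [this, Complex.div_natCast_im]


/-- **U3a** `∂_u n⁻¹ ∑ log|λ_i - e - iu| = Im m_n(e+iu)`, integrated.   Plan: FTC for each `i`: `d/du log √((λ-e)²+u²) = u/((λ-e)²+u²)`; `rs_trace`. -/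
theorem b1_ld_deriv {n : ℕ} (H : Gr n) (e : ℝ) {η U : ℝ} (hη : 0 < η) (hU : η ≤ U) :
    rgLd H (rgz e η) = rgLd H (rgz e U) - ∫ u in η..U, (rgTr H (rgz e u)).im := by
  have hsub : ∀ u ∈ Set.uIcc η U, 0 < u := fun u hu => by
    rw [Set.uIcc_of_le hU] at hu
    exact lt_of_lt_of_le hη hu.1
  have hd : ∀ u ∈ Set.uIcc η U, HasDerivAt (fun u : ℝ => rgLd H (rgz e u)) ((rgTr H (rgz e u)).im) u := by
    intro u hu
    have hu0 := hsub u hu
    rw [b1_u3_tr_im H e hu0]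
    unfold rgLd
    refine HasDerivAt.div_const ?_ _
    exact HasDerivAt.fun_sum fun i _ => b1_u3_term_deriv _ e hu0
  have hint : IntervalIntegrable (fun u : ℝ => (rgTr H (rgz e u)).im) MeasureTheory.volume η U := by
    refine ContinuousOn.intervalIntegrable ?_
    have : ContinuousOn (fun u : ℝ => (∑ i, u / (((rg_A_herm H).eigenvalues i - e) ^ 2 + u ^ 2)) / n) (Set.uIcc η U) := by
      refine ContinuousOn.div_const ?_ _
      refine continuousOn_finsetSum _ fun i _ => ?_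
      refine ContinuousOn.div continuousOn_id (by fun_prop) fun u hu => ?_
      have := hsub u hu
      positivity
    exact this.congr fun u hu => b1_u3_tr_im H e (hsub u hu)
  have := intervalIntegral.integral_eq_sub_of_hasDerivAt hd hint
  rw [this]
  ring

/-- the explicit branch is holomorphic on the strip -/
theorem b1_u3_g_diff (d : ℕ) {z : ℂ} (hb : z.re ^ 2 < 4 * ((d : ℝ) - 1)) : DifferentiableAt ℂ (rgg d) z := by
  have hs : 4 * ((d : ℂ) - 1) - z ^ 2 ∈ Complex.slitPlane := by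
    rw [Complex.mem_slitPlane_iff]
    left
    have : (4 * ((d : ℂ) - 1) - z ^ 2).re = 4 * ((d : ℝ) - 1) - (z.re ^ 2 - z.im ^ 2) := by
      simp [pow_two]
    rw [this]
    nlinarith [sq_nonneg z.im]
  have h1 : DifferentiableAt ℂ (fun z : ℂ => 4 * ((d : ℂ) - 1) - z ^ 2) z := by fun_prop
  have h2 : DifferentiableAt ℂ (fun z : ℂ => (4 * ((d : ℂ) - 1) - z ^ 2) ^ (1 / 2 : ℂ)) z := h1.cpow_const hs
  unfold rgg
  fun_prop

/-- the complex log-potential -/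
noncomputable def b1u3F (d : ℕ) (z : ℂ) : ℂ :=
  - Complex.log (rgg d z) - ((((d : ℝ) - 2) / 2 : ℝ) : ℂ) * Complex.log (1 - rgg d z ^ 2)

theorem b1_u3_eqns_cite : True := by
  have := @b1u3F.eq_1
  trivial

theorem b1_u3_F_re (d : ℕ) (z : ℂ) : (b1u3F d z).re = rgPhi d z := by
  unfold b1u3F rgPhi
  rw [Complex.sub_re, Complex.neg_re, Complex.re_ofReal_mul, Complex.log_re, Complex.log_re]

theorem b1_u3_F_deriv (d : ℕ) (hd : 3 ≤ d) {z : ℂ} (hz : 0 < z.im) (hb : z.re ^ 2 < 4 * ((d : ℝ) - 1)) :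
    HasDerivAt (b1u3F d) (- rgm d z) z := by
  obtain ⟨g, hg⟩ : ∃ g, g = rgg d z := ⟨_, rfl⟩
  have hD := (b1_u3_g_diff d hb).hasDerivAt
  obtain ⟨D, hDd⟩ : ∃ D, D = deriv (rgg d) z := ⟨_, rfl⟩
  rw [← hDd] at hD
  have hcav : ((d : ℂ) - 1) * g ^ 2 + z * g + 1 = 0 := hg ▸ tgr_cav (by omega) z
  -- implicit differentiation
  have h0 : HasDerivAt (fun w : ℂ => ((d : ℂ) - 1) * rgg d w ^ 2 + w * rgg d w + 1) (((d : ℂ) - 1) * (2 * g * D) + (1 * g + z * D)) z := by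
    have a1 := (hD.pow 2).const_mul ((d : ℂ) - 1)
    have a2 := (hasDerivAt_id z).mul hD
    have a3 := (a1.add a2).add_const (1 : ℂ)
    rw [hg]
    refine HasDerivAt.congr_deriv (f' := ((d : ℂ) - 1) * ((2 : ℕ) * rgg d z ^ (2 - 1) * D) + (1 * rgg d z + id z * D)) a3 ?_
    simp
  have h0' : HasDerivAt (fun w : ℂ => ((d : ℂ) - 1) * rgg d w ^ 2 + w * rgg d w + 1) 0 z := by
    have : (fun w : ℂ => ((d : ℂ) - 1) * rgg d w ^ 2 + w * rgg d w + 1) = fun _ => 0 := by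
      funext w
      exact tgr_cav (by omega) w
    rw [this]
    exact hasDerivAt_const z (0 : ℂ)
  have himp := h0.unique h0'
  have him : 0 < g.im := hg ▸ tgr_im_pos (by omega) hz
  have hg0 : g ≠ 0 := fun h => by rw [h] at him; simp at him
  have hsq : ‖g‖ ^ 2 ≤ 1 / 2 := hg ▸ b1x_g_sq_le d hd hz
  have hbg : ((d : ℝ) - 1) * ‖g‖ ^ 2 < 1 := hg ▸ tgr_normSq_lt (by omega) hz
  have h1g : 1 - g ^ 2 ≠ 0 := by
    intro h
    have : g ^ 2 = 1 := by linear_combination -h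
    have h2 : ‖g‖ ^ 2 = 1 := by rw [← norm_pow, this, norm_one]
    linarith
  have h1b : 1 - ((d : ℂ) - 1) * g ^ 2 ≠ 0 := by
    intro h
    have : ((d : ℂ) - 1) * g ^ 2 = 1 := by linear_combination -h
    have h2 : ‖((d : ℂ) - 1) * g ^ 2‖ = 1 := by rw [this, norm_one]
    rw [norm_mul, norm_pow] at h2
    have h3 : ‖(d : ℂ) - 1‖ = (d : ℝ) - 1 := by
      have : ((d : ℂ) - 1) = (((d : ℝ) - 1 : ℝ) : ℂ) := by push_cast; ring
      rw [this, Complex.norm_real, Real.norm_of_nonneg]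
      have : (3 : ℝ) ≤ d := by exact_mod_cast hd
      linarith
    rw [h3] at h2
    linarith
  have hDg : D * (1 - ((d : ℂ) - 1) * g ^ 2) = g ^ 2 := by
    linear_combination (-g) * himp + D * hcav
  -- the derivative of `F`
  have hs1 : rgg d z ∈ Complex.slitPlane := by
    rw [Complex.mem_slitPlane_iff, ← hg]
    exact Or.inr him.ne'
  have hs2 : 1 - rgg d z ^ 2 ∈ Complex.slitPlane := by
    rw [Complex.mem_slitPlane_iff, ← hg]
    left
    have h1 : (g ^ 2).re ≤ ‖g ^ 2‖ := Complex.re_le_norm _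
    rw [norm_pow] at h1
    rw [Complex.sub_re, Complex.one_re]
    linarith
  have b1 := (hD.clog hs1).neg
  have b2 := (((hD.pow 2).const_sub (1 : ℂ)).clog hs2).const_mul ((((d : ℝ) - 2) / 2 : ℝ) : ℂ)
  have b3 := b1.sub b2
  refine HasDerivAt.congr_deriv (f := b1u3F d) b3 ?_
  simp only [Pi.pow_apply]
  rw [← hg, rgm, ← hg]
  push_cast
  field_simp
  linear_combination (-1 : ℂ) * hDg

theorem b1_u3_z_deriv (e u : ℝ) : HasDerivAt (fun u : ℝ => rgz e u) Complex.I u := by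
  have e1 : (fun u : ℝ => rgz e u) = fun u : ℝ => (e : ℂ) + (u : ℂ) * Complex.I := by
    funext v
    apply Complex.ext <;> simp [rgz]
  rw [e1]
  have := ((Complex.ofRealCLM.hasDerivAt (x := u)).mul_const Complex.I).const_add (e : ℂ)
  simpa using this

theorem b1_u3_phi_hasDeriv (d : ℕ) (hd : 3 ≤ d) (e : ℝ) (he : e ^ 2 < 4 * ((d : ℝ) - 1)) {u : ℝ} (hu : 0 < u) :
    HasDerivAt (fun u : ℝ => rgPhi d (rgz e u)) ((rgm d (rgz e u)).im) u := by
  have h1 := (b1_u3_F_deriv d hd (z := rgz e u) hu he).scomp u (b1_u3_z_deriv e u)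
  have h2 := Complex.reCLM.hasFDerivAt.comp_hasDerivAt u h1
  have e1 : (fun u : ℝ => rgPhi d (rgz e u)) = (Complex.reCLM ∘ (b1u3F d ∘ fun u : ℝ => rgz e u)) := by
    funext v
    exact (b1_u3_F_re d _).symm
  rw [e1]
  refine HasDerivAt.congr_deriv h2 ?_
  simp

theorem b1_u3_m_cont (d : ℕ) (hd : 3 ≤ d) (e : ℝ) (he : e ^ 2 < 4 * ((d : ℝ) - 1)) :
    ContinuousOn (fun u : ℝ => rgm d (rgz e u)) (Set.Ioi 0) := by
  intro u hu
  have hu0 : 0 < u := hu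
  have hg : ContinuousAt (fun u : ℝ => rgg d (rgz e u)) u :=
    ((b1_u3_g_diff d (z := rgz e u) he).continuousAt).comp (b1_u3_z_deriv e u).continuousAt
  refine ContinuousAt.continuousWithinAt ?_
  unfold rgm
  refine hg.div (continuousAt_const.sub (hg.pow 2)) ?_
  intro h
  have h1 : rgg d (rgz e u) ^ 2 = 1 := by linear_combination -h
  have h2 : ‖rgg d (rgz e u)‖ ^ 2 = 1 := by rw [← norm_pow, h1, norm_one]
  have := b1x_g_sq_le d hd (z := rgz e u) hu0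
  linarith


/-- **U3b** the same for the tree (A4 S2, A1 K2.6): `∂_u Φ(e+iu) = Im m_d(e+iu)`. -/
theorem b1_phi_deriv (d : ℕ) (hd : 3 ≤ d) (e : ℝ) (he : e ^ 2 < 4 * ((d : ℝ) - 1)) {η U : ℝ} (hη : 0 < η) (hU : η ≤ U) :
    rgPhi d (rgz e η) = rgPhi d (rgz e U) - ∫ u in η..U, (rgm d (rgz e u)).im := by
  have hsub : ∀ u ∈ Set.uIcc η U, 0 < u := fun u hu => by
    rw [Set.uIcc_of_le hU] at hu
    exact lt_of_lt_of_le hη hu.1
  have hint : IntervalIntegrable (fun u : ℝ => (rgm d (rgz e u)).im) MeasureTheory.volume η U := by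
    refine ContinuousOn.intervalIntegrable ?_
    exact Complex.continuous_im.comp_continuousOn ((b1_u3_m_cont d hd e he).mono fun u hu => hsub u hu)
  have := intervalIntegral.integral_eq_sub_of_hasDerivAt (fun u hu => b1_u3_phi_hasDeriv d hd e he (hsub u hu)) hint
  rw [this]
  ring

/-- `∑ λ_i² = n d` -/
theorem b1_u3_eig_sq (d : ℕ) {n : ℕ} (H : Gr n) (hH : H ∈ regularGraphs n d) :
    ∑ i, (rg_A_herm H).eigenvalues i ^ 2 = n * d := by
  classical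
  rw [← eig_trace_sq (rg_A_herm H), Matrix.trace]
  have h : ∀ x, (rgA H * rgA H).diag x = d := by
    intro x
    have hx := (b1x_mem_reg n d H).1 hH x
    rw [Matrix.diag_apply, Matrix.mul_apply]
    have : ∀ y, rgA H x y * rgA H y x = if H.Adj x y then 1 else 0 := by
      intro y
      unfold rgA
      rw [SimpleGraph.adjMatrix_apply, SimpleGraph.adjMatrix_apply]
      by_cases hxy : H.Adj x y
      · simp [hxy, hxy.symm]
      · simp [hxy]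
    rw [Finset.sum_congr rfl fun y _ => this y, Finset.sum_boole, ← hx]
    unfold tgDeg
    congr 2
  rw [Finset.sum_congr rfl fun x _ => h x, Finset.sum_const, Finset.card_univ, Fintype.card_fin, nsmul_eq_mul]

theorem b1_u3_term_le (l e : ℝ) {U : ℝ} (hU : 0 < U) :
    Real.log ‖((l : ℝ) : ℂ) - rgz e U‖ ≤ Real.log U + (l ^ 2 + e ^ 2) / U ^ 2 := by
  rw [b1_u3_norm, Real.log_sqrt (by positivity)]
  have hU2 : 0 < U ^ 2 := by positivity
  have e1 : (l - e) ^ 2 + U ^ 2 = U ^ 2 * (1 + (l - e) ^ 2 / U ^ 2) := by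
    field_simp
    ring
  have hp : 0 < 1 + (l - e) ^ 2 / U ^ 2 := by positivity
  rw [e1, Real.log_mul hU2.ne' hp.ne', Real.log_pow]
  have h1 := Real.log_le_sub_one_of_pos hp
  have h2 : (l - e) ^ 2 / U ^ 2 ≤ 2 * ((l ^ 2 + e ^ 2) / U ^ 2) := by
    rw [← mul_div_assoc]
    refine div_le_div_of_nonneg_right ?_ hU2.le
    nlinarith [sq_nonneg (l + e)]
  push_cast
  linarith


/-- **U3c** top of the line, graph side: `|λ_i| ≤ d`. -/
theorem b1_ld_top (d : ℕ) {n : ℕ} (hn : 1 ≤ n) (H : Gr n) (hH : H ∈ regularGraphs n d) (e : ℝ) (he : |e| ≤ d) {U : ℝ} (hU : 0 < U) :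
    rgLd H (rgz e U) ≤ Real.log U + 2 * (d : ℝ) ^ 2 / U ^ 2 := by
  have hn0 : (0 : ℝ) < n := by exact_mod_cast hn
  have hU2 : 0 < U ^ 2 := by positivity
  unfold rgLd
  rw [div_le_iff₀ hn0]
  refine (Finset.sum_le_sum fun i _ => b1_u3_term_le ((rg_A_herm H).eigenvalues i) e hU).trans ?_
  rw [Finset.sum_add_distrib, ← Finset.sum_div, Finset.sum_add_distrib, b1_u3_eig_sq d H hH]
  simp only [Finset.sum_const, Finset.card_univ, Fintype.card_fin, nsmul_eq_mul]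
  have hd : (d : ℝ) ≤ (d : ℝ) ^ 2 := by
    rcases Nat.eq_zero_or_pos d with h | h
    · simp [h]
    · have : (1 : ℝ) ≤ d := by exact_mod_cast h
      nlinarith
  have he2 : e ^ 2 ≤ (d : ℝ) ^ 2 := by
    rw [← sq_abs e]
    exact pow_le_pow_left₀ (abs_nonneg e) he 2
  have : ((n : ℝ) * d + n * e ^ 2) / U ^ 2 ≤ 2 * (d : ℝ) ^ 2 / U ^ 2 * n := by
    rw [div_mul_eq_mul_div]
    refine div_le_div_of_nonneg_right ?_ hU2.le
    nlinarith
  linarith

/-- **U3d** top of the line, tree side. -/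
theorem b1_phi_top (d : ℕ) (hd : 3 ≤ d) : ∃ C U0 : ℝ, ∀ e U : ℝ, e ^ 2 < 4 * ((d : ℝ) - 1) → U0 ≤ U → Real.log U - C / U ≤ rgPhi d (rgz e U) :=
  b1_phi_top' d hd

/-- **U3e** bottom of the line, tree side. -/
theorem b1_phi_cont (d : ℕ) (hd : 3 ≤ d) (κb : ℝ) (hκ : 0 < κb) : ∃ C : ℝ, ∀ e η : ℝ, RgBulk d κb e → 0 < η → η ≤ b1h κb →
    rgPhi d (rgz e η) ≤ rgPhi d (e : ℂ) + C * η :=
  b1_phi_cont' d hd κb hκ

/-- **U3f** (E10, E12) the trace above the constant height: Combes-Thomas at the logarithmic radius on the tree-like vertices (`b1_L0_log`), `|G_xx - m_d| ≤ C/u²` on the others. -/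
theorem b1_u3_high (d : ℕ) (hd : 3 ≤ d) (κb : ℝ) (hκ : 0 < κb) : ∃ c : ℝ, 0 < c ∧ ∃ (C : ℝ) (N : ℕ), ∀ n : ℕ, N ≤ n → ∀ e u : ℝ, RgBulk d κb e → b1h κb / 2 ≤ u →
    rgE n d (fun H => ‖rgTr H (rgz e u) - rgm d (rgz e u)‖) ≤ C * (n : ℝ) ^ (-c) / u ^ 2 :=
  b1_u3_high' d hd κb hκ (b1_L0_log d hd)

/-- expectation from a good event -/
theorem b1_u3_E_split {n d : ℕ} (F : Gr n → ℝ) (S : Gr n → Prop) {a K : ℝ} (ha : 0 ≤ a)
    (h1 : ∀ H ∈ regularGraphs n d, S H → F H ≤ a) (h2 : ∀ H ∈ regularGraphs n d, F H ≤ K) :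
    rgE n d F ≤ a + K * rgP n d (fun H => ¬ S H) := by
  classical
  have h : ∀ H ∈ regularGraphs n d, F H ≤ a * 1 + K * (if ¬ S H then 1 else 0) := by
    intro H hH
    by_cases hS : S H
    · simp only [hS, not_true_eq_false, if_false, mul_zero, add_zero, mul_one]
      exact h1 H hH hS
    · simp only [hS, not_false_eq_true, if_true, mul_one]
      have := h2 H hH
      linarith
  refine (rg_E_mono h).trans ?_
  rw [rg_E_add, rg_E_const_mul, rg_E_const_mul]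
  have := mul_le_mul_of_nonneg_left (rg_E_one_le (n := n) (d := d)) ha
  have e : rgP n d (fun H => ¬ S H) = rgE n d (fun H => if ¬ S H then 1 else 0) := by
    unfold rgP
    refine congrArg (rgE n d) (funext fun H => ?_)
    by_cases hS : S H <;> simp [hS]
  rw [e]
  linarith

theorem b1_u3_tr_norm {n : ℕ} (H : Gr n) {z : ℂ} (hz : 0 < z.im) : ‖rgTr H z‖ ≤ 1 / z.im := by
  unfold rgTr
  rcases Nat.eq_zero_or_pos n with h | h
  · subst h
    simp only [Finset.univ_eq_empty, Finset.sum_empty, zero_div, norm_zero]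
    positivity
  have hn0 : (0 : ℝ) < n := by exact_mod_cast h
  rw [norm_div, Complex.norm_natCast, div_le_iff₀ hn0]
  refine (norm_sum_le _ _).trans ((Finset.sum_le_sum fun x _ => rs_G_diag_le (rg_A_herm H) hz x).trans ?_)
  rw [Finset.sum_const, Finset.card_univ, Fintype.card_fin, nsmul_eq_mul]
  exact le_of_eq (mul_comm _ _)


/-- **U3g** first moment of the trace error below the constant height, from `b1_state` (`ε = 1/2`), `|m_n| ≤ 1/u` on the bad event. -/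
theorem b1_u3_low (d : ℕ) (hd : 3 ≤ d) (κb : ℝ) (hκ : 0 < κb) : ∃ (C : ℝ) (N : ℕ), ∀ n : ℕ, N ≤ n → ∀ e u : ℝ, RgBulk d κb e → (n : ℝ) ^ (-(1 / 20 : ℝ)) ≤ u → u < b1h κb →
    rgE n d (fun H => ‖rgTr H (rgz e u) - rgm d (rgz e u)‖) ≤ C * (n : ℝ) ^ (-(1 / 20 : ℝ)) := by
  obtain ⟨C, N, hst⟩ := b1_state d hd κb hκ (1 / 2) (by norm_num)
  obtain ⟨Ct, htv⟩ := b1_tv_bd d hd κb hκ
  refine ⟨1 + (1 + max Ct 0) * max C 0, max N 1, fun n hn e u he hu1 hu2 => ?_⟩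
  have hnN : N ≤ n := le_trans (le_max_left _ _) hn
  have hn1 : 1 ≤ n := le_trans (le_max_right _ _) hn
  have hnr : (1 : ℝ) ≤ n := by exact_mod_cast hn1
  have hn0 : (0 : ℝ) < n := by linarith
  have hx0 : 0 < (n : ℝ) ^ (-(1 / 20 : ℝ)) := Real.rpow_pos_of_pos hn0 _
  have hu0 : 0 < u := lt_of_lt_of_le hx0 hu1
  have hy : (n : ℝ) ^ (19 / 20 : ℝ) ≤ n * u := by
    calc (n : ℝ) ^ (19 / 20 : ℝ) = n * (n : ℝ) ^ (-(1 / 20 : ℝ)) := by
          rw [← Real.rpow_one_add' hn0.le (by norm_num)]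
          norm_num
      _ ≤ n * u := mul_le_mul_of_nonneg_left hu1 hn0.le
  have hy0 : 0 < (n : ℝ) ^ (19 / 20 : ℝ) := Real.rpow_pos_of_pos hn0 _
  have hyp : 0 < n * u := by positivity
  have hhalf : (n : ℝ) ^ (1 / 2 : ℝ) ≤ n * u :=
    (Real.rpow_le_rpow_of_exponent_le hnr (by norm_num)).trans hy
  have hP := hst n hnN e u he hhalf hu2
  have hmono : ∀ a : ℝ, 0 ≤ a → (n * u) ^ (-a) ≤ (n : ℝ) ^ (-(19 / 20 * a)) := by
    intro a ha
    calc (n * u) ^ (-a) ≤ ((n : ℝ) ^ (19 / 20 : ℝ)) ^ (-a) := Real.rpow_le_rpow_of_nonpos hy0 hy (by linarith)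
      _ = (n : ℝ) ^ (-(19 / 20 * a)) := by
          rw [← Real.rpow_mul hn0.le]
          congr 1
          ring
  have hz : 0 < (rgz e u).im := hu0
  have hm : ‖rgm d (rgz e u)‖ ≤ max Ct 0 := by
    have := htv e u he hu0 hu2.le 0
    rw [cth_tv_zero] at this
    exact this.trans (le_max_left _ _)
  have hsplit := b1_u3_E_split (n := n) (d := d) (fun H => ‖rgTr H (rgz e u) - rgm d (rgz e u)‖)
    (fun H => (∀ x y, ‖rgG H (rgz e u) x y‖ ≤ C) ∧ rgStarF d H (rgz e u) ≤ (n * u) ^ (-(1 / 2 : ℝ)))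
    (a := (n * u) ^ (-(1 / 4 : ℝ))) (K := 1 / u + max Ct 0) (Real.rpow_nonneg hyp.le _)
    (fun H _ hS => by
      have h1 := (b1_tr_le hn1 d H (rgz e u)).trans hS.2
      have h2 : (n * u) ^ (-(1 / 2 : ℝ)) = ((n * u) ^ (-(1 / 4 : ℝ))) ^ 2 := by
        rw [← Real.rpow_natCast, ← Real.rpow_mul hyp.le]
        norm_num
      rw [h2] at h1
      exact le_of_sq_le_sq h1 (Real.rpow_nonneg hyp.le _))
    (fun H _ => by
      have h1 := b1_u3_tr_norm H hz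
      rw [rg_z_im] at h1
      exact (norm_sub_le _ _).trans (add_le_add h1 hm))
  refine hsplit.trans ?_
  set X : ℝ := (n : ℝ) ^ (-(1 / 20 : ℝ)) with hX
  have hK0 : 0 ≤ 1 / u + max Ct 0 := by positivity
  have a1 : (n * u) ^ (-(1 / 4 : ℝ)) ≤ X :=
    (hmono (1 / 4) (by norm_num)).trans (Real.rpow_le_rpow_of_exponent_le hnr (by norm_num))
  have a2 : rgP n d (fun H => ¬ ((∀ x y, ‖rgG H (rgz e u) x y‖ ≤ C) ∧ rgStarF d H (rgz e u) ≤ (n * u) ^ (-(1 / 2 : ℝ))))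
      ≤ max C 0 * (n : ℝ) ^ (-(19 / 160 : ℝ)) := by
    refine hP.trans ?_
    have h8 := hmono (1 / 8) (by norm_num)
    rw [show (19 / 20 * (1 / 8) : ℝ) = 19 / 160 by norm_num] at h8
    calc C * (n * u) ^ (-(1 / 8 : ℝ)) ≤ max C 0 * (n * u) ^ (-(1 / 8 : ℝ)) :=
          mul_le_mul_of_nonneg_right (le_max_left _ _) (Real.rpow_nonneg hyp.le _)
      _ ≤ _ := mul_le_mul_of_nonneg_left h8 (le_max_right _ _)
  have a3 : 1 / u + max Ct 0 ≤ (1 + max Ct 0) * (n : ℝ) ^ (1 / 20 : ℝ) := by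
    have h1 : 1 / u ≤ (n : ℝ) ^ (1 / 20 : ℝ) := by
      rw [one_div, ← inv_inv ((n : ℝ) ^ (1 / 20 : ℝ)), ← Real.rpow_neg hn0.le]
      exact inv_anti₀ hx0 hu1
    have h2 : (1 : ℝ) ≤ (n : ℝ) ^ (1 / 20 : ℝ) := Real.one_le_rpow hnr (by norm_num)
    have h3 : 0 ≤ max Ct 0 := le_max_right _ _
    nlinarith
  have a4 : (n : ℝ) ^ (1 / 20 : ℝ) * (n : ℝ) ^ (-(19 / 160 : ℝ)) ≤ X := by
    rw [← Real.rpow_add hn0]
    exact Real.rpow_le_rpow_of_exponent_le hnr (by norm_num)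
  have hC0 : 0 ≤ max C 0 := le_max_right _ _
  have hCt0 : 0 ≤ max Ct 0 := le_max_right _ _
  calc (n * u) ^ (-(1 / 4 : ℝ)) + (1 / u + max Ct 0) * rgP n d _
      ≤ X + ((1 + max Ct 0) * (n : ℝ) ^ (1 / 20 : ℝ)) * (max C 0 * (n : ℝ) ^ (-(19 / 160 : ℝ))) :=
        add_le_add a1 (mul_le_mul a3 a2 (rg_P_nonneg _) (by positivity))
    _ = X + (1 + max Ct 0) * max C 0 * ((n : ℝ) ^ (1 / 20 : ℝ) * (n : ℝ) ^ (-(19 / 160 : ℝ))) := by ring
    _ ≤ X + (1 + max Ct 0) * max C 0 * X := by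
        have := mul_le_mul_of_nonneg_left a4 (mul_nonneg (by positivity : 0 ≤ 1 + max Ct 0) hC0)
        linarith
    _ = _ := by ring

theorem b1_u3_small {a ε : ℝ} (ha : 0 < a) (hε : 0 < ε) : ∃ N : ℕ, ∀ n : ℕ, N ≤ n → (n : ℝ) ^ (-a) < ε := by
  have h := ((tendsto_rpow_neg_atTop ha).comp tendsto_natCast_atTop_atTop).eventually (gt_mem_nhds hε)
  obtain ⟨N, hN⟩ := Filter.eventually_atTop.1 h
  exact ⟨N, fun n hn => hN n hn⟩

theorem b1_u3_z_cont (e : ℝ) : Continuous fun u : ℝ => rgz e u :=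
  continuous_iff_continuousAt.2 fun u => (b1_u3_z_deriv e u).continuousAt

theorem b1_u3_tr_cont {n : ℕ} (H : Gr n) (e : ℝ) : ContinuousOn (fun u : ℝ => rgTr H (rgz e u)) (Set.Ioi 0) := by
  have h1 : ContinuousOn (fun u : ℝ => (∑ i, ((((rg_A_herm H).eigenvalues i : ℝ) : ℂ) - rgz e u)⁻¹) / (n : ℂ)) (Set.Ioi 0) := by
    refine ContinuousOn.div_const ?_ _
    refine continuousOn_finsetSum _ fun i _ => ?_
    refine ContinuousOn.inv₀ (continuous_const.sub (b1_u3_z_cont e)).continuousOn fun u hu => ?_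
    exact rs_ne (by rw [rg_z_im]; exact ne_of_gt hu)
  refine h1.congr fun u hu => ?_
  have := rs_trace (rg_A_herm H) (z := rgz e u) (by rw [rg_z_im]; exact ne_of_gt hu)
  show rgTr H (rgz e u) = (∑ i, ((((rg_A_herm H).eigenvalues i : ℝ) : ℂ) - rgz e u)⁻¹) / (n : ℂ)
  rw [← this]
  rfl

theorem b1_u3_err_cont (d : ℕ) (hd : 3 ≤ d) (e : ℝ) (he : e ^ 2 < 4 * ((d : ℝ) - 1)) {n : ℕ} (H : Gr n) :
    ContinuousOn (fun u : ℝ => ‖rgTr H (rgz e u) - rgm d (rgz e u)‖) (Set.Ioi 0) :=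
  ((b1_u3_tr_cont H e).sub (b1_u3_m_cont d hd e he)).norm

theorem b1_u3_ii {g : ℝ → ℝ} (hg : ContinuousOn g (Set.Ioi 0)) {a b : ℝ} (ha : 0 < a) (hab : a ≤ b) :
    IntervalIntegrable g MeasureTheory.volume a b := by
  refine ContinuousOn.intervalIntegrable (hg.mono fun u hu => ?_)
  rw [Set.uIcc_of_le hab] at hu
  exact lt_of_lt_of_le ha hu.1

/-- the vertical line, one graph -/
theorem b1_u3_det (d : ℕ) (hd : 3 ≤ d) {n : ℕ} (hn : 1 ≤ n) (H : Gr n) (hH : H ∈ regularGraphs n d) (e : ℝ) (he : e ^ 2 < 4 * ((d : ℝ) - 1))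
    (hed : |e| ≤ d) {η U C : ℝ} (hη : 0 < η) (hU : η ≤ U) (htop : Real.log U - C / U ≤ rgPhi d (rgz e U)) :
    rgLd H (rgz e η) ≤ rgPhi d (rgz e η)
      + (2 * (d : ℝ) ^ 2 / U ^ 2 + C / U + ∫ u in η..U, ‖rgTr H (rgz e u) - rgm d (rgz e u)‖) := by
  rw [b1_ld_deriv H e hη hU, b1_phi_deriv d hd e he hη hU]
  have top := b1_ld_top d hn H hH e hed (lt_of_lt_of_le hη hU)
  have i1 : IntervalIntegrable (fun u : ℝ => (rgTr H (rgz e u)).im) MeasureTheory.volume η U :=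
    b1_u3_ii (Complex.continuous_im.comp_continuousOn (b1_u3_tr_cont H e)) hη hU
  have i2 : IntervalIntegrable (fun u : ℝ => (rgm d (rgz e u)).im) MeasureTheory.volume η U :=
    b1_u3_ii (Complex.continuous_im.comp_continuousOn (b1_u3_m_cont d hd e he)) hη hU
  have i3 := b1_u3_ii (b1_u3_err_cont d hd e he H) hη hU
  have key : (∫ u in η..U, (rgm d (rgz e u)).im) - ∫ u in η..U, (rgTr H (rgz e u)).im
      ≤ ∫ u in η..U, ‖rgTr H (rgz e u) - rgm d (rgz e u)‖ := by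
    rw [← intervalIntegral.integral_sub i2 i1]
    refine intervalIntegral.integral_mono_on hU (i2.sub i1) i3 fun u _ => ?_
    have h1 := Complex.abs_im_le_norm (rgTr H (rgz e u) - rgm d (rgz e u))
    rw [Complex.sub_im] at h1
    have h2 := neg_abs_le ((rgTr H (rgz e u)).im - (rgm d (rgz e u)).im)
    linarith
  linarith

theorem b1_u3_E_int {n d : ℕ} (f : Gr n → ℝ → ℝ) {a b : ℝ}
    (hf : ∀ H ∈ regularGraphs n d, IntervalIntegrable (f H) MeasureTheory.volume a b) :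
    rgE n d (fun H => ∫ u in a..b, f H u) = ∫ u in a..b, rgE n d (fun H => f H u) := by
  unfold rgE
  rw [intervalIntegral.integral_div, intervalIntegral.integral_finsetSum hf]

theorem b1_u3_E_cont {n d : ℕ} (f : Gr n → ℝ → ℝ) {s : Set ℝ} (hf : ∀ H, ContinuousOn (f H) s) :
    ContinuousOn (fun u => rgE n d (fun H => f H u)) s := by
  unfold rgE
  exact ContinuousOn.div_const (continuousOn_finsetSum _ fun H _ => hf H) _

theorem b1_u3_int_le {g : ℝ → ℝ} {η h U B₁ B₂ : ℝ} (hη : 0 < η) (hηh : η ≤ h) (hhU : h ≤ U) (hg : ContinuousOn g (Set.Ioi 0))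
    (hB₁ : 0 ≤ B₁) (hB₂ : 0 ≤ B₂) (h1 : ∀ u ∈ Set.Icc η h, g u ≤ B₁) (h2 : ∀ u ∈ Set.Icc h U, g u ≤ B₂ / u ^ 2) :
    ∫ u in η..U, g u ≤ h * B₁ + B₂ / h := by
  have hh : 0 < h := lt_of_lt_of_le hη hηh
  have hU0 : 0 < U := lt_of_lt_of_le hh hhU
  rw [← intervalIntegral.integral_add_adjacent_intervals (b1_u3_ii hg hη hηh) (b1_u3_ii hg hh hhU)]
  have a1 : ∫ u in η..h, g u ≤ h * B₁ := by
    refine (intervalIntegral.integral_mono_on hηh (b1_u3_ii hg hη hηh) intervalIntegrable_const h1).trans ?_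
    rw [intervalIntegral.integral_const, smul_eq_mul]
    nlinarith
  have a2 : ∫ u in h..U, g u ≤ B₂ / h := by
    have hc : ContinuousOn (fun u : ℝ => B₂ / u ^ 2) (Set.Ioi 0) :=
      continuousOn_const.div (by fun_prop) fun u hu => by
        have : 0 < u := hu
        positivity
    refine (intervalIntegral.integral_mono_on hhU (b1_u3_ii hg hh hhU) (b1_u3_ii hc hh hhU) h2).trans ?_
    have hd : ∀ u ∈ Set.uIcc h U, HasDerivAt (fun u : ℝ => - (B₂ * u⁻¹)) (B₂ / u ^ 2) u := by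
      intro u hu
      rw [Set.uIcc_of_le hhU] at hu
      have hu0 : u ≠ 0 := (lt_of_lt_of_le hh hu.1).ne'
      have := ((hasDerivAt_inv hu0).const_mul B₂).neg
      refine this.congr_deriv ?_
      rw [div_eq_mul_inv]
      ring
    rw [intervalIntegral.integral_eq_sub_of_hasDerivAt hd (b1_u3_ii hc hh hhU)]
    have : 0 ≤ B₂ * U⁻¹ := by positivity
    rw [div_eq_mul_inv]
    linarith
  linarith


/-- first moment of the error integral over the vertical line -/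
theorem b1_u3_EJ (d : ℕ) (hd : 3 ≤ d) (κb : ℝ) (hκ : 0 < κb) : ∃ c₀ : ℝ, 0 < c₀ ∧ c₀ ≤ 1 / 20 ∧ ∃ (K : ℝ) (N : ℕ), 0 ≤ K ∧ ∀ n : ℕ, N ≤ n →
    ∀ e η : ℝ, RgBulk d κb e → (n : ℝ) ^ (-(1 / 20 : ℝ)) ≤ η → η < b1h κb →
      rgE n d (fun H => ∫ u in η..(n : ℝ), ‖rgTr H (rgz e u) - rgm d (rgz e u)‖) ≤ K * (n : ℝ) ^ (-c₀) := by
  obtain ⟨h, hhd⟩ : ∃ h : ℝ, h = b1h κb := ⟨_, rfl⟩
  have hh0 : 0 < h := hhd ▸ b1x_h_pos hκ
  have hh1 : h ≤ 1 := by rw [hhd]; exact min_le_left _ _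
  obtain ⟨c₁, hc₁, C₁, N₁, hhigh⟩ := b1_u3_high d hd κb hκ
  obtain ⟨C₂, N₂, hlow⟩ := b1_u3_low d hd κb hκ
  obtain ⟨c₀, hc₀d⟩ : ∃ c₀ : ℝ, c₀ = min c₁ (1 / 20) := ⟨_, rfl⟩
  have hc₀ : 0 < c₀ := by rw [hc₀d]; exact lt_min hc₁ (by norm_num)
  have hc₀1 : c₀ ≤ c₁ := by rw [hc₀d]; exact min_le_left _ _
  have hc₀2 : c₀ ≤ 1 / 20 := by rw [hc₀d]; exact min_le_right _ _
  have hC₁ : 0 ≤ max C₁ 0 := le_max_right _ _
  have hC₂ : 0 ≤ max C₂ 0 := le_max_right _ _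
  refine ⟨c₀, hc₀, hc₀2, max C₂ 0 + 2 * max C₁ 0 / h, max (max N₁ N₂) 1, by positivity, fun n hn e η hbulk hηlow hηh => ?_⟩
  rw [← hhd] at hηh
  have hnN₁ : N₁ ≤ n := le_trans ((le_max_left _ _).trans (le_max_left _ _)) hn
  have hnN₂ : N₂ ≤ n := le_trans ((le_max_right _ _).trans (le_max_left _ _)) hn
  have hn1 : 1 ≤ n := le_trans (le_max_right _ _) hn
  have hnr : (1 : ℝ) ≤ n := by exact_mod_cast hn1
  have hn0 : (0 : ℝ) < n := by linarith
  have he2 : e ^ 2 < 4 * ((d : ℝ) - 1) := by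
    unfold RgBulk at hbulk
    linarith
  have hη0 : 0 < η := lt_of_lt_of_le (Real.rpow_pos_of_pos hn0 _) hηlow
  have hhU : h ≤ (n : ℝ) := hh1.trans hnr
  have hηU : η ≤ (n : ℝ) := hηh.le.trans hhU
  obtain ⟨X, hXd⟩ : ∃ X : ℝ, X = (n : ℝ) ^ (-c₀) := ⟨_, rfl⟩
  rw [← hXd]
  have hX0 : 0 < X := hXd ▸ Real.rpow_pos_of_pos hn0 _
  have hx1 : (n : ℝ) ^ (-c₁) ≤ X := hXd ▸ Real.rpow_le_rpow_of_exponent_le hnr (by linarith)
  have hx2 : (n : ℝ) ^ (-(1 / 20 : ℝ)) ≤ X := hXd ▸ Real.rpow_le_rpow_of_exponent_le hnr (by linarith)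
  rw [b1_u3_E_int _ fun H _ => b1_u3_ii (b1_u3_err_cont d hd e he2 H) hη0 hηU]
  have hhi : ∀ u : ℝ, h ≤ u → rgE n d (fun H => ‖rgTr H (rgz e u) - rgm d (rgz e u)‖) ≤ max C₁ 0 * X / u ^ 2 := by
    intro u hu
    have hu0 : 0 < u := lt_of_lt_of_le hh0 hu
    refine (hhigh n hnN₁ e u hbulk (by rw [← hhd]; linarith)).trans ?_
    refine div_le_div_of_nonneg_right ?_ (by positivity)
    exact mul_le_mul (le_max_left _ _) hx1 (Real.rpow_nonneg hn0.le _) hC₁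
  have hb := b1_u3_int_le (g := fun u => rgE n d (fun H => ‖rgTr H (rgz e u) - rgm d (rgz e u)‖)) (η := η) (h := h) (U := n)
    (B₁ := max C₂ 0 * X + max C₁ 0 * X / h ^ 2) (B₂ := max C₁ 0 * X) hη0 hηh.le hhU
    (b1_u3_E_cont _ fun H => b1_u3_err_cont d hd e he2 H) (by positivity) (by positivity)
    (fun u hu => by
      rcases lt_or_eq_of_le hu.2 with h' | h'
      · refine (hlow n hnN₂ e u hbulk (hηlow.trans hu.1) (hhd ▸ h')).trans ?_
        have : C₂ * (n : ℝ) ^ (-(1 / 20 : ℝ)) ≤ max C₂ 0 * X :=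
          mul_le_mul (le_max_left _ _) hx2 (Real.rpow_nonneg hn0.le _) hC₂
        have h3 : 0 ≤ max C₁ 0 * X / h ^ 2 := by positivity
        linarith
      · have := hhi u h'.ge
        rw [h'] at this ⊢
        have h3 : 0 ≤ max C₂ 0 * X := by positivity
        linarith)
    (fun u hu => hhi u hu.1)
  refine hb.trans ?_
  have e1 : h * (max C₂ 0 * X + max C₁ 0 * X / h ^ 2) + max C₁ 0 * X / h = (h * max C₂ 0 + 2 * max C₁ 0 / h) * X := by
    field_simp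
    ring
  rw [e1]
  refine mul_le_mul_of_nonneg_right ?_ hX0.le
  have : h * max C₂ 0 ≤ 1 * max C₂ 0 := mul_le_mul_of_nonneg_right hh1 hC₂
  linarith

/-- arithmetic of the last step -/
theorem b1_u3_num {D C₃ x s t Jv : ℝ} (hD : 0 ≤ D) (hx : 1 ≤ x) (hs0 : 0 < s) (hts : t = s * s) (hinv : 1 / x ≤ t)
    (hK : (D + max C₃ 0 + 1) * s < 1) (hJ : Jv < t) : D / x ^ 2 + C₃ / x + Jv ≤ s := by
  have hx0 : 0 < x := by linarith
  have hinv2 : 1 / x ^ 2 ≤ 1 / x := by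
    refine one_div_le_one_div_of_le hx0 ?_
    nlinarith
  have b1 : D / x ^ 2 ≤ D * t := by
    rw [div_eq_mul_one_div]
    exact mul_le_mul_of_nonneg_left (hinv2.trans hinv) hD
  have b2 : C₃ / x ≤ max C₃ 0 * t := by
    rw [div_eq_mul_one_div]
    exact mul_le_mul (le_max_left _ _) hinv (by positivity) (le_max_right _ _)
  have b4 : (D + max C₃ 0 + 1) * t ≤ s := by
    rw [hts, ← mul_assoc]
    calc (D + max C₃ 0 + 1) * s * s ≤ 1 * s := mul_le_mul_of_nonneg_right hK.le hs0.le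
      _ = s := one_mul s
  linarith

/-- **X3a** one sided log-determinant against the tree potential AT THE SAME HEIGHT; the exponent `c` does not depend on `α` (form asked by helper274). -/
theorem b1_X3a (d : ℕ) (hd : 3 ≤ d) (E : ℝ) (hE : |E| < 2 * Real.sqrt ((d : ℝ) - 1)) :
    ∃ c : ℝ, 0 < c ∧ ∀ α : ℝ, 0 < α → α ≤ 1 / 20 → RgWhp d fun n H =>
      rgLd H (rgz E ((n : ℝ) ^ (-α))) ≤ rgPhi d (rgz E ((n : ℝ) ^ (-α))) + (n : ℝ) ^ (-c) := by
  have hdr : (3 : ℝ) ≤ d := by exact_mod_cast hd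
  have hE2 : E ^ 2 < 4 * ((d : ℝ) - 1) := by
    have h0 : 0 ≤ (d : ℝ) - 1 := by linarith
    have h1 : |E| ^ 2 < (2 * Real.sqrt ((d : ℝ) - 1)) ^ 2 := pow_lt_pow_left₀ hE (abs_nonneg E) two_ne_zero
    rw [sq_abs, mul_pow, Real.sq_sqrt h0] at h1
    linarith
  have hEd : |E| ≤ d := by
    by_contra h
    rw [not_le] at h
    have h1 : (d : ℝ) ^ 2 < |E| ^ 2 := pow_lt_pow_left₀ h (by linarith) two_ne_zero
    rw [sq_abs] at h1
    nlinarith [sq_nonneg ((d : ℝ) - 2)]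
  obtain ⟨κb, hκd⟩ : ∃ κb : ℝ, κb = 4 * ((d : ℝ) - 1) - E ^ 2 := ⟨_, rfl⟩
  have hκ : 0 < κb := by rw [hκd]; linarith
  have hbulk : RgBulk d κb E := by
    unfold RgBulk
    rw [hκd]
    linarith
  have hh0 : 0 < b1h κb := b1x_h_pos hκ
  have hh1 : b1h κb ≤ 1 := min_le_left _ _
  obtain ⟨c₀, hc₀, hc₀2, K, N₁, hK0, hEJ⟩ := b1_u3_EJ d hd κb hκ
  obtain ⟨C₃, U₀, htop⟩ := b1_phi_top d hd
  refine ⟨c₀ / 4, by positivity, fun α hα hα1 δ hδ => ?_⟩
  obtain ⟨K', hK'd⟩ : ∃ K' : ℝ, K' = 2 * (d : ℝ) ^ 2 + max C₃ 0 + 1 := ⟨_, rfl⟩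
  have hK'0 : 0 < K' := by rw [hK'd]; positivity
  obtain ⟨M₁, hM₁⟩ := b1_u3_small hα hh0
  obtain ⟨M₂, hM₂⟩ := b1_u3_small (a := c₀ / 2) (ε := δ / (K + 1)) (by positivity) (by positivity)
  obtain ⟨M₃, hM₃⟩ := b1_u3_small (a := c₀ / 4) (ε := 1 / K') (by positivity) (by positivity)
  refine ⟨max (max N₁ (max M₁ M₂)) (max M₃ (max 1 ⌈U₀⌉₊)), fun n hn hne => ?_⟩
  have hnN₁ : N₁ ≤ n := le_trans ((le_max_left _ _).trans (le_max_left _ _)) hn
  have hnM₁ : M₁ ≤ n := le_trans ((le_max_left _ _).trans ((le_max_right _ _).trans (le_max_left _ _))) hn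
  have hnM₂ : M₂ ≤ n := le_trans ((le_max_right _ _).trans ((le_max_right _ _).trans (le_max_left _ _))) hn
  have hnM₃ : M₃ ≤ n := le_trans ((le_max_left _ _).trans (le_max_right _ _)) hn
  have hn1 : 1 ≤ n := le_trans ((le_max_left _ _).trans ((le_max_right _ _).trans (le_max_right _ _))) hn
  have hnU : U₀ ≤ n := (Nat.le_ceil U₀).trans (by exact_mod_cast le_trans ((le_max_right _ _).trans ((le_max_right _ _).trans (le_max_right _ _))) hn)
  have hnr : (1 : ℝ) ≤ n := by exact_mod_cast hn1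
  have hn0 : (0 : ℝ) < n := by linarith
  obtain ⟨η, hηd⟩ : ∃ η : ℝ, η = (n : ℝ) ^ (-α) := ⟨_, rfl⟩
  show 1 - δ ≤ rgP n d (fun H => rgLd H (rgz E ((n : ℝ) ^ (-α))) ≤ rgPhi d (rgz E ((n : ℝ) ^ (-α))) + (n : ℝ) ^ (-(c₀ / 4)))
  rw [← hηd]
  have hη0 : 0 < η := hηd ▸ Real.rpow_pos_of_pos hn0 _
  have hηh : η < b1h κb := hηd ▸ hM₁ n hnM₁
  have hηlow : (n : ℝ) ^ (-(1 / 20 : ℝ)) ≤ η := by
    rw [hηd]
    exact Real.rpow_le_rpow_of_exponent_le hnr (by linarith)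
  have hηU : η ≤ (n : ℝ) := hηh.le.trans (hh1.trans hnr)
  obtain ⟨J, hJd⟩ : ∃ J : Gr n → ℝ, J = fun H => ∫ u in η..(n : ℝ), ‖rgTr H (rgz E u) - rgm d (rgz E u)‖ := ⟨_, rfl⟩
  have hJ0 : ∀ H ∈ regularGraphs n d, 0 ≤ J H := fun H _ => by
    rw [hJd]
    exact intervalIntegral.integral_nonneg hηU fun u _ => norm_nonneg _
  have hEJ' : rgE n d J ≤ K * (n : ℝ) ^ (-c₀) := by
    rw [hJd]
    exact hEJ n hnN₁ E η hbulk hηlow hηh
  -- Markov
  obtain ⟨t, htd⟩ : ∃ t : ℝ, t = (n : ℝ) ^ (-(c₀ / 2)) := ⟨_, rfl⟩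
  have ht0 : 0 < t := htd ▸ Real.rpow_pos_of_pos hn0 _
  have hXt : (n : ℝ) ^ (-c₀) = t * t := by
    rw [htd, ← Real.rpow_add hn0]
    congr 1
    ring
  have hPJ : rgP n d (fun H => t ≤ J H) ≤ δ := by
    refine (rg_P_markov hJ0 ht0).trans ?_
    rw [div_le_iff₀ ht0]
    refine hEJ'.trans ?_
    rw [hXt, ← mul_assoc]
    refine mul_le_mul_of_nonneg_right ?_ ht0.le
    have h1 : t < δ / (K + 1) := htd ▸ hM₂ n hnM₂
    rw [lt_div_iff₀ (by linarith)] at h1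
    nlinarith
  have hnot := rg_P_not hne (fun H => rgLd H (rgz E η) ≤ rgPhi d (rgz E η) + (n : ℝ) ^ (-(c₀ / 4)))
  have hmono : rgP n d (fun H => ¬ (rgLd H (rgz E η) ≤ rgPhi d (rgz E η) + (n : ℝ) ^ (-(c₀ / 4)))) ≤ rgP n d (fun H => t ≤ J H) := by
    refine rg_P_mono fun H hH hS => ?_
    by_contra hJ
    rw [not_le] at hJ
    apply hS
    have hdet := b1_u3_det d hd hn1 H hH E hE2 hEd hη0 hηU (htop E n hE2 hnU)
    have hJH : (∫ u in η..(n : ℝ), ‖rgTr H (rgz E u) - rgm d (rgz E u)‖) = J H := by rw [hJd]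
    rw [hJH] at hdet
    refine hdet.trans (add_le_add le_rfl ?_)
    refine b1_u3_num (by positivity) hnr (Real.rpow_pos_of_pos hn0 _) ?_ ?_ ?_ hJ
    · rw [htd, ← Real.rpow_add hn0]
      congr 1
      ring
    · rw [one_div, ← Real.rpow_neg_one, htd]
      exact Real.rpow_le_rpow_of_exponent_le hnr (by linarith)
    · have := hM₃ n hnM₃
      rw [lt_div_iff₀ hK'0] at this
      rw [← hK'd]
      linarith
  linarith

/-- **X3** one sided log-determinant.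
Plan: `U = n`.  `rgLd(η) - Φ(η) = rgLd(U) - Φ(U) - ∫_η^U Im(m_n - m_d) ≤ 2d²/U² + C/U + J(H)`, `J = ∫_η^U ‖m_n - m_d‖`;  `E J = ∫ E ‖..‖` (finite sum of integrals; continuity in `u`) `≤ C n^(-1/20) + C n^(-c)/h`;
Markov; `Φ(η) ≤ Φ(E) + C n^(-α)`. -/
theorem b1_X3 (d : ℕ) (hd : 3 ≤ d) (E : ℝ) (hE : |E| < 2 * Real.sqrt ((d : ℝ) - 1)) :
    ∃ c : ℝ, 0 < c ∧ ∀ α : ℝ, 0 < α → α ≤ 1 / 20 → RgWhp d fun n H => rgLd H (rgz E ((n : ℝ) ^ (-α))) ≤ rgPhi d (E : ℂ) + (n : ℝ) ^ (-(c * α)) := by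
  have hdr : (3 : ℝ) ≤ d := by exact_mod_cast hd
  have hE2 : E ^ 2 < 4 * ((d : ℝ) - 1) := by
    have h0 : 0 ≤ (d : ℝ) - 1 := by linarith
    have h1 : |E| ^ 2 < (2 * Real.sqrt ((d : ℝ) - 1)) ^ 2 := pow_lt_pow_left₀ hE (abs_nonneg E) two_ne_zero
    rw [sq_abs, mul_pow, Real.sq_sqrt h0] at h1
    linarith
  obtain ⟨κb, hκd⟩ : ∃ κb : ℝ, κb = 4 * ((d : ℝ) - 1) - E ^ 2 := ⟨_, rfl⟩
  have hκ : 0 < κb := by rw [hκd]; linarith
  have hbulk : RgBulk d κb E := by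
    unfold RgBulk
    rw [hκd]
    linarith
  have hh0 : 0 < b1h κb := b1x_h_pos hκ
  obtain ⟨ca, hca, hX⟩ := b1_X3a d hd E hE
  obtain ⟨C, hC⟩ := b1_phi_cont d hd κb hκ
  obtain ⟨c, hcd⟩ : ∃ c : ℝ, c = min (1 / 2) ca := ⟨_, rfl⟩
  have hc0 : 0 < c := by rw [hcd]; exact lt_min (by norm_num) hca
  have hc1 : c ≤ 1 / 2 := by rw [hcd]; exact min_le_left _ _
  have hc2 : c ≤ ca := by rw [hcd]; exact min_le_right _ _
  refine ⟨c, hc0, fun α hα hα1 δ hδ => ?_⟩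
  obtain ⟨N₀, hN₀⟩ := hX α hα hα1 δ hδ
  have g1 : 0 < ca - c * α := by nlinarith
  have g2 : 0 < α - c * α := by nlinarith
  obtain ⟨M₁, hM₁⟩ := b1_u3_small hα hh0
  obtain ⟨M₂, hM₂⟩ := b1_u3_small g1 (ε := 1 / 2) (by norm_num)
  obtain ⟨M₃, hM₃⟩ := b1_u3_small g2 (ε := 1 / (2 * (max C 0 + 1))) (by positivity)
  refine ⟨max (max N₀ M₁) (max M₂ (max M₃ 1)), fun n hn hne => ?_⟩
  have hnN₀ : N₀ ≤ n := le_trans ((le_max_left _ _).trans (le_max_left _ _)) hn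
  have hnM₁ : M₁ ≤ n := le_trans ((le_max_right _ _).trans (le_max_left _ _)) hn
  have hnM₂ : M₂ ≤ n := le_trans ((le_max_left _ _).trans (le_max_right _ _)) hn
  have hnM₃ : M₃ ≤ n := le_trans ((le_max_left _ _).trans ((le_max_right _ _).trans (le_max_right _ _))) hn
  have hn1 : 1 ≤ n := le_trans ((le_max_right _ _).trans ((le_max_right _ _).trans (le_max_right _ _))) hn
  have hn0 : (0 : ℝ) < n := by exact_mod_cast hn1
  refine (hN₀ n hnN₀ hne).trans (rg_P_mono fun H _ hS => ?_)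
  have hS' : rgLd H (rgz E ((n : ℝ) ^ (-α))) ≤ rgPhi d (rgz E ((n : ℝ) ^ (-α))) + (n : ℝ) ^ (-ca) := hS
  show rgLd H (rgz E ((n : ℝ) ^ (-α))) ≤ rgPhi d (E : ℂ) + (n : ℝ) ^ (-(c * α))
  have h1 := hC E ((n : ℝ) ^ (-α)) hbulk (Real.rpow_pos_of_pos hn0 _) (hM₁ n hnM₁).le
  obtain ⟨s, hsd⟩ : ∃ s : ℝ, s = (n : ℝ) ^ (-(c * α)) := ⟨_, rfl⟩
  have hs0 : 0 < s := hsd ▸ Real.rpow_pos_of_pos hn0 _
  have e1 : (n : ℝ) ^ (-ca) = s * (n : ℝ) ^ (-(ca - c * α)) := by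
    rw [hsd, ← Real.rpow_add hn0]
    congr 1
    ring
  have e2 : (n : ℝ) ^ (-α) = s * (n : ℝ) ^ (-(α - c * α)) := by
    rw [hsd, ← Real.rpow_add hn0]
    congr 1
    ring
  have b1 : (n : ℝ) ^ (-ca) ≤ s * (1 / 2) := by
    rw [e1]
    exact mul_le_mul_of_nonneg_left (hM₂ n hnM₂).le hs0.le
  have hC0 : 0 ≤ max C 0 := le_max_right _ _
  have b2 : C * (n : ℝ) ^ (-α) ≤ s * (1 / 2) := by
    have h3 := (hM₃ n hnM₃).le
    have h4 : (n : ℝ) ^ (-α) ≤ s * (1 / (2 * (max C 0 + 1))) := by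
      rw [e2]
      exact mul_le_mul_of_nonneg_left h3 hs0.le
    calc C * (n : ℝ) ^ (-α) ≤ (max C 0 + 1) * (n : ℝ) ^ (-α) :=
          mul_le_mul_of_nonneg_right ((le_max_left _ _).trans (by linarith)) (Real.rpow_nonneg hn0.le _)
      _ ≤ (max C 0 + 1) * (s * (1 / (2 * (max C 0 + 1)))) := mul_le_mul_of_nonneg_left h4 (by linarith)
      _ = s * (1 / 2) := by
          field_simp
  rw [← hsd]
  linarith

end Claimed.Agent.R287
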