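-- KEEP
import Claimed.Prelude.Def_0462

/-!
# Row 287 (S0534, GOE bulk universality for random regular graphs of fixed degree): DEFINITIONS of the limit level

Part 1-4 = draft of helper287 (verbatim), part 5 = helper102 (classes of limit laws, used by the Hub).
UNITS.  micro-coordinates of P1: `x = n (lam - E)`, density `rho = kestenMcKay d E`;  GOE: `y = n t / (pi rho)`.
A limit law is a probability measure on `Conf = Z -> R` (labelled, nondecreasing, `x (-1) <= 0 <= x 0`).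
How the finite `n` objects are encoded is INTERNAL to the units S4 and GOE (kit LIM).
-/

set_option autoImplicit false
open MeasureTheory ProbabilityTheory Matrix Filter Topology

namespace Claimed.Agent.R287

/-! ## 1. Measurable structure on matrices (Mathlib has none) -/

instance matMeasSp {ι κ R : Type} [MeasurableSpace R] : MeasurableSpace (Matrix ι κ R) :=
  inferInstanceAs (MeasurableSpace (ι → κ → R))

instance matBorelSp {ι κ R : Type} [Countable ι] [Countable κ] [TopologicalSpace R]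
    [SecondCountableTopology R] [MeasurableSpace R] [BorelSpace R] : BorelSpace (Matrix ι κ R) :=
  inferInstanceAs (BorelSpace (ι → κ → R))

/-! ## 2. Configurations, windows, resolvent traces -/

/-- labelled configurations (bi-infinite, nondecreasing on the good event) -/
abbrev Conf := ℤ → ℝ

/-- index window `{-K..K}` -/
abbrev Win (K : ℕ) := Fin (2 * K + 1)

/-- the integer label of a window index -/
def wIdx {K : ℕ} (i : Win K) : ℤ := (i.val : ℤ) - K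

/-- the positions with label `|j| ≤ K` -/
def cPos (K : ℕ) (x : Conf) : Win K → ℝ := fun i => x (wIdx i)

/-- deterministic regularity (rigidity with exponent `1 - χ` beyond the label `J₀`) -/
def CReg (ρ χ C₀ : ℝ) (J₀ : ℕ) (x : Conf) : Prop :=
  Monotone x ∧ ∀ j : ℤ, (J₀ : ℤ) ≤ |j| → |x j - j / ρ| ≤ C₀ * |(j : ℝ)| ^ (1 - χ)

/-- resolvent trace of a real matrix -/
noncomputable def rTr {ι : Type} [Fintype ι] [DecidableEq ι] (H : Matrix ι ι ℝ) (z : ℂ) : ℂ :=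
  Matrix.trace ((H.map (fun t : ℝ => (t : ℂ)) - z • (1 : Matrix ι ι ℂ))⁻¹)

/-- iid standard Gaussian array -/
noncomputable def gArr (ι κ : Type) [Fintype ι] [Fintype κ] : Measure (Matrix ι κ ℝ) :=
  Measure.pi fun _ => Measure.pi fun _ => gaussianReal 0 1

/-- raw GOE (variance 1 off the diagonal, 2 on it) as a function of an iid array -/
noncomputable def goeOf {ι : Type} (N : Matrix ι ι ℝ) : Matrix ι ι ℝ := (Real.sqrt 2)⁻¹ • (N + Nᵀ)

/-! ## 3. Channel matrices (`Fin k ⊕ Fin k` = starting endpoints ⊕ ending endpoints) -/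

abbrev Ch (k : ℕ) := Fin k ⊕ Fin k

def chJ (k : ℕ) : Matrix (Ch k) (Ch k) ℝ := Matrix.fromBlocks 0 1 1 0
def chC (k : ℕ) (p : ℝ) : Matrix (Ch k) (Ch k) ℝ := 1 + p • chJ k
/-- `K_k(m) = m C_k + κ' J_k`, `κ' = 1/d` -/
def chK (k : ℕ) (p dinv m : ℝ) : Matrix (Ch k) (Ch k) ℝ := m • chC k p + dinv • chJ k
/-- Cholesky factor of `C_k` (replaces `C_k^{1/2}`; commutes with `diag(U,U)`) -/
noncomputable def chA (k : ℕ) (p : ℝ) : Matrix (Ch k) (Ch k) ℝ :=
  Matrix.fromBlocks 1 0 (p • 1) (Real.sqrt (1 - p ^ 2) • 1)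
def chD {k : ℕ} (O : Matrix (Fin k) (Fin k) ℝ) : Matrix (Ch k) (Ch k) ℝ := Matrix.fromBlocks 1 0 0 O
def chB {k : ℕ} (O : Matrix (Fin k) (Fin k) ℝ) : Matrix (Ch k) (Ch k) ℝ :=
  Matrix.fromBlocks 0 (Oᵀ - 1) (O - 1) 0
def chQ {k : ℕ} (U : Matrix (Fin k) (Fin k) ℝ) : Matrix (Ch k) (Ch k) ℝ := Matrix.fromBlocks U 0 0 U

/-- complexification -/
def toC {ι κ : Type} (A : Matrix ι κ ℝ) : Matrix ι κ ℂ := A.map (fun t : ℝ => (t : ℂ))

/-! ## 4. The switching state `(m, M, M')` at one spectral parameter, the maps `T_O`, `R_U`, the Gaussian marked model -/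

abbrev SwSt (k : ℕ) := ℂ × Matrix (Ch k) (Ch k) ℂ × Matrix (Ch k) (Ch k) ℂ

noncomputable def swT {k : ℕ} (O : Matrix (Fin k) (Fin k) ℝ) (s : SwSt k) : SwSt k :=
  let B := toC (chB O); let D := toC (chD O)
  (s.1 - Matrix.trace ((1 + B * s.2.1)⁻¹ * B * s.2.2),
   Dᵀ * (1 + s.2.1 * B)⁻¹ * s.2.1 * D,
   Dᵀ * (1 + s.2.1 * B)⁻¹ * s.2.2 * (1 + B * s.2.1)⁻¹ * D)

def swR {k : ℕ} (U : Matrix (Fin k) (Fin k) ℝ) (s : SwSt k) : SwSt k :=
  (s.1, (toC (chQ U))ᵀ * s.2.1 * toC (chQ U), (toC (chQ U))ᵀ * s.2.2 * toC (chQ U))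

/-- domain of regularity: positive definite imaginary part -/
def swDom {k : ℕ} (s : SwSt k) : Prop :=
  s.2.1ᵀ = s.2.1 ∧ (s.2.1.map Complex.im).PosDef

/-- diagonal resolvent weights `(x_j - z)^{-e}` -/
noncomputable def cRes (L : ℕ) (x : Conf) (z : ℂ) (e : ℕ) : Matrix (Win L) (Win L) ℂ :=
  Matrix.diagonal fun i => (((cPos L x i : ℝ) : ℂ) - z)⁻¹ ^ e

/-- `(m_L, M_{k,L}, M_{k,L}')(z)` for positions `x` and iid marks `g` -/
noncomputable def swX (k L : ℕ) (p dinv mr : ℝ) (x : Conf) (g : Matrix (Win L) (Ch k) ℝ) (z : ℂ) :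
    SwSt k :=
  ((mr : ℂ) + Matrix.trace (cRes L x z 1),
   toC (chK k p dinv mr) + toC (chA k p) * (toC g)ᵀ * cRes L x z 1 * toC g * (toC (chA k p))ᵀ,
   toC (chA k p) * (toC g)ᵀ * cRes L x z 2 * toC g * (toC (chA k p))ᵀ)

/-- law of the marked model at finitely many spectral parameters -/
noncomputable def swLaw (μ : Measure Conf) (k L : ℕ) (p dinv mr : ℝ) {b : ℕ} (z : Fin b → ℂ) :
    Measure (Fin b → SwSt k) :=
  (μ.prod (gArr (Win L) (Ch k))).map fun xg => fun i => swX k L p dinv mr xg.1 xg.2 (z i)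

/-- direct sum of `r` planar rotations of angle `θ` on `Fin (2 r)` (pairs `(2a, 2a+1)`) -/
noncomputable def rotSum (r : ℕ) (θ : ℝ) : Matrix (Fin (2 * r)) (Fin (2 * r)) ℝ :=
  fun i j =>
    if i = j then Real.cos θ
    else if i.val / 2 = j.val / 2 then (if i.val < j.val then - Real.sin θ else Real.sin θ)
    else 0

/-- transposition (0 1) as a matrix -/
def swapMat (k : ℕ) (h : 2 ≤ k) : Matrix (Fin k) (Fin k) ℝ :=
  (Equiv.swap (⟨0, by omega⟩ : Fin k) ⟨1, by omega⟩).toPEquiv.toMatrix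

/-! ## 5. Classes of limit laws (helper102) -/

/-- index-symmetric partial sums of the Stieltjes transform, `S_K(x,z) = ∑_{|j| ≤ K} 1/(x_j - z)` -/
noncomputable def cSK (K : ℕ) (x : Conf) (z : ℂ) : ℂ := ∑ i : Win K, (((cPos K x i : ℝ) : ℂ) - z)⁻¹

/-- the principal value sum `S(x,z) = lim_K S_K(x,z)` (exists for every regular `x`: `CReg`) -/
noncomputable def cS (x : Conf) (z : ℂ) : ℂ := limUnder atTop fun K : ℕ => cSK K x z

/-- the cut matrix `D_K(x) + √Δ W`, `W = goeOf N` -/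
noncomputable def cutM (K : ℕ) (Δ : ℝ) (x : Conf) (N : Matrix (Win K) (Win K) ℝ) : Matrix (Win K) (Win K) ℝ :=
  Matrix.diagonal (cPos K x) + Real.sqrt Δ • goeOf N

/-- **(R)** regularity of a law of configurations of density `ρ`, trace exponent `ξ`.
`pos`: almost sure rigidity of the labels with SOME exponent;   `lab`: canonical labels;
`tr`: `|S(e+iu) - iπρ| ≤ u^{-ξ}` off an event of probability `C u^{-D}`, UNIFORMLY in the energy `e`. -/
structure LReg (ρ ξ : ℝ) (μ : Measure Conf) : Prop where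
  pos : ∃ χ : ℝ, 0 < χ ∧ ∀ᵐ x ∂μ, ∃ (C₀ : ℝ) (J₀ : ℕ), CReg ρ χ C₀ J₀ x
  lab : ∀ᵐ x ∂μ, x (-1) ≤ 0 ∧ 0 ≤ x 0
  tr : ∀ D : ℕ, ∃ C u₀ : ℝ, ∀ e u : ℝ, u₀ ≤ u →
    μ {x | u ^ (-ξ) < ‖cS x ((e : ℂ) + (u : ℂ) * Complex.I) - ((Real.pi * ρ : ℝ) : ℂ) * Complex.I‖} ≤ ENNReal.ofReal (C * u ^ (-(D : ℝ)))

/-- **(I)** stationarity under the GOE kernel, in trace form, for every fixed `Δ > 0`:
`E Φ((Tr (D_K + √Δ W - z_a)^{-1})_a) - E Φ((S_K(z_a))_a) → 0` as `K → ∞`, for bounded LIPSCHITZ tests `Φ` (remark C-1 of helper254). -/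
def LStat (μ : Measure Conf) : Prop :=
  ∀ Δ : ℝ, 0 < Δ → ∀ (b : ℕ) (z : Fin b → ℂ), (∀ a, 0 < (z a).im) → ∀ Φ : (Fin b → ℂ) → ℝ,
    (∃ B : ℝ, ∀ v, |Φ v| ≤ B) → (∃ Lc : NNReal, LipschitzWith Lc Φ) →
    Tendsto (fun K : ℕ => (∫ x, ∫ N, Φ (fun a => rTr (cutM K Δ x N) (z a)) ∂(gArr (Win K) (Win K)) ∂μ)
      - ∫ x, Φ (fun a => cSK K x (z a)) ∂μ) atTop (𝓝 0)

/-- **(Sw)** the Gaussian marked model over `μ` has limits `L → ∞` which are invariant under the transposition switch. -/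
def LSw (p dinv mr : ℝ) (μ : Measure Conf) : Prop :=
  ∀ (k : ℕ) (hk : 2 ≤ k) (b : ℕ) (z : Fin b → ℂ), (∀ a, 0 < (z a).im) →
    ∃ P : Measure (Fin b → SwSt k), IsProbabilityMeasure P ∧
      (∀ Φ : BoundedContinuousFunction (Fin b → SwSt k) ℝ,
        Tendsto (fun L : ℕ => ∫ s, Φ s ∂(swLaw μ k L p dinv mr z)) atTop (𝓝 (∫ s, Φ s ∂P))) ∧
      (∀ᵐ s ∂P, ∀ i, swDom (s i)) ∧
      ∀ Φ : BoundedContinuousFunction (Fin b → SwSt k) ℝ, ∫ s, Φ (fun i => swT (swapMat k hk) (s i)) ∂P = ∫ s, Φ s ∂P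

/-- Laplace functional of a law of configurations -/
noncomputable def cLap (μ : Measure Conf) (h : ℝ → ℝ) : ℝ := ∫ x, Real.exp (-∑' j : ℤ, h (x j)) ∂μ

/-- real part of `m_d(E + i0)` -/
noncomputable def mRe (d : ℕ) (E : ℝ) : ℝ := -(((d : ℝ) - 2) * E) / (2 * ((d : ℝ) ^ 2 - E ^ 2))

theorem defs_eqns_cite : True := by
  have := @wIdx.eq_1
  have := @cPos.eq_1
  have := @CReg.eq_1
  have := @rTr.eq_1
  have := @gArr.eq_1
  have := @goeOf.eq_1
  have := @chJ.eq_1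
  have := @chC.eq_1
  have := @chK.eq_1
  have := @chA.eq_1
  have := @chD.eq_1
  have := @chB.eq_1
  have := @chQ.eq_1
  have := @toC.eq_1
  have := @swT.eq_1
  have := @swR.eq_1
  have := @swDom.eq_1
  have := @cRes.eq_1
  have := @swX.eq_1
  have := @swLaw.eq_1
  have := @rotSum.eq_1
  have := @swapMat.eq_1
  have := @cSK.eq_1
  have := @cS.eq_1
  have := @cutM.eq_1
  have := @LStat.eq_1
  have := @LSw.eq_1
  have := @cLap.eq_1
  have := @mRe.eq_1
  trivial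

end Claimed.Agent.R287
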