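-- KEEP
import Claimed.Agent.R287.Defs

/-!
# Row 287, unit S2' : THE CONTOUR LEMMA (trace bounds ⟹ rigidity with the SAME exponent)      owner helper186, prefix `ct_`

Written proof: `origin/helper186:notes/R287/S2p_186.md`.  Real calculus only (no complex analysis, no logarithm, no loss of exponent).

SETTING (serves finite `n` AND the limit object): a family `x : ι → ℝ`, finite sets `s 0 ⊆ s 1 ⊆ …`, `S_K(z) = ∑_{i ∈ s K} 1/(x_i - z)`, `S_K(z) → S(z)` (`CtSys`).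
Finite `n`: `s K = univ`.  `Conf`: `s K = [-K, K]`, `S = cS x`.   `w` = a constant (`iπρ`, or `m_*` at finite `n`).

* sec. 1  kernels `ctP = Im 1/(y - iu)`, `ctQ = Re 1/(y - iu)`; per point: (F1), (F2) (fundamental theorem of calculus for `arctan`), (F3) the ENDPOINT inequality.
* sec. 2  `ct_master`: the master inequality for finite sums.
* sec. 3  `ct_rect` (T1): one rectangle, counts.
* sec. 4  `ct_lip`, `ct_grid` (T2): integer grid ⟹ continuum.
* sec. 5  `ct_gap` (T3): gap form.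
-/

set_option autoImplicit false

namespace Claimed.Agent.R287

open MeasureTheory Set Filter Topology

noncomputable section

/-! ## 1. kernels, one point -/

/-- Poisson kernel `u/(y²+u²) = Im 1/(y - iu)` -/
def ctP (y u : ℝ) : ℝ := u / (y ^ 2 + u ^ 2)
/-- conjugate kernel `y/(y²+u²) = Re 1/(y - iu)` -/
def ctQ (y u : ℝ) : ℝ := y / (y ^ 2 + u ^ 2)
/-- the spectral parameter `e + iu` -/
def ctZ (e u : ℝ) : ℂ := (e : ℂ) + (u : ℂ) * Complex.I
/-- partial Stieltjes sums -/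
def ctS {ι : Type} (x : ι → ℝ) (s : Finset ι) (z : ℂ) : ℂ := ∑ i ∈ s, (((x i : ℝ) : ℂ) - z)⁻¹

theorem ct_eqns_cite : True := by
  have := @ctP.eq_1; have := @ctQ.eq_1; have := @ctZ.eq_1; have := @ctS.eq_1
  trivial

theorem ct_Z_re (e u : ℝ) : (ctZ e u).re = e := by simp [ctZ]
theorem ct_Z_im (e u : ℝ) : (ctZ e u).im = u := by simp [ctZ]

theorem ct_den_pos (y : ℝ) {u : ℝ} (hu : 0 < u) : 0 < y ^ 2 + u ^ 2 := by positivity

theorem ct_P_pos (y : ℝ) {u : ℝ} (hu : 0 < u) : 0 < ctP y u := div_pos hu (ct_den_pos y hu)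

theorem ct_inv_re (x e u : ℝ) : ((((x : ℝ) : ℂ) - ctZ e u)⁻¹).re = ctQ (x - e) u := by
  rw [Complex.inv_re, Complex.normSq_apply]
  simp only [Complex.sub_re, Complex.sub_im, Complex.ofReal_re, Complex.ofReal_im, ct_Z_re, ct_Z_im]
  unfold ctQ
  congr 1; ring

theorem ct_inv_im (x e u : ℝ) : ((((x : ℝ) : ℂ) - ctZ e u)⁻¹).im = ctP (x - e) u := by
  rw [Complex.inv_im, Complex.normSq_apply]
  simp only [Complex.sub_re, Complex.sub_im, Complex.ofReal_re, Complex.ofReal_im, ct_Z_re, ct_Z_im]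
  unfold ctP
  congr 1 <;> ring

theorem ct_S_re {ι : Type} (x : ι → ℝ) (s : Finset ι) (e u : ℝ) : (ctS x s (ctZ e u)).re = ∑ i ∈ s, ctQ (x i - e) u := by
  unfold ctS
  rw [Complex.re_sum]
  exact Finset.sum_congr rfl fun i _ => ct_inv_re _ _ _

theorem ct_S_im {ι : Type} (x : ι → ℝ) (s : Finset ι) (e u : ℝ) : (ctS x s (ctZ e u)).im = ∑ i ∈ s, ctP (x i - e) u := by
  unfold ctS
  rw [Complex.im_sum]
  exact Finset.sum_congr rfl fun i _ => ct_inv_im _ _ _

theorem ct_P_cont_e (x : ℝ) {R : ℝ} (hR : 0 < R) : Continuous fun e : ℝ => ctP (x - e) R := by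
  unfold ctP
  exact continuous_const.div (by fun_prop) fun e => (ct_den_pos _ hR).ne'

theorem ct_Q_contOn_u (y : ℝ) : ContinuousOn (fun u : ℝ => ctQ y u) (Ioi 0) := by
  unfold ctQ
  exact continuousOn_const.div (by fun_prop) fun u hu => (ct_den_pos _ hu).ne'

/-- (F1) -/
theorem ct_F1 (x a b : ℝ) {R : ℝ} (hR : 0 < R) :
    ∫ e in a..b, ctP (x - e) R = Real.arctan ((b - x) / R) - Real.arctan ((a - x) / R) := by
  have hder : ∀ e ∈ uIcc a b, HasDerivAt (fun e : ℝ => Real.arctan ((e - x) / R)) (ctP (x - e) R) e := by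
    intro e _
    have h1 : HasDerivAt (fun e : ℝ => (e - x) / R) (1 / R) e := ((hasDerivAt_id e).sub_const x).div_const R
    have h2 := h1.arctan
    have e1 : 1 / (1 + ((e - x) / R) ^ 2) * (1 / R) = ctP (x - e) R := by
      unfold ctP
      have := ct_den_pos (x - e) hR
      have h3 : 0 < 1 + ((e - x) / R) ^ 2 := by positivity
      field_simp
      ring
    rwa [e1] at h2
  rw [intervalIntegral.integral_eq_sub_of_hasDerivAt hder ((ct_P_cont_e x hR).intervalIntegrable _ _)]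

/-- (F2) -/
theorem ct_F2 (x b : ℝ) {u0 R : ℝ} (hu0 : 0 < u0) (hR : u0 ≤ R) :
    ∫ u in u0..R, ctQ (x - b) u = Real.arctan ((b - x) / R) - Real.arctan ((b - x) / u0) := by
  have hsub : uIcc u0 R ⊆ Ioi 0 := by
    rw [uIcc_of_le hR]; exact fun u hu => lt_of_lt_of_le hu0 hu.1
  have hder : ∀ u ∈ uIcc u0 R, HasDerivAt (fun u : ℝ => Real.arctan ((b - x) / u)) (ctQ (x - b) u) u := by
    intro u hu
    have hu' : 0 < u := hsub hu
    have h1 : HasDerivAt (fun u : ℝ => (b - x) / u) ((0 * u - (b - x) * 1) / u ^ 2) u :=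
      (hasDerivAt_const u (b - x)).div (hasDerivAt_id u) hu'.ne'
    have h2 := h1.arctan
    have e1 : 1 / (1 + ((b - x) / u) ^ 2) * ((0 * u - (b - x) * 1) / u ^ 2) = ctQ (x - b) u := by
      unfold ctQ
      have := ct_den_pos (x - b) hu'
      have h3 : 0 < 1 + ((b - x) / u) ^ 2 := by positivity
      field_simp
      ring
    rwa [e1] at h2
  rw [intervalIntegral.integral_eq_sub_of_hasDerivAt hder (((ct_Q_contOn_u _).mono hsub).intervalIntegrable)]

theorem ct_arctan_le {t : ℝ} (ht : 0 ≤ t) : Real.arctan t ≤ t := by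
  rcases eq_or_lt_of_le ht with h | h
  · rw [← h, Real.arctan_zero]
  · have h1 := Real.lt_tan (Real.arctan_pos.2 h) (Real.arctan_lt_pi_div_two t)
    rw [Real.tan_arctan] at h1
    exact h1.le

theorem ct_arctan_ge {t : ℝ} (ht : 0 ≤ t) : t / (1 + t ^ 2) ≤ Real.arctan t := by
  have h0 : 0 ≤ Real.arctan t := Real.arctan_nonneg.2 ht
  have hs : 0 < Real.sqrt (1 + t ^ 2) := Real.sqrt_pos.2 (by positivity)
  have e : t / (1 + t ^ 2) = Real.sin (Real.arctan t) * Real.cos (Real.arctan t) := by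
    rw [Real.sin_arctan, Real.cos_arctan]
    have : Real.sqrt (1 + t ^ 2) * Real.sqrt (1 + t ^ 2) = 1 + t ^ 2 := Real.mul_self_sqrt (by positivity)
    field_simp
    rw [sq, this]
  rw [e]
  have h1 : 0 ≤ Real.sin (Real.arctan t) :=
    Real.sin_nonneg_of_nonneg_of_le_pi h0 (by linarith [Real.arctan_lt_pi_div_two t, Real.pi_pos])
  calc Real.sin (Real.arctan t) * Real.cos (Real.arctan t) ≤ Real.sin (Real.arctan t) * 1 :=
        mul_le_mul_of_nonneg_left (Real.cos_le_one _) h1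
    _ ≤ Real.arctan t := by rw [mul_one]; exact Real.sin_le h0

/-- `0 ≤ arctan t - t/(1+t²) ≤ π t²/(1+t²)` -/
theorem ct_arctan_g {t : ℝ} (ht : 0 ≤ t) :
    0 ≤ Real.arctan t - t / (1 + t ^ 2) ∧ Real.arctan t - t / (1 + t ^ 2) ≤ Real.pi * (t ^ 2 / (1 + t ^ 2)) := by
  refine ⟨sub_nonneg.2 (ct_arctan_ge ht), ?_⟩
  have hd : 0 < 1 + t ^ 2 := by positivity
  have hpi := Real.pi_gt_three
  rcases le_total t 1 with h | h
  · have h1 := ct_arctan_le ht
    have e : t - t / (1 + t ^ 2) = t * (t ^ 2 / (1 + t ^ 2)) := by field_simp; ring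
    have h2 : 0 ≤ t ^ 2 / (1 + t ^ 2) := by positivity
    nlinarith
  · have h1 := Real.arctan_lt_pi_div_two t
    have h2 : 1 / 2 ≤ t ^ 2 / (1 + t ^ 2) := by
      rw [div_le_div_iff₀ (by norm_num) hd]; nlinarith
    have h3 : 0 ≤ t / (1 + t ^ 2) := by positivity
    nlinarith

/-- the smoothed step, corrected: `A(y) = arctan(y/u) + u y/(y²+u²)` -/
def ctA (y u : ℝ) : ℝ := Real.arctan (y / u) + u * ctQ y u

theorem ct_A_pos {y u : ℝ} (hy : 0 < y) (hu : 0 < u) : |Real.pi / 2 - ctA y u| ≤ Real.pi * (u * ctP y u) := by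
  have ht : 0 < u / y := div_pos hu hy
  obtain ⟨g1, g2⟩ := ct_arctan_g ht.le
  have e1 : Real.arctan (y / u) = Real.pi / 2 - Real.arctan (u / y) := by
    rw [← Real.arctan_inv_of_pos ht, inv_div]
  have e2 : u / y / (1 + (u / y) ^ 2) = u * ctQ y u := by
    unfold ctQ
    have := ct_den_pos y hu
    have h3 : 0 < 1 + (u / y) ^ 2 := by positivity
    field_simp
  have e3 : (u / y) ^ 2 / (1 + (u / y) ^ 2) = u * ctP y u := by
    unfold ctP
    have := ct_den_pos y hu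
    have h3 : 0 < 1 + (u / y) ^ 2 := by positivity
    field_simp
  unfold ctA
  rw [e1]
  rw [e2] at g1 g2
  rw [e3] at g2
  rw [abs_le]
  constructor <;> linarith [mul_nonneg Real.pi_pos.le (mul_pos hu (ct_P_pos y hu)).le]

theorem ct_A_neg (y u : ℝ) : ctA (-y) u = -ctA y u := by
  unfold ctA ctQ
  rw [neg_div, Real.arctan_neg, neg_sq]
  ring

theorem ct_P_neg (y u : ℝ) : ctP (-y) u = ctP y u := by unfold ctP; rw [neg_sq]

/-- (F3) **the endpoint inequality** -/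
theorem ct_F3 {y u σ : ℝ} (hu : 0 < u) (h1 : |σ| ≤ 1) (hp : 0 < y → σ = 1) (hn : y < 0 → σ = -1) :
    |Real.pi / 2 * σ - ctA y u| ≤ Real.pi * (u * ctP y u) := by
  rcases lt_trichotomy y 0 with h | h | h
  · rw [hn h]
    have := ct_A_pos (neg_pos.2 h) hu
    rw [ct_A_neg, ct_P_neg] at this
    rw [← abs_neg]
    have e : -(Real.pi / 2 * -1 - ctA y u) = Real.pi / 2 - -ctA y u := by ring
    rwa [e]
  · subst h
    have e1 : ctA 0 u = 0 := by unfold ctA ctQ; simp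
    have e2 : u * ctP 0 u = 1 := by unfold ctP; field_simp; ring
    rw [e1, e2, sub_zero, abs_mul, abs_of_pos (by positivity : 0 < Real.pi / 2)]
    nlinarith [Real.pi_pos]
  · rw [hp h, mul_one]
    exact ct_A_pos h hu

/-- `c` is a value of the indicator of an interval with ends `a ≤ b` (free at the end points) -/
structure CtInd (a b x c : ℝ) : Prop where
  c0 : 0 ≤ c
  c1 : c ≤ 1
  ins : a < x → x < b → c = 1
  lft : x < a → c = 0
  rgt : b < x → c = 0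

/-- one point: the sharp indicator against the corrected smoothed steps -/
theorem ct_pt {a b x c u : ℝ} (hab : a ≤ b) (hu : 0 < u) (hc : CtInd a b x c) :
    |Real.pi * c - (ctA (b - x) u - ctA (a - x) u)| ≤ Real.pi * (u * ctP (x - a) u) + Real.pi * (u * ctP (x - b) u) := by
  have eP : ∀ e : ℝ, ctP (x - e) u = ctP (e - x) u := fun e => by rw [← ct_P_neg, neg_sub]
  rw [eP a, eP b]
  have hpi := Real.pi_pos
  -- choose the two signs
  obtain ⟨σb, σa, h1, h2, h3, h4, h5, h6, h7⟩ : ∃ σb σa : ℝ, |σb| ≤ 1 ∧ (0 < b - x → σb = 1) ∧ (b - x < 0 → σb = -1) ∧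
      |σa| ≤ 1 ∧ (0 < a - x → σa = 1) ∧ (a - x < 0 → σa = -1) ∧ c = (σb - σa) / 2 := by
    rcases lt_trichotomy x a with h | h | h
    · exact ⟨1, 1, by norm_num, fun _ => rfl, fun h' => by linarith, by norm_num, fun _ => rfl, fun h' => by linarith,
        by rw [hc.lft h]; norm_num⟩
    · rcases eq_or_lt_of_le hab with h' | h'
      · -- x = a = b
        refine ⟨c, -c, ?_, fun h'' => by linarith, fun h'' => by linarith, ?_, fun h'' => by linarith,
          fun h'' => by linarith, by ring⟩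
        · rw [abs_of_nonneg hc.c0]; exact hc.c1
        · rw [abs_neg, abs_of_nonneg hc.c0]; exact hc.c1
      · refine ⟨1, 1 - 2 * c, by norm_num, fun _ => rfl, fun h'' => by linarith, ?_, fun h'' => by linarith,
          fun h'' => by linarith, by ring⟩
        rw [abs_le]; constructor <;> linarith [hc.c0, hc.c1]
    · rcases lt_trichotomy x b with h' | h' | h'
      · exact ⟨1, -1, by norm_num, fun _ => rfl, fun h'' => by linarith, by norm_num, fun h'' => by linarith, fun _ => rfl,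
          by rw [hc.ins h h']; norm_num⟩
      · refine ⟨2 * c - 1, -1, ?_, fun h'' => by linarith, fun h'' => by linarith, by norm_num, fun h'' => by linarith,
          fun _ => rfl, by ring⟩
        rw [abs_le]; constructor <;> linarith [hc.c0, hc.c1]
      · exact ⟨-1, -1, by norm_num, fun h'' => by linarith, fun _ => rfl, by norm_num, fun h'' => by linarith, fun _ => rfl,
          by rw [hc.rgt h']; norm_num⟩
  have b1 := ct_F3 hu h1 h2 h3
  have b2 := ct_F3 hu h4 h5 h6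
  have e : Real.pi * c - (ctA (b - x) u - ctA (a - x) u)
      = (Real.pi / 2 * σb - ctA (b - x) u) - (Real.pi / 2 * σa - ctA (a - x) u) := by rw [h7]; ring
  rw [e]
  calc |(Real.pi / 2 * σb - ctA (b - x) u) - (Real.pi / 2 * σa - ctA (a - x) u)|
      ≤ |Real.pi / 2 * σb - ctA (b - x) u| + |Real.pi / 2 * σa - ctA (a - x) u| := abs_sub _ _
    _ ≤ _ := by linarith

theorem ct_Q_neg (y u : ℝ) : ctQ (-y) u = -ctQ y u := by unfold ctQ; rw [neg_sq, neg_div]

/-- one point: the contour form -/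
theorem ct_pt_contour {a b x c u0 R : ℝ} (hab : a ≤ b) (hu0 : 0 < u0) (hR : u0 ≤ R) (hc : CtInd a b x c) :
    |Real.pi * c - (∫ e in a..b, ctP (x - e) R) + ((∫ u in u0..R, ctQ (x - b) u) - ∫ u in u0..R, ctQ (x - a) u)
        + u0 * (ctQ (x - b) u0 - ctQ (x - a) u0)|
      ≤ Real.pi * (u0 * ctP (x - a) u0) + Real.pi * (u0 * ctP (x - b) u0) := by
  have h := ct_pt hab hu0 hc
  rw [ct_F1 x a b (lt_of_lt_of_le hu0 hR), ct_F2 x b hu0 hR, ct_F2 x a hu0 hR]
  have eQ : ∀ e : ℝ, ctQ (x - e) u0 = -ctQ (e - x) u0 := fun e => by rw [← ct_Q_neg, neg_sub]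
  rw [eQ a, eQ b]
  unfold ctA at h
  have e : Real.pi * c - (Real.arctan ((b - x) / R) - Real.arctan ((a - x) / R))
      + (Real.arctan ((b - x) / R) - Real.arctan ((b - x) / u0) - (Real.arctan ((a - x) / R) - Real.arctan ((a - x) / u0)))
      + u0 * (-ctQ (b - x) u0 - -ctQ (a - x) u0)
      = Real.pi * c - (Real.arctan ((b - x) / u0) + u0 * ctQ (b - x) u0 - (Real.arctan ((a - x) / u0) + u0 * ctQ (a - x) u0)) := by
    ring
  rw [e]
  exact h

/-! ## 2. the master inequality for finite sums -/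

section fin

variable {ι : Type} (x : ι → ℝ) (s : Finset ι)

theorem ct_S_im_cont {R : ℝ} (hR : 0 < R) : Continuous fun e : ℝ => (ctS x s (ctZ e R)).im := by
  simp only [ct_S_im]
  exact continuous_finsetSum _ fun i _ => ct_P_cont_e (x i) hR

theorem ct_S_re_contOn (e : ℝ) : ContinuousOn (fun u : ℝ => (ctS x s (ctZ e u)).re) (Ioi 0) := by
  simp only [ct_S_re]
  exact continuousOn_finsetSum _ fun i _ => ct_Q_contOn_u (x i - e)

theorem ct_S_re_ii (e : ℝ) {u0 R : ℝ} (hu0 : 0 < u0) (hR : u0 ≤ R) :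
    IntervalIntegrable (fun u : ℝ => (ctS x s (ctZ e u)).re) volume u0 R := by
  apply ContinuousOn.intervalIntegrable
  rw [uIcc_of_le hR]
  exact (ct_S_re_contOn x s e).mono fun u hu => lt_of_lt_of_le hu0 hu.1

/-- the contour functional `T = ∫_a^b Im S(e+iR) de - ∫_{u0}^R [Re S(b+iu) - Re S(a+iu)] du - u0 [Re S(b+iu0) - Re S(a+iu0)]` -/
def ctT (S : ℂ → ℂ) (a b u0 R : ℝ) : ℝ :=
  (∫ e in a..b, (S (ctZ e R)).im) - (∫ u in u0..R, ((S (ctZ b u)).re - (S (ctZ a u)).re))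
    - u0 * ((S (ctZ b u0)).re - (S (ctZ a u0)).re)

/-- **the master inequality** -/
theorem ct_master {a b u0 R : ℝ} (hab : a ≤ b) (hu0 : 0 < u0) (hR : u0 ≤ R) (c : ι → ℝ) (hc : ∀ i ∈ s, CtInd a b (x i) (c i)) :
    |Real.pi * ∑ i ∈ s, c i - ctT (ctS x s) a b u0 R|
      ≤ Real.pi * u0 * ((ctS x s (ctZ a u0)).im + (ctS x s (ctZ b u0)).im) := by
  have hR0 := lt_of_lt_of_le hu0 hR
  have iQ : ∀ (e : ℝ) (i : ι), IntervalIntegrable (fun u : ℝ => ctQ (x i - e) u) volume u0 R := by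
    intro e i
    apply ContinuousOn.intervalIntegrable
    rw [uIcc_of_le hR]
    exact (ct_Q_contOn_u _).mono fun u hu => lt_of_lt_of_le hu0 hu.1
  have e1 : ∫ e in a..b, (ctS x s (ctZ e R)).im = ∑ i ∈ s, ∫ e in a..b, ctP (x i - e) R := by
    simp only [ct_S_im]
    exact intervalIntegral.integral_finsetSum fun i _ => (ct_P_cont_e (x i) hR0).intervalIntegrable _ _
  have e2 : ∀ e : ℝ, ∫ u in u0..R, (ctS x s (ctZ e u)).re = ∑ i ∈ s, ∫ u in u0..R, ctQ (x i - e) u := by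
    intro e
    simp only [ct_S_re]
    exact intervalIntegral.integral_finsetSum fun i _ => iQ e i
  unfold ctT
  rw [intervalIntegral.integral_sub (ct_S_re_ii x s b hu0 hR) (ct_S_re_ii x s a hu0 hR), e1, e2, e2, ct_S_re, ct_S_re,
    ct_S_im, ct_S_im]
  have e3 : Real.pi * ∑ i ∈ s, c i - ((∑ i ∈ s, ∫ e in a..b, ctP (x i - e) R)
      - ((∑ i ∈ s, ∫ u in u0..R, ctQ (x i - b) u) - ∑ i ∈ s, ∫ u in u0..R, ctQ (x i - a) u)
      - u0 * ((∑ i ∈ s, ctQ (x i - b) u0) - ∑ i ∈ s, ctQ (x i - a) u0))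
      = ∑ i ∈ s, (Real.pi * c i - (∫ e in a..b, ctP (x i - e) R)
          + ((∫ u in u0..R, ctQ (x i - b) u) - ∫ u in u0..R, ctQ (x i - a) u) + u0 * (ctQ (x i - b) u0 - ctQ (x i - a) u0)) := by
    simp only [Finset.sum_add_distrib, Finset.sum_sub_distrib, ← Finset.mul_sum]
    ring
  have e4 : Real.pi * u0 * ((∑ i ∈ s, ctP (x i - a) u0) + ∑ i ∈ s, ctP (x i - b) u0)
      = ∑ i ∈ s, (Real.pi * (u0 * ctP (x i - a) u0) + Real.pi * (u0 * ctP (x i - b) u0)) := by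
    simp only [Finset.sum_add_distrib]
    rw [mul_add, Finset.mul_sum, Finset.mul_sum]
    congr 1 <;> exact Finset.sum_congr rfl fun i _ => by ring
  rw [e3, e4]
  exact (Finset.abs_sum_le_sum_abs _ _).trans (Finset.sum_le_sum fun i hi => ct_pt_contour hab hu0 hR (hc i hi))

end fin

/-! ## 3. T1: one rectangle -/

/-- a family of points, an exhaustion by finite sets, and the limit of the partial Stieltjes sums -/
structure CtSys {ι : Type} (x : ι → ℝ) (s : ℕ → Finset ι) (S : ℂ → ℂ) : Prop where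
  mono : Monotone s
  lim : ∀ z : ℂ, 0 < z.im → Tendsto (fun K => ctS x (s K) z) atTop (𝓝 (S z))

/-- the error of T1: `C R^{-ξ} ℓ + (2/(1-ξ) + 2π) C R^{1-ξ} + 2π u0 p`      (`ℓ = b - a`, `p = Im w = πρ`) -/
def ctErr (C ξ p ℓ u0 R : ℝ) : ℝ := C * R ^ (-ξ) * ℓ + (2 / (1 - ξ) + 2 * Real.pi) * C * R ^ (1 - ξ) + 2 * Real.pi * u0 * p

theorem ct_Q_diff (p q : ℝ) {u : ℝ} (hu : 0 < u) : |ctQ q u - ctQ p u| ≤ |p - q| / (2 * u) * (ctP p u + ctP q u) := by
  have hA := ct_den_pos p hu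
  have hB := ct_den_pos q hu
  have e1 : ctQ q u - ctQ p u = (p - q) * ((p * q - u ^ 2) / ((p ^ 2 + u ^ 2) * (q ^ 2 + u ^ 2))) := by
    unfold ctQ; field_simp; ring
  have e2 : |p - q| / (2 * u) * (ctP p u + ctP q u)
      = |p - q| * (((p ^ 2 + u ^ 2) + (q ^ 2 + u ^ 2)) / 2 / ((p ^ 2 + u ^ 2) * (q ^ 2 + u ^ 2))) := by
    unfold ctP; field_simp; ring
  rw [e1, e2, abs_mul, abs_div, abs_of_pos (mul_pos hA hB)]
  apply mul_le_mul_of_nonneg_left _ (abs_nonneg _)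
  apply div_le_div_of_nonneg_right _ (mul_pos hA hB).le
  rw [abs_le]
  constructor <;> nlinarith [sq_nonneg (p + q), sq_nonneg (p - q), sq_nonneg u]

section sys

variable {ι : Type} {x : ι → ℝ} {s : ℕ → Finset ι} {S : ℂ → ℂ}

theorem ct_S_im_nonneg (x : ι → ℝ) (t : Finset ι) (e : ℝ) {u : ℝ} (hu : 0 < u) : 0 ≤ (ctS x t (ctZ e u)).im := by
  rw [ct_S_im]; exact Finset.sum_nonneg fun i _ => (ct_P_pos _ hu).le

theorem CtSys.lim_re (h : CtSys x s S) (e : ℝ) {u : ℝ} (hu : 0 < u) :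
    Tendsto (fun K => (ctS x (s K) (ctZ e u)).re) atTop (𝓝 (S (ctZ e u)).re) :=
  (Complex.continuous_re.tendsto _).comp (h.lim _ (by rw [ct_Z_im]; exact hu))

theorem CtSys.lim_im (h : CtSys x s S) (e : ℝ) {u : ℝ} (hu : 0 < u) :
    Tendsto (fun K => (ctS x (s K) (ctZ e u)).im) atTop (𝓝 (S (ctZ e u)).im) :=
  (Complex.continuous_im.tendsto _).comp (h.lim _ (by rw [ct_Z_im]; exact hu))

theorem CtSys.im_mono (h : CtSys x s S) (e : ℝ) {u : ℝ} (hu : 0 < u) : Monotone fun K => (ctS x (s K) (ctZ e u)).im := by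
  intro K L hKL
  simp only [ct_S_im]
  exact Finset.sum_le_sum_of_subset_of_nonneg (h.mono hKL) fun i _ _ => (ct_P_pos _ hu).le

theorem CtSys.im_le (h : CtSys x s S) (e : ℝ) {u : ℝ} (hu : 0 < u) (K : ℕ) : (ctS x (s K) (ctZ e u)).im ≤ (S (ctZ e u)).im :=
  (h.im_mono e hu).ge_of_tendsto (h.lim_im e hu) K

theorem ct_S_re_diff (x : ι → ℝ) (t : Finset ι) (a b : ℝ) {u : ℝ} (hu : 0 < u) :
    |(ctS x t (ctZ b u)).re - (ctS x t (ctZ a u)).re|
      ≤ |b - a| / (2 * u) * ((ctS x t (ctZ a u)).im + (ctS x t (ctZ b u)).im) := by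
  rw [ct_S_re, ct_S_re, ct_S_im, ct_S_im, ← Finset.sum_sub_distrib, ← Finset.sum_add_distrib, Finset.mul_sum]
  refine (Finset.abs_sum_le_sum_abs _ _).trans (Finset.sum_le_sum fun i _ => ?_)
  have := ct_Q_diff (x i - a) (x i - b) hu
  have e : x i - a - (x i - b) = b - a := by ring
  rwa [e] at this

theorem ct_ind_closed (a b x : ℝ) : CtInd a b x (if a ≤ x ∧ x ≤ b then 1 else 0) where
  c0 := by split_ifs <;> norm_num
  c1 := by split_ifs <;> norm_num
  ins := fun h1 h2 => if_pos ⟨h1.le, h2.le⟩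
  lft := fun h => if_neg fun h' => absurd h'.1 (not_le.2 h)
  rgt := fun h => if_neg fun h' => absurd h'.2 (not_le.2 h)

theorem ct_ind_open (a b x : ℝ) : CtInd a b x (if a < x ∧ x < b then 1 else 0) where
  c0 := by split_ifs <;> norm_num
  c1 := by split_ifs <;> norm_num
  ins := fun h1 h2 => if_pos ⟨h1, h2⟩
  lft := fun h => if_neg fun h' => absurd h'.1 (not_lt.2 h.le)
  rgt := fun h => if_neg fun h' => absurd h'.2 (not_lt.2 h.le)

/-- the hypotheses of T1 on the three sides of the rectangle `[a,b] × [u0,R]` -/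
structure CtRect (S : ℂ → ℂ) (w : ℂ) (C ξ a b u0 R : ℝ) : Prop where
  C0 : 0 ≤ C
  ξ0 : 0 < ξ
  ξ1 : ξ < 1
  ab : a ≤ b
  u0_pos : 0 < u0
  u0_le : u0 ≤ R
  top : ∀ e ∈ Icc a b, |(S (ctZ e R)).im - w.im| ≤ C * R ^ (-ξ)
  lft : ∀ u ∈ Icc u0 R, ‖S (ctZ a u) - w‖ ≤ C * u ^ (-ξ)
  rgt : ∀ u ∈ Icc u0 R, ‖S (ctZ b u) - w‖ ≤ C * u ^ (-ξ)

/-- the contour functional and the error term converge, and their limits are controlled -/
theorem ct_rect_lim (h : CtSys x s S) {w : ℂ} {C ξ a b u0 R : ℝ} (r : CtRect S w C ξ a b u0 R) :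
    ∃ T E : ℝ, Tendsto (fun K => ctT (ctS x (s K)) a b u0 R) atTop (𝓝 T) ∧
      Tendsto (fun K => Real.pi * u0 * ((ctS x (s K) (ctZ a u0)).im + (ctS x (s K) (ctZ b u0)).im)) atTop (𝓝 E) ∧
      |T - w.im * (b - a)| + E ≤ ctErr C ξ w.im (b - a) u0 R := by
  obtain ⟨hC, hξ0, hξ1, hab, hu0, hR, htop, hl, hr⟩ := r
  have hR0 := lt_of_lt_of_le hu0 hR
  have hpi := Real.pi_pos
  have mem0 : u0 ∈ Icc u0 R := ⟨le_rfl, hR⟩
  have pw : ∀ u : ℝ, 0 < u → 0 < u ^ (-ξ) := fun u hu => Real.rpow_pos_of_pos hu _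
  -- bounds of the imaginary parts
  have imb : ∀ e : ℝ, (∀ u ∈ Icc u0 R, ‖S (ctZ e u) - w‖ ≤ C * u ^ (-ξ)) → ∀ u ∈ Icc u0 R,
      (S (ctZ e u)).im ≤ w.im + C * u0 ^ (-ξ) := by
    intro e he u hu
    have h1 := (Complex.abs_im_le_norm _).trans (he u hu)
    rw [Complex.sub_im] at h1
    have h2 : u ^ (-ξ) ≤ u0 ^ (-ξ) := Real.rpow_le_rpow_of_nonpos hu0 hu.1 (by linarith)
    have h3 := mul_le_mul_of_nonneg_left h2 hC
    linarith [(abs_le.1 h1).2]
  have reb : ∀ e : ℝ, (∀ u ∈ Icc u0 R, ‖S (ctZ e u) - w‖ ≤ C * u ^ (-ξ)) → ∀ u ∈ Icc u0 R,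
      |(S (ctZ e u)).re - w.re| ≤ C * u ^ (-ξ) := by
    intro e he u hu
    have h1 := (Complex.abs_re_le_norm _).trans (he u hu)
    rwa [Complex.sub_re] at h1
  set B0 : ℝ := w.im + C * u0 ^ (-ξ) with hB0
  -- the top side
  have A : Tendsto (fun K => ∫ e in a..b, ((ctS x (s K) (ctZ e R)).im - w.im)) atTop
      (𝓝 (∫ e in a..b, ((S (ctZ e R)).im - w.im))) := by
    apply intervalIntegral.tendsto_integral_filter_of_dominated_convergence (fun _ => |w.im| + C * R ^ (-ξ) + |w.im|)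
    · exact Eventually.of_forall fun K => ((ct_S_im_cont x (s K) hR0).sub continuous_const).aestronglyMeasurable
    · refine Eventually.of_forall fun K => Eventually.of_forall fun e he => ?_
      rw [uIoc_of_le hab] at he
      have h1 := h.im_le e hR0 K
      have h2 := ct_S_im_nonneg x (s K) e hR0
      have h3 := abs_le.1 (htop e ⟨he.1.le, he.2⟩)
      rw [Real.norm_eq_abs, abs_le]
      constructor <;> linarith [le_abs_self w.im, neg_abs_le w.im, mul_nonneg hC (pw R hR0).le, h3.1, h3.2]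
    · exact intervalIntegrable_const
    · exact Eventually.of_forall fun e _ => (h.lim_im e hR0).sub_const _
  have A' : |∫ e in a..b, ((S (ctZ e R)).im - w.im)| ≤ C * R ^ (-ξ) * (b - a) := by
    have := intervalIntegral.norm_integral_le_of_norm_le_const (a := a) (b := b) (C := C * R ^ (-ξ))
      (f := fun e => (S (ctZ e R)).im - w.im) (fun e he => by
        rw [uIoc_of_le hab] at he
        exact htop e ⟨he.1.le, he.2⟩)
    rwa [Real.norm_eq_abs, abs_of_nonneg (sub_nonneg.2 hab)] at this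
  have Ae : ∀ K, ∫ e in a..b, ((ctS x (s K) (ctZ e R)).im - w.im) = (∫ e in a..b, (ctS x (s K) (ctZ e R)).im) - w.im * (b - a) := by
    intro K
    rw [intervalIntegral.integral_sub ((ct_S_im_cont x (s K) hR0).intervalIntegrable _ _) intervalIntegrable_const,
      intervalIntegral.integral_const, smul_eq_mul, mul_comm]
  -- the vertical sides
  have Bt : Tendsto (fun K => ∫ u in u0..R, ((ctS x (s K) (ctZ b u)).re - (ctS x (s K) (ctZ a u)).re)) atTop
      (𝓝 (∫ u in u0..R, ((S (ctZ b u)).re - (S (ctZ a u)).re))) := by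
    apply intervalIntegral.tendsto_integral_filter_of_dominated_convergence (fun _ => |b - a| / (2 * u0) * (B0 + B0))
    · refine Eventually.of_forall fun K => ?_
      have := ((ct_S_re_ii x (s K) b hu0 hR).sub (ct_S_re_ii x (s K) a hu0 hR)).1.aestronglyMeasurable
      rwa [uIoc_of_le hR]
    · refine Eventually.of_forall fun K => Eventually.of_forall fun u hu => ?_
      rw [uIoc_of_le hR] at hu
      have hu' : 0 < u := lt_trans hu0 hu.1
      have hm : u ∈ Icc u0 R := ⟨hu.1.le, hu.2⟩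
      rw [Real.norm_eq_abs]
      refine (ct_S_re_diff x (s K) a b hu').trans ?_
      have h1 := (h.im_le a hu' K).trans (imb a hl u hm)
      have h2 := (h.im_le b hu' K).trans (imb b hr u hm)
      have h3 := ct_S_im_nonneg x (s K) a hu'
      have h4 := ct_S_im_nonneg x (s K) b hu'
      apply mul_le_mul _ (by linarith) (by linarith) (by positivity)
      exact div_le_div_of_nonneg_left (abs_nonneg _) (by positivity) (by linarith [hu.1])
    · exact intervalIntegrable_const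
    · refine Eventually.of_forall fun u hu => ?_
      rw [uIoc_of_le hR] at hu
      have hu' : 0 < u := lt_trans hu0 hu.1
      exact (h.lim_re b hu').sub (h.lim_re a hu')
  have Dle : ∀ u ∈ Icc u0 R, |(S (ctZ b u)).re - (S (ctZ a u)).re| ≤ 2 * C * u ^ (-ξ) := by
    intro u hu
    have h1 := abs_le.1 (reb a hl u hu)
    have h2 := abs_le.1 (reb b hr u hu)
    rw [abs_le]
    constructor <;> linarith [h1.1, h1.2, h2.1, h2.2]
  have B' : |∫ u in u0..R, ((S (ctZ b u)).re - (S (ctZ a u)).re)| ≤ 2 * C * ((R ^ (1 - ξ) - u0 ^ (1 - ξ)) / (1 - ξ)) := by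
    have h1 := intervalIntegral.norm_integral_le_of_norm_le (μ := volume) hR
      (f := fun u => (S (ctZ b u)).re - (S (ctZ a u)).re) (g := fun u => 2 * C * u ^ (-ξ))
      (Eventually.of_forall fun u hu => Dle u ⟨hu.1.le, hu.2⟩)
      ((intervalIntegral.intervalIntegrable_rpow' (by linarith)).const_mul _)
    rw [intervalIntegral.integral_const_mul, integral_rpow (Or.inl (by linarith))] at h1
    have e : -ξ + 1 = 1 - ξ := by ring
    rwa [e, Real.norm_eq_abs] at h1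
  refine ⟨(∫ e in a..b, ((S (ctZ e R)).im - w.im)) + w.im * (b - a) - (∫ u in u0..R, ((S (ctZ b u)).re - (S (ctZ a u)).re))
      - u0 * ((S (ctZ b u0)).re - (S (ctZ a u0)).re),
    Real.pi * u0 * ((S (ctZ a u0)).im + (S (ctZ b u0)).im), ?_, ?_, ?_⟩
  · have e : (fun K => ctT (ctS x (s K)) a b u0 R) = fun K => (∫ e in a..b, ((ctS x (s K) (ctZ e R)).im - w.im)) + w.im * (b - a)
        - (∫ u in u0..R, ((ctS x (s K) (ctZ b u)).re - (ctS x (s K) (ctZ a u)).re))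
        - u0 * ((ctS x (s K) (ctZ b u0)).re - (ctS x (s K) (ctZ a u0)).re) := by
      funext K
      unfold ctT
      rw [Ae]; ring
    rw [e]
    exact ((A.add_const _).sub Bt).sub (((h.lim_re b hu0).sub (h.lim_re a hu0)).const_mul u0)
  · exact ((h.lim_im a hu0).add (h.lim_im b hu0)).const_mul _
  · have h1 := Dle u0 mem0
    have h2 := imb a hl u0 mem0
    have h3 := imb b hr u0 mem0
    have e1 : u0 * u0 ^ (-ξ) = u0 ^ (1 - ξ) := by
      rw [sub_eq_add_neg, Real.rpow_add hu0, Real.rpow_one]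
    have h4 : u0 ^ (1 - ξ) ≤ R ^ (1 - ξ) := Real.rpow_le_rpow hu0.le hR (by linarith)
    have h5 : 0 < u0 ^ (1 - ξ) := Real.rpow_pos_of_pos hu0 _
    have hx : 0 < 1 - ξ := by linarith
    -- the three pieces
    have t1 : |(∫ e in a..b, ((S (ctZ e R)).im - w.im)) + w.im * (b - a) - (∫ u in u0..R, ((S (ctZ b u)).re - (S (ctZ a u)).re))
        - u0 * ((S (ctZ b u0)).re - (S (ctZ a u0)).re) - w.im * (b - a)|
        ≤ C * R ^ (-ξ) * (b - a) + 2 * C * ((R ^ (1 - ξ) - u0 ^ (1 - ξ)) / (1 - ξ)) + u0 * (2 * C * u0 ^ (-ξ)) := by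
      have h6 : |u0 * ((S (ctZ b u0)).re - (S (ctZ a u0)).re)| ≤ u0 * (2 * C * u0 ^ (-ξ)) := by
        rw [abs_mul, abs_of_pos hu0]; exact mul_le_mul_of_nonneg_left h1 hu0.le
      have a1 := abs_le.1 A'
      have a2 := abs_le.1 B'
      have a3 := abs_le.1 h6
      rw [abs_le]
      constructor <;> linarith [a1.1, a1.2, a2.1, a2.2, a3.1, a3.2]
    have t2 : Real.pi * u0 * ((S (ctZ a u0)).im + (S (ctZ b u0)).im) ≤ Real.pi * u0 * (B0 + B0) :=
      mul_le_mul_of_nonneg_left (by linarith) (by positivity)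
    have t3 : 2 * C * ((R ^ (1 - ξ) - u0 ^ (1 - ξ)) / (1 - ξ)) + u0 * (2 * C * u0 ^ (-ξ)) ≤ 2 / (1 - ξ) * C * R ^ (1 - ξ) := by
      have e2 : u0 * (2 * C * u0 ^ (-ξ)) = 2 * C * u0 ^ (1 - ξ) := by rw [← e1]; ring
      rw [e2]
      have e3 : 2 / (1 - ξ) * C * R ^ (1 - ξ) - (2 * C * ((R ^ (1 - ξ) - u0 ^ (1 - ξ)) / (1 - ξ)) + 2 * C * u0 ^ (1 - ξ))
          = 2 * C * u0 ^ (1 - ξ) * (ξ / (1 - ξ)) := by field_simp; ring
      have : 0 ≤ 2 * C * u0 ^ (1 - ξ) * (ξ / (1 - ξ)) := by positivity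
      linarith
    have t4 : Real.pi * u0 * (B0 + B0) ≤ 2 * Real.pi * C * R ^ (1 - ξ) + 2 * Real.pi * u0 * w.im := by
      have e4 : Real.pi * u0 * (B0 + B0) = 2 * Real.pi * C * (u0 * u0 ^ (-ξ)) + 2 * Real.pi * u0 * w.im := by rw [hB0]; ring
      rw [e4, e1]
      have := mul_le_mul_of_nonneg_left h4 (by positivity : 0 ≤ 2 * Real.pi * C)
      linarith
    unfold ctErr
    have e5 : (2 / (1 - ξ) + 2 * Real.pi) * C * R ^ (1 - ξ) = 2 / (1 - ξ) * C * R ^ (1 - ξ) + 2 * Real.pi * C * R ^ (1 - ξ) := by ring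
    rw [e5]
    linarith

/-- **T1 (one rectangle)**: counts of the closed interval from above, of the open interval from below -/
theorem ct_rect (h : CtSys x s S) {w : ℂ} {C ξ a b u0 R : ℝ} (r : CtRect S w C ξ a b u0 R) :
    (∀ K, Real.pi * (((s K).filter fun i => a ≤ x i ∧ x i ≤ b).card : ℝ) ≤ w.im * (b - a) + ctErr C ξ w.im (b - a) u0 R) ∧
    (∀ M : ℝ, (∀ K, (((s K).filter fun i => a < x i ∧ x i < b).card : ℝ) ≤ M) →
      w.im * (b - a) - ctErr C ξ w.im (b - a) u0 R ≤ Real.pi * M) := by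
  obtain ⟨T, E, hT, hE, hTE⟩ := ct_rect_lim h r
  have hpi := Real.pi_pos
  have hT' := abs_le.1 (show |T - w.im * (b - a)| ≤ ctErr C ξ w.im (b - a) u0 R - E by linarith)
  constructor
  · intro K0
    have h1 : ∀ᶠ K in atTop, Real.pi * (((s K0).filter fun i => a ≤ x i ∧ x i ≤ b).card : ℝ)
        ≤ ctT (ctS x (s K)) a b u0 R + Real.pi * u0 * ((ctS x (s K) (ctZ a u0)).im + (ctS x (s K) (ctZ b u0)).im) := by
      filter_upwards [eventually_ge_atTop K0] with K hK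
      have m := ct_master x (s K) r.ab r.u0_pos r.u0_le (fun i => if a ≤ x i ∧ x i ≤ b then 1 else 0) (fun i _ => ct_ind_closed a b (x i))
      rw [Finset.sum_boole] at m
      have c1 : (((s K0).filter fun i => a ≤ x i ∧ x i ≤ b).card : ℝ) ≤ (((s K).filter fun i => a ≤ x i ∧ x i ≤ b).card : ℝ) := by
        exact_mod_cast Finset.card_le_card (Finset.filter_subset_filter _ (h.mono hK))
      have := (abs_le.1 m).2
      nlinarith
    have h2 := le_of_tendsto_of_tendsto tendsto_const_nhds (hT.add hE) h1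
    linarith [hT'.2]
  · intro M hM
    have h1 : ∀ K, ctT (ctS x (s K)) a b u0 R - Real.pi * u0 * ((ctS x (s K) (ctZ a u0)).im + (ctS x (s K) (ctZ b u0)).im)
        ≤ Real.pi * M := by
      intro K
      have m := ct_master x (s K) r.ab r.u0_pos r.u0_le (fun i => if a < x i ∧ x i < b then 1 else 0) (fun i _ => ct_ind_open a b (x i))
      rw [Finset.sum_boole] at m
      have := (abs_le.1 m).1
      have := mul_le_mul_of_nonneg_left (hM K) hpi.le
      linarith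
    have h2 := le_of_tendsto' (hT.sub hE) h1
    linarith [hT'.1]

end sys

/-! ## 4. T2: from the integer grid to the continuum -/

theorem ct_pt_lip (x : ℝ) {z z' : ℂ} (hz : 0 < z.im) (hz' : 0 < z'.im) :
    ‖(((x : ℝ) : ℂ) - z')⁻¹ - (((x : ℝ) : ℂ) - z)⁻¹‖
      ≤ ‖z' - z‖ * (1 + ‖z' - z‖ / z'.im) * (((((x : ℝ) : ℂ) - z)⁻¹).im / z.im) := by
  set p : ℂ := ((x : ℝ) : ℂ) - z with hp
  set p' : ℂ := ((x : ℝ) : ℂ) - z' with hp'
  have im1 : p.im = -z.im := by rw [hp]; simp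
  have im2 : p'.im = -z'.im := by rw [hp']; simp
  have p0 : p ≠ 0 := by
    intro h0
    rw [h0] at im1
    simp at im1
    linarith
  have p0' : p' ≠ 0 := by
    intro h0
    rw [h0] at im2
    simp at im2
    linarith
  have n0 : 0 < ‖p‖ := norm_pos_iff.2 p0
  have n0' : 0 < ‖p'‖ := norm_pos_iff.2 p0'
  have n1 : z'.im ≤ ‖p'‖ := by
    have := Complex.abs_im_le_norm p'
    rw [im2, abs_neg, abs_of_pos hz'] at this
    exact this
  have e : p'⁻¹ - p⁻¹ = (z' - z) * (p'⁻¹ * p⁻¹) := by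
    have : z' - z = p - p' := by rw [hp, hp']; ring
    rw [this]; field_simp
  have e2 : (p⁻¹).im / z.im = ‖p‖⁻¹ * ‖p‖⁻¹ := by
    rw [Complex.inv_im, im1, Complex.normSq_eq_norm_sq]
    field_simp
  have n2 : ‖p‖ ≤ (1 + ‖z' - z‖ / z'.im) * ‖p'‖ := by
    have t1 : ‖p‖ ≤ ‖p'‖ + ‖z' - z‖ := by
      have : p = p' + (z' - z) := by rw [hp, hp']; ring
      rw [this]; exact norm_add_le _ _
    have t2 : ‖z' - z‖ ≤ ‖z' - z‖ / z'.im * ‖p'‖ := by
      rw [div_mul_eq_mul_div, le_div_iff₀ hz']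
      exact mul_le_mul_of_nonneg_left n1 (norm_nonneg _)
    linarith
  have n3 : ‖p'‖⁻¹ ≤ (1 + ‖z' - z‖ / z'.im) * ‖p‖⁻¹ := by
    rw [← div_eq_mul_inv, le_div_iff₀ n0, inv_mul_le_iff₀ n0']
    linarith
  rw [e, e2, norm_mul, norm_mul, norm_inv, norm_inv, mul_assoc]
  apply mul_le_mul_of_nonneg_left _ (norm_nonneg _)
  rw [← mul_assoc]
  exact mul_le_mul_of_nonneg_right n3 (by positivity)

theorem ct_S_lip {ι : Type} (x : ι → ℝ) (t : Finset ι) {z z' : ℂ} (hz : 0 < z.im) (hz' : 0 < z'.im) :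
    ‖ctS x t z' - ctS x t z‖ ≤ ‖z' - z‖ * (1 + ‖z' - z‖ / z'.im) * ((ctS x t z).im / z.im) := by
  unfold ctS
  rw [← Finset.sum_sub_distrib, Complex.im_sum, Finset.sum_div, Finset.mul_sum]
  exact (norm_sum_le _ _).trans (Finset.sum_le_sum fun i _ => ct_pt_lip (x i) hz hz')

section sys2

variable {ι : Type} {x : ι → ℝ} {s : ℕ → Finset ι} {S : ℂ → ℂ}

/-- Harnack + Lipschitz: `|S(z') - S(z)| ≤ |z'-z| (1 + |z'-z|/Im z') Im S(z)/Im z` -/
theorem ct_lip (h : CtSys x s S) {z z' : ℂ} (hz : 0 < z.im) (hz' : 0 < z'.im) :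
    ‖S z' - S z‖ ≤ ‖z' - z‖ * (1 + ‖z' - z‖ / z'.im) * ((S z).im / z.im) := by
  have l1 : Tendsto (fun K => ‖ctS x (s K) z' - ctS x (s K) z‖) atTop (𝓝 ‖S z' - S z‖) := ((h.lim z' hz').sub (h.lim z hz)).norm
  have l2 : Tendsto (fun K => ‖z' - z‖ * (1 + ‖z' - z‖ / z'.im) * ((ctS x (s K) z).im / z.im)) atTop
      (𝓝 (‖z' - z‖ * (1 + ‖z' - z‖ / z'.im) * ((S z).im / z.im))) :=
    (((Complex.continuous_im.tendsto _).comp (h.lim z hz)).div_const _).const_mul _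
  exact le_of_tendsto_of_tendsto' l1 l2 fun K => ct_S_lip x (s K) hz hz'

/-- the trace bound on a box of spectral parameters -/
def CtBox (S : ℂ → ℂ) (w : ℂ) (C ξ A B U0 U1 : ℝ) : Prop :=
  ∀ e ∈ Icc A B, ∀ u ∈ Icc U0 U1, ‖S (ctZ e u) - w‖ ≤ C * u ^ (-ξ)

/-- the trace bound at the integer points of a box -/
def CtGrid (S : ℂ → ℂ) (w : ℂ) (C ξ : ℝ) (A B : ℤ) (U0 U1 : ℕ) : Prop :=
  ∀ p : ℤ, A ≤ p → p ≤ B → ∀ q : ℕ, U0 ≤ q → q ≤ U1 → ‖S (ctZ p q) - w‖ ≤ C * (q : ℝ) ^ (-ξ)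

/-- one point from the nearest grid point -/
theorem ct_grid_pt (h : CtSys x s S) {w : ℂ} {C ξ e u : ℝ} (hw : 0 ≤ w.im) (hC : 0 ≤ C) (hξ0 : 0 ≤ ξ) (hξ1 : ξ ≤ 1) (hu : 1 ≤ u)
    (hg : ‖S (ctZ (⌊e⌋ : ℤ) (⌈u⌉₊ : ℕ)) - w‖ ≤ C * ((⌈u⌉₊ : ℕ) : ℝ) ^ (-ξ)) :
    ‖S (ctZ e u) - w‖ ≤ (7 * C + 6 * w.im) * u ^ (-ξ) := by
  have hu0 : 0 < u := by linarith
  set q : ℝ := ((⌈u⌉₊ : ℕ) : ℝ) with hq
  set p : ℝ := ((⌊e⌋ : ℤ) : ℝ) with hp
  have q1 : u ≤ q := Nat.le_ceil u
  have q2 : q < u + 1 := Nat.ceil_lt_add_one hu0.le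
  have p1 : p ≤ e := Int.floor_le e
  have p2 : e < p + 1 := Int.lt_floor_add_one e
  have hq0 : 0 < q := by linarith
  have hd : ‖ctZ e u - ctZ p q‖ ≤ 2 := by
    have e1 : ctZ e u - ctZ p q = ((e - p : ℝ) : ℂ) + ((u - q : ℝ) : ℂ) * Complex.I := by
      unfold ctZ; push_cast; ring
    rw [e1]
    refine (norm_add_le _ _).trans ?_
    rw [norm_mul, Complex.norm_I, mul_one, Complex.norm_real, Complex.norm_real, Real.norm_eq_abs, Real.norm_eq_abs,
      abs_of_nonneg (by linarith), abs_of_nonpos (by linarith)]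
    linarith
  have l := ct_lip h (z := ctZ p q) (z' := ctZ e u) (by rw [ct_Z_im]; exact hq0) (by rw [ct_Z_im]; exact hu0)
  rw [ct_Z_im, ct_Z_im] at l
  have pw1 : q ^ (-ξ) ≤ u ^ (-ξ) := Real.rpow_le_rpow_of_nonpos hu0 q1 (by linarith)
  have pw2 : u ^ (-ξ) ≤ 1 := Real.rpow_le_one_of_one_le_of_nonpos hu (by linarith)
  have pw3 : 0 < u ^ (-ξ) := Real.rpow_pos_of_pos hu0 _
  have pw4 : 1 / u ≤ u ^ (-ξ) := by
    rw [one_div, ← Real.rpow_neg_one]
    exact Real.rpow_le_rpow_of_exponent_le hu (by linarith)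
  have im1 : (S (ctZ p q)).im ≤ w.im + C := by
    have h1 := (Complex.abs_im_le_norm _).trans hg
    rw [Complex.sub_im] at h1
    have h2 := mul_le_mul_of_nonneg_left (pw1.trans pw2) hC
    linarith [(abs_le.1 h1).2]
  have im0 : 0 ≤ (S (ctZ p q)).im := (ct_S_im_nonneg x (s 0) p hq0).trans (h.im_le p hq0 0)
  have l2 : ‖S (ctZ e u) - S (ctZ p q)‖ ≤ 6 * ((w.im + C) * u ^ (-ξ)) := by
    refine l.trans ?_
    have a1 : ‖ctZ e u - ctZ p q‖ * (1 + ‖ctZ e u - ctZ p q‖ / u) ≤ 2 * 3 := by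
      apply mul_le_mul hd _ (by positivity) (by norm_num)
      have : ‖ctZ e u - ctZ p q‖ / u ≤ 2 := by
        rw [div_le_iff₀ hu0]; linarith
      linarith
    have a2 : (S (ctZ p q)).im / q ≤ (w.im + C) * u ^ (-ξ) := by
      rw [div_eq_mul_one_div]
      apply mul_le_mul im1 _ (by positivity) (by linarith)
      exact (one_div_le_one_div_of_le hu0 q1).trans pw4
    calc _ ≤ 2 * 3 * ((w.im + C) * u ^ (-ξ)) := mul_le_mul a1 a2 (by positivity) (by norm_num)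
      _ = _ := by ring
  have e2 : S (ctZ e u) - w = (S (ctZ e u) - S (ctZ p q)) + (S (ctZ p q) - w) := by ring
  rw [e2]
  refine (norm_add_le _ _).trans ?_
  have := mul_le_mul_of_nonneg_left pw1 hC
  nlinarith

/-- **T2**: integer grid ⟹ box -/
theorem ct_box_of_grid (h : CtSys x s S) {w : ℂ} {C ξ : ℝ} (hw : 0 ≤ w.im) (hC : 0 ≤ C) (hξ0 : 0 ≤ ξ) (hξ1 : ξ ≤ 1)
    {A B : ℤ} {U0 U1 : ℕ} (hU0 : 1 ≤ U0) (g : CtGrid S w C ξ A B U0 U1) : CtBox S w (7 * C + 6 * w.im) ξ A B U0 U1 := by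
  intro e he u hu
  have hu1 : (1 : ℝ) ≤ u := le_trans (by exact_mod_cast hU0) hu.1
  apply ct_grid_pt h hw hC hξ0 hξ1 hu1
  apply g
  · exact Int.le_floor.2 he.1
  · have : ((⌊e⌋ : ℤ) : ℝ) ≤ (B : ℝ) := (Int.floor_le e).trans he.2
    exact_mod_cast this
  · have : (U0 : ℝ) ≤ ((⌈u⌉₊ : ℕ) : ℝ) := hu.1.trans (Nat.le_ceil u)
    exact_mod_cast this
  · exact Nat.ceil_le.2 hu.2

end sys2

/-! ## 5. T3: the gap form for monotone labelled configurations -/

/-- the windows of labels -/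
def ctWin (K : ℕ) : Finset ℤ := Finset.Icc (-(K : ℤ)) K

theorem ct_win_mono : Monotone ctWin := by
  intro K L h
  unfold ctWin
  apply Finset.Icc_subset_Icc <;> omega

/-- the constant of the gap form -/
def ctGapC (C ξ p : ℝ) : ℝ :=
  2 * C / p * (Real.pi + (2 / (1 - ξ) + 2 * Real.pi) * C + 2 * Real.pi * p) + (2 / (1 - ξ) + 2 * Real.pi) * C + 2 * Real.pi * p

theorem ct_eqns_cite2 : True := by
  have := @ctA.eq_1; have := @ctT.eq_1; have := @ctErr.eq_1; have := @CtBox.eq_1; have := @CtGrid.eq_1; have := @ctWin.eq_1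
  have := @ctGapC.eq_1
  trivial

section gap

variable {x : ℤ → ℝ} {s : ℕ → Finset ℤ} {S : ℂ → ℂ} {w : ℂ} {C ξ : ℝ}

/-- the windows of labels cover every interval of labels -/
theorem ct_win_cover (i j : ℤ) : ∃ K, Finset.Icc i j ⊆ ctWin K := by
  refine ⟨i.natAbs + j.natAbs, fun k hk => ?_⟩
  rw [Finset.mem_Icc] at hk
  unfold ctWin
  rw [Finset.mem_Icc, Nat.cast_add]
  have n1 : -(i.natAbs : ℤ) ≤ i := by omega
  have n2 : j ≤ (j.natAbs : ℤ) := by omega
  constructor <;> linarith [hk.1, hk.2, (Nat.cast_nonneg i.natAbs : (0 : ℤ) ≤ i.natAbs), (Nat.cast_nonneg j.natAbs : (0 : ℤ) ≤ j.natAbs)]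

/-- a rectangle inside a box -/
theorem CtBox.rect {A B U0 U1 a b u0 R : ℝ} (box : CtBox S w C ξ A B U0 U1) (hC : 0 ≤ C) (hξ0 : 0 < ξ) (hξ1 : ξ < 1)
    (hA : A ≤ a) (hab : a ≤ b) (hB : b ≤ B) (h0 : 0 < u0) (hU0 : U0 ≤ u0) (hR : u0 ≤ R) (hU1 : R ≤ U1) :
    CtRect S w C ξ a b u0 R where
  C0 := hC
  ξ0 := hξ0
  ξ1 := hξ1
  ab := hab
  u0_pos := h0
  u0_le := hR
  top := fun e he => by
    have := (Complex.abs_im_le_norm _).trans (box e ⟨hA.trans he.1, he.2.trans hB⟩ R ⟨hU0.trans hR, hU1⟩)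
    rwa [Complex.sub_im] at this
  lft := fun u hu => box a ⟨hA, hab.trans hB⟩ u ⟨hU0.trans hu.1, hu.2.trans hU1⟩
  rgt := fun u hu => box b ⟨hA.trans hab, hB⟩ u ⟨hU0.trans hu.1, hu.2.trans hU1⟩

/-- the gap between the labels `j0` and `j0 + m`, one rectangle -/
theorem ct_gap_rect (hx : Monotone x) (h : CtSys x s S) {j0 : ℤ} {m : ℕ} {u0 R : ℝ} (hs : ∃ K, Finset.Icc j0 (j0 + m) ⊆ s K)
    (r : CtRect S w C ξ (x j0) (x (j0 + m)) u0 R) :
    |w.im * (x (j0 + m) - x j0) - Real.pi * m| ≤ ctErr C ξ w.im (x (j0 + m) - x j0) u0 R := by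
  obtain ⟨h1, h2⟩ := ct_rect h r
  obtain ⟨K0, hK0⟩ := hs
  have hpi := Real.pi_pos
  rw [abs_le]
  constructor
  · -- closed count
    have c1 : (m : ℝ) ≤ (((s K0).filter fun i => x j0 ≤ x i ∧ x i ≤ x (j0 + m)).card : ℝ) := by
      have sub : Finset.Icc j0 (j0 + m) ⊆ (s K0).filter fun i => x j0 ≤ x i ∧ x i ≤ x (j0 + m) := by
        intro i hi
        have hi' := Finset.mem_Icc.1 hi
        rw [Finset.mem_filter]
        exact ⟨hK0 hi, hx hi'.1, hx hi'.2⟩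
      have c2 := Finset.card_le_card sub
      rw [Int.card_Icc] at c2
      have c3 : m ≤ (j0 + m + 1 - j0).toNat := by omega
      exact_mod_cast c3.trans c2
    have := h1 K0
    have := mul_le_mul_of_nonneg_left c1 hpi.le
    linarith
  · have c1 : ∀ K, (((s K).filter fun i => x j0 < x i ∧ x i < x (j0 + m)).card : ℝ) ≤ m := by
      intro K
      have sub : ((s K).filter fun i => x j0 < x i ∧ x i < x (j0 + m)) ⊆ Finset.Ioo j0 (j0 + m) := by
        intro i hi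
        rw [Finset.mem_filter] at hi
        rw [Finset.mem_Ioo]
        constructor
        · by_contra hc
          exact absurd (hx (not_lt.1 hc)) (not_le.2 hi.2.1)
        · by_contra hc
          exact absurd (hx (not_lt.1 hc)) (not_le.2 hi.2.2)
      have c2 := Finset.card_le_card sub
      rw [Int.card_Ioo] at c2
      have c3 : (j0 + m - j0 - 1).toNat ≤ m := by omega
      exact_mod_cast c2.trans c3
    have := h2 m c1
    linarith

/-- **T3 (gap form)**: `|πρ (x_{j0+m} - x_{j0}) - π m| ≤ C' m^{1-ξ}` -/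
theorem ct_gap (hx : Monotone x) (h : CtSys x s S) {A B U0 U1 : ℝ} (hp : 0 < w.im) (hC : 0 ≤ C) (hξ0 : 0 < ξ) (hξ1 : ξ < 1)
    (hU0 : 0 < U0) (box : CtBox S w C ξ A B U0 U1) {j0 : ℤ} {m : ℕ} (hs : ∃ K, Finset.Icc j0 (j0 + m) ⊆ s K)
    (ha : A ≤ x j0) (hb : x (j0 + m) ≤ B)
    (hm1 : U0 ≤ (m : ℝ) ^ (1 - ξ)) (hm2 : (m : ℝ) ≤ U1) (hm3 : C * (m : ℝ) ^ (-ξ) ≤ w.im / 2) :
    |w.im * (x (j0 + m) - x j0) - Real.pi * m| ≤ ctGapC C ξ w.im * (m : ℝ) ^ (1 - ξ) := by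
  have hpi := Real.pi_pos
  have hm0 : m ≠ 0 := by
    rintro rfl
    rw [Nat.cast_zero, Real.zero_rpow (by linarith)] at hm1
    linarith
  have hμ : (1 : ℝ) ≤ m := by exact_mod_cast Nat.one_le_iff_ne_zero.2 hm0
  have hμ0 : (0 : ℝ) < m := by linarith
  set μ : ℝ := (m : ℝ) with hμdef
  have P1 : μ ^ (1 - ξ) ≤ μ := by
    calc μ ^ (1 - ξ) ≤ μ ^ (1 : ℝ) := Real.rpow_le_rpow_of_exponent_le hμ (by linarith)
      _ = μ := Real.rpow_one _
  have P0 : μ ^ (-ξ) * μ = μ ^ (1 - ξ) := by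
    rw [sub_eq_neg_add, Real.rpow_add hμ0, Real.rpow_one]
  have P2 : 0 < μ ^ (1 - ξ) := Real.rpow_pos_of_pos hμ0 _
  have P3 : 0 < μ ^ (-ξ) := Real.rpow_pos_of_pos hμ0 _
  have hab : x j0 ≤ x (j0 + m) := hx (by omega)
  have r := box.rect hC hξ0 hξ1 ha hab hb hU0 le_rfl (hm1.trans P1) hm2
  have g := ct_gap_rect hx h hs r
  set ℓ : ℝ := x (j0 + m) - x j0 with hℓ
  have hℓ0 : 0 ≤ ℓ := sub_nonneg.2 hab
  set c : ℝ := 2 / (1 - ξ) + 2 * Real.pi with hc
  have hc0 : 0 < c := by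
    have : 0 < 1 - ξ := by linarith
    positivity
  unfold ctErr at g
  rw [← hc] at g
  have g2 := (abs_le.1 g).2
  -- a priori bound of the length
  have L1 : w.im / 2 * ℓ ≤ (Real.pi + c * C + 2 * Real.pi * w.im) * μ := by
    have a1 : C * μ ^ (-ξ) * ℓ ≤ w.im / 2 * ℓ := mul_le_mul_of_nonneg_right hm3 hℓ0
    have a2 : c * C * μ ^ (1 - ξ) ≤ c * C * μ := mul_le_mul_of_nonneg_left P1 (by positivity)
    have a3 : 2 * Real.pi * U0 * w.im ≤ 2 * Real.pi * μ * w.im := by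
      apply mul_le_mul_of_nonneg_right _ hp.le
      exact mul_le_mul_of_nonneg_left (hm1.trans P1) (by positivity)
    nlinarith
  have L2 : ℓ ≤ 2 / w.im * (Real.pi + c * C + 2 * Real.pi * w.im) * μ := by
    have : ℓ = 2 / w.im * (w.im / 2 * ℓ) := by field_simp
    rw [this, mul_assoc]
    exact mul_le_mul_of_nonneg_left L1 (by positivity)
  have L3 : C * μ ^ (-ξ) * ℓ ≤ 2 * C / w.im * (Real.pi + c * C + 2 * Real.pi * w.im) * μ ^ (1 - ξ) := by
    calc C * μ ^ (-ξ) * ℓ ≤ C * μ ^ (-ξ) * (2 / w.im * (Real.pi + c * C + 2 * Real.pi * w.im) * μ) :=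
          mul_le_mul_of_nonneg_left L2 (by positivity)
      _ = 2 * C / w.im * (Real.pi + c * C + 2 * Real.pi * w.im) * (μ ^ (-ξ) * μ) := by ring
      _ = _ := by rw [P0]
  have L4 : 2 * Real.pi * U0 * w.im ≤ 2 * Real.pi * w.im * μ ^ (1 - ξ) := by
    have := mul_le_mul_of_nonneg_left hm1 (by positivity : 0 ≤ 2 * Real.pi * w.im)
    linarith
  refine g.trans ?_
  unfold ctGapC
  rw [← hc]
  nlinarith

/-- labels to positions, right side -/
theorem ct_pos_right (hx : Monotone x) (h : CtSys x s S) (hl : x (-1) ≤ 0) {B u0 R : ℝ} (r : CtRect S w C ξ 0 B u0 R) {j : ℕ}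
    (hj : Real.pi * j < w.im * B - ctErr C ξ w.im B u0 R) : x j < B := by
  by_contra hc
  have hc' : B ≤ x j := not_lt.1 hc
  have c1 : ∀ K, (((s K).filter fun i => 0 < x i ∧ x i < B).card : ℝ) ≤ j := by
    intro K
    have sub : ((s K).filter fun i => 0 < x i ∧ x i < B) ⊆ Finset.Ico (0 : ℤ) j := by
      intro i hi
      rw [Finset.mem_filter] at hi
      rw [Finset.mem_Ico]
      constructor
      · by_contra h0
        have : x i ≤ x (-1) := hx (by omega)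
        linarith [hi.2.1]
      · by_contra h0
        have : x j ≤ x i := hx (not_lt.1 h0)
        linarith [hi.2.2]
    have c2 := Finset.card_le_card sub
    rw [Int.card_Ico] at c2
    have c3 : ((j : ℤ) - 0).toNat ≤ j := by omega
    exact_mod_cast c2.trans c3
  have := (ct_rect h r).2 j c1
  rw [sub_zero] at this
  linarith

/-- labels to positions, left side -/
theorem ct_pos_left (hx : Monotone x) (h : CtSys x s S) (hl : 0 ≤ x 0) {B u0 R : ℝ} (r : CtRect S w C ξ (-B) 0 u0 R) {j : ℕ}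
    (hj : Real.pi * j < w.im * B - ctErr C ξ w.im B u0 R) : -B < x (-(j : ℤ)) := by
  by_contra hc
  have hc' : x (-(j : ℤ)) ≤ -B := not_lt.1 hc
  have c1 : ∀ K, (((s K).filter fun i => -B < x i ∧ x i < 0).card : ℝ) ≤ j := by
    intro K
    have sub : ((s K).filter fun i => -B < x i ∧ x i < 0) ⊆ Finset.Ioo (-(j : ℤ)) 0 := by
      intro i hi
      rw [Finset.mem_filter] at hi
      rw [Finset.mem_Ioo]
      constructor
      · by_contra h0
        have : x i ≤ x (-(j : ℤ)) := hx (not_lt.1 h0)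
        linarith [hi.2.1]
      · by_contra h0
        have : x 0 ≤ x i := hx (not_lt.1 h0)
        linarith [hi.2.2]
    have c2 := Finset.card_le_card sub
    rw [Int.card_Ioo] at c2
    have c3 : ((0 : ℤ) - -(j : ℤ) - 1).toNat ≤ j := by omega
    exact_mod_cast c2.trans c3
  have := (ct_rect h r).2 j c1
  rw [zero_sub, neg_neg] at this
  linarith

/-- **T3 in a window of labels**: box `[-B,B] × [U0,U1]`, labels `|j| ≤ J` with `π J < πρ B - Err(B)` -/
theorem ct_gap_win (hx : Monotone x) (h : CtSys x s S) (lab : x (-1) ≤ 0 ∧ 0 ≤ x 0) {B U0 U1 : ℝ} (hp : 0 < w.im) (hC : 0 ≤ C)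
    (hξ0 : 0 < ξ) (hξ1 : ξ < 1) (hU0 : 0 < U0) (hUB : U0 ≤ B) (hBU : B ≤ U1) (box : CtBox S w C ξ (-B) B U0 U1) {J : ℕ}
    (hs : ∃ K, Finset.Icc (-(J : ℤ)) J ⊆ s K) (hJ : Real.pi * J < w.im * B - ctErr C ξ w.im B U0 B) :
    (∀ j : ℤ, -(J : ℤ) ≤ j → j ≤ J → x j ∈ Ioo (-B) B) ∧
    ∀ (j0 : ℤ) (m : ℕ), -(J : ℤ) ≤ j0 → j0 + m ≤ J → U0 ≤ (m : ℝ) ^ (1 - ξ) → (m : ℝ) ≤ U1 → C * (m : ℝ) ^ (-ξ) ≤ w.im / 2 →
      |w.im * (x (j0 + m) - x j0) - Real.pi * m| ≤ ctGapC C ξ w.im * (m : ℝ) ^ (1 - ξ) := by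
  have hB0 : 0 < B := lt_of_lt_of_le hU0 hUB
  have r1 : CtRect S w C ξ 0 B U0 B := box.rect hC hξ0 hξ1 (by linarith) hB0.le le_rfl hU0 le_rfl hUB hBU
  have r2 : CtRect S w C ξ (-B) 0 U0 B := box.rect hC hξ0 hξ1 le_rfl (by linarith) hB0.le hU0 le_rfl hUB hBU
  have p1 := ct_pos_right hx h lab.1 r1 hJ
  have p2 := ct_pos_left hx h lab.2 r2 hJ
  have pos : ∀ j : ℤ, -(J : ℤ) ≤ j → j ≤ J → x j ∈ Ioo (-B) B := fun j h1 h2 =>
    ⟨lt_of_lt_of_le p2 (hx h1), lt_of_le_of_lt (hx h2) p1⟩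
  refine ⟨pos, fun j0 m h1 h2 h3 h4 h5 => ?_⟩
  obtain ⟨K, hK⟩ := hs
  exact ct_gap hx h hp hC hξ0 hξ1 hU0 box ⟨K, (Finset.Icc_subset_Icc h1 h2).trans hK⟩ (pos j0 h1 (by omega)).1.le
    (pos (j0 + m) (by omega) h2).2.le h3 h4 h5

end gap

end

end Claimed.Agent.R287
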