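-- KEEP
import Claimed.Agent.R287.Defs

/-!
# Row 287 (S0534), kit K9: STIELTJES DETERMINACY      (helper227; prefix `k9`)

* `k9_approx`   : `f ∈ C_c(ℝ)` is approximated by finite real combinations of `Im 1/(x - z_a)`, `Im z_a > 0`, in the weighted norm `sup (1+x²)|·|`.
                  (kernel `K_y = 2 P_y - P_{2y} ≥ 0`, mass `π`, second moment `2πy²`: no arctan, no case distinction; then Riemann sums.)
* `k9_creg_summable`, `k9_creg_conv`, `k9_creg_tendsto` : a regular configuration (`CReg`) has `∑ 1/(1+x_j²) < ∞` and convergent principal value sums `cSK K x z → cS x z`.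
* `k9_im_cS`    : `Im cS x z = ∑' j, P_{Im z}(x_j - Re z)`.
* `k9_core`     : `|cLap μ h - ∫ Φ((cS x z_a)_a)| ≤ ∫ min 1 (ε ∑' 1/(1+(x_j-s)²))`.
* `k9_det`      : the joint laws of finitely many `cS x z_a` determine `cLap` (two laws, two shifts).
* `k9_det_lreg`, `k9_shift_lreg` : the same for laws with `LReg`; shift invariance of the traces gives shift invariance of `cLap` (export of U1 for U4).
-/

set_option autoImplicit false
open MeasureTheory ProbabilityTheory Matrix Filter Topology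

namespace Claimed.Agent.R287

/-! ## A. Approximation by Poisson kernels in the weighted norm -/

/-- Poisson kernel `y/(t^2+y^2)`; `k9P y (x - e) = Im 1/(x - (e+iy))` -/
noncomputable def k9P (y t : ℝ) : ℝ := y / (t ^ 2 + y ^ 2)

theorem k9P_nonneg {y : ℝ} (hy : 0 < y) (t : ℝ) : 0 ≤ k9P y t := by
  unfold k9P; positivity

theorem k9P_eq {y : ℝ} (hy : 0 < y) (t : ℝ) : k9P y t = y⁻¹ * (1 + (t / y) ^ 2)⁻¹ := by
  unfold k9P
  field_simp
  ring

theorem k9P_continuous {y : ℝ} (hy : 0 < y) : Continuous (k9P y) := by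
  unfold k9P
  refine continuous_const.div (by fun_prop) fun t => ?_
  positivity

theorem k9P_integrable {y : ℝ} (hy : 0 < y) : Integrable (k9P y) := by
  have h1 : Integrable fun t : ℝ => (1 + (t / y) ^ 2)⁻¹ :=
    integrable_inv_one_add_sq.comp_div hy.ne'
  have h2 := h1.const_mul y⁻¹
  refine h2.congr (Eventually.of_forall fun t => ?_)
  exact (k9P_eq hy t).symm

theorem k9P_integral {y : ℝ} (hy : 0 < y) : ∫ t, k9P y t = Real.pi := by
  have h0 : (fun t => k9P y t) = fun t => y⁻¹ * (1 + (t / y) ^ 2)⁻¹ := funext fun t => k9P_eq hy t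
  rw [h0, integral_const_mul, Measure.integral_comp_div (fun u : ℝ => (1 + u ^ 2)⁻¹) y, integral_univ_inv_one_add_sq,
    abs_of_pos hy, smul_eq_mul]
  field_simp

/-- the improved kernel `2 P_y - P_{2y} = 6 y^3/((t^2+y^2)(t^2+4y^2))`: nonnegative, mass `π`, finite second moment -/
noncomputable def k9K (y t : ℝ) : ℝ := 2 * k9P y t - k9P (2 * y) t

theorem k9K_eq {y : ℝ} (hy : 0 < y) (t : ℝ) : k9K y t = 6 * y ^ 3 / ((t ^ 2 + y ^ 2) * (t ^ 2 + (2 * y) ^ 2)) := by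
  unfold k9K k9P
  have h1 : t ^ 2 + y ^ 2 ≠ 0 := by positivity
  have h2 : t ^ 2 + (2 * y) ^ 2 ≠ 0 := by positivity
  field_simp
  ring

theorem k9K_nonneg {y : ℝ} (hy : 0 < y) (t : ℝ) : 0 ≤ k9K y t := by
  rw [k9K_eq hy]; positivity

theorem k9K_integrable {y : ℝ} (hy : 0 < y) : Integrable (k9K y) :=
  ((k9P_integrable hy).const_mul 2).sub (k9P_integrable (by positivity))

theorem k9K_integral {y : ℝ} (hy : 0 < y) : ∫ t, k9K y t = Real.pi := by
  unfold k9K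
  rw [integral_sub ((k9P_integrable hy).const_mul 2) (k9P_integrable (by positivity)), integral_const_mul, k9P_integral hy,
    k9P_integral (by positivity)]
  ring

theorem k9K_sq {y : ℝ} (hy : 0 < y) (t : ℝ) : t ^ 2 * k9K y t = 4 * y ^ 2 * k9P (2 * y) t - 2 * y ^ 2 * k9P y t := by
  unfold k9K k9P
  have h1 : t ^ 2 + y ^ 2 ≠ 0 := by positivity
  have h2 : t ^ 2 + (2 * y) ^ 2 ≠ 0 := by positivity
  field_simp
  ring

theorem k9K_sq_integrable {y : ℝ} (hy : 0 < y) : Integrable fun t => t ^ 2 * k9K y t := by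
  have := ((k9P_integrable (y := 2 * y) (by positivity)).const_mul (4 * y ^ 2)).sub ((k9P_integrable hy).const_mul (2 * y ^ 2))
  exact this.congr (Eventually.of_forall fun t => (k9K_sq hy t).symm)

theorem k9K_sq_integral {y : ℝ} (hy : 0 < y) : ∫ t, t ^ 2 * k9K y t = 2 * Real.pi * y ^ 2 := by
  have h0 : (fun t => t ^ 2 * k9K y t) = fun t => 4 * y ^ 2 * k9P (2 * y) t - 2 * y ^ 2 * k9P y t := funext fun t => k9K_sq hy t
  rw [h0, integral_sub ((k9P_integrable (y := 2 * y) (by positivity)).const_mul (4 * y ^ 2)) ((k9P_integrable hy).const_mul (2 * y ^ 2)),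
    integral_const_mul, integral_const_mul, k9P_integral hy, k9P_integral (by positivity)]
  ring


/-- bound and support radius of a compactly supported continuous function -/
theorem k9_bdd_supp (f : ℝ → ℝ) (hc : Continuous f) (hs : HasCompactSupport f) :
    ∃ M A : ℝ, 0 ≤ M ∧ 0 ≤ A ∧ (∀ x, |f x| ≤ M) ∧ ∀ x, A < |x| → f x = 0 := by
  obtain ⟨M, hM⟩ := hs.exists_bound_of_continuous hc
  obtain ⟨A, hA⟩ := hs.isCompact.isBounded.subset_closedBall 0
  refine ⟨max M 0, max A 0, le_max_right _ _, le_max_right _ _, fun x => (hM x).trans (le_max_left _ _), fun x hx => ?_⟩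
  by_contra hne
  have h1 : x ∈ tsupport f := subset_tsupport f hne
  have h2 := hA h1
  rw [mem_closedBall_zero_iff, Real.norm_eq_abs] at h2
  exact absurd (h2.trans (le_max_left _ _)) (not_le.2 hx)

/-- **Step 1**: `π⁻¹ K_y * f → f` in the weighted norm `sup (1+x²)|·|` -/
theorem k9_step1 (f : ℝ → ℝ) (hc : Continuous f) (hs : HasCompactSupport f) (ε : ℝ) (hε : 0 < ε) :
    ∃ y : ℝ, 0 < y ∧ ∀ x, (1 + x ^ 2) * |f x - Real.pi⁻¹ * ∫ s, f s * k9K y (x - s)| ≤ ε := by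
  obtain ⟨M, A, hM0, hA0, hM, hA⟩ := k9_bdd_supp f hc hs
  set F : ℝ → ℝ := fun x => (1 + x ^ 2) * f x with hF
  have hFc : Continuous F := by fun_prop
  have hFs : HasCompactSupport F := hs.mul_left
  obtain ⟨M', -, hM'0, -, hM', -⟩ := k9_bdd_supp F hFc hFs
  obtain ⟨δ, hδ, hδF⟩ := Metric.uniformContinuous_iff.1 (hFs.uniformContinuous_of_continuous hFc) (ε / 2) (by positivity)
  set c : ℝ := 3 * M * A + 4 * M' / δ ^ 2 + 2 * M + 1 with hcdef
  have hcpos : 0 < c := by positivity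
  set y : ℝ := min 1 (ε / (2 * c)) with hy
  have hy0 : 0 < y := lt_min one_pos (by positivity)
  have hy1 : y ≤ 1 := min_le_left _ _
  have hy2 : c * y ≤ ε / 2 := by
    have : y ≤ ε / (2 * c) := min_le_right _ _
    calc c * y ≤ c * (ε / (2 * c)) := by gcongr
      _ = ε / 2 := by field_simp
  refine ⟨y, hy0, fun x => ?_⟩
  have hpi := Real.pi_pos
  -- integrals in `s`
  have hKi : Integrable fun s => k9K y (x - s) := (k9K_integrable hy0).comp_sub_left x
  have hK1 : ∫ s, k9K y (x - s) = Real.pi := by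
    rw [integral_sub_left_eq_self (k9K y) volume x, k9K_integral hy0]
  have hK2i : Integrable fun s => (x - s) ^ 2 * k9K y (x - s) := (k9K_sq_integrable hy0).comp_sub_left x
  have hK2 : ∫ s, (x - s) ^ 2 * k9K y (x - s) = 2 * Real.pi * y ^ 2 := by
    rw [integral_sub_left_eq_self (fun t => t ^ 2 * k9K y t) volume x, k9K_sq_integral hy0]
  have hfi : Integrable fun s => f s * k9K y (x - s) :=
    hKi.bdd_mul (c := M) hc.aestronglyMeasurable (Eventually.of_forall fun s => by simpa using hM s)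
  set c0 : ℝ := ε / 2 + M * A * y with hc0
  set c1 : ℝ := 2 * M' / δ ^ 2 + M + M * A / y with hc1
  have hid : ∫ s, ((1 + x ^ 2) * f x - (1 + x ^ 2) * f s) * k9K y (x - s)
      = (1 + x ^ 2) * f x * Real.pi - (1 + x ^ 2) * ∫ s, f s * k9K y (x - s) := by
    have e1 : (fun s => ((1 + x ^ 2) * f x - (1 + x ^ 2) * f s) * k9K y (x - s))
        = fun s => (1 + x ^ 2) * f x * k9K y (x - s) - (1 + x ^ 2) * (f s * k9K y (x - s)) := by
      funext s; ring
    rw [e1, integral_sub (hKi.const_mul _) (hfi.const_mul _), integral_const_mul, integral_const_mul, hK1]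
  have hbi : Integrable fun s => c0 * k9K y (x - s) + c1 * ((x - s) ^ 2 * k9K y (x - s)) :=
    (hKi.const_mul _).add (hK2i.const_mul _)
  have hbd : ‖∫ s, ((1 + x ^ 2) * f x - (1 + x ^ 2) * f s) * k9K y (x - s)‖
      ≤ ∫ s, (c0 * k9K y (x - s) + c1 * ((x - s) ^ 2 * k9K y (x - s))) := by
    refine norm_integral_le_of_norm_le hbi (Eventually.of_forall fun s => ?_)
    have hKn := k9K_nonneg hy0 (x - s)
    rw [norm_mul, Real.norm_eq_abs, Real.norm_eq_abs, abs_of_nonneg hKn]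
    have hkey : |(1 + x ^ 2) * f x - (1 + x ^ 2) * f s| ≤ c0 + c1 * (x - s) ^ 2 := by
      have e2 : (1 + x ^ 2) * f x - (1 + x ^ 2) * f s = (F x - F s) + (s ^ 2 - x ^ 2) * f s := by
        simp only [hF]; ring
      have b1 : |F x - F s| ≤ ε / 2 + 2 * M' / δ ^ 2 * (x - s) ^ 2 := by
        by_cases hxs : |x - s| < δ
        · have := hδF (a := x) (b := s) (by rwa [Real.dist_eq])
          rw [Real.dist_eq] at this
          have h3 : 0 ≤ 2 * M' / δ ^ 2 * (x - s) ^ 2 := by positivity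
          linarith
        · rw [not_lt] at hxs
          have h3 : 1 ≤ (x - s) ^ 2 / δ ^ 2 := by
            rw [one_le_div (by positivity), ← sq_abs (x - s)]
            exact pow_le_pow_left₀ hδ.le hxs 2
          have h4 : |F x - F s| ≤ 2 * M' := by
            have := abs_sub (F x) (F s)
            have h5 := hM' x
            have h6 := hM' s
            linarith
          have h7 : 2 * M' / δ ^ 2 * (x - s) ^ 2 = 2 * M' * ((x - s) ^ 2 / δ ^ 2) := by ring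
          rw [h7]
          nlinarith
      have b2 : |(s ^ 2 - x ^ 2) * f s| ≤ M * A * y + (M + M * A / y) * (x - s) ^ 2 := by
        by_cases hsA : A < |s|
        · rw [hA s hsA]
          simp only [mul_zero, abs_zero]
          positivity
        · rw [not_lt] at hsA
          rw [abs_mul]
          have h3 : |s ^ 2 - x ^ 2| ≤ A * y + (1 + A / y) * (x - s) ^ 2 := by
            have e3 : s ^ 2 - x ^ 2 = -((x - s) * (2 * s + (x - s))) := by ring
            rw [e3, abs_neg, abs_mul]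
            have h4 : |2 * s + (x - s)| ≤ 2 * A + |x - s| := by
              calc |2 * s + (x - s)| ≤ |2 * s| + |x - s| := abs_add_le _ _
                _ = 2 * |s| + |x - s| := by rw [abs_mul]; norm_num
                _ ≤ 2 * A + |x - s| := by linarith
            have h5 : 2 * |x - s| ≤ (x - s) ^ 2 / y + y := by
              have : 0 ≤ (|x - s| - y) ^ 2 / y := by positivity
              have e4 : (|x - s| - y) ^ 2 / y = (x - s) ^ 2 / y + y - 2 * |x - s| := by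
                rw [sub_sq, sq_abs]; field_simp
                ring
              linarith
            calc |x - s| * |2 * s + (x - s)| ≤ |x - s| * (2 * A + |x - s|) := by gcongr
              _ = A * (2 * |x - s|) + (x - s) ^ 2 := by rw [← sq_abs (x - s)]; ring
              _ ≤ A * ((x - s) ^ 2 / y + y) + (x - s) ^ 2 := by gcongr
              _ = A * y + (1 + A / y) * (x - s) ^ 2 := by ring
          calc |s ^ 2 - x ^ 2| * |f s| ≤ (A * y + (1 + A / y) * (x - s) ^ 2) * M := by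
                gcongr
                exact hM s
            _ = M * A * y + (M + M * A / y) * (x - s) ^ 2 := by ring
      rw [e2]
      calc |F x - F s + (s ^ 2 - x ^ 2) * f s| ≤ |F x - F s| + |(s ^ 2 - x ^ 2) * f s| := abs_add_le _ _
        _ ≤ (ε / 2 + 2 * M' / δ ^ 2 * (x - s) ^ 2) + (M * A * y + (M + M * A / y) * (x - s) ^ 2) := add_le_add b1 b2
        _ = c0 + c1 * (x - s) ^ 2 := by simp only [hc0, hc1]; ring
    calc |(1 + x ^ 2) * f x - (1 + x ^ 2) * f s| * k9K y (x - s) ≤ (c0 + c1 * (x - s) ^ 2) * k9K y (x - s) := by gcongr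
      _ = c0 * k9K y (x - s) + c1 * ((x - s) ^ 2 * k9K y (x - s)) := by ring
  rw [integral_add (hKi.const_mul _) (hK2i.const_mul _), integral_const_mul, integral_const_mul, hK1, hK2, hid, Real.norm_eq_abs] at hbd
  have e5 : (1 + x ^ 2) * |f x - Real.pi⁻¹ * ∫ s, f s * k9K y (x - s)|
      = Real.pi⁻¹ * |(1 + x ^ 2) * f x * Real.pi - (1 + x ^ 2) * ∫ s, f s * k9K y (x - s)| := by
    have e6 : (1 + x ^ 2) * f x * Real.pi - (1 + x ^ 2) * ∫ s, f s * k9K y (x - s)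
        = Real.pi * ((1 + x ^ 2) * (f x - Real.pi⁻¹ * ∫ s, f s * k9K y (x - s))) := by
      field_simp
    rw [e6, abs_mul, abs_mul, abs_of_pos hpi, abs_of_pos (show (0 : ℝ) < 1 + x ^ 2 by positivity)]
    field_simp
  rw [e5]
  have h8 : c0 * Real.pi + c1 * (2 * Real.pi * y ^ 2) ≤ Real.pi * ε := by
    have e7 : c0 * Real.pi + c1 * (2 * Real.pi * y ^ 2) = Real.pi * (ε / 2 + (3 * M * A * y + (4 * M' / δ ^ 2 + 2 * M) * y ^ 2)) := by
      simp only [hc0, hc1]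
      field_simp
      ring
    rw [e7]
    have h9 : 3 * M * A * y + (4 * M' / δ ^ 2 + 2 * M) * y ^ 2 ≤ c * y := by
      have h10 : y ^ 2 ≤ y := by nlinarith
      have h11 : 0 ≤ 4 * M' / δ ^ 2 + 2 * M := by positivity
      calc 3 * M * A * y + (4 * M' / δ ^ 2 + 2 * M) * y ^ 2 ≤ 3 * M * A * y + (4 * M' / δ ^ 2 + 2 * M) * y := by gcongr
        _ ≤ c * y := by simp only [hcdef]; nlinarith
    have : ε / 2 + (3 * M * A * y + (4 * M' / δ ^ 2 + 2 * M) * y ^ 2) ≤ ε := by linarith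
    gcongr
  calc Real.pi⁻¹ * |(1 + x ^ 2) * f x * Real.pi - (1 + x ^ 2) * ∫ s, f s * k9K y (x - s)|
      ≤ Real.pi⁻¹ * (Real.pi * ε) := by gcongr; exact hbd.trans h8
    _ = ε := by field_simp


/-- **Step 2** (Riemann sums, uniformly in the weighted norm), for a general kernel `κ` -/
theorem k9_riemann (f : ℝ → ℝ) (hc : Continuous f) (hs : HasCompactSupport f) (A M : ℝ) (hA0 : 0 < A) (hA : ∀ x, A ≤ |x| → f x = 0)
    (hM : ∀ x, |f x| ≤ M) (κ : ℝ → ℝ) (hκ : Continuous κ) (C₁ C₂ : ℝ) (hC₁ : 0 ≤ C₁) (hC₂ : 0 ≤ C₂)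
    (hB : ∀ x s, |s| ≤ A → (1 + x ^ 2) * |κ (x - s)| ≤ C₁)
    (hL : ∀ x s s', |s| ≤ A → |s'| ≤ A → (1 + x ^ 2) * |κ (x - s) - κ (x - s')| ≤ C₂ * |s - s'|) (ε : ℝ) (hε : 0 < ε) :
    ∃ (n : ℕ) (c e : ℕ → ℝ), ∀ x, (1 + x ^ 2) * |(∫ s, f s * κ (x - s)) - ∑ k ∈ Finset.range n, c k * κ (x - e k)| ≤ ε := by
  have hM0 : 0 ≤ M := (abs_nonneg _).trans (hM 0)
  set η : ℝ := ε / (4 * A * (C₁ + 1)) with hη
  have hη0 : 0 < η := by positivity
  obtain ⟨δ, hδ, hδf⟩ := Metric.uniformContinuous_iff.1 (hs.uniformContinuous_of_continuous hc) η hη0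
  -- the mesh
  set δ' : ℝ := min δ (ε / (4 * A * (M * C₂ + 1))) with hδ'
  have hδ'0 : 0 < δ' := lt_min hδ (by positivity)
  obtain ⟨n, hn⟩ := exists_nat_gt (2 * A / δ')
  have hn0 : (0 : ℝ) < n := lt_of_le_of_lt (by positivity) hn
  set Δ : ℝ := 2 * A / n with hΔ
  have hΔ0 : 0 < Δ := by positivity
  have hΔδ : Δ < δ' := by
    rw [hΔ, div_lt_iff₀ hn0]
    rw [div_lt_iff₀ hδ'0] at hn
    linarith
  set a : ℕ → ℝ := fun k => -A + k * Δ with ha
  have ha0 : a 0 = -A := by simp [ha]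
  have han : a n = A := by
    simp only [ha, hΔ]; field_simp; ring
  have hamem : ∀ k, k ≤ n → |a k| ≤ A := by
    intro k hk
    have h1 : (k : ℝ) * Δ ≤ n * Δ := by
      have : (k : ℝ) ≤ n := by exact_mod_cast hk
      gcongr
    have h2 : (n : ℝ) * Δ = 2 * A := by simp only [hΔ]; field_simp
    have h3 : 0 ≤ (k : ℝ) * Δ := by positivity
    rw [abs_le]; simp only [ha]; constructor <;> linarith
  refine ⟨n, fun k => Δ * f (a k), a, fun x => ?_⟩
  set w : ℝ := 1 + x ^ 2 with hw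
  have hw0 : 0 < w := by positivity
  set Ψ : ℝ → ℝ := fun s => w * (f s * κ (x - s)) with hΨ
  have hΨc : Continuous Ψ := by fun_prop
  set ω : ℝ := η * C₁ + M * C₂ * Δ with hω
  have hosc : ∀ s s', |s| ≤ A → |s'| ≤ A → |s - s'| ≤ Δ → |Ψ s - Ψ s'| ≤ ω := by
    intro s s' h1 h2 h3
    have e1 : Ψ s - Ψ s' = (f s - f s') * (w * κ (x - s)) + f s' * (w * (κ (x - s) - κ (x - s'))) := by
      simp only [hΨ]; ring
    have b1 : |f s - f s'| ≤ η := by
      have := hδf (a := s) (b := s') (by rw [Real.dist_eq]; exact lt_of_le_of_lt h3 (hΔδ.trans_le (min_le_left _ _)))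
      rw [Real.dist_eq] at this
      exact this.le
    have b2 : |w * κ (x - s)| ≤ C₁ := by rw [abs_mul, abs_of_pos hw0]; exact hB x s h1
    have b3 : |w * (κ (x - s) - κ (x - s'))| ≤ C₂ * Δ := by
      rw [abs_mul, abs_of_pos hw0]
      exact (hL x s s' h1 h2).trans (by gcongr)
    rw [e1]
    calc |(f s - f s') * (w * κ (x - s)) + f s' * (w * (κ (x - s) - κ (x - s')))|
        ≤ |f s - f s'| * |w * κ (x - s)| + |f s'| * |w * (κ (x - s) - κ (x - s'))| := by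
          rw [← abs_mul, ← abs_mul]; exact abs_add_le _ _
      _ ≤ η * C₁ + M * (C₂ * Δ) := by
          gcongr
          exact hM s'
      _ = ω := by simp only [hω]; ring
  -- the integral over the line is the integral over `[-A, A]`
  have hsupp : Function.support Ψ ⊆ Set.Ioc (-A) A := by
    intro s hs'
    by_contra hcon
    have : A ≤ |s| := by
      rw [Set.mem_Ioc, not_and_or, not_lt, not_le] at hcon
      rcases hcon with h | h
      · rw [le_abs]; right; linarith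
      · rw [le_abs]; left; exact h.le
    apply hs'
    simp only [hΨ, hA s this, zero_mul, mul_zero]
  have hint : ∫ s, Ψ s = ∫ s in (-A)..A, Ψ s := (intervalIntegral.integral_eq_integral_of_support_subset hsupp).symm
  have hsum : ∑ k ∈ Finset.range n, ∫ s in a k..a (k + 1), Ψ s = ∫ s in (-A)..A, Ψ s := by
    rw [intervalIntegral.sum_integral_adjacent_intervals (fun k _ => hΨc.intervalIntegrable _ _), ha0, han]
  have hstep : ∀ k, a (k + 1) - a k = Δ := by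
    intro k; simp only [ha]; push_cast; ring
  have e2 : w * ((∫ s, f s * κ (x - s)) - ∑ k ∈ Finset.range n, Δ * f (a k) * κ (x - a k))
      = ∑ k ∈ Finset.range n, ∫ s in a k..a (k + 1), (Ψ s - Ψ (a k)) := by
    have e3 : ∀ k, ∫ s in a k..a (k + 1), (Ψ s - Ψ (a k)) = (∫ s in a k..a (k + 1), Ψ s) - w * (Δ * f (a k) * κ (x - a k)) := by
      intro k
      rw [intervalIntegral.integral_sub (hΨc.intervalIntegrable _ _) (continuous_const.intervalIntegrable _ _),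
        intervalIntegral.integral_const, hstep, smul_eq_mul]
      simp only [hΨ]; ring
    simp only [e3]
    rw [Finset.sum_sub_distrib, hsum, ← hint, mul_sub, Finset.mul_sum]
    simp only [hΨ]
    rw [integral_const_mul]
  have e4 : w * |(∫ s, f s * κ (x - s)) - ∑ k ∈ Finset.range n, Δ * f (a k) * κ (x - a k)|
      = |∑ k ∈ Finset.range n, ∫ s in a k..a (k + 1), (Ψ s - Ψ (a k))| := by
    rw [← e2, abs_mul, abs_of_pos hw0]
  rw [e4]
  have b4 : ∀ k ∈ Finset.range n, |∫ s in a k..a (k + 1), (Ψ s - Ψ (a k))| ≤ ω * Δ := by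
    intro k hk
    have hk' : k < n := Finset.mem_range.1 hk
    have := intervalIntegral.norm_integral_le_of_norm_le_const (a := a k) (b := a (k + 1)) (C := ω) (f := fun s => Ψ s - Ψ (a k)) ?_
    · rw [hstep, abs_of_pos hΔ0, Real.norm_eq_abs] at this
      exact this
    · intro s hs'
      have hle : a k ≤ a (k + 1) := by have := hstep k; linarith
      rw [Set.uIoc_of_le hle] at hs'
      have h1 := hamem k hk'.le
      have h2 := hamem (k + 1) hk'
      rw [abs_le] at h1 h2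
      rw [Real.norm_eq_abs]
      refine hosc s (a k) ?_ (hamem k hk'.le) ?_
      · rw [abs_le]; constructor <;> linarith [hs'.1, hs'.2]
      · rw [abs_of_nonneg (by linarith [hs'.1])]
        have := hstep k
        linarith [hs'.2]
  calc |∑ k ∈ Finset.range n, ∫ s in a k..a (k + 1), (Ψ s - Ψ (a k))|
      ≤ ∑ k ∈ Finset.range n, |∫ s in a k..a (k + 1), (Ψ s - Ψ (a k))| := Finset.abs_sum_le_sum_abs _ _
    _ ≤ ∑ _k ∈ Finset.range n, ω * Δ := Finset.sum_le_sum b4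
    _ = 2 * A * ω := by
        rw [Finset.sum_const, Finset.card_range, nsmul_eq_mul]
        simp only [hΔ]; field_simp
    _ ≤ ε := by
        have h1 : 2 * A * (η * C₁) ≤ ε / 2 := by
          have : 2 * A * (η * C₁) = ε / 2 * (C₁ / (C₁ + 1)) := by
            simp only [hη]; field_simp; ring
          rw [this]
          have h2 : C₁ / (C₁ + 1) ≤ 1 := by rw [div_le_one (by positivity)]; linarith
          nlinarith
        have h3 : 2 * A * (M * C₂ * Δ) ≤ ε / 2 := by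
          have h4 : Δ ≤ ε / (4 * A * (M * C₂ + 1)) := (hΔδ.trans_le (min_le_right _ _)).le
          have h5 : 0 ≤ M * C₂ := by positivity
          calc 2 * A * (M * C₂ * Δ) ≤ 2 * A * (M * C₂ * (ε / (4 * A * (M * C₂ + 1)))) := by gcongr
            _ = ε / 2 * (M * C₂ / (M * C₂ + 1)) := by field_simp; ring
            _ ≤ ε / 2 * 1 := by
                have h2 : M * C₂ / (M * C₂ + 1) ≤ 1 := by rw [div_le_one (by positivity)]; linarith
                gcongr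
            _ = ε / 2 := by ring
        simp only [hω]
        linarith


/-- the weight is dominated by the denominator of the kernel -/
theorem k9_wt_le {y A : ℝ} (hy : 0 < y) (x s : ℝ) (hs : |s| ≤ A) :
    1 + x ^ 2 ≤ (2 + (1 + 2 * A ^ 2) / y ^ 2) * ((x - s) ^ 2 + y ^ 2) := by
  have h1 : s ^ 2 ≤ A ^ 2 := by rw [← sq_abs s]; exact pow_le_pow_left₀ (abs_nonneg s) hs 2
  have e1 : (2 + (1 + 2 * A ^ 2) / y ^ 2) * ((x - s) ^ 2 + y ^ 2)
      = 2 * (x - s) ^ 2 + 2 * y ^ 2 + (1 + 2 * A ^ 2) / y ^ 2 * (x - s) ^ 2 + (1 + 2 * A ^ 2) := by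
    field_simp
    ring
  have h2 : 0 ≤ (1 + 2 * A ^ 2) / y ^ 2 * (x - s) ^ 2 := by positivity
  have h3 : x ^ 2 ≤ 2 * (x - s) ^ 2 + 2 * s ^ 2 := by nlinarith [sq_nonneg (x - 2 * s)]
  rw [e1]
  nlinarith [sq_nonneg y]

theorem k9P_wbd {y A : ℝ} (hy : 0 < y) (x s : ℝ) (hs : |s| ≤ A) :
    (1 + x ^ 2) * |k9P y (x - s)| ≤ y * (2 + (1 + 2 * A ^ 2) / y ^ 2) := by
  rw [abs_of_nonneg (k9P_nonneg hy _)]
  unfold k9P
  have hD : 0 < (x - s) ^ 2 + y ^ 2 := by positivity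
  rw [mul_div_assoc', div_le_iff₀ hD]
  have := k9_wt_le hy x s hs
  nlinarith

theorem k9P_wlip {y A : ℝ} (hy : 0 < y) (x s s' : ℝ) (hs : |s| ≤ A) (hs' : |s'| ≤ A) :
    (1 + x ^ 2) * |k9P y (x - s) - k9P y (x - s')| ≤ (2 + (1 + 2 * A ^ 2) / y ^ 2) * |s - s'| := by
  set c : ℝ := 2 + (1 + 2 * A ^ 2) / y ^ 2 with hc
  have hc0 : 0 < c := by positivity
  set D : ℝ := (x - s) ^ 2 + y ^ 2 with hD
  set D' : ℝ := (x - s') ^ 2 + y ^ 2 with hD'
  have hD0 : 0 < D := by positivity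
  have hD'0 : 0 < D' := by positivity
  have h1 : 1 + x ^ 2 ≤ c * D := k9_wt_le hy x s hs
  have h2 : 1 + x ^ 2 ≤ c * D' := k9_wt_le hy x s' hs'
  have e1 : k9P y (x - s) - k9P y (x - s') = y * ((s - s') * ((x - s) + (x - s'))) / (D * D') := by
    unfold k9P
    rw [div_sub_div _ _ hD0.ne' hD'0.ne']
    congr 1
    simp only [hD, hD']; ring
  have h3 : 2 * y * |x - s| ≤ D := by
    have : 0 ≤ (|x - s| - y) ^ 2 := sq_nonneg _
    rw [sub_sq, sq_abs] at this
    simp only [hD]; linarith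
  have h4 : 2 * y * |x - s'| ≤ D' := by
    have : 0 ≤ (|x - s'| - y) ^ 2 := sq_nonneg _
    rw [sub_sq, sq_abs] at this
    simp only [hD']; linarith
  rw [e1, abs_div, abs_mul, abs_mul, abs_of_pos hy, abs_of_pos (mul_pos hD0 hD'0), mul_div_assoc', div_le_iff₀ (mul_pos hD0 hD'0)]
  have h5 : |x - s + (x - s')| ≤ |x - s| + |x - s'| := abs_add_le _ _
  have h6 : (1 + x ^ 2) * (y * (|x - s| + |x - s'|)) ≤ c * (D * D') := by
    have a1 : (1 + x ^ 2) * (2 * y * |x - s|) ≤ (c * D') * D := by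
      apply mul_le_mul h2 h3 (by positivity) (by positivity)
    have a2 : (1 + x ^ 2) * (2 * y * |x - s'|) ≤ (c * D) * D' := by
      apply mul_le_mul h1 h4 (by positivity) (by positivity)
    nlinarith
  have h7 : 0 ≤ |s - s'| := abs_nonneg _
  calc (1 + x ^ 2) * (y * (|s - s'| * |x - s + (x - s')|))
      ≤ (1 + x ^ 2) * (y * (|s - s'| * (|x - s| + |x - s'|))) := by gcongr
    _ = |s - s'| * ((1 + x ^ 2) * (y * (|x - s| + |x - s'|))) := by ring
    _ ≤ |s - s'| * (c * (D * D')) := by gcongr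
    _ = c * |s - s'| * (D * D') := by ring

theorem k9K_continuous {y : ℝ} (hy : 0 < y) : Continuous (k9K y) := by
  unfold k9K
  exact (continuous_const.mul (k9P_continuous hy)).sub (k9P_continuous (by positivity))

/-- **approximation in the weighted norm**, kernel form -/
theorem k9_approxK (f : ℝ → ℝ) (hc : Continuous f) (hs : HasCompactSupport f) (ε : ℝ) (hε : 0 < ε) :
    ∃ (y : ℝ) (n : ℕ) (c e : ℕ → ℝ), 0 < y ∧ ∀ x, (1 + x ^ 2) * |f x - ∑ k ∈ Finset.range n, c k * k9K y (x - e k)| ≤ ε := by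
  obtain ⟨y, hy, h1⟩ := k9_step1 f hc hs (ε / 2) (by positivity)
  obtain ⟨M, A, hM0, hA0, hM, hA⟩ := k9_bdd_supp f hc hs
  have hy2 : 0 < 2 * y := by positivity
  have hpi := Real.pi_pos
  set A' : ℝ := A + 1 with hA'
  obtain ⟨n, c, e, h2⟩ := k9_riemann f hc hs A' M (by positivity) (fun x hx => hA x (by linarith)) hM (k9K y) (k9K_continuous hy)
    (2 * (y * (2 + (1 + 2 * A' ^ 2) / y ^ 2)) + 2 * y * (2 + (1 + 2 * A' ^ 2) / (2 * y) ^ 2))
    (2 * (2 + (1 + 2 * A' ^ 2) / y ^ 2) + (2 + (1 + 2 * A' ^ 2) / (2 * y) ^ 2)) (by positivity) (by positivity)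
    (fun x s hs' => by
      have b1 := k9P_wbd hy x s hs'
      have b2 := k9P_wbd hy2 x s hs'
      have hw : (0 : ℝ) ≤ 1 + x ^ 2 := by positivity
      unfold k9K
      calc (1 + x ^ 2) * |2 * k9P y (x - s) - k9P (2 * y) (x - s)|
          ≤ (1 + x ^ 2) * (2 * |k9P y (x - s)| + |k9P (2 * y) (x - s)|) := by
            gcongr
            calc |2 * k9P y (x - s) - k9P (2 * y) (x - s)| ≤ |2 * k9P y (x - s)| + |k9P (2 * y) (x - s)| := abs_sub _ _
              _ = 2 * |k9P y (x - s)| + |k9P (2 * y) (x - s)| := by rw [abs_mul]; norm_num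
        _ = 2 * ((1 + x ^ 2) * |k9P y (x - s)|) + (1 + x ^ 2) * |k9P (2 * y) (x - s)| := by ring
        _ ≤ _ := by gcongr)
    (fun x s s' hs1 hs2 => by
      have b1 := k9P_wlip hy x s s' hs1 hs2
      have b2 := k9P_wlip hy2 x s s' hs1 hs2
      have hw : (0 : ℝ) ≤ 1 + x ^ 2 := by positivity
      unfold k9K
      have e1 : 2 * k9P y (x - s) - k9P (2 * y) (x - s) - (2 * k9P y (x - s') - k9P (2 * y) (x - s'))
          = 2 * (k9P y (x - s) - k9P y (x - s')) - (k9P (2 * y) (x - s) - k9P (2 * y) (x - s')) := by ring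
      rw [e1]
      calc (1 + x ^ 2) * |2 * (k9P y (x - s) - k9P y (x - s')) - (k9P (2 * y) (x - s) - k9P (2 * y) (x - s'))|
          ≤ (1 + x ^ 2) * (2 * |k9P y (x - s) - k9P y (x - s')| + |k9P (2 * y) (x - s) - k9P (2 * y) (x - s')|) := by
            gcongr
            calc |2 * (k9P y (x - s) - k9P y (x - s')) - (k9P (2 * y) (x - s) - k9P (2 * y) (x - s'))|
                ≤ |2 * (k9P y (x - s) - k9P y (x - s'))| + |k9P (2 * y) (x - s) - k9P (2 * y) (x - s')| := abs_sub _ _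
              _ = _ := by rw [abs_mul]; norm_num
        _ = 2 * ((1 + x ^ 2) * |k9P y (x - s) - k9P y (x - s')|) + (1 + x ^ 2) * |k9P (2 * y) (x - s) - k9P (2 * y) (x - s')| := by ring
        _ ≤ 2 * ((2 + (1 + 2 * A' ^ 2) / y ^ 2) * |s - s'|) + (2 + (1 + 2 * A' ^ 2) / (2 * y) ^ 2) * |s - s'| := by gcongr
        _ = _ := by ring)
    (Real.pi * (ε / 2)) (by positivity)
  refine ⟨y, n, fun k => Real.pi⁻¹ * c k, e, hy, fun x => ?_⟩
  have hw : (0 : ℝ) ≤ 1 + x ^ 2 := by positivity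
  have e2 : f x - ∑ k ∈ Finset.range n, Real.pi⁻¹ * c k * k9K y (x - e k)
      = (f x - Real.pi⁻¹ * ∫ s, f s * k9K y (x - s)) + Real.pi⁻¹ * ((∫ s, f s * k9K y (x - s)) - ∑ k ∈ Finset.range n, c k * k9K y (x - e k)) := by
    rw [mul_sub, Finset.mul_sum]
    simp only [mul_assoc]
    ring
  rw [e2]
  calc (1 + x ^ 2) * |(f x - Real.pi⁻¹ * ∫ s, f s * k9K y (x - s)) + Real.pi⁻¹ * ((∫ s, f s * k9K y (x - s)) - ∑ k ∈ Finset.range n, c k * k9K y (x - e k))|
      ≤ (1 + x ^ 2) * (|f x - Real.pi⁻¹ * ∫ s, f s * k9K y (x - s)| + Real.pi⁻¹ * |(∫ s, f s * k9K y (x - s)) - ∑ k ∈ Finset.range n, c k * k9K y (x - e k)|) := by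
        gcongr
        refine (abs_add_le _ _).trans ?_
        rw [abs_mul, abs_of_pos (inv_pos.2 hpi)]
    _ = (1 + x ^ 2) * |f x - Real.pi⁻¹ * ∫ s, f s * k9K y (x - s)| + Real.pi⁻¹ * ((1 + x ^ 2) * |(∫ s, f s * k9K y (x - s)) - ∑ k ∈ Finset.range n, c k * k9K y (x - e k)|) := by ring
    _ ≤ ε / 2 + Real.pi⁻¹ * (Real.pi * (ε / 2)) :=
        add_le_add (h1 x) (mul_le_mul_of_nonneg_left (h2 x) (inv_pos.2 hpi).le)
    _ = ε := by field_simp; ring


/-! ## B. Configurations: traces, measurability, determinacy -/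

/-- `Im 1/(x - z)` is the Poisson kernel -/
theorem k9_im_inv (x : ℝ) (z : ℂ) : ((((x : ℝ) : ℂ) - z)⁻¹).im = k9P z.im (x - z.re) := by
  rw [Complex.inv_im, Complex.normSq_apply]
  simp only [Complex.sub_im, Complex.ofReal_im, Complex.sub_re, Complex.ofReal_re, zero_sub, neg_neg]
  unfold k9P
  congr 1
  ring

/-- **K9, approximation**: `f ∈ C_c(ℝ)` is a limit of finite real combinations of `Im 1/(x - z_a)`, `Im z_a > 0`, in the norm `sup (1+x²)|·|` -/
theorem k9_approx (f : ℝ → ℝ) (hc : Continuous f) (hs : HasCompactSupport f) (ε : ℝ) (hε : 0 < ε) :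
    ∃ (b : ℕ) (c : Fin b → ℝ) (z : Fin b → ℂ), (∀ a, 0 < (z a).im) ∧
      ∀ x : ℝ, (1 + x ^ 2) * |f x - ∑ a, c a * ((((x : ℝ) : ℂ) - z a)⁻¹).im| ≤ ε := by
  obtain ⟨y, n, c, e, hy, h⟩ := k9_approxK f hc hs ε hε
  refine ⟨n + n, Fin.append (fun k : Fin n => 2 * c k) (fun k : Fin n => - c k),
    Fin.append (fun k : Fin n => (⟨e k, y⟩ : ℂ)) (fun k : Fin n => (⟨e k, 2 * y⟩ : ℂ)), ?_, fun x => ?_⟩
  · intro a
    induction a using Fin.addCases with
    | left i => rw [Fin.append_left]; exact hy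
    | right i => rw [Fin.append_right]; exact mul_pos two_pos hy
  · have e1 : ∑ a, Fin.append (fun k : Fin n => 2 * c k) (fun k : Fin n => - c k) a *
        ((((x : ℝ) : ℂ) - Fin.append (fun k : Fin n => (⟨e k, y⟩ : ℂ)) (fun k : Fin n => (⟨e k, 2 * y⟩ : ℂ)) a)⁻¹).im
        = ∑ k ∈ Finset.range n, c k * k9K y (x - e k) := by
      rw [Fin.sum_univ_add]
      simp only [Fin.append_left, Fin.append_right, k9_im_inv]
      rw [← Finset.sum_add_distrib, ← Fin.sum_univ_eq_sum_range (fun k => c k * k9K y (x - e k)) n]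
      refine Finset.sum_congr rfl fun k _ => ?_
      unfold k9K
      ring
    rw [e1]
    exact h x

/-- sums over the window are sums over the symmetric interval of labels -/
theorem k9_sum_win {M : Type} [AddCommMonoid M] (K : ℕ) (F : ℤ → M) :
    ∑ i : Win K, F (wIdx i) = ∑ j ∈ Finset.Icc (-(K : ℤ)) K, F j := by
  refine Finset.sum_bij (fun i _ => wIdx i) (fun i _ => ?_) (fun i _ j _ hij => ?_) (fun j hj => ?_) (fun _ _ => rfl)
  · have := i.isLt
    simp only [wIdx, Finset.mem_Icc]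
    omega
  · simp only [wIdx] at hij
    exact Fin.ext (by omega)
  · rw [Finset.mem_Icc] at hj
    refine ⟨⟨(j + K).toNat, by omega⟩, Finset.mem_univ _, ?_⟩
    simp only [wIdx]
    omega

theorem k9_summable_P {x : Conf} (hx : Summable fun j : ℤ => (1 + x j ^ 2)⁻¹) {y : ℝ} (hy : 0 < y) (e : ℝ) :
    Summable fun j : ℤ => k9P y (x j - e) := by
  refine Summable.of_nonneg_of_le (fun j => k9P_nonneg hy _) (fun j => ?_) (hx.mul_left (y * (2 + (1 + 2 * |e| ^ 2) / y ^ 2)))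
  have h1 := k9P_wbd hy (x j) e (le_refl |e|)
  rw [abs_of_nonneg (k9P_nonneg hy _)] at h1
  have h2 : (0 : ℝ) < 1 + x j ^ 2 := by positivity
  rw [← div_eq_mul_inv, le_div_iff₀ h2]
  linarith

theorem k9_summable_cc {x : Conf} (hx : Summable fun j : ℤ => (1 + x j ^ 2)⁻¹) (f : ℝ → ℝ) (hc : Continuous f) (hs : HasCompactSupport f) :
    Summable fun j : ℤ => f (x j) := by
  obtain ⟨M, A, hM0, hA0, hM, hA⟩ := k9_bdd_supp f hc hs
  refine Summable.of_norm_bounded (hx.mul_left (M * (1 + A ^ 2))) (fun j => ?_)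
  have h2 : (0 : ℝ) < 1 + x j ^ 2 := by positivity
  rw [← div_eq_mul_inv, le_div_iff₀ h2, Real.norm_eq_abs]
  by_cases hj : A < |x j|
  · rw [hA _ hj]; simp only [abs_zero, zero_mul]; positivity
  · rw [not_lt] at hj
    have h3 : x j ^ 2 ≤ A ^ 2 := by rw [← sq_abs (x j)]; exact pow_le_pow_left₀ (abs_nonneg _) hj 2
    have := hM (x j)
    have h4 := abs_nonneg (f (x j))
    nlinarith

/-- the imaginary part of the principal value sum is the absolutely convergent sum of Poisson kernels -/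
theorem k9_im_cS {x : Conf} (hx : Summable fun j : ℤ => (1 + x j ^ 2)⁻¹) {z : ℂ} (hz : 0 < z.im)
    (hconv : ∃ L, Tendsto (fun K : ℕ => cSK K x z) atTop (𝓝 L)) : (cS x z).im = ∑' j : ℤ, k9P z.im (x j - z.re) := by
  have h1 : Tendsto (fun K : ℕ => cSK K x z) atTop (𝓝 (cS x z)) := tendsto_nhds_limUnder hconv
  have h2 : Tendsto (fun K : ℕ => (cSK K x z).im) atTop (𝓝 (cS x z).im) :=
    (Complex.continuous_im.tendsto _).comp h1
  have h3 : ∀ K : ℕ, (cSK K x z).im = ∑ j ∈ Finset.Icc (-(K : ℤ)) K, k9P z.im (x j - z.re) := by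
    intro K
    unfold cSK cPos
    rw [Complex.im_sum, ← k9_sum_win K fun j => k9P z.im (x j - z.re)]
    exact Finset.sum_congr rfl fun i _ => k9_im_inv _ _
  have h4 : Tendsto (fun K : ℕ => ∑ j ∈ Finset.Icc (-(K : ℤ)) K, k9P z.im (x j - z.re)) atTop (𝓝 (∑' j : ℤ, k9P z.im (x j - z.re))) :=
    (k9_summable_P hx hz z.re).hasSum.comp Finset.tendsto_Icc_neg
  simp only [h3] at h2
  exact tendsto_nhds_unique h2 h4

theorem k9_meas_tsum (φ : ℝ → ℝ) (hφ : Measurable φ) : Measurable fun x : Conf => ∑' j : ℤ, φ (x j) :=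
  Measurable.tsum fun j => hφ.comp (measurable_pi_apply j)

theorem k9_meas_cSK (K : ℕ) (z : ℂ) : Measurable fun x : Conf => cSK K x z := by
  unfold cSK cPos
  refine Finset.measurable_sum _ fun i _ => ?_
  exact ((Complex.measurable_ofReal.comp (measurable_pi_apply _)).sub_const z).inv

theorem k9_meas_cS (z : ℂ) : Measurable fun x : Conf => cS x z := by
  unfold cS
  exact (StronglyMeasurable.limUnder fun K => (k9_meas_cSK K z).stronglyMeasurable).measurable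


theorem k9_exp_lip {a b : ℝ} (ha : 0 ≤ a) (hb : 0 ≤ b) : |Real.exp (-a) - Real.exp (-b)| ≤ min 1 |a - b| := by
  wlog hab : a ≤ b generalizing a b
  · have := this hb ha (le_of_not_ge hab)
    rwa [abs_sub_comm, abs_sub_comm b a] at this
  have h1 : Real.exp (-b) ≤ Real.exp (-a) := Real.exp_le_exp.2 (by linarith)
  have h2 : Real.exp (-a) ≤ 1 := Real.exp_le_one_iff.2 (by linarith)
  have h3 : 0 < Real.exp (-b) := Real.exp_pos _
  have h4 : Real.exp (-b) = Real.exp (-a) * Real.exp (-(b - a)) := by rw [← Real.exp_add]; congr 1; ring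
  have h5 : -(b - a) + 1 ≤ Real.exp (-(b - a)) := Real.add_one_le_exp _
  have h6 : 0 < Real.exp (-a) := Real.exp_pos _
  rw [abs_of_nonneg (by linarith), abs_sub_comm, abs_of_nonneg (by linarith)]
  refine le_min (by linarith) ?_
  rw [h4]
  nlinarith

/-- the test function `w ↦ exp(-max 0 (∑ c_a Im w_a))` -/
noncomputable def k9Phi {b : ℕ} (c : Fin b → ℝ) : BoundedContinuousFunction (Fin b → ℂ) ℝ :=
  BoundedContinuousFunction.ofNormedAddCommGroup (fun w => Real.exp (-(max 0 (∑ a, c a * (w a).im))))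
    (by fun_prop) 1 (fun w => by
      rw [Real.norm_eq_abs, abs_of_pos (Real.exp_pos _)]
      exact Real.exp_le_one_iff.2 (by simp))

theorem k9Phi_apply {b : ℕ} (c : Fin b → ℝ) (w : Fin b → ℂ) : k9Phi c w = Real.exp (-(max 0 (∑ a, c a * (w a).im))) := rfl

/-- **K9, one law**: the Laplace functional is close to a bounded continuous function of finitely many values of `cS` -/
theorem k9_core (μ : Measure Conf) [IsProbabilityMeasure μ] (hsum : ∀ᵐ x ∂μ, Summable fun j : ℤ => (1 + x j ^ 2)⁻¹)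
    (hconv : ∀ z : ℂ, 0 < z.im → ∀ᵐ x ∂μ, ∃ L, Tendsto (fun K : ℕ => cSK K x z) atTop (𝓝 L))
    (h : ℝ → ℝ) (hc : Continuous h) (hs : HasCompactSupport h) (hn : ∀ t, 0 ≤ h t) {b : ℕ} (c : Fin b → ℝ) (z : Fin b → ℂ)
    (hz : ∀ a, 0 < (z a).im) (s ε : ℝ) (hε : 0 ≤ ε)
    (hcl : ∀ t : ℝ, |h t - ∑ a, c a * ((((t : ℝ) : ℂ) - z a)⁻¹).im| ≤ ε * k9P 1 (t - s)) :
    |cLap μ h - ∫ x, k9Phi c (fun a => cS x (z a)) ∂μ| ≤ ∫ x, min 1 (ε * ∑' j : ℤ, k9P 1 (x j - s)) ∂μ := by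
  have hT0 : ∀ x : Conf, 0 ≤ ∑' j : ℤ, k9P 1 (x j - s) := fun x => tsum_nonneg fun j => k9P_nonneg one_pos _
  have hA0 : ∀ x : Conf, 0 ≤ ∑' j : ℤ, h (x j) := fun x => tsum_nonneg fun j => hn _
  have m1 : Measurable fun x : Conf => Real.exp (-∑' j : ℤ, h (x j)) :=
    Real.measurable_exp.comp (k9_meas_tsum h hc.measurable).neg
  have m2 : Measurable fun x : Conf => k9Phi c (fun a => cS x (z a)) :=
    (k9Phi c).continuous.measurable.comp (measurable_pi_lambda _ fun a => k9_meas_cS (z a))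
  have m3 : Measurable fun x : Conf => min 1 (ε * ∑' j : ℤ, k9P 1 (x j - s)) :=
    measurable_const.min ((k9_meas_tsum (fun t => k9P 1 (t - s)) ((k9P_continuous one_pos).measurable.comp (measurable_id.sub_const s))).const_mul ε)
  have i1 : Integrable (fun x : Conf => Real.exp (-∑' j : ℤ, h (x j))) μ :=
    Integrable.of_bound m1.aestronglyMeasurable 1 (Eventually.of_forall fun x => by
      rw [Real.norm_eq_abs, abs_of_pos (Real.exp_pos _)]
      exact Real.exp_le_one_iff.2 (by linarith [hA0 x]))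
  have i2 : Integrable (fun x : Conf => k9Phi c (fun a => cS x (z a))) μ :=
    Integrable.of_bound m2.aestronglyMeasurable ‖k9Phi c‖ (Eventually.of_forall fun x => (k9Phi c).norm_coe_le_norm _)
  have i3 : Integrable (fun x : Conf => min 1 (ε * ∑' j : ℤ, k9P 1 (x j - s))) μ :=
    Integrable.of_bound m3.aestronglyMeasurable 1 (Eventually.of_forall fun x => by
      rw [Real.norm_eq_abs, abs_of_nonneg (le_min zero_le_one (mul_nonneg hε (hT0 x)))]
      exact min_le_left _ _)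
  unfold cLap
  rw [← integral_sub i1 i2, ← Real.norm_eq_abs]
  refine norm_integral_le_of_norm_le i3 ?_
  filter_upwards [hsum, ae_all_iff.2 fun a => hconv (z a) (hz a)] with x hx hcv
  rw [Real.norm_eq_abs, k9Phi_apply]
  set A : ℝ := ∑' j : ℤ, h (x j) with hA
  set B : ℝ := ∑ a, c a * (cS x (z a)).im with hB
  have sP : ∀ a, Summable fun j : ℤ => c a * k9P (z a).im (x j - (z a).re) := fun a => (k9_summable_P hx (hz a) _).mul_left _
  have hB' : B = ∑' j : ℤ, ∑ a, c a * ((((x j : ℝ) : ℂ) - z a)⁻¹).im := by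
    simp only [k9_im_inv]
    rw [Summable.tsum_finsetSum fun a _ => sP a]
    refine Finset.sum_congr rfl fun a _ => ?_
    rw [k9_im_cS hx (hz a) (hcv a), tsum_mul_left]
  have sg : Summable fun j : ℤ => ∑ a, c a * ((((x j : ℝ) : ℂ) - z a)⁻¹).im := by
    simp only [k9_im_inv]
    exact summable_sum fun a _ => sP a
  have sh : Summable fun j : ℤ => h (x j) := k9_summable_cc hx h hc hs
  have hAB : |A - B| ≤ ε * ∑' j : ℤ, k9P 1 (x j - s) := by
    rw [hA, hB', ← sh.tsum_sub sg, ← Real.norm_eq_abs]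
    refine tsum_of_norm_bounded ((k9_summable_P hx one_pos s).hasSum.mul_left ε) fun j => ?_
    rw [Real.norm_eq_abs]
    exact hcl (x j)
  have hAm : |A - max 0 B| ≤ |A - B| := by
    rcases le_total 0 B with hB0 | hB0
    · rw [max_eq_right hB0]
    · rw [max_eq_left hB0, sub_zero, abs_of_nonneg (hA0 x), abs_of_nonneg (by linarith [hA0 x])]
      linarith
  calc |Real.exp (-A) - Real.exp (-(max 0 B))| ≤ min 1 |A - max 0 B| := k9_exp_lip (hA0 x) (le_max_left _ _)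
    _ ≤ min 1 (ε * ∑' j : ℤ, k9P 1 (x j - s)) := min_le_min_left _ (hAm.trans hAB)


theorem k9_rem_tendsto (μ : Measure Conf) [IsProbabilityMeasure μ] (s : ℝ) :
    Tendsto (fun n : ℕ => ∫ x, min 1 (1 / ((n : ℝ) + 1) * ∑' j : ℤ, k9P 1 (x j - s)) ∂μ) atTop (𝓝 0) := by
  have hT0 : ∀ x : Conf, 0 ≤ ∑' j : ℤ, k9P 1 (x j - s) := fun x => tsum_nonneg fun j => k9P_nonneg one_pos _
  have m3 : ∀ ε : ℝ, Measurable fun x : Conf => min 1 (ε * ∑' j : ℤ, k9P 1 (x j - s)) := fun ε =>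
    measurable_const.min ((k9_meas_tsum (fun t => k9P 1 (t - s)) ((k9P_continuous one_pos).measurable.comp (measurable_id.sub_const s))).const_mul ε)
  have := tendsto_integral_of_dominated_convergence (μ := μ) (F := fun (n : ℕ) (x : Conf) => min 1 (1 / ((n : ℝ) + 1) * ∑' j : ℤ, k9P 1 (x j - s)))
    (f := fun _ => (0 : ℝ)) (fun _ => (1 : ℝ)) (fun n => (m3 _).aestronglyMeasurable) (integrable_const 1)
    (fun n => Eventually.of_forall fun x => by
      rw [Real.norm_eq_abs, abs_of_nonneg (le_min zero_le_one (mul_nonneg (by positivity) (hT0 x)))]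
      exact min_le_left _ _)
    (Eventually.of_forall fun x => by
      have h1 : Tendsto (fun n : ℕ => 1 / ((n : ℝ) + 1) * ∑' j : ℤ, k9P 1 (x j - s)) atTop (𝓝 (0 * ∑' j : ℤ, k9P 1 (x j - s))) :=
        tendsto_one_div_add_atTop_nhds_zero_nat.mul_const _
      rw [zero_mul] at h1
      have h2 := (tendsto_const_nhds (x := (1 : ℝ))).min h1
      simpa using h2)
  simpa using this

/-- **K9, determinacy** (with shifts): the joint laws of finitely many values `cS x z_a` determine the Laplace functional -/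
theorem k9_det (μ₁ μ₂ : Measure Conf) [IsProbabilityMeasure μ₁] [IsProbabilityMeasure μ₂]
    (hsum₁ : ∀ᵐ x ∂μ₁, Summable fun j : ℤ => (1 + x j ^ 2)⁻¹)
    (hconv₁ : ∀ z : ℂ, 0 < z.im → ∀ᵐ x ∂μ₁, ∃ L, Tendsto (fun K : ℕ => cSK K x z) atTop (𝓝 L))
    (hsum₂ : ∀ᵐ x ∂μ₂, Summable fun j : ℤ => (1 + x j ^ 2)⁻¹)
    (hconv₂ : ∀ z : ℂ, 0 < z.im → ∀ᵐ x ∂μ₂, ∃ L, Tendsto (fun K : ℕ => cSK K x z) atTop (𝓝 L)) (s₁ s₂ : ℝ)
    (heq : ∀ (b : ℕ) (z : Fin b → ℂ), (∀ a, 0 < (z a).im) → ∀ Φ : BoundedContinuousFunction (Fin b → ℂ) ℝ,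
      ∫ x, Φ (fun a => cS x (z a + (s₁ : ℂ))) ∂μ₁ = ∫ x, Φ (fun a => cS x (z a + (s₂ : ℂ))) ∂μ₂)
    (h : ℝ → ℝ) (hc : Continuous h) (hs : HasCompactSupport h) (hn : ∀ t, 0 ≤ h t) :
    cLap μ₁ (fun t => h (t - s₁)) = cLap μ₂ (fun t => h (t - s₂)) := by
  have key : ∀ ε : ℝ, 0 < ε → |cLap μ₁ (fun t => h (t - s₁)) - cLap μ₂ (fun t => h (t - s₂))|
      ≤ (∫ x, min 1 (ε * ∑' j : ℤ, k9P 1 (x j - s₁)) ∂μ₁) + ∫ x, min 1 (ε * ∑' j : ℤ, k9P 1 (x j - s₂)) ∂μ₂ := by
    intro ε hε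
    obtain ⟨b, c, z, hz, happ⟩ := k9_approx h hc hs ε hε
    have hcl : ∀ s t : ℝ, |h (t - s) - ∑ a, c a * ((((t : ℝ) : ℂ) - (z a + (s : ℂ)))⁻¹).im| ≤ ε * k9P 1 (t - s) := by
      intro s t
      have h1 := happ (t - s)
      have e1 : ∀ a, (((t : ℝ) : ℂ) - (z a + (s : ℂ))) = (((t - s : ℝ)) : ℂ) - z a := by
        intro a; push_cast; ring
      simp only [e1]
      have h2 : (0 : ℝ) < 1 + (t - s) ^ 2 := by positivity
      unfold k9P
      rw [mul_one_div, le_div_iff₀ (by positivity)]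
      calc _ = (1 + (t - s) ^ 2) * |h (t - s) - ∑ a, c a * ((((t - s : ℝ) : ℂ) - z a)⁻¹).im| := by ring
        _ ≤ ε := h1
    have hz' : ∀ s : ℝ, ∀ a, 0 < (z a + (s : ℂ)).im := fun s a => by simpa using hz a
    have hsh : ∀ s : ℝ, HasCompactSupport fun t => h (t - s) := fun s => hs.comp_homeomorph (Homeomorph.subRight s)
    have k1 := k9_core μ₁ hsum₁ hconv₁ (fun t => h (t - s₁)) (by fun_prop) (hsh s₁) (fun t => hn _) c (fun a => z a + (s₁ : ℂ)) (hz' s₁) s₁ ε hε.le (hcl s₁)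
    have k2 := k9_core μ₂ hsum₂ hconv₂ (fun t => h (t - s₂)) (by fun_prop) (hsh s₂) (fun t => hn _) c (fun a => z a + (s₂ : ℂ)) (hz' s₂) s₂ ε hε.le (hcl s₂)
    rw [heq b z hz (k9Phi c)] at k1
    rw [abs_sub_comm] at k2
    calc |cLap μ₁ (fun t => h (t - s₁)) - cLap μ₂ (fun t => h (t - s₂))|
        ≤ |cLap μ₁ (fun t => h (t - s₁)) - ∫ x, k9Phi c (fun a => cS x (z a + (s₂ : ℂ))) ∂μ₂|
          + |(∫ x, k9Phi c (fun a => cS x (z a + (s₂ : ℂ))) ∂μ₂) - cLap μ₂ (fun t => h (t - s₂))| := abs_sub_le _ _ _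
      _ ≤ _ := add_le_add k1 k2
  have hlim := (k9_rem_tendsto μ₁ s₁).add (k9_rem_tendsto μ₂ s₂)
  rw [add_zero] at hlim
  have h0 : |cLap μ₁ (fun t => h (t - s₁)) - cLap μ₂ (fun t => h (t - s₂))| ≤ 0 :=
    ge_of_tendsto' hlim fun n => key _ (by positivity)
  exact sub_eq_zero.1 (abs_nonpos_iff.1 h0)


/-! ## C. Regular configurations -/

/-- far labels of a regular configuration -/
theorem k9_creg_far {ρ χ C₀ : ℝ} {J₀ : ℕ} {x : Conf} (hρ : 0 < ρ) (hχ : 0 < χ) (hx : CReg ρ χ C₀ J₀ x) :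
    ∃ N : ℕ, ∀ j : ℤ, (N : ℤ) ≤ |j| → 1 ≤ |(j : ℝ)| ∧ |x j - j / ρ| ≤ C₀ * |(j : ℝ)| ^ (1 - χ) ∧
      C₀ * |(j : ℝ)| ^ (1 - χ) ≤ |(j : ℝ)| / (2 * ρ) ∧ |(j : ℝ)| / (2 * ρ) ≤ |x j| := by
  obtain ⟨N₁, hN₁⟩ := eventually_atTop.1 ((tendsto_rpow_atTop hχ).eventually_ge_atTop (2 * ρ * C₀))
  refine ⟨max J₀ (max 1 ⌈N₁⌉₊), fun j hj => ?_⟩
  have hj' : ((max J₀ (max 1 ⌈N₁⌉₊) : ℕ) : ℝ) ≤ |(j : ℝ)| := by
    have : (((max J₀ (max 1 ⌈N₁⌉₊) : ℕ) : ℤ) : ℝ) ≤ ((|j| : ℤ) : ℝ) := by exact_mod_cast hj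
    simpa using this
  set t : ℝ := |(j : ℝ)| with ht
  have h1 : (1 : ℝ) ≤ t := by
    refine le_trans ?_ hj'
    exact_mod_cast (le_max_left 1 ⌈N₁⌉₊).trans (le_max_right _ _)
  have h2 : N₁ ≤ t := by
    refine le_trans (Nat.le_ceil N₁) (le_trans ?_ hj')
    exact_mod_cast (le_max_right 1 ⌈N₁⌉₊).trans (le_max_right _ _)
  have h3 : (J₀ : ℤ) ≤ |j| := le_trans (by exact_mod_cast le_max_left _ _) hj
  have ht0 : 0 < t := by linarith
  have h4 := hx.2 j h3
  have h5 : 2 * ρ * C₀ ≤ t ^ χ := hN₁ t h2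
  have h6 : C₀ * t ^ (1 - χ) ≤ t / (2 * ρ) := by
    have e1 : t ^ (1 - χ) = t / t ^ χ := by rw [Real.rpow_sub ht0, Real.rpow_one]
    have hp : 0 < t ^ χ := Real.rpow_pos_of_pos ht0 _
    rw [e1, mul_div_assoc', div_le_div_iff₀ hp (by positivity)]
    nlinarith
  refine ⟨h1, h4, h6, ?_⟩
  have h7 : |(j : ℝ) / ρ| = t / ρ := by rw [abs_div, abs_of_pos hρ]
  have h8 : |(j : ℝ) / ρ| - |x j| ≤ |x j - j / ρ| := by
    rw [abs_sub_comm]; exact abs_sub_abs_le_abs_sub _ _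
  have e2 : t / ρ = 2 * (t / (2 * ρ)) := by field_simp
  rw [h7, e2] at h8
  linarith

theorem k9_creg_summable {ρ χ C₀ : ℝ} {J₀ : ℕ} {x : Conf} (hρ : 0 < ρ) (hχ : 0 < χ) (hx : CReg ρ χ C₀ J₀ x) :
    Summable fun j : ℤ => (1 + x j ^ 2)⁻¹ := by
  obtain ⟨N, hN⟩ := k9_creg_far hρ hχ hx
  have hs : Summable fun j : ℤ => (4 * ρ ^ 2) * (1 / (j : ℝ) ^ 2) := (Real.summable_one_div_int_pow.2 one_lt_two).mul_left _
  refine Summable.of_norm_bounded_eventually hs ?_
  have hfin : {j : ℤ | ¬ (N : ℤ) ≤ |j|}.Finite := by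
    refine (Set.finite_Ioo (-(N : ℤ)) N).subset fun j hj => ?_
    have hj : |j| < (N : ℤ) := not_le.1 hj
    exact abs_lt.1 hj
  refine (hfin.subset fun j hj => ?_ : {j : ℤ | ¬ ‖(1 + x j ^ 2)⁻¹‖ ≤ (4 * ρ ^ 2) * (1 / (j : ℝ) ^ 2)}.Finite)
  intro hle
  apply hj
  obtain ⟨h1, -, -, h4⟩ := hN j hle
  have h5 : (0 : ℝ) < 1 + x j ^ 2 := by positivity
  have ht0 : 0 < |(j : ℝ)| := by linarith
  rw [Real.norm_eq_abs, abs_of_pos (inv_pos.2 h5), mul_one_div, ← sq_abs (j : ℝ), inv_le_comm₀ h5 (by positivity), inv_div]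
  have h6 : (|(j : ℝ)| / (2 * ρ)) ^ 2 ≤ |x j| ^ 2 := pow_le_pow_left₀ (by positivity) h4 2
  rw [sq_abs (x j)] at h6
  have e1 : |(j : ℝ)| ^ 2 / (4 * ρ ^ 2) = (|(j : ℝ)| / (2 * ρ)) ^ 2 := by field_simp; ring
  rw [e1]
  linarith

/-- the principal value sums converge for a regular configuration -/
theorem k9_creg_conv {ρ χ C₀ : ℝ} {J₀ : ℕ} {x : Conf} (hρ : 0 < ρ) (hχ : 0 < χ) (hx : CReg ρ χ C₀ J₀ x) (z : ℂ) :
    ∃ L, Tendsto (fun K : ℕ => cSK K x z) atTop (𝓝 L) := by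
  obtain ⟨N, hN⟩ := k9_creg_far hρ hχ hx
  set F : ℤ → ℂ := fun j => (((x j : ℝ) : ℂ) - z)⁻¹ with hF
  set P : ℕ → ℂ := fun k => F ((k : ℤ) + 1) + F (-((k : ℤ) + 1)) with hP
  have hsum : ∀ K : ℕ, cSK K x z = F 0 + ∑ k ∈ Finset.range K, P k := by
    intro K
    have e0 : cSK K x z = ∑ j ∈ Finset.Icc (-(K : ℤ)) K, F j := by
      unfold cSK cPos
      exact k9_sum_win K F
    rw [e0]
    clear e0
    induction K with
    | zero => simp
    | succ K ih =>
      have := Finset.sum_Icc_succ_eq_add_endpoints F (N := K)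
      push_cast
      rw [this, ih, Finset.sum_range_succ]
      simp only [hP]
      ring
  have hg : Summable fun k : ℕ => 32 * ρ ^ 2 * C₀ * (((k + 1 : ℕ) : ℝ) ^ (1 + χ))⁻¹ + 32 * ρ ^ 2 * ‖z‖ * (((k + 1 : ℕ) : ℝ) ^ (2 : ℝ))⁻¹ :=
    (((summable_nat_add_iff 1).2 (Real.summable_nat_rpow_inv.2 (by linarith : 1 < 1 + χ))).mul_left _).add
      (((summable_nat_add_iff 1).2 (Real.summable_nat_rpow_inv.2 (by norm_num : (1 : ℝ) < 2))).mul_left _)
  have hPs : Summable P := by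
    refine Summable.of_norm_bounded_eventually_nat hg ?_
    obtain ⟨N₂, hN₂⟩ := exists_nat_ge (4 * ρ * ‖z‖)
    filter_upwards [eventually_ge_atTop (max N N₂)] with k hk
    set n : ℝ := ((k + 1 : ℕ) : ℝ) with hn
    have hkN : N ≤ k + 1 := (le_max_left _ _).trans (hk.trans (Nat.le_succ k))
    have hn2 : 4 * ρ * ‖z‖ ≤ n := by
      refine hN₂.trans ?_
      simp only [hn]
      exact_mod_cast (le_max_right _ _).trans (hk.trans (Nat.le_succ k))
    have hn0 : 0 < n := by simp only [hn]; positivity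
    have a1 : |(((k : ℤ) + 1 : ℤ) : ℝ)| = n := by
      simp only [hn]; push_cast; rw [abs_of_nonneg (by positivity)]
    have a2 : |((-((k : ℤ) + 1) : ℤ) : ℝ)| = n := by
      simp only [hn]; push_cast; rw [abs_neg, abs_of_nonneg (by positivity)]
    obtain ⟨-, p2, p3, p4⟩ := hN ((k : ℤ) + 1) (by rw [abs_of_nonneg (by positivity)]; exact_mod_cast hkN)
    obtain ⟨-, q2, q3, q4⟩ := hN (-((k : ℤ) + 1)) (by rw [abs_neg, abs_of_nonneg (by positivity)]; exact_mod_cast hkN)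
    rw [a1] at p2 p3 p4
    rw [a2] at q2 q3 q4
    set a : ℝ := x ((k : ℤ) + 1) with ha
    set b : ℝ := x (-((k : ℤ) + 1)) with hb
    have hz4 : ‖z‖ ≤ n / (4 * ρ) := by rw [le_div_iff₀ (by positivity)]; linarith
    have e3 : n / (2 * ρ) = 2 * (n / (4 * ρ)) := by field_simp; ring
    have la : n / (4 * ρ) ≤ ‖((a : ℝ) : ℂ) - z‖ := by
      have := norm_sub_norm_le ((a : ℝ) : ℂ) z
      rw [Complex.norm_real, Real.norm_eq_abs] at this
      linarith
    have lb : n / (4 * ρ) ≤ ‖((b : ℝ) : ℂ) - z‖ := by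
      have := norm_sub_norm_le ((b : ℝ) : ℂ) z
      rw [Complex.norm_real, Real.norm_eq_abs] at this
      linarith
    have hq : 0 < n / (4 * ρ) := by positivity
    have na : ((a : ℝ) : ℂ) - z ≠ 0 := fun h0 => by rw [h0, norm_zero] at la; linarith
    have nb : ((b : ℝ) : ℂ) - z ≠ 0 := fun h0 => by rw [h0, norm_zero] at lb; linarith
    have eP : P k = ((((a + b : ℝ)) : ℂ) - 2 * z) / ((((a : ℝ) : ℂ) - z) * (((b : ℝ) : ℂ) - z)) := by
      simp only [hP, hF]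
      rw [← ha, ← hb]
      field_simp
      push_cast
      ring
    have hab : |a + b| ≤ 2 * (C₀ * n ^ (1 - χ)) := by
      have e4 : a + b = (a - (((k : ℤ) + 1 : ℤ) : ℝ) / ρ) + (b - ((-((k : ℤ) + 1) : ℤ) : ℝ) / ρ) := by
        push_cast; ring
      rw [e4]
      exact (abs_add_le _ _).trans (by linarith)
    have hnum : ‖(((a + b : ℝ)) : ℂ) - 2 * z‖ ≤ 2 * (C₀ * n ^ (1 - χ)) + 2 * ‖z‖ := by
      refine (norm_sub_le _ _).trans ?_
      rw [Complex.norm_real, Real.norm_eq_abs, norm_mul]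
      simp only [Complex.norm_ofNat]
      linarith
    have hden : (n / (4 * ρ)) ^ 2 ≤ ‖(((a : ℝ) : ℂ) - z) * (((b : ℝ) : ℂ) - z)‖ := by
      rw [norm_mul, sq]
      exact mul_le_mul la lb hq.le (hq.le.trans la)
    have hnum0 : 0 ≤ 2 * (C₀ * n ^ (1 - χ)) + 2 * ‖z‖ := (norm_nonneg _).trans hnum
    rw [eP, norm_div]
    calc ‖(((a + b : ℝ)) : ℂ) - 2 * z‖ / ‖(((a : ℝ) : ℂ) - z) * (((b : ℝ) : ℂ) - z)‖
        ≤ (2 * (C₀ * n ^ (1 - χ)) + 2 * ‖z‖) / (n / (4 * ρ)) ^ 2 := by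
          apply div_le_div₀ hnum0 hnum (by positivity) hden
      _ = 32 * ρ ^ 2 * C₀ * (n ^ (1 + χ))⁻¹ + 32 * ρ ^ 2 * ‖z‖ * (n ^ (2 : ℝ))⁻¹ := by
          have e5 : n ^ (1 - χ) = n ^ 2 * (n ^ (1 + χ))⁻¹ := by
            rw [← Real.rpow_neg hn0.le, ← Real.rpow_natCast n 2, ← Real.rpow_add hn0]
            congr 1
            push_cast; ring
          rw [e5, Real.rpow_two]
          field_simp
          ring
  refine ⟨F 0 + ∑' k, P k, ?_⟩
  simp only [hsum]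
  exact hPs.hasSum.tendsto_sum_nat.const_add _


/-! ## D. Laws with `LReg` -/

theorem k9_creg_tendsto {ρ χ C₀ : ℝ} {J₀ : ℕ} {x : Conf} (hρ : 0 < ρ) (hχ : 0 < χ) (hx : CReg ρ χ C₀ J₀ x) (z : ℂ) :
    Tendsto (fun K : ℕ => cSK K x z) atTop (𝓝 (cS x z)) :=
  tendsto_nhds_limUnder (k9_creg_conv hρ hχ hx z)

theorem k9_lreg_sum {ρ ξ : ℝ} {μ : Measure Conf} (hρ : 0 < ρ) (hR : LReg ρ ξ μ) :
    ∀ᵐ x ∂μ, Summable fun j : ℤ => (1 + x j ^ 2)⁻¹ := by
  obtain ⟨χ, hχ, h⟩ := hR.pos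
  filter_upwards [h] with x hx
  obtain ⟨C₀, J₀, hx⟩ := hx
  exact k9_creg_summable hρ hχ hx

theorem k9_lreg_tendsto {ρ ξ : ℝ} {μ : Measure Conf} (hρ : 0 < ρ) (hR : LReg ρ ξ μ) :
    ∀ᵐ x ∂μ, ∀ z : ℂ, Tendsto (fun K : ℕ => cSK K x z) atTop (𝓝 (cS x z)) := by
  obtain ⟨χ, hχ, h⟩ := hR.pos
  filter_upwards [h] with x hx z
  obtain ⟨C₀, J₀, hx⟩ := hx
  exact k9_creg_tendsto hρ hχ hx z

theorem k9_lreg_conv {ρ ξ : ℝ} {μ : Measure Conf} (hρ : 0 < ρ) (hR : LReg ρ ξ μ) (z : ℂ) (_hz : 0 < z.im) :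
    ∀ᵐ x ∂μ, ∃ L, Tendsto (fun K : ℕ => cSK K x z) atTop (𝓝 L) := by
  filter_upwards [k9_lreg_tendsto hρ hR] with x hx
  exact ⟨_, hx z⟩

/-- **K9 for `LReg` laws**: equal joint laws of the traces give equal Laplace functionals -/
theorem k9_det_lreg {ρ₁ ξ₁ ρ₂ ξ₂ : ℝ} (μ₁ μ₂ : Measure Conf) [IsProbabilityMeasure μ₁] [IsProbabilityMeasure μ₂] (hρ₁ : 0 < ρ₁) (hρ₂ : 0 < ρ₂)
    (hR₁ : LReg ρ₁ ξ₁ μ₁) (hR₂ : LReg ρ₂ ξ₂ μ₂)
    (heq : ∀ (b : ℕ) (z : Fin b → ℂ), (∀ a, 0 < (z a).im) → ∀ Φ : BoundedContinuousFunction (Fin b → ℂ) ℝ,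
      ∫ x, Φ (fun a => cS x (z a)) ∂μ₁ = ∫ x, Φ (fun a => cS x (z a)) ∂μ₂)
    (h : ℝ → ℝ) (hc : Continuous h) (hs : HasCompactSupport h) (hn : ∀ t, 0 ≤ h t) : cLap μ₁ h = cLap μ₂ h := by
  have := k9_det μ₁ μ₂ (k9_lreg_sum hρ₁ hR₁) (k9_lreg_conv hρ₁ hR₁) (k9_lreg_sum hρ₂ hR₂) (k9_lreg_conv hρ₂ hR₂) 0 0
    (fun b z hz Φ => by simpa using heq b z hz Φ) h hc hs hn
  simpa using this

/-- **K9, shift form** (U1 ⟹ `U4Shift`): if the joint laws of the traces are invariant under `z ↦ z + s` then `cLap` is invariant under `h ↦ h(· - s)` -/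
theorem k9_shift_lreg {ρ ξ : ℝ} (μ : Measure Conf) [IsProbabilityMeasure μ] (hρ : 0 < ρ) (hR : LReg ρ ξ μ) (s : ℝ)
    (hinv : ∀ (b : ℕ) (z : Fin b → ℂ), (∀ a, 0 < (z a).im) → ∀ Φ : BoundedContinuousFunction (Fin b → ℂ) ℝ,
      ∫ x, Φ (fun a => cS x (z a + (s : ℂ))) ∂μ = ∫ x, Φ (fun a => cS x (z a)) ∂μ)
    (h : ℝ → ℝ) (hc : Continuous h) (hs : HasCompactSupport h) (hn : ∀ t, 0 ≤ h t) : cLap μ (fun t => h (t - s)) = cLap μ h := by
  have := k9_det μ μ (k9_lreg_sum hρ hR) (k9_lreg_conv hρ hR) (k9_lreg_sum hρ hR) (k9_lreg_conv hρ hR) s 0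
    (fun b z hz Φ => by simpa using hinv b z hz Φ) h hc hs hn
  simpa using this

theorem k9_eqns_cite : True := by
  have := @k9P.eq_1
  have := @k9K.eq_1
  have := @k9Phi.eq_1
  trivial

end Claimed.Agent.R287
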