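-- KEEP
import Claimed.Agent.R287.Ct
import Claimed.Agent.R287.Stj227

/-!
# Row 287, unit S2', part 2: ADAPTORS (`Conf`, `Win K → ℝ`) and PROBABILITY (T4)      owner helper186, prefix `ct_`

* sec. 6  `ct_sys_conf` (`CtSys x ctWin (cS x)` for a configuration with convergent principal value sums), `ct_sys_dat` (finite sorted data `Win K → ℝ`, extended to `ℤ` by clamping),
          `ct_gap_dat` (T3 for finite sorted data: no labels, only positions).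
* sec. 7  `ct_lreg_grid` (union bound over the integer grid), **`ct_lreg_gap` (T4)**: under `LReg ρ ξ μ`, off an event of probability `C L^{-D}`,
          `|x_{j0+m} - x_{j0} - m/ρ| ≤ C' m^{1-ξ}` for all `|j0|, |j0+m| ≤ L`, `m ≥ L^ε`;  `C' = ctGapK ρ ξ` depends on `ρ, ξ` only.
-/

set_option autoImplicit false

namespace Claimed.Agent.R287

open MeasureTheory Set Filter Topology

noncomputable section

/-! ## 6. adaptors -/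

theorem ct_cSK (K : ℕ) (x : Conf) (z : ℂ) : cSK K x z = ctS x (ctWin K) z := by
  unfold cSK cPos ctS ctWin
  exact k9_sum_win K fun j => (((x j : ℝ) : ℂ) - z)⁻¹

/-- a configuration with convergent principal value sums -/
theorem ct_sys_conf {x : Conf} (h : ∀ z : ℂ, Tendsto (fun K : ℕ => cSK K x z) atTop (𝓝 (cS x z))) : CtSys x ctWin (cS x) where
  mono := ct_win_mono
  lim := fun z _ => by simpa only [ct_cSK] using h z

/-- clamp a label to the window -/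
def ctCl (K : ℕ) (j : ℤ) : Win K := ⟨(max 0 (min (j + K) (2 * K))).toNat, by omega⟩

/-- finite data extended to all labels (constant outside the window) -/
def ctExt {K : ℕ} (x : Win K → ℝ) : ℤ → ℝ := fun j => x (ctCl K j)

/-- the Stieltjes sum of finite data -/
def ctTr {K : ℕ} (x : Win K → ℝ) (z : ℂ) : ℂ := ∑ i : Win K, (((x i : ℝ) : ℂ) - z)⁻¹

theorem ct_eqns_cite3 : True := by
  have := @ctCl.eq_1; have := @ctExt.eq_1; have := @ctTr.eq_1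
  trivial

theorem ct_cl_idx {K : ℕ} (i : Win K) : ctCl K (wIdx i) = i := by
  have := i.isLt
  apply Fin.ext
  simp only [ctCl, wIdx]
  omega

theorem ct_ext_idx {K : ℕ} (x : Win K → ℝ) (i : Win K) : ctExt x (wIdx i) = x i := by
  unfold ctExt; rw [ct_cl_idx]

theorem ct_cl_mono (K : ℕ) : Monotone (ctCl K) := by
  intro i j hij
  rw [Fin.le_def]
  simp only [ctCl]
  omega

theorem ct_ext_mono {K : ℕ} {x : Win K → ℝ} (hx : Monotone x) : Monotone (ctExt x) := fun _ _ hij => hx (ct_cl_mono K hij)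

theorem ct_ext_S {K : ℕ} (x : Win K → ℝ) (z : ℂ) : ctS (ctExt x) (ctWin K) z = ctTr x z := by
  unfold ctS ctWin ctTr
  rw [← k9_sum_win K fun j => (((ctExt x j : ℝ) : ℂ) - z)⁻¹]
  exact Finset.sum_congr rfl fun i _ => by rw [ct_ext_idx]

/-- finite data as a system -/
theorem ct_sys_dat {K : ℕ} (x : Win K → ℝ) : CtSys (ctExt x) (fun _ => ctWin K) (ctTr x) where
  mono := monotone_const
  lim := fun z _ => by
    simp only [ct_ext_S]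
    exact tendsto_const_nhds

/-- **T3 for finite sorted data** (no canonical labels: only the positions of the two points matter) -/
theorem ct_gap_dat {K : ℕ} {x : Win K → ℝ} (hx : Monotone x) {w : ℂ} {C ξ A B U0 U1 : ℝ} (hp : 0 < w.im) (hC : 0 ≤ C) (hξ0 : 0 < ξ)
    (hξ1 : ξ < 1) (hU0 : 0 < U0) (box : CtBox (ctTr x) w C ξ A B U0 U1) {i i' : Win K} {m : ℕ} (hm : i'.val = i.val + m)
    (ha : A ≤ x i) (hb : x i' ≤ B) (hm1 : U0 ≤ (m : ℝ) ^ (1 - ξ)) (hm2 : (m : ℝ) ≤ U1) (hm3 : C * (m : ℝ) ^ (-ξ) ≤ w.im / 2) :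
    |w.im * (x i' - x i) - Real.pi * m| ≤ ctGapC C ξ w.im * (m : ℝ) ^ (1 - ξ) := by
  have e1 : wIdx i' = wIdx i + m := by simp only [wIdx]; omega
  have h := ct_gap (x := ctExt x) (j0 := wIdx i) (m := m) (ct_ext_mono hx) (ct_sys_dat x) hp hC hξ0 hξ1 hU0 box
    ⟨0, by
      intro j hj
      rw [Finset.mem_Icc] at hj
      have h1 := i.isLt
      have h2 := i'.isLt
      unfold ctWin
      rw [Finset.mem_Icc]
      simp only [wIdx] at hj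
      constructor <;> omega⟩
    (by rw [ct_ext_idx]; exact ha) (by rw [← e1, ct_ext_idx]; exact hb) hm1 hm2 hm3
  rwa [← e1, ct_ext_idx, ct_ext_idx] at h

/-! ## 7. T4: probability -/

/-- the centre `iπρ` -/
def ctW (ρ : ℝ) : ℂ := ((Real.pi * ρ : ℝ) : ℂ) * Complex.I

theorem ct_W_im (ρ : ℝ) : (ctW ρ).im = Real.pi * ρ := by simp [ctW]

/-- union bound over the integer grid -/
theorem ct_lreg_grid {ρ ξ : ℝ} {μ : Measure Conf} (hR : LReg ρ ξ μ) (D : ℕ) :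
    ∃ Cp u₀ : ℝ, 0 ≤ Cp ∧ ∀ (A B : ℤ) (U0 U1 : ℕ), u₀ ≤ U0 → 1 ≤ U0 →
      μ {x | ¬ CtGrid (cS x) (ctW ρ) 1 ξ A B U0 U1}
        ≤ ENNReal.ofReal (((Finset.Icc A B ×ˢ Finset.Icc U0 U1).card : ℝ) * (Cp * (U0 : ℝ) ^ (-(D : ℝ)))) := by
  obtain ⟨C, u₀, h⟩ := hR.tr D
  refine ⟨max C 0, u₀, le_max_right _ _, fun A B U0 U1 hu hU => ?_⟩
  have hU0 : (0 : ℝ) < U0 := by exact_mod_cast hU
  set bad : ℤ × ℕ → Set Conf := fun pq =>
    {x | ((pq.2 : ℕ) : ℝ) ^ (-ξ) < ‖cS x ((((pq.1 : ℤ) : ℝ) : ℂ) + (((pq.2 : ℕ) : ℝ) : ℂ) * Complex.I) - ((Real.pi * ρ : ℝ) : ℂ) * Complex.I‖}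
    with hbad
  have sub : {x | ¬ CtGrid (cS x) (ctW ρ) 1 ξ A B U0 U1} ⊆ ⋃ pq ∈ Finset.Icc A B ×ˢ Finset.Icc U0 U1, bad pq := by
    intro x hx
    simp only [mem_ofPred_eq, CtGrid] at hx
    push Not at hx
    obtain ⟨p, h1, h2, q, h3, h4, h5⟩ := hx
    simp only [mem_iUnion]
    refine ⟨(p, q), Finset.mem_product.2 ⟨Finset.mem_Icc.2 ⟨h1, h2⟩, Finset.mem_Icc.2 ⟨h3, h4⟩⟩, ?_⟩
    rw [one_mul] at h5
    exact h5
  refine (measure_mono sub).trans ((measure_biUnion_finset_le _ _).trans ?_)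
  have each : ∀ pq ∈ Finset.Icc A B ×ˢ Finset.Icc U0 U1, μ (bad pq) ≤ ENNReal.ofReal (max C 0 * (U0 : ℝ) ^ (-(D : ℝ))) := by
    intro pq hpq
    have hq := Finset.mem_Icc.1 (Finset.mem_product.1 hpq).2
    have hq1 : (U0 : ℝ) ≤ (pq.2 : ℝ) := by exact_mod_cast hq.1
    refine (h _ _ (hu.trans hq1)).trans (ENNReal.ofReal_le_ofReal ?_)
    have p1 : ((pq.2 : ℕ) : ℝ) ^ (-(D : ℝ)) ≤ (U0 : ℝ) ^ (-(D : ℝ)) :=
      Real.rpow_le_rpow_of_nonpos hU0 hq1 (by simp)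
    have p2 : 0 ≤ ((pq.2 : ℕ) : ℝ) ^ (-(D : ℝ)) := Real.rpow_nonneg (by positivity) _
    calc C * ((pq.2 : ℕ) : ℝ) ^ (-(D : ℝ)) ≤ max C 0 * ((pq.2 : ℕ) : ℝ) ^ (-(D : ℝ)) :=
          mul_le_mul_of_nonneg_right (le_max_left _ _) p2
      _ ≤ _ := mul_le_mul_of_nonneg_left p1 (le_max_right _ _)
  refine (Finset.sum_le_sum each).trans ?_
  rw [Finset.sum_const, nsmul_eq_mul, ENNReal.ofReal_mul (Nat.cast_nonneg _), ENNReal.ofReal_natCast]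

/-- gap-form rigidity in the window of labels `[-J, J]` for the increments `m ≥ m0` -/
def CtGapReg (ρ ξ Cg : ℝ) (J : ℕ) (m0 : ℝ) (x : ℤ → ℝ) : Prop :=
  ∀ (j0 : ℤ) (m : ℕ), -(J : ℤ) ≤ j0 → j0 + m ≤ J → m0 ≤ m → |x (j0 + m) - x j0 - m / ρ| ≤ Cg * (m : ℝ) ^ (1 - ξ)

/-- the constant of T4 (depends on `ρ`, `ξ` only) -/
def ctGapK (ρ ξ : ℝ) : ℝ := ctGapC (7 * 1 + 6 * (Real.pi * ρ)) ξ (Real.pi * ρ) / (Real.pi * ρ)

theorem ct_eqns_cite4 : True := by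
  have := @ctW.eq_1; have := @CtGapReg.eq_1; have := @ctGapK.eq_1
  trivial

/-- the deterministic step of T4: the grid event implies the gap form -/
theorem ct_gapreg_of_grid {ρ ξ : ℝ} (hρ : 0 < ρ) (hξ0 : 0 < ξ) (hξ1 : ξ < 1) {x : Conf} (hx : Monotone x)
    (hlim : ∀ z : ℂ, Tendsto (fun K : ℕ => cSK K x z) atTop (𝓝 (cS x z))) (lab : x (-1) ≤ 0 ∧ 0 ≤ x 0) {Bn U0 U1 L : ℕ} {m0 : ℝ}
    (hU : 1 ≤ U0) (hUB : U0 ≤ Bn) (hBU : Bn ≤ U1) (hLU : 2 * L ≤ U1) (g : CtGrid (cS x) (ctW ρ) 1 ξ (-(Bn : ℤ)) Bn U0 U1)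
    (hJ : Real.pi * L < Real.pi * ρ * Bn - ctErr (7 * 1 + 6 * (Real.pi * ρ)) ξ (Real.pi * ρ) Bn U0 Bn)
    (hm0 : 0 < m0) (hm1 : (U0 : ℝ) ≤ m0 ^ (1 - ξ)) (hm3 : (7 * 1 + 6 * (Real.pi * ρ)) * m0 ^ (-ξ) ≤ Real.pi * ρ / 2) :
    CtGapReg ρ ξ (ctGapK ρ ξ) L m0 x := by
  have hpi := Real.pi_pos
  have hp : 0 < Real.pi * ρ := mul_pos hpi hρ
  have sys := ct_sys_conf hlim
  have box := ct_box_of_grid sys (w := ctW ρ) (by rw [ct_W_im]; exact hp.le) zero_le_one hξ0.le hξ1.le hU g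
  rw [ct_W_im] at box
  have eA : (((-(Bn : ℤ)) : ℤ) : ℝ) = -(Bn : ℝ) := by push_cast; ring
  have eB : (((Bn : ℤ)) : ℝ) = (Bn : ℝ) := by push_cast; ring
  rw [eA, eB] at box
  have hC1 : 0 ≤ 7 * 1 + 6 * (Real.pi * ρ) := by positivity
  have hU0 : (0 : ℝ) < U0 := by exact_mod_cast hU
  have win := (ct_gap_win (w := ctW ρ) hx sys lab (by rw [ct_W_im]; exact hp) hC1 hξ0 hξ1 hU0 (by exact_mod_cast hUB)
    (by exact_mod_cast hBU) box (J := L) (ct_win_cover _ _) (by rw [ct_W_im]; exact hJ)).2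
  intro j0 m h1 h2 h3
  have hμ0 : (0 : ℝ) < m := lt_of_lt_of_le hm0 h3
  have a1 : (U0 : ℝ) ≤ (m : ℝ) ^ (1 - ξ) := hm1.trans (Real.rpow_le_rpow hm0.le h3 (by linarith))
  have a2 : (m : ℝ) ≤ U1 := by
    have : (m : ℤ) ≤ 2 * L := by omega
    have h4 : m ≤ 2 * L := by exact_mod_cast this
    exact_mod_cast h4.trans hLU
  have a3 : (7 * 1 + 6 * (Real.pi * ρ)) * (m : ℝ) ^ (-ξ) ≤ (ctW ρ).im / 2 := by
    rw [ct_W_im]
    refine le_trans (mul_le_mul_of_nonneg_left ?_ hC1) hm3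
    exact Real.rpow_le_rpow_of_nonpos hm0 h3 (by linarith)
  have key := win j0 m h1 h2 a1 a2 a3
  rw [ct_W_im] at key
  have e : x (j0 + m) - x j0 - m / ρ = (Real.pi * ρ * (x (j0 + m) - x j0) - Real.pi * m) / (Real.pi * ρ) := by
    field_simp
  rw [e, abs_div, abs_of_pos hp, div_le_iff₀ hp]
  unfold ctGapK
  calc _ ≤ _ := key
    _ = _ := by field_simp

theorem ct_floor_half {t : ℝ} (ht : 1 ≤ t) : t / 2 ≤ ((⌊t⌋₊ : ℕ) : ℝ) := by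
  have h1 : t < (⌊t⌋₊ : ℝ) + 1 := Nat.lt_floor_add_one t
  have h2 : (1 : ℝ) ≤ (⌊t⌋₊ : ℝ) := by
    have : 1 ≤ ⌊t⌋₊ := Nat.le_floor (by simpa using ht)
    exact_mod_cast this
  linarith

/-- **T4**: under `LReg ρ ξ μ` the gap form holds in the window `[-L, L]` for all increments `m ≥ L^ε`, off an event of probability `C L^{-D}` -/
theorem ct_lreg_gap {ρ ξ : ℝ} {μ : Measure Conf} (hρ : 0 < ρ) (hξ0 : 0 < ξ) (hξ1 : ξ < 1) (hR : LReg ρ ξ μ) {ε : ℝ} (hε : 0 < ε)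
    (hε1 : ε ≤ 1) (D : ℕ) :
    ∃ Cp : ℝ, ∀ᶠ L : ℕ in atTop,
      μ {x | ¬ CtGapReg ρ ξ (ctGapK ρ ξ) L ((L : ℝ) ^ ε) x} ≤ ENNReal.ofReal (Cp * (L : ℝ) ^ (-(D : ℝ))) := by
  have hpi := Real.pi_pos
  have hp : 0 < Real.pi * ρ := mul_pos hpi hρ
  have hx1 : 0 < 1 - ξ := by linarith
  set a : ℝ := ε * (1 - ξ) with ha
  have ha0 : 0 < a := mul_pos hε hx1
  have ha1 : a ≤ 1 - ξ := by rw [ha]; nlinarith
  set D' : ℕ := ⌈((D : ℝ) + 2) / a⌉₊ with hD'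
  have hD'a : (D : ℝ) + 2 ≤ a * D' := by
    have := Nat.le_ceil (((D : ℝ) + 2) / a)
    rw [div_le_iff₀ ha0] at this
    linarith
  obtain ⟨Cp0, u₀, hCp0, hgrid⟩ := ct_lreg_grid hR D'
  set k0 : ℕ := ⌈2 / ρ⌉₊ with hk0
  have hk0ρ : 2 ≤ ρ * k0 := by
    have := Nat.le_ceil (2 / ρ)
    rw [div_le_iff₀ hρ] at this
    linarith
  have hk1 : (1 : ℝ) ≤ k0 := by
    have : 0 < k0 := Nat.ceil_pos.2 (by positivity)
    exact_mod_cast this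
  set C1 : ℝ := 7 * 1 + 6 * (Real.pi * ρ) with hC1
  have hC10 : 0 < C1 := by positivity
  set c : ℝ := 2 / (1 - ξ) + 2 * Real.pi with hc
  have hc0 : 0 < c := by positivity
  set c3 : ℝ := C1 * (k0 : ℝ) ^ (1 - ξ) + c * C1 * (k0 : ℝ) ^ (1 - ξ) + 2 * Real.pi * (Real.pi * ρ) with hc3
  refine ⟨3 * k0 * (k0 + 3) * Cp0 / (2 : ℝ) ^ (-(D' : ℝ)), ?_⟩
  -- the conditions on `L`
  have tL : Tendsto (fun L : ℕ => (L : ℝ)) atTop atTop := tendsto_natCast_atTop_atTop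
  have E2 : ∀ᶠ L : ℕ in atTop, u₀ ≤ ((⌊(L : ℝ) ^ a⌋₊ : ℕ) : ℝ) :=
    (tendsto_natCast_atTop_atTop.comp (tendsto_nat_floor_atTop.comp ((tendsto_rpow_atTop ha0).comp tL))).eventually_ge_atTop u₀
  have E3 : ∀ᶠ L : ℕ in atTop, c3 / Real.pi < (L : ℝ) ^ ξ := ((tendsto_rpow_atTop hξ0).comp tL).eventually_gt_atTop _
  have E4 : ∀ᶠ L : ℕ in atTop, (L : ℝ) ^ (-(ε * ξ)) ≤ Real.pi * ρ / 2 / C1 :=
    (((tendsto_rpow_neg_atTop (mul_pos hε hξ0)).comp tL).eventually_lt_const (by positivity)).mono fun _ h => h.le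
  filter_upwards [eventually_ge_atTop 1, E2, E3, E4] with L hL1 e2 e3 e4
  have hℓ1 : (1 : ℝ) ≤ L := by exact_mod_cast hL1
  have hℓ0 : (0 : ℝ) < L := by linarith
  set ℓ : ℝ := (L : ℝ) with hℓ
  set U0 : ℕ := ⌊ℓ ^ a⌋₊ with hU0
  have pa1 : 1 ≤ ℓ ^ a := Real.one_le_rpow hℓ1 ha0.le
  have hU0le : (U0 : ℝ) ≤ ℓ ^ a := Nat.floor_le (by positivity)
  have hU0ge : ℓ ^ a / 2 ≤ (U0 : ℝ) := ct_floor_half pa1
  have hU01 : 1 ≤ U0 := Nat.le_floor (by simpa using pa1)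
  have pa2 : ℓ ^ a ≤ ℓ ^ (1 - ξ) := Real.rpow_le_rpow_of_exponent_le hℓ1 ha1
  have pa3 : ℓ ^ (1 - ξ) ≤ ℓ := by
    calc ℓ ^ (1 - ξ) ≤ ℓ ^ (1 : ℝ) := Real.rpow_le_rpow_of_exponent_le hℓ1 (by linarith)
      _ = ℓ := Real.rpow_one _
  have pa4 : 0 < ℓ ^ (1 - ξ) := Real.rpow_pos_of_pos hℓ0 _
  -- the deterministic implication, almost everywhere
  have hae : ∀ᵐ x ∂μ, CtGrid (cS x) (ctW ρ) 1 ξ (-((k0 * L : ℕ) : ℤ)) ((k0 * L : ℕ) : ℤ) U0 (k0 * L + 2 * L) →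
      CtGapReg ρ ξ (ctGapK ρ ξ) L (ℓ ^ ε) x := by
    obtain ⟨χ, _, hpos⟩ := hR.pos
    filter_upwards [k9_lreg_tendsto hρ hR, hpos, hR.lab] with x hlim hreg lab g
    obtain ⟨C₀, J₀, hreg⟩ := hreg
    have hB : ((k0 * L : ℕ) : ℝ) = k0 * ℓ := by push_cast; ring
    have hBpos : 0 < (k0 : ℝ) * ℓ := by positivity
    refine ct_gapreg_of_grid hρ hξ0 hξ1 hreg.1 hlim lab hU01 ?_ (Nat.le_add_right _ _) (Nat.le_add_left _ _) g ?_
      (Real.rpow_pos_of_pos hℓ0 _) ?_ ?_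
    · have : (U0 : ℝ) ≤ ((k0 * L : ℕ) : ℝ) := by
        rw [hB]
        calc (U0 : ℝ) ≤ ℓ := hU0le.trans (pa2.trans pa3)
          _ ≤ k0 * ℓ := by nlinarith
      exact_mod_cast this
    · rw [hB, ← hC1]
      unfold ctErr
      rw [← hc]
      have b1 : ((k0 : ℝ) * ℓ) ^ (-ξ) * (k0 * ℓ) = (k0 : ℝ) ^ (1 - ξ) * ℓ ^ (1 - ξ) := by
        rw [← Real.mul_rpow (by positivity) hℓ0.le, sub_eq_neg_add, Real.rpow_add hBpos, Real.rpow_one]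
      have b2 : ((k0 : ℝ) * ℓ) ^ (1 - ξ) = (k0 : ℝ) ^ (1 - ξ) * ℓ ^ (1 - ξ) := Real.mul_rpow (by positivity) hℓ0.le
      have b3 : C1 * ((k0 : ℝ) * ℓ) ^ (-ξ) * (k0 * ℓ) = C1 * (k0 : ℝ) ^ (1 - ξ) * ℓ ^ (1 - ξ) := by
        rw [mul_assoc, b1]; ring
      rw [b3, b2]
      have b4 : 2 * Real.pi * (U0 : ℝ) * (Real.pi * ρ) ≤ 2 * Real.pi * (Real.pi * ρ) * ℓ ^ (1 - ξ) := by
        have := mul_le_mul_of_nonneg_left (hU0le.trans pa2) (by positivity : 0 ≤ 2 * Real.pi * (Real.pi * ρ))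
        linarith
      have b5 : c3 * ℓ ^ (1 - ξ) < Real.pi * ℓ := by
        have h1 : c3 < Real.pi * ℓ ^ ξ := by
          rw [div_lt_iff₀ hpi] at e3; linarith
        have h2 : ℓ ^ ξ * ℓ ^ (1 - ξ) = ℓ := by
          rw [← Real.rpow_add hℓ0]
          have : ξ + (1 - ξ) = 1 := by ring
          rw [this, Real.rpow_one]
        calc c3 * ℓ ^ (1 - ξ) < Real.pi * ℓ ^ ξ * ℓ ^ (1 - ξ) := mul_lt_mul_of_pos_right h1 pa4
          _ = Real.pi * ℓ := by rw [mul_assoc, h2]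
      have b6 : 2 * (Real.pi * ℓ) ≤ Real.pi * ρ * (k0 * ℓ) := by
        have := mul_le_mul_of_nonneg_left hk0ρ (by positivity : 0 ≤ Real.pi * ℓ)
        linarith
      have b7 : c3 * ℓ ^ (1 - ξ) = C1 * (k0 : ℝ) ^ (1 - ξ) * ℓ ^ (1 - ξ) + c * C1 * ((k0 : ℝ) ^ (1 - ξ) * ℓ ^ (1 - ξ))
          + 2 * Real.pi * (Real.pi * ρ) * ℓ ^ (1 - ξ) := by rw [hc3]; ring
      linarith
    · rw [← Real.rpow_mul hℓ0.le, ← ha]; exact hU0le
    · rw [← hC1, ← Real.rpow_mul hℓ0.le]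
      have e : ε * -ξ = -(ε * ξ) := by ring
      rw [e]
      calc C1 * ℓ ^ (-(ε * ξ)) ≤ C1 * (Real.pi * ρ / 2 / C1) := mul_le_mul_of_nonneg_left e4 hC10.le
        _ = Real.pi * ρ / 2 := by field_simp
  have hsub : {x | ¬ CtGapReg ρ ξ (ctGapK ρ ξ) L (ℓ ^ ε) x} ≤ᵐ[μ]
      {x | ¬ CtGrid (cS x) (ctW ρ) 1 ξ (-((k0 * L : ℕ) : ℤ)) ((k0 * L : ℕ) : ℤ) U0 (k0 * L + 2 * L)} := by
    filter_upwards [hae] with x hx h1 h2
    exact h1 (hx h2)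
  refine (measure_mono_ae hsub).trans ((hgrid _ _ U0 _ e2 hU01).trans (ENNReal.ofReal_le_ofReal ?_))
  -- arithmetic
  have card1 : ((Finset.Icc (-((k0 * L : ℕ) : ℤ)) ((k0 * L : ℕ) : ℤ) ×ˢ Finset.Icc U0 (k0 * L + 2 * L)).card : ℝ)
      ≤ (3 * k0 * ℓ) * ((k0 + 3) * ℓ) := by
    rw [Finset.card_product, Int.card_Icc, Nat.card_Icc, Nat.cast_mul]
    apply mul_le_mul _ _ (Nat.cast_nonneg _) (by positivity)
    · have : (((k0 * L : ℕ) : ℤ) + 1 - -((k0 * L : ℕ) : ℤ)).toNat = 2 * (k0 * L) + 1 := by omega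
      rw [this]
      push_cast
      nlinarith
    · have : k0 * L + 2 * L + 1 - U0 ≤ k0 * L + 2 * L + 1 := Nat.sub_le _ _
      calc ((k0 * L + 2 * L + 1 - U0 : ℕ) : ℝ) ≤ ((k0 * L + 2 * L + 1 : ℕ) : ℝ) := by exact_mod_cast this
        _ = k0 * ℓ + 2 * ℓ + 1 := by push_cast; ring
        _ ≤ (k0 + 3) * ℓ := by nlinarith
  have pw1 : (U0 : ℝ) ^ (-(D' : ℝ)) ≤ ℓ ^ (-((D : ℝ) + 2)) / (2 : ℝ) ^ (-(D' : ℝ)) := by
    calc (U0 : ℝ) ^ (-(D' : ℝ)) ≤ (ℓ ^ a / 2) ^ (-(D' : ℝ)) :=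
          Real.rpow_le_rpow_of_nonpos (by positivity) hU0ge (by simp)
      _ = (ℓ ^ a) ^ (-(D' : ℝ)) / (2 : ℝ) ^ (-(D' : ℝ)) := Real.div_rpow (by positivity) (by norm_num) _
      _ ≤ _ := by
          apply div_le_div_of_nonneg_right _ (by positivity)
          rw [← Real.rpow_mul hℓ0.le]
          exact Real.rpow_le_rpow_of_exponent_le hℓ1 (by nlinarith)
  have pw2 : ℓ ^ 2 * ℓ ^ (-((D : ℝ) + 2)) = ℓ ^ (-(D : ℝ)) := by
    rw [← Real.rpow_natCast ℓ 2, ← Real.rpow_add hℓ0]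
    congr 1; push_cast; ring
  have pw0 : 0 ≤ (U0 : ℝ) ^ (-(D' : ℝ)) := by positivity
  have p2 : 0 < (2 : ℝ) ^ (-(D' : ℝ)) := by positivity
  calc ((Finset.Icc (-((k0 * L : ℕ) : ℤ)) ((k0 * L : ℕ) : ℤ) ×ˢ Finset.Icc U0 (k0 * L + 2 * L)).card : ℝ) * (Cp0 * (U0 : ℝ) ^ (-(D' : ℝ)))
      ≤ ((3 * k0 * ℓ) * ((k0 + 3) * ℓ)) * (Cp0 * (ℓ ^ (-((D : ℝ) + 2)) / (2 : ℝ) ^ (-(D' : ℝ)))) :=
        mul_le_mul card1 (mul_le_mul_of_nonneg_left pw1 hCp0) (by positivity) (by positivity)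
    _ = 3 * k0 * (k0 + 3) * Cp0 / (2 : ℝ) ^ (-(D' : ℝ)) * (ℓ ^ 2 * ℓ ^ (-((D : ℝ) + 2))) := by field_simp
    _ = _ := by rw [pw2]

/-- **T5 (for U3, hypothesis (P))**: under `LReg ρ ξ μ` almost every configuration is `CReg` with the exponent `χ = ξ` of the TRACE bound
(Borel-Cantelli on T4 with `ε = 1`, `D = 2`; labels `0 → L` and `-L → 0`). -/
theorem ct_lreg_creg {ρ ξ : ℝ} {μ : Measure Conf} (hρ : 0 < ρ) (hξ0 : 0 < ξ) (hξ1 : ξ < 1) (hR : LReg ρ ξ μ) :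
    ∀ᵐ x ∂μ, ∃ (C₀ : ℝ) (J₀ : ℕ), CReg ρ ξ C₀ J₀ x := by
  obtain ⟨Cp, hCp⟩ := ct_lreg_gap hρ hξ0 hξ1 hR one_pos le_rfl 2
  obtain ⟨N0, hN0⟩ := eventually_atTop.1 hCp
  set bad : ℕ → Set Conf := fun n => {x | ¬ CtGapReg ρ ξ (ctGapK ρ ξ) (n + N0) (((n + N0 : ℕ) : ℝ) ^ (1 : ℝ)) x} with hbad
  have hsum : Summable fun n : ℕ => |Cp| * ((n + N0 : ℕ) : ℝ) ^ (-((2 : ℕ) : ℝ)) :=
    ((summable_nat_add_iff N0).2 (Real.summable_nat_rpow.2 (by norm_num : -((2 : ℕ) : ℝ) < -1))).mul_left _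
  have hfin : (∑' n, μ (bad n)) ≠ ⊤ := by
    have h1 : (∑' n, μ (bad n)) ≤ ∑' n : ℕ, ENNReal.ofReal (|Cp| * ((n + N0 : ℕ) : ℝ) ^ (-((2 : ℕ) : ℝ))) := by
      refine ENNReal.tsum_le_tsum fun n => (hN0 (n + N0) (Nat.le_add_left _ _)).trans (ENNReal.ofReal_le_ofReal ?_)
      exact mul_le_mul_of_nonneg_right (le_abs_self _) (by positivity)
    rw [← ENNReal.ofReal_tsum_of_nonneg (fun n => by positivity) hsum] at h1
    exact ne_top_of_le_ne_top ENNReal.ofReal_ne_top h1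
  obtain ⟨χ, _, hpos⟩ := hR.pos
  filter_upwards [ae_eventually_notMem hfin, hpos] with x hx hreg
  obtain ⟨C₀', J₀', hreg⟩ := hreg
  obtain ⟨N1, hN1⟩ := eventually_atTop.1 hx
  have good : ∀ L : ℕ, N1 + N0 ≤ L → CtGapReg ρ ξ (ctGapK ρ ξ) L ((L : ℝ) ^ (1 : ℝ)) x := by
    intro L hL
    have h1 := hN1 (L - N0) (by omega)
    simp only [hbad, mem_ofPred_eq, not_not] at h1
    have e : L - N0 + N0 = L := by omega
    rwa [e] at h1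
  refine ⟨|ctGapK ρ ξ| + |x 0|, N1 + N0 + 1, hreg.1, fun j hj => ?_⟩
  set L : ℕ := j.natAbs with hL
  have hLabs : (L : ℤ) = |j| := by rw [hL]; exact Int.natCast_natAbs j
  have hL1 : N1 + N0 + 1 ≤ L := by
    have : ((N1 + N0 + 1 : ℕ) : ℤ) ≤ (L : ℤ) := by rw [hLabs]; exact hj
    exact_mod_cast this
  have g := good L (by omega)
  have hℓ1 : (1 : ℝ) ≤ L := by
    have : 1 ≤ L := by omega
    exact_mod_cast this
  have habs : |(j : ℝ)| = (L : ℝ) := by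
    have : ((|j| : ℤ) : ℝ) = |(j : ℝ)| := by push_cast; rfl
    rw [← this, ← hLabs]; simp
  have pw : 1 ≤ (L : ℝ) ^ (1 - ξ) := Real.one_le_rpow hℓ1 (by linarith)
  rw [habs]
  have fin : ∀ t : ℝ, |t| ≤ ctGapK ρ ξ * (L : ℝ) ^ (1 - ξ) → |t| + |x 0| ≤ (|ctGapK ρ ξ| + |x 0|) * (L : ℝ) ^ (1 - ξ) := by
    intro t ht
    have h1 : ctGapK ρ ξ * (L : ℝ) ^ (1 - ξ) ≤ |ctGapK ρ ξ| * (L : ℝ) ^ (1 - ξ) :=
      mul_le_mul_of_nonneg_right (le_abs_self _) (by linarith)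
    have h2 : |x 0| ≤ |x 0| * (L : ℝ) ^ (1 - ξ) := le_mul_of_one_le_right (abs_nonneg _) pw
    linarith
  rcases le_total 0 j with h0 | h0
  · have ej : j = (L : ℤ) := by rw [hLabs, abs_of_nonneg h0]
    have h1 := g 0 L (by omega) (by omega) (by rw [Real.rpow_one])
    rw [zero_add, ← ej] at h1
    have ejr : (j : ℝ) = (L : ℝ) := by rw [ej]; simp
    refine le_trans ?_ (fin _ h1)
    have e : x j - (j : ℝ) / ρ = (x j - x 0 - (L : ℝ) / ρ) + x 0 := by rw [ejr]; ring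
    rw [e]
    exact abs_add_le _ _
  · have ej : j = -(L : ℤ) := by rw [hLabs, abs_of_nonpos h0]; ring
    have h1 := g (-(L : ℤ)) L le_rfl (by omega) (by rw [Real.rpow_one])
    rw [neg_add_cancel, ← ej] at h1
    have ejr : (j : ℝ) = -(L : ℝ) := by rw [ej]; simp
    refine le_trans ?_ (fin _ h1)
    have e : x j - (j : ℝ) / ρ = -(x 0 - x j - (L : ℝ) / ρ) + x 0 := by rw [ejr]; ring
    rw [e]
    refine (abs_add_le _ _).trans ?_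
    rw [abs_neg]

end

end Claimed.Agent.R287
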