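-- KEEP
import Claimed.Agent.R287.Eig
import Claimed.Agent.R287.Defs

/-!
# Row 287 (S0534), kit HF (Hellmann-Feynman) + SIMPLE (almost surely simple spectrum)      owner helper251      prefixes `eig_`, `nul_`, `frz_`      0 sorry
defs `eigIx eigV EigSimple eigDisc eigS eigSb nulMix nulCore`.      Real symmetric matrices as in `R287/Eig.lean`.

* `eigV A k` = a normalised eigenvector of the `k`-th largest eigenvalue: `eig_V_mul`, `eig_V_orth`, `eig_V_norm`, `eig_V_row`, `eig_V_col`.
* KATO-TEMPLE `eig_kato`;   second order bound `eig_hf_bound : |λ_k(A + sP) - λ_k(A) - s ⟨ψ,Pψ⟩| ≤ 4 ‖P‖²_HS s² / g` (gap `g`, `|s| ‖P‖_HS ≤ g/4`, ANY unit eigenvector `ψ`).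
* HELLMANN-FEYNMAN, pointwise: `eig_hf_zero`, `eig_hf_at`, `eig_hf_simple` (`HasDerivAt`).
* `EigSimple A`;   `eigDisc A = det (Tr A^(i+j)) = ∏ (λ_i - λ_j)²` (`eig_disc_eq`, `eig_disc_ne_zero`), polynomial along a line (`eig_disc_poly`) ⟹ `eig_simple_cofinite`.
* INTEGRATED: `eig_hf_int : ∫ s in a..b, ⟨ψ_k^s, P ψ_k^s⟩ = λ_k(A + bP) - λ_k(A + aP)` as soon as ONE point of the line has simple spectrum.
* canonical overlaps `eigS A k j := d/ds λ_k(A + s e_j e_jᵀ)|₀` (no choice of eigenvectors): `eig_S_of_gap`, `eig_S_eq` (`= ψ_k(j)²`), `eig_S_nonneg`, `eig_S_le_one`, BOREL: `eig_S_meas`.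
* `eigSb A P k j = ∫_0^1 eigS (A + aP) k j da`: `eig_Sb_nonneg`, `eig_Sb_row`, `eig_Sb_col` (doubly stochastic), `eig_Sb_meas`,   `eig_hf_diag : λ_k(A + diag δ) - λ_k(A) = ∑_j S̄_kj δ_j`.
* NULL BY LINES `nul_by_lines` (closed set whose coordinate sections are null or everything; any finite product of σ-finite measures on second countable spaces, so it iterates on nested products), `nul_of_sections`.
* ALMOST SURELY SIMPLE: `eig_simple_ae_pi`, `eig_simple_ae_pi2` (continuous, affine in each coordinate, simple at one point; atomless factors), `eig_simple_diag`;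
  instances `eig_goe_simple_ae` (`X + c • goeOf N` under `gArr`), `eig_cutM_simple_ae`, `frz_goe_simple_ae` (frozen `goeArray n`);   SAME NOISE COUPLING `eig_hf_goe`.
-/

set_option autoImplicit false

namespace Claimed.Agent.R287

open Matrix Finset

section vec

variable {ι : Type} [Fintype ι] [DecidableEq ι]

/-- Mathlib's index of the `k`-th largest eigenvalue -/
noncomputable def eigIx (ι : Type) [Fintype ι] (k : Fin (Fintype.card ι)) : ι :=
  Fintype.equivOfCardEq (Fintype.card_fin (Fintype.card ι)) k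

theorem eig_ix_val {A : Matrix ι ι ℝ} (hA : A.IsHermitian) (k : Fin (Fintype.card ι)) :
    hA.eigenvalues (eigIx ι k) = eigD A k := by
  rw [eig_D_eq hA k.2]
  simp [Matrix.IsHermitian.eigenvalues, eigIx]

theorem eig_ix_surj (i : ι) : ∃ k : Fin (Fintype.card ι), eigIx ι k = i :=
  (Fintype.equivOfCardEq (Fintype.card_fin (Fintype.card ι))).surjective i

theorem eig_ix_inj : Function.Injective (eigIx ι) :=
  (Fintype.equivOfCardEq (Fintype.card_fin (Fintype.card ι))).injective

/-- sums over `ι` as sums over the sorted positions -/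
theorem eig_ix_sum (f : ι → ℝ) : ∑ i, f i = ∑ k : Fin (Fintype.card ι), f (eigIx ι k) :=
  (Equiv.sum_comp (Fintype.equivOfCardEq (Fintype.card_fin (Fintype.card ι))) f).symm

/-- a normalised eigenvector of the `k`-th largest eigenvalue (`0` for junk arguments) -/
noncomputable def eigV (A : Matrix ι ι ℝ) (k : ℕ) : ι → ℝ :=
  if h : A.IsHermitian ∧ k < Fintype.card ι then ⇑(h.1.eigenvectorBasis (eigIx ι ⟨k, h.2⟩)) else 0

theorem eig_V_eq {A : Matrix ι ι ℝ} (hA : A.IsHermitian) {k : ℕ} (hk : k < Fintype.card ι) (j : ι) :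
    eigV A k j = (hA.eigenvectorUnitary : Matrix ι ι ℝ) j (eigIx ι ⟨k, hk⟩) := by
  unfold eigV
  rw [dif_pos ⟨hA, hk⟩]
  rfl

theorem eig_V_mul {A : Matrix ι ι ℝ} (hA : A.IsHermitian) {k : ℕ} (hk : k < Fintype.card ι) :
    A *ᵥ eigV A k = eigD A k • eigV A k := by
  unfold eigV
  rw [dif_pos ⟨hA, hk⟩, hA.mulVec_eigenvectorBasis, eig_ix_val hA ⟨k, hk⟩]

theorem eig_V_orth {A : Matrix ι ι ℝ} (hA : A.IsHermitian) {j k : ℕ} (hj : j < Fintype.card ι) (hk : k < Fintype.card ι) :
    eigV A j ⬝ᵥ eigV A k = if j = k then 1 else 0 := by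
  have h := congrFun (congrFun (eig_Ut_mul hA) (eigIx ι ⟨j, hj⟩)) (eigIx ι ⟨k, hk⟩)
  simp only [Matrix.mul_apply, Matrix.transpose_apply] at h
  simp only [dotProduct, eig_V_eq hA hj, eig_V_eq hA hk]
  rw [h, Matrix.one_apply]
  have : (eigIx ι ⟨j, hj⟩ = eigIx ι ⟨k, hk⟩) ↔ j = k := by
    rw [eig_ix_inj.eq_iff, Fin.mk.injEq]
  simp only [this]

theorem eig_V_norm {A : Matrix ι ι ℝ} (hA : A.IsHermitian) {k : ℕ} (hk : k < Fintype.card ι) : eigV A k ⬝ᵥ eigV A k = 1 := by
  rw [eig_V_orth hA hk hk, if_pos rfl]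

theorem eig_V_row {A : Matrix ι ι ℝ} (hA : A.IsHermitian) {k : ℕ} (hk : k < Fintype.card ι) : ∑ j, eigV A k j ^ 2 = 1 := by
  have := eig_V_norm hA hk
  simpa [dotProduct, pow_two] using this

theorem eig_V_col {A : Matrix ι ι ℝ} (hA : A.IsHermitian) (j : ι) : ∑ k ∈ range (Fintype.card ι), eigV A k j ^ 2 = 1 := by
  have h := congrFun (congrFun (eig_U_mul hA) j) j
  simp only [Matrix.mul_apply, Matrix.transpose_apply, Matrix.one_apply_eq] at h
  rw [eig_ix_sum] at h
  rw [← Fin.sum_univ_eq_sum_range (fun k => eigV A k j ^ 2), ← h]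
  exact Finset.sum_congr rfl fun k _ => by rw [eig_V_eq hA k.2, pow_two]

theorem eig_co_mul {A : Matrix ι ι ℝ} (hA : A.IsHermitian) (x : ι → ℝ) (i : ι) :
    eigCo hA (A *ᵥ x) i = hA.eigenvalues i * eigCo hA x i := by
  have h : eigCo hA (A *ᵥ x) = diagonal hA.eigenvalues *ᵥ eigCo hA x := by
    have e : (hA.eigenvectorUnitary : Matrix ι ι ℝ)ᵀ * A = diagonal hA.eigenvalues * (hA.eigenvectorUnitary : Matrix ι ι ℝ)ᵀ := by
      calc (hA.eigenvectorUnitary : Matrix ι ι ℝ)ᵀ * A
          = (hA.eigenvectorUnitary : Matrix ι ι ℝ)ᵀ * ((hA.eigenvectorUnitary : Matrix ι ι ℝ) * diagonal hA.eigenvalues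
              * (hA.eigenvectorUnitary : Matrix ι ι ℝ)ᵀ) := congrArg (fun B => (hA.eigenvectorUnitary : Matrix ι ι ℝ)ᵀ * B) (eig_spec hA)
        _ = _ := by rw [Matrix.mul_assoc, ← Matrix.mul_assoc, eig_Ut_mul, Matrix.one_mul]
    unfold eigCo
    rw [Matrix.mulVec_mulVec, e, Matrix.mulVec_mulVec]
  rw [h, Matrix.mulVec_diagonal]

/-- **KATO-TEMPLE**: `μ` the Rayleigh quotient of the unit vector `ψ`, `r` its residual, all other eigenvalues at distance `≥ g` of `μ` -/
theorem eig_kato {M : Matrix ι ι ℝ} (hM : M.IsHermitian) {k : ℕ} (hk : k < Fintype.card ι) {ψ : ι → ℝ} (hψ : ψ ⬝ᵥ ψ = 1)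
    {μ R g : ℝ} (hμ : ψ ⬝ᵥ M *ᵥ ψ = μ) (hr : (M *ᵥ ψ - μ • ψ) ⬝ᵥ (M *ᵥ ψ - μ • ψ) ≤ R) (hg : 0 < g)
    (hgap : ∀ k', k' < Fintype.card ι → k' ≠ k → g ≤ |eigD M k' - μ|) (hRg : 2 * R ≤ g ^ 2) : |eigD M k - μ| ≤ 2 * R / g := by
  classical
  set c := eigCo hM ψ with hc
  set l := hM.eigenvalues with hl
  set i0 := eigIx ι ⟨k, hk⟩ with hi0
  have hl0 : l i0 = eigD M k := eig_ix_val hM ⟨k, hk⟩
  have hgap' : ∀ i, i ≠ i0 → g ≤ |l i - μ| := fun i hi => by
    obtain ⟨k', rfl⟩ := eig_ix_surj i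
    rw [hl, eig_ix_val hM k']
    refine hgap k' k'.2 fun h => hi ?_
    rw [hi0]; congr 1; exact Fin.ext h
  have h1 : ∑ i, c i ^ 2 = 1 := by rw [← eig_norm hM, hψ]
  have h2 : ∑ i, l i * c i ^ 2 = μ := by rw [← eig_quad hM, hμ]
  have h3 : ∑ i, (l i - μ) ^ 2 * c i ^ 2 ≤ R := by
    refine le_trans (le_of_eq ?_) hr
    rw [eig_norm hM]
    refine Finset.sum_congr rfl fun i _ => ?_
    have : eigCo hM (M *ᵥ ψ - μ • ψ) i = (l i - μ) * c i := by
      rw [sub_eq_add_neg, eig_co_add, ← neg_smul, eig_co_smul, Pi.add_apply, eig_co_mul, Pi.smul_apply, smul_eq_mul]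
      ring
    rw [this, mul_pow]
  have h4 : ∑ i, (l i - μ) * c i ^ 2 = 0 := by
    simp only [sub_mul, Finset.sum_sub_distrib, ← Finset.mul_sum, h1, h2]
    ring
  -- split off `i0`
  have s1 := Finset.add_sum_erase univ (fun i => c i ^ 2) (mem_univ i0)
  have s3 := Finset.add_sum_erase univ (fun i => (l i - μ) ^ 2 * c i ^ 2) (mem_univ i0)
  have s4 := Finset.add_sum_erase univ (fun i => (l i - μ) * c i ^ 2) (mem_univ i0)
  have hE : ∑ i ∈ univ.erase i0, (l i - μ) ^ 2 * c i ^ 2 ≤ R := by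
    have : 0 ≤ (l i0 - μ) ^ 2 * c i0 ^ 2 := by positivity
    linarith
  have hT : g ^ 2 * ∑ i ∈ univ.erase i0, c i ^ 2 ≤ R := by
    rw [Finset.mul_sum]
    refine le_trans (Finset.sum_le_sum fun i hi => ?_) hE
    have := hgap' i (Finset.ne_of_mem_erase hi)
    have h5 : g ^ 2 ≤ (l i - μ) ^ 2 := by
      rw [← sq_abs (l i - μ)]
      exact pow_le_pow_left₀ hg.le this 2
    exact mul_le_mul_of_nonneg_right h5 (sq_nonneg _)
  have hc0 : 1 / 2 ≤ c i0 ^ 2 := by
    have h6 : g ^ 2 * ∑ i ∈ univ.erase i0, c i ^ 2 ≤ g ^ 2 * (1 / 2) := by linarith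
    have h7 := le_of_mul_le_mul_left h6 (by positivity : 0 < g ^ 2)
    linarith
  have hL : g * ∑ i ∈ univ.erase i0, |l i - μ| * c i ^ 2 ≤ R := by
    rw [Finset.mul_sum]
    refine le_trans (Finset.sum_le_sum fun i hi => ?_) hE
    have := hgap' i (Finset.ne_of_mem_erase hi)
    have h5 : g * |l i - μ| ≤ (l i - μ) ^ 2 := by
      rw [← sq_abs (l i - μ), pow_two]
      exact mul_le_mul_of_nonneg_right this (abs_nonneg _)
    calc g * (|l i - μ| * c i ^ 2) = g * |l i - μ| * c i ^ 2 := by ring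
      _ ≤ _ := mul_le_mul_of_nonneg_right h5 (sq_nonneg _)
  have hA : |l i0 - μ| * c i0 ^ 2 ≤ ∑ i ∈ univ.erase i0, |l i - μ| * c i ^ 2 := by
    have h8 : (l i0 - μ) * c i0 ^ 2 = -∑ i ∈ univ.erase i0, (l i - μ) * c i ^ 2 := by linarith
    calc |l i0 - μ| * c i0 ^ 2 = |(l i0 - μ) * c i0 ^ 2| := by rw [abs_mul, abs_of_nonneg (sq_nonneg (c i0))]
      _ = |∑ i ∈ univ.erase i0, (l i - μ) * c i ^ 2| := by rw [h8, abs_neg]
      _ ≤ ∑ i ∈ univ.erase i0, |(l i - μ) * c i ^ 2| := Finset.abs_sum_le_sum_abs _ _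
      _ = _ := Finset.sum_congr rfl fun i _ => by rw [abs_mul, abs_of_nonneg (sq_nonneg (c i))]
  rw [← hl0, le_div_iff₀ hg]
  have h9 : |l i0 - μ| * (1 / 2) ≤ |l i0 - μ| * c i0 ^ 2 := mul_le_mul_of_nonneg_left hc0 (abs_nonneg _)
  have h10 : g * (|l i0 - μ| * c i0 ^ 2) ≤ R := le_trans (mul_le_mul_of_nonneg_left hA hg.le) hL
  nlinarith

theorem eig_herm_path {A P : Matrix ι ι ℝ} (hA : A.IsHermitian) (hP : P.IsHermitian) (s : ℝ) : (A + s • P).IsHermitian := by
  unfold Matrix.IsHermitian at *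
  rw [Matrix.conjTranspose_add, Matrix.conjTranspose_smul, hA, hP, star_trivial]

theorem eig_hs_smul (s : ℝ) (P : Matrix ι ι ℝ) : eigHS (s • P) = s ^ 2 * eigHS P := by
  unfold eigHS
  simp only [Matrix.smul_apply, smul_eq_mul, mul_pow, Finset.mul_sum]

theorem eig_hs_neg (P : Matrix ι ι ℝ) : eigHS (-P) = eigHS P := by
  unfold eigHS
  simp

theorem eig_mulVec_sq_le (P : Matrix ι ι ℝ) (x : ι → ℝ) : (P *ᵥ x) ⬝ᵥ (P *ᵥ x) ≤ eigHS P * (x ⬝ᵥ x) := by
  unfold eigHS
  rw [Finset.sum_mul]
  simp only [dotProduct]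
  refine Finset.sum_le_sum fun i _ => ?_
  have := Finset.sum_mul_sq_le_sq_mul_sq univ (fun j => P i j) x
  simp only [Matrix.mulVec, dotProduct]
  calc _ = (∑ j, P i j * x j) ^ 2 := by ring
    _ ≤ _ := this
    _ = _ := by congr 1; exact Finset.sum_congr rfl fun j _ => by ring

/-- **second order bound at an isolated eigenvalue** -/
theorem eig_hf_bound {A P : Matrix ι ι ℝ} (hA : A.IsHermitian) (hP : P.IsHermitian) {k : ℕ} (hk : k < Fintype.card ι) {g : ℝ}
    (hg : 0 < g) (hgap : ∀ k', k' < Fintype.card ι → k' ≠ k → g ≤ |eigD A k' - eigD A k|) {ψ : ι → ℝ} (hψ1 : ψ ⬝ᵥ ψ = 1)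
    (hψ : A *ᵥ ψ = eigD A k • ψ) {s : ℝ} (hs : |s| * Real.sqrt (eigHS P) ≤ g / 4) :
    |eigD (A + s • P) k - eigD A k - s * (ψ ⬝ᵥ P *ᵥ ψ)| ≤ 4 * eigHS P / g * s ^ 2 := by
  set p2 := eigHS P with hp2
  set p := Real.sqrt p2 with hp
  have hp20 : 0 ≤ p2 := eig_hs_nonneg P
  have hpp : p ^ 2 = p2 := Real.sq_sqrt hp20
  set d := ψ ⬝ᵥ P *ᵥ ψ with hd
  have hM := eig_herm_path hA hP s
  have hdp : |d| ≤ p := by
    have := eig_quad_le_hs P ψ
    rwa [hψ1, mul_one] at this
  have hMψ : (A + s • P) *ᵥ ψ = eigD A k • ψ + s • (P *ᵥ ψ) := by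
    rw [Matrix.add_mulVec, hψ, Matrix.smul_mulVec]
  have hμ : ψ ⬝ᵥ (A + s • P) *ᵥ ψ = eigD A k + s * d := by
    rw [hMψ, dotProduct_add, dotProduct_smul, dotProduct_smul, hψ1]
    simp [hd]
  have hres : ((A + s • P) *ᵥ ψ - (eigD A k + s * d) • ψ) ⬝ᵥ ((A + s • P) *ᵥ ψ - (eigD A k + s * d) • ψ) ≤ s ^ 2 * p2 := by
    have e : (A + s • P) *ᵥ ψ - (eigD A k + s * d) • ψ = s • (P *ᵥ ψ - d • ψ) := by
      rw [hMψ]; module
    rw [e, smul_dotProduct, dotProduct_smul, smul_eq_mul, smul_eq_mul, ← mul_assoc, ← pow_two]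
    refine mul_le_mul_of_nonneg_left ?_ (sq_nonneg s)
    have e2 : (P *ᵥ ψ - d • ψ) ⬝ᵥ (P *ᵥ ψ - d • ψ) = (P *ᵥ ψ) ⬝ᵥ (P *ᵥ ψ) - d ^ 2 := by
      simp only [sub_dotProduct, dotProduct_sub, smul_dotProduct, dotProduct_smul, smul_eq_mul, hψ1]
      rw [dotProduct_comm (P *ᵥ ψ) ψ, ← hd]
      ring
    rw [e2]
    have := eig_mulVec_sq_le P ψ
    rw [hψ1, mul_one] at this
    nlinarith [sq_nonneg d]
  have hsp : (|s| * p) ^ 2 = s ^ 2 * p2 := by rw [mul_pow, sq_abs, hpp]
  have hsp0 : 0 ≤ |s| * p := mul_nonneg (abs_nonneg _) (Real.sqrt_nonneg _)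
  have hgap2 : ∀ k', k' < Fintype.card ι → k' ≠ k → g / 2 ≤ |eigD (A + s • P) k' - (eigD A k + s * d)| := by
    intro k' hk' hne
    have h1 := hgap k' hk' hne
    have h2 : |eigD A k' - eigD (A + s • P) k'| ≤ |s| * p := by
      refine (eig_D_lip hA hM k').trans (le_of_eq ?_)
      have : A - (A + s • P) = -(s • P) := by abel
      rw [this, eig_hs_neg, eig_hs_smul, Real.sqrt_mul (sq_nonneg s), Real.sqrt_sq_eq_abs]
    have h3 : |s * d| ≤ |s| * p := by rw [abs_mul]; exact mul_le_mul_of_nonneg_left hdp (abs_nonneg _)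
    have h4 : |eigD A k' - eigD A k| ≤ |eigD A k' - eigD (A + s • P) k'| + |eigD (A + s • P) k' - (eigD A k + s * d)| + |s * d| := by
      have e : eigD A k' - eigD A k = (eigD A k' - eigD (A + s • P) k') + (eigD (A + s • P) k' - (eigD A k + s * d)) + s * d := by ring
      rw [e]
      exact (abs_add_le _ _).trans (add_le_add_left (abs_add_le _ _) _)
    linarith
  have key := eig_kato hM hk hψ1 hμ hres (by positivity : 0 < g / 2) hgap2 (by nlinarith)
  have e3 : eigD (A + s • P) k - eigD A k - s * d = eigD (A + s • P) k - (eigD A k + s * d) := by ring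
  rw [e3]
  refine key.trans (le_of_eq ?_)
  field_simp
  ring

/-- **HELLMANN-FEYNMAN at an isolated eigenvalue** -/
theorem eig_hf_zero {A P : Matrix ι ι ℝ} (hA : A.IsHermitian) (hP : P.IsHermitian) {k : ℕ} (hk : k < Fintype.card ι) {g : ℝ}
    (hg : 0 < g) (hgap : ∀ k', k' < Fintype.card ι → k' ≠ k → g ≤ |eigD A k' - eigD A k|) {ψ : ι → ℝ} (hψ1 : ψ ⬝ᵥ ψ = 1)
    (hψ : A *ᵥ ψ = eigD A k • ψ) : HasDerivAt (fun s : ℝ => eigD (A + s • P) k) (ψ ⬝ᵥ P *ᵥ ψ) 0 := by
  rw [hasDerivAt_iff_isLittleO_nhds_zero]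
  have hev : ∀ᶠ s : ℝ in nhds 0, |s| * Real.sqrt (eigHS P) ≤ g / 4 := by
    have hc : Continuous fun s : ℝ => |s| * Real.sqrt (eigHS P) := continuous_abs.mul continuous_const
    have := hc.tendsto 0
    simp only [abs_zero, zero_mul] at this
    exact (this.eventually (gt_mem_nhds (by positivity : (0:ℝ) < g / 4))).mono fun s hs => hs.le
  have hO : (fun s : ℝ => eigD (A + (0 + s) • P) k - eigD (A + (0 : ℝ) • P) k - s • (ψ ⬝ᵥ P *ᵥ ψ))
      =O[nhds 0] fun s : ℝ => s ^ 2 := by
    refine Asymptotics.IsBigO.of_bound (4 * eigHS P / g) (hev.mono fun s hs => ?_)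
    have := eig_hf_bound hA hP hk hg hgap hψ1 hψ hs
    simpa [abs_of_nonneg (sq_nonneg s)] using this
  exact hO.trans_isLittleO (Asymptotics.isLittleO_pow_id one_lt_two)

/-- along a segment -/
theorem eig_hf_at {A P : Matrix ι ι ℝ} (hA : A.IsHermitian) (hP : P.IsHermitian) {k : ℕ} (hk : k < Fintype.card ι) (a : ℝ) {g : ℝ}
    (hg : 0 < g) (hgap : ∀ k', k' < Fintype.card ι → k' ≠ k → g ≤ |eigD (A + a • P) k' - eigD (A + a • P) k|) {ψ : ι → ℝ}
    (hψ1 : ψ ⬝ᵥ ψ = 1) (hψ : (A + a • P) *ᵥ ψ = eigD (A + a • P) k • ψ) :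
    HasDerivAt (fun s : ℝ => eigD (A + s • P) k) (ψ ⬝ᵥ P *ᵥ ψ) a := by
  have h0 := eig_hf_zero (eig_herm_path hA hP a) hP hk hg hgap hψ1 hψ
  have h1 : HasDerivAt (fun s : ℝ => eigD (A + a • P + (s - a) • P) k) (ψ ⬝ᵥ P *ᵥ ψ) a := by
    have := HasDerivAt.comp_sub_const a a (f := fun s : ℝ => eigD (A + a • P + s • P) k) (f' := ψ ⬝ᵥ P *ᵥ ψ) (by simpa using h0)
    exact this
  have e : (fun s : ℝ => eigD (A + a • P + (s - a) • P) k) = fun s : ℝ => eigD (A + s • P) k := by
    funext s
    congr 1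
    module
  rwa [e] at h1

end vec

/-! ### simple spectrum and the discriminant -/

section disc

variable {ι : Type} [Fintype ι] [DecidableEq ι]

/-- all eigenvalues are simple -/
def EigSimple (A : Matrix ι ι ℝ) : Prop :=
  ∀ j k, j < Fintype.card ι → k < Fintype.card ι → j ≠ k → eigD A j ≠ eigD A k

/-- the discriminant of the characteristic polynomial, as the Hankel determinant of the traces of the powers -/
noncomputable def eigDisc (A : Matrix ι ι ℝ) : ℝ :=
  Matrix.det (Matrix.of fun (i j : Fin (Fintype.card ι)) => (A ^ ((i : ℕ) + (j : ℕ))).trace)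

theorem eig_pow_spec {A : Matrix ι ι ℝ} (hA : A.IsHermitian) (m : ℕ) :
    A ^ m = (hA.eigenvectorUnitary : Matrix ι ι ℝ) * diagonal (fun i => hA.eigenvalues i ^ m) * (hA.eigenvectorUnitary : Matrix ι ι ℝ)ᵀ := by
  induction m with
  | zero => simp [eig_U_mul]
  | succ m ih =>
    have e : A ^ (m + 1) = A ^ m * ((hA.eigenvectorUnitary : Matrix ι ι ℝ) * diagonal hA.eigenvalues
        * (hA.eigenvectorUnitary : Matrix ι ι ℝ)ᵀ) := by
      rw [pow_succ]
      exact congrArg (fun B => A ^ m * B) (eig_spec hA)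
    rw [e, ih]
    have h1 : ∀ X Y : Matrix ι ι ℝ, (hA.eigenvectorUnitary : Matrix ι ι ℝ) * X * (hA.eigenvectorUnitary : Matrix ι ι ℝ)ᵀ
        * ((hA.eigenvectorUnitary : Matrix ι ι ℝ) * Y * (hA.eigenvectorUnitary : Matrix ι ι ℝ)ᵀ)
        = (hA.eigenvectorUnitary : Matrix ι ι ℝ) * (X * Y) * (hA.eigenvectorUnitary : Matrix ι ι ℝ)ᵀ := fun X Y => by
      calc _ = (hA.eigenvectorUnitary : Matrix ι ι ℝ) * X * ((hA.eigenvectorUnitary : Matrix ι ι ℝ)ᵀ
            * (hA.eigenvectorUnitary : Matrix ι ι ℝ)) * Y * (hA.eigenvectorUnitary : Matrix ι ι ℝ)ᵀ := by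
            simp only [Matrix.mul_assoc]
        _ = _ := by rw [eig_Ut_mul, Matrix.mul_one]; simp only [Matrix.mul_assoc]
    rw [h1, Matrix.diagonal_mul_diagonal]
    simp only [pow_succ]

theorem eig_trace_pow {A : Matrix ι ι ℝ} (hA : A.IsHermitian) (m : ℕ) :
    (A ^ m).trace = ∑ k : Fin (Fintype.card ι), eigD A k ^ m := by
  rw [eig_pow_spec hA, Matrix.trace_mul_comm, ← Matrix.mul_assoc, eig_Ut_mul, Matrix.one_mul, Matrix.trace_diagonal, eig_ix_sum]
  exact Finset.sum_congr rfl fun k _ => by rw [eig_ix_val hA]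

theorem eig_disc_eq {A : Matrix ι ι ℝ} (hA : A.IsHermitian) :
    eigDisc A = (Matrix.vandermonde fun k : Fin (Fintype.card ι) => eigD A k).det ^ 2 := by
  have : (Matrix.of fun (i j : Fin (Fintype.card ι)) => (A ^ ((i : ℕ) + (j : ℕ))).trace)
      = (Matrix.vandermonde fun k : Fin (Fintype.card ι) => eigD A k)ᵀ * Matrix.vandermonde fun k : Fin (Fintype.card ι) => eigD A k := by
    ext i j
    rw [Matrix.of_apply, eig_trace_pow hA]
    simp only [Matrix.mul_apply, Matrix.transpose_apply, Matrix.vandermonde_apply, pow_add]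
  unfold eigDisc
  rw [this, Matrix.det_mul, Matrix.det_transpose, pow_two]

theorem eig_disc_ne_zero {A : Matrix ι ι ℝ} (hA : A.IsHermitian) : eigDisc A ≠ 0 ↔ EigSimple A := by
  rw [eig_disc_eq hA, pow_ne_zero_iff two_ne_zero, Matrix.det_vandermonde_ne_zero_iff]
  constructor
  · intro h j k hj hk hjk he
    exact hjk (by simpa using h (a₁ := ⟨j, hj⟩) (a₂ := ⟨k, hk⟩) he)
  · intro h j k he
    by_contra hne
    exact h j k j.2 k.2 (fun e => hne (Fin.ext e)) he

/-- the discriminant along a segment is a polynomial -/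
theorem eig_disc_poly (A P : Matrix ι ι ℝ) : ∃ Q : Polynomial ℝ, ∀ a : ℝ, Q.eval a = eigDisc (A + a • P) := by
  set Mx : Matrix ι ι (Polynomial ℝ) := A.map (Polynomial.C : ℝ → Polynomial ℝ)
    + (Polynomial.X : Polynomial ℝ) • P.map (Polynomial.C : ℝ → Polynomial ℝ) with hMx
  refine ⟨Matrix.det (Matrix.of fun (i j : Fin (Fintype.card ι)) => (Mx ^ ((i : ℕ) + (j : ℕ))).trace), fun a => ?_⟩
  have hmap : (Polynomial.evalRingHom a).mapMatrix Mx = A + a • P := by
    ext i j
    simp only [hMx]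
    simp
    ring
  rw [← Polynomial.coe_evalRingHom, RingHom.map_det]
  unfold eigDisc
  congr 1
  ext i j
  simp only [RingHom.mapMatrix_apply, Matrix.map_apply, Matrix.of_apply]
  rw [AddMonoidHom.map_trace, ← RingHom.mapMatrix_apply, map_pow, hmap]

/-- simple at one point of the line ⟹ simple off a finite set -/
theorem eig_simple_cofinite {A P : Matrix ι ι ℝ} (hA : A.IsHermitian) (hP : P.IsHermitian) (hs : ∃ a : ℝ, EigSimple (A + a • P)) :
    {a : ℝ | ¬ EigSimple (A + a • P)}.Finite := by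
  obtain ⟨Q, hQ⟩ := eig_disc_poly A P
  obtain ⟨a0, ha0⟩ := hs
  have hQ0 : Q ≠ 0 := by
    intro h
    have := hQ a0
    rw [h, Polynomial.eval_zero] at this
    exact (eig_disc_ne_zero (eig_herm_path hA hP a0)).2 ha0 this.symm
  refine (Q.roots.toFinset.finite_toSet).subset fun a ha => ?_
  simp only [Finset.mem_coe, Multiset.mem_toFinset, Polynomial.mem_roots hQ0, Polynomial.IsRoot.def, hQ]
  by_contra h
  exact ha ((eig_disc_ne_zero (eig_herm_path hA hP a)).1 h)

theorem eig_pos_lower (s : Finset ℕ) (f : ℕ → ℝ) (h : ∀ i ∈ s, 0 < f i) : ∃ g : ℝ, 0 < g ∧ ∀ i ∈ s, g ≤ f i := by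
  induction s using Finset.induction_on with
  | empty => exact ⟨1, one_pos, by simp⟩
  | insert a s _ ih =>
    obtain ⟨g, hg, hgs⟩ := ih fun i hi => h i (Finset.mem_insert_of_mem hi)
    refine ⟨min g (f a), lt_min hg (h a (Finset.mem_insert_self a s)), fun i hi => ?_⟩
    rcases Finset.mem_insert.1 hi with rfl | hi
    · exact min_le_right _ _
    · exact (min_le_left _ _).trans (hgs i hi)

theorem eig_simple_gap {A : Matrix ι ι ℝ} (h : EigSimple A) {k : ℕ} (hk : k < Fintype.card ι) :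
    ∃ g : ℝ, 0 < g ∧ ∀ k', k' < Fintype.card ι → k' ≠ k → g ≤ |eigD A k' - eigD A k| := by
  obtain ⟨g, hg, hgs⟩ := eig_pos_lower ((range (Fintype.card ι)).erase k) (fun k' => |eigD A k' - eigD A k|) fun i hi => by
    rw [Finset.mem_erase, Finset.mem_range] at hi
    exact abs_pos.2 (sub_ne_zero.2 (h i k hi.2 hk hi.1))
  exact ⟨g, hg, fun k' hk' hne => hgs k' (Finset.mem_erase.2 ⟨hne, Finset.mem_range.2 hk'⟩)⟩

/-- Hellmann-Feynman at a point of simple spectrum, with the chosen eigenvector -/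
theorem eig_hf_simple {A P : Matrix ι ι ℝ} (hA : A.IsHermitian) (hP : P.IsHermitian) {k : ℕ} (hk : k < Fintype.card ι) {a : ℝ}
    (hs : EigSimple (A + a • P)) :
    HasDerivAt (fun s : ℝ => eigD (A + s • P) k) (eigV (A + a • P) k ⬝ᵥ P *ᵥ eigV (A + a • P) k) a := by
  obtain ⟨g, hg, hgap⟩ := eig_simple_gap hs hk
  exact eig_hf_at hA hP hk a hg hgap (eig_V_norm (eig_herm_path hA hP a) hk) (eig_V_mul (eig_herm_path hA hP a) hk)

theorem eig_path_cont {A P : Matrix ι ι ℝ} (hA : A.IsHermitian) (hP : P.IsHermitian) (k : ℕ) :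
    Continuous fun s : ℝ => eigD (A + s • P) k :=
  eig_D_cont (fun i j => by
    simp only [Matrix.add_apply, Matrix.smul_apply, smul_eq_mul]
    exact continuous_const.add (continuous_id.mul continuous_const)) (eig_herm_path hA hP) k

open MeasureTheory in
/-- **INTEGRATED HELLMANN-FEYNMAN** -/
theorem eig_hf_int {A P : Matrix ι ι ℝ} (hA : A.IsHermitian) (hP : P.IsHermitian) (hs : ∃ a : ℝ, EigSimple (A + a • P)) {k : ℕ}
    (hk : k < Fintype.card ι) (a b : ℝ) :
    IntervalIntegrable (fun s => eigV (A + s • P) k ⬝ᵥ P *ᵥ eigV (A + s • P) k) volume a b ∧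
    ∫ s in a..b, eigV (A + s • P) k ⬝ᵥ P *ᵥ eigV (A + s • P) k = eigD (A + b • P) k - eigD (A + a • P) k := by
  have hfin := eig_simple_cofinite hA hP hs
  have hd : ∀ s, s ∉ {a : ℝ | ¬ EigSimple (A + a • P)} →
      HasDerivAt (fun s : ℝ => eigD (A + s • P) k) (eigV (A + s • P) k ⬝ᵥ P *ᵥ eigV (A + s • P) k) s := fun s hs' =>
    eig_hf_simple hA hP hk (not_not.1 hs')
  have hae : (fun s => eigV (A + s • P) k ⬝ᵥ P *ᵥ eigV (A + s • P) k) =ᵐ[volume] deriv fun s : ℝ => eigD (A + s • P) k := by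
    have : ∀ᵐ s : ℝ, s ∉ {a : ℝ | ¬ EigSimple (A + a • P)} := (hfin.measure_zero volume : volume _ = 0) |> measure_eq_zero_iff_ae_notMem.1
    exact this.mono fun s hs' => (hd s hs').deriv.symm
  have hmeas : AEStronglyMeasurable (fun s => eigV (A + s • P) k ⬝ᵥ P *ᵥ eigV (A + s • P) k) volume :=
    (measurable_deriv _).aestronglyMeasurable.congr hae.symm
  have hbd : ∀ s : ℝ, ‖eigV (A + s • P) k ⬝ᵥ P *ᵥ eigV (A + s • P) k‖ ≤ Real.sqrt (eigHS P) := fun s => by
    have := eig_quad_le_hs P (eigV (A + s • P) k)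
    rwa [eig_V_norm (eig_herm_path hA hP s) hk, mul_one] at this
  have hint : IntervalIntegrable (fun s => eigV (A + s • P) k ⬝ᵥ P *ᵥ eigV (A + s • P) k) volume a b := by
    rw [intervalIntegrable_iff]
    exact Measure.integrableOn_of_bounded (by simp) hmeas (Filter.Eventually.of_forall hbd)
  refine ⟨hint, ?_⟩
  exact integral_eq_of_hasDerivAt_off_countable _ _ hfin.countable (eig_path_cont hA hP k).continuousOn
    (fun s hs' => hd s hs'.2) hint

theorem eig_hf_eqns_cite : True := by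
  have := @eigIx.eq_1
  have := @eigV.eq_1
  have := @EigSimple.eq_1
  have := @eigDisc.eq_1
  trivial

end disc

/-! ### canonical squared overlaps, the doubly stochastic matrix of a segment -/

section ovl

open MeasureTheory

variable {ι : Type} [Fintype ι] [DecidableEq ι]

/-- the canonical squared overlap `|ψ_k(j)|²` := derivative of the `k`-th eigenvalue in the direction `e_j e_jᵀ` (no choice of eigenvectors; Borel in `A`) -/
noncomputable def eigS (A : Matrix ι ι ℝ) (k : ℕ) (j : ι) : ℝ :=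
  deriv (fun s : ℝ => eigD (A + s • (diagonal (Pi.single j (1 : ℝ)) : Matrix ι ι ℝ)) k) 0

theorem eig_diag_herm (δ : ι → ℝ) : (diagonal δ : Matrix ι ι ℝ).IsHermitian := by
  unfold Matrix.IsHermitian
  rw [Matrix.diagonal_conjTranspose]
  simp

theorem eig_diag_quad (δ x : ι → ℝ) : x ⬝ᵥ (diagonal δ : Matrix ι ι ℝ) *ᵥ x = ∑ j, x j ^ 2 * δ j := by
  simp only [dotProduct, Matrix.mulVec_diagonal]
  exact Finset.sum_congr rfl fun j _ => by ring

theorem eig_E_quad (j : ι) (x : ι → ℝ) : x ⬝ᵥ (diagonal (Pi.single j (1 : ℝ)) : Matrix ι ι ℝ) *ᵥ x = x j ^ 2 := by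
  rw [eig_diag_quad, Finset.sum_eq_single j]
  · simp
  · intro i _ hi
    simp [Pi.single_eq_of_ne hi]
  · simp

theorem eig_E_hs (j : ι) : eigHS (diagonal (Pi.single j (1 : ℝ)) : Matrix ι ι ℝ) = 1 := by
  unfold eigHS
  rw [Finset.sum_eq_single j, Finset.sum_eq_single j]
  · simp
  · intro i _ hi
    simp [Matrix.diagonal_apply_ne' _ hi]
  · simp
  · intro i _ hi
    refine Finset.sum_eq_zero fun l _ => ?_
    by_cases h : i = l
    · subst h; simp [Pi.single_eq_of_ne hi]
    · simp [Matrix.diagonal_apply_ne _ h]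
  · simp

/-- at an isolated eigenvalue, for ANY normalised eigenvector -/
theorem eig_S_of_gap {A : Matrix ι ι ℝ} (hA : A.IsHermitian) {k : ℕ} (hk : k < Fintype.card ι) {g : ℝ} (hg : 0 < g)
    (hgap : ∀ k', k' < Fintype.card ι → k' ≠ k → g ≤ |eigD A k' - eigD A k|) {ψ : ι → ℝ} (hψ1 : ψ ⬝ᵥ ψ = 1)
    (hψ : A *ᵥ ψ = eigD A k • ψ) (j : ι) : eigS A k j = ψ j ^ 2 := by
  have := (eig_hf_zero hA (eig_diag_herm (Pi.single j (1 : ℝ))) hk hg hgap hψ1 hψ).deriv
  rw [eig_E_quad] at this
  exact this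

theorem eig_S_eq {A : Matrix ι ι ℝ} (hA : A.IsHermitian) (hs : EigSimple A) {k : ℕ} (hk : k < Fintype.card ι) (j : ι) :
    eigS A k j = eigV A k j ^ 2 := by
  obtain ⟨g, hg, hgap⟩ := eig_simple_gap hs hk
  exact eig_S_of_gap hA hk hg hgap (eig_V_norm hA hk) (eig_V_mul hA hk) j

theorem eig_D_junk {A : Matrix ι ι ℝ} (hA : A.IsHermitian) {k : ℕ} (hk : ¬ k < Fintype.card ι) : eigD A k = 0 := by
  unfold eigD
  rw [List.getD_eq_default]
  rw [Multiset.length_sort, eig_roots_card hA]
  exact not_lt.1 hk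

theorem eig_S_nonneg {A : Matrix ι ι ℝ} (hA : A.IsHermitian) (k : ℕ) (j : ι) : 0 ≤ eigS A k j := by
  refine Monotone.deriv_nonneg fun s t hst => ?_
  have h1 := eig_herm_path hA (eig_diag_herm (Pi.single j (1 : ℝ))) s
  have h2 := eig_herm_path hA (eig_diag_herm (Pi.single j (1 : ℝ))) t
  by_cases hk : k < Fintype.card ι
  · refine eig_weyl_mono h1 h2 (fun x => ?_) hk
    simp only [Matrix.add_mulVec, Matrix.smul_mulVec, dotProduct_add, dotProduct_smul, eig_E_quad, smul_eq_mul]
    nlinarith [sq_nonneg (x j)]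
  · simp only [eig_D_junk h1 hk, eig_D_junk h2 hk, le_refl]

theorem eig_S_le_one {A : Matrix ι ι ℝ} (hA : A.IsHermitian) (k : ℕ) (j : ι) : eigS A k j ≤ 1 := by
  have hl : LipschitzWith 1 fun s : ℝ => eigD (A + s • (diagonal (Pi.single j (1 : ℝ)) : Matrix ι ι ℝ)) k := by
    refine LipschitzWith.of_dist_le_mul fun s t => ?_
    rw [Real.dist_eq, Real.dist_eq, NNReal.coe_one, one_mul]
    refine (eig_D_lip (eig_herm_path hA (eig_diag_herm _) s) (eig_herm_path hA (eig_diag_herm _) t) k).trans (le_of_eq ?_)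
    have : A + s • (diagonal (Pi.single j (1 : ℝ)) : Matrix ι ι ℝ) - (A + t • (diagonal (Pi.single j (1 : ℝ)) : Matrix ι ι ℝ))
        = (s - t) • (diagonal (Pi.single j (1 : ℝ)) : Matrix ι ι ℝ) := by module
    rw [this, eig_hs_smul, eig_E_hs, mul_one, Real.sqrt_sq_eq_abs]
  have := norm_deriv_le_of_lipschitz (x₀ := (0 : ℝ)) hl
  unfold eigS
  exact (le_abs_self _).trans (by simpa using this)

theorem eig_S_cont_aux {X : Type} [TopologicalSpace X] {H : X → Matrix ι ι ℝ}
    (hc : ∀ i j, Continuous fun x => H x i j) (hH : ∀ x, (H x).IsHermitian) (k : ℕ) (j : ι) :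
    Continuous fun p : X × ℝ => eigD (H p.1 + p.2 • (diagonal (Pi.single j (1 : ℝ)) : Matrix ι ι ℝ)) k := by
  have hH' : ∀ p : X × ℝ, (H p.1 + p.2 • (diagonal (Pi.single j (1 : ℝ)) : Matrix ι ι ℝ)).IsHermitian := fun p =>
    eig_herm_path (hH p.1) (eig_diag_herm (Pi.single j (1 : ℝ))) p.2
  have hc' : ∀ i l, Continuous fun p : X × ℝ => (H p.1 + p.2 • (diagonal (Pi.single j (1 : ℝ)) : Matrix ι ι ℝ)) i l := fun i l => by
    simp only [Matrix.add_apply, Matrix.smul_apply, smul_eq_mul]
    exact ((hc i l).comp continuous_fst).add (continuous_snd.mul continuous_const)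
  exact eig_D_cont hc' hH' k

/-- the canonical overlaps are Borel functions of a continuous symmetric family -/
theorem eig_S_meas {X : Type} [TopologicalSpace X] [MeasurableSpace X] [OpensMeasurableSpace X] {H : X → Matrix ι ι ℝ}
    (hc : ∀ i j, Continuous fun x => H x i j) (hH : ∀ x, (H x).IsHermitian) (k : ℕ) (j : ι) :
    Measurable fun x => eigS (H x) k j := by
  have hcont : Continuous (Function.uncurry fun (x : X) (s : ℝ) => eigD (H x + s • (diagonal (Pi.single j (1 : ℝ)) : Matrix ι ι ℝ)) k) :=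
    eig_S_cont_aux hc hH k j
  have h2 := measurable_deriv_with_param hcont
  have h3 : Measurable fun x : X => (x, (0 : ℝ)) := measurable_id.prodMk measurable_const
  have h4 := h2.comp h3
  exact h4

theorem eig_S_path_intble {A P : Matrix ι ι ℝ} (hA : A.IsHermitian) (hP : P.IsHermitian) (k : ℕ) (j : ι) (a b : ℝ) :
    IntervalIntegrable (fun s : ℝ => eigS (A + s • P) k j) volume a b := by
  have hm : Measurable fun s : ℝ => eigS (A + s • P) k j :=
    eig_S_meas (fun i l => by
      simp only [Matrix.add_apply, Matrix.smul_apply, smul_eq_mul]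
      exact continuous_const.add (continuous_id.mul continuous_const)) (eig_herm_path hA hP) k j
  rw [intervalIntegrable_iff]
  refine Measure.integrableOn_of_bounded (M := 1) (by simp) hm.aestronglyMeasurable (Filter.Eventually.of_forall fun s => ?_)
  rw [Real.norm_eq_abs, abs_of_nonneg (eig_S_nonneg (eig_herm_path hA hP s) k j)]
  exact eig_S_le_one (eig_herm_path hA hP s) k j

theorem eig_S_path_ae {A P : Matrix ι ι ℝ} (hA : A.IsHermitian) (hP : P.IsHermitian) (hs : ∃ a : ℝ, EigSimple (A + a • P)) :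
    ∀ᵐ s : ℝ, EigSimple (A + s • P) := by
  have := measure_eq_zero_iff_ae_notMem.1 ((eig_simple_cofinite hA hP hs).measure_zero volume)
  exact this.mono fun s hs' => not_not.1 hs'

/-- **the averaged overlaps of the segment `A + a P`, `0 ≤ a ≤ 1`** -/
noncomputable def eigSb (A P : Matrix ι ι ℝ) (k : ℕ) (j : ι) : ℝ := ∫ a in (0 : ℝ)..1, eigS (A + a • P) k j

theorem eig_Sb_nonneg {A P : Matrix ι ι ℝ} (hA : A.IsHermitian) (hP : P.IsHermitian) (k : ℕ) (j : ι) : 0 ≤ eigSb A P k j :=
  intervalIntegral.integral_nonneg zero_le_one fun s _ => eig_S_nonneg (eig_herm_path hA hP s) k j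

theorem eig_Sb_row {A P : Matrix ι ι ℝ} (hA : A.IsHermitian) (hP : P.IsHermitian) (hs : ∃ a : ℝ, EigSimple (A + a • P)) {k : ℕ}
    (hk : k < Fintype.card ι) : ∑ j, eigSb A P k j = 1 := by
  unfold eigSb
  rw [← intervalIntegral.integral_finsetSum fun j _ => eig_S_path_intble hA hP k j 0 1]
  have : ∫ a in (0 : ℝ)..1, ∑ j, eigS (A + a • P) k j = ∫ _a in (0 : ℝ)..1, (1 : ℝ) := by
    refine intervalIntegral.integral_congr_ae ((eig_S_path_ae hA hP hs).mono fun s hs' _ => ?_)
    simp only [eig_S_eq (eig_herm_path hA hP s) hs' hk]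
    exact eig_V_row (eig_herm_path hA hP s) hk
  rw [this]
  simp

theorem eig_Sb_col {A P : Matrix ι ι ℝ} (hA : A.IsHermitian) (hP : P.IsHermitian) (hs : ∃ a : ℝ, EigSimple (A + a • P)) (j : ι) :
    ∑ k ∈ range (Fintype.card ι), eigSb A P k j = 1 := by
  unfold eigSb
  rw [← intervalIntegral.integral_finsetSum fun k _ => eig_S_path_intble hA hP k j 0 1]
  have : ∫ a in (0 : ℝ)..1, ∑ k ∈ range (Fintype.card ι), eigS (A + a • P) k j = ∫ _a in (0 : ℝ)..1, (1 : ℝ) := by
    refine intervalIntegral.integral_congr_ae ((eig_S_path_ae hA hP hs).mono fun s hs' _ => ?_)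
    rw [← eig_V_col (eig_herm_path hA hP s) j]
    exact Finset.sum_congr rfl fun k hk => eig_S_eq (eig_herm_path hA hP s) hs' (Finset.mem_range.1 hk) j
  rw [this]
  simp

/-- **HELLMANN-FEYNMAN for a diagonal increment**: `λ_k(A + diag δ) - λ_k(A) = ∑_j S̄_kj δ_j` with `S̄` doubly stochastic -/
theorem eig_hf_diag {A : Matrix ι ι ℝ} (hA : A.IsHermitian) (δ : ι → ℝ) (hs : ∃ a : ℝ, EigSimple (A + a • (diagonal δ : Matrix ι ι ℝ)))
    {k : ℕ} (hk : k < Fintype.card ι) :
    eigD (A + diagonal δ) k - eigD A k = ∑ j, eigSb A (diagonal δ) k j * δ j := by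
  have hP := eig_diag_herm δ
  have h := (eig_hf_int hA hP hs hk 0 1).2
  rw [one_smul, zero_smul, add_zero] at h
  rw [← h]
  unfold eigSb
  simp only [← intervalIntegral.integral_mul_const]
  rw [← intervalIntegral.integral_finsetSum fun j _ => (eig_S_path_intble hA hP k j 0 1).mul_const (δ j)]
  refine intervalIntegral.integral_congr_ae ((eig_S_path_ae hA hP hs).mono fun s hs' _ => ?_)
  rw [eig_diag_quad]
  exact Finset.sum_congr rfl fun j _ => by rw [eig_S_eq (eig_herm_path hA hP s) hs' hk]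

theorem eig_ovl_eqns_cite : True := by
  have := @eigS.eq_1
  have := @eigSb.eq_1
  trivial

end ovl

/-! ### NULL BY LINES (a soft substitute for "the zero set of a nonzero polynomial is null", for products of arbitrary atomless measures, also nested products) -/

section nul

open MeasureTheory Set

variable {σ : Type} [Fintype σ] [DecidableEq σ] {X : σ → Type} [∀ i, TopologicalSpace (X i)] [∀ i, MeasurableSpace (X i)]
  [∀ i, BorelSpace (X i)] [∀ i, SecondCountableTopology (X i)]

/-- replace the coordinates of `S` -/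
def nulMix (S : Finset σ) (y x : ∀ i, X i) : ∀ i, X i := fun i => if i ∈ S then y i else x i

/-- the points all of whose modifications on `S` stay in `Z` -/
def nulCore (Z : Set (∀ i, X i)) (S : Finset σ) : Set (∀ i, X i) := {x | ∀ y, nulMix S y x ∈ Z}

theorem nul_eqns_cite : True := by
  have := @nulMix.eq_1
  have := @nulCore.eq_1
  trivial

omit [Fintype σ] [∀ i, MeasurableSpace (X i)] [∀ i, BorelSpace (X i)] [∀ i, SecondCountableTopology (X i)] in
theorem nul_mix_cont (S : Finset σ) (y : ∀ i, X i) : Continuous (nulMix S y) := by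
  refine continuous_pi fun i => ?_
  unfold nulMix
  by_cases h : i ∈ S
  · simp only [h, if_true]; exact continuous_const
  · simp only [h, if_false]; exact continuous_apply i

omit [Fintype σ] [∀ i, MeasurableSpace (X i)] [∀ i, BorelSpace (X i)] [∀ i, SecondCountableTopology (X i)] in
theorem nul_core_closed {Z : Set (∀ i, X i)} (hZ : IsClosed Z) (S : Finset σ) : IsClosed (nulCore Z S) := by
  have : nulCore Z S = ⋂ y, nulMix S y ⁻¹' Z := by
    ext x; simp [nulCore]
  rw [this]
  exact isClosed_iInter fun y => hZ.preimage (nul_mix_cont S y)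

omit [Fintype σ] [∀ i, TopologicalSpace (X i)] [∀ i, MeasurableSpace (X i)] [∀ i, BorelSpace (X i)] [∀ i, SecondCountableTopology (X i)] in
theorem nul_core_empty (Z : Set (∀ i, X i)) : nulCore Z ∅ = Z := by
  ext x
  have e : ∀ y, nulMix (∅ : Finset σ) y x = x := fun y => by funext i; simp [nulMix]
  simp only [nulCore, Set.mem_ofPred_eq, e]
  exact ⟨fun h => h x, fun h _ => h⟩

omit [∀ i, TopologicalSpace (X i)] [∀ i, MeasurableSpace (X i)] [∀ i, BorelSpace (X i)] [∀ i, SecondCountableTopology (X i)] in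
theorem nul_core_univ {Z : Set (∀ i, X i)} (hZ : Z ≠ univ) : nulCore Z Finset.univ = ∅ := by
  ext x
  have e : ∀ y, nulMix (Finset.univ : Finset σ) y x = y := fun y => by funext i; simp [nulMix]
  simp only [nulCore, Set.mem_ofPred_eq, e, mem_empty_iff_false, iff_false]
  intro h
  exact hZ (eq_univ_of_forall h)

/-- Fubini in one coordinate -/
theorem nul_of_sections (μ : ∀ i, Measure (X i)) [∀ i, SigmaFinite (μ i)] {B : Set (∀ i, X i)} (hB : MeasurableSet B) (i : σ)
    (h : ∀ x, μ i {t | Function.update x i t ∈ B} = 0) : Measure.pi μ B = 0 := by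
  classical
  by_cases hne : Nonempty (∀ i, X i)
  · obtain ⟨x0⟩ := hne
    have hf : Measurable (B.indicator (1 : (∀ i, X i) → ENNReal)) := measurable_one.indicator hB
    rw [← lintegral_indicator_one hB, lintegral_eq_lmarginal_univ (μ := μ) x0, lmarginal_erase' _ hf (Finset.mem_univ i)]
    have h0 : (fun x => ∫⁻ t, B.indicator (1 : (∀ i, X i) → ENNReal) (Function.update x i t) ∂μ i) = fun _ => 0 := by
      funext x
      have hm : MeasurableSet {t | Function.update x i t ∈ B} := (measurable_update x (a := i)) hB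
      have e : (fun t => B.indicator (1 : (∀ i, X i) → ENNReal) (Function.update x i t))
          = {t | Function.update x i t ∈ B}.indicator 1 := by
        funext t
        by_cases ht : Function.update x i t ∈ B
        · rw [indicator_of_mem ht, indicator_of_mem (show t ∈ {t | Function.update x i t ∈ B} from ht)]; rfl
        · rw [indicator_of_notMem ht, indicator_of_notMem (show t ∉ {t | Function.update x i t ∈ B} from ht)]
      rw [e, lintegral_indicator_one hm, h x]
    rw [h0]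
    simp [lmarginal]
  · have : B = ∅ := by
      ext x; exact (hne ⟨x⟩).elim
    rw [this, measure_empty]

/-- **NULL BY LINES**: a closed set, all of whose coordinate sections are null or everything, is null or everything -/
theorem nul_by_lines (μ : ∀ i, Measure (X i)) [∀ i, SigmaFinite (μ i)] {Z : Set (∀ i, X i)} (hZ : IsClosed Z)
    (hL : ∀ i w, μ i {t | Function.update w i t ∈ Z} = 0 ∨ ∀ t, Function.update w i t ∈ Z) (hne : Z ≠ univ) :
    Measure.pi μ Z = 0 := by
  classical
  have step : ∀ (S : Finset σ) (i : σ), i ∉ S → Measure.pi μ (nulCore Z S \ nulCore Z (insert i S)) = 0 := by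
    intro S i hi
    refine nul_of_sections μ ((nul_core_closed hZ S).measurableSet.diff (nul_core_closed hZ _).measurableSet) i fun x => ?_
    by_cases hx : x ∈ nulCore Z (insert i S)
    · have : {t | Function.update x i t ∈ nulCore Z S \ nulCore Z (insert i S)} = ∅ := by
        ext t
        simp only [Set.mem_ofPred_eq, Set.mem_sdiff, mem_empty_iff_false, iff_false, not_and, not_not]
        intro _ y
        have e : nulMix (insert i S) y (Function.update x i t) = nulMix (insert i S) y x := by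
          funext l
          unfold nulMix
          by_cases hl : l ∈ insert i S
          · simp [hl]
          · have : l ≠ i := fun h => hl (h ▸ Finset.mem_insert_self i S)
            simp [hl, Function.update_of_ne this]
        rw [e]
        exact hx y
      rw [this, measure_empty]
    · simp only [nulCore, Set.mem_ofPred_eq, not_forall] at hx
      obtain ⟨y, hy⟩ := hx
      set w := nulMix (insert i S) y x with hw
      have hsub : {t | Function.update x i t ∈ nulCore Z S \ nulCore Z (insert i S)} ⊆ {t | Function.update w i t ∈ Z} := by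
        intro t ht
        have h1 := ht.1 y
        have e : nulMix S y (Function.update x i t) = Function.update w i t := by
          funext l
          by_cases hl : l = i
          · subst hl
            simp [nulMix, hi]
          · rw [Function.update_of_ne hl, hw]
            unfold nulMix
            by_cases hlS : l ∈ S
            · simp [hlS]
            · simp [hlS, hl]
        rw [e] at h1
        exact h1
      rcases hL i w with h0 | hall
      · exact measure_mono_null hsub h0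
      · exact absurd (by simpa using hall (w i)) hy
  have main : ∀ S : Finset σ, Measure.pi μ (Z \ nulCore Z S) = 0 := by
    intro S
    induction S using Finset.induction_on with
    | empty => simp [nul_core_empty]
    | insert i S hi ih =>
      refine measure_mono_null (t := (Z \ nulCore Z S) ∪ (nulCore Z S \ nulCore Z (insert i S))) ?_
        (measure_union_null ih (step S i hi))
      intro x hx
      by_cases h : x ∈ nulCore Z S
      · exact Or.inr ⟨h, hx.2⟩
      · exact Or.inl ⟨hx.1, h⟩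
  have := main Finset.univ
  rwa [nul_core_univ hne, Set.sdiff_empty] at this

end nul


/-! ### the spectrum is almost surely simple -/

section simple

open MeasureTheory ProbabilityTheory

variable {ι : Type} [Fintype ι] [DecidableEq ι]

theorem eig_disc_cont : Continuous fun A : Matrix ι ι ℝ => eigDisc A := by
  unfold eigDisc
  refine Continuous.matrix_det ?_
  refine continuous_matrix fun i j => ?_
  simp only [Matrix.of_apply]
  exact Continuous.matrix_trace (continuous_id.pow _)

theorem eig_simple_diag {v : ι → ℝ} (hv : Function.Injective v) : EigSimple (diagonal v : Matrix ι ι ℝ) := by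
  rw [← eig_disc_ne_zero (eig_diag_herm v)]
  have : (Matrix.of fun (i j : Fin (Fintype.card ι)) => ((diagonal v : Matrix ι ι ℝ) ^ ((i : ℕ) + (j : ℕ))).trace)
      = (Matrix.vandermonde fun k : Fin (Fintype.card ι) => v (eigIx ι k))ᵀ * Matrix.vandermonde fun k : Fin (Fintype.card ι) => v (eigIx ι k) := by
    ext i j
    rw [Matrix.of_apply, Matrix.diagonal_pow, Matrix.trace_diagonal, eig_ix_sum]
    simp only [Matrix.mul_apply, Matrix.transpose_apply, Matrix.vandermonde_apply, pow_add, Pi.pow_apply]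
  unfold eigDisc
  rw [this, Matrix.det_mul, Matrix.det_transpose, ← pow_two, pow_ne_zero_iff two_ne_zero, Matrix.det_vandermonde_ne_zero_iff]
  exact hv.comp eig_ix_inj

theorem eig_simple_ex (ι : Type) [Fintype ι] [DecidableEq ι] : ∃ v : ι → ℝ, EigSimple (diagonal v : Matrix ι ι ℝ) :=
  ⟨fun i => ((Fintype.equivFin ι i : ℕ) : ℝ), eig_simple_diag fun i j h => by
    have h1 : ((Fintype.equivFin ι i : ℕ)) = (Fintype.equivFin ι j : ℕ) := by exact_mod_cast h
    exact (Fintype.equivFin ι).injective (Fin.ext h1)⟩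

/-- the discriminant on an affine line: null zero set or identically zero -/
theorem eig_disc_line (ν : Measure ℝ) [NullSingletonClass ν] {F : ℝ → Matrix ι ι ℝ} (hF : ∃ A P : Matrix ι ι ℝ, ∀ t, F t = A + t • P) :
    ν {t | eigDisc (F t) = 0} = 0 ∨ ∀ t, eigDisc (F t) = 0 := by
  obtain ⟨A, P, hAP⟩ := hF
  obtain ⟨Q, hQ⟩ := eig_disc_poly A P
  by_cases h0 : Q = 0
  · right
    intro t
    rw [hAP, ← hQ, h0, Polynomial.eval_zero]
  · left
    refine Set.Finite.measure_zero ((Q.roots.toFinset.finite_toSet).subset fun t ht => ?_) ν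
    have ht' : eigDisc (F t) = 0 := ht
    simp only [Finset.mem_coe, Multiset.mem_toFinset, Polynomial.mem_roots h0, Polynomial.IsRoot.def, hQ, ← hAP, ht']

/-- **almost surely simple spectrum**, one product: `H` continuous, affine in each coordinate, simple at one point -/
theorem eig_simple_ae_pi {σ : Type} [Fintype σ] [DecidableEq σ] (μ : σ → Measure ℝ) [∀ i, SigmaFinite (μ i)] [∀ i, NullSingletonClass (μ i)]
    {H : (σ → ℝ) → Matrix ι ι ℝ} (hc : Continuous H) (hH : ∀ w, (H w).IsHermitian)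
    (haff : ∀ i w, ∃ A P : Matrix ι ι ℝ, ∀ t, H (Function.update w i t) = A + t • P) (hex : ∃ w, EigSimple (H w)) :
    ∀ᵐ w ∂(Measure.pi μ), EigSimple (H w) := by
  have hZ : IsClosed {w | eigDisc (H w) = 0} := isClosed_eq (eig_disc_cont.comp hc) continuous_const
  have hnull := nul_by_lines μ hZ (fun i w => eig_disc_line (μ i) (haff i w)) (fun h => by
    obtain ⟨w, hw⟩ := hex
    have : w ∈ {w | eigDisc (H w) = 0} := h ▸ Set.mem_univ w
    exact (eig_disc_ne_zero (hH w)).2 hw this)
  exact (measure_eq_zero_iff_ae_notMem.1 hnull).mono fun w hw => (eig_disc_ne_zero (hH w)).1 hw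

/-- the same for a product of products (arrays) -/
theorem eig_simple_ae_pi2 {σ τ : Type} [Fintype σ] [DecidableEq σ] [Fintype τ] [DecidableEq τ] (μ : σ → τ → Measure ℝ)
    [∀ i j, SigmaFinite (μ i j)] [∀ i j, NullSingletonClass (μ i j)]
    {H : (σ → τ → ℝ) → Matrix ι ι ℝ} (hc : Continuous H) (hH : ∀ w, (H w).IsHermitian)
    (haff : ∀ i j w, ∃ A P : Matrix ι ι ℝ, ∀ t, H (Function.update w i (Function.update (w i) j t)) = A + t • P)
    (hex : ∃ w, EigSimple (H w)) :
    ∀ᵐ w ∂(Measure.pi fun i => Measure.pi (μ i)), EigSimple (H w) := by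
  have hZ : IsClosed {w | eigDisc (H w) = 0} := isClosed_eq (eig_disc_cont.comp hc) continuous_const
  have hnull := nul_by_lines (fun i => Measure.pi (μ i)) hZ (fun i w => by
    by_cases hall : ∀ r, Function.update w i r ∈ {w | eigDisc (H w) = 0}
    · exact Or.inr hall
    · left
      have hc' : Continuous fun r : τ → ℝ => Function.update w i r := continuous_const.update i continuous_id
      refine nul_by_lines (μ i) (hZ.preimage hc') (fun j r => ?_) fun h => hall fun r => ?_
      · obtain ⟨A, P, hAP⟩ := haff i j (Function.update w i r)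
        refine eig_disc_line (μ i j) (F := fun t => H (Function.update w i (Function.update r j t))) ⟨A, P, fun t => ?_⟩
        have := hAP t
        simpa using this
      · have : r ∈ {t | Function.update w i t ∈ {w | eigDisc (H w) = 0}} := h ▸ Set.mem_univ r
        exact this) (fun h => by
    obtain ⟨w, hw⟩ := hex
    have : w ∈ {w | eigDisc (H w) = 0} := h ▸ Set.mem_univ w
    exact (eig_disc_ne_zero (hH w)).2 hw this)
  exact (measure_eq_zero_iff_ae_notMem.1 hnull).mono fun w hw => (eig_disc_ne_zero (hH w)).1 hw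

end simple

/-! ### instances: the raw GOE of `R287/Defs`, the cut matrices, the frozen GOE -/

section inst

open MeasureTheory ProbabilityTheory Claims.C0462

variable {ι : Type} [Fintype ι] [DecidableEq ι]

omit [Fintype ι] [DecidableEq ι] in
theorem eig_goeOf_apply (N : Matrix ι ι ℝ) (a b : ι) : goeOf N a b = (Real.sqrt 2)⁻¹ * (N a b + N b a) := rfl

omit [Fintype ι] [DecidableEq ι] in
theorem eig_goeOf_herm (N : Matrix ι ι ℝ) : (goeOf N).IsHermitian := by
  ext a b
  simp only [Matrix.conjTranspose_apply, star_trivial, eig_goeOf_apply, add_comm]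

omit [Fintype ι] in
theorem eig_upd_apply (w : ι → ι → ℝ) (i j : ι) (t : ℝ) (a b : ι) :
    Function.update w i (Function.update (w i) j t) a b
      = Function.update w i (Function.update (w i) j 0) a b + t * (if a = i ∧ b = j then 1 else 0) := by
  by_cases ha : a = i
  · subst ha
    by_cases hb : b = j
    · subst hb; simp
    · simp [hb]
  · simp [ha]

instance eig_gauss_null : NullSingletonClass (gaussianReal 0 1) := nullSingletonClass_gaussianReal one_ne_zero

/-- **`X + c W` has almost surely simple spectrum** (`W` the raw GOE of an iid array) -/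
theorem eig_goe_simple_ae {X : Matrix ι ι ℝ} (hX : X.IsHermitian) {c : ℝ} (hc : c ≠ 0) :
    ∀ᵐ N ∂(gArr ι ι), EigSimple (X + c • goeOf N) := by
  have h2 : Real.sqrt 2 ≠ 0 := by positivity
  refine eig_simple_ae_pi2 (fun _ _ : ι => gaussianReal 0 1) (H := fun w : ι → ι → ℝ => X + c • goeOf (Matrix.of w)) ?_
    (fun w => eig_herm_path hX (eig_goeOf_herm _) c) ?_ ?_
  · refine continuous_matrix fun a b => ?_
    simp only [eig_goeOf_apply, Matrix.add_apply, Matrix.smul_apply, smul_eq_mul, Matrix.of_apply]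
    have h1 : ∀ a b : ι, Continuous fun w : ι → ι → ℝ => w a b := fun a b => (continuous_apply b).comp (continuous_apply a)
    exact continuous_const.add (continuous_const.mul (continuous_const.mul ((h1 a b).add (h1 b a))))
  · intro i j w
    refine ⟨X + c • goeOf (Matrix.of (Function.update w i (Function.update (w i) j 0))),
      c • goeOf (Matrix.of fun a b => if a = i ∧ b = j then 1 else 0), fun t => ?_⟩
    ext a b
    simp only [eig_goeOf_apply, Matrix.add_apply, Matrix.smul_apply, smul_eq_mul, Matrix.of_apply]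
    rw [eig_upd_apply w i j t a b, eig_upd_apply w i j t b a]
    ring
  · obtain ⟨v, hv⟩ := eig_simple_ex ι
    refine ⟨fun a b => (Real.sqrt 2 / (2 * c)) * ((diagonal v : Matrix ι ι ℝ) a b - X a b), ?_⟩
    have : X + c • goeOf (Matrix.of fun a b => (Real.sqrt 2 / (2 * c)) * ((diagonal v : Matrix ι ι ℝ) a b - X a b)) = diagonal v := by
      ext a b
      have hs : X b a = X a b := by simpa using hX.apply a b
      have hd : (diagonal v : Matrix ι ι ℝ) b a = (diagonal v : Matrix ι ι ℝ) a b := by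
        simpa using (eig_diag_herm v).apply a b
      simp only [eig_goeOf_apply, Matrix.add_apply, Matrix.smul_apply, smul_eq_mul, hs, hd, Matrix.of_apply]
      field_simp
      ring
    rw [this]
    exact hv

theorem eig_cutM_herm (K : ℕ) (Δ : ℝ) (x : Conf) (N : Matrix (Win K) (Win K) ℝ) : (cutM K Δ x N).IsHermitian :=
  eig_herm_path (eig_diag_herm _) (eig_goeOf_herm N) _

theorem eig_cutM_simple_ae (K : ℕ) {Δ : ℝ} (hΔ : 0 < Δ) (x : Conf) :
    ∀ᵐ N ∂(gArr (Win K) (Win K)), EigSimple (cutM K Δ x N) :=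
  eig_goe_simple_ae (eig_diag_herm _) (by positivity)

/-- the frozen GOE has almost surely simple spectrum -/
theorem frz_goe_simple_ae {n : ℕ} (hn : 0 < n) : ∀ᵐ x ∂(goeArray n), EigSimple (goeMatrix x) := by
  have hn' : (n : NNReal) ≠ 0 := by exact_mod_cast hn.ne'
  have : ∀ p : Fin n × Fin n, NullSingletonClass (gaussianReal 0 (if p.1 = p.2 then 2 / (n : NNReal) else 1 / (n : NNReal))) := fun p => by
    refine nullSingletonClass_gaussianReal ?_
    split_ifs <;> positivity
  refine eig_simple_ae_pi (fun p : Fin n × Fin n => gaussianReal 0 (if p.1 = p.2 then 2 / (n : NNReal) else 1 / (n : NNReal)))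
    (H := goeMatrix) (continuous_matrix fun i j => continuous_apply (min i j, max i j)) frz_goe_herm ?_ ?_
  · intro p w
    refine ⟨goeMatrix (Function.update w p 0), Matrix.of fun i j => if (min i j, max i j) = p then 1 else 0, fun t => ?_⟩
    ext i j
    simp only [goeMatrix, Matrix.add_apply, Matrix.smul_apply, smul_eq_mul, Matrix.of_apply]
    by_cases h : (min i j, max i j) = p
    · rw [h]; simp
    · simp [h]
  · refine ⟨fun p => if p.1 = p.2 then ((p.1 : ℕ) : ℝ) else 0, ?_⟩
    have : goeMatrix (fun p : Fin n × Fin n => if p.1 = p.2 then ((p.1 : ℕ) : ℝ) else 0) = diagonal fun i : Fin n => ((i : ℕ) : ℝ) := by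
      ext i j
      by_cases h : i = j
      · subst h; simp [goeMatrix]
      · have h' : min i j ≠ max i j := fun e => h (le_antisymm (by
          calc i ≤ max i j := le_max_left _ _
            _ = min i j := e.symm
            _ ≤ j := min_le_right _ _) (by
          calc j ≤ max i j := le_max_right _ _
            _ = min i j := e.symm
            _ ≤ i := min_le_left _ _))
        simp [goeMatrix, h', Matrix.diagonal_apply_ne _ h]
    rw [this]
    exact eig_simple_diag fun i j h => Fin.ext (by exact_mod_cast h)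

/-- the averaged overlaps are Borel functions of a continuous family of segments -/
theorem eig_Sb_meas {X : Type} [TopologicalSpace X] [MeasurableSpace X] [OpensMeasurableSpace X] {A P : X → Matrix ι ι ℝ}
    (hA : ∀ i j, Continuous fun x => A x i j) (hP : ∀ i j, Continuous fun x => P x i j) (hAh : ∀ x, (A x).IsHermitian)
    (hPh : ∀ x, (P x).IsHermitian) (k : ℕ) (j : ι) : Measurable fun x => eigSb (A x) (P x) k j := by
  have hc' : ∀ i l, Continuous fun p : X × ℝ => (A p.1 + p.2 • P p.1) i l := fun i l => by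
    simp only [Matrix.add_apply, Matrix.smul_apply, smul_eq_mul]
    exact ((hA i l).comp continuous_fst).add (continuous_snd.mul ((hP i l).comp continuous_fst))
  have hH' : ∀ p : X × ℝ, (A p.1 + p.2 • P p.1).IsHermitian := fun p => eig_herm_path (hAh p.1) (hPh p.1) p.2
  have h1 : Measurable fun p : X × ℝ => eigS (A p.1 + p.2 • P p.1) k j := eig_S_meas hc' hH' k j
  have h2 : StronglyMeasurable (Function.uncurry fun (x : X) (a : ℝ) => eigS (A x + a • P x) k j) := h1.stronglyMeasurable
  have h3 := (h2.integral_prod_right (ν := volume.restrict (Set.Ioc (0 : ℝ) 1))).measurable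
  have e : (fun x => eigSb (A x) (P x) k j) = fun x => ∫ a in Set.Ioc (0 : ℝ) 1, eigS (A x + a • P x) k j := by
    funext x
    unfold eigSb
    rw [intervalIntegral.integral_of_le zero_le_one]
  rw [e]
  exact h3

/-- **SAME NOISE COUPLING** (U3 of the route): for almost every noise, the ordered eigenvalues of `diag y + c W` and of `diag x + c W` differ by a doubly stochastic average of `y - x` -/
theorem eig_hf_goe (x y : ι → ℝ) {c : ℝ} (hc : c ≠ 0) :
    ∀ᵐ N ∂(gArr ι ι),
      (∀ k, k < Fintype.card ι → eigD (diagonal y + c • goeOf N) k - eigD (diagonal x + c • goeOf N) k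
        = ∑ j, eigSb (diagonal x + c • goeOf N) (diagonal (y - x)) k j * (y j - x j)) ∧
      (∀ k, k < Fintype.card ι → ∑ j, eigSb (diagonal x + c • goeOf N) (diagonal (y - x)) k j = 1) ∧
      (∀ j, ∑ k ∈ range (Fintype.card ι), eigSb (diagonal x + c • goeOf N) (diagonal (y - x)) k j = 1) ∧
      ∀ k j, 0 ≤ eigSb (diagonal x + c • goeOf N) (diagonal (y - x)) k j := by
  refine (eig_goe_simple_ae (eig_diag_herm x) hc).mono fun N hN => ?_
  have hA : (diagonal x + c • goeOf N).IsHermitian := eig_herm_path (eig_diag_herm x) (eig_goeOf_herm N) c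
  have hs : ∃ a : ℝ, EigSimple (diagonal x + c • goeOf N + a • (diagonal (y - x) : Matrix ι ι ℝ)) := ⟨0, by simpa using hN⟩
  refine ⟨fun k hk => ?_, fun k hk => eig_Sb_row hA (eig_diag_herm _) hs hk, fun j => eig_Sb_col hA (eig_diag_herm _) hs j,
    fun k j => eig_Sb_nonneg hA (eig_diag_herm _) k j⟩
  have := eig_hf_diag hA (y - x) hs hk
  have e : diagonal x + c • goeOf N + (diagonal (y - x) : Matrix ι ι ℝ) = diagonal y + c • goeOf N := by
    have : (diagonal (y - x) : Matrix ι ι ℝ) = diagonal y - diagonal x := by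
      rw [Matrix.diagonal_sub]
      rfl
    rw [this]; abel
  rw [e] at this
  simpa using this

end inst

end Claimed.Agent.R287
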