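import Mathlib

/-!
# Row 287 (S0534), BOX[QF]: GAUSSIAN QUADRATIC FORMS      (owner + prover helper230; prefix `qf_`, defs `qfG qfQ qfR qfC`; 0 sorry)

Model free kit (Mathlib only) for `origin/helper275:notes/R287/A9_helper275.md` 1(d), 1(e) (one step lemma U0), also usable for the Schur step of the GOE descent (S1').
`qfG ι` = standard Gaussian vector on `ι → ℝ` (`Measure.pi fun _ => gaussianReal 0 1`, by `rfl`),  `qfQ A g = gᵀ A g`,  `qfC G g = gᵀ G g` for complex `G`.
* 1 dim:  `qf_g1_exp_sq` `E e^{u X²} = (1-2u)^{-1/2}`, `qf_g1_laplace` `E e^{u(X²-1)} ≤ e^{2u²}` (`|u| ≤ 1/4`), `qf_g1_sq`, `qf_g1_four`, `qf_g1_var_sq`, `qf_g1_tail`.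
* rotation: `qf_rot` (measure preserving), `qf_rot_integral`, `qf_rot_integrable` (EVERY `f`), `qf_integral_diag`: `E F(gᵀAg) = E F(Σ λ_i x_i²)`.
* `qf_mean` `E gᵀAg = Tr A`;  `qf_var` `E (gᵀAg - Tr A)² = 2 Tr A²`;  `qf_laplace(')` `E e^{t(gᵀAg - Tr A)} ≤ e^{2 t² Tr A²}` if `|t| ‖A‖ ≤ 1/4`.
* tails: `qf_chernoff`, `qf_tail_upper`, `qf_tail` (Bernstein: `2 exp(- min(r²/8H, r/8α))`), `qf_cheb`.
* complex symmetric `G` (resolvent of a real symmetric matrix): `qf_C_var` `E |gᵀGg - Tr G|² = 2 Σ|G_ij|²`, `qf_C_tail`.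
The operator norm enters as `∀ v, |vᵀ A v| ≤ α vᵀv`.
-/

set_option autoImplicit false
set_option linter.unusedSectionVars false

namespace Claimed.Agent.R287

open MeasureTheory ProbabilityTheory Matrix

/-! ## 1. one dimension -/

theorem qf_g1_integrable_iff (f : ℝ → ℝ) :
    Integrable f (gaussianReal 0 1) ↔ Integrable (fun x => gaussianPDFReal 0 1 x * f x) := by
  rw [gaussianReal_of_var_ne_zero 0 one_ne_zero]
  unfold gaussianPDF
  rw [integrable_withDensity_iff_integrable_smul' (by fun_prop) (by simp)]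
  refine integrable_congr (Filter.Eventually.of_forall fun x => ?_)
  simp only [smul_eq_mul]
  rw [ENNReal.toReal_ofReal (gaussianPDFReal_nonneg 0 1 x)]

theorem qf_g1_pdf_mul_exp (u x : ℝ) :
    gaussianPDFReal 0 1 x * Real.exp (u * x ^ 2) = (Real.sqrt (2 * Real.pi))⁻¹ * Real.exp (-(1 / 2 - u) * x ^ 2) := by
  simp only [gaussianPDFReal, sub_zero, NNReal.coe_one, mul_one]
  rw [mul_assoc, ← Real.exp_add]
  congr 2
  ring

theorem qf_g1_exp_sq_integrable {u : ℝ} (hu : u < 1 / 2) :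
    Integrable (fun x => Real.exp (u * x ^ 2)) (gaussianReal 0 1) := by
  rw [qf_g1_integrable_iff]
  simp only [qf_g1_pdf_mul_exp]
  exact (integrable_exp_neg_mul_sq (by linarith)).const_mul _

/-- `E exp (u X²) = (1 - 2u)^{-1/2}` -/
theorem qf_g1_exp_sq {u : ℝ} (hu : u < 1 / 2) :
    ∫ x, Real.exp (u * x ^ 2) ∂gaussianReal 0 1 = (Real.sqrt (1 - 2 * u))⁻¹ := by
  rw [integral_gaussianReal_eq_integral_smul one_ne_zero]
  simp only [smul_eq_mul, qf_g1_pdf_mul_exp]
  rw [integral_const_mul, integral_gaussian, ← Real.sqrt_inv, ← Real.sqrt_inv, ← Real.sqrt_mul (by positivity)]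
  congr 1
  have h1 : (1 : ℝ) / 2 - u ≠ 0 := by linarith
  have h2 : (1 : ℝ) - 2 * u ≠ 0 := by linarith
  field_simp

/-- `log (1 - s) ≥ - s - s²` for `|s| ≤ 1/2` -/
theorem qf_log_lower {s : ℝ} (h1 : -(1 / 2) ≤ s) (h2 : s ≤ 1 / 2) : -s - s ^ 2 ≤ Real.log (1 - s) := by
  have hd : ∀ x : ℝ, x < 1 → HasDerivAt (fun x => Real.log (1 - x) + x + x ^ 2) (x * (1 - 2 * x) / (1 - x)) x := by
    intro x hx
    have h0 : (1 : ℝ) - x ≠ 0 := by linarith
    have := ((((hasDerivAt_id x).const_sub 1).log h0).add (hasDerivAt_id x)).add ((hasDerivAt_id x).pow 2)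
    refine this.congr_deriv ?_
    simp only [id]
    field_simp
    ring
  have hc : ContinuousOn (fun x : ℝ => Real.log (1 - x) + x + x ^ 2) (Set.Icc (-(1 / 2)) (1 / 2)) :=
    fun x hx => (hd x (by linarith [hx.2])).continuousAt.continuousWithinAt
  rcases le_total 0 s with hs | hs
  · have hm : MonotoneOn (fun x : ℝ => Real.log (1 - x) + x + x ^ 2) (Set.Icc 0 (1 / 2)) := by
      refine monotoneOn_of_deriv_nonneg (convex_Icc _ _) (hc.mono (Set.Icc_subset_Icc (by norm_num) le_rfl)) ?_ ?_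
      · intro x hx
        rw [interior_Icc] at hx
        exact (hd x (by linarith [hx.2])).differentiableAt.differentiableWithinAt
      · intro x hx
        rw [interior_Icc] at hx
        rw [(hd x (by linarith [hx.2])).deriv]
        have := hx.1; have := hx.2
        apply div_nonneg (mul_nonneg (by linarith) (by linarith)) (by linarith)
    have := hm (Set.left_mem_Icc.2 (by norm_num)) ⟨hs, h2⟩ hs
    simp at this
    linarith
  · have hm : AntitoneOn (fun x : ℝ => Real.log (1 - x) + x + x ^ 2) (Set.Icc (-(1 / 2)) 0) := by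
      refine antitoneOn_of_deriv_nonpos (convex_Icc _ _) (hc.mono (Set.Icc_subset_Icc le_rfl (by norm_num))) ?_ ?_
      · intro x hx
        rw [interior_Icc] at hx
        exact (hd x (by linarith [hx.2])).differentiableAt.differentiableWithinAt
      · intro x hx
        rw [interior_Icc] at hx
        rw [(hd x (by linarith [hx.2])).deriv]
        have := hx.1; have := hx.2
        apply div_nonpos_of_nonpos_of_nonneg (mul_nonpos_of_nonpos_of_nonneg (by linarith) (by linarith)) (by linarith)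
    have := hm ⟨h1, hs⟩ (Set.right_mem_Icc.2 (by norm_num)) hs
    simp at this
    linarith

/-- `E exp (u (X² - 1)) ≤ exp (2 u²)` for `|u| ≤ 1/4` -/
theorem qf_g1_laplace {u : ℝ} (hu : |u| ≤ 1 / 4) :
    ∫ x, Real.exp (u * (x ^ 2 - 1)) ∂gaussianReal 0 1 ≤ Real.exp (2 * u ^ 2) := by
  obtain ⟨h1, h2⟩ := abs_le.1 hu
  have e : ∀ x : ℝ, Real.exp (u * (x ^ 2 - 1)) = Real.exp (-u) * Real.exp (u * x ^ 2) := by
    intro x
    rw [← Real.exp_add]
    congr 1
    ring
  simp only [e]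
  rw [integral_const_mul, qf_g1_exp_sq (by linarith)]
  have hpos : (0 : ℝ) < 1 - 2 * u := by linarith
  have hl := qf_log_lower (s := 2 * u) (by linarith) (by linarith)
  have e2 : (Real.sqrt (1 - 2 * u))⁻¹ = Real.exp (-(Real.log (1 - 2 * u) / 2)) := by
    rw [Real.exp_neg, Real.sqrt_eq_rpow, Real.rpow_def_of_pos hpos]
    congr 2
    ring
  rw [e2, ← Real.exp_add]
  apply Real.exp_le_exp.2
  nlinarith

theorem qf_g1_sq : ∫ x, x ^ 2 ∂gaussianReal 0 1 = 1 := by
  have h := variance_id_gaussianReal (μ := 0) (v := 1)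
  rw [variance_eq_sub (memLp_id_gaussianReal 2)] at h
  simpa using h

theorem qf_g1_pow_integrable (n : ℕ) : Integrable (fun x : ℝ => x ^ n) (gaussianReal 0 1) := by
  have h := (memLp_id_gaussianReal (μ := 0) (v := 1) n)
  rcases Nat.eq_zero_or_pos n with rfl | hn
  · simp
  · have := h.integrable_norm_pow (by omega)
    refine this.mono' (by fun_prop) (Filter.Eventually.of_forall fun x => ?_)
    simp

theorem qf_g1_four : ∫ x, x ^ 4 ∂gaussianReal 0 1 = 3 := by
  have h0 : (0 : ℝ) ∈ interior (integrableExpSet id (gaussianReal 0 1)) := by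
    simp [integrableExpSet_id_gaussianReal]
  have h := iteratedDeriv_mgf_zero h0 4
  rw [mgf_id_gaussianReal] at h
  simp only [Pi.pow_apply, id] at h
  rw [← h]
  have e0 : (fun t : ℝ => Real.exp (0 * t + ((1 : NNReal) : ℝ) * t ^ 2 / 2)) = fun t => (fun _ => (1 : ℝ)) t * Real.exp (t ^ 2 / 2) := by
    funext t
    simp
  have hE : ∀ t : ℝ, HasDerivAt (fun t : ℝ => Real.exp (t ^ 2 / 2)) (t * Real.exp (t ^ 2 / 2)) t := by
    intro t
    have := (((hasDerivAt_id' t).fun_pow 2).div_const 2).exp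
    refine this.congr_deriv ?_
    ring
  have key : ∀ (p p' : ℝ → ℝ), (∀ t, HasDerivAt p (p' t) t) →
      deriv (fun t => p t * Real.exp (t ^ 2 / 2)) = fun t => (fun t => p' t + t * p t) t * Real.exp (t ^ 2 / 2) := by
    intro p p' hp
    funext t
    rw [((hp t).fun_mul (hE t)).deriv]
    ring
  rw [e0]
  simp only [iteratedDeriv_succ, iteratedDeriv_zero]
  rw [key _ (fun _ => 0) (fun t => hasDerivAt_const t 1)]
  rw [key _ (fun _ => 1) (fun t => by simpa using hasDerivAt_id' t)]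
  rw [key _ (fun t => 2 * t) (fun t => by
    have := ((hasDerivAt_id' t).fun_mul (hasDerivAt_id' t)).const_add 1
    refine (this.congr_deriv ?_).congr_of_eventuallyEq (Filter.Eventually.of_forall fun x => ?_)
    · ring
    · simp)]
  rw [key _ (fun t => 3 + 3 * t ^ 2) (fun t => by
    have := ((hasDerivAt_id' t).const_mul 3).fun_add ((hasDerivAt_id' t).fun_pow 3)
    refine (this.congr_deriv ?_).congr_of_eventuallyEq (Filter.Eventually.of_forall fun x => ?_)
    · ring
    · ring)]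
  simp

/-- tail of one standard Gaussian -/
theorem qf_g1_tail {r : ℝ} (hr : 0 ≤ r) : (gaussianReal 0 1).real {x | r ≤ |x|} ≤ 2 * Real.exp (-r ^ 2 / 2) := by
  have hu : ∀ s : ℝ, (gaussianReal 0 1).real {x | r ≤ s * x} ≤ Real.exp (-r * r) * mgf (fun x => s * x) (gaussianReal 0 1) r := by
    intro s
    refine measure_ge_le_exp_mul_mgf (X := fun x => s * x) r hr ?_
    have := integrable_exp_mul_gaussianReal (μ := 0) (v := 1) (r * s)
    refine this.congr (Filter.Eventually.of_forall fun x => ?_)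
    simp only
    ring_nf
  have hm : ∀ s : ℝ, s ^ 2 = 1 → mgf (fun x => s * x) (gaussianReal 0 1) r = Real.exp (r ^ 2 / 2) := by
    intro s hs
    have h := congrFun (mgf_id_gaussianReal (μ := 0) (v := 1)) (r * s)
    simp only [mgf, id] at h ⊢
    have e : ∀ x : ℝ, r * (s * x) = r * s * x := fun x => by ring
    simp only [e]
    rw [h]
    congr 1
    simp only [NNReal.coe_one]
    rw [mul_pow, hs]
    ring
  have h1 := hu 1
  have h2 := hu (-1)
  rw [hm 1 (by norm_num)] at h1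
  rw [hm (-1) (by norm_num)] at h2
  have e : Real.exp (-r * r) * Real.exp (r ^ 2 / 2) = Real.exp (-r ^ 2 / 2) := by
    rw [← Real.exp_add]
    congr 1
    ring
  rw [e] at h1 h2
  have hs : {x : ℝ | r ≤ |x|} ⊆ {x | r ≤ 1 * x} ∪ {x | r ≤ -1 * x} := by
    intro x hx
    simp only [Set.mem_ofPred_eq, Set.mem_union] at hx ⊢
    rcases le_abs.1 hx with h | h
    · exact Or.inl (by linarith)
    · exact Or.inr (by linarith)
  calc _ ≤ (gaussianReal 0 1).real _ := measureReal_mono hs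
    _ ≤ _ := measureReal_union_le _ _
    _ ≤ _ := by linarith

/-! ## 2. the standard Gaussian vector, rotations -/

variable {ι : Type*} [Fintype ι]

/-- the standard Gaussian vector -/
noncomputable def qfG (ι : Type*) [Fintype ι] : Measure (ι → ℝ) := Measure.pi fun _ => gaussianReal 0 1

instance qfG_prob : IsProbabilityMeasure (qfG ι) := by unfold qfG; infer_instance

/-- the quadratic form `gᵀ A g` -/
def qfQ (A : Matrix ι ι ℝ) (g : ι → ℝ) : ℝ := g ⬝ᵥ A *ᵥ g

/-- the rotation attached to an orthonormal basis -/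
noncomputable def qfR (b : OrthonormalBasis ι ℝ (EuclideanSpace ℝ ι)) (x : ι → ℝ) : ι → ℝ := ∑ i, x i • (b i).ofLp

theorem qf_R_eq (b : OrthonormalBasis ι ℝ (EuclideanSpace ℝ ι)) (x : ι → ℝ) :
    qfR b x = (∑ i, x i • b i : EuclideanSpace ℝ ι).ofLp := by
  simp [qfR]

theorem qf_R_continuous (b : OrthonormalBasis ι ℝ (EuclideanSpace ℝ ι)) : Continuous (qfR b) := by
  unfold qfR
  fun_prop

theorem qf_R_injective (b : OrthonormalBasis ι ℝ (EuclideanSpace ℝ ι)) : Function.Injective (qfR b) := by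
  intro x y h
  rw [qf_R_eq, qf_R_eq] at h
  have h' := WithLp.ofLp_injective _ h
  funext j
  have h1 := b.orthonormal.inner_right_fintype x j
  have h2 := b.orthonormal.inner_right_fintype y j
  rw [← h1, ← h2, h']

theorem qf_rot (b : OrthonormalBasis ι ℝ (EuclideanSpace ℝ ι)) : MeasurePreserving (qfR b) (qfG ι) (qfG ι) := by
  refine ⟨(qf_R_continuous b).measurable, ?_⟩
  have h1 := stdGaussian_eq_map_pi_orthonormalBasis b
  rw [← map_pi_eq_stdGaussian] at h1
  have h2 := congrArg (Measure.map (WithLp.ofLp (p := 2) (V := ι → ℝ))) h1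
  rw [Measure.map_map (by fun_prop) (by fun_prop), Measure.map_map (by fun_prop) (by fun_prop)] at h2
  have e1 : (WithLp.ofLp (p := 2) (V := ι → ℝ)) ∘ (WithLp.toLp 2) = id := by
    funext x; simp
  have e2 : ((WithLp.ofLp (p := 2) (V := ι → ℝ)) ∘ fun x : ι → ℝ => ∑ i, x i • b i) = qfR b := by
    funext x
    simp [qfR]
  rw [e1, e2, Measure.map_id] at h2
  exact h2.symm

theorem qf_rot_emb (b : OrthonormalBasis ι ℝ (EuclideanSpace ℝ ι)) : MeasurableEmbedding (qfR b) :=
  (qf_R_continuous b).measurableEmbedding (qf_R_injective b)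

theorem qf_rot_integral (b : OrthonormalBasis ι ℝ (EuclideanSpace ℝ ι)) (f : (ι → ℝ) → ℝ) :
    ∫ x, f (qfR b x) ∂qfG ι = ∫ g, f g ∂qfG ι :=
  (qf_rot b).integral_comp (qf_rot_emb b) f

theorem qf_rot_integrable (b : OrthonormalBasis ι ℝ (EuclideanSpace ℝ ι)) (f : (ι → ℝ) → ℝ) :
    Integrable (fun x => f (qfR b x)) (qfG ι) ↔ Integrable f (qfG ι) :=
  (qf_rot b).integrable_comp_emb (qf_rot_emb b)

theorem qf_basis_dot (b : OrthonormalBasis ι ℝ (EuclideanSpace ℝ ι)) [DecidableEq ι] (i j : ι) :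
    (b i).ofLp ⬝ᵥ (b j).ofLp = if i = j then 1 else 0 := by
  have h := orthonormal_iff_ite.1 b.orthonormal j i
  rw [EuclideanSpace.inner_eq_star_dotProduct] at h
  simp only [star_trivial] at h
  rw [h]
  simp [eq_comm]

variable [DecidableEq ι]

theorem qf_Q_R {A : Matrix ι ι ℝ} (hA : A.IsHermitian) (x : ι → ℝ) :
    qfQ A (qfR hA.eigenvectorBasis x) = ∑ i, hA.eigenvalues i * x i ^ 2 := by
  unfold qfQ qfR
  rw [Matrix.mulVec_sum]
  simp only [Matrix.mulVec_smul, hA.mulVec_eigenvectorBasis]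
  rw [dotProduct_sum]
  refine Finset.sum_congr rfl fun i _ => ?_
  rw [sum_dotProduct]
  simp only [smul_dotProduct, dotProduct_smul, qf_basis_dot, smul_eq_mul]
  simp
  ring

theorem qf_trace (A : Matrix ι ι ℝ) (hA : A.IsHermitian) : A.trace = ∑ i, hA.eigenvalues i := by
  simpa using hA.trace_eq_sum_eigenvalues

theorem qf_trace_sq {A : Matrix ι ι ℝ} (hA : A.IsHermitian) : (A * A).trace = ∑ i, hA.eigenvalues i ^ 2 := by
  have h := hA.spectral_theorem
  conv_lhs => rw [h]
  rw [← map_mul, Unitary.conjStarAlgAut_apply, Matrix.trace_mul_cycle]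
  simp [Matrix.trace, sq]


/-! ## 3. mean, variance, Laplace transform -/

theorem qf_Q_continuous (A : Matrix ι ι ℝ) : Continuous (qfQ A) := by
  unfold qfQ dotProduct mulVec dotProduct
  fun_prop

/-- transfer to the diagonal form -/
theorem qf_integral_diag {A : Matrix ι ι ℝ} (hA : A.IsHermitian) (F : ℝ → ℝ) :
    ∫ g, F (qfQ A g) ∂qfG ι = ∫ x, F (∑ i, hA.eigenvalues i * x i ^ 2) ∂qfG ι := by
  rw [← qf_rot_integral hA.eigenvectorBasis]
  simp only [qf_Q_R]

theorem qf_integrable_diag {A : Matrix ι ι ℝ} (hA : A.IsHermitian) (F : ℝ → ℝ) :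
    Integrable (fun g => F (qfQ A g)) (qfG ι) ↔ Integrable (fun x => F (∑ i, hA.eigenvalues i * x i ^ 2)) (qfG ι) := by
  rw [← qf_rot_integrable hA.eigenvectorBasis]
  simp only [qf_Q_R]

theorem qf_coord_integrable {f : ℝ → ℝ} (hf : Integrable f (gaussianReal 0 1)) (i : ι) :
    Integrable (fun x : ι → ℝ => f (x i)) (qfG ι) :=
  ((measurePreserving_eval (fun _ : ι => gaussianReal 0 1) i).integrable_comp hf.aestronglyMeasurable).2 hf

theorem qf_coord_integral {f : ℝ → ℝ} (hf : AEStronglyMeasurable f (gaussianReal 0 1)) (i : ι) :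
    ∫ x : ι → ℝ, f (x i) ∂qfG ι = ∫ y, f y ∂gaussianReal 0 1 :=
  integral_comp_eval (μ := fun _ : ι => gaussianReal 0 1) (i := i) hf

theorem qf_Q_integrable {A : Matrix ι ι ℝ} (hA : A.IsHermitian) : Integrable (qfQ A) (qfG ι) := by
  have := (qf_integrable_diag hA id).2
  refine this (integrable_finsetSum _ fun i _ => ?_)
  exact (qf_coord_integrable (qf_g1_pow_integrable 2) i).const_mul _

/-- **mean** -/
theorem qf_mean {A : Matrix ι ι ℝ} (hA : A.IsHermitian) : ∫ g, qfQ A g ∂qfG ι = A.trace := by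
  have := qf_integral_diag hA id
  simp only [id] at this
  rw [this, integral_finsetSum _ fun i _ => (qf_coord_integrable (qf_g1_pow_integrable 2) i).const_mul _, qf_trace A hA]
  refine Finset.sum_congr rfl fun i _ => ?_
  rw [integral_const_mul, qf_coord_integral (f := fun y => y ^ 2) (by fun_prop), qf_g1_sq, mul_one]

theorem qf_g1_var_sq : Var[fun x : ℝ => x ^ 2; gaussianReal 0 1] = 2 := by
  have hm : MemLp (fun x : ℝ => x ^ 2) 2 (gaussianReal 0 1) := by
    rw [memLp_two_iff_integrable_sq (by fun_prop)]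
    refine (qf_g1_pow_integrable 4).congr (Filter.Eventually.of_forall fun x => ?_)
    ring
  rw [variance_eq_sub hm, qf_g1_sq]
  have : ∫ x, ((fun x : ℝ => x ^ 2) ^ 2) x ∂gaussianReal 0 1 = 3 := by
    rw [← qf_g1_four]
    refine integral_congr_ae (Filter.Eventually.of_forall fun x => ?_)
    simp only [Pi.pow_apply]
    ring
  rw [this]
  norm_num

/-- **variance** -/
theorem qf_var {A : Matrix ι ι ℝ} (hA : A.IsHermitian) :
    ∫ g, (qfQ A g - A.trace) ^ 2 ∂qfG ι = 2 * (A * A).trace := by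
  rw [qf_integral_diag hA (fun q => (q - A.trace) ^ 2), qf_trace_sq hA]
  have hm : ∀ i, MemLp (fun x : ℝ => hA.eigenvalues i * x ^ 2) 2 (gaussianReal 0 1) := by
    intro i
    rw [memLp_two_iff_integrable_sq (by fun_prop)]
    refine ((qf_g1_pow_integrable 4).const_mul (hA.eigenvalues i ^ 2)).congr (Filter.Eventually.of_forall fun x => ?_)
    ring
  have h := variance_sum_pi (μ := fun _ : ι => gaussianReal 0 1) hm
  simp only [variance_const_mul, qf_g1_var_sq] at h
  rw [variance_eq_integral (by fun_prop)] at h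
  have hmean : ∫ x : ι → ℝ, (∑ i, fun ω : ι → ℝ => hA.eigenvalues i * ω i ^ 2) x ∂(Measure.pi fun _ : ι => gaussianReal 0 1)
      = A.trace := by
    have e := qf_integral_diag hA id
    simp only [id] at e
    rw [← qf_mean hA, e]
    refine integral_congr_ae (Filter.Eventually.of_forall fun x => ?_)
    simp
  rw [hmean] at h
  rw [Finset.mul_sum, ← Finset.sum_congr rfl (fun i _ => mul_comm _ _), ← h]
  refine integral_congr_ae (Filter.Eventually.of_forall fun x => ?_)
  simp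

theorem qf_sq_integrable {A : Matrix ι ι ℝ} (hA : A.IsHermitian) :
    Integrable (fun g => (qfQ A g - A.trace) ^ 2) (qfG ι) := by
  rw [qf_integrable_diag hA (fun q => (q - A.trace) ^ 2)]
  have hm : ∀ i, MemLp (fun x : ℝ => hA.eigenvalues i * x ^ 2) 2 (gaussianReal 0 1) := by
    intro i
    rw [memLp_two_iff_integrable_sq (by fun_prop)]
    refine ((qf_g1_pow_integrable 4).const_mul (hA.eigenvalues i ^ 2)).congr (Filter.Eventually.of_forall fun x => ?_)
    ring
  have h1 : ∀ i, MemLp (fun x : ι → ℝ => hA.eigenvalues i * x i ^ 2) 2 (qfG ι) := fun i =>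
    (hm i).comp_measurePreserving (measurePreserving_eval (fun _ : ι => gaussianReal 0 1) i)
  have h2 : MemLp (fun x : ι → ℝ => ∑ i, hA.eigenvalues i * x i ^ 2) 2 (qfG ι) :=
    memLp_finsetSum _ fun i _ => h1 i
  exact (h2.sub (memLp_const A.trace)).integrable_sq

theorem qf_exp_eq {A : Matrix ι ι ℝ} (hA : A.IsHermitian) (t : ℝ) (x : ι → ℝ) :
    Real.exp (t * (∑ i, hA.eigenvalues i * x i ^ 2 - A.trace))
      = ∏ i, Real.exp (t * hA.eigenvalues i * (x i ^ 2 - 1)) := by
  rw [← Real.exp_sum, qf_trace A hA, ← Finset.sum_sub_distrib, Finset.mul_sum]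
  congr 1
  refine Finset.sum_congr rfl fun i _ => ?_
  ring

theorem qf_g1_exp_integrable {u : ℝ} (hu : u < 1 / 2) :
    Integrable (fun x => Real.exp (u * (x ^ 2 - 1))) (gaussianReal 0 1) := by
  refine ((qf_g1_exp_sq_integrable hu).const_mul (Real.exp (-u))).congr (Filter.Eventually.of_forall fun x => ?_)
  simp only
  rw [← Real.exp_add]
  congr 1
  ring

theorem qf_exp_integrable {A : Matrix ι ι ℝ} (hA : A.IsHermitian) {t : ℝ} (ht : ∀ i, t * hA.eigenvalues i < 1 / 2) :
    Integrable (fun g => Real.exp (t * (qfQ A g - A.trace))) (qfG ι) := by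
  rw [qf_integrable_diag hA (fun q => Real.exp (t * (q - A.trace)))]
  simp only [qf_exp_eq]
  exact Integrable.fintype_prod (μ := fun _ : ι => gaussianReal 0 1)
    (f := fun i x => Real.exp (t * hA.eigenvalues i * (x ^ 2 - 1))) fun i => qf_g1_exp_integrable (ht i)

/-- **Laplace transform** (A9 1(e)) -/
theorem qf_laplace {A : Matrix ι ι ℝ} (hA : A.IsHermitian) {t : ℝ} (ht : ∀ i, |t * hA.eigenvalues i| ≤ 1 / 4) :
    ∫ g, Real.exp (t * (qfQ A g - A.trace)) ∂qfG ι ≤ Real.exp (2 * t ^ 2 * (A * A).trace) := by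
  rw [qf_integral_diag hA (fun q => Real.exp (t * (q - A.trace)))]
  simp only [qf_exp_eq]
  unfold qfG
  rw [integral_fintype_prod_eq_prod (f := fun i x => Real.exp (t * hA.eigenvalues i * (x ^ 2 - 1))), qf_trace_sq hA,
    Finset.mul_sum, Real.exp_sum]
  refine Finset.prod_le_prod (fun i _ => integral_nonneg fun x => (Real.exp_pos _).le) fun i _ => ?_
  refine (qf_g1_laplace (ht i)).trans (le_of_eq ?_)
  congr 1
  ring

/-! ## 4. operator norm in the form of a bound of the quadratic form -/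

theorem qf_eig_eq {A : Matrix ι ι ℝ} (hA : A.IsHermitian) (i : ι) :
    hA.eigenvalues i = qfQ A (hA.eigenvectorBasis i).ofLp := by
  unfold qfQ
  rw [hA.mulVec_eigenvectorBasis, dotProduct_smul, qf_basis_dot]
  simp

/-- `|vᵀ A v| ≤ α |v|²` bounds the eigenvalues -/
theorem qf_eig_abs_le {A : Matrix ι ι ℝ} (hA : A.IsHermitian) {α : ℝ} (h : ∀ v : ι → ℝ, |qfQ A v| ≤ α * (v ⬝ᵥ v)) (i : ι) :
    |hA.eigenvalues i| ≤ α := by
  rw [qf_eig_eq hA i]
  refine (h _).trans (le_of_eq ?_)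
  rw [qf_basis_dot]
  simp

/-- **Laplace transform**, operator norm form -/
theorem qf_laplace' {A : Matrix ι ι ℝ} (hA : A.IsHermitian) {α t : ℝ} (h : ∀ v : ι → ℝ, |qfQ A v| ≤ α * (v ⬝ᵥ v))
    (ht : |t| * α ≤ 1 / 4) :
    Integrable (fun g => Real.exp (t * (qfQ A g - A.trace))) (qfG ι) ∧
    ∫ g, Real.exp (t * (qfQ A g - A.trace)) ∂qfG ι ≤ Real.exp (2 * t ^ 2 * (A * A).trace) := by
  have h1 : ∀ i, |t * hA.eigenvalues i| ≤ 1 / 4 := fun i => by
    rw [abs_mul]
    exact (mul_le_mul_of_nonneg_left (qf_eig_abs_le hA h i) (abs_nonneg t)).trans ht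
  exact ⟨qf_exp_integrable hA fun i => by linarith [le_abs_self (t * hA.eigenvalues i), h1 i], qf_laplace hA h1⟩

/-! ## 5. tails -/

/-- Chernoff -/
theorem qf_chernoff {A : Matrix ι ι ℝ} (hA : A.IsHermitian) {α t : ℝ} (h : ∀ v : ι → ℝ, |qfQ A v| ≤ α * (v ⬝ᵥ v))
    (h0 : 0 ≤ t) (ht : t * α ≤ 1 / 4) (r : ℝ) :
    (qfG ι).real {g | r ≤ qfQ A g - A.trace} ≤ Real.exp (-t * r + 2 * t ^ 2 * (A * A).trace) := by
  obtain ⟨h1, h2⟩ := qf_laplace' hA h (t := t) (by rwa [abs_of_nonneg h0])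
  refine (measure_ge_le_exp_mul_mgf (X := fun g => qfQ A g - A.trace) r h0 h1).trans ?_
  rw [Real.exp_add]
  exact mul_le_mul_of_nonneg_left h2 (Real.exp_pos _).le

/-- **Bernstein, upper tail**: `P(Q - Tr A ≥ r) ≤ exp (- min (r²/(8 H), r/(8 α)))` for `Tr A² ≤ H` -/
theorem qf_tail_upper {A : Matrix ι ι ℝ} (hA : A.IsHermitian) {α H r : ℝ} (h : ∀ v : ι → ℝ, |qfQ A v| ≤ α * (v ⬝ᵥ v))
    (hα : 0 < α) (hH : 0 < H) (hAH : (A * A).trace ≤ H) (hr : 0 ≤ r) :
    (qfG ι).real {g | r ≤ qfQ A g - A.trace} ≤ Real.exp (-min (r ^ 2 / (8 * H)) (r / (8 * α))) := by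
  rcases le_total (r / (4 * H)) (1 / (4 * α)) with hc | hc
  · refine (qf_chernoff hA h (t := r / (4 * H)) (by positivity) ?_ r).trans (Real.exp_le_exp.2 ?_)
    · calc r / (4 * H) * α ≤ 1 / (4 * α) * α := mul_le_mul_of_nonneg_right hc hα.le
        _ = 1 / 4 := by field_simp
    · have e : -(r / (4 * H)) * r + 2 * (r / (4 * H)) ^ 2 * H = -(r ^ 2 / (8 * H)) := by
        field_simp
        ring
      have : 2 * (r / (4 * H)) ^ 2 * (A * A).trace ≤ 2 * (r / (4 * H)) ^ 2 * H :=
        mul_le_mul_of_nonneg_left hAH (by positivity)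
      have := min_le_left (r ^ 2 / (8 * H)) (r / (8 * α))
      linarith
  · refine (qf_chernoff hA h (t := 1 / (4 * α)) (by positivity) (le_of_eq (by field_simp)) r).trans
      (Real.exp_le_exp.2 ?_)
    have h3 : 2 * (1 / (4 * α)) ^ 2 * (A * A).trace ≤ 2 * (1 / (4 * α)) ^ 2 * H :=
      mul_le_mul_of_nonneg_left hAH (by positivity)
    have h4 : 2 * (1 / (4 * α)) ^ 2 * H ≤ 1 / (4 * α) * r / 2 := by
      have : 1 / (4 * α) * H ≤ r / 4 := by
        have := mul_le_mul_of_nonneg_right hc hH.le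
        calc 1 / (4 * α) * H ≤ r / (4 * H) * H := this
          _ = r / 4 := by field_simp
      calc 2 * (1 / (4 * α)) ^ 2 * H = 2 * (1 / (4 * α)) * (1 / (4 * α) * H) := by ring
        _ ≤ 2 * (1 / (4 * α)) * (r / 4) := mul_le_mul_of_nonneg_left this (by positivity)
        _ = _ := by ring
    have e : 1 / (4 * α) * r / 2 = r / (8 * α) := by
      field_simp
      ring
    have := min_le_right (r ^ 2 / (8 * H)) (r / (8 * α))
    linarith

theorem qf_Q_neg (A : Matrix ι ι ℝ) (g : ι → ℝ) : qfQ (-A) g = -qfQ A g := by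
  simp [qfQ, Matrix.neg_mulVec]

/-- **Bernstein, two sided** -/
theorem qf_tail {A : Matrix ι ι ℝ} (hA : A.IsHermitian) {α H r : ℝ} (h : ∀ v : ι → ℝ, |qfQ A v| ≤ α * (v ⬝ᵥ v))
    (hα : 0 < α) (hH : 0 < H) (hAH : (A * A).trace ≤ H) (hr : 0 ≤ r) :
    (qfG ι).real {g | r ≤ |qfQ A g - A.trace|} ≤ 2 * Real.exp (-min (r ^ 2 / (8 * H)) (r / (8 * α))) := by
  have h1 := qf_tail_upper hA h hα hH hAH hr
  have h2 := qf_tail_upper (A := -A) hA.neg (α := α) (H := H) (r := r) (fun v => by rw [qf_Q_neg, abs_neg]; exact h v) hα hH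
    (by simpa using hAH) hr
  have hs : {g | r ≤ |qfQ A g - A.trace|} ⊆ {g | r ≤ qfQ A g - A.trace} ∪ {g | r ≤ qfQ (-A) g - (-A).trace} := by
    intro g hg
    simp only [Set.mem_ofPred_eq, Set.mem_union, qf_Q_neg, Matrix.trace_neg] at hg ⊢
    rcases le_abs.1 hg with h | h
    · exact Or.inl h
    · exact Or.inr (by linarith)
  calc (qfG ι).real {g | r ≤ |qfQ A g - A.trace|} ≤ (qfG ι).real ({g | r ≤ qfQ A g - A.trace} ∪ {g | r ≤ qfQ (-A) g - (-A).trace}) :=
        measureReal_mono hs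
    _ ≤ _ := measureReal_union_le _ _
    _ ≤ _ := by linarith

/-- Chebyshev -/
theorem qf_cheb {A : Matrix ι ι ℝ} (hA : A.IsHermitian) {r : ℝ} (hr : 0 < r) :
    (qfG ι).real {g | r ≤ |qfQ A g - A.trace|} ≤ 2 * (A * A).trace / r ^ 2 := by
  have h := mul_meas_ge_le_integral_of_nonneg (μ := qfG ι) (f := fun g => (qfQ A g - A.trace) ^ 2)
    (Filter.Eventually.of_forall fun g => sq_nonneg _) (qf_sq_integrable hA) (r ^ 2)
  rw [qf_var hA] at h
  have hs : {g | r ≤ |qfQ A g - A.trace|} ⊆ {g | r ^ 2 ≤ (qfQ A g - A.trace) ^ 2} := by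
    intro g hg
    simp only [Set.mem_ofPred_eq] at hg ⊢
    rw [← sq_abs (qfQ A g - A.trace)]
    exact pow_le_pow_left₀ hr.le hg 2
  rw [le_div_iff₀ (by positivity), mul_comm]
  exact (mul_le_mul_of_nonneg_left (measureReal_mono hs) (by positivity)).trans h

/-! ## 6. complex symmetric matrices (resolvents) -/

/-- `gᵀ G g` for a complex matrix and a real vector -/
def qfC (G : Matrix ι ι ℂ) (g : ι → ℝ) : ℂ := ∑ i, ∑ j, (g i : ℂ) * G i j * (g j : ℂ)

theorem qf_Q_eq_sum (A : Matrix ι ι ℝ) (g : ι → ℝ) : qfQ A g = ∑ i, ∑ j, g i * A i j * g j := by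
  simp only [qfQ, dotProduct, mulVec, Finset.mul_sum, mul_assoc]

theorem qf_C_re (G : Matrix ι ι ℂ) (g : ι → ℝ) : (qfC G g).re = qfQ (G.map Complex.re) g := by
  simp [qfC, qf_Q_eq_sum]

theorem qf_C_im (G : Matrix ι ι ℂ) (g : ι → ℝ) : (qfC G g).im = qfQ (G.map Complex.im) g := by
  simp [qfC, qf_Q_eq_sum]

theorem qf_re_herm {G : Matrix ι ι ℂ} (hG : Gᵀ = G) : (G.map Complex.re).IsHermitian := by
  ext i j
  have := congrFun (congrFun hG i) j
  simp only [Matrix.transpose_apply] at this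
  simp [Matrix.conjTranspose_apply, this]

theorem qf_im_herm {G : Matrix ι ι ℂ} (hG : Gᵀ = G) : (G.map Complex.im).IsHermitian := by
  ext i j
  have := congrFun (congrFun hG i) j
  simp only [Matrix.transpose_apply] at this
  simp [Matrix.conjTranspose_apply, this]

theorem qf_trace_sq_herm {A : Matrix ι ι ℝ} (hA : A.IsHermitian) : (A * A).trace = ∑ i, ∑ j, A i j ^ 2 := by
  simp only [Matrix.trace, Matrix.diag_apply, Matrix.mul_apply]
  refine Finset.sum_congr rfl fun i _ => Finset.sum_congr rfl fun j _ => ?_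
  have := hA.apply i j
  simp only [star_trivial] at this
  rw [this, sq]

theorem qf_trace_re (G : Matrix ι ι ℂ) : (G.trace).re = (G.map Complex.re).trace := by
  simp [Matrix.trace]

theorem qf_trace_im (G : Matrix ι ι ℂ) : (G.trace).im = (G.map Complex.im).trace := by
  simp [Matrix.trace]

theorem qf_C_normSq (G : Matrix ι ι ℂ) (g : ι → ℝ) :
    ‖qfC G g - G.trace‖ ^ 2 = (qfQ (G.map Complex.re) g - (G.map Complex.re).trace) ^ 2
      + (qfQ (G.map Complex.im) g - (G.map Complex.im).trace) ^ 2 := by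
  rw [← Complex.normSq_eq_norm_sq, Complex.normSq_apply, Complex.sub_re, Complex.sub_im, qf_C_re, qf_C_im, qf_trace_re,
    qf_trace_im]
  ring

/-- **variance, complex symmetric `G`**: `E |gᵀ G g - Tr G|² = 2 ‖G‖²_HS` -/
theorem qf_C_var {G : Matrix ι ι ℂ} (hG : Gᵀ = G) :
    ∫ g, ‖qfC G g - G.trace‖ ^ 2 ∂qfG ι = 2 * ∑ i, ∑ j, ‖G i j‖ ^ 2 := by
  simp only [qf_C_normSq]
  rw [integral_add (qf_sq_integrable (qf_re_herm hG)) (qf_sq_integrable (qf_im_herm hG)), qf_var (qf_re_herm hG),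
    qf_var (qf_im_herm hG), qf_trace_sq_herm (qf_re_herm hG), qf_trace_sq_herm (qf_im_herm hG), ← mul_add,
    ← Finset.sum_add_distrib]
  congr 1
  refine Finset.sum_congr rfl fun i _ => ?_
  rw [← Finset.sum_add_distrib]
  refine Finset.sum_congr rfl fun j _ => ?_
  rw [← Complex.normSq_eq_norm_sq, Complex.normSq_apply]
  simp only [Matrix.map_apply]
  ring

theorem qf_C_sq_integrable {G : Matrix ι ι ℂ} (hG : Gᵀ = G) :
    Integrable (fun g => ‖qfC G g - G.trace‖ ^ 2) (qfG ι) := by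
  simp only [qf_C_normSq]
  exact (qf_sq_integrable (qf_re_herm hG)).add (qf_sq_integrable (qf_im_herm hG))

/-- **Bernstein, complex symmetric `G`** -/
theorem qf_C_tail {G : Matrix ι ι ℂ} (hG : Gᵀ = G) {α H r : ℝ} (h : ∀ v : ι → ℝ, ‖qfC G v‖ ≤ α * (v ⬝ᵥ v))
    (hα : 0 < α) (hH : 0 < H) (hGH : ∑ i, ∑ j, ‖G i j‖ ^ 2 ≤ H) (hr : 0 ≤ r) :
    (qfG ι).real {g | r ≤ ‖qfC G g - G.trace‖} ≤ 4 * Real.exp (-min (r ^ 2 / (32 * H)) (r / (16 * α))) := by
  have hle : ∀ i j, (G.map Complex.re) i j ^ 2 ≤ ‖G i j‖ ^ 2 ∧ (G.map Complex.im) i j ^ 2 ≤ ‖G i j‖ ^ 2 := by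
    intro i j
    rw [← Complex.normSq_eq_norm_sq, Complex.normSq_apply]
    simp only [Matrix.map_apply]
    constructor <;> nlinarith [sq_nonneg (G i j).re, sq_nonneg (G i j).im]
  have h1 := qf_tail (qf_re_herm hG) (α := α) (H := H) (r := r / 2)
    (fun v => by rw [← qf_C_re]; exact (Complex.abs_re_le_norm _).trans (h v)) hα hH
    (by rw [qf_trace_sq_herm (qf_re_herm hG)]
        exact (Finset.sum_le_sum fun i _ => Finset.sum_le_sum fun j _ => (hle i j).1).trans hGH) (by linarith)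
  have h2 := qf_tail (qf_im_herm hG) (α := α) (H := H) (r := r / 2)
    (fun v => by rw [← qf_C_im]; exact (Complex.abs_im_le_norm _).trans (h v)) hα hH
    (by rw [qf_trace_sq_herm (qf_im_herm hG)]
        exact (Finset.sum_le_sum fun i _ => Finset.sum_le_sum fun j _ => (hle i j).2).trans hGH) (by linarith)
  have e1 : (r / 2) ^ 2 / (8 * H) = r ^ 2 / (32 * H) := by field_simp; ring
  have e2 : r / 2 / (8 * α) = r / (16 * α) := by field_simp; ring
  rw [e1, e2] at h1 h2
  have hs : {g | r ≤ ‖qfC G g - G.trace‖} ⊆ {g | r / 2 ≤ |qfQ (G.map Complex.re) g - (G.map Complex.re).trace|}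
      ∪ {g | r / 2 ≤ |qfQ (G.map Complex.im) g - (G.map Complex.im).trace|} := by
    intro g hg
    simp only [Set.mem_ofPred_eq, Set.mem_union] at hg ⊢
    by_contra hcon
    push Not at hcon
    have h3 := Complex.norm_le_abs_re_add_abs_im (qfC G g - G.trace)
    rw [Complex.sub_re, Complex.sub_im, qf_C_re, qf_C_im, qf_trace_re, qf_trace_im] at h3
    linarith [hcon.1, hcon.2]
  calc _ ≤ (qfG ι).real _ := measureReal_mono hs
    _ ≤ _ := measureReal_union_le _ _
    _ ≤ _ := by linarith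

/-- cite the equation lemmas once, in the file of the definitions -/
theorem qf_eqns_cite : True := by
  have := @qfG.eq_1.{0}
  have := @qfQ.eq_1.{0}
  have := @qfR.eq_1.{0}
  have := @qfC.eq_1.{0}
  trivial

end Claimed.Agent.R287
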