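-- KEEP
import Claimed.Agent.R287.Defs
import Claimed.Agent.R287.Eig
import Claimed.Agent.R287.EigHF
import Claimed.Agent.R287.ResB
import Claimed.Agent.R287.Qf
import Claimed.Agent.R286.Gk.Split
import Claimed.Agent.Lib.BLGauss

/-!
# Row 287 (S0534), kit GOE-LAW      owner helper233      prefix `goe_`; defs `goeMat goeImg goeScl goeJoin goeCovR goeLvR goeRaw goeConj goeOff goeGlue goeDens goeVar goeLv goeCov goeSym`      0 sorry

The raw GOE of `Defs` is `goeOf N`, `N ~ gArr ι ι` (any `Fintype ι`);  its law on matrices is `goeRaw ι = (gArr ι ι).map goeOf`.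
* measurability on `Matrix` (instance `matMeasSp`): `goe_entry_measurable`, `goe_measurable_of_entries`, `goe_of_measurable`, `goe_smul_measurable`, `goe_conj_measurable`, `goe_mul3_measurable`, `goe_add_measurable`, `goe_transpose_measurable`, `goe_block_measurable`.
* `goe_gArr_eq : gArr ι κ = (ghStd (ι × κ)).map goeMat` (link with the Gaussian kit of row 286), `goe_gArr_prob`, `goe_raw_prob`.
* CHARACTERISATION `goe_raw_of_cov`: a linear image of standard Gaussians whose covariance is `c² (δ_ik δ_jl + δ_il δ_jk)` has the law of `c W`.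
* ORTHOGONAL INVARIANCE `goe_raw_conj : O Oᵀ = 1 → (goeRaw ι).map (O * · * Oᵀ) = goeRaw κ` (rectangular `O : κ × ι` allowed: compressions), `goe_raw_integral_conj`, `goe_raw_reindex`.
* ADDITIVITY `goe_raw_add : a W + b W' ~ √(a²+b²) W''`, `goe_raw_integral_add`.
* BLOCKS `goe_raw_block : fromBlocks W₁ N Nᵀ W₂ ~ goeRaw (α ⊕ β)` for independent `W₁ ~ goeRaw α`, `N ~ gArr α β`, `W₂ ~ goeRaw β`; `goe_raw_integral_block`; general glueing `goe_raw_glue` (`P Pᵀ + R Rᵀ = 1`).
* SHIFT (Cameron-Martin, no hypothesis on `F`): `goe_std_shift`, `goe_gArr_shift`, `goe_of_shift : E F(W + Θ) = E [goeDens Θ W * F W]`, `goeDens Θ W = exp (tr ΘW / 2 - tr Θ² / 4)`;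
  `goe_dens_int` (`= 1`), `goe_dens_sq_int` (`= exp (tr Θ² / 2)`), `goe_dens_chi`, `goe_dens_l1`, `goe_shift_tv`.
* INDEPENDENCE: `goe_indep` (two linear images of the same drivers with zero cross covariance: joint law = product of the marginals); `goe_del_indep T` (the cross `W - rsDel W T` is independent of the minor `rsDel W T`);
  `goe_row_law j` (row `j` of `W` ~ `goeRowD j g`, `g ~ qfG ι`), `goe_row_indep j`, `goe_row_lintegral`, `goe_row_integral`.
* `rTr`: `goe_rTr_measurable` (total inverse: `goe_inv_measurable`, `goe_det_measurable`), `goe_rTr_conj`, `goe_rTr_smul`.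
* `N`-FORMS for `F` measurable on symmetric matrices only (`Measurable fun M => F (goeSym M)`): `goe_of_integral_conj`, `goe_of_integral_add`, `goe_raw_integral`.
* (E3): `goe_int_diag` (noise in any eigenbasis), `goe_mix_add` (`a goeMatrix x + c goeOf N ~ √(a² + n c²) goeMatrix x'`), `goe_diag_perm`, `goe_diag_sorted`, `goe_add_trace`.
* FROZEN OBJECTS: `goe_frozen : (goeArray n).map goeMatrix = (goeRaw (Fin n)).map ((√n)⁻¹ • ·)`, `goe_frozen_integral`, `goe_laplace_eq` (`goeLaplace n h` as an integral over `gArr (Fin n) (Fin n)`).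
-/

set_option autoImplicit false
set_option linter.unusedSectionVars false

namespace Claimed.Agent.R287

open Claims.C0462 Matrix MeasureTheory ProbabilityTheory Claimed.Agent.R286

section raw
variable {ι κ : Type} [Fintype ι] [Fintype κ]

/-- matrix from the array of its entries -/
def goeMat (m : ι × κ → ℝ) : Matrix ι κ ℝ := fun i j => m (i, j)

theorem goe_mat_measurable : Measurable (goeMat : (ι × κ → ℝ) → Matrix ι κ ℝ) :=
  (MeasurableEquiv.curry ι κ ℝ).measurable

theorem goe_mat_emb : MeasurableEmbedding (goeMat : (ι × κ → ℝ) → Matrix ι κ ℝ) :=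
  (MeasurableEquiv.curry ι κ ℝ).measurableEmbedding

theorem goe_entry_measurable (i : ι) (j : κ) : Measurable fun M : Matrix ι κ ℝ => M i j :=
  (measurable_pi_apply (X := fun _ : κ => ℝ) j).comp (measurable_pi_apply (X := fun _ : ι => κ → ℝ) i)

theorem goe_measurable_of_entries {X : Type*} [MeasurableSpace X] {f : X → Matrix ι κ ℝ} (h : ∀ i j, Measurable fun x => f x i j) : Measurable f :=
  measurable_pi_lambda _ fun i => measurable_pi_lambda _ fun j => h i j

theorem goe_mat_add (m m' : ι × κ → ℝ) : goeMat (m + m') = goeMat m + goeMat m' := rfl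
theorem goe_mat_smul (c : ℝ) (m : ι × κ → ℝ) : goeMat (c • m) = c • goeMat m := rfl

/-- the iid array of `Defs` is the image of the standard drivers -/
theorem goe_gArr_eq : gArr ι κ = (ghStd (ι × κ)).map goeMat := by
  have h := Measure.infinitePi_map_curry (fun (_ : ι) (_ : κ) => gaussianReal 0 1)
  simp only [Measure.infinitePi_eq_pi] at h
  exact h.symm

instance goe_gArr_prob : IsProbabilityMeasure (gArr ι κ) := by
  rw [goe_gArr_eq]; exact Measure.isProbabilityMeasure_map goe_mat_measurable.aemeasurable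

/-! ### operations on levels -/

/-- linear image of a level -/
def goeImg {S S' ι : Type} [Fintype S] (T : S' → S → ℝ) (l : GhLv S ι) : GhLv S' ι := ⟨l.m, fun s p => ∑ s', T s s' * l.A s' p⟩

theorem goe_img_inc {S S' ι : Type} [Fintype S] [Fintype S'] [Fintype ι] (T : S' → S → ℝ) (l : GhLv S ι) (ξ : ι → ℝ) (s : S') :
    (goeImg T l).inc ξ s = ∑ s', T s s' * l.inc ξ s' := by
  simp only [GhLv.inc, goeImg, Finset.sum_mul, Finset.mul_sum]
  rw [Finset.sum_comm]
  exact Finset.sum_congr rfl fun _ _ => Finset.sum_congr rfl fun _ _ => by ring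

theorem goe_img_cov {S S' ι : Type} [Fintype S] [Fintype S'] [Fintype ι] (T : S' → S → ℝ) (l : GhLv S ι) (s t : S') :
    (goeImg T l).cov s t = ∑ s', ∑ t', T s s' * T t t' * l.cov s' t' := by
  simp only [GhLv.cov, goeImg]
  simp_rw [Finset.sum_mul_sum, Finset.mul_sum]
  rw [Finset.sum_comm]
  refine Finset.sum_congr rfl fun s' _ => ?_
  rw [Finset.sum_comm]
  exact Finset.sum_congr rfl fun _ _ => Finset.sum_congr rfl fun _ _ => by ring

/-- rescaled level -/
def goeScl {S ι : Type} (c : ℝ) (l : GhLv S ι) : GhLv S ι := ⟨l.m, fun s p => c * l.A s p⟩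

theorem goe_scl_inc {S ι : Type} [Fintype S] [Fintype ι] (c : ℝ) (l : GhLv S ι) (ξ : ι → ℝ) : (goeScl c l).inc ξ = c • l.inc ξ := by
  funext s
  simp only [GhLv.inc, goeScl, Pi.smul_apply, smul_eq_mul, Finset.mul_sum, mul_assoc]

theorem goe_scl_cov {S ι : Type} [Fintype S] [Fintype ι] (c : ℝ) (l : GhLv S ι) (s t : S) : (goeScl c l).cov s t = c ^ 2 * l.cov s t := by
  simp only [GhLv.cov, goeScl, Finset.mul_sum]
  exact Finset.sum_congr rfl fun _ _ => by ring

/-- two levels side by side (independent drivers) -/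
def goeJoin {S ι₁ ι₂ : Type} (l₁ : GhLv S ι₁) (l₂ : GhLv S ι₂) : GhLv S (ι₁ ⊕ ι₂) := ⟨l₁.m, fun s => Sum.elim (l₁.A s) (l₂.A s)⟩

theorem goe_join_cov {S ι₁ ι₂ : Type} [Fintype S] [Fintype ι₁] [Fintype ι₂] (l₁ : GhLv S ι₁) (l₂ : GhLv S ι₂) (s t : S) :
    (goeJoin l₁ l₂).cov s t = l₁.cov s t + l₂.cov s t := by
  simp [GhLv.cov, goeJoin, Fintype.sum_sum_type]

/-- law of the sum of two independent levels -/
theorem goe_join_law {S ι₁ ι₂ : Type} [Fintype S] [Fintype ι₁] [Fintype ι₂] (l₁ : GhLv S ι₁) (l₂ : GhLv S ι₂) :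
    ((ghStd ι₁).prod (ghStd ι₂)).map (fun p => l₁.inc p.1 + l₂.inc p.2) = (ghStd (ι₁ ⊕ ι₂)).map (goeJoin l₁ l₂).inc :=
  ghs_law_add l₁ l₂ _ (goe_join_cov l₁ l₂)

/-! ### the raw GOE -/

variable [DecidableEq ι] [DecidableEq κ]

/-- the covariance of the raw GOE: `δ_ik δ_jl + δ_il δ_jk` -/
def goeCovR (s t : ι × ι) : ℝ := (if s.1 = t.1 ∧ s.2 = t.2 then 1 else 0) + (if s.1 = t.2 ∧ s.2 = t.1 then 1 else 0)

/-- the entries of `goeOf N`, as a level over the entries of `N` -/
noncomputable def goeLvR (ι : Type) [DecidableEq ι] : GhLv (ι × ι) (ι × ι) :=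
  ⟨0, fun s p => (Real.sqrt 2)⁻¹ * ((if p = s then 1 else 0) + (if p = s.swap then 1 else 0))⟩

theorem goe_lvR_inc (ξ : ι × ι → ℝ) : goeMat ((goeLvR ι).inc ξ) = goeOf (goeMat ξ) := by
  ext i j
  simp only [goeMat, GhLv.inc, goeLvR, goeOf, Matrix.smul_apply, Matrix.add_apply, Matrix.transpose_apply, smul_eq_mul, Prod.swap_prod_mk]
  simp only [mul_assoc, ← Finset.mul_sum, add_mul, Finset.sum_add_distrib, ite_mul, one_mul, zero_mul, Finset.sum_ite_eq', Finset.mem_univ, if_true]

theorem goe_covR_sum (f : ι × ι → ℝ) (s : ι × ι) : ∑ t, f t * goeCovR s t = f s + f s.swap := by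
  obtain ⟨a, b⟩ := s
  simp only [goeCovR, mul_add, Finset.sum_add_distrib]
  congr 1
  · rw [Finset.sum_eq_single (a, b)]
    · simp
    · rintro ⟨c, d⟩ - h
      have : ¬ (a = c ∧ b = d) := by rintro ⟨rfl, rfl⟩; exact h rfl
      simp [this]
    · simp
  · rw [Finset.sum_eq_single (b, a)]
    · simp
    · rintro ⟨c, d⟩ - h
      have : ¬ (a = d ∧ b = c) := by rintro ⟨rfl, rfl⟩; exact h rfl
      simp [this]
    · simp

theorem goe_lvR_cov (s t : ι × ι) : (goeLvR ι).cov s t = goeCovR s t := by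
  obtain ⟨a, b⟩ := s
  obtain ⟨c, d⟩ := t
  simp only [GhLv.cov, goeLvR, goeCovR, Prod.swap_prod_mk]
  have h2 : (Real.sqrt 2)⁻¹ * (Real.sqrt 2)⁻¹ = 1 / 2 := by
    rw [← mul_inv, Real.mul_self_sqrt (by norm_num)]; norm_num
  have e : ∀ p : ι × ι, (Real.sqrt 2)⁻¹ * ((if p = (a, b) then 1 else 0) + (if p = (b, a) then 1 else 0)) * ((Real.sqrt 2)⁻¹ * ((if p = (c, d) then 1 else 0) + (if p = (d, c) then 1 else 0)))
      = 1 / 2 * ((if p = (a, b) then ((if (a, b) = (c, d) then 1 else 0) + (if (a, b) = (d, c) then 1 else 0)) else 0)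
        + (if p = (b, a) then ((if (b, a) = (c, d) then 1 else 0) + (if (b, a) = (d, c) then 1 else 0)) else 0)) := by
    intro p
    rw [← h2]
    by_cases h1 : p = (a, b) <;> by_cases h3 : p = (b, a)
    · rw [if_pos h1, if_pos h3, if_pos h1, if_pos h3, ← h3, ← h1]; ring
    · rw [if_pos h1, if_neg h3, if_pos h1, if_neg h3, ← h1]; ring
    · rw [if_neg h1, if_pos h3, if_neg h1, if_pos h3, ← h3]; ring
    · rw [if_neg h1, if_neg h3, if_neg h1, if_neg h3]; ring
  simp only [e, ← Finset.mul_sum, Finset.sum_add_distrib, Finset.sum_ite_eq', Finset.mem_univ, if_true, Prod.mk.injEq]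
  have c1 : (b = c ∧ a = d) ↔ (a = d ∧ b = c) := and_comm
  have c2 : (b = d ∧ a = c) ↔ (a = c ∧ b = d) := and_comm
  simp only [c1, c2]
  ring

/-- **the raw GOE** (variance 1 off the diagonal, 2 on it), as a law on matrices -/
noncomputable def goeRaw (ι : Type) [Fintype ι] : Measure (Matrix ι ι ℝ) := (gArr ι ι).map goeOf

theorem goe_of_measurable : Measurable (goeOf : Matrix ι ι ℝ → Matrix ι ι ℝ) := by
  refine goe_measurable_of_entries fun i j => ?_
  simp only [goeOf, Matrix.smul_apply, Matrix.add_apply, Matrix.transpose_apply]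
  exact ((goe_entry_measurable i j).add (goe_entry_measurable j i)).const_smul (Real.sqrt 2)⁻¹

theorem goe_raw_eq : goeRaw ι = (ghStd (ι × ι)).map fun ξ => goeMat ((goeLvR ι).inc ξ) := by
  unfold goeRaw
  rw [goe_gArr_eq, Measure.map_map goe_of_measurable goe_mat_measurable]
  congr 1
  funext ξ
  exact (goe_lvR_inc ξ).symm

instance goe_raw_prob : IsProbabilityMeasure (goeRaw ι) :=
  Measure.isProbabilityMeasure_map goe_of_measurable.aemeasurable

theorem goe_smul_measurable (c : ℝ) : Measurable fun M : Matrix ι κ ℝ => c • M := by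
  refine goe_measurable_of_entries fun i j => ?_
  exact (goe_entry_measurable i j).const_smul c

/-- **characterisation**: a linear image of standard Gaussians with covariance `c² (δδ + δδ)` has the law of `c W` -/
theorem goe_raw_of_cov {J : Type} [Fintype J] (l : GhLv (ι × ι) J) (c : ℝ) (h : ∀ s t, l.cov s t = c ^ 2 * goeCovR s t) :
    (ghStd J).map (fun ξ => goeMat (l.inc ξ)) = (goeRaw ι).map fun M => c • M := by
  have hm : Measurable fun ξ : ι × ι → ℝ => goeMat ((goeLvR ι).inc ξ) := goe_mat_measurable.comp (ghs_measurable_inc (goeLvR ι))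
  rw [goe_raw_eq, Measure.map_map (goe_smul_measurable c) hm]
  have h1 := ghs_law_congr l (goeScl c (goeLvR ι)) fun s t => by rw [h, goe_scl_cov, goe_lvR_cov]
  have h2 := congrArg (fun μ => μ.map (goeMat : (ι × ι → ℝ) → Matrix ι ι ℝ)) h1
  simp only [Measure.map_map goe_mat_measurable (ghs_measurable_inc _)] at h2
  refine h2.trans ?_
  congr 1
  funext ξ
  simp only [Function.comp, goe_scl_inc, goe_mat_smul]

theorem goe_raw_of_cov' {J : Type} [Fintype J] (l : GhLv (ι × ι) J) (h : ∀ s t, l.cov s t = goeCovR s t) :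
    (ghStd J).map (fun ξ => goeMat (l.inc ξ)) = goeRaw ι := by
  have := goe_raw_of_cov l 1 (fun s t => by rw [h]; ring)
  simpa using this

/-! ### orthogonal invariance -/

/-- the conjugation `M ↦ O M Oᵀ` on entries -/
def goeConj (O : Matrix κ ι ℝ) (s : κ × κ) (s' : ι × ι) : ℝ := O s.1 s'.1 * O s.2 s'.2

theorem goe_conj_apply (O : Matrix κ ι ℝ) (m : ι × ι → ℝ) : O * goeMat m * Oᵀ = goeMat fun s => ∑ s', goeConj O s s' * m s' := by
  ext i j
  simp only [Matrix.mul_apply, Matrix.transpose_apply, goeConj, goeMat, Fintype.sum_prod_type, Finset.sum_mul]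
  rw [Finset.sum_comm]
  exact Finset.sum_congr rfl fun _ _ => Finset.sum_congr rfl fun _ _ => by ring

theorem goe_orth_cov (O : Matrix κ ι ℝ) (hO : O * Oᵀ = 1) (s t : κ × κ) :
    ∑ s' : ι × ι, ∑ t' : ι × ι, goeConj O s s' * goeConj O t t' * goeCovR s' t' = goeCovR s t := by
  have key : ∀ i k, ∑ a, O i a * O k a = if i = k then 1 else 0 := by
    intro i k
    have := congrFun (congrFun hO i) k
    simpa [Matrix.mul_apply, Matrix.one_apply] using this
  obtain ⟨i, j⟩ := s
  obtain ⟨k, l⟩ := t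
  have e : ∀ s' : ι × ι, ∑ t' : ι × ι, goeConj O (i, j) s' * goeConj O (k, l) t' * goeCovR s' t'
      = (O i s'.1 * O k s'.1) * (O j s'.2 * O l s'.2) + (O i s'.1 * O l s'.1) * (O j s'.2 * O k s'.2) := by
    intro s'
    rw [goe_covR_sum (fun t' => goeConj O (i, j) s' * goeConj O (k, l) t') s']
    simp only [goeConj, Prod.fst_swap, Prod.snd_swap]
    ring
  rw [Finset.sum_congr rfl fun s' _ => e s']
  simp only [Finset.sum_add_distrib, Fintype.sum_prod_type, ← Finset.sum_mul_sum, key, goeCovR]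
  have m : ∀ (p q : Prop) [Decidable p] [Decidable q], (if p then (1 : ℝ) else 0) * (if q then 1 else 0) = if p ∧ q then 1 else 0 := by
    intro p q _ _
    by_cases hp : p <;> by_cases hq : q <;> simp [hp, hq]
  rw [m, m]

theorem goe_conj_measurable (O : Matrix κ ι ℝ) : Measurable fun M : Matrix ι ι ℝ => O * M * Oᵀ := by
  refine goe_measurable_of_entries fun i j => ?_
  simp only [Matrix.mul_apply, Matrix.transpose_apply]
  exact Finset.measurable_sum _ fun a _ => (Finset.measurable_sum _ fun b _ => (goe_entry_measurable b a).const_mul _).mul_const _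

/-- **orthogonal invariance of the raw GOE** (also for co-isometries `O : κ × ι`, `O Oᵀ = 1`: compressions of a GOE are GOE) -/
theorem goe_raw_conj (O : Matrix κ ι ℝ) (hO : O * Oᵀ = 1) : (goeRaw ι).map (fun M => O * M * Oᵀ) = goeRaw κ := by
  have hm : Measurable fun ξ : ι × ι → ℝ => goeMat ((goeLvR ι).inc ξ) := goe_mat_measurable.comp (ghs_measurable_inc (goeLvR ι))
  rw [goe_raw_eq, Measure.map_map (goe_conj_measurable O) hm, ← goe_raw_of_cov' (goeImg (goeConj O) (goeLvR ι))]
  · congr 1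
    funext ξ
    simp only [Function.comp, goe_conj_apply]
    congr 1
    funext s
    exact (goe_img_inc _ _ _ _).symm
  · intro s t
    rw [goe_img_cov]
    simp_rw [goe_lvR_cov]
    exact goe_orth_cov O hO s t

/-- integral form; no hypothesis on `F` is needed when `O` is square, but we keep measurability for simplicity -/
theorem goe_raw_integral_conj (O : Matrix κ ι ℝ) (hO : O * Oᵀ = 1) (F : Matrix κ κ ℝ → ℝ) (hF : Measurable F) :
    ∫ W, F (O * W * Oᵀ) ∂goeRaw ι = ∫ W, F W ∂goeRaw κ := by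
  rw [← goe_raw_conj O hO, integral_map (goe_conj_measurable O).aemeasurable hF.aestronglyMeasurable]

/-- relabelling of the index set -/
theorem goe_raw_reindex (e : ι ≃ κ) : (goeRaw ι).map (Matrix.reindex e e) = goeRaw κ := by
  have h := goe_raw_conj (ι := ι) (κ := κ) (Matrix.of fun a b => if e.symm a = b then 1 else 0) (by
    ext a b
    simp [Matrix.mul_apply, Matrix.one_apply, Matrix.of_apply])
  rw [← h]
  congr 1
  funext M
  ext a b
  simp [Matrix.mul_apply, Matrix.reindex_apply, Matrix.of_apply]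

/-! ### sums of independent copies -/

theorem goe_lin_measurable (a b : ℝ) : Measurable fun p : Matrix ι κ ℝ × Matrix ι κ ℝ => a • p.1 + b • p.2 := by
  refine goe_measurable_of_entries fun i j => ?_
  exact (((goe_entry_measurable i j).comp measurable_fst).const_smul a).add (((goe_entry_measurable i j).comp measurable_snd).const_smul b)

/-- **`a W + b W' ~ √(a² + b²) W''`** -/
theorem goe_raw_add (a b : ℝ) :
    ((goeRaw ι).prod (goeRaw ι)).map (fun p => a • p.1 + b • p.2) = (goeRaw ι).map fun M => Real.sqrt (a ^ 2 + b ^ 2) • M := by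
  have hm : Measurable fun ξ : ι × ι → ℝ => goeMat ((goeLvR ι).inc ξ) := goe_mat_measurable.comp (ghs_measurable_inc (goeLvR ι))
  rw [← goe_raw_of_cov (goeJoin (goeScl a (goeLvR ι)) (goeScl b (goeLvR ι))) (Real.sqrt (a ^ 2 + b ^ 2)) (fun s t => by
    rw [goe_join_cov, goe_scl_cov, goe_scl_cov, goe_lvR_cov, Real.sq_sqrt (by positivity)]; ring)]
  have h1 := goe_join_law (goeScl a (goeLvR ι)) (goeScl b (goeLvR ι))
  have h2 := congrArg (fun μ => μ.map (goeMat : (ι × ι → ℝ) → Matrix ι ι ℝ)) h1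
  simp only [Measure.map_map goe_mat_measurable (ghs_measurable_inc _)] at h2
  rw [Measure.map_map goe_mat_measurable (by
    exact ((ghs_measurable_inc _).comp measurable_fst).add ((ghs_measurable_inc _).comp measurable_snd))] at h2
  refine Eq.trans ?_ h2
  conv_lhs => rw [goe_raw_eq]
  rw [Measure.map_prod_map _ _ hm hm, Measure.map_map (goe_lin_measurable a b) (hm.prodMap hm)]
  congr 1
  funext p
  simp only [Function.comp, Prod.map, goe_scl_inc, goe_mat_add, goe_mat_smul]

theorem goe_raw_integral_add (a b : ℝ) (F : Matrix ι ι ℝ → ℝ) (hF : Measurable F) :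
    ∫ p, F (a • p.1 + b • p.2) ∂((goeRaw ι).prod (goeRaw ι)) = ∫ W, F (Real.sqrt (a ^ 2 + b ^ 2) • W) ∂goeRaw ι := by
  rw [← integral_map (goe_lin_measurable a b).aemeasurable hF.aestronglyMeasurable, goe_raw_add,
    integral_map (goe_smul_measurable _).aemeasurable hF.aestronglyMeasurable]

end raw

section glue

/-- law of the sum of three independent levels -/
theorem goe_join_law3 {S ι₁ ι₂ ι₃ : Type} [Fintype S] [Fintype ι₁] [Fintype ι₂] [Fintype ι₃] (l₁ : GhLv S ι₁) (l₂ : GhLv S ι₂) (l₃ : GhLv S ι₃) :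
    ((ghStd ι₁).prod ((ghStd ι₂).prod (ghStd ι₃))).map (fun p => l₁.inc p.1 + (l₂.inc p.2.1 + l₃.inc p.2.2))
      = (ghStd (ι₁ ⊕ (ι₂ ⊕ ι₃))).map (goeJoin l₁ (goeJoin l₂ l₃)).inc := by
  rw [← goe_join_law l₁ (goeJoin l₂ l₃)]
  have hg : Measurable fun p : (ι₂ → ℝ) × (ι₃ → ℝ) => l₂.inc p.1 + l₃.inc p.2 :=
    ((ghs_measurable_inc _).comp measurable_fst).add ((ghs_measurable_inc _).comp measurable_snd)
  have hs : Measurable fun p : (ι₁ → ℝ) × (S → ℝ) => l₁.inc p.1 + p.2 :=
    ((ghs_measurable_inc _).comp measurable_fst).add measurable_snd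
  have e1 : ((ghStd ι₁).prod ((ghStd ι₂).prod (ghStd ι₃))).map (fun p => l₁.inc p.1 + (l₂.inc p.2.1 + l₃.inc p.2.2))
      = ((ghStd ι₁).prod (((ghStd ι₂).prod (ghStd ι₃)).map fun p => l₂.inc p.1 + l₃.inc p.2)).map fun p => l₁.inc p.1 + p.2 := by
    conv_rhs => rw [← Measure.map_id (μ := ghStd ι₁)]
    rw [Measure.map_prod_map _ _ measurable_id hg, Measure.map_map hs (measurable_id.prodMap hg)]
    rfl
  have e2 : ((ghStd ι₁).prod (ghStd (ι₂ ⊕ ι₃))).map (fun p => l₁.inc p.1 + (goeJoin l₂ l₃).inc p.2)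
      = ((ghStd ι₁).prod ((ghStd (ι₂ ⊕ ι₃)).map (goeJoin l₂ l₃).inc)).map fun p => l₁.inc p.1 + p.2 := by
    conv_rhs => rw [← Measure.map_id (μ := ghStd ι₁)]
    rw [Measure.map_prod_map _ _ measurable_id (ghs_measurable_inc _), Measure.map_map hs (measurable_id.prodMap (ghs_measurable_inc _))]
    rfl
  rw [e1, e2, goe_join_law]

variable {α β γ : Type} [Fintype α] [Fintype β] [Fintype γ] [DecidableEq α] [DecidableEq β] [DecidableEq γ]

theorem goe_conj_cov (O : Matrix γ α ℝ) (s t : γ × γ) :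
    ∑ s' : α × α, ∑ t' : α × α, goeConj O s s' * goeConj O t t' * goeCovR s' t'
      = (O * Oᵀ) s.1 t.1 * (O * Oᵀ) s.2 t.2 + (O * Oᵀ) s.1 t.2 * (O * Oᵀ) s.2 t.1 := by
  obtain ⟨i, j⟩ := s
  obtain ⟨k, l⟩ := t
  have e : ∀ s' : α × α, ∑ t' : α × α, goeConj O (i, j) s' * goeConj O (k, l) t' * goeCovR s' t'
      = (O i s'.1 * O k s'.1) * (O j s'.2 * O l s'.2) + (O i s'.1 * O l s'.1) * (O j s'.2 * O k s'.2) := by
    intro s'
    rw [goe_covR_sum (fun t' => goeConj O (i, j) s' * goeConj O (k, l) t') s']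
    simp only [goeConj, Prod.fst_swap, Prod.snd_swap]
    ring
  rw [Finset.sum_congr rfl fun s' _ => e s']
  simp only [Finset.sum_add_distrib, Fintype.sum_prod_type, ← Finset.sum_mul_sum, Matrix.mul_apply, Matrix.transpose_apply]

/-- the level of `P N Rᵀ + R Nᵀ Pᵀ` -/
def goeOff (P : Matrix γ α ℝ) (R : Matrix γ β ℝ) : GhLv (γ × γ) (α × β) := ⟨0, fun s p => P s.1 p.1 * R s.2 p.2 + R s.1 p.2 * P s.2 p.1⟩

theorem goe_off_inc (P : Matrix γ α ℝ) (R : Matrix γ β ℝ) (ξ : α × β → ℝ) :
    goeMat ((goeOff P R).inc ξ) = P * goeMat ξ * Rᵀ + R * (goeMat ξ)ᵀ * Pᵀ := by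
  ext i j
  simp only [goeMat, GhLv.inc, goeOff, Matrix.add_apply, Matrix.mul_apply, Matrix.transpose_apply, Fintype.sum_prod_type, Finset.sum_mul, add_mul, Finset.sum_add_distrib]
  have h1 : ∑ j_1, ∑ i_1, P i i_1 * ξ (i_1, j_1) * R j j_1 = ∑ x, ∑ x_1, P i x * R j x_1 * ξ (x, x_1) := by
    rw [Finset.sum_comm]
    exact Finset.sum_congr rfl fun _ _ => Finset.sum_congr rfl fun _ _ => by ring
  have h2 : ∑ j_1, ∑ i_1, R i i_1 * ξ (j_1, i_1) * P j j_1 = ∑ x, ∑ x_1, R i x_1 * P j x * ξ (x, x_1) :=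
    Finset.sum_congr rfl fun _ _ => Finset.sum_congr rfl fun _ _ => by ring
  rw [h1, h2]

theorem goe_off_cov (P : Matrix γ α ℝ) (R : Matrix γ β ℝ) (s t : γ × γ) :
    (goeOff P R).cov s t = (P * Pᵀ) s.1 t.1 * (R * Rᵀ) s.2 t.2 + (P * Pᵀ) s.1 t.2 * (R * Rᵀ) s.2 t.1
      + (R * Rᵀ) s.1 t.2 * (P * Pᵀ) s.2 t.1 + (R * Rᵀ) s.1 t.1 * (P * Pᵀ) s.2 t.2 := by
  obtain ⟨i, j⟩ := s
  obtain ⟨k, l⟩ := t
  simp only [GhLv.cov, goeOff, Matrix.mul_apply, Matrix.transpose_apply, Fintype.sum_prod_type, Finset.sum_mul_sum, ← Finset.sum_add_distrib]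
  rw [Finset.sum_comm (f := fun i_1 j_1 => R i i_1 * R l i_1 * (P j j_1 * P k j_1)), Finset.sum_comm (f := fun i_1 j_1 => R i i_1 * R k i_1 * (P j j_1 * P l j_1))]
  simp only [← Finset.sum_add_distrib]
  exact Finset.sum_congr rfl fun _ _ => Finset.sum_congr rfl fun _ _ => by ring

theorem goe_mul3_measurable {a b c d : Type} [Fintype a] [Fintype b] [Fintype c] [Fintype d] (P : Matrix c a ℝ) (R : Matrix b d ℝ) : Measurable fun M : Matrix a b ℝ => P * M * R := by
  refine goe_measurable_of_entries fun i j => ?_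
  simp only [Matrix.mul_apply]
  exact Finset.measurable_sum _ fun a _ => (Finset.measurable_sum _ fun b _ => (goe_entry_measurable b a).const_mul _).mul_const _

theorem goe_transpose_measurable : Measurable fun M : Matrix α β ℝ => Mᵀ :=
  goe_measurable_of_entries fun i j => goe_entry_measurable j i

theorem goe_add_measurable {X : Type*} [MeasurableSpace X] {f g : X → Matrix α β ℝ} (hf : Measurable f) (hg : Measurable g) : Measurable fun x => f x + g x :=
  goe_measurable_of_entries fun i j => ((goe_entry_measurable i j).comp hf).add ((goe_entry_measurable i j).comp hg)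

/-- the glueing map -/
def goeGlue (P : Matrix γ α ℝ) (R : Matrix γ β ℝ) (p : Matrix α α ℝ × Matrix α β ℝ × Matrix β β ℝ) : Matrix γ γ ℝ :=
  P * p.1 * Pᵀ + ((P * p.2.1 * Rᵀ + R * p.2.1ᵀ * Pᵀ) + R * p.2.2 * Rᵀ)

theorem goe_glue_measurable (P : Matrix γ α ℝ) (R : Matrix γ β ℝ) : Measurable (goeGlue P R) := by
  unfold goeGlue
  refine goe_add_measurable ((goe_mul3_measurable P Pᵀ).comp measurable_fst) (goe_add_measurable (goe_add_measurable ?_ ?_) ?_)
  · exact (goe_mul3_measurable P Rᵀ).comp (measurable_fst.comp measurable_snd)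
  · exact (goe_mul3_measurable R Pᵀ).comp (goe_transpose_measurable.comp (measurable_fst.comp measurable_snd))
  · exact (goe_mul3_measurable R Rᵀ).comp (measurable_snd.comp measurable_snd)

/-- **glueing**: if `P Pᵀ + R Rᵀ = 1` then `P W₁ Pᵀ + P N Rᵀ + R Nᵀ Pᵀ + R W₂ Rᵀ` is a raw GOE, for independent `W₁, N, W₂` -/
theorem goe_raw_glue (P : Matrix γ α ℝ) (R : Matrix γ β ℝ) (h : P * Pᵀ + R * Rᵀ = 1) :
    ((goeRaw α).prod ((gArr α β).prod (goeRaw β))).map (goeGlue P R) = goeRaw γ := by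
  have hm1 : Measurable fun ξ : α × α → ℝ => goeMat ((goeLvR α).inc ξ) := goe_mat_measurable.comp (ghs_measurable_inc (goeLvR α))
  have hm3 : Measurable fun ξ : β × β → ℝ => goeMat ((goeLvR β).inc ξ) := goe_mat_measurable.comp (ghs_measurable_inc (goeLvR β))
  set l₁ := goeImg (goeConj P) (goeLvR α) with hl₁
  set l₂ := goeOff P R with hl₂
  set l₃ := goeImg (goeConj R) (goeLvR β) with hl₃
  rw [← goe_raw_of_cov' (goeJoin l₁ (goeJoin l₂ l₃))]
  · have h1 := goe_join_law3 l₁ l₂ l₃
    have h2 := congrArg (fun μ => μ.map (goeMat : (γ × γ → ℝ) → Matrix γ γ ℝ)) h1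
    simp only [Measure.map_map goe_mat_measurable (ghs_measurable_inc _)] at h2
    rw [Measure.map_map goe_mat_measurable (by
      exact ((ghs_measurable_inc _).comp measurable_fst).add
        (((ghs_measurable_inc _).comp (measurable_fst.comp measurable_snd)).add ((ghs_measurable_inc _).comp (measurable_snd.comp measurable_snd))))] at h2
    refine Eq.trans ?_ h2
    rw [goe_raw_eq, goe_raw_eq, goe_gArr_eq, Measure.map_prod_map _ _ goe_mat_measurable hm3, Measure.map_prod_map _ _ hm1 (goe_mat_measurable.prodMap hm3),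
      Measure.map_map (goe_glue_measurable P R) (hm1.prodMap (goe_mat_measurable.prodMap hm3))]
    congr 1
    funext p
    simp only [Function.comp, Prod.map, goeGlue, goe_mat_add, hl₂, goe_off_inc, goe_conj_apply]
    congr 2
    · funext s
      exact (goe_img_inc _ _ _ _).symm
    · congr 1
      funext s
      exact (goe_img_inc _ _ _ _).symm
  · intro s t
    rw [goe_join_cov, goe_join_cov, hl₁, hl₃, goe_img_cov, goe_img_cov, hl₂, goe_off_cov]
    simp_rw [goe_lvR_cov]
    rw [goe_conj_cov, goe_conj_cov]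
    have e : ∀ i k : γ, (if i = k then (1 : ℝ) else 0) = (P * Pᵀ) i k + (R * Rᵀ) i k := by
      intro i k
      have := congrFun (congrFun h i) k
      rw [Matrix.add_apply, Matrix.one_apply] at this
      exact this.symm
    have m : ∀ (p q : Prop) [Decidable p] [Decidable q], (if p ∧ q then (1 : ℝ) else 0) = (if p then (1 : ℝ) else 0) * (if q then 1 else 0) := by
      intro p q _ _
      by_cases hp : p <;> by_cases hq : q <;> simp [hp, hq]
    simp only [goeCovR, m, e]
    ring

/-- **block decomposition of the raw GOE**: diagonal blocks are independent GOE, the off-diagonal block is an independent iid array -/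
theorem goe_raw_block :
    ((goeRaw α).prod ((gArr α β).prod (goeRaw β))).map (fun p => Matrix.fromBlocks p.1 p.2.1 p.2.1ᵀ p.2.2) = goeRaw (α ⊕ β) := by
  rw [← goe_raw_glue (Matrix.fromRows (1 : Matrix α α ℝ) (0 : Matrix β α ℝ)) (Matrix.fromRows (0 : Matrix α β ℝ) (1 : Matrix β β ℝ))]
  · congr 1
    funext p
    unfold goeGlue
    ext (i | i) (j | j) <;> simp [Matrix.mul_apply, Matrix.fromRows_apply_inl, Matrix.fromRows_apply_inr, Matrix.one_apply]
  · ext (i | i) (j | j) <;> simp [Matrix.fromRows_apply_inl, Matrix.fromRows_apply_inr, Matrix.one_apply, eq_comm]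

theorem goe_block_measurable : Measurable fun p : Matrix α α ℝ × Matrix α β ℝ × Matrix β β ℝ => Matrix.fromBlocks p.1 p.2.1 p.2.1ᵀ p.2.2 := by
  refine goe_measurable_of_entries fun i j => ?_
  rcases i with i | i <;> rcases j with j | j
  · exact (goe_entry_measurable i j).comp measurable_fst
  · exact (goe_entry_measurable i j).comp (measurable_fst.comp measurable_snd)
  · exact (goe_entry_measurable j i).comp (measurable_fst.comp measurable_snd)
  · exact (goe_entry_measurable i j).comp (measurable_snd.comp measurable_snd)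

theorem goe_raw_integral_block (F : Matrix (α ⊕ β) (α ⊕ β) ℝ → ℝ) (hF : Measurable F) :
    ∫ W, F W ∂goeRaw (α ⊕ β) = ∫ p, F (Matrix.fromBlocks p.1 p.2.1 p.2.1ᵀ p.2.2) ∂((goeRaw α).prod ((gArr α β).prod (goeRaw β))) := by
  rw [← goe_raw_block, integral_map goe_block_measurable.aemeasurable hF.aestronglyMeasurable]

end glue

section shift
variable {ι κ : Type} [Fintype ι] [Fintype κ] [DecidableEq ι] [DecidableEq κ]

/-- Cameron-Martin for the standard drivers; no hypothesis on `F` -/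
theorem goe_std_shift {ι : Type} [Fintype ι] (a : ι → ℝ) (F : (ι → ℝ) → ℝ) :
    ∫ ξ, F (ξ + a) ∂ghStd ι = ∫ ξ, Real.exp (∑ i, a i * ξ i - (∑ i, a i ^ 2) / 2) * F ξ ∂ghStd ι := by
  unfold ghStd
  rw [Claimed.Agent.BL.bl_pi_gaussian_eq_tilted, integral_tilted, integral_tilted]
  conv_rhs => rw [← integral_add_right_eq_self (μ := (volume : Measure (ι → ℝ))) _ a]
  refine integral_congr_ae (Filter.Eventually.of_forall fun ξ => ?_)
  simp only [smul_eq_mul, Pi.add_apply]
  rw [← mul_assoc]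
  congr 1
  rw [div_mul_eq_mul_div, ← Real.exp_add]
  congr 2
  have : ∑ i, (ξ i + a i) ^ 2 = ∑ i, ξ i ^ 2 + 2 * ∑ i, a i * ξ i + ∑ i, a i ^ 2 := by
    rw [Finset.mul_sum, ← Finset.sum_add_distrib, ← Finset.sum_add_distrib]
    exact Finset.sum_congr rfl fun _ _ => by ring
  have h2 : ∑ i, a i * (ξ i + a i) = ∑ i, a i * ξ i + ∑ i, a i ^ 2 := by
    rw [← Finset.sum_add_distrib]
    exact Finset.sum_congr rfl fun _ _ => by ring
  rw [this, h2]
  ring

/-- Cameron-Martin for the iid array: density `exp (tr AᵀN - tr AᵀA / 2)`; no hypothesis on `F` -/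
theorem goe_gArr_shift (A : Matrix ι κ ℝ) (F : Matrix ι κ ℝ → ℝ) :
    ∫ N, F (N + A) ∂gArr ι κ = ∫ N, Real.exp ((Aᵀ * N).trace - (Aᵀ * A).trace / 2) * F N ∂gArr ι κ := by
  rw [goe_gArr_eq, goe_mat_emb.integral_map, goe_mat_emb.integral_map]
  have h := goe_std_shift (fun p : ι × κ => A p.1 p.2) (fun ξ => F (goeMat ξ))
  have e : ∀ ξ : ι × κ → ℝ, goeMat (ξ + fun p : ι × κ => A p.1 p.2) = goeMat ξ + A := fun ξ => rfl
  simp only [e] at h
  rw [h]
  refine integral_congr_ae (Filter.Eventually.of_forall fun ξ => ?_)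
  have t : ∀ B : Matrix ι κ ℝ, (Aᵀ * B).trace = ∑ p : ι × κ, A p.1 p.2 * B p.1 p.2 := by
    intro B
    simp only [Matrix.trace, Matrix.diag, Matrix.mul_apply, Matrix.transpose_apply, Fintype.sum_prod_type]
    exact Finset.sum_comm
  simp only [t, goeMat, sq]

theorem goe_of_isSymm (N : Matrix ι ι ℝ) : (goeOf N).IsSymm := by
  ext i j
  simp only [goeOf, Matrix.transpose_apply, Matrix.smul_apply, Matrix.add_apply, add_comm]

theorem goe_of_isHermitian (N : Matrix ι ι ℝ) : (goeOf N).IsHermitian := by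
  rw [Matrix.IsHermitian, Matrix.conjTranspose_eq_transpose_of_trivial]; exact goe_of_isSymm N

theorem goe_of_add (N N' : Matrix ι ι ℝ) : goeOf (N + N') = goeOf N + goeOf N' := by
  ext i j
  simp only [goeOf, Matrix.smul_apply, Matrix.add_apply, Matrix.transpose_apply, smul_eq_mul]
  ring

theorem goe_of_symm {Θ : Matrix ι ι ℝ} (hΘ : Θ.IsSymm) : goeOf ((Real.sqrt 2)⁻¹ • Θ) = Θ := by
  have h2 : (Real.sqrt 2)⁻¹ * (Real.sqrt 2)⁻¹ = 1 / 2 := by
    rw [← mul_inv, Real.mul_self_sqrt (by norm_num)]; norm_num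
  ext i j
  simp only [goeOf, Matrix.smul_apply, Matrix.add_apply, Matrix.transpose_apply, smul_eq_mul, hΘ.apply i j]
  rw [← mul_add, ← mul_assoc, h2]
  ring

/-- the Cameron-Martin density of the raw GOE shifted by `Θ` -/
noncomputable def goeDens (Θ W : Matrix ι ι ℝ) : ℝ := Real.exp ((Θ * W).trace / 2 - (Θ * Θ).trace / 4)

/-- **Gaussian shift of the raw GOE**: `E F(W + Θ) = E [exp (tr ΘW / 2 - tr Θ² / 4) F(W)]`; no hypothesis on `F` -/
theorem goe_of_shift (Θ : Matrix ι ι ℝ) (hΘ : Θ.IsSymm) (F : Matrix ι ι ℝ → ℝ) :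
    ∫ N, F (goeOf N + Θ) ∂gArr ι ι = ∫ N, goeDens Θ (goeOf N) * F (goeOf N) ∂gArr ι ι := by
  have h2 : (Real.sqrt 2)⁻¹ * (Real.sqrt 2)⁻¹ = 1 / 2 := by
    rw [← mul_inv, Real.mul_self_sqrt (by norm_num)]; norm_num
  have h := goe_gArr_shift ((Real.sqrt 2)⁻¹ • Θ) (fun N => F (goeOf N))
  simp only [goe_of_add, goe_of_symm hΘ] at h
  rw [h]
  refine integral_congr_ae (Filter.Eventually.of_forall fun N => ?_)
  simp only [goeDens]
  congr 2
  have hT : Θᵀ = Θ := hΘ
  have e1 : (Θ * Nᵀ).trace = (Θ * N).trace := by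
    rw [← Matrix.trace_transpose, Matrix.transpose_mul, Matrix.transpose_transpose, hT, Matrix.trace_mul_comm]
  simp only [goeOf, Matrix.transpose_smul, hT, Matrix.smul_mul, Matrix.mul_smul, Matrix.trace_smul, smul_eq_mul, Matrix.mul_add, Matrix.trace_add, e1]
  rw [← mul_assoc, h2]
  ring

theorem goe_dens_pos (Θ W : Matrix ι ι ℝ) : 0 < goeDens Θ W := Real.exp_pos _

theorem goe_dens_int (Θ : Matrix ι ι ℝ) (hΘ : Θ.IsSymm) : ∫ N, goeDens Θ (goeOf N) ∂gArr ι ι = 1 := by
  have := goe_of_shift Θ hΘ (fun _ => 1)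
  simpa using this.symm

theorem goe_dens_integrable (Θ : Matrix ι ι ℝ) (hΘ : Θ.IsSymm) : Integrable (fun N => goeDens Θ (goeOf N)) (gArr ι ι) := by
  by_contra h
  have := goe_dens_int Θ hΘ
  rw [integral_undef h] at this
  exact zero_ne_one this

theorem goe_dens_sq (Θ W : Matrix ι ι ℝ) : goeDens Θ W ^ 2 = Real.exp ((Θ * Θ).trace / 2) * goeDens ((2 : ℝ) • Θ) W := by
  unfold goeDens
  rw [← Real.exp_add, sq, ← Real.exp_add]
  congr 1
  simp only [Matrix.smul_mul, Matrix.mul_smul, Matrix.trace_smul, smul_eq_mul]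
  ring

theorem goe_dens_sq_int (Θ : Matrix ι ι ℝ) (hΘ : Θ.IsSymm) : ∫ N, goeDens Θ (goeOf N) ^ 2 ∂gArr ι ι = Real.exp ((Θ * Θ).trace / 2) := by
  simp only [goe_dens_sq]
  rw [integral_const_mul, goe_dens_int _ (hΘ.smul 2), mul_one]

theorem goe_dens_sq_integrable (Θ : Matrix ι ι ℝ) (hΘ : Θ.IsSymm) : Integrable (fun N => goeDens Θ (goeOf N) ^ 2) (gArr ι ι) := by
  simp only [goe_dens_sq]
  exact (goe_dens_integrable _ (hΘ.smul 2)).const_mul _

/-- `χ²` distance of the shifted GOE -/
theorem goe_dens_chi (Θ : Matrix ι ι ℝ) (hΘ : Θ.IsSymm) : ∫ N, (goeDens Θ (goeOf N) - 1) ^ 2 ∂gArr ι ι = Real.exp ((Θ * Θ).trace / 2) - 1 := by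
  have e : ∀ N, (goeDens Θ (goeOf N) - 1) ^ 2 = goeDens Θ (goeOf N) ^ 2 - 2 * goeDens Θ (goeOf N) + 1 := fun x => by ring
  simp only [e]
  have h1 : ∫ N, (goeDens Θ (goeOf N) ^ 2 - 2 * goeDens Θ (goeOf N) + 1) ∂gArr ι ι = ∫ N, (goeDens Θ (goeOf N) ^ 2 - 2 * goeDens Θ (goeOf N)) ∂gArr ι ι + ∫ _N, (1 : ℝ) ∂gArr ι ι :=
    integral_add ((goe_dens_sq_integrable Θ hΘ).sub ((goe_dens_integrable Θ hΘ).const_mul 2)) (integrable_const _)
  have h2 : ∫ N, (goeDens Θ (goeOf N) ^ 2 - 2 * goeDens Θ (goeOf N)) ∂gArr ι ι = ∫ N, goeDens Θ (goeOf N) ^ 2 ∂gArr ι ι - ∫ N, 2 * goeDens Θ (goeOf N) ∂gArr ι ι :=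
    integral_sub (goe_dens_sq_integrable Θ hΘ) ((goe_dens_integrable Θ hΘ).const_mul 2)
  rw [h1, h2, integral_const_mul, goe_dens_sq_int Θ hΘ, goe_dens_int Θ hΘ]
  simp
  ring

/-- `L¹` distance of the shifted GOE -/
theorem goe_dens_l1 (Θ : Matrix ι ι ℝ) (hΘ : Θ.IsSymm) : ∫ N, |goeDens Θ (goeOf N) - 1| ∂gArr ι ι ≤ Real.sqrt (Real.exp ((Θ * Θ).trace / 2) - 1) := by
  rw [← goe_dens_chi Θ hΘ]
  apply Real.le_sqrt_of_sq_le
  have hc : ConvexOn ℝ Set.univ (fun y : ℝ => y ^ 2) := (even_two.convexOn_pow (𝕜 := ℝ))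
  have hi : Integrable (fun N => |goeDens Θ (goeOf N) - 1|) (gArr ι ι) := ((goe_dens_integrable Θ hΘ).sub (integrable_const 1)).abs
  have hi2 : Integrable (fun N => (goeDens Θ (goeOf N) - 1) ^ 2) (gArr ι ι) := by
    have e : ∀ N, (goeDens Θ (goeOf N) - 1) ^ 2 = goeDens Θ (goeOf N) ^ 2 - 2 * goeDens Θ (goeOf N) + 1 := fun x => by ring
    simp only [e]
    exact ((goe_dens_sq_integrable Θ hΘ).sub ((goe_dens_integrable Θ hΘ).const_mul 2)).add (integrable_const _)
  have := hc.map_integral_le (μ := gArr ι ι) (f := fun N => |goeDens Θ (goeOf N) - 1|) (by fun_prop) isClosed_univ (by simp) hi (by simpa [Function.comp_def] using hi2)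
  simpa [Function.comp_def] using this

/-- **total variation form of the shift**: a bounded observable changes by at most `B √(exp (tr Θ² / 2) - 1)` -/
theorem goe_shift_tv (Θ : Matrix ι ι ℝ) (hΘ : Θ.IsSymm) (F : Matrix ι ι ℝ → ℝ) (B : ℝ) (hB : ∀ M, |F M| ≤ B)
    (hF : AEStronglyMeasurable (fun N => F (goeOf N)) (gArr ι ι)) :
    |∫ N, F (goeOf N + Θ) ∂gArr ι ι - ∫ N, F (goeOf N) ∂gArr ι ι| ≤ B * Real.sqrt (Real.exp ((Θ * Θ).trace / 2) - 1) := by
  have hB0 : 0 ≤ B := (abs_nonneg _).trans (hB 0)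
  have i1 : Integrable (fun N => F (goeOf N)) (gArr ι ι) :=
    Integrable.of_bound hF B (Filter.Eventually.of_forall fun x => by simpa using hB _)
  have i2 : Integrable (fun N => goeDens Θ (goeOf N) * F (goeOf N)) (gArr ι ι) :=
    (goe_dens_integrable Θ hΘ).mul_bdd (c := B) hF (Filter.Eventually.of_forall fun x => by simpa using hB _)
  rw [goe_of_shift Θ hΘ, ← integral_sub i2 i1]
  calc |∫ N, (goeDens Θ (goeOf N) * F (goeOf N) - F (goeOf N)) ∂gArr ι ι|
      ≤ ∫ N, B * |goeDens Θ (goeOf N) - 1| ∂gArr ι ι := by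
        rw [← Real.norm_eq_abs]
        refine norm_integral_le_of_norm_le ((((goe_dens_integrable Θ hΘ).sub (integrable_const 1)).abs).const_mul B) (Filter.Eventually.of_forall fun x => ?_)
        rw [Real.norm_eq_abs, show goeDens Θ (goeOf x) * F (goeOf x) - F (goeOf x) = F (goeOf x) * (goeDens Θ (goeOf x) - 1) by ring, abs_mul]
        exact mul_le_mul_of_nonneg_right (hB _) (abs_nonneg _)
    _ = B * ∫ N, |goeDens Θ (goeOf N) - 1| ∂gArr ι ι := integral_const_mul _ _
    _ ≤ _ := mul_le_mul_of_nonneg_left (goe_dens_l1 Θ hΘ) hB0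

end shift

section frozen
variable {n : ℕ}

/-- variance of the entry `p` -/
noncomputable def goeVar (n : ℕ) (p : Fin n × Fin n) : NNReal := if p.1 = p.2 then 2 / (n : NNReal) else 1 / (n : NNReal)

/-- the frozen array is a rescaled standard Gaussian vector -/
theorem goe_array_eq (n : ℕ) : goeArray n = (ghStd (Fin n × Fin n)).map (fun ξ p => Real.sqrt (goeVar n p) * ξ p) := by
  unfold goeArray ghStd
  rw [Measure.pi_map_pi (fun p => (measurable_const_mul _).aemeasurable)]
  congr 1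
  funext p
  rw [gaussianReal_map_const_mul]
  congr 1
  · simp
  · ext
    simp [goeVar]

/-- the entries of `goeMatrix`, as a linear image of the standard drivers -/
noncomputable def goeLv (n : ℕ) : GhLv (Fin n × Fin n) (Fin n × Fin n) :=
  ⟨0, fun s p => if p = (min s.1 s.2, max s.1 s.2) then Real.sqrt (goeVar n p) else 0⟩

theorem goe_lv_inc (ξ : Fin n × Fin n → ℝ) (s : Fin n × Fin n) :
    (goeLv n).inc ξ s = goeMatrix (fun p => Real.sqrt (goeVar n p) * ξ p) s.1 s.2 := by
  simp [GhLv.inc, goeLv, goeMatrix]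

/-- the covariance of the GOE: `(δ_ik δ_jl + δ_il δ_jk) / n` -/
noncomputable def goeCov (n : ℕ) (s t : Fin n × Fin n) : ℝ :=
  ((if s.1 = t.1 ∧ s.2 = t.2 then 1 else 0) + (if s.1 = t.2 ∧ s.2 = t.1 then 1 else 0)) / n

theorem goe_minmax_iff (a b c d : Fin n) : (min a b, max a b) = (min c d, max c d) ↔ (a = c ∧ b = d) ∨ (a = d ∧ b = c) := by
  rw [Prod.mk.injEq]
  rcases le_total a b with h | h <;> rcases le_total c d with h' | h' <;> simp only [min_eq_left, min_eq_right, max_eq_left, max_eq_right, h, h']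
  · constructor
    · exact Or.inl
    · rintro (h1 | ⟨rfl, rfl⟩)
      · exact h1
      · have := le_antisymm h h'; exact ⟨this, this.symm⟩
  · constructor
    · exact Or.inr
    · rintro (⟨rfl, rfl⟩ | h1)
      · have := le_antisymm h h'; exact ⟨this, this.symm⟩
      · exact h1
  · constructor
    · rintro ⟨h1, h2⟩; exact Or.inr ⟨h2, h1⟩
    · rintro (⟨rfl, rfl⟩ | ⟨h1, h2⟩)
      · have := le_antisymm h h'; exact ⟨this, this.symm⟩
      · exact ⟨h2, h1⟩
  · constructor
    · rintro ⟨h1, h2⟩; exact Or.inl ⟨h2, h1⟩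
    · rintro (⟨h1, h2⟩ | ⟨rfl, rfl⟩)
      · exact ⟨h2, h1⟩
      · have := le_antisymm h h'; exact ⟨this, this.symm⟩

theorem goe_lv_cov (s t : Fin n × Fin n) : (goeLv n).cov s t = goeCov n s t := by
  obtain ⟨a, b⟩ := s
  obtain ⟨c, d⟩ := t
  simp only [GhLv.cov, goeLv, goeCov]
  have e : ∀ p : Fin n × Fin n, (if p = (min a b, max a b) then Real.sqrt (goeVar n p) else 0) * (if p = (min c d, max c d) then Real.sqrt (goeVar n p) else 0)
      = if p = (min a b, max a b) then (if (min a b, max a b) = (min c d, max c d) then (goeVar n (min a b, max a b) : ℝ) else 0) else 0 := by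
    intro p
    by_cases hp : p = (min a b, max a b)
    · subst hp
      by_cases h2 : (min a b, max a b) = (min c d, max c d)
      · rw [if_pos rfl, if_pos h2, if_pos rfl, if_pos h2, Real.mul_self_sqrt (NNReal.coe_nonneg _)]
      · rw [if_pos rfl, if_neg h2, if_pos rfl, if_neg h2, mul_zero]
    · rw [if_neg hp, if_neg hp, zero_mul]
  simp only [e, Finset.sum_ite_eq', Finset.mem_univ, if_true, goe_minmax_iff]
  have hv : (goeVar n (min a b, max a b) : ℝ) = (if a = b then 2 else 1) / n := by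
    unfold goeVar
    have : (min a b = max a b) ↔ a = b := by
      constructor
      · intro h
        exact le_antisymm ((le_max_left a b).trans (h.symm.le.trans (min_le_right a b))) ((le_max_right a b).trans (h.symm.le.trans (min_le_left a b)))
      · rintro rfl; simp
    simp only [this]
    split_ifs <;> simp
  rw [hv]
  by_cases h1 : a = c ∧ b = d <;> by_cases h2 : a = d ∧ b = c
  · obtain ⟨rfl, rfl⟩ := h1
    obtain ⟨rfl, -⟩ := h2
    simp; norm_num
  · have hab : a ≠ b := by
      rintro rfl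
      exact h2 ⟨h1.2, h1.1⟩
    rw [if_pos (Or.inl h1), if_neg hab, if_pos h1, if_neg h2, add_zero]
  · have hab : a ≠ b := by
      rintro rfl
      exact h1 ⟨h2.2, h2.1⟩
    rw [if_pos (Or.inr h2), if_neg hab, if_neg h1, if_pos h2, zero_add]
  · simp [h1, h2]


theorem goe_cov_eq (s t : Fin n × Fin n) : goeCov n s t = ((Real.sqrt n)⁻¹) ^ 2 * goeCovR s t := by
  rw [inv_pow, Real.sq_sqrt (Nat.cast_nonneg n)]
  unfold goeCov goeCovR
  rw [div_eq_inv_mul]

theorem goe_matrix_measurable : Measurable (goeMatrix : (Fin n × Fin n → ℝ) → Matrix (Fin n) (Fin n) ℝ) :=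
  goe_measurable_of_entries fun _ _ => measurable_pi_apply _

/-- **the frozen GOE is `n^{-1/2}` times the raw GOE of `Defs`** -/
theorem goe_frozen (n : ℕ) : (goeArray n).map goeMatrix = (goeRaw (Fin n)).map fun M => (Real.sqrt n)⁻¹ • M := by
  rw [← goe_raw_of_cov (goeLv n) (Real.sqrt n)⁻¹ fun s t => by rw [goe_lv_cov, goe_cov_eq], goe_array_eq,
    Measure.map_map goe_matrix_measurable (measurable_pi_lambda _ fun p => (measurable_pi_apply p).const_mul _)]
  congr 1
  funext ξ
  ext i j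
  exact (goe_lv_inc ξ (i, j)).symm

/-- symmetrisation -/
noncomputable def goeSym {ι : Type} (M : Matrix ι ι ℝ) : Matrix ι ι ℝ := (2 : ℝ)⁻¹ • (M + Mᵀ)

theorem goe_sym_of_symm {ι : Type} {M : Matrix ι ι ℝ} (h : M.IsSymm) : goeSym M = M := by
  ext i j
  simp only [goeSym, Matrix.smul_apply, Matrix.add_apply, Matrix.transpose_apply, smul_eq_mul, h.apply i j]
  ring

theorem goe_sym_isHermitian {ι : Type} (M : Matrix ι ι ℝ) : (goeSym M).IsHermitian := by
  rw [Matrix.IsHermitian, Matrix.conjTranspose_eq_transpose_of_trivial]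
  ext i j
  simp only [goeSym, Matrix.transpose_apply, Matrix.smul_apply, Matrix.add_apply, add_comm]

theorem goe_isSymm (x : Fin n × Fin n → ℝ) : (goeMatrix x).IsSymm := by
  ext i j
  simp [goeMatrix, min_comm, max_comm]

/-- integral form of `goe_frozen`; only the restriction of `F` to symmetric matrices has to be measurable -/
theorem goe_frozen_integral (F : Matrix (Fin n) (Fin n) ℝ → ℝ) (hF : Measurable fun M => F (goeSym M)) :
    ∫ x, F (goeMatrix x) ∂goeArray n = ∫ N, F ((Real.sqrt n)⁻¹ • goeOf N) ∂gArr (Fin n) (Fin n) := by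
  have e1 : ∀ x : Fin n × Fin n → ℝ, F (goeMatrix x) = (fun M => F (goeSym M)) (goeMatrix x) := fun x => by
    simp only [goe_sym_of_symm (goe_isSymm x)]
  have e2 : ∀ N : Matrix (Fin n) (Fin n) ℝ, F ((Real.sqrt n)⁻¹ • goeOf N) = (fun M => F (goeSym M)) ((Real.sqrt n)⁻¹ • goeOf N) := fun N => by
    simp only [goe_sym_of_symm ((goe_of_isSymm N).smul _)]
  simp only [e1, e2]
  rw [← integral_map goe_matrix_measurable.aemeasurable hF.aestronglyMeasurable, goe_frozen,
    integral_map (goe_smul_measurable _).aemeasurable hF.aestronglyMeasurable, goeRaw]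
  have h3 : Measurable fun M : Matrix (Fin n) (Fin n) ℝ => F (goeSym ((Real.sqrt n)⁻¹ • M)) := hF.comp (goe_smul_measurable _)
  exact integral_map goe_of_measurable.aemeasurable h3.aestronglyMeasurable

theorem goe_sym_stat_continuous {ι : Type} [Fintype ι] [DecidableEq ι] {φ : ℝ → ℝ} (hφ : Continuous φ) :
    Continuous fun M : Matrix ι ι ℝ => ((goeSym M).charpoly.roots.map φ).sum := by
  refine eig_stat_cont (fun i j => ?_) goe_sym_isHermitian hφ
  simp only [goeSym, Matrix.smul_apply, Matrix.add_apply, Matrix.transpose_apply]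
  exact ((continuous_apply_apply i j).add (continuous_apply_apply j i)).const_smul (2 : ℝ)⁻¹

/-- **the frozen Laplace functional in terms of the raw GOE of `Defs`** -/
theorem goe_laplace_eq (n : ℕ) {h : ℝ → ℝ} (hc : Continuous h) :
    goeLaplace n h = ∫ N, Real.exp (-spectralSum ((Real.sqrt n)⁻¹ • goeOf N) fun t => h (n / Real.pi * t)) ∂gArr (Fin n) (Fin n) := by
  unfold goeLaplace
  refine goe_frozen_integral (fun M => Real.exp (-spectralSum M fun t => h (n / Real.pi * t))) ?_
  have := goe_sym_stat_continuous (ι := Fin n) (φ := fun t => h (n / Real.pi * t)) (hc.comp (continuous_const.mul continuous_id))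
  exact (Real.continuous_exp.comp this.neg).measurable

end frozen

theorem goe_eqns_cite : True := by
  have := @goeMat.eq_1
  have := @goeImg.eq_1
  have := @goeScl.eq_1
  have := @goeJoin.eq_1
  have := @goeCovR.eq_1
  have := @goeLvR.eq_1
  have := @goeRaw.eq_1
  have := @goeConj.eq_1
  have := @goeOff.eq_1
  have := @goeGlue.eq_1
  have := @goeDens.eq_1
  have := @goeVar.eq_1
  have := @goeLv.eq_1
  have := @goeCov.eq_1
  have := @goeSym.eq_1
  trivial

/-! ## independence: uncorrelated Gaussian families; row / cross versus minor (`rsDel` of the resolvent kit) -/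

section indep

/-- extension by zero of a level to a sum of index sets -/
def goeInl {S₁ J : Type} (S₂ : Type) (l : GhLv S₁ J) : GhLv (S₁ ⊕ S₂) J := ⟨l.m, Sum.elim l.A fun _ _ => 0⟩
def goeInr {S₂ J : Type} (S₁ : Type) (l : GhLv S₂ J) : GhLv (S₁ ⊕ S₂) J := ⟨l.m, Sum.elim (fun _ _ => 0) l.A⟩
/-- two levels on the same drivers, stacked -/
def goeStack {S₁ S₂ J : Type} (l₁ : GhLv S₁ J) (l₂ : GhLv S₂ J) : GhLv (S₁ ⊕ S₂) J := ⟨l₁.m, Sum.elim l₁.A l₂.A⟩

/-- **uncorrelated jointly Gaussian families are independent**: two linear images of the same drivers with zero cross covariance -/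
theorem goe_indep {S₁ S₂ J : Type} [Fintype S₁] [Fintype S₂] [Fintype J] (l₁ : GhLv S₁ J) (l₂ : GhLv S₂ J)
    (h : ∀ s t, ∑ p, l₁.A s p * l₂.A t p = 0) :
    (ghStd J).map (fun ξ => (l₁.inc ξ, l₂.inc ξ)) = ((ghStd J).map l₁.inc).prod ((ghStd J).map l₂.inc) := by
  set e : (S₁ ⊕ S₂ → ℝ) → (S₁ → ℝ) × (S₂ → ℝ) := fun f => (fun s => f (Sum.inl s), fun t => f (Sum.inr t)) with he
  have hem : Measurable e := (measurable_pi_lambda _ fun s => measurable_pi_apply _).prodMk (measurable_pi_lambda _ fun s => measurable_pi_apply _)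
  have h1 := goe_join_law (goeInl S₂ l₁) (goeInr S₁ l₂)
  have h2 : (ghStd (J ⊕ J)).map (goeJoin (goeInl S₂ l₁) (goeInr S₁ l₂)).inc = (ghStd J).map (goeStack l₁ l₂).inc := by
    refine ghs_law_congr _ _ fun s t => ?_
    rw [goe_join_cov]
    rcases s with s | s <;> rcases t with t | t
    · simp [GhLv.cov, goeInl, goeInr, goeStack]
    · simp [GhLv.cov, goeInl, goeInr, goeStack, h s t]
    · simp only [GhLv.cov, goeInl, goeInr, goeStack, Sum.elim_inl, Sum.elim_inr, mul_zero, zero_mul, Finset.sum_const_zero, add_zero]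
      rw [← h t s]
      exact Finset.sum_congr rfl fun _ _ => mul_comm _ _
    · simp [GhLv.cov, goeInl, goeInr, goeStack]
  rw [h2] at h1
  have h3 := congrArg (Measure.map e) h1
  rw [Measure.map_map hem (ghs_measurable_inc _), Measure.map_map hem (by
    exact ((ghs_measurable_inc _).comp measurable_fst).add ((ghs_measurable_inc _).comp measurable_snd))] at h3
  rw [Measure.map_prod_map _ _ (ghs_measurable_inc _) (ghs_measurable_inc _)]
  have e1 : e ∘ (goeStack l₁ l₂).inc = fun ξ => (l₁.inc ξ, l₂.inc ξ) := by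
    funext ξ
    rfl
  have e2 : (e ∘ fun p : (J → ℝ) × (J → ℝ) => (goeInl S₂ l₁).inc p.1 + (goeInr S₁ l₂).inc p.2) = Prod.map l₁.inc l₂.inc := by
    funext p
    simp only [he, Function.comp, Prod.map, Pi.add_apply, GhLv.inc, goeInl, goeInr, Sum.elim_inl, Sum.elim_inr, zero_mul, Finset.sum_const_zero, add_zero, zero_add]
    rfl
  rw [e1, e2] at h3
  exact h3.symm

variable {ι : Type} [Fintype ι] [DecidableEq ι]

/-- restriction of a level to a family of indices -/
def goeSub {S S' J : Type} (f : S' → S) (l : GhLv S J) : GhLv S' J := ⟨l.m, fun s => l.A (f s)⟩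

theorem goe_sub_inc {S S' J : Type} [Fintype S] [Fintype S'] [Fintype J] (f : S' → S) (l : GhLv S J) (ξ : J → ℝ) (s : S') :
    (goeSub f l).inc ξ s = l.inc ξ (f s) := rfl

theorem goe_sub_cov {S S' J : Type} [Fintype S] [Fintype S'] [Fintype J] (f : S' → S) (l : GhLv S J) (s t : S') :
    (goeSub f l).cov s t = l.cov (f s) (f t) := rfl

/-- masked level -/
def goeMask {S J : Type} (P : S → Prop) [DecidablePred P] (l : GhLv S J) : GhLv S J := ⟨l.m, fun s p => if P s then 0 else l.A s p⟩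

theorem goe_mask_inc {S J : Type} [Fintype S] [Fintype J] (P : S → Prop) [DecidablePred P] (l : GhLv S J) (ξ : J → ℝ) (s : S) :
    (goeMask P l).inc ξ s = if P s then 0 else l.inc ξ s := by
  simp only [GhLv.inc, goeMask]
  split_ifs <;> simp

/-- the diagonal rescaling of a row of the raw GOE -/
noncomputable def goeRowD (j : ι) (g : ι → ℝ) : ι → ℝ := fun u => if u = j then Real.sqrt 2 * g u else g u

theorem goe_rowD_measurable (j : ι) : Measurable (goeRowD j) := by
  refine measurable_pi_lambda _ fun u => ?_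
  unfold goeRowD
  split_ifs
  · exact (measurable_pi_apply u).const_mul _
  · exact measurable_pi_apply u

theorem goe_row_measurable (j : ι) : Measurable fun N : Matrix ι ι ℝ => goeOf N j :=
  measurable_pi_lambda _ fun u => (goe_entry_measurable j u).comp goe_of_measurable

theorem goe_del_measurable (T : Finset ι) : Measurable fun M : Matrix ι ι ℝ => rsDel M T := by
  refine goe_measurable_of_entries fun x y => ?_
  simp only [rs_del_apply]
  split_ifs
  · exact measurable_const
  · exact goe_entry_measurable x y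

theorem goe_qfG_eq (ι : Type) [Fintype ι] : qfG ι = ghStd ι := rfl

/-- **law of a row of the raw GOE** -/
theorem goe_row_law (j : ι) : (gArr ι ι).map (fun N => goeOf N j) = (qfG ι).map (goeRowD j) := by
  rw [goe_gArr_eq, Measure.map_map (goe_row_measurable j) goe_mat_measurable, goe_qfG_eq]
  have h := ghs_law_congr (goeSub (fun u => (j, u)) (goeLvR ι)) (⟨0, fun u p => if p = u then (if u = j then Real.sqrt 2 else 1) else 0⟩ : GhLv ι ι) (fun u v => by
    rw [goe_sub_cov, goe_lvR_cov]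
    simp only [GhLv.cov, goeCovR, true_and]
    have e : ∀ p : ι, (if p = u then (if u = j then Real.sqrt 2 else 1) else 0) * (if p = v then (if v = j then Real.sqrt 2 else 1) else 0)
        = if p = u then (if u = v then (if u = j then 2 else 1) else 0) else 0 := by
      intro p
      by_cases h1 : p = u
      · subst h1
        by_cases h2 : p = v
        · subst h2
          by_cases h3 : p = j
          · simp [h3]
          · simp [h3]
        · simp [h2]
      · simp [h1]
    simp only [e, Finset.sum_ite_eq', Finset.mem_univ, if_true]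
    by_cases h2 : u = v
    · subst h2
      by_cases h3 : u = j
      · subst h3; simp; norm_num
      · have h4 : ¬ (j = u) := fun h => h3 h.symm
        simp [h3, h4]
    · have : ¬ (j = v ∧ u = j) := by rintro ⟨rfl, rfl⟩; exact h2 rfl
      simp [h2, this])
  refine Eq.trans ?_ (h.trans ?_)
  · congr 1
    funext ξ
    funext u
    rw [goe_sub_inc]
    exact (congrFun (congrFun (goe_lvR_inc ξ) j) u).symm
  · congr 1
    funext g
    funext u
    simp only [GhLv.inc, goeRowD, ite_mul, zero_mul, Finset.sum_ite_eq', Finset.mem_univ, if_true, one_mul]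

theorem goe_sub_measurable' {X : Type*} [MeasurableSpace X] {α β : Type} [Fintype α] [Fintype β] {f g : X → Matrix α β ℝ} (hf : Measurable f) (hg : Measurable g) : Measurable fun x => f x - g x :=
  goe_measurable_of_entries fun i j => ((goe_entry_measurable i j).comp hf).sub ((goe_entry_measurable i j).comp hg)

/-- **the cross `W - W^{(T)}` (rows and columns of `T`) is independent of the minor `W^{(T)} = rsDel W T`** -/
theorem goe_del_indep (T : Finset ι) :
    (gArr ι ι).map (fun N => (goeOf N - rsDel (goeOf N) T, rsDel (goeOf N) T))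
      = ((gArr ι ι).map fun N => goeOf N - rsDel (goeOf N) T).prod ((gArr ι ι).map fun N => rsDel (goeOf N) T) := by
  set l₁ := goeMask (fun s : ι × ι => ¬ (s.1 ∈ T ∨ s.2 ∈ T)) (goeLvR ι) with hl₁
  set l₂ := goeMask (fun s : ι × ι => s.1 ∈ T ∨ s.2 ∈ T) (goeLvR ι) with hl₂
  have hd : Measurable fun N : Matrix ι ι ℝ => rsDel (goeOf N) T := (goe_del_measurable T).comp goe_of_measurable
  have hc : Measurable fun N : Matrix ι ι ℝ => goeOf N - rsDel (goeOf N) T := goe_sub_measurable' goe_of_measurable hd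
  have a1 : ∀ ξ : ι × ι → ℝ, goeOf (goeMat ξ) - rsDel (goeOf (goeMat ξ)) T = goeMat (l₁.inc ξ) := by
    intro ξ
    ext x y
    rw [← goe_lvR_inc]
    simp only [Matrix.sub_apply, rs_del_apply, goeMat, hl₁, goe_mask_inc]
    by_cases h : x ∈ T ∨ y ∈ T
    · simp [h]
    · simp [h]
  have a2 : ∀ ξ : ι × ι → ℝ, rsDel (goeOf (goeMat ξ)) T = goeMat (l₂.inc ξ) := by
    intro ξ
    ext x y
    rw [← goe_lvR_inc]
    simp only [rs_del_apply, goeMat, hl₂, goe_mask_inc]
  have hx : ∀ s t, ∑ p, l₁.A s p * l₂.A t p = 0 := by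
    intro s t
    simp only [hl₁, hl₂, goeMask]
    by_cases hs : s.1 ∈ T ∨ s.2 ∈ T
    · by_cases ht : t.1 ∈ T ∨ t.2 ∈ T
      · simp [ht]
      · simp only [hs, not_true_eq_false, if_false, ht]
        have := goe_lvR_cov s t
        rw [GhLv.cov] at this
        rw [this, goeCovR]
        have n1 : ¬ (s.1 = t.1 ∧ s.2 = t.2) := by
          rintro ⟨h1, h2⟩; rw [h1, h2] at hs; exact ht hs
        have n2 : ¬ (s.1 = t.2 ∧ s.2 = t.1) := by
          rintro ⟨h1, h2⟩; rw [h1, h2] at hs; exact ht hs.symm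
        simp [n1, n2]
    · simp [hs]
  have h := goe_indep l₁ l₂ hx
  have h' := congrArg (Measure.map (Prod.map (goeMat : (ι × ι → ℝ) → Matrix ι ι ℝ) (goeMat : (ι × ι → ℝ) → Matrix ι ι ℝ))) h
  rw [← Measure.map_prod_map _ _ goe_mat_measurable goe_mat_measurable, Measure.map_map (goe_mat_measurable.prodMap goe_mat_measurable)
    ((ghs_measurable_inc _).prodMk (ghs_measurable_inc _)), Measure.map_map goe_mat_measurable (ghs_measurable_inc _),
    Measure.map_map goe_mat_measurable (ghs_measurable_inc _)] at h'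
  rw [goe_gArr_eq, Measure.map_map (hc.prodMk hd) goe_mat_measurable, Measure.map_map hc goe_mat_measurable, Measure.map_map hd goe_mat_measurable]
  have b1 : ((fun N : Matrix ι ι ℝ => goeOf N - rsDel (goeOf N) T) ∘ goeMat) = goeMat ∘ l₁.inc := funext a1
  have b2 : ((fun N : Matrix ι ι ℝ => rsDel (goeOf N) T) ∘ goeMat) = goeMat ∘ l₂.inc := funext a2
  have b3 : ((fun N : Matrix ι ι ℝ => (goeOf N - rsDel (goeOf N) T, rsDel (goeOf N) T)) ∘ goeMat) = Prod.map goeMat goeMat ∘ fun ξ => (l₁.inc ξ, l₂.inc ξ) := by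
    funext ξ
    simp only [Function.comp, Prod.map]
    rw [a1, a2]
  rw [b1, b2, b3]
  exact h'

/-- **a row of the raw GOE is independent of the minor** -/
theorem goe_row_indep (j : ι) :
    (gArr ι ι).map (fun N => (goeOf N j, rsDel (goeOf N) {j})) = ((qfG ι).map (goeRowD j)).prod ((gArr ι ι).map fun N => rsDel (goeOf N) {j}) := by
  have hd : Measurable fun N : Matrix ι ι ℝ => rsDel (goeOf N) {j} := (goe_del_measurable {j}).comp goe_of_measurable
  have hc : Measurable fun N : Matrix ι ι ℝ => goeOf N - rsDel (goeOf N) {j} := goe_sub_measurable' goe_of_measurable hd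
  have hr : Measurable fun M : Matrix ι ι ℝ => M j := measurable_pi_lambda _ fun u => goe_entry_measurable j u
  have h := congrArg (Measure.map (Prod.map (fun M : Matrix ι ι ℝ => M j) (id : Matrix ι ι ℝ → Matrix ι ι ℝ))) (goe_del_indep ({j} : Finset ι))
  rw [← Measure.map_prod_map _ _ hr measurable_id, Measure.map_map (hr.prodMap measurable_id) (hc.prodMk hd), Measure.map_map hr hc, Measure.map_id] at h
  have e : ∀ N : Matrix ι ι ℝ, (goeOf N - rsDel (goeOf N) {j}) j = goeOf N j := by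
    intro N
    funext u
    simp [Matrix.sub_apply, rs_del_apply]
  have b1 : ((fun M : Matrix ι ι ℝ => M j) ∘ fun N : Matrix ι ι ℝ => goeOf N - rsDel (goeOf N) {j}) = fun N => goeOf N j := funext e
  have b2 : (Prod.map (fun M : Matrix ι ι ℝ => M j) (id : Matrix ι ι ℝ → Matrix ι ι ℝ) ∘ fun N : Matrix ι ι ℝ => (goeOf N - rsDel (goeOf N) {j}, rsDel (goeOf N) {j}))
      = fun N => (goeOf N j, rsDel (goeOf N) {j}) := by
    funext N
    simp only [Function.comp, Prod.map, e, id]
  rw [b1, b2, goe_row_law] at h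
  exact h

/-- `lintegral` form of `goe_row_indep` -/
theorem goe_row_lintegral (j : ι) (F : (ι → ℝ) → Matrix ι ι ℝ → ENNReal) (hF : Measurable (Function.uncurry F)) :
    ∫⁻ N, F (goeOf N j) (rsDel (goeOf N) {j}) ∂gArr ι ι = ∫⁻ N', ∫⁻ g, F (goeRowD j g) (rsDel (goeOf N') {j}) ∂qfG ι ∂gArr ι ι := by
  have hd : Measurable fun N : Matrix ι ι ℝ => rsDel (goeOf N) {j} := (goe_del_measurable {j}).comp goe_of_measurable
  have h1 : ∫⁻ N, F (goeOf N j) (rsDel (goeOf N) {j}) ∂gArr ι ι = ∫⁻ p, Function.uncurry F p ∂((gArr ι ι).map fun N => (goeOf N j, rsDel (goeOf N) {j})) := by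
    rw [lintegral_map hF ((goe_row_measurable j).prodMk hd)]
    rfl
  rw [h1, goe_row_indep, lintegral_prod_symm _ hF.aemeasurable, lintegral_map (by
    exact Measurable.lintegral_prod_left' hF) hd]
  refine lintegral_congr fun N' => ?_
  have h5 : Measurable fun x : ι → ℝ => Function.uncurry F (x, rsDel (goeOf N') {j}) := hF.comp (measurable_id.prodMk measurable_const)
  exact lintegral_map h5 (goe_rowD_measurable j)

/-- Bochner form of `goe_row_indep` -/
theorem goe_row_integral (j : ι) (F : (ι → ℝ) → Matrix ι ι ℝ → ℝ) (hF : Measurable (Function.uncurry F))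
    (hi : Integrable (fun N => F (goeOf N j) (rsDel (goeOf N) {j})) (gArr ι ι)) :
    ∫ N, F (goeOf N j) (rsDel (goeOf N) {j}) ∂gArr ι ι = ∫ N', ∫ g, F (goeRowD j g) (rsDel (goeOf N') {j}) ∂qfG ι ∂gArr ι ι := by
  have hd : Measurable fun N : Matrix ι ι ℝ => rsDel (goeOf N) {j} := (goe_del_measurable {j}).comp goe_of_measurable
  have hm : Measurable fun N : Matrix ι ι ℝ => (goeOf N j, rsDel (goeOf N) {j}) := (goe_row_measurable j).prodMk hd
  have h1 : ∫ N, F (goeOf N j) (rsDel (goeOf N) {j}) ∂gArr ι ι = ∫ p, Function.uncurry F p ∂((gArr ι ι).map fun N => (goeOf N j, rsDel (goeOf N) {j})) := by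
    rw [integral_map hm.aemeasurable hF.aestronglyMeasurable]
    rfl
  have hi' : Integrable (Function.uncurry F) ((gArr ι ι).map fun N => (goeOf N j, rsDel (goeOf N) {j})) :=
    (integrable_map_measure hF.aestronglyMeasurable hm.aemeasurable).2 hi
  rw [goe_row_indep] at hi'
  rw [h1, goe_row_indep, integral_prod_symm _ hi', integral_map hd.aemeasurable (by
    exact (hF.stronglyMeasurable.integral_prod_left').aestronglyMeasurable)]
  refine integral_congr_ae (Filter.Eventually.of_forall fun N' => ?_)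
  have h5 : Measurable fun x : ι → ℝ => Function.uncurry F (x, rsDel (goeOf N') {j}) := hF.comp (measurable_id.prodMk measurable_const)
  exact integral_map (goe_rowD_measurable j).aemeasurable h5.aestronglyMeasurable

end indep

theorem goe_eqns_cite2 : True := by
  have := @goeInl.eq_1
  have := @goeInr.eq_1
  have := @goeStack.eq_1
  have := @goeSub.eq_1
  have := @goeMask.eq_1
  have := @goeRowD.eq_1
  trivial

/-! ## (E3) of the unit GOE: resolvent traces, noise in an eigenbasis, frozen GOE + raw GOE -/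

section rtr
variable {ι κ : Type} [Fintype ι] [Fintype κ] [DecidableEq ι] [DecidableEq κ]

theorem goe_det_measurable {X : Type*} [MeasurableSpace X] {f : X → Matrix ι ι ℂ} (hf : ∀ i j, Measurable fun x => f x i j) :
    Measurable fun x => (f x).det := by
  simp only [Matrix.det_apply]
  refine Finset.measurable_sum _ fun σ _ => ?_
  exact (Finset.measurable_prod _ fun i _ => hf _ _).const_smul _

/-- the total matrix inverse is measurable -/
theorem goe_inv_measurable {X : Type*} [MeasurableSpace X] {f : X → Matrix ι ι ℂ} (hf : ∀ i j, Measurable fun x => f x i j) (i j : ι) :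
    Measurable fun x => (f x)⁻¹ i j := by
  simp only [Matrix.inv_def, Matrix.smul_apply, Ring.inverse_eq_inv', Matrix.adjugate_apply, smul_eq_mul]
  refine (goe_det_measurable hf).inv.mul (goe_det_measurable fun a b => ?_)
  by_cases h : a = j
  · subst h
    simp only [Matrix.updateRow_self]
    exact measurable_const
  · simp only [Matrix.updateRow_ne h]
    exact hf a b

/-- `rTr` is measurable in the matrix -/
theorem goe_rTr_measurable (z : ℂ) : Measurable fun H : Matrix ι ι ℝ => rTr H z := by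
  unfold rTr
  simp only [Matrix.trace, Matrix.diag]
  refine Finset.measurable_sum _ fun i _ => goe_inv_measurable (fun a b => ?_) i i
  simp only [Matrix.sub_apply, Matrix.map_apply, Matrix.smul_apply]
  exact (Complex.measurable_ofReal.comp (goe_entry_measurable a b)).sub measurable_const

/-- `rTr` is invariant under orthogonal conjugation -/
theorem goe_rTr_conj (O M : Matrix ι ι ℝ) (hO : O * Oᵀ = 1) (z : ℂ) : rTr (O * M * Oᵀ) z = rTr M z := by
  have hO' : Oᵀ * O = 1 := mul_eq_one_comm.1 hO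
  unfold rTr
  set f : ℝ →+* ℂ := Complex.ofRealHom with hf
  have em : ∀ A : Matrix ι ι ℝ, A.map (fun t : ℝ => (t : ℂ)) = f.mapMatrix A := fun A => rfl
  simp only [em, map_mul]
  set U := f.mapMatrix O with hU
  set V := f.mapMatrix Oᵀ with hV
  have h1 : U * V = 1 := by rw [hU, hV, ← map_mul, hO, map_one]
  have h2 : V * U = 1 := by rw [hU, hV, ← map_mul, hO', map_one]
  have e : U * f.mapMatrix M * V - z • (1 : Matrix ι ι ℂ) = U * (f.mapMatrix M - z • 1) * V := by
    rw [Matrix.mul_sub, Matrix.sub_mul, Matrix.mul_smul, Matrix.mul_one, Matrix.smul_mul, h1]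
  have hUi : U⁻¹ = V := Matrix.inv_eq_right_inv h1
  have hVi : V⁻¹ = U := Matrix.inv_eq_right_inv h2
  rw [e, Matrix.mul_inv_rev, Matrix.mul_inv_rev, hUi, hVi, ← Matrix.mul_assoc, Matrix.trace_mul_comm, ← Matrix.mul_assoc, h2, Matrix.one_mul]

/-- scaling -/
theorem goe_rTr_smul (c : ℝ) (hc : c ≠ 0) (M : Matrix ι ι ℝ) (z : ℂ) : rTr (c • M) z = (c : ℂ)⁻¹ * rTr M (z / c) := by
  unfold rTr
  have hc' : (c : ℂ) ≠ 0 := by exact_mod_cast hc
  have e : (c • M).map (fun t : ℝ => (t : ℂ)) - z • (1 : Matrix ι ι ℂ) = (c : ℂ) • (M.map (fun t : ℝ => (t : ℂ)) - (z / c) • (1 : Matrix ι ι ℂ)) := by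
    ext i j
    simp only [Matrix.sub_apply, Matrix.map_apply, Matrix.smul_apply, smul_eq_mul, Complex.ofReal_mul]
    field_simp
  rw [e]
  set A := M.map (fun t : ℝ => (t : ℂ)) - (z / c) • (1 : Matrix ι ι ℂ) with hA
  by_cases h : IsUnit A.det
  · have := Matrix.inv_smul' (A := A) (Units.mk0 (c : ℂ) hc') h
    rw [Units.smul_def, Units.val_mk0] at this
    rw [this, Units.smul_def, Matrix.trace_smul, smul_eq_mul]
    simp
  · have h2 : ¬ IsUnit ((c : ℂ) • A).det := by
      rw [Matrix.det_smul]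
      rw [isUnit_iff_ne_zero, not_not] at h
      rw [h, mul_zero]
      exact not_isUnit_zero
    rw [Matrix.nonsing_inv_apply_not_isUnit _ h, Matrix.nonsing_inv_apply_not_isUnit _ h2]
    simp

/-! ### `N`-forms of the invariances, for functions which are measurable on symmetric matrices only -/

theorem goe_sym_measurable : Measurable (goeSym : Matrix ι ι ℝ → Matrix ι ι ℝ) := by
  refine goe_measurable_of_entries fun i j => ?_
  simp only [goeSym, Matrix.smul_apply, Matrix.add_apply, Matrix.transpose_apply]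
  exact ((goe_entry_measurable i j).add (goe_entry_measurable j i)).const_smul (2 : ℝ)⁻¹

theorem goe_raw_integral (F : Matrix ι ι ℝ → ℝ) (hF : Measurable F) : ∫ W, F W ∂goeRaw ι = ∫ N, F (goeOf N) ∂gArr ι ι :=
  integral_map goe_of_measurable.aemeasurable hF.aestronglyMeasurable

theorem goe_conj_isSymm (O : Matrix κ ι ℝ) {M : Matrix ι ι ℝ} (hM : M.IsSymm) : (O * M * Oᵀ).IsSymm := by
  rw [Matrix.IsSymm, Matrix.transpose_mul, Matrix.transpose_mul, Matrix.transpose_transpose, hM.eq, Matrix.mul_assoc]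

/-- orthogonal invariance, `N`-form -/
theorem goe_of_integral_conj (O : Matrix κ ι ℝ) (hO : O * Oᵀ = 1) (F : Matrix κ κ ℝ → ℝ) (hF : Measurable fun M => F (goeSym M)) :
    ∫ N, F (O * goeOf N * Oᵀ) ∂gArr ι ι = ∫ N, F (goeOf N) ∂gArr κ κ := by
  have h := goe_raw_integral_conj O hO _ hF
  have h1 : Measurable fun W : Matrix ι ι ℝ => F (goeSym (O * W * Oᵀ)) := hF.comp (goe_conj_measurable O)
  rw [goe_raw_integral _ hF, goe_raw_integral _ h1] at h
  simp only [goe_sym_of_symm (goe_of_isSymm _), goe_sym_of_symm (goe_conj_isSymm O (goe_of_isSymm _))] at h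
  exact h

/-- additivity, `N`-form -/
theorem goe_of_integral_add (a b : ℝ) (F : Matrix ι ι ℝ → ℝ) (hF : Measurable fun M => F (goeSym M)) :
    ∫ p, F (a • goeOf p.1 + b • goeOf p.2) ∂((gArr ι ι).prod (gArr ι ι)) = ∫ N, F (Real.sqrt (a ^ 2 + b ^ 2) • goeOf N) ∂gArr ι ι := by
  have h := goe_raw_integral_add a b _ hF
  have h1 : Measurable fun W : Matrix ι ι ℝ => F (goeSym (Real.sqrt (a ^ 2 + b ^ 2) • W)) := hF.comp (goe_smul_measurable _)
  have h2 : Measurable fun p : Matrix ι ι ℝ × Matrix ι ι ℝ => F (goeSym (a • p.1 + b • p.2)) := hF.comp (goe_lin_measurable a b)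
  rw [goe_raw_integral _ h1] at h
  unfold goeRaw at h
  rw [Measure.map_prod_map _ _ goe_of_measurable goe_of_measurable,
    integral_map (goe_of_measurable.prodMap goe_of_measurable).aemeasurable h2.aestronglyMeasurable] at h
  simp only [Prod.map, goe_sym_of_symm ((goe_of_isSymm _).smul _), goe_sym_of_symm (((goe_of_isSymm _).smul _).add ((goe_of_isSymm _).smul _))] at h
  exact h

theorem goe_sym_isSymm (M : Matrix ι ι ℝ) : (goeSym M).IsSymm := by
  have := goe_sym_isHermitian M
  rwa [Matrix.IsHermitian, Matrix.conjTranspose_eq_transpose_of_trivial] at this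

/-- **(E3-a)** the noise may be added in ANY eigenbasis: `A = O diag(d) Oᵀ`, `F` conjugation invariant -/
theorem goe_int_diag (O : Matrix ι ι ℝ) (hO : O * Oᵀ = 1) (d : ι → ℝ) (c : ℝ) (F : Matrix ι ι ℝ → ℝ) (hF : Measurable fun M => F (goeSym M))
    (hinv : ∀ U M : Matrix ι ι ℝ, U * Uᵀ = 1 → F (U * M * Uᵀ) = F M) :
    ∫ N, F (Matrix.diagonal d + c • goeOf N) ∂gArr ι ι = ∫ N, F (O * Matrix.diagonal d * Oᵀ + c • goeOf N) ∂gArr ι ι := by
  have hm : Measurable fun M : Matrix ι ι ℝ => (fun W => F (O * Matrix.diagonal d * Oᵀ + c • W)) (goeSym M) := by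
    have e : (fun M : Matrix ι ι ℝ => (fun W => F (O * Matrix.diagonal d * Oᵀ + c • W)) (goeSym M))
        = (fun M => F (goeSym M)) ∘ fun M : Matrix ι ι ℝ => O * Matrix.diagonal d * Oᵀ + c • goeSym M := by
      funext M
      simp only [Function.comp]
      rw [goe_sym_of_symm ((goe_conj_isSymm O (Matrix.isSymm_diagonal d)).add ((goe_sym_isSymm M).smul c))]
    rw [e]
    exact hF.comp (goe_add_measurable measurable_const ((goe_smul_measurable c).comp goe_sym_measurable))
  rw [← goe_of_integral_conj O hO (fun W => F (O * Matrix.diagonal d * Oᵀ + c • W)) hm]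
  refine integral_congr_ae (Filter.Eventually.of_forall fun N => ?_)
  simp only
  rw [← hinv O (Matrix.diagonal d + c • goeOf N) hO]
  congr 1
  rw [Matrix.mul_add, Matrix.add_mul, Matrix.mul_smul, Matrix.smul_mul]

end rtr

section mix
variable {n : ℕ}

/-- **(E3-b)** frozen GOE plus an independent raw GOE -/
theorem goe_mix_add (hn : 1 ≤ n) (a c : ℝ) (F : Matrix (Fin n) (Fin n) ℝ → ℝ) (hF : Measurable fun M => F (goeSym M)) (B : ℝ) (hB : ∀ M, |F M| ≤ B) :
    ∫ x, ∫ N, F (a • goeMatrix x + c • goeOf N) ∂gArr (Fin n) (Fin n) ∂goeArray n = ∫ x, F (Real.sqrt (a ^ 2 + n * c ^ 2) • goeMatrix x) ∂goeArray n := by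
  have hn0 : (0 : ℝ) < n := by exact_mod_cast hn
  have hs : Real.sqrt n ≠ 0 := (Real.sqrt_pos.2 hn0).ne'
  -- the inner integral as a function of the matrix
  have hj : Measurable fun p : Matrix (Fin n) (Fin n) ℝ × Matrix (Fin n) (Fin n) ℝ => F (goeSym (a • goeSym p.1 + c • goeOf p.2)) :=
    hF.comp (goe_add_measurable ((goe_smul_measurable a).comp (goe_sym_measurable.comp measurable_fst)) ((goe_smul_measurable c).comp (goe_of_measurable.comp measurable_snd)))
  have hsym : ∀ (M N : Matrix (Fin n) (Fin n) ℝ), M.IsSymm → F (goeSym (a • M + c • goeOf N)) = F (a • M + c • goeOf N) := fun M N hM => by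
    rw [goe_sym_of_symm ((hM.smul a).add ((goe_of_isSymm N).smul c))]
  have hG : Measurable fun M : Matrix (Fin n) (Fin n) ℝ => (fun M' => ∫ N, F (a • M' + c • goeOf N) ∂gArr (Fin n) (Fin n)) (goeSym M) := by
    have := (hj.stronglyMeasurable.integral_prod_right' (ν := gArr (Fin n) (Fin n))).measurable
    simp only [hsym _ _ (goe_sym_isSymm _)] at this
    exact this
  rw [goe_frozen_integral (fun M' => ∫ N, F (a • M' + c • goeOf N) ∂gArr (Fin n) (Fin n)) hG]
  -- Fubini
  have hj2 : Measurable fun p : Matrix (Fin n) (Fin n) ℝ × Matrix (Fin n) (Fin n) ℝ => F (goeSym ((a * (Real.sqrt n)⁻¹) • goeOf p.1 + c • goeOf p.2)) :=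
    hF.comp (goe_add_measurable ((goe_smul_measurable _).comp (goe_of_measurable.comp measurable_fst)) ((goe_smul_measurable c).comp (goe_of_measurable.comp measurable_snd)))
  have hi : Integrable (fun p : Matrix (Fin n) (Fin n) ℝ × Matrix (Fin n) (Fin n) ℝ => F (goeSym ((a * (Real.sqrt n)⁻¹) • goeOf p.1 + c • goeOf p.2)))
      ((gArr (Fin n) (Fin n)).prod (gArr (Fin n) (Fin n))) :=
    Integrable.of_bound hj2.aestronglyMeasurable B (Filter.Eventually.of_forall fun p => by simpa using hB _)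
  have hfub := integral_prod _ hi
  simp only [goe_sym_of_symm (((goe_of_isSymm _).smul _).add ((goe_of_isSymm _).smul _))] at hfub
  simp only [smul_smul]
  rw [← hfub, goe_of_integral_add _ _ F hF]
  have hF2 : Measurable fun M : Matrix (Fin n) (Fin n) ℝ => (fun M' => F (Real.sqrt (a ^ 2 + n * c ^ 2) • M')) (goeSym M) := by
    have e : (fun M : Matrix (Fin n) (Fin n) ℝ => (fun M' => F (Real.sqrt (a ^ 2 + n * c ^ 2) • M')) (goeSym M))
        = (fun M => F (goeSym M)) ∘ fun M : Matrix (Fin n) (Fin n) ℝ => Real.sqrt (a ^ 2 + n * c ^ 2) • goeSym M := by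
      funext M
      simp only [Function.comp]
      rw [goe_sym_of_symm ((goe_sym_isSymm M).smul _)]
    rw [e]
    exact hF.comp ((goe_smul_measurable _).comp goe_sym_measurable)
  rw [goe_frozen_integral (fun M' => F (Real.sqrt (a ^ 2 + n * c ^ 2) • M')) hF2]
  simp only [smul_smul]
  have e : Real.sqrt ((a * (Real.sqrt n)⁻¹) ^ 2 + c ^ 2) = Real.sqrt (a ^ 2 + n * c ^ 2) * (Real.sqrt n)⁻¹ := by
    have h1 : (a * (Real.sqrt n)⁻¹) ^ 2 + c ^ 2 = (a ^ 2 + n * c ^ 2) * ((Real.sqrt n)⁻¹) ^ 2 := by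
      rw [mul_pow, inv_pow, Real.sq_sqrt hn0.le]
      field_simp
    rw [h1, Real.sqrt_mul' _ (by positivity), Real.sqrt_sq (by positivity)]
  rw [e]

/-- diagonalisation with an arbitrary labelling of the eigenvalues -/
theorem goe_diag_perm {ι : Type} [Fintype ι] [DecidableEq ι] {A : Matrix ι ι ℝ} (hA : A.IsHermitian) (σ : ι ≃ ι) :
    ∃ O : Matrix ι ι ℝ, O * Oᵀ = 1 ∧ A = O * Matrix.diagonal (fun k => hA.eigenvalues (σ k)) * Oᵀ := by
  refine ⟨(hA.eigenvectorUnitary : Matrix ι ι ℝ).submatrix id σ, ?_, ?_⟩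
  · rw [← eig_U_mul hA]
    ext i k
    simp only [Matrix.mul_apply, Matrix.transpose_apply, Matrix.submatrix_apply, id]
    exact Equiv.sum_comp σ fun j => (hA.eigenvectorUnitary : Matrix ι ι ℝ) i j * (hA.eigenvectorUnitary : Matrix ι ι ℝ) k j
  · conv_lhs => rw [eig_spec hA]
    ext i k
    rw [Matrix.mul_apply, Matrix.mul_apply]
    simp only [Matrix.mul_diagonal, Matrix.transpose_apply, Matrix.submatrix_apply, id]
    exact (Equiv.sum_comp σ fun j => (hA.eigenvectorUnitary : Matrix ι ι ℝ) i j * hA.eigenvalues j * (hA.eigenvectorUnitary : Matrix ι ι ℝ) k j).symm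

/-- diagonalisation with the eigenvalues in decreasing order (`eigD` of the kit EIG) -/
theorem goe_diag_sorted {A : Matrix (Fin n) (Fin n) ℝ} (hA : A.IsHermitian) :
    ∃ O : Matrix (Fin n) (Fin n) ℝ, O * Oᵀ = 1 ∧ A = O * Matrix.diagonal (fun k : Fin n => eigD A k) * Oᵀ := by
  have h := goe_diag_perm hA ((finCongr (Fintype.card_fin n).symm).trans (Fintype.equivOfCardEq (Fintype.card_fin (Fintype.card (Fin n)))))
  have e : (fun k : Fin n => hA.eigenvalues (((finCongr (Fintype.card_fin n).symm).trans (Fintype.equivOfCardEq (Fintype.card_fin (Fintype.card (Fin n))))) k))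
      = fun k : Fin n => eigD A k := by
    funext k
    exact eig_ix_val hA (finCongr (Fintype.card_fin n).symm k)
  rwa [e] at h

/-- **(E3-d)** `D_n(y) + √Δ W` has the spectrum of `s Y'`, `s = √(1 + nΔ/a²)`, in trace form.   `Y = a • goeMatrix x`, `d x` = ANY labelling of the spectrum of `Y` -/
theorem goe_add_trace (hn : 1 ≤ n) (a Δ : ℝ) (ha : 0 < a) (hΔ : 0 ≤ Δ) {b : ℕ} (z : Fin b → ℂ) (Φ : (Fin b → ℂ) → ℝ) (hΦ : Measurable Φ)
    (B : ℝ) (hB : ∀ v, |Φ v| ≤ B) (d : (Fin n × Fin n → ℝ) → Fin n → ℝ)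
    (hd : ∀ x, ∃ O : Matrix (Fin n) (Fin n) ℝ, O * Oᵀ = 1 ∧ a • goeMatrix x = O * Matrix.diagonal (d x) * Oᵀ) :
    ∫ x, ∫ N, Φ (fun i => rTr (Matrix.diagonal (d x) + Real.sqrt Δ • goeOf N) (z i)) ∂gArr (Fin n) (Fin n) ∂goeArray n
      = ∫ x, Φ (fun i => ((Real.sqrt (1 + n * Δ / a ^ 2) : ℝ) : ℂ)⁻¹ * rTr (a • goeMatrix x) (z i / (Real.sqrt (1 + n * Δ / a ^ 2) : ℝ))) ∂goeArray n := by
  set F : Matrix (Fin n) (Fin n) ℝ → ℝ := fun M => Φ fun i => rTr M (z i) with hFdef
  have hFm : Measurable F := hΦ.comp (measurable_pi_lambda _ fun i => goe_rTr_measurable (z i))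
  have hFs : Measurable fun M => F (goeSym M) := hFm.comp goe_sym_measurable
  have hinv : ∀ U M : Matrix (Fin n) (Fin n) ℝ, U * Uᵀ = 1 → F (U * M * Uᵀ) = F M := fun U M hU => by
    simp only [hFdef, goe_rTr_conj U M hU]
  have h1 : ∀ x, ∫ N, F (Matrix.diagonal (d x) + Real.sqrt Δ • goeOf N) ∂gArr (Fin n) (Fin n) = ∫ N, F (a • goeMatrix x + Real.sqrt Δ • goeOf N) ∂gArr (Fin n) (Fin n) := by
    intro x
    obtain ⟨O, hO, hx⟩ := hd x
    rw [goe_int_diag O hO (d x) _ F hFs hinv, ← hx]
  have h2 := goe_mix_add hn a (Real.sqrt Δ) F hFs B (fun M => hB _)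
  simp only [← h1] at h2
  refine h2.trans ?_
  have hs0 : 0 < 1 + n * Δ / a ^ 2 := by positivity
  have e : Real.sqrt (a ^ 2 + n * Real.sqrt Δ ^ 2) = Real.sqrt (1 + n * Δ / a ^ 2) * a := by
    rw [Real.sq_sqrt hΔ]
    have : a ^ 2 + n * Δ = (1 + n * Δ / a ^ 2) * a ^ 2 := by field_simp
    rw [this, Real.sqrt_mul hs0.le, Real.sqrt_sq ha.le]
  refine integral_congr_ae (Filter.Eventually.of_forall fun x => ?_)
  simp only [hFdef, e, mul_smul]
  congr 1
  funext i
  exact goe_rTr_smul _ (Real.sqrt_pos.2 hs0).ne' _ _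

end mix

end Claimed.Agent.R287
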