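-- KEEP
import Claimed.Agent.R287.Defs.B2
import Claimed.Agent.R287.Goe233

/-!
# Row 287 (S0534), unit B2: THE CHAIN KIT      owner helper233      prefix `b2c_`; defs `B2BC`, `b2cQ1`      0 sorry

On the definitions of `B2.lean` (`b2Eig b2Step b2Q b2E b2Obs`) and the GOE law kit `Goe233.lean`.
* algebra: `b2c_relabel`, `b2c_charpoly_conj`, `b2c_eigD_conj`, `b2c_eig_conj`, `b2c_diag` (`A = O diag(b2Eig A) Oᵀ`), `b2c_sum_eig` (`∑ φ (b2Eig A i) = (roots.map φ).sum`), `b2c_obs_step`.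
* continuity: `b2c_step_continuous` (jointly in `(x, N)`), `b2c_eig_sym_continuous`.
* `B2BC B F` = `F` continuous and `|F| ≤ B`:  `b2c_Q_bc`, `b2c_iter_bc` (the kernel and its iterates preserve the class, same bound), `b2c_integrable`,
  linear / monotone: `b2c_Q_sub`, `b2c_Q_mono`, `b2c_iter_sub`, `b2c_iter_mono`, `b2c_iter_neg`, `b2c_iter_abs`.
* `b2E`: `b2c_int₁`, `b2c_int₂`, `b2c_E_sub`, `b2c_E_mono`, `b2c_E_abs`;  `b2c_obs_bc` (`b2Obs` is continuous with values in `[-1,1]`);  **NODE ABS = `b2c_E_abs_sub`**.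
* marginals: `b2c_iter_fst`, `b2c_iter_snd` (`(b2Q Δ)^[n] (G ∘ fst) = ((b2cQ1 Δ)^[n] G) ∘ fst`).
* **SEMIGROUP** `b2c_semigroup` (step `Δ` then step `Δ'` = step `Δ + Δ'`, `G` bounded measurable), `b2c_iter_eq` (`n+1` steps of size `Δ` = one step of size `(n+1)Δ`),
  `b2c_E_fst`, `b2c_E_snd` (`b2E μ₁ μ₂ K Δ (n+1) (G ∘ fst) = ∫ x, ∫ N, G (b2Step ((n+1)Δ) (cPos K x) N)`), `b2c_E_fst_zero`, `b2c_E_snd_zero`.
-/

set_option autoImplicit false
set_option linter.unusedSectionVars false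
set_option linter.unusedVariables false

namespace Claimed.Agent.R287

open Claims.C0462 Matrix MeasureTheory ProbabilityTheory Filter Topology

section alg
variable {ι : Type} [Fintype ι] [DecidableEq ι]

/-- relabelling of a diagonalisation -/
theorem b2c_relabel (O : Matrix ι ι ℝ) (hO : O * Oᵀ = 1) (d : ι → ℝ) (σ : ι ≃ ι) :
    O.submatrix id σ * (O.submatrix id σ)ᵀ = 1 ∧ O * Matrix.diagonal d * Oᵀ = O.submatrix id σ * Matrix.diagonal (fun k => d (σ k)) * (O.submatrix id σ)ᵀ := by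
  constructor
  · rw [← hO]
    ext i k
    simp only [Matrix.mul_apply, Matrix.transpose_apply, Matrix.submatrix_apply, id]
    exact Equiv.sum_comp σ fun j => O i j * O k j
  · ext i k
    rw [Matrix.mul_apply, Matrix.mul_apply]
    simp only [Matrix.mul_diagonal, Matrix.transpose_apply, Matrix.submatrix_apply, id]
    exact (Equiv.sum_comp σ fun j => O i j * d j * O k j).symm

theorem b2c_charpoly_conj (O M : Matrix ι ι ℝ) (hO : O * Oᵀ = 1) : (O * M * Oᵀ).charpoly = M.charpoly := by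
  have hO' : Oᵀ * O = 1 := mul_eq_one_comm.1 hO
  have h := Matrix.charpoly_units_conj (⟨O, Oᵀ, hO, hO'⟩ : (Matrix ι ι ℝ)ˣ) M
  have e : ((⟨O, Oᵀ, hO, hO'⟩ : (Matrix ι ι ℝ)ˣ) : Matrix ι ι ℝ)⁻¹ = Oᵀ := Matrix.inv_eq_right_inv hO
  rw [e] at h
  exact h

theorem b2c_eigD_conj (O M : Matrix ι ι ℝ) (hO : O * Oᵀ = 1) (k : ℕ) : eigD (O * M * Oᵀ) k = eigD M k := by
  unfold eigD
  rw [b2c_charpoly_conj O M hO]

end alg

section chain
variable {K : ℕ}

theorem b2c_eig_conj (O M : Matrix (Win K) (Win K) ℝ) (hO : O * Oᵀ = 1) : b2Eig (O * M * Oᵀ) = b2Eig M := by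
  funext i
  exact b2c_eigD_conj O M hO _

/-- diagonalisation with the ascending labelling `b2Eig` -/
theorem b2c_diag {A : Matrix (Win K) (Win K) ℝ} (hA : A.IsHermitian) :
    ∃ O : Matrix (Win K) (Win K) ℝ, O * Oᵀ = 1 ∧ A = O * Matrix.diagonal (b2Eig A) * Oᵀ := by
  obtain ⟨O, hO, hA'⟩ := goe_diag_sorted hA
  obtain ⟨h1, h2⟩ := b2c_relabel O hO (fun k : Win K => eigD A k) Fin.revPerm
  refine ⟨_, h1, ?_⟩
  have e : (fun k : Win K => eigD A ((Fin.revPerm k : Win K) : ℕ)) = b2Eig A := by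
    funext i
    unfold b2Eig
    congr 1
    simp only [Fin.revPerm_apply, Fin.val_rev]
    omega
  rw [← e, ← h2]
  exact hA'

theorem b2c_mat_symm (x : Dat K) (c : ℝ) (N : Matrix (Win K) (Win K) ℝ) : (Matrix.diagonal x + c • goeOf N).IsSymm :=
  (Matrix.isSymm_diagonal x).add ((goe_of_isSymm N).smul c)

theorem b2c_mat_herm (x : Dat K) (c : ℝ) (N : Matrix (Win K) (Win K) ℝ) : (Matrix.diagonal x + c • goeOf N).IsHermitian :=
  rs_herm (b2c_mat_symm x c N)

theorem b2c_step_continuous (Δ : ℝ) : Continuous fun p : Dat K × Matrix (Win K) (Win K) ℝ => b2Step Δ p.1 p.2 := by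
  refine continuous_pi fun i => ?_
  unfold b2Step b2Eig
  refine eig_D_cont (f := fun p : Dat K × Matrix (Win K) (Win K) ℝ => Matrix.diagonal p.1 + Real.sqrt Δ • goeOf p.2) (fun a b => ?_) (fun p => b2c_mat_herm _ _ _) _
  simp only [Matrix.add_apply, Matrix.smul_apply, goeOf, Matrix.transpose_apply, Matrix.diagonal_apply]
  refine Continuous.add ?_ ?_
  · split_ifs
    · exact (continuous_apply a).comp continuous_fst
    · exact continuous_const
  · have h1 : Continuous fun p : Dat K × Matrix (Win K) (Win K) ℝ => p.2 a b := (continuous_apply_apply a b).comp continuous_snd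
    have h2 : Continuous fun p : Dat K × Matrix (Win K) (Win K) ℝ => p.2 b a := (continuous_apply_apply b a).comp continuous_snd
    exact ((h1.add h2).const_smul (Real.sqrt 2)⁻¹).const_smul (Real.sqrt Δ)

attribute [local irreducible] b2Step

/-- bounded continuous functions -/
def B2BC {X : Type} [TopologicalSpace X] (B : ℝ) (F : X → ℝ) : Prop := Continuous F ∧ ∀ p, |F p| ≤ B

/-- the kernel of the single chain -/
noncomputable def b2cQ1 (Δ : ℝ) (G : Dat K → ℝ) : Dat K → ℝ := fun x => ∫ N, G (b2Step Δ x N) ∂(gArr (Win K) (Win K))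

theorem b2c_eqns_cite : True := by
  have := @B2BC.eq_1
  have := @b2cQ1.eq_1
  trivial

theorem b2c_pair_continuous (Δ : ℝ) : Continuous fun q : (Dat K × Dat K) × Matrix (Win K) (Win K) ℝ => (b2Step Δ q.1.1 q.2, b2Step Δ q.1.2 q.2) :=
  ((b2c_step_continuous Δ).comp ((continuous_fst.comp continuous_fst).prodMk continuous_snd)).prodMk
    ((b2c_step_continuous Δ).comp ((continuous_snd.comp continuous_fst).prodMk continuous_snd))

theorem b2c_integrable {F : Dat K × Dat K → ℝ} {B : ℝ} (h : B2BC B F) (Δ : ℝ) (p : Dat K × Dat K) :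
    Integrable (fun N => F (b2Step Δ p.1 N, b2Step Δ p.2 N)) (gArr (Win K) (Win K)) := by
  have hc : Continuous fun N : Matrix (Win K) (Win K) ℝ => F (b2Step Δ p.1 N, b2Step Δ p.2 N) :=
    h.1.comp ((b2c_pair_continuous Δ).comp (continuous_const.prodMk continuous_id))
  exact Integrable.of_bound hc.aestronglyMeasurable B (Eventually.of_forall fun N => by simpa using h.2 _)

theorem b2c_Q_bc {F : Dat K × Dat K → ℝ} {B : ℝ} (h : B2BC B F) (Δ : ℝ) : B2BC B (b2Q Δ F) := by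
  have hB0 : 0 ≤ B := (abs_nonneg _).trans (h.2 (0, 0))
  constructor
  · unfold b2Q
    refine continuous_of_dominated (bound := fun _ => B) (fun p => (b2c_integrable h Δ p).aestronglyMeasurable)
      (fun p => Eventually.of_forall fun N => by simpa using h.2 _) (integrable_const B) (Eventually.of_forall fun N => ?_)
    exact h.1.comp ((b2c_pair_continuous Δ).comp (continuous_id.prodMk continuous_const))
  · intro p
    unfold b2Q
    have := norm_integral_le_of_norm_le_const (μ := gArr (Win K) (Win K)) (f := fun N => F (b2Step Δ p.1 N, b2Step Δ p.2 N)) (C := B)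
      (Eventually.of_forall fun N => by simpa using h.2 _)
    simpa using this

theorem b2c_iter_bc (Δ : ℝ) (n : ℕ) : ∀ {F : Dat K × Dat K → ℝ} {B : ℝ}, B2BC B F → B2BC B ((b2Q Δ)^[n] F) := by
  induction n with
  | zero => intro F B h; exact h
  | succ n ih => intro F B h; rw [Function.iterate_succ_apply]; exact ih (b2c_Q_bc h Δ)

theorem b2c_Q_sub {F G : Dat K × Dat K → ℝ} {B B' : ℝ} (hF : B2BC B F) (hG : B2BC B' G) (Δ : ℝ) :
    b2Q Δ (fun p => F p - G p) = fun p => b2Q Δ F p - b2Q Δ G p := by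
  funext p
  exact integral_sub (b2c_integrable hF Δ p) (b2c_integrable hG Δ p)

theorem b2c_Q_mono {F G : Dat K × Dat K → ℝ} {B B' : ℝ} (hF : B2BC B F) (hG : B2BC B' G) (Δ : ℝ) (h : ∀ p, F p ≤ G p) (p : Dat K × Dat K) :
    b2Q Δ F p ≤ b2Q Δ G p :=
  integral_mono (b2c_integrable hF Δ p) (b2c_integrable hG Δ p) fun _ => h _

theorem B2BC.sub {X : Type} [TopologicalSpace X] {F G : X → ℝ} {B B' : ℝ} (hF : B2BC B F) (hG : B2BC B' G) : B2BC (B + B') fun p => F p - G p :=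
  ⟨hF.1.sub hG.1, fun p => (abs_sub _ _).trans (add_le_add (hF.2 p) (hG.2 p))⟩

theorem B2BC.abs {X : Type} [TopologicalSpace X] {F : X → ℝ} {B : ℝ} (hF : B2BC B F) : B2BC B fun p => |F p| :=
  ⟨hF.1.abs, fun p => by rw [abs_abs]; exact hF.2 p⟩

theorem B2BC.neg {X : Type} [TopologicalSpace X] {F : X → ℝ} {B : ℝ} (hF : B2BC B F) : B2BC B fun p => -F p :=
  ⟨hF.1.neg, fun p => by rw [abs_neg]; exact hF.2 p⟩

theorem b2c_iter_sub (Δ : ℝ) (n : ℕ) : ∀ {F G : Dat K × Dat K → ℝ} {B B' : ℝ}, B2BC B F → B2BC B' G →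
    (b2Q Δ)^[n] (fun p => F p - G p) = fun p => (b2Q Δ)^[n] F p - (b2Q Δ)^[n] G p := by
  induction n with
  | zero => intro F G B B' _ _; rfl
  | succ n ih =>
    intro F G B B' hF hG
    simp only [Function.iterate_succ_apply]
    rw [b2c_Q_sub hF hG, ih (b2c_Q_bc hF Δ) (b2c_Q_bc hG Δ)]

theorem b2c_iter_mono (Δ : ℝ) (n : ℕ) : ∀ {F G : Dat K × Dat K → ℝ} {B B' : ℝ}, B2BC B F → B2BC B' G → (∀ p, F p ≤ G p) →
    ∀ p, (b2Q Δ)^[n] F p ≤ (b2Q Δ)^[n] G p := by
  induction n with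
  | zero => intro F G B B' _ _ h; exact h
  | succ n ih =>
    intro F G B B' hF hG h
    simp only [Function.iterate_succ_apply]
    exact ih (b2c_Q_bc hF Δ) (b2c_Q_bc hG Δ) (b2c_Q_mono hF hG Δ h)

theorem b2c_Q_neg (F : Dat K × Dat K → ℝ) (Δ : ℝ) : b2Q Δ (fun p => -F p) = fun p => -b2Q Δ F p := by
  funext p
  exact integral_neg _

theorem b2c_iter_neg (Δ : ℝ) (n : ℕ) : ∀ (F : Dat K × Dat K → ℝ), (b2Q Δ)^[n] (fun p => -F p) = fun p => -(b2Q Δ)^[n] F p := by
  induction n with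
  | zero => intro F; rfl
  | succ n ih =>
    intro F
    simp only [Function.iterate_succ_apply]
    rw [b2c_Q_neg, ih]

theorem b2c_iter_abs (Δ : ℝ) (n : ℕ) {F : Dat K × Dat K → ℝ} {B : ℝ} (hF : B2BC B F) (p : Dat K × Dat K) :
    |(b2Q Δ)^[n] F p| ≤ (b2Q Δ)^[n] (fun p => |F p|) p := by
  rw [abs_le]
  constructor
  · have := b2c_iter_mono Δ n hF.neg hF.abs (fun p => neg_abs_le_neg (F p) |>.trans (le_refl _) |> fun _ => neg_le_abs (F p)) p
    rw [b2c_iter_neg] at this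
    linarith
  · exact b2c_iter_mono Δ n hF hF.abs (fun p => le_abs_self _) p

/-! ### the expectation `b2E` -/

theorem b2c_cPos_measurable (K : ℕ) : Measurable (cPos K) :=
  measurable_pi_lambda _ fun _ => measurable_pi_apply _

theorem b2c_H_measurable {H : Dat K × Dat K → ℝ} {B : ℝ} (hH : B2BC B H) : Measurable fun q : Conf × Conf => H (cPos K q.1, cPos K q.2) :=
  hH.1.measurable.comp (((b2c_cPos_measurable K).comp measurable_fst).prodMk ((b2c_cPos_measurable K).comp measurable_snd))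

variable (μ₁ μ₂ : Measure Conf) [IsProbabilityMeasure μ₁] [IsProbabilityMeasure μ₂]

theorem b2c_int₂ {H : Dat K × Dat K → ℝ} {B : ℝ} (hH : B2BC B H) (x : Conf) : Integrable (fun y => H (cPos K x, cPos K y)) μ₂ :=
  Integrable.of_bound ((b2c_H_measurable hH).comp (measurable_const.prodMk measurable_id)).aestronglyMeasurable B
    (Eventually.of_forall fun y => by simpa using hH.2 _)

theorem b2c_int₁ {H : Dat K × Dat K → ℝ} {B : ℝ} (hH : B2BC B H) : Integrable (fun x => ∫ y, H (cPos K x, cPos K y) ∂μ₂) μ₁ := by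
  refine Integrable.of_bound ((b2c_H_measurable hH).stronglyMeasurable.integral_prod_right' (ν := μ₂)).aestronglyMeasurable B
    (Eventually.of_forall fun x => ?_)
  have := norm_integral_le_of_norm_le_const (μ := μ₂) (f := fun y => H (cPos K x, cPos K y)) (C := B)
    (Eventually.of_forall fun y => by simpa using hH.2 _)
  simpa using this

theorem b2c_E_sub {F G : Dat K × Dat K → ℝ} {B B' : ℝ} (hF : B2BC B F) (hG : B2BC B' G) (Δ : ℝ) (n : ℕ) :
    b2E μ₁ μ₂ K Δ n (fun p => F p - G p) = b2E μ₁ μ₂ K Δ n F - b2E μ₁ μ₂ K Δ n G := by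
  unfold b2E
  rw [b2c_iter_sub Δ n hF hG, ← integral_sub (b2c_int₁ μ₁ μ₂ (b2c_iter_bc Δ n hF)) (b2c_int₁ μ₁ μ₂ (b2c_iter_bc Δ n hG))]
  refine integral_congr_ae (Eventually.of_forall fun x => ?_)
  exact integral_sub (b2c_int₂ μ₂ (b2c_iter_bc Δ n hF) x) (b2c_int₂ μ₂ (b2c_iter_bc Δ n hG) x)

theorem b2c_E_mono {F G : Dat K × Dat K → ℝ} {B B' : ℝ} (hF : B2BC B F) (hG : B2BC B' G) (Δ : ℝ) (n : ℕ) (h : ∀ p, F p ≤ G p) :
    b2E μ₁ μ₂ K Δ n F ≤ b2E μ₁ μ₂ K Δ n G := by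
  unfold b2E
  refine integral_mono (b2c_int₁ μ₁ μ₂ (b2c_iter_bc Δ n hF)) (b2c_int₁ μ₁ μ₂ (b2c_iter_bc Δ n hG)) fun x => ?_
  exact integral_mono (b2c_int₂ μ₂ (b2c_iter_bc Δ n hF) x) (b2c_int₂ μ₂ (b2c_iter_bc Δ n hG) x) fun y => b2c_iter_mono Δ n hF hG h _

theorem b2c_E_abs {F : Dat K × Dat K → ℝ} {B : ℝ} (hF : B2BC B F) (Δ : ℝ) (n : ℕ) :
    |b2E μ₁ μ₂ K Δ n F| ≤ b2E μ₁ μ₂ K Δ n fun p => |F p| := by
  unfold b2E
  calc |∫ x, ∫ y, ((b2Q Δ)^[n] F) (cPos K x, cPos K y) ∂μ₂ ∂μ₁|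
      ≤ ∫ x, |∫ y, ((b2Q Δ)^[n] F) (cPos K x, cPos K y) ∂μ₂| ∂μ₁ := abs_integral_le_integral_abs
    _ ≤ ∫ x, ∫ y, ((b2Q Δ)^[n] fun p => |F p|) (cPos K x, cPos K y) ∂μ₂ ∂μ₁ := by
        refine integral_mono (b2c_int₁ μ₁ μ₂ (b2c_iter_bc Δ n hF)).abs (b2c_int₁ μ₁ μ₂ (b2c_iter_bc Δ n hF.abs)) fun x => ?_
        calc |∫ y, ((b2Q Δ)^[n] F) (cPos K x, cPos K y) ∂μ₂| ≤ ∫ y, |((b2Q Δ)^[n] F) (cPos K x, cPos K y)| ∂μ₂ := abs_integral_le_integral_abs
          _ ≤ _ := integral_mono (b2c_int₂ μ₂ (b2c_iter_bc Δ n hF) x).abs (b2c_int₂ μ₂ (b2c_iter_bc Δ n hF.abs) x) fun y => b2c_iter_abs Δ n hF _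

/-! ### the observable `b2Obs` -/

theorem b2c_obs_bc {h : ℝ → ℝ} (hc : Continuous h) (hn : ∀ t, 0 ≤ h t) {T : ℝ} (hT : 0 < T) : B2BC 1 (b2Obs (K := K) h T) := by
  have hcont : Continuous (Function.uncurry fun (x : Dat K) (t : ℝ) => Real.exp (-∑ i, h (x i - t))) := by
    refine Real.continuous_exp.comp (continuous_finsetSum _ fun i _ => hc.comp ?_).neg
    exact ((continuous_apply i).comp continuous_fst).sub continuous_snd
  constructor
  · unfold b2Obs
    exact continuous_const.mul (intervalIntegral.continuous_parametric_intervalIntegral_of_continuous' hcont _ _)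
  · intro x
    unfold b2Obs
    have h0 : ∀ t, 0 ≤ Real.exp (-∑ i, h (x i - t)) := fun t => (Real.exp_pos _).le
    have h1 : ∀ t, Real.exp (-∑ i, h (x i - t)) ≤ 1 := fun t => Real.exp_le_one_iff.2 (neg_nonpos.2 (Finset.sum_nonneg fun i _ => hn _))
    have hle : (-T) ≤ T := by linarith
    have hi : IntervalIntegrable (fun t => Real.exp (-∑ i, h (x i - t))) volume (-T) T :=
      (hcont.comp (continuous_const.prodMk continuous_id)).intervalIntegrable _ _
    have a0 : 0 ≤ ∫ t in (-T)..T, Real.exp (-∑ i, h (x i - t)) := intervalIntegral.integral_nonneg hle fun t _ => h0 t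
    have a1 : ∫ t in (-T)..T, Real.exp (-∑ i, h (x i - t)) ≤ ∫ _t in (-T)..T, (1 : ℝ) :=
      intervalIntegral.integral_mono_on hle hi intervalIntegrable_const fun t _ => h1 t
    rw [intervalIntegral.integral_const, smul_eq_mul, mul_one] at a1
    rw [abs_of_nonneg (mul_nonneg (by positivity) a0), inv_mul_le_iff₀ (by positivity)]
    linarith

theorem B2BC.comp_fst {X Y : Type} [TopologicalSpace X] [TopologicalSpace Y] {G : X → ℝ} {B : ℝ} (h : B2BC B G) : B2BC B fun p : X × Y => G p.1 :=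
  ⟨h.1.comp continuous_fst, fun p => h.2 _⟩

theorem B2BC.comp_snd {X Y : Type} [TopologicalSpace X] [TopologicalSpace Y] {G : Y → ℝ} {B : ℝ} (h : B2BC B G) : B2BC B fun p : X × Y => G p.2 :=
  ⟨h.1.comp continuous_snd, fun p => h.2 _⟩

/-- **NODE ABS** of `B2.lean` -/
theorem b2c_E_abs_sub (h : ℝ → ℝ) (hc : Continuous h) (hn : ∀ t, 0 ≤ h t) (K : ℕ) (Δ T : ℝ) (hT : 0 < T) (n : ℕ) :
    |b2E μ₁ μ₂ K Δ n (fun p => b2Obs h T p.1) - b2E μ₁ μ₂ K Δ n (fun p => b2Obs h T p.2)|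
      ≤ b2E μ₁ μ₂ K Δ n (fun p => |b2Obs h T p.1 - b2Obs h T p.2|) := by
  have h1 : B2BC 1 fun p : Dat K × Dat K => b2Obs h T p.1 := (b2c_obs_bc hc hn hT).comp_fst
  have h2 : B2BC 1 fun p : Dat K × Dat K => b2Obs h T p.2 := (b2c_obs_bc hc hn hT).comp_snd
  rw [← b2c_E_sub μ₁ μ₂ h1 h2]
  exact b2c_E_abs μ₁ μ₂ (h1.sub h2) Δ n

/-! ### marginals and the semigroup property of the single chain -/

omit [IsProbabilityMeasure μ₁] [IsProbabilityMeasure μ₂] in
theorem b2c_iter_fst (Δ : ℝ) (n : ℕ) : ∀ G : Dat K → ℝ, (b2Q Δ)^[n] (fun p => G p.1) = fun p => (b2cQ1 Δ)^[n] G p.1 := by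
  induction n with
  | zero => intro G; rfl
  | succ n ih =>
    intro G
    simp only [Function.iterate_succ_apply]
    exact ih (b2cQ1 Δ G)

theorem b2c_iter_snd (Δ : ℝ) (n : ℕ) : ∀ G : Dat K → ℝ, (b2Q Δ)^[n] (fun p => G p.2) = fun p => (b2cQ1 Δ)^[n] G p.2 := by
  induction n with
  | zero => intro G; rfl
  | succ n ih =>
    intro G
    simp only [Function.iterate_succ_apply]
    exact ih (b2cQ1 Δ G)

theorem b2c_eig_sym_continuous : Continuous fun M : Matrix (Win K) (Win K) ℝ => b2Eig (goeSym M) := by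
  refine continuous_pi fun i => ?_
  unfold b2Eig
  refine eig_D_cont (f := fun M : Matrix (Win K) (Win K) ℝ => goeSym M) (fun a b => ?_) goe_sym_isHermitian _
  simp only [goeSym, Matrix.smul_apply, Matrix.add_apply, Matrix.transpose_apply]
  exact ((continuous_apply_apply a b).add (continuous_apply_apply b a)).const_smul (2 : ℝ)⁻¹

/-- **SEMIGROUP**: a step of size `Δ` followed by a step of size `Δ'` is a step of size `Δ + Δ'` (rotation invariance + additivity of the GOE) -/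
theorem b2c_semigroup (Δ Δ' : ℝ) (hΔ : 0 ≤ Δ) (hΔ' : 0 ≤ Δ') (G : Dat K → ℝ) (hG : Measurable G) (B : ℝ) (hB : ∀ x, |G x| ≤ B) (x : Dat K) :
    ∫ N, ∫ N', G (b2Step Δ' (b2Step Δ x N) N') ∂(gArr (Win K) (Win K)) ∂(gArr (Win K) (Win K)) = ∫ N, G (b2Step (Δ + Δ') x N) ∂(gArr (Win K) (Win K)) := by
  set F : Matrix (Win K) (Win K) ℝ → ℝ := fun M => G (b2Eig M) with hF
  have hFs : Measurable fun M => F (goeSym M) := hG.comp b2c_eig_sym_continuous.measurable
  have hinv : ∀ U M : Matrix (Win K) (Win K) ℝ, U * Uᵀ = 1 → F (U * M * Uᵀ) = F M := fun U M hU => by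
    simp only [hF, b2c_eig_conj U M hU]
  have h1 : ∀ N, ∫ N', G (b2Step Δ' (b2Step Δ x N) N') ∂(gArr (Win K) (Win K))
      = ∫ N', (fun W => F (Matrix.diagonal x + W)) (Real.sqrt Δ • goeOf N + Real.sqrt Δ' • goeOf N') ∂(gArr (Win K) (Win K)) := by
    intro N
    obtain ⟨O, hO, hA⟩ := b2c_diag (b2c_mat_herm x (Real.sqrt Δ) N)
    have := goe_int_diag O hO (b2Eig (Matrix.diagonal x + Real.sqrt Δ • goeOf N)) (Real.sqrt Δ') F hFs hinv
    rw [← hA] at this
    simp only [b2Step.eq_1, add_assoc] at this ⊢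
    exact this
  simp only [h1]
  have hF's : Measurable fun M : Matrix (Win K) (Win K) ℝ => (fun W => F (Matrix.diagonal x + W)) (goeSym M) := by
    have e : (fun M : Matrix (Win K) (Win K) ℝ => (fun W => F (Matrix.diagonal x + W)) (goeSym M))
        = (fun M => F (goeSym M)) ∘ fun M : Matrix (Win K) (Win K) ℝ => Matrix.diagonal x + goeSym M := by
      funext M
      simp only [Function.comp]
      rw [goe_sym_of_symm ((Matrix.isSymm_diagonal x).add (goe_sym_isSymm M))]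
    rw [e]
    exact hFs.comp (goe_add_measurable measurable_const goe_sym_measurable)
  have hj : Measurable fun p : Matrix (Win K) (Win K) ℝ × Matrix (Win K) (Win K) ℝ => (fun W => F (Matrix.diagonal x + W)) (goeSym (Real.sqrt Δ • goeOf p.1 + Real.sqrt Δ' • goeOf p.2)) :=
    hF's.comp (goe_add_measurable ((goe_smul_measurable _).comp (goe_of_measurable.comp measurable_fst)) ((goe_smul_measurable _).comp (goe_of_measurable.comp measurable_snd)))
  have hi : Integrable (fun p : Matrix (Win K) (Win K) ℝ × Matrix (Win K) (Win K) ℝ => (fun W => F (Matrix.diagonal x + W)) (goeSym (Real.sqrt Δ • goeOf p.1 + Real.sqrt Δ' • goeOf p.2)))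
      ((gArr (Win K) (Win K)).prod (gArr (Win K) (Win K))) :=
    Integrable.of_bound hj.aestronglyMeasurable B (Eventually.of_forall fun p => by simpa using hB _)
  have hfub := integral_prod _ hi
  simp only [goe_sym_of_symm (((goe_of_isSymm _).smul _).add ((goe_of_isSymm _).smul _))] at hfub
  rw [← hfub, goe_of_integral_add _ _ (fun W => F (Matrix.diagonal x + W)) hF's, Real.sq_sqrt hΔ, Real.sq_sqrt hΔ']
  simp only [b2Step.eq_1, hF]

theorem b2c_Q1_meas (Δ : ℝ) {G : Dat K → ℝ} (hG : Measurable G) : Measurable (b2cQ1 Δ G) := by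
  have hj : Measurable fun p : Dat K × Matrix (Win K) (Win K) ℝ => G (b2Step Δ p.1 p.2) := hG.comp (b2c_step_continuous Δ).measurable
  exact (hj.stronglyMeasurable.integral_prod_right' (ν := gArr (Win K) (Win K))).measurable

theorem b2c_Q1_bdd (Δ : ℝ) {G : Dat K → ℝ} {B : ℝ} (hB : ∀ x, |G x| ≤ B) (x : Dat K) : |b2cQ1 Δ G x| ≤ B := by
  have := norm_integral_le_of_norm_le_const (μ := gArr (Win K) (Win K)) (f := fun N => G (b2Step Δ x N)) (C := B)
    (Eventually.of_forall fun N => by simpa using hB _)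
  simpa [b2cQ1] using this

/-- `n + 1` steps of size `Δ` = one step of size `(n + 1) Δ` -/
theorem b2c_iter_eq (Δ : ℝ) (hΔ : 0 ≤ Δ) (n : ℕ) : ∀ (G : Dat K → ℝ), Measurable G → ∀ B : ℝ, (∀ x, |G x| ≤ B) → ∀ x : Dat K,
    (b2cQ1 Δ)^[n + 1] G x = ∫ N, G (b2Step (((n + 1 : ℕ) : ℝ) * Δ) x N) ∂(gArr (Win K) (Win K)) := by
  induction n with
  | zero => intro G _ B _ x; simp [b2cQ1]
  | succ n ih =>
    intro G hG B hB x
    rw [Function.iterate_succ_apply, ih (b2cQ1 Δ G) (b2c_Q1_meas Δ hG) B (b2c_Q1_bdd Δ hB) x]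
    have := b2c_semigroup (((n + 1 : ℕ) : ℝ) * Δ) Δ (by positivity) hΔ G hG B hB x
    simp only [b2cQ1]
    rw [this]
    congr 1
    funext N
    congr 2
    push_cast
    ring

theorem b2c_E_fst (Δ : ℝ) (hΔ : 0 ≤ Δ) (n : ℕ) (G : Dat K → ℝ) (hG : Measurable G) (B : ℝ) (hB : ∀ x, |G x| ≤ B) :
    b2E μ₁ μ₂ K Δ (n + 1) (fun p => G p.1) = ∫ x, ∫ N, G (b2Step (((n + 1 : ℕ) : ℝ) * Δ) (cPos K x) N) ∂(gArr (Win K) (Win K)) ∂μ₁ := by
  unfold b2E
  rw [b2c_iter_fst]
  simp only [integral_const, probReal_univ, one_smul, b2c_iter_eq Δ hΔ n G hG B hB]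

theorem b2c_E_snd (Δ : ℝ) (hΔ : 0 ≤ Δ) (n : ℕ) (G : Dat K → ℝ) (hG : Measurable G) (B : ℝ) (hB : ∀ x, |G x| ≤ B) :
    b2E μ₁ μ₂ K Δ (n + 1) (fun p => G p.2) = ∫ y, ∫ N, G (b2Step (((n + 1 : ℕ) : ℝ) * Δ) (cPos K y) N) ∂(gArr (Win K) (Win K)) ∂μ₂ := by
  unfold b2E
  rw [b2c_iter_snd]
  simp only [integral_const, probReal_univ, one_smul, b2c_iter_eq Δ hΔ n G hG B hB]

theorem b2c_E_fst_zero (Δ : ℝ) (G : Dat K → ℝ) : b2E μ₁ μ₂ K Δ 0 (fun p => G p.1) = ∫ x, G (cPos K x) ∂μ₁ := by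
  unfold b2E
  simp only [Function.iterate_zero, id, integral_const, probReal_univ, one_smul]

theorem b2c_E_snd_zero (Δ : ℝ) (G : Dat K → ℝ) : b2E μ₁ μ₂ K Δ 0 (fun p => G p.2) = ∫ y, G (cPos K y) ∂μ₂ := by
  unfold b2E
  simp only [Function.iterate_zero, id, integral_const, probReal_univ, one_smul]

/-- linear statistics of the ascending labelling -/
theorem b2c_sum_eig {A : Matrix (Win K) (Win K) ℝ} (hA : A.IsHermitian) (φ : ℝ → ℝ) : ∑ i, φ (b2Eig A i) = (A.charpoly.roots.map φ).sum := by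
  rw [← eig_D_sum hA φ, Fintype.card_fin, ← Fin.sum_univ_eq_sum_range (fun k => φ (eigD A k)), ← Equiv.sum_comp Fin.revPerm]
  refine Finset.sum_congr rfl fun i _ => ?_
  unfold b2Eig
  congr 2
  simp only [Fin.revPerm_apply, Fin.val_rev]
  omega

/-- the observable after a step, as a spectral statistic of the matrix -/
theorem b2c_obs_step (h : ℝ → ℝ) (T Δ : ℝ) (x : Dat K) (N : Matrix (Win K) (Win K) ℝ) :
    b2Obs h T (b2Step Δ x N) = (2 * T)⁻¹ * ∫ t in (-T)..T, Real.exp (-((Matrix.diagonal x + Real.sqrt Δ • goeOf N).charpoly.roots.map fun s => h (s - t)).sum) := by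
  unfold b2Obs
  have e : ∀ t : ℝ, ∑ i, h (b2Step Δ x N i - t) = ((Matrix.diagonal x + Real.sqrt Δ • goeOf N).charpoly.roots.map fun s => h (s - t)).sum := fun t => by
    rw [b2Step.eq_1]
    exact b2c_sum_eig (b2c_mat_herm x (Real.sqrt Δ) N) fun s => h (s - t)
  simp only [e]

end chain
end Claimed.Agent.R287
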