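import Mathlib

/-!
# Row 287 (S0534): RESOLVENT KIT, complex Hermitian      (sec. 1-2 helper275, sec. 3-4 helper240; prefix `rsv`; 0 sorry)

Finite dimensional, deterministic.  `M : Matrix n n ℂ` Hermitian (`n` any `Fintype`), `rsv M z = (M - z)⁻¹`
(definitionally the `rgG` of the B1-lite Defs when `M` is an adjacency matrix over `ℂ`).
Minors are FULL SIZE: `rsvCut M T` puts the rows and columns of `T` to zero; only the entries outside `T`
of its resolvent are ever used.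

* sec. 1  algebra: inverse, adjoint, transpose, resolvent identities, Ward, entry bounds, `ℓ²` bound;
* sec. 2  spectral sums: entries, trace, monotonicity in the height, continuity in the height, overlap inequality;
* sec. 3  Schur complement: diagonal entry, column, minor entries, trace of the minor, finite block;
* sec. 4  perturbation: `‖P‖ ≤ y/2` costs a factor `3/2` on `‖G v‖`, trace bounds.
-/

set_option autoImplicit false
set_option linter.unusedSectionVars false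

namespace Claimed.Agent.R287

open Matrix Finset ComplexConjugate

variable {n : Type*} [Fintype n] [DecidableEq n]

/-- the resolvent `(M - z)⁻¹` -/
noncomputable def rsv (M : Matrix n n ℂ) (z : ℂ) : Matrix n n ℂ := (M - Matrix.scalar n z)⁻¹

/-- rows and columns of `T` put to zero -/
def rsvCut (M : Matrix n n ℂ) (T : Finset n) : Matrix n n ℂ := fun x y => if x ∈ T ∨ y ∈ T then 0 else M x y

/-- squared `ℓ²` norm of a vector -/
noncomputable def rsvSq (v : n → ℂ) : ℝ := ∑ i, ‖v i‖ ^ 2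

/-! ### 1. algebra,  2. spectral sums   (all proved) -/

theorem rsv_det_ne_zero {M : Matrix n n ℂ} (hM : M.IsHermitian) {z : ℂ} (hz : z.im ≠ 0) :
    (M - Matrix.scalar n z).det ≠ 0 := by
  have h1 : (Matrix.scalar n z - M).det = ∏ i, (z - (hM.eigenvalues i : ℂ)) := by
    have h2 := congrArg (Polynomial.eval z) hM.charpoly_eq
    rw [Matrix.eval_charpoly] at h2
    rw [h2, Polynomial.eval_prod]
    simp
  have h3 : M - Matrix.scalar n z = -(Matrix.scalar n z - M) := by abel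
  rw [h3, Matrix.det_neg, h1]
  refine mul_ne_zero (pow_ne_zero _ (by norm_num)) (Finset.prod_ne_zero_iff.2 fun i _ h => hz ?_)
  have := congrArg Complex.im h
  simpa using this

theorem rsv_mul_left {M : Matrix n n ℂ} (hM : M.IsHermitian) {z : ℂ} (hz : z.im ≠ 0) :
    (M - Matrix.scalar n z) * rsv M z = 1 :=
  Matrix.mul_nonsing_inv _ (Ne.isUnit (rsv_det_ne_zero hM hz))

theorem rsv_mul_right {M : Matrix n n ℂ} (hM : M.IsHermitian) {z : ℂ} (hz : z.im ≠ 0) :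
    rsv M z * (M - Matrix.scalar n z) = 1 :=
  Matrix.nonsing_inv_mul _ (Ne.isUnit (rsv_det_ne_zero hM hz))

theorem rsv_conjTranspose {M : Matrix n n ℂ} (hM : M.IsHermitian) (z : ℂ) :
    (rsv M z)ᴴ = rsv M (conj z) := by
  unfold rsv
  rw [Matrix.conjTranspose_nonsing_inv, Matrix.conjTranspose_sub, hM.eq]
  congr 2
  ext i j
  by_cases h : i = j
  · subst h; simp [Matrix.conjTranspose_apply]
  · simp [Matrix.conjTranspose_apply, Matrix.scalar_apply, Matrix.diagonal_apply_ne _ h, Matrix.diagonal_apply_ne' _ h]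

theorem rsv_transpose {M : Matrix n n ℂ} (hs : Mᵀ = M) (z : ℂ) : (rsv M z)ᵀ = rsv M z := by
  unfold rsv
  rw [Matrix.transpose_nonsing_inv, Matrix.transpose_sub, hs]
  congr 2
  simp [Matrix.scalar_apply]

theorem rsv_sub {A B : Matrix n n ℂ} (hA : A.IsHermitian) (hB : B.IsHermitian) {z : ℂ} (hz : z.im ≠ 0) :
    rsv A z - rsv B z = rsv A z * (B - A) * rsv B z := by
  have h1 : B - A = (B - Matrix.scalar n z) - (A - Matrix.scalar n z) := by abel
  rw [h1, Matrix.mul_sub, Matrix.sub_mul, rsv_mul_right hA hz, Matrix.mul_assoc, rsv_mul_left hB hz]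
  simp

theorem rsv_sub_param {M : Matrix n n ℂ} (hM : M.IsHermitian) {z w : ℂ} (hz : z.im ≠ 0) (hw : w.im ≠ 0) :
    rsv M z - rsv M w = (z - w) • (rsv M z * rsv M w) := by
  have h1 : (z - w) • (1 : Matrix n n ℂ) = (M - Matrix.scalar n w) - (M - Matrix.scalar n z) := by
    ext i j
    by_cases h : i = j
    · subst h; simp [Matrix.scalar_apply]
    · simp [Matrix.scalar_apply, Matrix.diagonal_apply_ne _ h, Matrix.one_apply_ne h]
  have h2 : (z - w) • (rsv M z * rsv M w) = rsv M z * ((z - w) • (1 : Matrix n n ℂ)) * rsv M w := by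
    simp
  rw [h2, h1, Matrix.mul_sub, Matrix.sub_mul, rsv_mul_right hM hz, Matrix.mul_assoc, rsv_mul_left hM hw]
  simp

theorem rsv_comm {M : Matrix n n ℂ} (hM : M.IsHermitian) {z w : ℂ} (hz : z.im ≠ 0) (hw : w.im ≠ 0) :
    rsv M z * rsv M w = rsv M w * rsv M z := by
  by_cases h : z = w
  · rw [h]
  · have h1 := rsv_sub_param hM hz hw
    have h2 := rsv_sub_param hM hw hz
    have h3 : (z - w) • (rsv M z * rsv M w) = (z - w) • (rsv M w * rsv M z) := by
      rw [← h1]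
      have : (z - w) • (rsv M w * rsv M z) = -((w - z) • (rsv M w * rsv M z)) := by
        rw [← neg_smul]; congr 1; ring
      rw [this, ← h2]; abel
    exact smul_right_injective _ (sub_ne_zero.2 h) h3

theorem rsvSq_nonneg (v : n → ℂ) : 0 ≤ rsvSq v := Finset.sum_nonneg fun _ _ => by positivity

theorem rsvSq_eq (v : n → ℂ) : (rsvSq v : ℂ) = star v ⬝ᵥ v := by
  unfold rsvSq dotProduct
  push_cast
  refine Finset.sum_congr rfl fun i _ => ?_
  rw [Pi.star_apply, Complex.star_def, mul_comm, Complex.mul_conj, Complex.normSq_eq_norm_sq]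
  push_cast
  rfl

theorem rsvSq_mulVec (A : Matrix n n ℂ) (v : n → ℂ) :
    (rsvSq (A *ᵥ v) : ℂ) = star v ⬝ᵥ ((Aᴴ * A) *ᵥ v) := by
  rw [rsvSq_eq, Matrix.star_mulVec, ← Matrix.dotProduct_mulVec, Matrix.mulVec_mulVec]

/-- Cauchy-Schwarz -/
theorem rsv_cs (v w : n → ℂ) : ‖v ⬝ᵥ w‖ ^ 2 ≤ rsvSq v * rsvSq w := by
  have h1 : ‖v ⬝ᵥ w‖ ≤ ∑ i, ‖v i‖ * ‖w i‖ := by
    unfold dotProduct
    refine (norm_sum_le _ _).trans (le_of_eq (Finset.sum_congr rfl fun i _ => norm_mul _ _))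
  calc ‖v ⬝ᵥ w‖ ^ 2 ≤ (∑ i, ‖v i‖ * ‖w i‖) ^ 2 := by gcongr
    _ ≤ rsvSq v * rsvSq w := Finset.sum_mul_sq_le_sq_mul_sq _ _ _

theorem rsvSq_star (v : n → ℂ) : rsvSq (star v) = rsvSq v := by
  unfold rsvSq
  refine Finset.sum_congr rfl fun i _ => ?_
  rw [Pi.star_apply, norm_star]

theorem rsv_ward_off {M : Matrix n n ℂ} (hM : M.IsHermitian) {z : ℂ} (hz : z.im ≠ 0) (j l : n) :
    (z - conj z) * ∑ k, rsv M z j k * conj (rsv M z l k) = rsv M z j l - conj (rsv M z l j) := by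
  have hz' : (conj z).im ≠ 0 := by simpa using hz
  have h1 := rsv_sub_param hM hz hz'
  have h2 := congrFun (congrFun h1 j) l
  rw [← rsv_conjTranspose hM z] at h2
  simp only [Matrix.sub_apply, Matrix.smul_apply, Matrix.mul_apply, Matrix.conjTranspose_apply,
    smul_eq_mul, Complex.star_def] at h2
  exact h2.symm

theorem rsv_ward {M : Matrix n n ℂ} (hM : M.IsHermitian) {z : ℂ} (hz : z.im ≠ 0) (j : n) :
    ∑ k, ‖rsv M z j k‖ ^ 2 = (rsv M z j j).im / z.im := by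
  have h := rsv_ward_off hM hz j j
  have h1 : ∑ k, rsv M z j k * conj (rsv M z j k) = ((∑ k, ‖rsv M z j k‖ ^ 2 : ℝ) : ℂ) := by
    push_cast
    refine Finset.sum_congr rfl fun k _ => ?_
    rw [Complex.mul_conj, Complex.normSq_eq_norm_sq]
    push_cast
    rfl
  rw [h1, Complex.sub_conj, Complex.sub_conj] at h
  have h2 := congrArg Complex.im h
  simp only [Complex.mul_im, Complex.ofReal_re, Complex.ofReal_im, Complex.I_re, Complex.I_im, Complex.mul_re] at h2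
  rw [eq_div_iff hz]
  nlinarith [h2]

theorem rsv_conj_apply {M : Matrix n n ℂ} (hM : M.IsHermitian) (z : ℂ) (j k : n) :
    rsv M (conj z) j k = conj (rsv M z k j) := by
  rw [← rsv_conjTranspose hM z, Matrix.conjTranspose_apply, Complex.star_def]

theorem rsv_ward_col {M : Matrix n n ℂ} (hM : M.IsHermitian) {z : ℂ} (hz : z.im ≠ 0) (j : n) :
    ∑ k, ‖rsv M z k j‖ ^ 2 = (rsv M z j j).im / z.im := by
  have hz' : (conj z).im ≠ 0 := by simpa using hz
  have h := rsv_ward hM hz' j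
  simp only [rsv_conj_apply hM, Complex.norm_conj, Complex.conj_im, neg_div_neg_eq] at h
  exact h

theorem rsv_im_nonneg {M : Matrix n n ℂ} (hM : M.IsHermitian) {z : ℂ} (hz : 0 < z.im) (j : n) :
    0 ≤ (rsv M z j j).im := by
  have h := rsv_ward hM hz.ne' j
  rw [eq_div_iff hz.ne'] at h
  rw [← h]
  exact mul_nonneg (Finset.sum_nonneg fun _ _ => by positivity) hz.le

theorem rsv_norm_le {M : Matrix n n ℂ} (hM : M.IsHermitian) {z : ℂ} (hz : 0 < z.im) (j k : n) :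
    ‖rsv M z j k‖ ≤ 1 / z.im := by
  have hw : ∀ a b : n, ‖rsv M z a b‖ ^ 2 ≤ ‖rsv M z a a‖ / z.im := by
    intro a b
    calc ‖rsv M z a b‖ ^ 2 ≤ ∑ k, ‖rsv M z a k‖ ^ 2 :=
          Finset.single_le_sum (f := fun k => ‖rsv M z a k‖ ^ 2) (fun _ _ => by positivity) (Finset.mem_univ b)
      _ = (rsv M z a a).im / z.im := rsv_ward hM hz.ne' a
      _ ≤ ‖rsv M z a a‖ / z.im := by gcongr; exact Complex.im_le_norm _
  have hd : ‖rsv M z j j‖ ≤ 1 / z.im := by
    have h := hw j j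
    rw [le_div_iff₀ hz] at h ⊢
    by_contra hc
    push Not at hc
    have hp : 0 < ‖rsv M z j j‖ := by
      by_contra h0
      have : ‖rsv M z j j‖ = 0 := le_antisymm (not_lt.1 h0) (norm_nonneg _)
      rw [this] at hc; linarith
    nlinarith
  have h := hw j k
  have h2 : ‖rsv M z j k‖ ^ 2 ≤ (1 / z.im) ^ 2 := by
    calc ‖rsv M z j k‖ ^ 2 ≤ ‖rsv M z j j‖ / z.im := h
      _ ≤ (1 / z.im) / z.im := by gcongr
      _ = (1 / z.im) ^ 2 := by field_simp
  exact abs_le_of_sq_le_sq' h2 (by positivity) |>.2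

theorem rsv_mulVec_sq_conj {M : Matrix n n ℂ} (hM : M.IsHermitian) {z : ℂ} (hz : z.im ≠ 0) (v : n → ℂ) :
    rsvSq (rsv M (conj z) *ᵥ v) = rsvSq (rsv M z *ᵥ v) := by
  have hz' : (conj z).im ≠ 0 := by simpa using hz
  have h : (rsvSq (rsv M (conj z) *ᵥ v) : ℂ) = (rsvSq (rsv M z *ᵥ v) : ℂ) := by
    rw [rsvSq_mulVec, rsvSq_mulVec, rsv_conjTranspose hM, rsv_conjTranspose hM, Complex.conj_conj,
      rsv_comm hM hz hz']
  exact_mod_cast h

theorem rsv_mulVec_sq_eq {M : Matrix n n ℂ} (hM : M.IsHermitian) {z : ℂ} (hz : z.im ≠ 0) (v : n → ℂ) :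
    z.im * rsvSq (rsv M z *ᵥ v) = (star v ⬝ᵥ (rsv M z *ᵥ v)).im := by
  have hz' : (conj z).im ≠ 0 := by simpa using hz
  have h1 := rsv_sub_param hM hz hz'
  rw [rsv_comm hM hz hz', ← rsv_conjTranspose hM z] at h1
  have h2 : star v ⬝ᵥ ((rsv M z - (rsv M z)ᴴ) *ᵥ v) = (z - conj z) * (rsvSq (rsv M z *ᵥ v) : ℂ) := by
    rw [h1, rsvSq_mulVec, Matrix.smul_mulVec, dotProduct_smul, smul_eq_mul]
  have h3 : star v ⬝ᵥ ((rsv M z)ᴴ *ᵥ v) = conj (star v ⬝ᵥ (rsv M z *ᵥ v)) := by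
    rw [← Complex.star_def, Matrix.star_dotProduct]
    congr 1
    rw [Matrix.star_mulVec, Matrix.conjTranspose_conjTranspose, ← Matrix.dotProduct_mulVec]
  rw [Matrix.sub_mulVec, dotProduct_sub, h3, Complex.sub_conj, Complex.sub_conj] at h2
  have h4 := congrArg Complex.im h2
  simp only [Complex.mul_im, Complex.ofReal_re, Complex.ofReal_im, Complex.I_re, Complex.I_im, Complex.mul_re] at h4
  nlinarith [h4]

theorem rsv_mulVec_sq_le {M : Matrix n n ℂ} (hM : M.IsHermitian) {z : ℂ} (hz : 0 < z.im) (v : n → ℂ) :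
    rsvSq (rsv M z *ᵥ v) ≤ rsvSq v / z.im ^ 2 := by
  have h1 := rsv_mulVec_sq_eq hM hz.ne' v
  have h2 := rsv_cs (star v) (rsv M z *ᵥ v)
  rw [rsvSq_star] at h2
  have h3 : (z.im * rsvSq (rsv M z *ᵥ v)) ^ 2 ≤ rsvSq v * rsvSq (rsv M z *ᵥ v) := by
    rw [h1]
    refine le_trans ?_ h2
    have := Complex.abs_im_le_norm (star v ⬝ᵥ (rsv M z *ᵥ v))
    calc _ = |(star v ⬝ᵥ (rsv M z *ᵥ v)).im| ^ 2 := (sq_abs _).symm
      _ ≤ _ := by gcongr
  have ha := rsvSq_nonneg (rsv M z *ᵥ v)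
  rw [le_div_iff₀ (by positivity)]
  rcases ha.eq_or_lt with h0 | h0
  · rw [← h0]; simpa using rsvSq_nonneg v
  · have : rsvSq (rsv M z *ᵥ v) * (rsvSq (rsv M z *ᵥ v) * z.im ^ 2) ≤ rsvSq (rsv M z *ᵥ v) * rsvSq v := by
      nlinarith [h3]
    exact le_of_mul_le_mul_left this h0

/-- the resolvent in the eigenbasis -/
theorem rsv_eq_conj {M : Matrix n n ℂ} (hM : M.IsHermitian) {z : ℂ} (hz : z.im ≠ 0) :
    rsv M z = (hM.eigenvectorUnitary : Matrix n n ℂ) * diagonal (fun i => 1 / ((hM.eigenvalues i : ℂ) - z)) *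
      star (hM.eigenvectorUnitary : Matrix n n ℂ) := by
  obtain ⟨U, hU⟩ : ∃ U : Matrix n n ℂ, U = (hM.eigenvectorUnitary : Matrix n n ℂ) := ⟨_, rfl⟩
  have hUU : U * star U = 1 := by rw [hU]; exact Unitary.coe_mul_star_self _
  have hUU' : star U * U = 1 := by rw [hU]; exact Unitary.coe_star_mul_self _
  have hMs : M = U * diagonal (fun i => (hM.eigenvalues i : ℂ)) * star U := by
    conv_lhs => rw [hM.spectral_theorem, Unitary.conjStarAlgAut_apply]
    rw [hU]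
    rfl
  have hd : diagonal (fun i => (hM.eigenvalues i : ℂ) - z) =
      diagonal (fun i => (hM.eigenvalues i : ℂ)) - z • (1 : Matrix n n ℂ) := by
    ext i j
    by_cases h : i = j
    · subst h; simp
    · simp [h]
  have hs : Matrix.scalar n z = z • (1 : Matrix n n ℂ) := by
    ext i j
    by_cases h : i = j
    · subst h; simp
    · simp [h]
  have h1 : M - Matrix.scalar n z = U * diagonal (fun i => (hM.eigenvalues i : ℂ) - z) * star U := by
    rw [hd, Matrix.mul_sub, Matrix.sub_mul, ← hMs, hs]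
    simp [hUU]
  rw [← hU]
  unfold rsv
  rw [h1]
  apply Matrix.inv_eq_right_inv
  have h2 : diagonal (fun i => (hM.eigenvalues i : ℂ) - z) * diagonal (fun i => 1 / ((hM.eigenvalues i : ℂ) - z)) =
      (1 : Matrix n n ℂ) := by
    rw [Matrix.diagonal_mul_diagonal, ← Matrix.diagonal_one]
    congr 1
    funext i
    have : (hM.eigenvalues i : ℂ) - z ≠ 0 := by
      intro h
      apply hz
      have := congrArg Complex.im h
      simpa using this
    field_simp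
  calc U * diagonal (fun i => (hM.eigenvalues i : ℂ) - z) * star U *
        (U * diagonal (fun i => 1 / ((hM.eigenvalues i : ℂ) - z)) * star U)
      = U * (diagonal (fun i => (hM.eigenvalues i : ℂ) - z) * (star U * U) *
          diagonal (fun i => 1 / ((hM.eigenvalues i : ℂ) - z))) * star U := by
        simp only [Matrix.mul_assoc]
    _ = 1 := by rw [hUU', Matrix.mul_one, h2, Matrix.mul_one, hUU]

theorem rsv_apply_eq_sum {M : Matrix n n ℂ} (hM : M.IsHermitian) {z : ℂ} (hz : z.im ≠ 0) (j k : n) :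
    rsv M z j k = ∑ i, (hM.eigenvectorUnitary : Matrix n n ℂ) j i * conj ((hM.eigenvectorUnitary : Matrix n n ℂ) k i) /
      ((hM.eigenvalues i : ℂ) - z) := by
  rw [rsv_eq_conj hM hz, Matrix.mul_apply]
  refine Finset.sum_congr rfl fun i _ => ?_
  rw [Matrix.mul_diagonal, Matrix.star_apply, Complex.star_def]
  ring

theorem rsv_trace_eq_sum {M : Matrix n n ℂ} (hM : M.IsHermitian) {z : ℂ} (hz : z.im ≠ 0) :
    (rsv M z).trace = ∑ i, 1 / ((hM.eigenvalues i : ℂ) - z) := by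
  rw [rsv_eq_conj hM hz, Matrix.trace_mul_comm, ← Matrix.mul_assoc, Unitary.coe_star_mul_self, Matrix.one_mul,
    Matrix.trace_diagonal]

theorem rsv_aux_im (a e y : ℝ) : (1 / ((a : ℂ) - (⟨e, y⟩ : ℂ))).im = y / ((a - e) ^ 2 + y ^ 2) := by
  rw [one_div, Complex.inv_im, Complex.normSq_apply]
  simp only [Complex.sub_re, Complex.sub_im, Complex.ofReal_re, Complex.ofReal_im]
  congr 1
  · ring
  · ring

theorem rsv_im_diag_eq_sum {M : Matrix n n ℂ} (hM : M.IsHermitian) (e : ℝ) {y : ℝ} (hy : y ≠ 0) (j : n) :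
    (rsv M ⟨e, y⟩ j j).im = ∑ i, ‖(hM.eigenvectorUnitary : Matrix n n ℂ) j i‖ ^ 2 * (y / ((hM.eigenvalues i - e) ^ 2 + y ^ 2)) := by
  rw [rsv_apply_eq_sum hM (z := ⟨e, y⟩) hy, Complex.im_sum]
  refine Finset.sum_congr rfl fun i _ => ?_
  have h : (hM.eigenvectorUnitary : Matrix n n ℂ) j i * conj ((hM.eigenvectorUnitary : Matrix n n ℂ) j i) /
      ((hM.eigenvalues i : ℂ) - (⟨e, y⟩ : ℂ)) =
      ((‖(hM.eigenvectorUnitary : Matrix n n ℂ) j i‖ ^ 2 : ℝ) : ℂ) * (1 / ((hM.eigenvalues i : ℂ) - (⟨e, y⟩ : ℂ))) := by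
    rw [Complex.mul_conj, Complex.normSq_eq_norm_sq]
    ring
  rw [h, Complex.im_ofReal_mul, rsv_aux_im]

theorem rsv_im_trace_eq_sum {M : Matrix n n ℂ} (hM : M.IsHermitian) (e : ℝ) {y : ℝ} (hy : y ≠ 0) :
    ((rsv M ⟨e, y⟩).trace).im = ∑ i, y / ((hM.eigenvalues i - e) ^ 2 + y ^ 2) := by
  rw [rsv_trace_eq_sum hM (z := ⟨e, y⟩) hy, Complex.im_sum]
  exact Finset.sum_congr rfl fun i _ => rsv_aux_im _ _ _

theorem rsv_mul_im_mono {M : Matrix n n ℂ} (hM : M.IsHermitian) (e : ℝ) {y y' : ℝ} (hy : 0 < y) (hyy : y ≤ y') (j : n) :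
    y * (rsv M ⟨e, y⟩ j j).im ≤ y' * (rsv M ⟨e, y'⟩ j j).im := by
  have hy' : 0 < y' := lt_of_lt_of_le hy hyy
  rw [rsv_im_diag_eq_sum hM e hy.ne', rsv_im_diag_eq_sum hM e hy'.ne', Finset.mul_sum, Finset.mul_sum]
  refine Finset.sum_le_sum fun i _ => ?_
  have h1 : y * (y / ((hM.eigenvalues i - e) ^ 2 + y ^ 2)) ≤ y' * (y' / ((hM.eigenvalues i - e) ^ 2 + y' ^ 2)) := by
    rw [← mul_div_assoc, ← mul_div_assoc, div_le_div_iff₀ (by positivity) (by positivity)]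
    have h2 : y * y ≤ y' * y' := mul_le_mul hyy hyy hy.le hy'.le
    nlinarith [mul_le_mul_of_nonneg_right h2 (sq_nonneg (hM.eigenvalues i - e))]
  calc y * (‖(hM.eigenvectorUnitary : Matrix n n ℂ) j i‖ ^ 2 * (y / ((hM.eigenvalues i - e) ^ 2 + y ^ 2)))
      = ‖(hM.eigenvectorUnitary : Matrix n n ℂ) j i‖ ^ 2 * (y * (y / ((hM.eigenvalues i - e) ^ 2 + y ^ 2))) := by ring
    _ ≤ ‖(hM.eigenvectorUnitary : Matrix n n ℂ) j i‖ ^ 2 * (y' * (y' / ((hM.eigenvalues i - e) ^ 2 + y' ^ 2))) := by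
        gcongr
    _ = _ := by ring

theorem rsv_div_im_anti {M : Matrix n n ℂ} (hM : M.IsHermitian) (e : ℝ) {y y' : ℝ} (hy : 0 < y) (hyy : y ≤ y') (j : n) :
    (rsv M ⟨e, y'⟩ j j).im / y' ≤ (rsv M ⟨e, y⟩ j j).im / y := by
  have hy' : 0 < y' := lt_of_lt_of_le hy hyy
  rw [rsv_im_diag_eq_sum hM e hy.ne', rsv_im_diag_eq_sum hM e hy'.ne', Finset.sum_div, Finset.sum_div]
  refine Finset.sum_le_sum fun i _ => ?_
  have h1 : y' / ((hM.eigenvalues i - e) ^ 2 + y' ^ 2) / y' ≤ y / ((hM.eigenvalues i - e) ^ 2 + y ^ 2) / y := by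
    rw [div_div, div_div, mul_comm _ y', mul_comm _ y, ← div_div, ← div_div, div_self hy.ne', div_self hy'.ne']
    apply one_div_le_one_div_of_le (by positivity)
    gcongr
  rw [mul_div_assoc, mul_div_assoc]
  gcongr

theorem rsv_height_cont {M : Matrix n n ℂ} (hM : M.IsHermitian) (e : ℝ) {y y' : ℝ} (hy' : 0 < y') (hyy : y' ≤ y) (j k : n) :
    ‖rsv M ⟨e, y'⟩ j k - rsv M ⟨e, y⟩ j k‖ ≤
      (y - y') / y' * Real.sqrt ((rsv M ⟨e, y⟩ j j).im * (rsv M ⟨e, y⟩ k k).im) := by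
  have hy : 0 < y := lt_of_lt_of_le hy' hyy
  have h1 := rsv_sub_param hM (z := ⟨e, y'⟩) (w := ⟨e, y⟩) hy'.ne' hy.ne'
  have h2 := congrFun (congrFun h1 j) k
  simp only [Matrix.sub_apply, Matrix.smul_apply, Matrix.mul_apply, smul_eq_mul] at h2
  have hA := rsv_im_nonneg hM (z := ⟨e, y⟩) hy j
  have hB := rsv_im_nonneg hM (z := ⟨e, y⟩) hy k
  have hn : ‖((⟨e, y'⟩ : ℂ) - ⟨e, y⟩)‖ = y - y' := by
    have : ((⟨e, y'⟩ : ℂ) - ⟨e, y⟩) = ((y' - y : ℝ) : ℂ) * Complex.I := by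
      apply Complex.ext <;> simp
    rw [this, norm_mul, Complex.norm_I, mul_one, Complex.norm_real, Real.norm_eq_abs, abs_of_nonpos (by linarith)]
    ring
  have hcs := rsv_cs (fun l => rsv M ⟨e, y'⟩ j l) (fun l => rsv M ⟨e, y⟩ l k)
  have hw1 : rsvSq (fun l => rsv M ⟨e, y'⟩ j l) = (rsv M ⟨e, y'⟩ j j).im / y' := rsv_ward hM (z := ⟨e, y'⟩) hy'.ne' j
  have hw2 : rsvSq (fun l => rsv M ⟨e, y⟩ l k) = (rsv M ⟨e, y⟩ k k).im / y := rsv_ward_col hM (z := ⟨e, y⟩) hy.ne' k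
  have hm := rsv_mul_im_mono hM e hy' hyy j
  have h3 : ‖∑ l, rsv M ⟨e, y'⟩ j l * rsv M ⟨e, y⟩ l k‖ ^ 2 ≤
      (rsv M ⟨e, y⟩ j j).im * (rsv M ⟨e, y⟩ k k).im / y' ^ 2 := by
    refine le_trans hcs ?_
    rw [hw1, hw2]
    have h4 : (rsv M ⟨e, y'⟩ j j).im ≤ y * (rsv M ⟨e, y⟩ j j).im / y' := by
      rw [le_div_iff₀ hy']; linarith
    calc (rsv M ⟨e, y'⟩ j j).im / y' * ((rsv M ⟨e, y⟩ k k).im / y)
        ≤ (y * (rsv M ⟨e, y⟩ j j).im / y') / y' * ((rsv M ⟨e, y⟩ k k).im / y) := by gcongr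
      _ = _ := by field_simp
  have h5 : ‖∑ l, rsv M ⟨e, y'⟩ j l * rsv M ⟨e, y⟩ l k‖ ≤
      Real.sqrt ((rsv M ⟨e, y⟩ j j).im * (rsv M ⟨e, y⟩ k k).im) / y' := by
    have := Real.le_sqrt_of_sq_le h3
    rwa [Real.sqrt_div (mul_nonneg hA hB), Real.sqrt_sq hy'.le] at this
  rw [h2, norm_mul, hn]
  calc (y - y') * ‖∑ l, rsv M ⟨e, y'⟩ j l * rsv M ⟨e, y⟩ l k‖
      ≤ (y - y') * (Real.sqrt ((rsv M ⟨e, y⟩ j j).im * (rsv M ⟨e, y⟩ k k).im) / y') :=
        mul_le_mul_of_nonneg_left h5 (by linarith)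
    _ = _ := by ring

theorem rsv_overlap {M : Matrix n n ℂ} (hM : M.IsHermitian) {z : ℂ} (hz : 0 < z.im) (j k : n) :
    ‖rsv M z j k‖ ^ 2 ≤ ((rsv M z).trace).im / z.im *
      ∑ i, ‖(hM.eigenvectorUnitary : Matrix n n ℂ) j i‖ ^ 2 * ‖(hM.eigenvectorUnitary : Matrix n n ℂ) k i‖ ^ 2 := by
  have hcs := rsv_cs (fun i => 1 / ((hM.eigenvalues i : ℂ) - z))
    (fun i => (hM.eigenvectorUnitary : Matrix n n ℂ) j i * conj ((hM.eigenvectorUnitary : Matrix n n ℂ) k i))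
  have h1 : rsv M z j k = (fun i => 1 / ((hM.eigenvalues i : ℂ) - z)) ⬝ᵥ
      (fun i => (hM.eigenvectorUnitary : Matrix n n ℂ) j i * conj ((hM.eigenvectorUnitary : Matrix n n ℂ) k i)) := by
    rw [rsv_apply_eq_sum hM hz.ne']
    unfold dotProduct
    refine Finset.sum_congr rfl fun i _ => ?_
    ring
  have h2 : rsvSq (fun i => 1 / ((hM.eigenvalues i : ℂ) - z)) = ((rsv M z).trace).im / z.im := by
    have hze : z = ⟨z.re, z.im⟩ := (Complex.eta z).symm
    have h3 := rsv_im_trace_eq_sum hM z.re hz.ne'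
    rw [← hze] at h3
    rw [h3, Finset.sum_div]
    unfold rsvSq
    refine Finset.sum_congr rfl fun i _ => ?_
    rw [norm_div, norm_one, div_pow, one_pow, ← Complex.normSq_eq_norm_sq, Complex.normSq_apply]
    simp only [Complex.sub_re, Complex.sub_im, Complex.ofReal_re, Complex.ofReal_im]
    have hp : 0 < (hM.eigenvalues i - z.re) ^ 2 + z.im ^ 2 := by positivity
    have hq : (hM.eigenvalues i - z.re) * (hM.eigenvalues i - z.re) + (0 - z.im) * (0 - z.im) =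
        (hM.eigenvalues i - z.re) ^ 2 + z.im ^ 2 := by ring
    rw [hq]
    field_simp
  have h4 : rsvSq (fun i => (hM.eigenvectorUnitary : Matrix n n ℂ) j i * conj ((hM.eigenvectorUnitary : Matrix n n ℂ) k i)) =
      ∑ i, ‖(hM.eigenvectorUnitary : Matrix n n ℂ) j i‖ ^ 2 * ‖(hM.eigenvectorUnitary : Matrix n n ℂ) k i‖ ^ 2 := by
    unfold rsvSq
    refine Finset.sum_congr rfl fun i _ => ?_
    rw [norm_mul, Complex.norm_conj, mul_pow]
  rw [h1]
  rw [h2, h4] at hcs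
  exact hcs

theorem rsv_eigvec_le {M : Matrix n n ℂ} (hM : M.IsHermitian) {y : ℝ} (hy : 0 < y) (i j : n) :
    ‖(hM.eigenvectorUnitary : Matrix n n ℂ) j i‖ ^ 2 ≤ y * (rsv M ⟨hM.eigenvalues i, y⟩ j j).im := by
  rw [rsv_im_diag_eq_sum hM _ hy.ne']
  have h1 : ‖(hM.eigenvectorUnitary : Matrix n n ℂ) j i‖ ^ 2 * (y / ((hM.eigenvalues i - hM.eigenvalues i) ^ 2 + y ^ 2)) ≤
      ∑ i', ‖(hM.eigenvectorUnitary : Matrix n n ℂ) j i'‖ ^ 2 * (y / ((hM.eigenvalues i' - hM.eigenvalues i) ^ 2 + y ^ 2)) :=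
    Finset.single_le_sum (f := fun i' => ‖(hM.eigenvectorUnitary : Matrix n n ℂ) j i'‖ ^ 2 *
      (y / ((hM.eigenvalues i' - hM.eigenvalues i) ^ 2 + y ^ 2))) (fun _ _ => by positivity) (Finset.mem_univ i)
  have h2 : ‖(hM.eigenvectorUnitary : Matrix n n ℂ) j i‖ ^ 2 =
      y * (‖(hM.eigenvectorUnitary : Matrix n n ℂ) j i‖ ^ 2 * (y / ((hM.eigenvalues i - hM.eigenvalues i) ^ 2 + y ^ 2))) := by
    rw [sub_self]
    field_simp
    ring
  calc _ = _ := h2
    _ ≤ _ := mul_le_mul_of_nonneg_left h1 hy.le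


/-! ### 3. Schur complement      (proved by helper240) -/

theorem rsv_eqns_cite : True := by
  have := @rsv.eq_1.{0}
  have := @rsvCut.eq_1.{0}
  have := @rsvSq.eq_1.{0}
  trivial

theorem rsv_scalar_eq (z : ℂ) : Matrix.scalar n z = z • (1 : Matrix n n ℂ) := by
  ext i j
  by_cases h : i = j
  · subst h; simp
  · simp [h]

/-- `∑_y M_xy G_yw = δ_xw + z G_xw` -/
theorem rsv_eq_left {M : Matrix n n ℂ} (hM : M.IsHermitian) {z : ℂ} (hz : z.im ≠ 0) (x w : n) :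
    ∑ y, M x y * rsv M z y w = (if x = w then 1 else 0) + z * rsv M z x w := by
  have h := congrFun (congrFun (rsv_mul_left hM hz) x) w
  rw [rsv_scalar_eq, sub_mul, smul_mul_assoc, one_mul, Matrix.sub_apply, Matrix.smul_apply, smul_eq_mul, Matrix.mul_apply,
    Matrix.one_apply] at h
  linear_combination h

/-- `∑_y G_xy M_yw = δ_xw + z G_xw` -/
theorem rsv_eq_right {M : Matrix n n ℂ} (hM : M.IsHermitian) {z : ℂ} (hz : z.im ≠ 0) (x w : n) :
    ∑ y, rsv M z x y * M y w = (if x = w then 1 else 0) + z * rsv M z x w := by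
  have h := congrFun (congrFun (rsv_mul_right hM hz) x) w
  rw [rsv_scalar_eq, mul_sub, mul_smul_comm, mul_one, Matrix.sub_apply, Matrix.smul_apply, smul_eq_mul, Matrix.mul_apply,
    Matrix.one_apply] at h
  linear_combination h

theorem rsvCut_apply (M : Matrix n n ℂ) (T : Finset n) (x y : n) : rsvCut M T x y = if x ∈ T ∨ y ∈ T then 0 else M x y := rfl

theorem rsvCut_isHermitian {M : Matrix n n ℂ} (hM : M.IsHermitian) (T : Finset n) : (rsvCut M T).IsHermitian := by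
  ext x y
  rw [Matrix.conjTranspose_apply, rsvCut_apply, rsvCut_apply]
  by_cases h : x ∈ T ∨ y ∈ T
  · rw [if_pos h, if_pos (Or.symm h), star_zero]
  · rw [if_neg h, if_neg (fun h' => h (Or.symm h'))]
    exact hM.apply x y

/-- the resolvent of the cut matrix is block diagonal -/
theorem rsv_cut_apply_of_mem {M : Matrix n n ℂ} (hM : M.IsHermitian) (T : Finset n) {z : ℂ} (hz : z.im ≠ 0)
    {x y : n} (hx : x ∈ T) : rsv (rsvCut M T) z x y = if x = y then -1 / z else 0 := by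
  have h := rsv_eq_left (rsvCut_isHermitian hM T) hz x y
  have h0 : ∑ u, rsvCut M T x u * rsv (rsvCut M T) z u y = 0 :=
    Finset.sum_eq_zero fun u _ => by rw [rsvCut_apply, if_pos (Or.inl hx), zero_mul]
  rw [h0] at h
  have hz0 : z ≠ 0 := by intro h'; exact hz (by rw [h']; rfl)
  by_cases hxy : x = y
  · rw [if_pos hxy] at h ⊢
    field_simp
    linear_combination -h
  · rw [if_neg hxy] at h ⊢
    have : z * rsv (rsvCut M T) z x y = 0 := by linear_combination -h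
    exact (mul_eq_zero.1 this).resolve_left hz0

theorem rsv_cut_apply_of_mem' {M : Matrix n n ℂ} (hM : M.IsHermitian) (T : Finset n) {z : ℂ} (hz : z.im ≠ 0)
    {x y : n} (hy : y ∈ T) : rsv (rsvCut M T) z x y = if x = y then -1 / z else 0 := by
  have h := rsv_eq_right (rsvCut_isHermitian hM T) hz x y
  have h0 : ∑ u, rsv (rsvCut M T) z x u * rsvCut M T u y = 0 :=
    Finset.sum_eq_zero fun u _ => by rw [rsvCut_apply, if_pos (Or.inr hy), mul_zero]
  rw [h0] at h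
  have hz0 : z ≠ 0 := by intro h'; exact hz (by rw [h']; rfl)
  by_cases hxy : x = y
  · rw [if_pos hxy] at h ⊢
    field_simp
    linear_combination -h
  · rw [if_neg hxy] at h ⊢
    have : z * rsv (rsvCut M T) z x y = 0 := by linear_combination -h
    exact (mul_eq_zero.1 this).resolve_left hz0

theorem rsv_cut_out_in {M : Matrix n n ℂ} (hM : M.IsHermitian) (T : Finset n) {z : ℂ} (hz : z.im ≠ 0)
    {x y : n} (hx : x ∉ T) (hy : y ∈ T) : rsv (rsvCut M T) z x y = 0 := by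
  rw [rsv_cut_apply_of_mem' hM T hz hy, if_neg]
  rintro rfl; exact hx hy

/-- expansion in the minor: for `x ∉ T`:  `G_xy = G^(T)_xy - ∑_{v ∈ T} (∑_{u ∉ T} G^(T)_xu M_uv) G_vy` -/
theorem rsv_minor_exp {M : Matrix n n ℂ} (hM : M.IsHermitian) {z : ℂ} (hz : z.im ≠ 0) (T : Finset n) {x : n} (hx : x ∉ T) (y : n) :
    rsv M z x y = rsv (rsvCut M T) z x y - ∑ v ∈ T, (∑ u ∈ univ \ T, rsv (rsvCut M T) z x u * M u v) * rsv M z v y := by
  have h := congrFun (congrFun (rsv_sub (rsvCut_isHermitian hM T) hM hz) x) y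
  rw [Matrix.sub_apply, Matrix.mul_apply] at h
  have e : ∀ v, (rsv (rsvCut M T) z * (M - rsvCut M T)) x v
      = if v ∈ T then ∑ u ∈ univ \ T, rsv (rsvCut M T) z x u * M u v else 0 := by
    intro v
    rw [Matrix.mul_apply]
    by_cases hv : v ∈ T
    · rw [if_pos hv, ← Finset.sum_sdiff (Finset.subset_univ T)]
      have : ∑ u ∈ T, rsv (rsvCut M T) z x u * (M - rsvCut M T) u v = 0 :=
        Finset.sum_eq_zero fun u hu => by rw [rsv_cut_out_in hM T hz hx hu, zero_mul]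
      rw [this, add_zero]
      refine Finset.sum_congr rfl fun u _ => ?_
      rw [Matrix.sub_apply, rsvCut_apply, if_pos (Or.inr hv), sub_zero]
    · rw [if_neg hv]
      refine Finset.sum_eq_zero fun u _ => ?_
      by_cases hu : u ∈ T
      · rw [rsv_cut_out_in hM T hz hx hu, zero_mul]
      · rw [Matrix.sub_apply, rsvCut_apply, if_neg (by tauto), sub_self, mul_zero]
  simp only [e] at h
  rw [← Finset.sum_sdiff (Finset.subset_univ T)] at h
  have h2 : ∑ v ∈ univ \ T, (if v ∈ T then ∑ u ∈ univ \ T, rsv (rsvCut M T) z x u * M u v else 0) * rsv M z v y = 0 :=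
    Finset.sum_eq_zero fun v hv => by rw [if_neg (Finset.mem_sdiff.1 hv).2, zero_mul]
  have h3 : ∑ v ∈ T, (if v ∈ T then ∑ u ∈ univ \ T, rsv (rsvCut M T) z x u * M u v else 0) * rsv M z v y
      = ∑ v ∈ T, (∑ u ∈ univ \ T, rsv (rsvCut M T) z x u * M u v) * rsv M z v y :=
    Finset.sum_congr rfl fun v hv => by rw [if_pos hv]
  rw [h2, h3, zero_add] at h
  linear_combination -h

/-- Schur complement, equation form: for `x ∈ T` and every `y` -/
theorem rsv_schur_eq {M : Matrix n n ℂ} (hM : M.IsHermitian) {z : ℂ} (hz : z.im ≠ 0) (T : Finset n) {x : n} (hx : x ∈ T) (y : n) :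
    ∑ v ∈ T, (M x v - (if x = v then z else 0) - ∑ k ∈ univ \ T, ∑ l ∈ univ \ T, M x k * rsv (rsvCut M T) z k l * M l v) * rsv M z v y
      = (if x = y then 1 else 0) - ∑ u ∈ univ \ T, M x u * rsv (rsvCut M T) z u y := by
  have h := rsv_eq_left hM hz x y
  rw [← Finset.sum_sdiff (Finset.subset_univ T)] at h
  have h1 : ∑ u ∈ univ \ T, M x u * rsv M z u y
      = ∑ u ∈ univ \ T, M x u * rsv (rsvCut M T) z u y
        - ∑ v ∈ T, (∑ u ∈ univ \ T, ∑ u' ∈ univ \ T, M x u * rsv (rsvCut M T) z u u' * M u' v) * rsv M z v y := by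
    have : ∀ u ∈ univ \ T, M x u * rsv M z u y = M x u * rsv (rsvCut M T) z u y
        - ∑ v ∈ T, (∑ u' ∈ univ \ T, M x u * rsv (rsvCut M T) z u u' * M u' v) * rsv M z v y := by
      intro u hu
      rw [rsv_minor_exp hM hz T (Finset.mem_sdiff.1 hu).2 y, mul_sub, Finset.mul_sum]
      congr 1
      refine Finset.sum_congr rfl fun v _ => ?_
      rw [← mul_assoc, Finset.mul_sum]
      congr 1
      exact Finset.sum_congr rfl fun u' _ => by ring
    rw [Finset.sum_congr rfl this, Finset.sum_sub_distrib, Finset.sum_comm]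
    congr 1
    refine Finset.sum_congr rfl fun v _ => ?_
    rw [Finset.sum_mul]
  have e : ∑ v ∈ T, (if x = v then z else 0) * rsv M z v y = z * rsv M z x y := by
    rw [Finset.sum_eq_single x]
    · rw [if_pos rfl]
    · intro v _ hv; rw [if_neg (Ne.symm hv), zero_mul]
    · intro h; exact absurd hx h
  have h2 : ∑ v ∈ T, (M x v - (if x = v then z else 0) - ∑ k ∈ univ \ T, ∑ l ∈ univ \ T, M x k * rsv (rsvCut M T) z k l * M l v) * rsv M z v y
      = ∑ v ∈ T, M x v * rsv M z v y - z * rsv M z x y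
        - ∑ v ∈ T, (∑ u ∈ univ \ T, ∑ u' ∈ univ \ T, M x u * rsv (rsvCut M T) z u u' * M u' v) * rsv M z v y := by
    rw [← e, ← Finset.sum_sub_distrib, ← Finset.sum_sub_distrib]
    exact Finset.sum_congr rfl fun v _ => by ring
  rw [h2]
  rw [h1] at h
  linear_combination h

/-- the self energy of the vertex `j` -/
noncomputable def rsvSelf (M : Matrix n n ℂ) (z : ℂ) (j : n) : ℂ :=
  ∑ k ∈ univ.erase j, ∑ l ∈ univ.erase j, M j k * rsv (rsvCut M {j}) z k l * M l j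

theorem rsv_self_eqns_cite : True := by
  have := @rsvSelf.eq_1.{0}
  trivial

/-- Schur: `G_jj (M_jj - z - Σ M_jk G^(j)_kl M_lj) = 1` -/
theorem rsv_schur_diag {M : Matrix n n ℂ} (hM : M.IsHermitian) {z : ℂ} (hz : z.im ≠ 0) (j : n) :
    rsv M z j j * (M j j - z - rsvSelf M z j) = 1 := by
  have h := rsv_schur_eq hM hz {j} (Finset.mem_singleton_self j) j
  rw [Finset.sum_singleton, if_pos rfl, if_pos rfl, Finset.sdiff_singleton_eq_erase] at h
  have h0 : ∑ u ∈ univ.erase j, M j u * rsv (rsvCut M {j}) z u j = 0 :=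
    Finset.sum_eq_zero fun u hu => by
      rw [rsv_cut_out_in hM {j} hz (by simpa using (Finset.mem_erase.1 hu).1) (Finset.mem_singleton_self j), mul_zero]
  rw [h0, sub_zero] at h
  rw [rsvSelf, mul_comm]
  exact h

theorem rsv_diag_ne {M : Matrix n n ℂ} (hM : M.IsHermitian) {z : ℂ} (hz : z.im ≠ 0) (j : n) : rsv M z j j ≠ 0 := by
  intro h
  have := rsv_schur_diag hM hz j
  rw [h, zero_mul] at this
  exact zero_ne_one this

/-- Schur, column: `G_kj = - G_jj Σ_l G^(j)_kl M_lj` for `k ≠ j` -/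
theorem rsv_schur_col {M : Matrix n n ℂ} (hM : M.IsHermitian) {z : ℂ} (hz : z.im ≠ 0) {j k : n} (hk : k ≠ j) :
    rsv M z k j = - rsv M z j j * ∑ l ∈ univ.erase j, rsv (rsvCut M {j}) z k l * M l j := by
  have h := rsv_minor_exp hM hz {j} (x := k) (by simpa using hk) j
  rw [Finset.sum_singleton, Finset.sdiff_singleton_eq_erase,
    rsv_cut_out_in hM {j} hz (by simpa using hk) (Finset.mem_singleton_self j)] at h
  rw [h]; ring

/-- Schur, minor entries: `G_kl = G^(j)_kl + G_kj G_jl / G_jj` -/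
theorem rsv_schur_minor {M : Matrix n n ℂ} (hM : M.IsHermitian) {z : ℂ} (hz : z.im ≠ 0) {j k l : n} (hk : k ≠ j) (_hl : l ≠ j) :
    rsv M z k l = rsv (rsvCut M {j}) z k l + rsv M z k j * rsv M z j l / rsv M z j j := by
  have h := rsv_minor_exp hM hz {j} (x := k) (by simpa using hk) l
  rw [Finset.sum_singleton, Finset.sdiff_singleton_eq_erase] at h
  have h0 := rsv_diag_ne hM hz j
  rw [h, rsv_schur_col hM hz hk]
  field_simp
  ring

/-- `Im (z + self energy) = y (1 + ‖G^(j) m‖²)` (Ward for the minor) -/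
theorem rsv_self_im {M : Matrix n n ℂ} (hM : M.IsHermitian) {z : ℂ} (hz : z.im ≠ 0) (j : n) :
    (rsvSelf M z j).im = z.im * rsvSq (rsv (rsvCut M {j}) z *ᵥ fun l => if l = j then 0 else M l j) := by
  rw [rsv_mulVec_sq_eq (rsvCut_isHermitian hM {j}) hz]
  congr 1
  rw [rsvSelf]
  unfold dotProduct Matrix.mulVec dotProduct
  rw [← Finset.sum_erase_add _ _ (Finset.mem_univ j)]
  simp only [Pi.star_apply, if_true, star_zero, zero_mul, add_zero]
  refine Finset.sum_congr rfl fun k hk => ?_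
  rw [if_neg (Finset.mem_erase.1 hk).1, Finset.mul_sum, ← Finset.sum_erase_add _ _ (Finset.mem_univ j)]
  simp only [if_true, mul_zero, add_zero]
  refine Finset.sum_congr rfl fun l hl => ?_
  rw [if_neg (Finset.mem_erase.1 hl).1, hM.apply j k]
  ring

/-- trace of the minor, without interlacing -/
theorem rsv_trace_minor {M : Matrix n n ℂ} (hM : M.IsHermitian) {z : ℂ} (hz : 0 < z.im) (j : n) :
    ‖(rsv M z).trace - ∑ k ∈ univ.erase j, rsv (rsvCut M {j}) z k k‖ ≤ 1 / z.im := by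
  have h0 := rsv_diag_ne hM hz.ne' j
  have e : (rsv M z).trace - ∑ k ∈ univ.erase j, rsv (rsvCut M {j}) z k k = (∑ k, rsv M z k j * rsv M z j k) / rsv M z j j := by
    rw [Matrix.trace, ← Finset.sum_erase_add _ _ (Finset.mem_univ j), ← Finset.sum_erase_add (a := j) univ (fun k => rsv M z k j * rsv M z j k) (Finset.mem_univ j)]
    simp only [Matrix.diag_apply]
    have : ∑ k ∈ univ.erase j, rsv M z k k = ∑ k ∈ univ.erase j, rsv (rsvCut M {j}) z k k + (∑ k ∈ univ.erase j, rsv M z k j * rsv M z j k) / rsv M z j j := by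
      rw [Finset.sum_div, ← Finset.sum_add_distrib]
      exact Finset.sum_congr rfl fun k hk => rsv_schur_minor hM hz.ne' (Finset.mem_erase.1 hk).1 (Finset.mem_erase.1 hk).1
    rw [this]
    field_simp
    ring
  rw [e, norm_div, div_le_iff₀ (norm_pos_iff.2 h0)]
  have h1 : ‖∑ k, rsv M z k j * rsv M z j k‖ ^ 2 ≤ ((rsv M z j j).im / z.im) ^ 2 := by
    have := rsv_cs (fun k => rsv M z k j) (fun k => rsv M z j k)
    unfold rsvSq dotProduct at this
    rw [rsv_ward hM hz.ne', rsv_ward_col hM hz.ne'] at this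
    rw [sq ((rsv M z j j).im / z.im)]
    exact this
  have h2 : 0 ≤ (rsv M z j j).im / z.im := div_nonneg (rsv_im_nonneg hM hz j) hz.le
  have h3 : ‖∑ k, rsv M z k j * rsv M z j k‖ ≤ (rsv M z j j).im / z.im := (abs_le_of_sq_le_sq' h1 h2).2
  calc _ ≤ (rsv M z j j).im / z.im := h3
    _ ≤ ‖rsv M z j j‖ / z.im := div_le_div_of_nonneg_right (Complex.im_le_norm _) hz.le
    _ = 1 / z.im * ‖rsv M z j j‖ := by ring

/-- the Schur complement of the block `T`, full size (identity outside `T`) -/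
noncomputable def rsvBlock (M : Matrix n n ℂ) (z : ℂ) (T : Finset n) : Matrix n n ℂ := fun x y =>
  if x ∈ T ∧ y ∈ T then
    M x y - (if x = y then z else 0) - ∑ k ∈ univ \ T, ∑ l ∈ univ \ T, M x k * rsv (rsvCut M T) z k l * M l y
  else if x = y then 1 else 0

theorem rsv_block_eqns_cite : True := by
  have := @rsvBlock.eq_1.{0}
  trivial

theorem rsvBlock_apply (M : Matrix n n ℂ) (z : ℂ) (T : Finset n) (x y : n) : rsvBlock M z T x y =
    if x ∈ T ∧ y ∈ T then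
      M x y - (if x = y then z else 0) - ∑ k ∈ univ \ T, ∑ l ∈ univ \ T, M x k * rsv (rsvCut M T) z k l * M l y
    else if x = y then 1 else 0 := rfl

/-- Schur, finite block: `G_TT = (M_TT - z - M_{T,Tᶜ} G^(T) M_{Tᶜ,T})⁻¹` -/
theorem rsv_schur_block {M : Matrix n n ℂ} (hM : M.IsHermitian) {z : ℂ} (hz : z.im ≠ 0) (T : Finset n)
    {x y : n} (hx : x ∈ T) (hy : y ∈ T) : rsv M z x y = (rsvBlock M z T)⁻¹ x y := by
  have key : (rsvBlock M z T)⁻¹ = Matrix.of fun a b => if a ∈ T ∧ b ∈ T then rsv M z a b else if a = b then 1 else 0 := by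
    apply Matrix.inv_eq_right_inv
    ext a b
    rw [Matrix.mul_apply, Matrix.one_apply]
    simp only [Matrix.of_apply]
    by_cases ha : a ∈ T
    · rw [← Finset.sum_sdiff (Finset.subset_univ T)]
      have h1 : ∑ v ∈ univ \ T, rsvBlock M z T a v * (if v ∈ T ∧ b ∈ T then rsv M z v b else if v = b then 1 else 0) = 0 := by
        refine Finset.sum_eq_zero fun v hv => ?_
        have hv' := (Finset.mem_sdiff.1 hv).2
        rw [rsvBlock_apply, if_neg (fun h => hv' h.2), if_neg (by rintro rfl; exact hv' ha), zero_mul]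
      rw [h1, zero_add]
      by_cases hb : b ∈ T
      · have h2 := rsv_schur_eq hM hz T ha b
        have h3 : ∑ u ∈ univ \ T, M a u * rsv (rsvCut M T) z u b = 0 :=
          Finset.sum_eq_zero fun u hu => by rw [rsv_cut_out_in hM T hz (Finset.mem_sdiff.1 hu).2 hb, mul_zero]
        rw [h3, sub_zero] at h2
        rw [← h2]
        refine Finset.sum_congr rfl fun v hv => ?_
        rw [rsvBlock_apply, if_pos (⟨ha, hv⟩ : a ∈ T ∧ v ∈ T), if_pos (⟨hv, hb⟩ : v ∈ T ∧ b ∈ T)]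
      · rw [if_neg (by rintro rfl; exact hb ha)]
        refine Finset.sum_eq_zero fun v hv => ?_
        rw [if_neg (fun h => hb h.2), if_neg (by rintro rfl; exact hb hv), mul_zero]
    · rw [Finset.sum_eq_single a]
      · rw [rsvBlock_apply, if_neg (fun h => ha h.1), if_pos rfl, one_mul, if_neg (fun h => ha h.1)]
      · intro v _ hv
        rw [rsvBlock_apply, if_neg (fun h => ha h.1), if_neg (Ne.symm hv), zero_mul]
      · intro h; exact absurd (Finset.mem_univ _) h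
  rw [key, Matrix.of_apply, if_pos ⟨hx, hy⟩]

/-- Schur, from the block to the outside: `G_ky = - Σ_{l ∉ T, x ∈ T} G^(T)_kl M_lx G_xy` for `k ∉ T`, `y ∈ T` -/
theorem rsv_schur_block_col {M : Matrix n n ℂ} (hM : M.IsHermitian) {z : ℂ} (hz : z.im ≠ 0) (T : Finset n)
    {k y : n} (hk : k ∉ T) (hy : y ∈ T) :
    rsv M z k y = - ∑ l ∈ univ \ T, ∑ x ∈ T, rsv (rsvCut M T) z k l * M l x * rsv M z x y := by
  rw [rsv_minor_exp hM hz T hk y, rsv_cut_out_in hM T hz hk hy, zero_sub, Finset.sum_comm]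
  congr 1
  refine Finset.sum_congr rfl fun v _ => ?_
  rw [Finset.sum_mul]

/-! ### 4. perturbation      (proved by helper240) -/

theorem rsvSq_sub_le (u w : n → ℂ) : rsvSq (u - w) ≤ 3 / 2 * rsvSq u + 3 * rsvSq w := by
  unfold rsvSq
  rw [Finset.mul_sum, Finset.mul_sum, ← Finset.sum_add_distrib]
  refine Finset.sum_le_sum fun i _ => ?_
  have h1 : ‖(u - w) i‖ ≤ ‖u i‖ + ‖w i‖ := by rw [Pi.sub_apply]; exact norm_sub_le _ _
  have h2 : ‖(u - w) i‖ ^ 2 ≤ (‖u i‖ + ‖w i‖) ^ 2 := pow_le_pow_left₀ (norm_nonneg _) h1 2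
  nlinarith [sq_nonneg (‖u i‖ - 2 * ‖w i‖)]

theorem rsvSq_neg (v : n → ℂ) : rsvSq (-v) = rsvSq v := by
  unfold rsvSq
  exact Finset.sum_congr rfl fun i _ => by rw [Pi.neg_apply, norm_neg]

theorem rsvSq_mulVec_single (G : Matrix n n ℂ) (j : n) : rsvSq (G *ᵥ Pi.single j 1) = ∑ k, ‖G k j‖ ^ 2 := by
  unfold rsvSq
  refine Finset.sum_congr rfl fun k _ => ?_
  rw [Matrix.mulVec_single_one]
  rfl

/-- `‖P v‖ ≤ (y/2) ‖v‖` for all `v`  ⟹  `‖G_{A+P} v‖ ≤ (3/2) ‖G_A v‖` -/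
theorem rsv_perturb_sq_le {A P : Matrix n n ℂ} (hA : A.IsHermitian) (hP : P.IsHermitian) {z : ℂ} (hz : 0 < z.im)
    (hPn : ∀ v : n → ℂ, rsvSq (P *ᵥ v) ≤ (z.im / 2) ^ 2 * rsvSq v) (v : n → ℂ) :
    rsvSq (rsv (A + P) z *ᵥ v) ≤ 9 / 4 * rsvSq (rsv A z *ᵥ v) := by
  have hAP : (A + P).IsHermitian := hA.add hP
  have h := rsv_sub hAP hA hz.ne'
  have e : rsv (A + P) z *ᵥ v = rsv A z *ᵥ v - rsv (A + P) z *ᵥ (P *ᵥ (rsv A z *ᵥ v)) := by
    have h1 : rsv (A + P) z = rsv A z - rsv (A + P) z * P * rsv A z := by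
      have : A - (A + P) = -P := by abel
      rw [this] at h
      rw [Matrix.mul_neg, Matrix.neg_mul] at h
      rw [sub_eq_iff_eq_add] at h
      exact h.trans (by abel)
    conv_lhs => rw [h1]
    rw [Matrix.sub_mulVec, ← Matrix.mulVec_mulVec, ← Matrix.mulVec_mulVec]
  rw [e]
  have h2 := rsvSq_sub_le (rsv A z *ᵥ v) (rsv (A + P) z *ᵥ (P *ᵥ (rsv A z *ᵥ v)))
  have h3 := rsv_mulVec_sq_le hAP hz (P *ᵥ (rsv A z *ᵥ v))
  have h4 := hPn (rsv A z *ᵥ v)
  have h5 : rsvSq (rsv (A + P) z *ᵥ (P *ᵥ (rsv A z *ᵥ v))) ≤ rsvSq (rsv A z *ᵥ v) / 4 := by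
    refine h3.trans ?_
    rw [div_le_iff₀ (by positivity)]
    calc _ ≤ (z.im / 2) ^ 2 * rsvSq (rsv A z *ᵥ v) := h4
      _ = rsvSq (rsv A z *ᵥ v) / 4 * z.im ^ 2 := by ring
  linarith

/-- the diagonal form: `Im G_{A+P} ≤ (9/4) Im G_A` -/
theorem rsv_perturb_im_le {A P : Matrix n n ℂ} (hA : A.IsHermitian) (hP : P.IsHermitian) {z : ℂ} (hz : 0 < z.im)
    (hPn : ∀ v : n → ℂ, rsvSq (P *ᵥ v) ≤ (z.im / 2) ^ 2 * rsvSq v) (j : n) :
    (rsv (A + P) z j j).im ≤ 9 / 4 * (rsv A z j j).im := by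
  have h := rsv_perturb_sq_le hA hP hz hPn (Pi.single j 1)
  rw [rsvSq_mulVec_single, rsvSq_mulVec_single, rsv_ward_col (hA.add hP) hz.ne', rsv_ward_col hA hz.ne'] at h
  have : (rsv (A + P) z j j).im / z.im ≤ (9 / 4 * (rsv A z j j).im) / z.im := by
    calc _ ≤ 9 / 4 * ((rsv A z j j).im / z.im) := h
      _ = _ := by ring
  exact (div_le_div_iff_of_pos_right hz).1 this

/-- the rows of `R G(z)`: `∑_b |(R G(z))_ab|² = ‖G(z) (R_a)^*‖²` -/
theorem rsv_row_sq {B : Matrix n n ℂ} (R : Matrix n n ℂ) (hB : B.IsHermitian) {z : ℂ} (hz : z.im ≠ 0) (a : n) :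
    ∑ b, ‖(R * rsv B z) a b‖ ^ 2 = rsvSq (rsv B z *ᵥ star (R a)) := by
  rw [← rsv_mulVec_sq_conj hB hz]
  unfold rsvSq
  refine Finset.sum_congr rfl fun b _ => ?_
  have : (rsv B (conj z) *ᵥ star (R a)) b = conj ((R * rsv B z) a b) := by
    rw [Matrix.mul_apply, map_sum]
    unfold Matrix.mulVec dotProduct
    refine Finset.sum_congr rfl fun c _ => ?_
    beta_reduce
    rw [rsv_conj_apply hB, Pi.star_apply, map_mul, Complex.star_def]
    ring
  rw [this, Complex.norm_conj]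

/-- trace bound for a positive perturbation `Ξ = Rᴴ R`, `‖Ξ‖ ≤ y/2` (note A9 R4):
`|Tr G_{B-Ξ} - Tr G_B| ≤ (3/2) ‖R G_B‖²_HS = (3/(2y)) Tr[Ξ Im G_B]` -/
theorem rsv_trace_sub_le {B R : Matrix n n ℂ} (hB : B.IsHermitian) {z : ℂ} (hz : 0 < z.im)
    (hRn : ∀ v : n → ℂ, rsvSq ((Rᴴ * R) *ᵥ v) ≤ (z.im / 2) ^ 2 * rsvSq v) :
    ‖(rsv (B - Rᴴ * R) z).trace - (rsv B z).trace‖ ≤ 3 / 2 * ∑ a, ∑ b, ‖(R * rsv B z) a b‖ ^ 2 := by
  have hX : (-(Rᴴ * R)).IsHermitian := (Matrix.isHermitian_conjTranspose_mul_self R).neg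
  have hBX : (B + -(Rᴴ * R)).IsHermitian := hB.add hX
  have hXn : ∀ v : n → ℂ, rsvSq ((-(Rᴴ * R)) *ᵥ v) ≤ (z.im / 2) ^ 2 * rsvSq v := by
    intro v; rw [Matrix.neg_mulVec, rsvSq_neg]; exact hRn v
  rw [sub_eq_add_neg B]
  have h := rsv_sub hBX hB hz.ne'
  have e0 : B - (B + -(Rᴴ * R)) = Rᴴ * R := by abel
  rw [e0] at h
  have e1 : (rsv (B + -(Rᴴ * R)) z).trace - (rsv B z).trace = ∑ a, ∑ b, (R * rsv B z) a b * (rsv (B + -(Rᴴ * R)) z * Rᴴ) b a := by
    rw [← Matrix.trace_sub, h]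
    have : rsv (B + -(Rᴴ * R)) z * (Rᴴ * R) * rsv B z = (rsv (B + -(Rᴴ * R)) z * Rᴴ) * (R * rsv B z) := by
      simp only [Matrix.mul_assoc]
    rw [this, Matrix.trace_mul_comm, Matrix.trace]
    refine Finset.sum_congr rfl fun a _ => ?_
    rw [Matrix.diag_apply, Matrix.mul_apply]
  have e2 : ∀ a, ∑ b, ‖(rsv (B + -(Rᴴ * R)) z * Rᴴ) b a‖ ^ 2 ≤ 9 / 4 * ∑ b, ‖(R * rsv B z) a b‖ ^ 2 := by
    intro a
    rw [rsv_row_sq R hB hz.ne']
    refine le_trans (le_of_eq ?_) (rsv_perturb_sq_le hB hX hz hXn (star (R a)))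
    unfold rsvSq
    refine Finset.sum_congr rfl fun b _ => ?_
    congr 2
  rw [e1]
  calc ‖∑ a, ∑ b, (R * rsv B z) a b * (rsv (B + -(Rᴴ * R)) z * Rᴴ) b a‖
      ≤ ∑ a, ∑ b, ‖(R * rsv B z) a b‖ * ‖(rsv (B + -(Rᴴ * R)) z * Rᴴ) b a‖ := by
        refine (norm_sum_le _ _).trans (Finset.sum_le_sum fun a _ => ?_)
        refine (norm_sum_le _ _).trans (Finset.sum_le_sum fun b _ => ?_)
        rw [norm_mul]
    _ ≤ ∑ a, (3 / 4 * ∑ b, ‖(R * rsv B z) a b‖ ^ 2 + 1 / 3 * ∑ b, ‖(rsv (B + -(Rᴴ * R)) z * Rᴴ) b a‖ ^ 2) := by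
        refine Finset.sum_le_sum fun a _ => ?_
        rw [Finset.mul_sum, Finset.mul_sum, ← Finset.sum_add_distrib]
        refine Finset.sum_le_sum fun b _ => ?_
        nlinarith [sq_nonneg (3 * ‖(R * rsv B z) a b‖ - 2 * ‖(rsv (B + -(Rᴴ * R)) z * Rᴴ) b a‖)]
    _ ≤ ∑ a, (3 / 2 * ∑ b, ‖(R * rsv B z) a b‖ ^ 2) := by
        refine Finset.sum_le_sum fun a _ => ?_
        have := e2 a
        linarith
    _ = _ := by rw [Finset.mul_sum]

/-- `‖R G‖²_HS = Tr[Rᴴ R Im G] / y` -/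
theorem rsv_hs_eq {B R : Matrix n n ℂ} (hB : B.IsHermitian) {z : ℂ} (hz : z.im ≠ 0) :
    z.im * ∑ a, ∑ b, ‖(R * rsv B z) a b‖ ^ 2 = ((Rᴴ * R * rsv B z).trace).im := by
  have e : (Rᴴ * R * rsv B z).trace = ∑ a, star (star (R a)) ⬝ᵥ (rsv B z *ᵥ star (R a)) := by
    rw [Matrix.mul_assoc, Matrix.trace_mul_comm, Matrix.trace]
    refine Finset.sum_congr rfl fun a _ => ?_
    rw [Matrix.diag_apply, Matrix.mul_assoc, Matrix.mul_apply, star_star]
    unfold dotProduct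
    refine Finset.sum_congr rfl fun c _ => ?_
    congr 1
  rw [e, Complex.im_sum, Finset.mul_sum]
  refine Finset.sum_congr rfl fun a _ => ?_
  rw [rsv_row_sq R hB hz, rsv_mulVec_sq_eq hB hz]

/-- trace bound for a small perturbation: `|Tr G_{A+P} - Tr G_A| ≤ (3 p / (2 y)) Im Tr G_A` if `‖P‖ ≤ p ≤ y/2` -/
theorem rsv_trace_perturb_le {A P : Matrix n n ℂ} (hA : A.IsHermitian) (hP : P.IsHermitian) {z : ℂ} (hz : 0 < z.im)
    {p : ℝ} (hp0 : 0 ≤ p) (hp : p ≤ z.im / 2) (hPn : ∀ v : n → ℂ, rsvSq (P *ᵥ v) ≤ p ^ 2 * rsvSq v) :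
    ‖(rsv (A + P) z).trace - (rsv A z).trace‖ ≤ 3 * p / (2 * z.im) * ((rsv A z).trace).im := by
  have hAP : (A + P).IsHermitian := hA.add hP
  have hPn' : ∀ v : n → ℂ, rsvSq (P *ᵥ v) ≤ (z.im / 2) ^ 2 * rsvSq v := fun v =>
    (hPn v).trans (mul_le_mul_of_nonneg_right (pow_le_pow_left₀ hp0 hp 2) (rsvSq_nonneg v))
  have h := rsv_sub hAP hA hz.ne'
  have e0 : A - (A + P) = -P := by abel
  rw [e0] at h
  have e1 : (rsv (A + P) z).trace - (rsv A z).trace
      = - ∑ a, (fun b => rsv (A + P) z a b) ⬝ᵥ (P *ᵥ (rsv A z *ᵥ Pi.single a 1)) := by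
    rw [← Matrix.trace_sub, h, Matrix.mul_neg, Matrix.neg_mul, Matrix.trace_neg, Matrix.trace]
    congr 1
    refine Finset.sum_congr rfl fun a _ => ?_
    rw [Matrix.diag_apply, Matrix.mul_assoc, Matrix.mul_apply]
    unfold dotProduct
    refine Finset.sum_congr rfl fun b _ => ?_
    congr 1
    rw [Matrix.mulVec_mulVec, Matrix.mulVec_single_one]
    rfl
  have e2 : ∀ a, ‖(fun b => rsv (A + P) z a b) ⬝ᵥ (P *ᵥ (rsv A z *ᵥ Pi.single a 1))‖ ≤ 3 * p / (2 * z.im) * (rsv A z a a).im := by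
    intro a
    have h1 := rsv_cs (fun b => rsv (A + P) z a b) (P *ᵥ (rsv A z *ᵥ Pi.single a 1))
    have h2 : rsvSq (fun b => rsv (A + P) z a b) ≤ 9 / 4 * ((rsv A z a a).im / z.im) := by
      have : rsvSq (fun b => rsv (A + P) z a b) = (rsv (A + P) z a a).im / z.im := rsv_ward hAP hz.ne' a
      rw [this]
      calc _ ≤ (9 / 4 * (rsv A z a a).im) / z.im := div_le_div_of_nonneg_right (rsv_perturb_im_le hA hP hz hPn' a) hz.le
        _ = _ := by ring
    have h3 : rsvSq (P *ᵥ (rsv A z *ᵥ Pi.single a 1)) ≤ p ^ 2 * ((rsv A z a a).im / z.im) := by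
      refine (hPn _).trans (le_of_eq ?_)
      rw [rsvSq_mulVec_single, rsv_ward_col hA hz.ne']
    have hq : 0 ≤ (rsv A z a a).im / z.im := div_nonneg (rsv_im_nonneg hA hz a) hz.le
    have h4 : ‖(fun b => rsv (A + P) z a b) ⬝ᵥ (P *ᵥ (rsv A z *ᵥ Pi.single a 1))‖ ^ 2 ≤ (3 * p / (2 * z.im) * (rsv A z a a).im) ^ 2 := by
      calc _ ≤ _ := h1
        _ ≤ (9 / 4 * ((rsv A z a a).im / z.im)) * (p ^ 2 * ((rsv A z a a).im / z.im)) :=
            mul_le_mul h2 h3 (rsvSq_nonneg _) (by positivity)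
        _ = _ := by field_simp; ring
    exact (abs_le_of_sq_le_sq' h4 (mul_nonneg (by positivity) (rsv_im_nonneg hA hz a))).2
  rw [e1, norm_neg, Matrix.trace, Complex.im_sum, Finset.mul_sum]
  exact (norm_sum_le _ _).trans (Finset.sum_le_sum fun a _ => e2 a)

end Claimed.Agent.R287
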