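import Claimed.Agent.R287.Defs
import Claimed.Agent.R287.Rsv
import Claimed.Agent.R287.Eig
import Claimed.Agent.R287.ResB

/-!
# Row 287 (S0534): RESOLVENT KIT, part 3      (helper240; prefix `rs`)

* bridges: `rsC = toC`, `rTr H z = Tr (rsG H z)`, `rsG A z = rsv (rsC A) z`, `rsC (rsDel A T) = rsvCut (rsC A) T`;
* perturbation bounds of `Rsv.lean` sec. 4 for real symmetric matrices, overlap inequality;
* DISSIPATIVE matrices `rsDis X c : ∀ v, c |v|² ≤ Im ⟨v, X v⟩` (complex symmetric `X` with `Im X ≥ c`): invertibility,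
  `|X⁻¹ w| ≤ |w| / c`, entries, `-X⁻¹` dissipative, stability under Hermitian perturbations, `1 + B X`, `(1 + X B)⁻¹ X`.
-/

set_option autoImplicit false
set_option linter.unusedSectionVars false

namespace Claimed.Agent.R287

open Matrix Complex ComplexConjugate

variable {V : Type} [Fintype V] [DecidableEq V]

/-! ### bridges -/

theorem rs_C_eq_toC (A : Matrix V V ℝ) : rsC A = toC A := rfl

theorem rs_R_eq_toC {m n : Type} (U : Matrix m n ℝ) : rsR U = toC U := rfl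

theorem rs_rTr (H : Matrix V V ℝ) (z : ℂ) : rTr H z = (rsG H z).trace := rfl

theorem rs_G_eq_rsv (A : Matrix V V ℝ) (z : ℂ) : rsG A z = rsv (rsC A) z := by
  rw [rsG, rsv, rsv_scalar_eq]

theorem rs_C_herm {A : Matrix V V ℝ} (hA : A.IsHermitian) : (rsC A).IsHermitian := by
  ext x y
  rw [Matrix.conjTranspose_apply, rs_C_apply, rs_C_apply, rs_A_symm hA x y]
  simp

theorem rs_C_del (A : Matrix V V ℝ) (T : Finset V) : rsC (rsDel A T) = rsvCut (rsC A) T := by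
  ext x y
  rw [rs_C_apply, rs_del_apply, rsvCut_apply]
  by_cases h : x ∈ T ∨ y ∈ T
  · rw [if_pos h, if_pos h]; simp
  · rw [if_neg h, if_neg h]; rfl

/-- real and imaginary parts of a complex vector -/
theorem rs_sq_re_im (v : V → ℂ) : rsvSq v = ∑ x, (v x).re ^ 2 + ∑ x, (v x).im ^ 2 := by
  unfold rsvSq
  rw [← Finset.sum_add_distrib]
  refine Finset.sum_congr rfl fun x _ => ?_
  rw [← Complex.normSq_eq_norm_sq, Complex.normSq_apply]; ring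

theorem rs_C_mulVec_re (P : Matrix V V ℝ) (v : V → ℂ) (x : V) : ((rsC P *ᵥ v) x).re = (P *ᵥ fun y => (v y).re) x := by
  unfold Matrix.mulVec dotProduct
  rw [Complex.re_sum]
  exact Finset.sum_congr rfl fun y _ => by simp

theorem rs_C_mulVec_im (P : Matrix V V ℝ) (v : V → ℂ) (x : V) : ((rsC P *ᵥ v) x).im = (P *ᵥ fun y => (v y).im) x := by
  unfold Matrix.mulVec dotProduct
  rw [Complex.im_sum]
  exact Finset.sum_congr rfl fun y _ => by simp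

/-- a real operator bound is a complex operator bound -/
theorem rs_op_C {P : Matrix V V ℝ} {p : ℝ} (hP : ∀ u : V → ℝ, ∑ x, (P *ᵥ u) x ^ 2 ≤ p * ∑ x, u x ^ 2) (v : V → ℂ) :
    rsvSq (rsC P *ᵥ v) ≤ p * rsvSq v := by
  rw [rs_sq_re_im, rs_sq_re_im, mul_add]
  simp only [rs_C_mulVec_re, rs_C_mulVec_im]
  exact add_le_add (hP _) (hP _)

/-! ### perturbation bounds, real symmetric form -/

/-- `|P u| ≤ (η/2) |u|`  ⟹  `Im G_{A+P} ≤ (9/4) Im G_A` on the diagonal -/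
theorem rs_perturb_im_le {A P : Matrix V V ℝ} (hA : A.IsHermitian) (hP : P.IsHermitian) {z : ℂ} (hz : 0 < z.im)
    (hPn : ∀ u : V → ℝ, ∑ x, (P *ᵥ u) x ^ 2 ≤ (z.im / 2) ^ 2 * ∑ x, u x ^ 2) (j : V) :
    (rsG (A + P) z j j).im ≤ 9 / 4 * (rsG A z j j).im := by
  rw [rs_G_eq_rsv, rs_G_eq_rsv, rs_C_add]
  exact rsv_perturb_im_le (rs_C_herm hA) (rs_C_herm hP) hz (rs_op_C hPn) j

/-- `|P u| ≤ p |u|`, `p ≤ η/2`  ⟹  `|Tr G_{A+P} - Tr G_A| ≤ (3p / 2η) Im Tr G_A` -/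
theorem rs_trace_perturb_le {A P : Matrix V V ℝ} (hA : A.IsHermitian) (hP : P.IsHermitian) {z : ℂ} (hz : 0 < z.im)
    {p : ℝ} (hp0 : 0 ≤ p) (hp : p ≤ z.im / 2) (hPn : ∀ u : V → ℝ, ∑ x, (P *ᵥ u) x ^ 2 ≤ p ^ 2 * ∑ x, u x ^ 2) :
    ‖(rsG (A + P) z).trace - (rsG A z).trace‖ ≤ 3 * p / (2 * z.im) * ((rsG A z).trace).im := by
  rw [rs_G_eq_rsv, rs_G_eq_rsv, rs_C_add]
  exact rsv_trace_perturb_le (rs_C_herm hA) (rs_C_herm hP) hz hp0 hp (rs_op_C hPn)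

/-- positive perturbation `Ξ = Rᵀ R`, `|Ξ u| ≤ (η/2) |u|`:  `|Tr G_{B-Ξ} - Tr G_B| ≤ (3/2) |R G_B|²_HS` -/
theorem rs_trace_sub_le {B R : Matrix V V ℝ} (hB : B.IsHermitian) {z : ℂ} (hz : 0 < z.im)
    (hRn : ∀ u : V → ℝ, ∑ x, ((Rᵀ * R) *ᵥ u) x ^ 2 ≤ (z.im / 2) ^ 2 * ∑ x, u x ^ 2) :
    ‖(rsG (B - Rᵀ * R) z).trace - (rsG B z).trace‖ ≤ 3 / 2 * ∑ a, ∑ b, ‖(rsC R * rsG B z) a b‖ ^ 2 := by
  have e : rsC (Rᵀ * R) = (rsC R)ᴴ * rsC R := by
    rw [rs_C_mul]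
    congr 1
    ext x y
    simp [Matrix.conjTranspose_apply]
  rw [rs_G_eq_rsv, rs_G_eq_rsv, rs_C_sub, e]
  refine rsv_trace_sub_le (rs_C_herm hB) hz ?_
  rw [← e]
  exact rs_op_C hRn

/-- `η |R G|²_HS = Im Tr[Rᵀ R G]` -/
theorem rs_hs_eq {B : Matrix V V ℝ} (R : Matrix V V ℝ) (hB : B.IsHermitian) {z : ℂ} (hz : z.im ≠ 0) :
    z.im * ∑ a, ∑ b, ‖(rsC R * rsG B z) a b‖ ^ 2 = ((rsC (Rᵀ * R) * rsG B z).trace).im := by
  have e : rsC (Rᵀ * R) = (rsC R)ᴴ * rsC R := by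
    rw [rs_C_mul]
    congr 1
    ext x y
    simp [Matrix.conjTranspose_apply]
  rw [rs_G_eq_rsv, e]
  exact rsv_hs_eq (rs_C_herm hB) hz

/-- **overlap inequality**: `|G_jk|² ≤ (Im Tr G / η) ∑_i ψ_i(j)² ψ_i(k)²` -/
theorem rs_overlap {A : Matrix V V ℝ} (hA : A.IsHermitian) {z : ℂ} (hz : 0 < z.im) (j k : V) :
    ‖rsG A z j k‖ ^ 2 ≤ ((rsG A z).trace).im / z.im * ∑ i, rsU hA j i ^ 2 * rsU hA k i ^ 2 := by
  rw [rs_G_apply hA hz.ne', rs_trace_im hA hz.ne', Finset.sum_div]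
  have h1 : ‖∑ i, (rsU hA j i : ℂ) * (rsU hA k i : ℂ) / ((hA.eigenvalues i : ℂ) - z)‖
      ≤ ∑ i, (1 / ‖(hA.eigenvalues i : ℂ) - z‖) * (|rsU hA j i| * |rsU hA k i|) := by
    refine (norm_sum_le _ _).trans (le_of_eq (Finset.sum_congr rfl fun i _ => ?_))
    rw [norm_div, norm_mul, Complex.norm_real, Complex.norm_real, Real.norm_eq_abs, Real.norm_eq_abs]
    ring
  have h2 := Finset.sum_mul_sq_le_sq_mul_sq Finset.univ (fun i => 1 / ‖(hA.eigenvalues i : ℂ) - z‖) (fun i => |rsU hA j i| * |rsU hA k i|)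
  have e1 : ∀ i, (1 / ‖(hA.eigenvalues i : ℂ) - z‖) ^ 2 = z.im / ((hA.eigenvalues i - z.re) ^ 2 + z.im ^ 2) / z.im := by
    intro i
    rw [div_pow, one_pow, ← Complex.normSq_eq_norm_sq, rs_normSq]
    have := rs_normSq_pos (hA.eigenvalues i) hz.ne'
    field_simp
  have e2 : ∀ i, (|rsU hA j i| * |rsU hA k i|) ^ 2 = rsU hA j i ^ 2 * rsU hA k i ^ 2 := by
    intro i; rw [mul_pow, sq_abs, sq_abs]
  simp only [e1, e2] at h2
  exact (pow_le_pow_left₀ (norm_nonneg _) h1 2).trans h2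



/-! ### dissipative matrices -/

/-- `X` is `c`-dissipative: `c |v|² ≤ Im ⟨v, X v⟩` for all complex vectors -/
def rsDis (X : Matrix V V ℂ) (c : ℝ) : Prop := ∀ v : V → ℂ, c * rsvSq v ≤ (star v ⬝ᵥ (X *ᵥ v)).im

theorem rs_dis_eqns_cite : True := by
  have := @rsDis.eq_1
  trivial

theorem rs_dis_mono {X : Matrix V V ℂ} {c c' : ℝ} (h : rsDis X c) (hc : c' ≤ c) : rsDis X c' :=
  fun v => (mul_le_mul_of_nonneg_right hc (rsvSq_nonneg v)).trans (h v)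

theorem rs_dis_add {X Y : Matrix V V ℂ} {c c' : ℝ} (hX : rsDis X c) (hY : rsDis Y c') : rsDis (X + Y) (c + c') := by
  intro v
  rw [Matrix.add_mulVec, dotProduct_add, Complex.add_im, add_mul]
  exact add_le_add (hX v) (hY v)

theorem rs_herm_im {B : Matrix V V ℂ} (hB : B.IsHermitian) (v : V → ℂ) : (star v ⬝ᵥ (B *ᵥ v)).im = 0 := by
  have := hB.im_star_dotProduct_mulVec_self v
  simpa using this

theorem rs_dis_herm {B : Matrix V V ℂ} (hB : B.IsHermitian) : rsDis B 0 := by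
  intro v; rw [rs_herm_im hB, zero_mul]

theorem rs_dis_add_herm {X B : Matrix V V ℂ} {c : ℝ} (hX : rsDis X c) (hB : B.IsHermitian) : rsDis (X + B) c := by
  have := rs_dis_add hX (rs_dis_herm hB)
  rwa [add_zero] at this

theorem rs_im_swap (a b : V → ℂ) : (star a ⬝ᵥ b).im = -(star b ⬝ᵥ a).im := by
  rw [Matrix.star_dotProduct]
  simp

theorem rs_sq_zero : rsvSq (0 : V → ℂ) = 0 := by simp [rsvSq]

theorem rs_sq_eq_zero {v : V → ℂ} (h : rsvSq v ≤ 0) : v = 0 := by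
  funext x
  have h1 : ‖v x‖ ^ 2 ≤ rsvSq v :=
    Finset.single_le_sum (f := fun x => ‖v x‖ ^ 2) (fun _ _ => sq_nonneg _) (Finset.mem_univ x)
  have h2 : ‖v x‖ ^ 2 = 0 := le_antisymm (h1.trans h) (sq_nonneg _)
  simpa using h2

theorem rs_sq_single (j : V) : rsvSq (Pi.single j (1 : ℂ)) = 1 := by
  unfold rsvSq
  rw [Finset.sum_eq_single j]
  · simp
  · intro x _ hx; simp [hx]
  · intro h; exact absurd (Finset.mem_univ _) h

/-- from `(c a)² ≤ a b` to `c² a ≤ b` -/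
theorem rs_sq_cancel {a b c : ℝ} (ha : 0 ≤ a) (hb : 0 ≤ b) (h : (c * a) ^ 2 ≤ a * b) : c ^ 2 * a ≤ b := by
  rcases ha.eq_or_lt with h0 | h0
  · rw [← h0]; simpa using hb
  · have : a * (c ^ 2 * a) ≤ a * b := by nlinarith
    exact le_of_mul_le_mul_left this h0

/-- lower bound: `c |v| ≤ |X v|` -/
theorem rs_dis_lower {X : Matrix V V ℂ} {c : ℝ} (hc : 0 ≤ c) (hX : rsDis X c) (v : V → ℂ) : c ^ 2 * rsvSq v ≤ rsvSq (X *ᵥ v) := by
  have h1 := hX v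
  have h2 := rsv_cs (star v) (X *ᵥ v)
  rw [rsvSq_star] at h2
  refine rs_sq_cancel (rsvSq_nonneg v) (rsvSq_nonneg _) (le_trans ?_ h2)
  exact pow_le_pow_left₀ (mul_nonneg hc (rsvSq_nonneg v)) (h1.trans (Complex.im_le_norm _)) 2

theorem rs_dis_det_ne {X : Matrix V V ℂ} {c : ℝ} (hc : 0 < c) (hX : rsDis X c) : X.det ≠ 0 := by
  intro h0
  obtain ⟨v, hv, hXv⟩ := Matrix.exists_mulVec_eq_zero_iff.2 h0
  have h := rs_dis_lower hc.le hX v
  rw [hXv, rs_sq_zero] at h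
  refine hv (rs_sq_eq_zero ?_)
  by_contra hcon
  push Not at hcon
  nlinarith [mul_pos (pow_pos hc 2) hcon]

theorem rs_dis_mul_inv {X : Matrix V V ℂ} {c : ℝ} (hc : 0 < c) (hX : rsDis X c) : X * X⁻¹ = 1 :=
  Matrix.mul_nonsing_inv _ (Ne.isUnit (rs_dis_det_ne hc hX))

theorem rs_dis_inv_mul {X : Matrix V V ℂ} {c : ℝ} (hc : 0 < c) (hX : rsDis X c) : X⁻¹ * X = 1 :=
  Matrix.nonsing_inv_mul _ (Ne.isUnit (rs_dis_det_ne hc hX))

/-- **`|X⁻¹ w| ≤ |w| / c`** -/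
theorem rs_dis_inv_le {X : Matrix V V ℂ} {c : ℝ} (hc : 0 < c) (hX : rsDis X c) (w : V → ℂ) : rsvSq (X⁻¹ *ᵥ w) ≤ rsvSq w / c ^ 2 := by
  have h := rs_dis_lower hc.le hX (X⁻¹ *ᵥ w)
  rw [Matrix.mulVec_mulVec, rs_dis_mul_inv hc hX, Matrix.one_mulVec] at h
  rw [le_div_iff₀ (by positivity)]
  linarith

/-- entries: `|X⁻¹_ij| ≤ 1/c` -/
theorem rs_dis_inv_entry {X : Matrix V V ℂ} {c : ℝ} (hc : 0 < c) (hX : rsDis X c) (i j : V) : ‖X⁻¹ i j‖ ≤ 1 / c := by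
  have h := rs_dis_inv_le hc hX (Pi.single j 1)
  rw [rsvSq_mulVec_single, rs_sq_single] at h
  have h1 : ‖X⁻¹ i j‖ ^ 2 ≤ ∑ k, ‖X⁻¹ k j‖ ^ 2 :=
    Finset.single_le_sum (f := fun k => ‖X⁻¹ k j‖ ^ 2) (fun _ _ => sq_nonneg _) (Finset.mem_univ i)
  have h2 : ‖X⁻¹ i j‖ ^ 2 ≤ (1 / c) ^ 2 := by rw [div_pow, one_pow]; exact h1.trans h
  exact (abs_le_of_sq_le_sq' h2 (by positivity)).2

/-- **`-X⁻¹` is dissipative**: `c |X⁻¹ w|² ≤ Im ⟨w, -X⁻¹ w⟩` -/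
theorem rs_dis_neg_inv {X : Matrix V V ℂ} {c : ℝ} (hc : 0 < c) (hX : rsDis X c) (w : V → ℂ) :
    c * rsvSq (X⁻¹ *ᵥ w) ≤ (star w ⬝ᵥ ((-X⁻¹) *ᵥ w)).im := by
  have h := hX (X⁻¹ *ᵥ w)
  rw [Matrix.mulVec_mulVec, rs_dis_mul_inv hc hX, Matrix.one_mulVec, rs_im_swap] at h
  rw [Matrix.neg_mulVec, dotProduct_neg, Complex.neg_im]
  exact h

/-- quantitative form, with an upper bound `|X v| ≤ K |v|` -/
theorem rs_dis_neg_inv' {X : Matrix V V ℂ} {c K : ℝ} (hc : 0 < c) (hX : rsDis X c) (hK : 0 < K)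
    (hXK : ∀ v, rsvSq (X *ᵥ v) ≤ K ^ 2 * rsvSq v) : rsDis (-X⁻¹) (c / K ^ 2) := by
  intro w
  refine le_trans ?_ (rs_dis_neg_inv hc hX w)
  have h := hXK (X⁻¹ *ᵥ w)
  rw [Matrix.mulVec_mulVec, rs_dis_mul_inv hc hX, Matrix.one_mulVec] at h
  rw [div_mul_eq_mul_div, div_le_iff₀ (by positivity)]
  nlinarith

/-- congruence: `c |D v|² ≤ Im ⟨v, Dᴴ X D v⟩` -/
theorem rs_dis_congr {X : Matrix V V ℂ} {c : ℝ} (hX : rsDis X c) (D : Matrix V V ℂ) (v : V → ℂ) :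
    c * rsvSq (D *ᵥ v) ≤ (star v ⬝ᵥ ((Dᴴ * X * D) *ᵥ v)).im := by
  have h := hX (D *ᵥ v)
  have e : star v ⬝ᵥ ((Dᴴ * X * D) *ᵥ v) = star (D *ᵥ v) ⬝ᵥ (X *ᵥ (D *ᵥ v)) := by
    rw [Matrix.star_mulVec, ← Matrix.dotProduct_mulVec, Matrix.mulVec_mulVec, Matrix.mulVec_mulVec, Matrix.mul_assoc]
  rw [e]; exact h

/-! ### `1 + B X` and the Moebius map `X ↦ (1 + X B)⁻¹ X`, `B` Hermitian -/

theorem rs_dis_one_add_lower {X B : Matrix V V ℂ} {c : ℝ} (hX : rsDis X c) (hB : B.IsHermitian) (v : V → ℂ) :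
    c * rsvSq v ≤ -(star (X *ᵥ v) ⬝ᵥ ((1 + B * X) *ᵥ v)).im := by
  rw [Matrix.add_mulVec, Matrix.one_mulVec, ← Matrix.mulVec_mulVec, dotProduct_add, Complex.add_im, rs_herm_im hB, add_zero,
    rs_im_swap, neg_neg]
  exact hX v

theorem rs_dis_one_add_det_ne {X B : Matrix V V ℂ} {c : ℝ} (hc : 0 < c) (hX : rsDis X c) (hB : B.IsHermitian) : (1 + B * X).det ≠ 0 := by
  intro h0
  obtain ⟨v, hv, hXv⟩ := Matrix.exists_mulVec_eq_zero_iff.2 h0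
  have h := rs_dis_one_add_lower hX hB v
  rw [hXv, dotProduct_zero, Complex.zero_im, neg_zero] at h
  refine hv (rs_sq_eq_zero ?_)
  by_contra hcon
  push Not at hcon
  nlinarith [mul_pos hc hcon]

theorem rs_dis_one_add_det_ne' {X B : Matrix V V ℂ} {c : ℝ} (hc : 0 < c) (hX : rsDis X c) (hB : B.IsHermitian) : (1 + X * B).det ≠ 0 := by
  rw [Matrix.det_one_add_mul_comm]; exact rs_dis_one_add_det_ne hc hX hB

/-- **`|(1 + B X)⁻¹ w| ≤ (K/c) |w|`** if `|X v| ≤ K |v|` -/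
theorem rs_dis_one_add_inv_le {X B : Matrix V V ℂ} {c K : ℝ} (hc : 0 < c) (hX : rsDis X c) (hB : B.IsHermitian)
    (hXK : ∀ v, rsvSq (X *ᵥ v) ≤ K ^ 2 * rsvSq v) (w : V → ℂ) :
    rsvSq ((1 + B * X)⁻¹ *ᵥ w) ≤ (K / c) ^ 2 * rsvSq w := by
  set v := (1 + B * X)⁻¹ *ᵥ w with hv
  have hw : (1 + B * X) *ᵥ v = w := by
    rw [hv, Matrix.mulVec_mulVec, Matrix.mul_nonsing_inv _ (Ne.isUnit (rs_dis_one_add_det_ne hc hX hB)), Matrix.one_mulVec]
  have h := rs_dis_one_add_lower hX hB v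
  rw [hw] at h
  have h2 := rsv_cs (star (X *ᵥ v)) w
  rw [rsvSq_star] at h2
  have h3 : (c * rsvSq v) ^ 2 ≤ rsvSq v * (K ^ 2 * rsvSq w) := by
    calc (c * rsvSq v) ^ 2 ≤ ‖star (X *ᵥ v) ⬝ᵥ w‖ ^ 2 := by
          refine pow_le_pow_left₀ (mul_nonneg hc.le (rsvSq_nonneg v)) (h.trans ?_) 2
          exact (neg_le_abs _).trans (Complex.abs_im_le_norm _)
      _ ≤ rsvSq (X *ᵥ v) * rsvSq w := h2
      _ ≤ (K ^ 2 * rsvSq v) * rsvSq w := mul_le_mul_of_nonneg_right (hXK v) (rsvSq_nonneg w)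
      _ = _ := by ring
  have h4 := rs_sq_cancel (rsvSq_nonneg v) (mul_nonneg (sq_nonneg _) (rsvSq_nonneg w)) h3
  rw [div_pow, div_mul_eq_mul_div, le_div_iff₀ (by positivity)]
  linarith

/-- push-through identity -/
theorem rs_push {X B : Matrix V V ℂ} (h1 : (1 + X * B).det ≠ 0) (h2 : (1 + B * X).det ≠ 0) :
    (1 + X * B)⁻¹ * X = X * (1 + B * X)⁻¹ := by
  have e : X * (1 + B * X) = (1 + X * B) * X := by noncomm_ring
  calc (1 + X * B)⁻¹ * X = (1 + X * B)⁻¹ * (X * ((1 + B * X) * (1 + B * X)⁻¹)) := by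
        rw [Matrix.mul_nonsing_inv _ (Ne.isUnit h2), mul_one]
    _ = (1 + X * B)⁻¹ * ((X * (1 + B * X)) * (1 + B * X)⁻¹) := by rw [mul_assoc X]
    _ = ((1 + X * B)⁻¹ * (1 + X * B)) * (X * (1 + B * X)⁻¹) := by rw [e]; simp only [mul_assoc]
    _ = X * (1 + B * X)⁻¹ := by rw [Matrix.nonsing_inv_mul _ (Ne.isUnit h1), one_mul]

/-- **the Moebius image is dissipative**: `c |(1 + B X)⁻¹ w|² ≤ Im ⟨w, (1 + X B)⁻¹ X w⟩` -/
theorem rs_dis_mobius {X B : Matrix V V ℂ} {c : ℝ} (hc : 0 < c) (hX : rsDis X c) (hB : B.IsHermitian) (w : V → ℂ) :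
    c * rsvSq ((1 + B * X)⁻¹ *ᵥ w) ≤ (star w ⬝ᵥ (((1 + X * B)⁻¹ * X) *ᵥ w)).im := by
  rw [rs_push (rs_dis_one_add_det_ne' hc hX hB) (rs_dis_one_add_det_ne hc hX hB), ← Matrix.mulVec_mulVec]
  obtain ⟨v, hv⟩ : ∃ v, v = (1 + B * X)⁻¹ *ᵥ w := ⟨_, rfl⟩
  rw [← hv]
  have hw : w = v + B *ᵥ (X *ᵥ v) := by
    have : (1 + B * X) *ᵥ v = w := by
      rw [hv, Matrix.mulVec_mulVec, Matrix.mul_nonsing_inv _ (Ne.isUnit (rs_dis_one_add_det_ne hc hX hB)), Matrix.one_mulVec]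
    rw [← this, Matrix.add_mulVec, Matrix.one_mulVec, ← Matrix.mulVec_mulVec]
  have e : (star w ⬝ᵥ (X *ᵥ v)).im = (star v ⬝ᵥ (X *ᵥ v)).im := by
    conv_lhs => rw [hw]
    rw [star_add, add_dotProduct, Complex.add_im, rs_im_swap (B *ᵥ (X *ᵥ v)), rs_herm_im hB, neg_zero, add_zero]
  rw [e]; exact hX v

theorem rs_mobius_symm {X B : Matrix V V ℂ} (hXs : Xᵀ = X) (hBs : Bᵀ = B) (h1 : (1 + X * B).det ≠ 0) (h2 : (1 + B * X).det ≠ 0) :
    ((1 + X * B)⁻¹ * X)ᵀ = (1 + X * B)⁻¹ * X := by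
  rw [Matrix.transpose_mul, Matrix.transpose_nonsing_inv, Matrix.transpose_add, Matrix.transpose_one, Matrix.transpose_mul, hXs, hBs,
    rs_push h1 h2]

/-! ### complex symmetric matrices with positive imaginary part -/

/-- `Im ⟨v, X v⟩ = aᵀ J a + bᵀ J b` for `X` complex symmetric, `J = Im X`, `v = a + i b` -/
theorem rs_symm_im {X : Matrix V V ℂ} (hX : Xᵀ = X) (v : V → ℂ) :
    (star v ⬝ᵥ (X *ᵥ v)).im = (fun x => (v x).re) ⬝ᵥ ((X.map Complex.im) *ᵥ fun x => (v x).re)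
      + (fun x => (v x).im) ⬝ᵥ ((X.map Complex.im) *ᵥ fun x => (v x).im) := by
  have hs : ∀ x y, X x y = X y x := fun x y => by
    have := congrFun (congrFun hX y) x
    rwa [Matrix.transpose_apply] at this
  unfold dotProduct Matrix.mulVec dotProduct
  simp only [Finset.mul_sum, Complex.im_sum, Pi.star_apply, Matrix.map_apply]
  have e : ∀ x y, (star (v x) * (X x y * v y)).im
      = ((v x).re * ((X x y).im * (v y).re) + (v x).im * ((X x y).im * (v y).im))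
        + (X x y).re * ((v x).re * (v y).im - (v x).im * (v y).re) := by
    intro x y
    simp only [Complex.star_def, Complex.mul_im, Complex.mul_re, Complex.conj_re, Complex.conj_im]
    ring
  simp only [e, Finset.sum_add_distrib]
  have h0 : ∑ x, ∑ y, (X x y).re * ((v x).re * (v y).im - (v x).im * (v y).re) = 0 := by
    have h1 : ∑ x, ∑ y, (X x y).re * ((v x).re * (v y).im - (v x).im * (v y).re)
        = - ∑ x, ∑ y, (X x y).re * ((v x).re * (v y).im - (v x).im * (v y).re) := by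
      conv_lhs => rw [Finset.sum_comm]
      rw [← Finset.sum_neg_distrib]
      refine Finset.sum_congr rfl fun x _ => ?_
      rw [← Finset.sum_neg_distrib]
      refine Finset.sum_congr rfl fun y _ => ?_
      rw [hs y x]; ring
    linarith
  rw [h0, add_zero]

theorem rs_dis_of_symm {X : Matrix V V ℂ} (hX : Xᵀ = X) {c : ℝ}
    (hJ : ∀ u : V → ℝ, c * ∑ x, u x ^ 2 ≤ u ⬝ᵥ ((X.map Complex.im) *ᵥ u)) : rsDis X c := by
  intro v
  rw [rs_symm_im hX, rs_sq_re_im, mul_add]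
  exact add_le_add (hJ _) (hJ _)

/-- a positive definite real matrix is bounded below -/
theorem rs_posDef_lower {J : Matrix V V ℝ} (hJ : J.PosDef) : ∃ c : ℝ, 0 < c ∧ ∀ u : V → ℝ, c * ∑ x, u x ^ 2 ≤ u ⬝ᵥ (J *ᵥ u) := by
  have hH := hJ.isHermitian
  rcases isEmpty_or_nonempty V with hV | hV
  · exact ⟨1, one_pos, fun u => by simp [dotProduct]⟩
  · obtain ⟨i0, -, hi0⟩ := Finset.exists_min_image Finset.univ hH.eigenvalues Finset.univ_nonempty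
    refine ⟨hH.eigenvalues i0, hJ.eigenvalues_pos i0, fun u => ?_⟩
    have e : ∑ x, u x ^ 2 = u ⬝ᵥ u := by
      unfold dotProduct; exact Finset.sum_congr rfl fun x _ => by ring
    rw [e, eig_norm hH, eig_quad hH, Finset.mul_sum]
    exact Finset.sum_le_sum fun i _ => mul_le_mul_of_nonneg_right (hi0 i (Finset.mem_univ i)) (sq_nonneg _)

theorem rs_dis_of_posDef {X : Matrix V V ℂ} (hX : Xᵀ = X) (hJ : (X.map Complex.im).PosDef) : ∃ c : ℝ, 0 < c ∧ rsDis X c := by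
  obtain ⟨c, hc, h⟩ := rs_posDef_lower hJ
  exact ⟨c, hc, rs_dis_of_symm hX h⟩

/-- the domain `swDom` of the switching maps -/
theorem rs_dis_of_swDom {k : ℕ} {s : SwSt k} (hs : swDom s) : ∃ c : ℝ, 0 < c ∧ rsDis s.2.1 c :=
  rs_dis_of_posDef hs.1 hs.2

/-! ### the resolvent as the inverse of a dissipative matrix -/

theorem rs_dis_smul_one (z : ℂ) : rsDis (z • (1 : Matrix V V ℂ)) z.im := by
  intro v
  rw [Matrix.smul_mulVec, Matrix.one_mulVec, dotProduct_smul, ← rsvSq_eq, smul_eq_mul, Complex.mul_im]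
  simp

theorem rs_dis_shift {A : Matrix V V ℝ} (hA : A.IsHermitian) (z : ℂ) : rsDis (z • (1 : Matrix V V ℂ) - rsC A) z.im := by
  rw [sub_eq_add_neg]
  exact rs_dis_add_herm (rs_dis_smul_one z) (rs_C_herm hA).neg

theorem rs_inv_neg (X : Matrix V V ℂ) : (-X)⁻¹ = -X⁻¹ := by
  by_cases h : IsUnit X.det
  · apply Matrix.inv_eq_right_inv
    rw [neg_mul_neg, Matrix.mul_nonsing_inv _ h]
  · have h' : ¬ IsUnit (-X).det := by
      rw [Matrix.det_neg]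
      intro hu
      exact h (IsUnit.mul_iff.1 hu).2
    rw [Matrix.nonsing_inv_apply_not_isUnit _ h, Matrix.nonsing_inv_apply_not_isUnit _ h', neg_zero]

theorem rs_G_eq_neg_inv (A : Matrix V V ℝ) (z : ℂ) : rsG A z = -(z • (1 : Matrix V V ℂ) - rsC A)⁻¹ := by
  rw [rsG, ← rs_inv_neg, neg_sub]

/-- resolvent with a dissipative self energy `Σ`: `|(A - z - Σ)⁻¹_xy| ≤ 1/η` -/
theorem rs_self_entry {A : Matrix V V ℝ} (hA : A.IsHermitian) {z : ℂ} (hz : 0 < z.im) {S : Matrix V V ℂ} (hS : rsDis S 0) (x y : V) :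
    ‖(rsC A - z • (1 : Matrix V V ℂ) - S)⁻¹ x y‖ ≤ 1 / z.im := by
  have h : rsDis ((z • (1 : Matrix V V ℂ) - rsC A) + S) z.im := by
    have := rs_dis_add (rs_dis_shift hA z) hS
    rwa [add_zero] at this
  have e : rsC A - z • (1 : Matrix V V ℂ) - S = -((z • (1 : Matrix V V ℂ) - rsC A) + S) := by abel
  rw [e, rs_inv_neg, Matrix.neg_apply, norm_neg]
  exact rs_dis_inv_entry hz h x y

end Claimed.Agent.R287
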