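-- KEEP
import Claimed.Agent.R287.Defs
import Claimed.Agent.R287.Eig
import Claimed.Agent.R287.ResC
import Claimed.Agent.R287.Goe233
import Claimed.Agent.R287.Stj227
import Claimed.Agent.R287.Defs.B2
import Claimed.Agent.R287.B2Chain

/-!
# Row 287 (S0534), unit B2, sub-unit LIM      (sub-head helper227; prefix `b2l_`; defs `b2Tr b2Q1 b2E1 b2Lp B2Bm`)

Section A of `origin/helper275:notes/R287/B2_plan_275.md`.  EXPORTS (compiled glue, used by `B2.lean`):
`b2l_obs_lim_fst`, `b2l_obs_lim_snd` (translation invariance `htr` is a HYPOTHESIS: no import of U1), `b2l_E_abs_sub`.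
TREE:  obs_lim ⟸ E_fst/E_snd (proved) + Q1_iter (proved from `b2l_rot`, `b2l_add`) + Fubini (`b2l_fub0`, `b2l_fub`) + dominated convergence (`b2l_dom`)
       + Laplace form of LStat (`b2l_lap_lim0`, `b2l_lap_lim` ⟸ K9 = `Stj227.lean`, `b2l_rTr_cut`, `b2l_fin_close`).
KITS: `Eig.lean` (eigD, eig_D_eq, eig_D_cont), `Res.lean` (rs_trace), `ResC.lean` (rs_rTr), `Goe233.lean` (goeRaw, goe_raw_integral_conj, goe_raw_integral_add, goeSym), `Stj227.lean` (k9_*).
-/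

set_option autoImplicit false
open MeasureTheory ProbabilityTheory Matrix Filter Topology

namespace Claimed.Agent.R287

/-! ## 1. Finite data: traces, eigenvalues -/

/-- `b2Tr x z = ∑_i 1/(x_i - z)` -/
noncomputable def b2Tr {K : ℕ} (x : Dat K) (z : ℂ) : ℂ := ∑ i, (((x i : ℝ) : ℂ) - z)⁻¹

/-- the kernel of the single chain -/
noncomputable def b2Q1 {K : ℕ} (Δ : ℝ) (F : Dat K → ℝ) : Dat K → ℝ :=
  fun x => ∫ N, F (b2Step Δ x N) ∂(gArr (Win K) (Win K))

/-- expectation after `n` steps of the single chain -/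
noncomputable def b2E1 (μ : Measure Conf) (K : ℕ) (Δ : ℝ) (n : ℕ) (F : Dat K → ℝ) : ℝ :=
  ∫ x, ((b2Q1 Δ)^[n] F) (cPos K x) ∂μ

/-- the Laplace observable of finite data -/
noncomputable def b2Lp {K : ℕ} (h : ℝ → ℝ) (x : Dat K) : ℝ := Real.exp (-∑ i, h (x i))

theorem b2l_eqns_cite : True := by
  have := @b2Tr.eq_1
  have := @b2Q1.eq_1
  have := @b2E1.eq_1
  have := @b2Lp.eq_1
  trivial

theorem b2l_cSK (K : ℕ) (x : Conf) (z : ℂ) : cSK K x z = b2Tr (cPos K x) z := rfl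

/-- `Complex.im_sum` + `k9_im_inv`. -/
theorem b2l_Tr_im {K : ℕ} (x : Dat K) (z : ℂ) : (b2Tr x z).im = ∑ i, k9P z.im (x i - z.re) := by
  unfold b2Tr
  rw [Complex.im_sum]
  exact Finset.sum_congr rfl fun i _ => k9_im_inv _ _

/-- A2.  Sum `hcl (x i)` over `i`; `∑_a c_a Im b2Tr x z_a = ∑_i ∑_a c_a Im 1/(x_i - z_a)` (`Finset.sum_comm`, `Complex.im_sum`); `Im b2Tr x (s+i) = ∑_i k9P 1 (x_i - s)` (`b2l_Tr_im`). -/
theorem b2l_fin_close {K : ℕ} (x : Dat K) (h : ℝ → ℝ) {b : ℕ} (c : Fin b → ℝ) (z : Fin b → ℂ) (ε s : ℝ)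
    (hcl : ∀ t : ℝ, |h t - ∑ a, c a * ((((t : ℝ) : ℂ) - z a)⁻¹).im| ≤ ε * k9P 1 (t - s)) :
    |∑ i, h (x i) - ∑ a, c a * (b2Tr x (z a)).im| ≤ ε * (b2Tr x ((s : ℂ) + Complex.I)).im := by
  have e1 : ∑ a, c a * (b2Tr x (z a)).im = ∑ i, ∑ a, c a * ((((x i : ℝ) : ℂ) - z a)⁻¹).im := by
    rw [Finset.sum_comm]
    refine Finset.sum_congr rfl fun a _ => ?_
    unfold b2Tr
    rw [Complex.im_sum, Finset.mul_sum]
  have e2 : (b2Tr x ((s : ℂ) + Complex.I)).im = ∑ i, k9P 1 (x i - s) := by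
    rw [b2l_Tr_im]
    simp
  rw [e1, e2, ← Finset.sum_sub_distrib, Finset.mul_sum]
  exact (Finset.abs_sum_le_sum_abs _ _).trans (Finset.sum_le_sum fun i _ => hcl (x i))

/-- A4a.  `b2Eig A i = eigD A (2K - i)`: reflect (`Fin.revPerm`), then as in `eig_sum_D`: `eig_D_eq` + `Equiv.sum_comp (Fintype.equivOfCardEq ..)` + `simp [Matrix.IsHermitian.eigenvalues]`. -/
theorem b2l_sum_eig {K : ℕ} {A : Matrix (Win K) (Win K) ℝ} (hA : A.IsHermitian) {M : Type} [AddCommMonoid M] (F : ℝ → M) :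
    ∑ i, F (b2Eig A i) = ∑ i, F (hA.eigenvalues i) := by
  have hcard : Fintype.card (Win K) = 2 * K + 1 := Fintype.card_fin _
  have e1 : ∑ i, F (hA.eigenvalues i) = ∑ k : Fin (Fintype.card (Win K)), F (eigD A k) := by
    rw [← Equiv.sum_comp (Fintype.equivOfCardEq (Fintype.card_fin (Fintype.card (Win K))) : Fin (Fintype.card (Win K)) ≃ Win K)]
    refine Finset.sum_congr rfl fun k _ => ?_
    rw [eig_D_eq hA k.2]
    simp [Matrix.IsHermitian.eigenvalues]
  rw [e1, Fin.sum_univ_eq_sum_range (fun k => F (eigD A k)), hcard, ← Fin.sum_univ_eq_sum_range (fun k => F (eigD A k)),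
    ← Equiv.sum_comp (Fin.revPerm : Equiv.Perm (Fin (2 * K + 1)))]
  refine Finset.sum_congr rfl fun i _ => ?_
  unfold b2Eig
  congr 2
  simp only [Fin.revPerm_apply, Fin.val_rev]
  omega

/-- A4b.  `rs_rTr`, `rs_trace hA hz`, `b2l_sum_eig hA fun t => ((t:ℂ) - z)⁻¹`. -/
theorem b2l_rTr {K : ℕ} {A : Matrix (Win K) (Win K) ℝ} (hA : A.IsHermitian) {z : ℂ} (hz : z.im ≠ 0) :
    rTr A z = b2Tr (b2Eig A) z := by
  rw [rs_rTr, rs_trace hA hz]
  unfold b2Tr
  exact (b2l_sum_eig hA fun t => (((t : ℝ) : ℂ) - z)⁻¹).symm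

/-- diagonal + multiple of `goeOf N` (`goe_of_isHermitian`). -/
theorem b2l_cut_herm (K : ℕ) (Δ : ℝ) (x : Dat K) (N : Matrix (Win K) (Win K) ℝ) :
    (Matrix.diagonal x + Real.sqrt Δ • goeOf N).IsHermitian := by
  refine Matrix.IsHermitian.add ?_ ?_
  · exact Matrix.isHermitian_diagonal_of_self_adjoint _ (by ext i; simp)
  · have := goe_of_isHermitian N
    unfold Matrix.IsHermitian at this ⊢
    rw [Matrix.conjTranspose_smul, this]
    simp

theorem b2l_rTr_cut (K : ℕ) (Δ : ℝ) (x : Conf) (N : Matrix (Win K) (Win K) ℝ) {z : ℂ} (hz : z.im ≠ 0) :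
    rTr (cutM K Δ x N) z = b2Tr (b2Step Δ (cPos K x) N) z :=
  b2l_rTr (b2l_cut_herm K Δ (cPos K x) N) hz

/-! ## 2. Continuity and measurability -/

/-- A7a.  `eig_D_cont` for the family `p ↦ diagonal p.1 + √Δ • goeOf p.2` (entries continuous, Hermitian by `b2l_cut_herm`). -/
theorem b2l_step_cont {K : ℕ} (Δ : ℝ) (i : Win K) :
    Continuous fun p : Dat K × Matrix (Win K) (Win K) ℝ => b2Step Δ p.1 p.2 i := by
  unfold b2Step b2Eig
  refine eig_D_cont (f := fun p : Dat K × Matrix (Win K) (Win K) ℝ => Matrix.diagonal p.1 + Real.sqrt Δ • goeOf p.2) (fun a b => ?_)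
    (fun p => b2l_cut_herm K Δ p.1 p.2) _
  simp only [Matrix.add_apply, Matrix.smul_apply, goeOf, Matrix.transpose_apply, smul_eq_mul, Matrix.diagonal_apply]
  have h1 : Continuous fun p : Dat K × Matrix (Win K) (Win K) ℝ => p.2 a b :=
    (continuous_apply b).comp ((continuous_apply a).comp continuous_snd)
  have h2 : Continuous fun p : Dat K × Matrix (Win K) (Win K) ℝ => p.2 b a :=
    (continuous_apply a).comp ((continuous_apply b).comp continuous_snd)
  have h3 : Continuous fun p : Dat K × Matrix (Win K) (Win K) ℝ => p.1 a := (continuous_apply a).comp continuous_fst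
  by_cases hab : a = b
  · simp only [hab, if_true]
    subst hab
    exact h3.add (continuous_const.mul (continuous_const.mul (h1.add h2)))
  · simp only [hab, if_false]
    exact continuous_const.add (continuous_const.mul (continuous_const.mul (h1.add h2)))

/-- `measurable_pi_lambda` + `(b2l_step_cont Δ i).measurable` (Borel structure of the product: `matBorelSp`). -/
theorem b2l_step_meas {K : ℕ} (Δ : ℝ) : Measurable fun p : Dat K × Matrix (Win K) (Win K) ℝ => b2Step Δ p.1 p.2 :=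
  measurable_pi_lambda _ fun i => (b2l_step_cont Δ i).measurable

seal b2Step in
theorem b2l_step_meas_comp {Y : Type} [MeasurableSpace Y] {K : ℕ} (Δ : ℝ) {u : Y → Dat K} {v : Y → Matrix (Win K) (Win K) ℝ}
    (hu : Measurable u) (hv : Measurable v) : Measurable fun y => b2Step Δ (u y) (v y) :=
  (b2l_step_meas Δ).comp (hu.prodMk hv)

/-- coordinates. -/
theorem b2l_cPos_meas (K : ℕ) : Measurable (cPos K) :=
  measurable_pi_lambda _ fun i => measurable_pi_apply _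

theorem b2l_Tr_meas {K : ℕ} (z : ℂ) : Measurable fun x : Dat K => b2Tr x z := by
  unfold b2Tr
  refine Finset.measurable_sum _ fun i _ => ?_
  exact ((Complex.measurable_ofReal.comp (measurable_pi_apply _)).sub_const z).inv

/-- bounded measurable functions -/
def B2Bm {X : Type} [MeasurableSpace X] (F : X → ℝ) : Prop := Measurable F ∧ ∃ B : ℝ, ∀ p, |F p| ≤ B

theorem b2l_bm_eqns_cite : True := by
  have := @B2Bm.eq_1
  trivial

/-- bounded measurable functions are integrable for probability measures -/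
theorem b2l_bm_int {X : Type} [MeasurableSpace X] {F : X → ℝ} (hF : B2Bm F) (ν : Measure X) [IsFiniteMeasure ν] : Integrable F ν := by
  obtain ⟨mF, B, hB⟩ := hF
  exact Integrable.of_bound mF.aestronglyMeasurable B (Eventually.of_forall fun p => by rw [Real.norm_eq_abs]; exact hB p)

theorem b2l_bm_comp {X Y : Type} [MeasurableSpace X] [MeasurableSpace Y] {F : X → ℝ} (hF : B2Bm F) {g : Y → X} (hg : Measurable g) :
    B2Bm fun y => F (g y) :=
  ⟨hF.1.comp hg, hF.2.imp fun _ hB y => hB _⟩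

/-- partial integration of a bounded measurable function against a probability measure -/
theorem b2l_bm_integral {X Y : Type} [MeasurableSpace X] [MeasurableSpace Y] {F : X × Y → ℝ} (hF : B2Bm F) (ν : Measure Y) [IsProbabilityMeasure ν] :
    B2Bm fun x => ∫ y, F (x, y) ∂ν := by
  obtain ⟨mF, B, hB⟩ := hF
  refine ⟨(mF.stronglyMeasurable.integral_prod_right').measurable, B, fun x => ?_⟩
  have := norm_integral_le_of_norm_le_const (μ := ν) (f := fun y => F (x, y)) (C := B) (Eventually.of_forall fun y => by rw [Real.norm_eq_abs]; exact hB _)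
  simpa using this

/-- comparison of iterated integrals of bounded measurable functions -/
theorem b2l_iint_le {X Y : Type} [MeasurableSpace X] [MeasurableSpace Y] (μ : Measure X) (ν : Measure Y) [IsProbabilityMeasure μ] [IsProbabilityMeasure ν]
    {F G k : X × Y → ℝ} (hF : B2Bm F) (hG : B2Bm G) (hk : B2Bm k) (h : ∀ q, |F q - G q| ≤ k q) :
    |(∫ x, ∫ y, F (x, y) ∂ν ∂μ) - ∫ x, ∫ y, G (x, y) ∂ν ∂μ| ≤ ∫ x, ∫ y, k (x, y) ∂ν ∂μ := by
  have iF := b2l_bm_int (b2l_bm_integral hF ν) μ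
  have iG := b2l_bm_int (b2l_bm_integral hG ν) μ
  have ik := b2l_bm_int (b2l_bm_integral hk ν) μ
  have jF : ∀ x, Integrable (fun y => F (x, y)) ν := fun x => b2l_bm_int (b2l_bm_comp hF (measurable_const.prodMk measurable_id)) ν
  have jG : ∀ x, Integrable (fun y => G (x, y)) ν := fun x => b2l_bm_int (b2l_bm_comp hG (measurable_const.prodMk measurable_id)) ν
  have jk : ∀ x, Integrable (fun y => k (x, y)) ν := fun x => b2l_bm_int (b2l_bm_comp hk (measurable_const.prodMk measurable_id)) ν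
  rw [← integral_sub iF iG]
  refine (abs_integral_le_integral_abs).trans (integral_mono (iF.sub iG).abs ik fun x => ?_)
  simp only
  rw [← integral_sub (jF x) (jG x)]
  exact (abs_integral_le_integral_abs).trans (integral_mono ((jF x).sub (jG x)).abs (jk x) fun y => h _)

/-- `0 ≤ b2Lp ≤ 1`: `Real.exp_pos`, `Real.exp_le_one_iff`, `Finset.sum_nonneg`. -/
theorem b2l_Lp_mem {K : ℕ} {h : ℝ → ℝ} (hn : ∀ t, 0 ≤ h t) (x : Dat K) : 0 ≤ b2Lp h x ∧ b2Lp h x ≤ 1 := by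
  unfold b2Lp
  refine ⟨(Real.exp_pos _).le, Real.exp_le_one_iff.2 ?_⟩
  have := Finset.sum_nonneg fun (i : Win K) (_ : i ∈ Finset.univ) => hn (x i)
  linarith

/-- `fun_prop` after unfolding. -/
theorem b2l_Lp_cont {K : ℕ} {h : ℝ → ℝ} (hc : Continuous h) : Continuous fun p : ℝ × Dat K => b2Lp (fun u => h (u - p.1)) p.2 := by
  unfold b2Lp
  fun_prop

theorem b2l_Lp_bm {K : ℕ} {h : ℝ → ℝ} (hc : Continuous h) (hn : ∀ t, 0 ≤ h t) : B2Bm (b2Lp h : Dat K → ℝ) := by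
  refine ⟨?_, 1, fun x => ?_⟩
  · unfold b2Lp
    exact (by fun_prop : Continuous fun x : Dat K => Real.exp (-∑ i, h (x i))).measurable
  · have := b2l_Lp_mem (K := K) hn x
    rw [abs_of_nonneg this.1]; exact this.2

/-- joint bounded measurability of `(t, x) ↦ b2Lp (h(· - t)) x` -/
theorem b2l_Lp_bm2 {K : ℕ} {h : ℝ → ℝ} (hc : Continuous h) (hn : ∀ t, 0 ≤ h t) :
    B2Bm fun p : ℝ × Dat K => b2Lp (fun u => h (u - p.1)) p.2 := by
  refine ⟨(b2l_Lp_cont hc).measurable, 1, fun p => ?_⟩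
  have := b2l_Lp_mem (K := K) (h := fun u => h (u - p.1)) (fun u => hn _) p.2
  rw [abs_of_nonneg this.1]; exact this.2

theorem b2l_obs_eq {K : ℕ} (h : ℝ → ℝ) (T : ℝ) (x : Dat K) :
    b2Obs h T x = (2 * T)⁻¹ * ∫ t in (-T)..T, b2Lp (fun u => h (u - t)) x := rfl

/-- A7b.  Measurable: `(t, x) ↦ b2Lp (h(· - t)) x` is continuous (`b2l_Lp_cont`), so `x ↦ ∫ t in -T..T` is continuous (`intervalIntegral.continuous_parametric_intervalIntegral_of_continuous`) ; bound `1`: `0 ≤ b2Lp ≤ 1`. -/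
theorem b2l_obs_bm {K : ℕ} {h : ℝ → ℝ} (hc : Continuous h) (hn : ∀ t, 0 ≤ h t) {T : ℝ} (hT : 0 < T) :
    B2Bm (b2Obs h T : Dat K → ℝ) := by
  constructor
  · have h1 : Continuous fun x : Dat K => ∫ t in (-T)..T, b2Lp (fun u => h (u - t)) x := by
      refine intervalIntegral.continuous_parametric_intervalIntegral_of_continuous' (f := fun (x : Dat K) (t : ℝ) => b2Lp (fun u => h (u - t)) x) ?_ _ _
      exact (b2l_Lp_cont hc).comp continuous_swap
    exact (continuous_const.mul h1).measurable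
  · refine ⟨1, fun x => ?_⟩
    rw [b2l_obs_eq, abs_mul, abs_of_pos (by positivity : 0 < (2 * T)⁻¹)]
    have h2 : |∫ t in (-T)..T, b2Lp (fun u => h (u - t)) x| ≤ 1 * |T - -T| := by
      rw [← Real.norm_eq_abs]
      refine intervalIntegral.norm_integral_le_of_norm_le_const fun t _ => ?_
      have := b2l_Lp_mem (K := K) (h := fun u => h (u - t)) (fun u => hn _) x
      rw [Real.norm_eq_abs, abs_of_nonneg this.1]
      exact this.2
    have h3 : |T - -T| = T + T := by rw [sub_neg_eq_add, abs_of_pos (by positivity)]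
    rw [one_mul, h3] at h2
    calc (2 * T)⁻¹ * |∫ t in (-T)..T, b2Lp (fun u => h (u - t)) x| ≤ (2 * T)⁻¹ * (T + T) := by gcongr
      _ = 1 := by field_simp; ring

/-! ## 3. The kernels on bounded measurable functions;  `b2_E_abs_sub` -/

/-- bounded + measurable (`b2l_step_meas`) on a probability space: `Integrable.of_bound`. -/
theorem b2l_Q_int {K : ℕ} (Δ : ℝ) {F : Dat K × Dat K → ℝ} (hF : B2Bm F) (p : Dat K × Dat K) :
    Integrable (fun N => F (b2Step Δ p.1 N, b2Step Δ p.2 N)) (gArr (Win K) (Win K)) := by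
  refine b2l_bm_int (b2l_bm_comp hF ?_) _
  exact (b2l_step_meas_comp Δ measurable_const measurable_id).prodMk (b2l_step_meas_comp Δ measurable_const measurable_id)

/-- measurability: `StronglyMeasurable.integral_prod_right` for `(p, N) ↦ F (b2Step Δ p.1 N, b2Step Δ p.2 N)`; bound: `norm_integral_le_of_norm_le_const`. -/
theorem b2l_Q_bm {K : ℕ} (Δ : ℝ) {F : Dat K × Dat K → ℝ} (hF : B2Bm F) : B2Bm (b2Q Δ F) := by
  unfold b2Q
  refine b2l_bm_integral (F := fun q : (Dat K × Dat K) × Matrix (Win K) (Win K) ℝ => F (b2Step Δ q.1.1 q.2, b2Step Δ q.1.2 q.2)) (b2l_bm_comp hF ?_) _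
  exact (b2l_step_meas_comp Δ (measurable_fst.comp measurable_fst) measurable_snd).prodMk
    (b2l_step_meas_comp Δ (measurable_snd.comp measurable_fst) measurable_snd)

theorem b2l_Q_sub {K : ℕ} (Δ : ℝ) {F G : Dat K × Dat K → ℝ} (hF : B2Bm F) (hG : B2Bm G) (p : Dat K × Dat K) :
    b2Q Δ (fun q => F q - G q) p = b2Q Δ F p - b2Q Δ G p :=
  integral_sub (b2l_Q_int Δ hF p) (b2l_Q_int Δ hG p)

theorem b2l_Q_mono {K : ℕ} (Δ : ℝ) {F G : Dat K × Dat K → ℝ} (hF : B2Bm F) (hG : B2Bm G) (h : ∀ p, F p ≤ G p) (p : Dat K × Dat K) :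
    b2Q Δ F p ≤ b2Q Δ G p :=
  integral_mono (b2l_Q_int Δ hF p) (b2l_Q_int Δ hG p) fun _ => h _

theorem b2l_Q_abs {K : ℕ} (Δ : ℝ) (F : Dat K × Dat K → ℝ) (p : Dat K × Dat K) :
    |b2Q Δ F p| ≤ b2Q Δ (fun q => |F q|) p :=
  abs_integral_le_integral_abs

theorem b2l_bm_sub {X : Type} [MeasurableSpace X] {F G : X → ℝ} (hF : B2Bm F) (hG : B2Bm G) : B2Bm fun q => F q - G q := by
  obtain ⟨mF, BF, hBF⟩ := hF
  obtain ⟨mG, BG, hBG⟩ := hG
  exact ⟨mF.sub mG, BF + BG, fun p => (abs_sub _ _).trans (add_le_add (hBF p) (hBG p))⟩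

theorem b2l_bm_abs {X : Type} [MeasurableSpace X] {F : X → ℝ} (hF : B2Bm F) : B2Bm fun q => |F q| := by
  obtain ⟨mF, BF, hBF⟩ := hF
  exact ⟨mF.abs, BF, fun p => by rw [abs_abs]; exact hBF p⟩

theorem b2l_iter_bm {K : ℕ} (Δ : ℝ) (n : ℕ) {F : Dat K × Dat K → ℝ} (hF : B2Bm F) : B2Bm ((b2Q Δ)^[n] F) := by
  induction n with
  | zero => exact hF
  | succ n ih => rw [Function.iterate_succ_apply']; exact b2l_Q_bm Δ ih

theorem b2l_iter_abs_sub {K : ℕ} (Δ : ℝ) (n : ℕ) {F G : Dat K × Dat K → ℝ} (hF : B2Bm F) (hG : B2Bm G) (p : Dat K × Dat K) :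
    |(b2Q Δ)^[n] F p - (b2Q Δ)^[n] G p| ≤ (b2Q Δ)^[n] (fun q => |F q - G q|) p := by
  induction n generalizing p with
  | zero => exact le_rfl
  | succ n ih =>
    rw [Function.iterate_succ_apply', Function.iterate_succ_apply', Function.iterate_succ_apply',
      ← b2l_Q_sub Δ (b2l_iter_bm Δ n hF) (b2l_iter_bm Δ n hG)]
    refine (b2l_Q_abs Δ _ p).trans ?_
    exact b2l_Q_mono Δ (b2l_bm_abs (b2l_bm_sub (b2l_iter_bm Δ n hF) (b2l_iter_bm Δ n hG)))
      (b2l_iter_bm Δ n (b2l_bm_abs (b2l_bm_sub hF hG))) ih p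

/-- double integrals of bounded measurable functions of the two cut configurations: `Integrable.of_bound`, `StronglyMeasurable.integral_prod_right`, `b2l_cPos_meas`. -/
theorem b2l_E_int (μ₁ μ₂ : Measure Conf) [IsProbabilityMeasure μ₁] [IsProbabilityMeasure μ₂] (K : ℕ) {F : Dat K × Dat K → ℝ} (hF : B2Bm F) :
    (∀ x, Integrable (fun y => F (cPos K x, cPos K y)) μ₂) ∧ Integrable (fun x => ∫ y, F (cPos K x, cPos K y) ∂μ₂) μ₁ := by
  constructor
  · intro x
    exact b2l_bm_int (b2l_bm_comp hF (measurable_const.prodMk (b2l_cPos_meas K))) _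
  · refine b2l_bm_int (b2l_bm_integral (F := fun q : Conf × Conf => F (cPos K q.1, cPos K q.2)) (b2l_bm_comp hF ?_) μ₂) _
    exact ((b2l_cPos_meas K).comp measurable_fst).prodMk ((b2l_cPos_meas K).comp measurable_snd)

/-- **NODE ABS** -/
theorem b2l_E_abs_sub (μ₁ μ₂ : Measure Conf) [IsProbabilityMeasure μ₁] [IsProbabilityMeasure μ₂]
    (h : ℝ → ℝ) (hc : Continuous h) (hn : ∀ t, 0 ≤ h t) (K : ℕ) (Δ T : ℝ) (hT : 0 < T) (n : ℕ) :
    |b2E μ₁ μ₂ K Δ n (fun p => b2Obs h T p.1) - b2E μ₁ μ₂ K Δ n (fun p => b2Obs h T p.2)|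
      ≤ b2E μ₁ μ₂ K Δ n (fun p => |b2Obs h T p.1 - b2Obs h T p.2|) := by
  have hO := b2l_obs_bm (K := K) hc hn hT
  have h1 : B2Bm fun p : Dat K × Dat K => b2Obs h T p.1 := ⟨hO.1.comp measurable_fst, hO.2.imp fun B hB p => hB _⟩
  have h2 : B2Bm fun p : Dat K × Dat K => b2Obs h T p.2 := ⟨hO.1.comp measurable_snd, hO.2.imp fun B hB p => hB _⟩
  have i1 := b2l_E_int μ₁ μ₂ K (b2l_iter_bm Δ n h1)
  have i2 := b2l_E_int μ₁ μ₂ K (b2l_iter_bm Δ n h2)
  have i3 := b2l_E_int μ₁ μ₂ K (b2l_iter_bm Δ n (b2l_bm_abs (b2l_bm_sub h1 h2)))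
  unfold b2E
  rw [← integral_sub i1.2 i2.2]
  refine (abs_integral_le_integral_abs).trans (integral_mono (i1.2.sub i2.2).abs i3.2 fun x => ?_)
  simp only
  rw [← integral_sub (i1.1 x) (i2.1 x)]
  refine (abs_integral_le_integral_abs).trans (integral_mono ((i1.1 x).sub (i2.1 x)).abs (i3.1 x) fun y => ?_)
  exact b2l_iter_abs_sub Δ n h1 h2 _


/-! ## 4. The chain law (A6) -/

/-- the spectrum is invariant under orthogonal conjugation.  `eigD` depends on `charpoly` only; `O` is a unit with inverse `Oᵀ` (`Matrix.mul_eq_one_comm`): `Matrix.charpoly_units_conj`-type lemma or `det (X - O M Oᵀ) = det (O (X - M) Oᵀ)`. -/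
theorem b2l_eig_conj {K : ℕ} (O M : Matrix (Win K) (Win K) ℝ) (hO : O * Oᵀ = 1) : b2Eig (O * M * Oᵀ) = b2Eig M := by
  exact b2c_eig_conj O M hO

/-- orthogonal diagonalisation with the ASCENDING eigenvalues on the diagonal.  `eig_spec hA : A = U diag(eigenvalues) Uᵀ`; `b2Eig A i = hA.eigenvalues (σ i)` for the bijection `σ` of `b2l_sum_eig`; `O = U * P_σ` (`Matrix.submatrix`/permutation matrix): `O i j = U i (σ j)`. -/
theorem b2l_diag_ex {K : ℕ} {A : Matrix (Win K) (Win K) ℝ} (hA : A.IsHermitian) :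
    ∃ O : Matrix (Win K) (Win K) ℝ, O * Oᵀ = 1 ∧ A = O * Matrix.diagonal (b2Eig A) * Oᵀ := by
  exact b2c_diag hA

/-- measurability of spectral functions along the symmetrised matrices: continuous by `eig_D_cont` (`goe_sym_isHermitian`). -/
theorem b2l_eig_sym_meas {K : ℕ} (D : Matrix (Win K) (Win K) ℝ) (hD : D.IsHermitian) (c : ℝ) :
    Measurable fun W : Matrix (Win K) (Win K) ℝ => b2Eig (D + c • goeSym W) := by
  refine measurable_pi_lambda _ fun i => Continuous.measurable ?_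
  unfold b2Eig
  refine eig_D_cont (f := fun W : Matrix (Win K) (Win K) ℝ => D + c • goeSym W) (fun a b => ?_) (fun W => ?_) _
  · simp only [goeSym, Matrix.smul_apply, Matrix.add_apply, Matrix.transpose_apply]
    exact continuous_const.add ((((continuous_apply_apply a b).add (continuous_apply_apply b a)).const_smul (2 : ℝ)⁻¹).const_smul c)
  · refine hD.add ?_
    have := goe_sym_isHermitian W
    unfold Matrix.IsHermitian at this ⊢
    rw [Matrix.conjTranspose_smul, this]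
    simp

/-- rotation invariance: the noise may be added in the eigenbasis.  `A = O D Oᵀ` (`b2l_diag_ex`); `b2Eig (A + c W) = b2Eig (O (D + c OᵀWO) Oᵀ) = b2Eig (D + c OᵀWO)` (`b2l_eig_conj`); pass to `goeRaw = gArr.map goeOf` (`integral_map`), replace `W` by `goeSym W`
(`goe_sym_of_symm`, needed for measurability on ALL matrices: `b2l_eig_sym_meas`), `goe_raw_integral_conj Oᵀ`. -/
theorem b2l_rot {K : ℕ} {A : Matrix (Win K) (Win K) ℝ} (hA : A.IsHermitian) (c : ℝ) {F : Dat K → ℝ} (hF : Measurable F) :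
    ∫ N, F (b2Eig (Matrix.diagonal (b2Eig A) + c • goeOf N)) ∂(gArr (Win K) (Win K))
      = ∫ N, F (b2Eig (A + c • goeOf N)) ∂(gArr (Win K) (Win K)) := by
  obtain ⟨O, hO, hA'⟩ := b2c_diag hA
  have hFs : Measurable fun M : Matrix (Win K) (Win K) ℝ => (fun M' => F (b2Eig M')) (goeSym M) := hF.comp b2c_eig_sym_continuous.measurable
  have := goe_int_diag O hO (b2Eig A) c (fun M' => F (b2Eig M')) hFs (fun U M hU => by simp only [b2c_eig_conj U M hU])
  rw [← hA'] at this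
  exact this

/-- additivity of independent noises.  `integral_prod` (bounded measurable), `goeRaw`, `goe_raw_integral_add (√a) (√b)` with `G W = F (b2Eig (diagonal x + goeSym W))`, `√((√a)² + (√b)²) = √(a+b)`. -/
theorem b2l_add {K : ℕ} (x : Dat K) (a b : ℝ) (ha : 0 ≤ a) (hb : 0 ≤ b) {F : Dat K → ℝ} (hF : B2Bm F) :
    ∫ N, ∫ N', F (b2Eig (Matrix.diagonal x + Real.sqrt a • goeOf N + Real.sqrt b • goeOf N')) ∂(gArr (Win K) (Win K)) ∂(gArr (Win K) (Win K))
      = ∫ N, F (b2Eig (Matrix.diagonal x + Real.sqrt (a + b) • goeOf N)) ∂(gArr (Win K) (Win K)) := by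
  obtain ⟨mF, B, hB⟩ := hF
  set G : Matrix (Win K) (Win K) ℝ → ℝ := fun W => F (b2Eig (Matrix.diagonal x + W)) with hG
  have hGs : Measurable fun M : Matrix (Win K) (Win K) ℝ => G (goeSym M) := by
    have := b2l_eig_sym_meas (Matrix.diagonal x) (rs_herm (Matrix.isSymm_diagonal x)) 1
    simp only [one_smul] at this
    exact mF.comp this
  have hj : Measurable fun p : Matrix (Win K) (Win K) ℝ × Matrix (Win K) (Win K) ℝ => G (goeSym (Real.sqrt a • goeOf p.1 + Real.sqrt b • goeOf p.2)) :=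
    hGs.comp (goe_add_measurable ((goe_smul_measurable _).comp (goe_of_measurable.comp measurable_fst)) ((goe_smul_measurable _).comp (goe_of_measurable.comp measurable_snd)))
  have hi : Integrable (fun p : Matrix (Win K) (Win K) ℝ × Matrix (Win K) (Win K) ℝ => G (goeSym (Real.sqrt a • goeOf p.1 + Real.sqrt b • goeOf p.2)))
      ((gArr (Win K) (Win K)).prod (gArr (Win K) (Win K))) :=
    Integrable.of_bound hj.aestronglyMeasurable B (Eventually.of_forall fun p => by simpa using hB _)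
  have hfub := integral_prod _ hi
  simp only [goe_sym_of_symm (((goe_of_isSymm _).smul _).add ((goe_of_isSymm _).smul _))] at hfub
  have h2 := goe_of_integral_add (Real.sqrt a) (Real.sqrt b) G hGs
  rw [hfub, Real.sq_sqrt ha, Real.sq_sqrt hb] at h2
  simp only [hG, ← add_assoc] at h2
  exact h2

theorem b2l_Q1_comp {K : ℕ} (a b : ℝ) (ha : 0 ≤ a) (hb : 0 ≤ b) {F : Dat K → ℝ} (hF : B2Bm F) (x : Dat K) :
    b2Q1 a (b2Q1 b F) x = b2Q1 (a + b) F x := by
  unfold b2Q1 b2Step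
  rw [← b2l_add x a b ha hb hF]
  refine integral_congr_ae (Eventually.of_forall fun N => ?_)
  exact b2l_rot (b2l_cut_herm K a x N) (Real.sqrt b) hF.1

theorem b2l_Q1_iter {K : ℕ} (Δ : ℝ) (hΔ : 0 ≤ Δ) (n : ℕ) {F : Dat K → ℝ} (hF : B2Bm F) (x : Dat K) :
    (b2Q1 Δ)^[n + 1] F x = b2Q1 (((n : ℝ) + 1) * Δ) F x := by
  induction n generalizing x with
  | zero => simp
  | succ n ih =>
    rw [Function.iterate_succ_apply']
    have : (b2Q1 Δ)^[n + 1] F = b2Q1 (((n : ℝ) + 1) * Δ) F := funext ih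
    rw [this, b2l_Q1_comp Δ _ hΔ (by positivity) hF]
    congr 1
    push_cast; ring

theorem b2l_Q_iter_fst {K : ℕ} (Δ : ℝ) (n : ℕ) (F : Dat K → ℝ) :
    (b2Q Δ)^[n] (fun p => F p.1) = fun p => (b2Q1 Δ)^[n] F p.1 := by
  induction n generalizing F with
  | zero => rfl
  | succ n ih =>
    rw [Function.iterate_succ_apply]
    have : b2Q Δ (fun p : Dat K × Dat K => F p.1) = fun p => b2Q1 Δ F p.1 := rfl
    rw [this, ih]
    rfl

theorem b2l_Q_iter_snd {K : ℕ} (Δ : ℝ) (n : ℕ) (F : Dat K → ℝ) :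
    (b2Q Δ)^[n] (fun p => F p.2) = fun p => (b2Q1 Δ)^[n] F p.2 := by
  induction n generalizing F with
  | zero => rfl
  | succ n ih =>
    rw [Function.iterate_succ_apply]
    have : b2Q Δ (fun p : Dat K × Dat K => F p.2) = fun p => b2Q1 Δ F p.2 := rfl
    rw [this, ih]
    rfl

theorem b2l_E_fst (μ₁ μ₂ : Measure Conf) [IsProbabilityMeasure μ₂] (K : ℕ) (Δ : ℝ) (n : ℕ) (F : Dat K → ℝ) :
    b2E μ₁ μ₂ K Δ n (fun p => F p.1) = b2E1 μ₁ K Δ n F := by
  unfold b2E b2E1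
  rw [b2l_Q_iter_fst]
  simp

theorem b2l_E_snd (μ₁ μ₂ : Measure Conf) [IsProbabilityMeasure μ₁] (K : ℕ) (Δ : ℝ) (n : ℕ) (F : Dat K → ℝ) :
    b2E μ₁ μ₂ K Δ n (fun p => F p.2) = b2E1 μ₂ K Δ n F := by
  unfold b2E b2E1
  rw [b2l_Q_iter_snd]
  simp

theorem b2l_Phi_lip {b : ℕ} (c : Fin b → ℝ) : ∃ Lc : NNReal, LipschitzWith Lc (k9Phi c : (Fin b → ℂ) → ℝ) := by
  refine ⟨Real.toNNReal (∑ a, |c a|), LipschitzWith.of_dist_le_mul fun w w' => ?_⟩
  rw [Real.dist_eq, k9Phi_apply, k9Phi_apply, Real.coe_toNNReal _ (Finset.sum_nonneg fun _ _ => abs_nonneg _)]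
  have h1 := k9_exp_lip (le_max_left 0 (∑ a, c a * (w a).im)) (le_max_left 0 (∑ a, c a * (w' a).im))
  have h2 : |max 0 (∑ a, c a * (w a).im) - max 0 (∑ a, c a * (w' a).im)| ≤ |∑ a, c a * (w a).im - ∑ a, c a * (w' a).im| := by
    rw [max_comm 0, max_comm 0]
    exact abs_max_sub_max_le_abs _ _ _
  have h3 : |∑ a, c a * (w a).im - ∑ a, c a * (w' a).im| ≤ (∑ a, |c a|) * dist w w' := by
    rw [← Finset.sum_sub_distrib, Finset.sum_mul]
    refine (Finset.abs_sum_le_sum_abs _ _).trans (Finset.sum_le_sum fun a _ => ?_)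
    rw [← mul_sub, abs_mul, ← Complex.sub_im]
    refine mul_le_mul_of_nonneg_left ?_ (abs_nonneg _)
    refine (Complex.abs_im_le_norm _).trans ?_
    rw [← dist_eq_norm]
    exact dist_le_pi_dist w w' a
  exact (h1.trans (min_le_right _ _)).trans (h2.trans h3)

/-- the second test function of A5: `w ↦ min 1 (ε max 0 (Im w))` -/
noncomputable def b2lPsi (ε : ℝ) (w : Fin 1 → ℂ) : ℝ := min 1 (ε * max 0 (w 0).im)
theorem b2l_psi_eqns_cite : True := by
  have := @b2lPsi.eq_1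
  trivial

theorem b2l_Psi_mem {ε : ℝ} (hε : 0 ≤ ε) (w : Fin 1 → ℂ) : 0 ≤ b2lPsi ε w ∧ b2lPsi ε w ≤ 1 :=
  ⟨le_min zero_le_one (mul_nonneg hε (le_max_left _ _)), min_le_left _ _⟩

theorem b2l_Psi_cont (ε : ℝ) : Continuous (b2lPsi ε) := by
  unfold b2lPsi
  fun_prop

theorem b2l_Psi_lip {ε : ℝ} (hε : 0 ≤ ε) : ∃ Lc : NNReal, LipschitzWith Lc (b2lPsi ε) := by
  refine ⟨Real.toNNReal ε, LipschitzWith.of_dist_le_mul fun w w' => ?_⟩
  rw [Real.dist_eq, Real.coe_toNNReal _ hε]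
  unfold b2lPsi
  have h1 : |min 1 (ε * max 0 (w 0).im) - min 1 (ε * max 0 (w' 0).im)| ≤ |ε * max 0 (w 0).im - ε * max 0 (w' 0).im| := by
    have := abs_min_sub_min_le_max 1 (ε * max 0 (w 0).im) 1 (ε * max 0 (w' 0).im)
    simpa using this
  have h2 : |max 0 (w 0).im - max 0 (w' 0).im| ≤ |(w 0).im - (w' 0).im| := by
    rw [max_comm 0, max_comm 0]
    exact abs_max_sub_max_le_abs _ _ _
  have h3 : |(w 0).im - (w' 0).im| ≤ dist w w' := by
    rw [← Complex.sub_im]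
    refine (Complex.abs_im_le_norm _).trans ?_
    rw [← dist_eq_norm]
    exact dist_le_pi_dist w w' 0
  refine h1.trans ?_
  rw [← mul_sub, abs_mul, abs_of_nonneg hε]
  exact mul_le_mul_of_nonneg_left (h2.trans h3) hε

/-- `∫ Θ((cSK K x z_a)_a) → ∫ Θ((cS x z_a)_a)` for bounded continuous `Θ` -/
theorem b2l_cS_lim {ρ ξ : ℝ} (hρ : 0 < ρ) (μ : Measure Conf) [IsProbabilityMeasure μ] (hR : LReg ρ ξ μ) {b : ℕ} (z : Fin b → ℂ)
    (Θ : (Fin b → ℂ) → ℝ) (hΘ : Continuous Θ) (B : ℝ) (hB : ∀ w, |Θ w| ≤ B) :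
    Tendsto (fun K : ℕ => ∫ x, Θ (fun a => cSK K x (z a)) ∂μ) atTop (𝓝 (∫ x, Θ (fun a => cS x (z a)) ∂μ)) := by
  refine tendsto_integral_of_dominated_convergence (fun _ => B)
    (fun K => (hΘ.measurable.comp (measurable_pi_lambda _ fun a => k9_meas_cSK K (z a))).aestronglyMeasurable) (integrable_const B)
    (fun K => Eventually.of_forall fun x => by rw [Real.norm_eq_abs]; exact hB _) ?_
  filter_upwards [k9_lreg_tendsto hρ hR] with x hx
  exact (hΘ.tendsto _).comp (tendsto_pi_nhds.2 fun a => hx (z a))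

/-- the pointwise estimate of A5 -/
theorem b2l_pt {K : ℕ} (x : Dat K) (h : ℝ → ℝ) (hn : ∀ t, 0 ≤ h t) {b : ℕ} (c : Fin b → ℝ) (z : Fin b → ℂ) (ε : ℝ)
    (hcl : ∀ t : ℝ, |h t - ∑ a, c a * ((((t : ℝ) : ℂ) - z a)⁻¹).im| ≤ ε * k9P 1 (t - 0)) :
    |b2Lp h x - k9Phi c (fun a => b2Tr x (z a))| ≤ b2lPsi ε (fun _ => b2Tr x Complex.I) := by
  have h1 := b2l_fin_close x h c z ε 0 hcl
  have e0 : (((0 : ℝ) : ℂ) + Complex.I) = Complex.I := by simp
  rw [e0] at h1
  have hA0 : 0 ≤ ∑ i, h (x i) := Finset.sum_nonneg fun i _ => hn _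
  have hI0 : 0 ≤ (b2Tr x Complex.I).im := by
    rw [b2l_Tr_im]
    exact Finset.sum_nonneg fun i _ => by simpa using k9P_nonneg one_pos _
  set A : ℝ := ∑ i, h (x i) with hA
  set B : ℝ := ∑ a, c a * (b2Tr x (z a)).im with hB
  have hAm : |A - max 0 B| ≤ |A - B| := by
    rcases le_total 0 B with hB0 | hB0
    · rw [max_eq_right hB0]
    · rw [max_eq_left hB0, sub_zero, abs_of_nonneg hA0, abs_of_nonneg (by linarith)]
      linarith
  unfold b2Lp b2lPsi
  rw [k9Phi_apply, max_eq_right hI0]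
  exact (k9_exp_lip hA0 (le_max_left _ _)).trans (min_le_min_left _ (hAm.trans h1))

/-- A5 at fixed `ε`: `|L_K - cLap μ h| ≤ e_K + 2 r(ε)` with `e_K → 0` -/
theorem b2l_lap_eps (ρ ξ : ℝ) (hρ : 0 < ρ) (μ : Measure Conf) [IsProbabilityMeasure μ] (hR : LReg ρ ξ μ) (hI : LStat μ)
    (h : ℝ → ℝ) (hc : Continuous h) (hs : HasCompactSupport h) (hn : ∀ t, 0 ≤ h t) (Δ : ℝ) (hΔ : 0 < Δ) (ε : ℝ) (hε : 0 < ε) :
    ∃ e : ℕ → ℝ, Tendsto e atTop (𝓝 0) ∧ ∀ K : ℕ, |(∫ x, b2Q1 Δ (b2Lp h) (cPos K x) ∂μ) - cLap μ h|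
      ≤ e K + 2 * ∫ x, min 1 (ε * ∑' j : ℤ, k9P 1 (x j - 0)) ∂μ := by
  obtain ⟨b, c, z, hz, happ⟩ := k9_approx h hc hs ε hε
  have hcl : ∀ t : ℝ, |h t - ∑ a, c a * ((((t : ℝ) : ℂ) - z a)⁻¹).im| ≤ ε * k9P 1 (t - 0) := by
    intro t
    have h1 := happ t
    unfold k9P
    rw [sub_zero, mul_one_div, le_div_iff₀ (by positivity)]
    calc _ = (1 + t ^ 2) * |h t - ∑ a, c a * ((((t : ℝ) : ℂ) - z a)⁻¹).im| := by ring
      _ ≤ ε := h1
  set zi : Fin 1 → ℂ := fun _ => Complex.I with hzi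
  -- the six quantities
  set A : ℕ → ℝ := fun K => ∫ x, ∫ N, k9Phi c (fun a => b2Tr (b2Step Δ (cPos K x) N) (z a)) ∂(gArr (Win K) (Win K)) ∂μ with hA
  set B : ℕ → ℝ := fun K => ∫ x, k9Phi c (fun a => cSK K x (z a)) ∂μ with hB
  set Bi : ℝ := ∫ x, k9Phi c (fun a => cS x (z a)) ∂μ with hBi
  set R : ℕ → ℝ := fun K => ∫ x, ∫ N, b2lPsi ε (fun _ => b2Tr (b2Step Δ (cPos K x) N) Complex.I) ∂(gArr (Win K) (Win K)) ∂μ with hRd
  set r : ℕ → ℝ := fun K => ∫ x, b2lPsi ε (fun a => cSK K x (zi a)) ∂μ with hr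
  set ri : ℝ := ∫ x, b2lPsi ε (fun a => cS x (zi a)) ∂μ with hri
  have s1 : Tendsto (fun K => A K - B K) atTop (𝓝 0) := by
    have := hI Δ hΔ b z hz (k9Phi c) ⟨1, fun v => by
      rw [k9Phi_apply, abs_of_pos (Real.exp_pos _)]
      exact Real.exp_le_one_iff.2 (by simp)⟩ (b2l_Phi_lip c)
    have e : ∀ (K : ℕ) (x : Conf) (N : Matrix (Win K) (Win K) ℝ), (fun a => rTr (cutM K Δ x N) (z a)) = fun a => b2Tr (b2Step Δ (cPos K x) N) (z a) :=
      fun K x N => funext fun a => b2l_rTr_cut K Δ x N (hz a).ne'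
    simpa only [e] using this
  have s2 : Tendsto (fun K => R K - r K) atTop (𝓝 0) := by
    have := hI Δ hΔ 1 zi (fun a => by simp [hzi]) (b2lPsi ε) ⟨1, fun v => by
      have := b2l_Psi_mem hε.le v
      rw [abs_of_nonneg this.1]; exact this.2⟩ (b2l_Psi_lip hε.le)
    have e : ∀ (K : ℕ) (x : Conf) (N : Matrix (Win K) (Win K) ℝ), (fun a => rTr (cutM K Δ x N) (zi a)) = fun _ => b2Tr (b2Step Δ (cPos K x) N) Complex.I :=
      fun K x N => funext fun a => b2l_rTr_cut K Δ x N (by simp [hzi])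
    simpa only [e] using this
  have s3 : Tendsto B atTop (𝓝 Bi) := b2l_cS_lim hρ μ hR z (k9Phi c) (k9Phi c).continuous 1 fun v => by
    rw [k9Phi_apply, abs_of_pos (Real.exp_pos _)]
    exact Real.exp_le_one_iff.2 (by simp)
  have s4 : Tendsto r atTop (𝓝 ri) := b2l_cS_lim hρ μ hR zi (b2lPsi ε) (b2l_Psi_cont ε) 1 fun v => by
    have := b2l_Psi_mem hε.le v
    rw [abs_of_nonneg this.1]; exact this.2
  have hri' : ri = ∫ x, min 1 (ε * ∑' j : ℤ, k9P 1 (x j - 0)) ∂μ := by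
    refine integral_congr_ae ?_
    filter_upwards [k9_lreg_sum hρ hR, k9_lreg_tendsto hρ hR] with x hx hcv
    have h1 := k9_im_cS hx (z := Complex.I) (by simp) ⟨_, hcv Complex.I⟩
    simp only [Complex.I_im, Complex.I_re] at h1
    unfold b2lPsi
    simp only [hzi]
    rw [h1, max_eq_right (tsum_nonneg fun j => k9P_nonneg one_pos _)]
  have s5 : |cLap μ h - Bi| ≤ ri := by
    rw [hri']
    exact k9_core μ (k9_lreg_sum hρ hR) (k9_lreg_conv hρ hR) h hc hs hn c z hz 0 ε hε.le hcl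
  have s6 : ∀ K, |(∫ x, b2Q1 Δ (b2Lp h) (cPos K x) ∂μ) - A K| ≤ R K := by
    intro K
    have mS : Measurable fun q : Conf × Matrix (Win K) (Win K) ℝ => b2Step Δ (cPos K q.1) q.2 :=
      b2l_step_meas_comp Δ ((b2l_cPos_meas K).comp measurable_fst) measurable_snd
    refine b2l_iint_le μ (gArr (Win K) (Win K))
      (F := fun q : Conf × Matrix (Win K) (Win K) ℝ => b2Lp h (b2Step Δ (cPos K q.1) q.2))
      (G := fun q : Conf × Matrix (Win K) (Win K) ℝ => k9Phi c (fun a => b2Tr (b2Step Δ (cPos K q.1) q.2) (z a)))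
      (k := fun q : Conf × Matrix (Win K) (Win K) ℝ => b2lPsi ε (fun _ => b2Tr (b2Step Δ (cPos K q.1) q.2) Complex.I))
      (b2l_bm_comp (b2l_Lp_bm hc hn) mS) ?_ ?_ fun q => b2l_pt _ h hn c z ε hcl
    · refine ⟨(k9Phi c).continuous.measurable.comp (measurable_pi_lambda _ fun a => (b2l_Tr_meas (z a)).comp mS), 1, fun q => ?_⟩
      show |k9Phi c (fun a => b2Tr (b2Step Δ (cPos K q.1) q.2) (z a))| ≤ 1
      rw [k9Phi_apply, abs_of_pos (Real.exp_pos _)]
      exact Real.exp_le_one_iff.2 (by simp)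
    · refine ⟨(b2l_Psi_cont ε).measurable.comp (measurable_pi_lambda _ fun _ => (b2l_Tr_meas Complex.I).comp mS), 1, fun q => ?_⟩
      have := b2l_Psi_mem hε.le (fun _ => b2Tr (b2Step Δ (cPos K q.1) q.2) Complex.I)
      show |b2lPsi ε (fun _ => b2Tr (b2Step Δ (cPos K q.1) q.2) Complex.I)| ≤ 1
      rw [abs_of_nonneg this.1]; exact this.2
  refine ⟨fun K => (R K - r K) + (r K - ri) + |A K - B K| + |B K - Bi|, ?_, fun K => ?_⟩
  · have t1 : Tendsto (fun K => r K - ri) atTop (𝓝 0) := by simpa using s4.sub_const ri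
    have t2 : Tendsto (fun K => |A K - B K|) atTop (𝓝 0) := by simpa using s1.abs
    have t3 : Tendsto (fun K => |B K - Bi|) atTop (𝓝 0) := by simpa using (s3.sub_const Bi).abs
    simpa using ((s2.add t1).add t2).add t3
  · rw [← hri']
    have h1 := s6 K
    have h2 : |(∫ x, b2Q1 Δ (b2Lp h) (cPos K x) ∂μ) - cLap μ h|
        ≤ |(∫ x, b2Q1 Δ (b2Lp h) (cPos K x) ∂μ) - A K| + |A K - B K| + |B K - Bi| + |Bi - cLap μ h| := by
      have e1 : (∫ x, b2Q1 Δ (b2Lp h) (cPos K x) ∂μ) - cLap μ h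
          = ((∫ x, b2Q1 Δ (b2Lp h) (cPos K x) ∂μ) - A K) + (A K - B K) + (B K - Bi) + (Bi - cLap μ h) := by ring
      rw [e1]
      exact (abs_add_le _ _).trans (add_le_add_left ((abs_add_le _ _).trans (add_le_add_left (abs_add_le _ _) _)) _)
    rw [abs_sub_comm] at s5
    linarith

/-! ## 5. The Laplace form of `LStat` (A5, A5') -/

/-- A5': no noise.  Dominated convergence (bound 1): for a.e. `x` (`k9_lreg_sum`, `k9_summable_cc`) `∑_{i : Win K} h(x_{wIdx i}) = ∑_{j ∈ Icc (-K) K} h(x_j) → ∑' j, h(x_j)` (`k9_sum_win`, `Finset.tendsto_Icc_neg`). -/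
theorem b2l_lap_lim0 (ρ ξ : ℝ) (hρ : 0 < ρ) (μ : Measure Conf) [IsProbabilityMeasure μ] (hR : LReg ρ ξ μ)
    (h : ℝ → ℝ) (hc : Continuous h) (hs : HasCompactSupport h) (hn : ∀ t, 0 ≤ h t) :
    Tendsto (fun K : ℕ => ∫ x, b2Lp h (cPos K x) ∂μ) atTop (𝓝 (cLap μ h)) := by
  unfold cLap
  refine tendsto_integral_of_dominated_convergence (fun _ => (1 : ℝ))
    (fun K => ((b2l_Lp_bm hc hn).1.comp (b2l_cPos_meas K)).aestronglyMeasurable) (integrable_const 1)
    (fun K => Eventually.of_forall fun x => by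
      have := b2l_Lp_mem (K := K) hn (cPos K x)
      rw [Real.norm_eq_abs, abs_of_nonneg this.1]; exact this.2) ?_
  filter_upwards [k9_lreg_sum hρ hR] with x hx
  unfold b2Lp cPos
  have h1 : Tendsto (fun K : ℕ => ∑ j ∈ Finset.Icc (-(K : ℤ)) K, h (x j)) atTop (𝓝 (∑' j : ℤ, h (x j))) :=
    (k9_summable_cc hx h hc hs).hasSum.comp Finset.tendsto_Icc_neg
  simp only [k9_sum_win _ fun j => h (x j)]
  exact (Real.continuous_exp.tendsto _).comp h1.neg

/-- A5.  For `ε = 1/(n+1)` take `(b, c, z)` from `k9_approx`.  Pointwise (`b2l_fin_close`, `k9_exp_lip`, `b2l_rTr_cut`): `|b2Lp h λ - k9Phi c (rTr (cutM ..) z_a)| ≤ min 1 (ε Im rTr (cutM ..) i)`.  `LStat` for `k9Phi c` (bounded by 1, Lipschitz) and for `w ↦ min 1 (ε max 0 (Im w))`;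
`∫ Φ(cSK K x z_a) → ∫ Φ(cS x z_a)` by dominated convergence (`k9_lreg_tendsto`); `k9_core`; `k9_rem_tendsto`.  So `|L_K - cLap μ h| ≤ e_K + 2 r(ε)`, `e_K → 0`. -/
theorem b2l_lap_lim (ρ ξ : ℝ) (hρ : 0 < ρ) (μ : Measure Conf) [IsProbabilityMeasure μ] (hR : LReg ρ ξ μ) (hI : LStat μ)
    (h : ℝ → ℝ) (hc : Continuous h) (hs : HasCompactSupport h) (hn : ∀ t, 0 ≤ h t) (Δ : ℝ) (hΔ : 0 < Δ) :
    Tendsto (fun K : ℕ => ∫ x, b2Q1 Δ (b2Lp h) (cPos K x) ∂μ) atTop (𝓝 (cLap μ h)) := by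
  rw [Metric.tendsto_atTop]
  intro δ hδ
  have hrem := k9_rem_tendsto μ 0
  obtain ⟨n, hn'⟩ := ((tendsto_order.1 hrem).2 (δ / 4) (by positivity)).exists
  obtain ⟨e, he, hb⟩ := b2l_lap_eps ρ ξ hρ μ hR hI h hc hs hn Δ hΔ (1 / ((n : ℝ) + 1)) (by positivity)
  obtain ⟨K₀, hK₀⟩ := eventually_atTop.1 ((tendsto_order.1 he).2 (δ / 2) (by positivity))
  refine ⟨K₀, fun K hK => ?_⟩
  rw [Real.dist_eq]
  have := hb K
  have h2 := hK₀ K hK
  linarith

/-! ## 6. Assembly (A8) -/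

/-- Fubini: the window average commutes with the expectation (no noise).  `b2l_obs_eq`, `integral_const_mul`, `intervalIntegral.integral_of_le`/general sign, `integral_integral_swap` (bounded, jointly measurable by `b2l_Lp_cont`). -/
theorem b2l_fub0 (μ : Measure Conf) [IsProbabilityMeasure μ] (h : ℝ → ℝ) (hc : Continuous h) (hn : ∀ t, 0 ≤ h t) (K : ℕ) (T : ℝ) :
    ∫ x, b2Obs h T (cPos K x) ∂μ = (2 * T)⁻¹ * ∫ t in (-T)..T, ∫ x, b2Lp (fun u => h (u - t)) (cPos K x) ∂μ := by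
  have : IsFiniteMeasure ((volume : Measure ℝ).restrict (Set.uIoc (-T) T)) :=
    (inferInstance : IsFiniteMeasure ((volume : Measure ℝ).restrict (Set.Ioc (min (-T) T) (max (-T) T))))
  simp only [b2l_obs_eq]
  rw [integral_const_mul]
  congr 1
  refine (intervalIntegral_integral_swap (f := fun (t : ℝ) (x : Conf) => b2Lp (fun u => h (u - t)) (cPos K x)) ?_).symm
  exact b2l_bm_int (b2l_bm_comp (b2l_Lp_bm2 (K := K) hc hn) (measurable_fst.prodMk ((b2l_cPos_meas K).comp measurable_snd))) _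

/-- Fubini: the window average commutes with the expectation (one step of size `Δ`): as `b2l_fub0`, twice. -/
theorem b2l_fub (μ : Measure Conf) [IsProbabilityMeasure μ] (h : ℝ → ℝ) (hc : Continuous h) (hn : ∀ t, 0 ≤ h t) (K : ℕ) (Δ T : ℝ) :
    ∫ x, b2Q1 Δ (b2Obs h T) (cPos K x) ∂μ = (2 * T)⁻¹ * ∫ t in (-T)..T, ∫ x, b2Q1 Δ (b2Lp fun u => h (u - t)) (cPos K x) ∂μ := by
  have : IsFiniteMeasure ((volume : Measure ℝ).restrict (Set.uIoc (-T) T)) :=
    (inferInstance : IsFiniteMeasure ((volume : Measure ℝ).restrict (Set.Ioc (min (-T) T) (max (-T) T))))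
  unfold b2Q1
  simp only [b2l_obs_eq]
  have hB : B2Bm fun q : (ℝ × Conf) × Matrix (Win K) (Win K) ℝ => b2Lp (fun u => h (u - q.1.1)) (b2Step Δ (cPos K q.1.2) q.2) :=
    b2l_bm_comp (b2l_Lp_bm2 (K := K) hc hn) ((measurable_fst.comp measurable_fst).prodMk
      (b2l_step_meas_comp Δ ((b2l_cPos_meas K).comp (measurable_snd.comp measurable_fst)) measurable_snd))
  have e1 : ∀ x : Conf, ∫ N, (2 * T)⁻¹ * (∫ t in (-T)..T, b2Lp (fun u => h (u - t)) (b2Step Δ (cPos K x) N)) ∂(gArr (Win K) (Win K))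
      = (2 * T)⁻¹ * ∫ t in (-T)..T, ∫ N, b2Lp (fun u => h (u - t)) (b2Step Δ (cPos K x) N) ∂(gArr (Win K) (Win K)) := by
    intro x
    rw [integral_const_mul]
    congr 1
    refine (intervalIntegral_integral_swap (f := fun (t : ℝ) (N : Matrix (Win K) (Win K) ℝ) => b2Lp (fun u => h (u - t)) (b2Step Δ (cPos K x) N)) ?_).symm
    exact b2l_bm_int (b2l_bm_comp hB ((measurable_fst.prodMk measurable_const).prodMk measurable_snd)) _
  simp only [e1]
  rw [integral_const_mul]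
  congr 1
  refine (intervalIntegral_integral_swap (f := fun (t : ℝ) (x : Conf) => ∫ N, b2Lp (fun u => h (u - t)) (b2Step Δ (cPos K x) N) ∂(gArr (Win K) (Win K))) ?_).symm
  exact b2l_bm_int (b2l_bm_integral hB (gArr (Win K) (Win K))) _

/-- dominated convergence in `t`: `intervalIntegral.tendsto_integral_filter_of_dominated_convergence` with bound `1`; `∫ t in -T..T, ℓ = 2 T ℓ`. -/
theorem b2l_dom (T : ℝ) (hT : 0 < T) (ℓ : ℝ) (g : ℕ → ℝ → ℝ) (hm : ∀ K, Measurable (g K)) (hb : ∀ K t, |g K t| ≤ 1)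
    (hl : ∀ t, Tendsto (fun K => g K t) atTop (𝓝 ℓ)) :
    Tendsto (fun K => (2 * T)⁻¹ * ∫ t in (-T)..T, g K t) atTop (𝓝 ℓ) := by
  have h1 : Tendsto (fun K => ∫ t in (-T)..T, g K t) atTop (𝓝 (∫ _t in (-T)..T, ℓ)) :=
    intervalIntegral.tendsto_integral_filter_of_dominated_convergence (fun _ => (1 : ℝ))
      (Eventually.of_forall fun K => (hm K).aestronglyMeasurable)
      (Eventually.of_forall fun K => Eventually.of_forall fun t _ => by rw [Real.norm_eq_abs]; exact hb K t)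
      intervalIntegrable_const (Eventually.of_forall fun t _ => hl t)
  have h2 := h1.const_mul (2 * T)⁻¹
  have e1 : (2 * T)⁻¹ * ∫ _t in (-T)..T, ℓ = ℓ := by
    rw [intervalIntegral.integral_const, smul_eq_mul]
    field_simp
    ring
  rwa [e1] at h2

/-- `StronglyMeasurable.integral_prod_right` for `(t, x) ↦ b2Lp (h(· - t)) (cPos K x)` (`b2l_Lp_cont`, `b2l_cPos_meas`). -/
theorem b2l_meas0 (μ : Measure Conf) [IsProbabilityMeasure μ] (h : ℝ → ℝ) (hc : Continuous h) (K : ℕ) :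
    Measurable fun t : ℝ => ∫ x, b2Lp (fun u => h (u - t)) (cPos K x) ∂μ := by
  have h1 : Measurable fun q : ℝ × Conf => b2Lp (fun u => h (u - q.1)) (cPos K q.2) :=
    (b2l_Lp_cont (K := K) hc).measurable.comp (measurable_fst.prodMk ((b2l_cPos_meas K).comp measurable_snd))
  exact (h1.stronglyMeasurable.integral_prod_right').measurable

/-- as `b2l_meas0`, twice (`(t, x, N)`; `b2l_step_meas`). -/
theorem b2l_meas (μ : Measure Conf) [IsProbabilityMeasure μ] (h : ℝ → ℝ) (hc : Continuous h) (K : ℕ) (Δ : ℝ) :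
    Measurable fun t : ℝ => ∫ x, b2Q1 Δ (b2Lp fun u => h (u - t)) (cPos K x) ∂μ := by
  unfold b2Q1
  have h1 : Measurable fun q : (ℝ × Conf) × Matrix (Win K) (Win K) ℝ => b2Lp (fun u => h (u - q.1.1)) (b2Step Δ (cPos K q.1.2) q.2) :=
    (b2l_Lp_cont (K := K) hc).measurable.comp ((measurable_fst.comp measurable_fst).prodMk
      (b2l_step_meas_comp Δ ((b2l_cPos_meas K).comp (measurable_snd.comp measurable_fst)) measurable_snd))
  have h2 : Measurable fun q : ℝ × Conf => ∫ N, b2Lp (fun u => h (u - q.1)) (b2Step Δ (cPos K q.2) N) ∂(gArr (Win K) (Win K)) :=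
    (h1.stronglyMeasurable.integral_prod_right').measurable
  exact (h2.stronglyMeasurable.integral_prod_right').measurable

/-- `b2l_Lp_mem` + `norm_integral_le_of_norm_le_const`. -/
theorem b2l_bd0 (μ : Measure Conf) [IsProbabilityMeasure μ] (h : ℝ → ℝ) (hn : ∀ t, 0 ≤ h t) (K : ℕ) :
    |∫ x, b2Lp h (cPos K x) ∂μ| ≤ 1 := by
  have := norm_integral_le_of_norm_le_const (μ := μ) (f := fun x => b2Lp h (cPos K x)) (C := 1) (Eventually.of_forall fun x => by
    have := b2l_Lp_mem (K := K) hn (cPos K x)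
    rw [Real.norm_eq_abs, abs_of_nonneg this.1]; exact this.2)
  simpa using this

/-- `b2l_Lp_mem` + `norm_integral_le_of_norm_le_const`, twice. -/
theorem b2l_bd (μ : Measure Conf) [IsProbabilityMeasure μ] (h : ℝ → ℝ) (hn : ∀ t, 0 ≤ h t) (K : ℕ) (Δ : ℝ) :
    |∫ x, b2Q1 Δ (b2Lp h) (cPos K x) ∂μ| ≤ 1 := by
  have := norm_integral_le_of_norm_le_const (μ := μ) (f := fun x => b2Q1 Δ (b2Lp h) (cPos K x)) (C := 1) (Eventually.of_forall fun x => by
    unfold b2Q1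
    have := norm_integral_le_of_norm_le_const (μ := gArr (Win K) (Win K)) (f := fun N => b2Lp h (b2Step Δ (cPos K x) N)) (C := 1)
      (Eventually.of_forall fun N => by
        have := b2l_Lp_mem (K := K) hn (b2Step Δ (cPos K x) N)
        rw [Real.norm_eq_abs, abs_of_nonneg this.1]; exact this.2)
    simpa using this)
  simpa using this

/-- **NODE LIM**, single law -/
theorem b2l_obs_lim (ρ ξ : ℝ) (hρ : 0 < ρ) (μ : Measure Conf) [IsProbabilityMeasure μ] (hR : LReg ρ ξ μ) (hI : LStat μ)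
    (h : ℝ → ℝ) (hc : Continuous h) (hs : HasCompactSupport h) (hn : ∀ t, 0 ≤ h t)
    (htr : ∀ s : ℝ, cLap μ (fun t => h (t - s)) = cLap μ h) (Δ T : ℝ) (hΔ : 0 < Δ) (hT : 0 < T) (n : ℕ) :
    Tendsto (fun K : ℕ => b2E1 μ K Δ n (b2Obs h T)) atTop (𝓝 (cLap μ h)) := by
  have hsh : ∀ s : ℝ, HasCompactSupport fun t => h (t - s) := fun s => hs.comp_homeomorph (Homeomorph.subRight s)
  have hch : ∀ s : ℝ, Continuous fun t => h (t - s) := fun s => by fun_prop
  cases n with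
  | zero =>
    unfold b2E1
    simp only [Function.iterate_zero, id_eq]
    simp only [b2l_fub0 μ h hc hn _ T]
    refine b2l_dom T hT _ _ (fun K => b2l_meas0 μ h hc K) (fun K t => b2l_bd0 μ _ (fun u => hn _) K) fun t => ?_
    rw [← htr t]
    exact b2l_lap_lim0 ρ ξ hρ μ hR _ (hch t) (hsh t) fun u => hn _
  | succ n =>
    unfold b2E1
    have e1 : ∀ K : ℕ, ∫ x, ((b2Q1 Δ)^[n + 1] (b2Obs h T)) (cPos K x) ∂μ = ∫ x, b2Q1 (((n : ℝ) + 1) * Δ) (b2Obs h T) (cPos K x) ∂μ :=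
      fun K => integral_congr_ae (Eventually.of_forall fun x => b2l_Q1_iter Δ hΔ.le n (b2l_obs_bm hc hn hT) _)
    simp only [e1, b2l_fub μ h hc hn _ _ T]
    refine b2l_dom T hT _ _ (fun K => b2l_meas μ h hc K _) (fun K t => b2l_bd μ _ (fun u => hn _) K _) fun t => ?_
    rw [← htr t]
    exact b2l_lap_lim ρ ξ hρ μ hR hI _ (hch t) (hsh t) (fun u => hn _) _ (by positivity)

/-- **NODE LIM (first coordinate)** -/
theorem b2l_obs_lim_fst (ρ ξ : ℝ) (hρ : 0 < ρ) (μ₁ μ₂ : Measure Conf) [IsProbabilityMeasure μ₁] [IsProbabilityMeasure μ₂]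
    (hR₁ : LReg ρ ξ μ₁) (hI₁ : LStat μ₁) (h : ℝ → ℝ) (hc : Continuous h) (hs : HasCompactSupport h) (hn : ∀ t, 0 ≤ h t)
    (htr : ∀ s : ℝ, cLap μ₁ (fun t => h (t - s)) = cLap μ₁ h) (Δ T : ℝ) (hΔ : 0 < Δ) (hT : 0 < T) (n : ℕ) :
    Tendsto (fun K : ℕ => b2E μ₁ μ₂ K Δ n (fun p => b2Obs h T p.1)) atTop (𝓝 (cLap μ₁ h)) := by
  simp only [b2l_E_fst]
  exact b2l_obs_lim ρ ξ hρ μ₁ hR₁ hI₁ h hc hs hn htr Δ T hΔ hT n

/-- **NODE LIM (second coordinate)** -/
theorem b2l_obs_lim_snd (ρ ξ : ℝ) (hρ : 0 < ρ) (μ₁ μ₂ : Measure Conf) [IsProbabilityMeasure μ₁] [IsProbabilityMeasure μ₂]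
    (hR₂ : LReg ρ ξ μ₂) (hI₂ : LStat μ₂) (h : ℝ → ℝ) (hc : Continuous h) (hs : HasCompactSupport h) (hn : ∀ t, 0 ≤ h t)
    (htr : ∀ s : ℝ, cLap μ₂ (fun t => h (t - s)) = cLap μ₂ h) (Δ T : ℝ) (hΔ : 0 < Δ) (hT : 0 < T) (n : ℕ) :
    Tendsto (fun K : ℕ => b2E μ₁ μ₂ K Δ n (fun p => b2Obs h T p.2)) atTop (𝓝 (cLap μ₂ h)) := by
  simp only [b2l_E_snd]
  exact b2l_obs_lim ρ ξ hρ μ₂ hR₂ hI₂ h hc hs hn htr Δ T hΔ hT n

end Claimed.Agent.R287
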