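-- KEEP
import Claimed.Agent.R287.Defs
import Claimed.Agent.R287.ResB
import Claimed.Agent.R287.Qf

/-!
# Row 287 (S0534): THE ROW LAW of the raw GOE      (helper170, prefix `u0_`)

`W = goeOf N`, `N` an iid standard Gaussian array (`gArr J J`), `j` a fixed index.
The row `j` of `W` is `D g` (`g` standard Gaussian vector, `D = diag(1,..,√2 at j,..,1)`) and it is INDEPENDENT of the
full size minor `rsDel W {j}` (rows and columns `j` put to zero, kit RES).

* `u0_iso`       a linear map which preserves `∑ x_i²` preserves `qfG`;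
* `u0_gArr_eq`   `gArr J K` is the image of `qfG (J × K)`;   `u0_gArr_prob` (instance);
* `u0_resample`  resampling of one coordinate of a finite product of probability measures;
* `u0_raw_law`, `u0_raw_lintegral`, `u0_raw_integral`   model free form: `(u0Row j N, rsDel N {j})`;
* `u0_row_law`, `u0_row_lintegral`, `u0_row_integral`   the same for `(goeOf N j, rsDel (goeOf N) {j})`.

Route: rotation by 45 degrees in the planes `((j,u),(u,j))`, `u ≠ j` (`u0T`), then the row `j` of the rotated array is resampled.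
-/

set_option autoImplicit false
set_option linter.unusedSectionVars false
set_option linter.unusedSimpArgs false

namespace Claimed.Agent.R287

open Matrix Finset MeasureTheory ProbabilityTheory

noncomputable section

/-- a linear map which preserves the Euclidean norm preserves the standard Gaussian vector -/
theorem u0_iso {a : Type} [Fintype a] (T : (a → ℝ) →ₗ[ℝ] (a → ℝ)) (hT : ∀ ξ, ∑ i, (T ξ i) ^ 2 = ∑ i, ξ i ^ 2) :
    (qfG a).map T = qfG a := by
  let e := WithLp.linearEquiv 2 ℝ (a → ℝ)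
  let T1 : EuclideanSpace ℝ a →ₗ[ℝ] EuclideanSpace ℝ a := e.symm.toLinearMap ∘ₗ T ∘ₗ e.toLinearMap
  let T2 : EuclideanSpace ℝ a →ₗᵢ[ℝ] EuclideanSpace ℝ a :=
    { toLinearMap := T1
      norm_map' := by
        intro x
        rw [EuclideanSpace.norm_eq, EuclideanSpace.norm_eq]
        congr 1
        have := hT (e x)
        simpa [T1, e] using this }
  let T3 : EuclideanSpace ℝ a ≃ₗᵢ[ℝ] EuclideanSpace ℝ a := T2.toLinearIsometryEquiv rfl
  have h1 := stdGaussian_map T3
  rw [← map_pi_eq_stdGaussian] at h1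
  have hTm : Measurable T := (LinearMap.continuous_of_finiteDimensional T).measurable
  have hm : Measurable (WithLp.toLp 2 : (a → ℝ) → EuclideanSpace ℝ a) := by fun_prop
  rw [Measure.map_map T3.continuous.measurable hm] at h1
  have h2 : (⇑T3 ∘ (WithLp.toLp 2 : (a → ℝ) → EuclideanSpace ℝ a)) = (WithLp.toLp 2 : (a → ℝ) → EuclideanSpace ℝ a) ∘ T := by
    funext ξ
    rfl
  rw [h2, ← Measure.map_map hm hTm] at h1
  have h3 := congrArg (fun ν => ν.map (WithLp.ofLp : EuclideanSpace ℝ a → (a → ℝ))) h1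
  have hm' : Measurable (WithLp.ofLp : EuclideanSpace ℝ a → (a → ℝ)) := by fun_prop
  simp only [Measure.map_map hm' hm] at h3
  have h4 : (WithLp.ofLp : EuclideanSpace ℝ a → (a → ℝ)) ∘ (WithLp.toLp 2 : (a → ℝ) → EuclideanSpace ℝ a) = id := by
    funext ξ; rfl
  rw [h4, Measure.map_id, Measure.map_id] at h3
  exact h3

/-- an array indexed by pairs, as a matrix -/
def u0Cu {ι κ : Type} (ξ : ι × κ → ℝ) : Matrix ι κ ℝ := Matrix.of fun a b => ξ (a, b)

theorem u0_Cu_apply {ι κ : Type} (ξ : ι × κ → ℝ) (a : ι) (b : κ) : u0Cu ξ a b = ξ (a, b) := rfl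

theorem u0_Cu_measurable {ι κ : Type} : Measurable (u0Cu : (ι × κ → ℝ) → Matrix ι κ ℝ) :=
  (MeasurableEquiv.curry ι κ ℝ).measurable

theorem u0_gArr_eq (ι κ : Type) [Fintype ι] [Fintype κ] : gArr ι κ = (qfG (ι × κ)).map u0Cu := by
  have h := Measure.infinitePi_map_curry (ι := ι) (κ := κ) (X := ℝ) (fun _ _ => gaussianReal 0 1)
  simp only [Measure.infinitePi_eq_pi] at h
  exact h.symm

instance u0_gArr_prob (ι κ : Type) [Fintype ι] [Fintype κ] : IsProbabilityMeasure (gArr ι κ) :=
  inferInstanceAs (IsProbabilityMeasure (Measure.pi fun _ : ι => Measure.pi fun _ : κ => gaussianReal 0 1))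

/-- resampling one coordinate of a product measure -/
theorem u0_resample {δ : Type} [Fintype δ] [DecidableEq δ] {X : δ → Type} [∀ i, MeasurableSpace (X i)]
    (μ : ∀ i, Measure (X i)) [∀ i, IsProbabilityMeasure (μ i)] (j : δ) {f : (∀ i, X i) → ENNReal} (hf : Measurable f) :
    ∫⁻ x, f x ∂Measure.pi μ = ∫⁻ x, ∫⁻ t, f (Function.update x j t) ∂μ j ∂Measure.pi μ := by
  classical
  by_cases hne : Nonempty (∀ i, X i)
  · obtain ⟨x0⟩ := hne
    have hg : Measurable fun x : ∀ i, X i => ∫⁻ t, f (Function.update x j t) ∂μ j := by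
      have : Measurable fun p : (∀ i, X i) × X j => f (Function.update p.1 j p.2) :=
        hf.comp measurable_update'
      exact this.lintegral_prod_right'
    rw [lintegral_eq_lmarginal_univ x0, lintegral_eq_lmarginal_univ x0, lmarginal_erase' f hf (Finset.mem_univ j),
      lmarginal_erase' _ hg (Finset.mem_univ j)]
    congr 1
    funext x
    simp
  · have : IsEmpty (∀ i, X i) := not_nonempty_iff.1 hne
    simp

variable {ι : Type} [Fintype ι] [DecidableEq ι]

/-- the rotation by 45 degrees in the planes `((j,u),(u,j))`, `u ≠ j` -/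
def u0T (j : ι) : (ι × ι → ℝ) →ₗ[ℝ] (ι × ι → ℝ) where
  toFun ξ := fun p => if p.1 = j ∧ p.2 ≠ j then (Real.sqrt 2)⁻¹ * (ξ p + ξ p.swap)
    else if p.2 = j ∧ p.1 ≠ j then (Real.sqrt 2)⁻¹ * (ξ p.swap - ξ p) else ξ p
  map_add' ξ η := by
    funext p
    simp only [Pi.add_apply]
    split_ifs <;> ring
  map_smul' c ξ := by
    funext p
    simp only [Pi.smul_apply, smul_eq_mul, RingHom.id_apply]
    split_ifs <;> ring

/-- the law of the row `j` of the raw GOE: `√2 g_j` on the diagonal, `g_u` off it -/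
def u0D (j : ι) (g : ι → ℝ) : ι → ℝ := fun u => if u = j then Real.sqrt 2 * g u else g u

theorem u0_T_apply (j : ι) (ξ : ι × ι → ℝ) (p : ι × ι) :
    u0T j ξ p = if p.1 = j ∧ p.2 ≠ j then (Real.sqrt 2)⁻¹ * (ξ p + ξ p.swap)
      else if p.2 = j ∧ p.1 ≠ j then (Real.sqrt 2)⁻¹ * (ξ p.swap - ξ p) else ξ p := rfl

theorem u0_T_pair (j : ι) (ξ : ι × ι → ℝ) (p : ι × ι) :
    (u0T j ξ p) ^ 2 + (u0T j ξ p.swap) ^ 2 = ξ p ^ 2 + ξ p.swap ^ 2 := by
  have h2 : (Real.sqrt 2)⁻¹ ^ 2 = 1 / 2 := by
    rw [inv_pow, Real.sq_sqrt (by norm_num)]; norm_num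
  obtain ⟨a, b⟩ := p
  rw [u0_T_apply, u0_T_apply]
  simp only [Prod.swap_prod_mk, Prod.fst, Prod.snd]
  by_cases ha : a = j <;> by_cases hb : b = j
  · simp [ha, hb]
  · simp only [ha, hb, true_and, ne_eq, not_false_eq_true, if_true, false_and, if_false, not_true_eq_false, and_false, and_true]
    rw [mul_pow, mul_pow, h2]; ring
  · simp only [ha, hb, true_and, ne_eq, not_false_eq_true, if_true, false_and, if_false, not_true_eq_false, and_false, and_true]
    rw [mul_pow, mul_pow, h2]; ring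
  · simp [ha, hb]

theorem u0_T_norm (j : ι) (ξ : ι × ι → ℝ) : ∑ p, (u0T j ξ p) ^ 2 = ∑ p, ξ p ^ 2 := by
  have h1 : ∀ f : ι × ι → ℝ, ∑ p : ι × ι, f p.swap = ∑ p, f p := fun f => (Equiv.prodComm ι ι).sum_comp f
  have h2 : ∑ p, ((u0T j ξ p) ^ 2 + (u0T j ξ p.swap) ^ 2) = ∑ p, (ξ p ^ 2 + ξ p.swap ^ 2) :=
    Finset.sum_congr rfl fun p _ => u0_T_pair j ξ p
  rw [Finset.sum_add_distrib, Finset.sum_add_distrib, h1 (fun p => (u0T j ξ p) ^ 2), h1 (fun p => ξ p ^ 2)] at h2
  linarith

theorem u0_T_law (j : ι) : (qfG (ι × ι)).map (u0T j) = qfG (ι × ι) := u0_iso (u0T j) (u0_T_norm j)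

/-- the normalised row `j`: `N_jj` on the diagonal, `(N_ju + N_uj)/√2` off it -/
def u0Row (j : ι) (N : Matrix ι ι ℝ) : ι → ℝ := fun u => if u = j then N j j else (Real.sqrt 2)⁻¹ * (N j u + N u j)

theorem u0_E_eqns_cite : True := by
  have := @u0T.eq_1
  have := @u0D.eq_1
  have := @u0Row.eq_1
  have := @u0Cu.eq_1
  trivial

theorem u0_entry_measurable (k l : ι) : Measurable fun N : Matrix ι ι ℝ => N k l :=
  (measurable_pi_apply l).comp (measurable_pi_apply k)

theorem u0_measurable_of_entries {Ω : Type} [MeasurableSpace Ω] {f : Ω → Matrix ι ι ℝ}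
    (h : ∀ k l, Measurable fun ω => f ω k l) : Measurable f :=
  measurable_pi_iff.2 fun k => measurable_pi_iff.2 fun l => h k l

theorem u0_cut_measurable (j : ι) : Measurable fun N : Matrix ι ι ℝ => rsDel N {j} := by
  refine u0_measurable_of_entries fun k l => ?_
  simp only [rs_del_apply]
  by_cases h : k ∈ ({j} : Finset ι) ∨ l ∈ ({j} : Finset ι)
  · simp only [if_pos h]; exact measurable_const
  · simp only [if_neg h]; exact u0_entry_measurable k l

theorem u0_goe_measurable : Measurable (goeOf : Matrix ι ι ℝ → Matrix ι ι ℝ) := by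
  refine u0_measurable_of_entries fun k l => ?_
  have : (fun N : Matrix ι ι ℝ => goeOf N k l) = fun N => (Real.sqrt 2)⁻¹ * (N k l + N l k) := by
    funext N; simp [goeOf]
  rw [this]
  exact ((u0_entry_measurable k l).add (u0_entry_measurable l k)).const_mul _

theorem u0_D_measurable (j : ι) : Measurable (u0D j) := by
  refine measurable_pi_iff.2 fun u => ?_
  unfold u0D
  by_cases h : u = j
  · simp only [if_pos h]; exact (measurable_pi_apply u).const_mul _
  · simp only [if_neg h]; exact measurable_pi_apply u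

theorem u0_Row_measurable (j : ι) : Measurable (u0Row j) := by
  refine measurable_pi_iff.2 fun u => ?_
  unfold u0Row
  by_cases h : u = j
  · simp only [if_pos h]; exact u0_entry_measurable j j
  · simp only [if_neg h]
    exact ((u0_entry_measurable j u).add (u0_entry_measurable u j)).const_mul _

/-- after the rotation the normalised row `j` is the row `j` of the array -/
theorem u0_T_row (j : ι) (ξ : ι × ι → ℝ) : u0Row j (u0Cu ξ) = u0Cu (u0T j ξ) j := by
  funext u
  have e2 : u0Cu (u0T j ξ) j u = u0T j ξ (j, u) := rfl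
  unfold u0Row
  rw [e2, u0_T_apply]
  by_cases hu : u = j
  · subst hu
    simp [u0_Cu_apply]
  · simp [hu, u0_Cu_apply]

theorem u0_T_cut (j : ι) (ξ : ι × ι → ℝ) : rsDel (u0Cu ξ) {j} = rsDel (u0Cu (u0T j ξ)) {j} := by
  ext k l
  rw [rs_del_apply, rs_del_apply]
  by_cases h : k ∈ ({j} : Finset ι) ∨ l ∈ ({j} : Finset ι)
  · rw [if_pos h, if_pos h]
  · rw [if_neg h, if_neg h]
    simp only [Finset.mem_singleton, not_or] at h
    show ξ (k, l) = u0T j ξ (k, l)
    rw [u0_T_apply]
    simp [h.1, h.2]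

theorem u0_cut_update (j : ι) (N : Matrix ι ι ℝ) (g : ι → ℝ) : rsDel (N.updateRow j g) {j} = rsDel N {j} := by
  ext k l
  rw [rs_del_apply, rs_del_apply]
  by_cases h : k ∈ ({j} : Finset ι) ∨ l ∈ ({j} : Finset ι)
  · rw [if_pos h, if_pos h]
  · rw [if_neg h, if_neg h]
    simp only [Finset.mem_singleton, not_or] at h
    rw [Matrix.updateRow_ne h.1]

theorem u0_resample_row (j : ι) {f : Matrix ι ι ℝ → ENNReal} (hf : Measurable f) :
    ∫⁻ N, f N ∂gArr ι ι = ∫⁻ N, ∫⁻ g, f (N.updateRow j g) ∂qfG ι ∂gArr ι ι :=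
  u0_resample (fun _ : ι => qfG ι) j hf

/-- **model free row law**: the normalised row `j` is a standard Gaussian vector, independent of the cut array -/
theorem u0_raw_law (j : ι) :
    (gArr ι ι).map (fun N => (u0Row j N, rsDel N {j})) = (qfG ι).prod ((gArr ι ι).map fun N => rsDel N {j}) := by
  have hΦ : Measurable fun N : Matrix ι ι ℝ => (u0Row j N, rsDel N {j}) := (u0_Row_measurable j).prodMk (u0_cut_measurable j)
  have hrow : Measurable fun N : Matrix ι ι ℝ => N j := measurable_pi_apply j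
  have hΦ' : Measurable fun N : Matrix ι ι ℝ => (N j, rsDel N {j}) := hrow.prodMk (u0_cut_measurable j)
  have hT : Measurable (u0T j) := (LinearMap.continuous_of_finiteDimensional (u0T j)).measurable
  have hc : Measurable (u0Cu : (ι × ι → ℝ) → Matrix ι ι ℝ) := u0_Cu_measurable
  -- step 1: rotate
  have s1 : (gArr ι ι).map (fun N => (u0Row j N, rsDel N {j})) = (gArr ι ι).map (fun N => (N j, rsDel N {j})) := by
    rw [u0_gArr_eq, Measure.map_map hΦ hc, Measure.map_map hΦ' hc]
    conv_rhs => rw [← u0_T_law j, Measure.map_map (hΦ'.comp hc) hT]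
    congr 1
    funext ξ
    simp only [Function.comp]
    rw [u0_T_row, u0_T_cut]
  rw [s1]
  -- step 2: resample the row
  refine Measure.ext_of_lintegral _ fun f hf => ?_
  have : IsProbabilityMeasure ((gArr ι ι).map fun N => rsDel N {j}) :=
    Measure.isProbabilityMeasure_map (u0_cut_measurable j).aemeasurable
  rw [lintegral_map hf hΦ', lintegral_prod_symm _ hf.aemeasurable, lintegral_map (hf.lintegral_prod_left') (u0_cut_measurable j)]
  have r := u0_resample_row j (f := fun N : Matrix ι ι ℝ => f (N j, rsDel N {j})) (hf.comp hΦ')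
  refine r.trans (lintegral_congr fun N => ?_)
  refine lintegral_congr fun g => ?_
  rw [Matrix.updateRow_self, u0_cut_update j N g]

theorem u0_raw_lintegral (j : ι) (F : (ι → ℝ) → Matrix ι ι ℝ → ENNReal) (hF : Measurable (Function.uncurry F)) :
    ∫⁻ N, F (u0Row j N) (rsDel N {j}) ∂gArr ι ι = ∫⁻ N, ∫⁻ g, F g (rsDel N {j}) ∂qfG ι ∂gArr ι ι := by
  have hΦ : Measurable fun N : Matrix ι ι ℝ => (u0Row j N, rsDel N {j}) := (u0_Row_measurable j).prodMk (u0_cut_measurable j)
  have : IsProbabilityMeasure ((gArr ι ι).map fun N => rsDel N {j}) :=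
    Measure.isProbabilityMeasure_map (u0_cut_measurable j).aemeasurable
  have h1 := lintegral_map (μ := gArr ι ι) hF hΦ
  rw [u0_raw_law, lintegral_prod_symm _ hF.aemeasurable, lintegral_map (hF.lintegral_prod_left') (u0_cut_measurable j)] at h1
  exact h1.symm

/-- Bochner form -/
theorem u0_raw_integral (j : ι) (F : (ι → ℝ) → Matrix ι ι ℝ → ℝ) (hF : Measurable (Function.uncurry F))
    (hi : Integrable (fun N => F (u0Row j N) (rsDel N {j})) (gArr ι ι)) :
    ∫ N, F (u0Row j N) (rsDel N {j}) ∂gArr ι ι = ∫ N, ∫ g, F g (rsDel N {j}) ∂qfG ι ∂gArr ι ι := by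
  have hΦ : Measurable fun N : Matrix ι ι ℝ => (u0Row j N, rsDel N {j}) := (u0_Row_measurable j).prodMk (u0_cut_measurable j)
  have : IsProbabilityMeasure ((gArr ι ι).map fun N => rsDel N {j}) :=
    Measure.isProbabilityMeasure_map (u0_cut_measurable j).aemeasurable
  have h1 := integral_map (μ := gArr ι ι) hΦ.aemeasurable (f := Function.uncurry F) hF.aestronglyMeasurable
  have hi' : Integrable (Function.uncurry F) ((gArr ι ι).map fun N => (u0Row j N, rsDel N {j})) :=
    (integrable_map_measure hF.aestronglyMeasurable hΦ.aemeasurable).2 hi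
  rw [u0_raw_law] at h1 hi'
  have hm : AEStronglyMeasurable (fun y : Matrix ι ι ℝ => ∫ x, Function.uncurry F (x, y) ∂qfG ι)
      ((gArr ι ι).map fun N => rsDel N {j}) := hi'.swap.integral_prod_left.aestronglyMeasurable
  rw [integral_prod_symm _ hi', integral_map (u0_cut_measurable j).aemeasurable hm] at h1
  exact h1.symm

/-! ### the same for `W = goeOf N` -/

theorem u0_goe_row (j : ι) (N : Matrix ι ι ℝ) : goeOf N j = u0D j (u0Row j N) := by
  funext u
  have h2 : (Real.sqrt 2)⁻¹ * (2 : ℝ) = Real.sqrt 2 := by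
    have := Real.mul_self_sqrt (show (0 : ℝ) ≤ 2 by norm_num)
    have h0 : Real.sqrt 2 ≠ 0 := (Real.sqrt_pos.2 (by norm_num)).ne'
    field_simp
    nlinarith
  have e1 : goeOf N j u = (Real.sqrt 2)⁻¹ * (N j u + N u j) := by simp [goeOf]
  rw [e1]
  unfold u0D u0Row
  by_cases hu : u = j
  · subst hu
    simp only [if_true]
    rw [← two_mul, ← mul_assoc, h2]
  · simp [hu]

theorem u0_goe_cut (j : ι) (N : Matrix ι ι ℝ) : rsDel (goeOf N) {j} = goeOf (rsDel N {j}) := by
  ext k l
  have e : ∀ (M : Matrix ι ι ℝ) (a b : ι), goeOf M a b = (Real.sqrt 2)⁻¹ * (M a b + M b a) := by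
    intro M a b; simp [goeOf]
  rw [rs_del_apply, e, e, rs_del_apply, rs_del_apply]
  by_cases h : k ∈ ({j} : Finset ι) ∨ l ∈ ({j} : Finset ι)
  · rw [if_pos h, if_pos h, if_pos h.symm]; simp
  · rw [if_neg h, if_neg h, if_neg (fun h' => h h'.symm)]

/-- **the row `j` of the raw GOE is `D g`, independent of the full size minor** -/
theorem u0_row_law (j : ι) :
    (gArr ι ι).map (fun N => (goeOf N j, rsDel (goeOf N) {j}))
      = ((qfG ι).map (u0D j)).prod ((gArr ι ι).map fun N => rsDel (goeOf N) {j}) := by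
  have hΦ : Measurable fun N : Matrix ι ι ℝ => (u0Row j N, rsDel N {j}) := (u0_Row_measurable j).prodMk (u0_cut_measurable j)
  have : IsProbabilityMeasure ((gArr ι ι).map fun N => rsDel N {j}) :=
    Measure.isProbabilityMeasure_map (u0_cut_measurable j).aemeasurable
  have e1 : (fun N : Matrix ι ι ℝ => (goeOf N j, rsDel (goeOf N) {j}))
      = (Prod.map (u0D j) goeOf) ∘ fun N => (u0Row j N, rsDel N {j}) := by
    funext N
    simp only [Function.comp, Prod.map]
    rw [u0_goe_row, u0_goe_cut]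
  have e2 : (fun N : Matrix ι ι ℝ => rsDel (goeOf N) {j}) = goeOf ∘ fun N => rsDel N {j} := by
    funext N
    simp only [Function.comp]
    rw [u0_goe_cut]
  rw [e1, e2, ← Measure.map_map ((u0_D_measurable j).prodMap u0_goe_measurable) hΦ, u0_raw_law,
    ← Measure.map_map u0_goe_measurable (u0_cut_measurable j), Measure.map_prod_map _ _ (u0_D_measurable j) u0_goe_measurable]

theorem u0_row_lintegral (j : ι) (F : (ι → ℝ) → Matrix ι ι ℝ → ENNReal) (hF : Measurable (Function.uncurry F)) :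
    ∫⁻ N, F (goeOf N j) (rsDel (goeOf N) {j}) ∂gArr ι ι = ∫⁻ N, ∫⁻ g, F (u0D j g) (rsDel (goeOf N) {j}) ∂qfG ι ∂gArr ι ι := by
  have h := u0_raw_lintegral j (fun g M => F (u0D j g) (goeOf M))
    (hF.comp (((u0_D_measurable j).comp measurable_fst).prodMk (u0_goe_measurable.comp measurable_snd)))
  simp only [← u0_goe_row, ← u0_goe_cut] at h
  exact h

/-- Bochner form -/
theorem u0_row_integral (j : ι) (F : (ι → ℝ) → Matrix ι ι ℝ → ℝ) (hF : Measurable (Function.uncurry F))
    (hi : Integrable (fun N => F (goeOf N j) (rsDel (goeOf N) {j})) (gArr ι ι)) :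
    ∫ N, F (goeOf N j) (rsDel (goeOf N) {j}) ∂gArr ι ι = ∫ N, ∫ g, F (u0D j g) (rsDel (goeOf N) {j}) ∂qfG ι ∂gArr ι ι := by
  have h := u0_raw_integral j (fun g M => F (u0D j g) (goeOf M))
    (hF.comp (((u0_D_measurable j).comp measurable_fst).prodMk (u0_goe_measurable.comp measurable_snd)))
  simp only [← u0_goe_row, ← u0_goe_cut] at h
  exact h hi

end

end Claimed.Agent.R287
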