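-- KEEP
import Claimed.Agent.R287.RowLaw

/-!
# Row 287 (S0534): U0, THE ONE-STEP LEMMA      (helper170, prefix `u0_`)

Note A9 (helper275) sec. 1.   `Z = diag(x) + √Δ W`, `W = goeOf N` raw GOE on any finite index set, `z = e + iy`, `G = rsG Z z`.
* A. scalar facts: `Im 1/(x - ζ)`, the split resonant / non resonant, regularity through ONE Poisson sum (`u0_reg`);
* C. the conditional lemma (minor frozen, Gaussian row): `U0B`, `u0_Xi_cheb`, `u0_Xi_bern`, `u0_cond`;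
* D. the link with the resolvent: zero padded minor `u0B`, Schur `u0_schur`, trace of the minor `u0_B_trace`, measurability;
* F. the site bound `u0_site` and the summed forms `u0_main_cheb`, `u0_main_bern`.
-/

set_option autoImplicit false
set_option linter.unusedSectionVars false
set_option linter.unusedSimpArgs false

namespace Claimed.Agent.R287

open Matrix Finset MeasureTheory ProbabilityTheory

noncomputable section

/-! ## A. scalar facts -/

theorem u0_inv_im (x : ℝ) (ζ : ℂ) : (((x : ℂ) - ζ)⁻¹).im = ζ.im / Complex.normSq ((x : ℂ) - ζ) := by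
  rw [Complex.inv_im]
  simp

theorem u0_inv_im_nonneg (x : ℝ) {ζ : ℂ} (h : 0 ≤ ζ.im) : 0 ≤ (((x : ℂ) - ζ)⁻¹).im := by
  rw [u0_inv_im]
  exact div_nonneg h (Complex.normSq_nonneg _)

/-- `Im 1/(x - ζ) ≤ 1/Im ζ` -/
theorem u0_inv_im_le (x : ℝ) {ζ : ℂ} (h : 0 < ζ.im) : (((x : ℂ) - ζ)⁻¹).im ≤ 1 / ζ.im := by
  rw [u0_inv_im]
  have h1 : ζ.im ^ 2 ≤ Complex.normSq ((x : ℂ) - ζ) := by
    rw [Complex.normSq_apply]
    simp only [Complex.sub_re, Complex.ofReal_re, Complex.sub_im, Complex.ofReal_im, zero_sub]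
    nlinarith [mul_self_nonneg (x - ζ.re)]
  rw [div_le_div_iff₀ (lt_of_lt_of_le (by positivity) h1) h]
  nlinarith

/-- off resonance: `|ζ - e| ≤ |x - e|/2  ⟹  Im 1/(x - ζ) ≤ 4 Im ζ/(x - e)²` -/
theorem u0_inv_im_far {x e : ℝ} {ζ : ℂ} (h : 0 ≤ ζ.im) (hx : x ≠ e) (hζ : ‖ζ - e‖ ≤ |x - e| / 2) :
    (((x : ℂ) - ζ)⁻¹).im ≤ 4 * ζ.im / (x - e) ^ 2 := by
  rw [u0_inv_im]
  have hr : 0 < |x - e| := abs_pos.2 (sub_ne_zero.2 hx)
  have h1 : |x - e| / 2 ≤ ‖(x : ℂ) - ζ‖ := by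
    have e1 : ((x : ℂ) - ζ) = ((x - e : ℝ) : ℂ) - (ζ - e) := by push_cast; ring
    have e2 : ‖((x - e : ℝ) : ℂ)‖ = |x - e| := by rw [Complex.norm_real, Real.norm_eq_abs]
    have := norm_sub_norm_le ((x - e : ℝ) : ℂ) (ζ - e)
    rw [e1]
    rw [e2] at this
    linarith
  have h2 : (x - e) ^ 2 / 4 ≤ Complex.normSq ((x : ℂ) - ζ) := by
    rw [Complex.normSq_eq_norm_sq]
    have := pow_le_pow_left₀ (by positivity) h1 2
    rw [div_pow, sq_abs] at this
    linarith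
  have h3 : 0 < (x - e) ^ 2 := by rw [← sq_abs]; positivity
  rw [div_le_div_iff₀ (lt_of_lt_of_le (by positivity) h2) h3]
  nlinarith

/-- **regularity of a configuration enters only through one Poisson sum** (A9 1(f)) -/
theorem u0_reg {J : Type} [Fintype J] (x : J → ℝ) (e : ℝ) {R C1 : ℝ} (hR : 0 < R)
    (h : ∑ j, R / ((x j - e) ^ 2 + R ^ 2) ≤ C1) :
    (∑ j with R < |x j - e|, 1 / (x j - e) ^ 2) ≤ 2 * C1 / R ∧ ((univ.filter fun j => |x j - e| ≤ R).card : ℝ) ≤ 2 * C1 * R := by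
  have hnn : ∀ j, 0 ≤ R / ((x j - e) ^ 2 + R ^ 2) := fun j => by positivity
  constructor
  · have h1 : ∑ j with R < |x j - e|, 1 / (x j - e) ^ 2 ≤ ∑ j with R < |x j - e|, (2 / R) * (R / ((x j - e) ^ 2 + R ^ 2)) := by
      refine Finset.sum_le_sum fun j hj => ?_
      have hj' : R < |x j - e| := (Finset.mem_filter.1 hj).2
      have h2 : R ^ 2 < (x j - e) ^ 2 := by
        rw [← sq_abs (x j - e)]
        exact pow_lt_pow_left₀ hj' hR.le (by norm_num)
      have h3 : 0 < (x j - e) ^ 2 := lt_trans (by positivity) h2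
      have e1 : (2 / R) * (R / ((x j - e) ^ 2 + R ^ 2)) = 2 / ((x j - e) ^ 2 + R ^ 2) := by field_simp
      rw [e1, div_le_div_iff₀ h3 (by positivity)]
      linarith
    refine h1.trans ?_
    rw [← Finset.mul_sum]
    have h4 : ∑ j with R < |x j - e|, R / ((x j - e) ^ 2 + R ^ 2) ≤ C1 :=
      (Finset.sum_le_sum_of_subset_of_nonneg (Finset.filter_subset _ _) fun j _ _ => hnn j).trans h
    calc 2 / R * ∑ j with R < |x j - e|, R / ((x j - e) ^ 2 + R ^ 2) ≤ 2 / R * C1 :=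
          mul_le_mul_of_nonneg_left h4 (by positivity)
      _ = 2 * C1 / R := by ring
  · have h1 : ∑ j with |x j - e| ≤ R, (1 / (2 * R)) ≤ ∑ j with |x j - e| ≤ R, R / ((x j - e) ^ 2 + R ^ 2) := by
      refine Finset.sum_le_sum fun j hj => ?_
      have hj' : |x j - e| ≤ R := (Finset.mem_filter.1 hj).2
      have h2 : (x j - e) ^ 2 ≤ R ^ 2 := by
        rw [← sq_abs (x j - e)]
        exact pow_le_pow_left₀ (abs_nonneg _) hj' 2
      rw [div_le_div_iff₀ (by positivity) (by positivity)]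
      nlinarith
    have h4 : ∑ j with |x j - e| ≤ R, R / ((x j - e) ^ 2 + R ^ 2) ≤ C1 :=
      (Finset.sum_le_sum_of_subset_of_nonneg (Finset.filter_subset _ _) fun j _ _ => hnn j).trans h
    have h5 := h1.trans h4
    rw [Finset.sum_const, nsmul_eq_mul] at h5
    have : ((univ.filter fun j => |x j - e| ≤ R).card : ℝ) = ((univ.filter fun j => |x j - e| ≤ R).card : ℝ) * (1 / (2 * R)) * (2 * R) := by
      field_simp
    rw [this]
    calc _ ≤ C1 * (2 * R) := mul_le_mul_of_nonneg_right h5 (by positivity)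
      _ = 2 * C1 * R := by ring

/-- **the split of A9 1(c)**: any finite measure, any measurable self energy `ζ` with `Im ζ ≥ y` -/
theorem u0_split {Ω : Type} [MeasurableSpace Ω] (μ : Measure Ω) [IsFiniteMeasure μ] {ζ : Ω → ℂ} (hm : Measurable ζ) {x e y : ℝ} (hy : 0 < y)
    (hζ : ∀ ω, y ≤ (ζ ω).im) (hi : Integrable (fun ω => (ζ ω).im) μ) (hx : x ≠ e) :
    ∫ ω, (((x : ℂ) - ζ ω)⁻¹).im ∂μ ≤ 4 / (x - e) ^ 2 * ∫ ω, (ζ ω).im ∂μ + 1 / y * μ.real {ω | |x - e| / 2 < ‖ζ ω - e‖} := by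
  have hS : MeasurableSet {ω | |x - e| / 2 < ‖ζ ω - e‖} :=
    measurableSet_lt measurable_const (hm.sub_const _).norm
  have hind : Integrable (Set.indicator {ω | |x - e| / 2 < ‖ζ ω - e‖} (fun _ => (1 : ℝ))) μ :=
    (integrable_const (1 : ℝ)).indicator hS
  have hpt : ∀ ω, (((x : ℂ) - ζ ω)⁻¹).im ≤ 4 / (x - e) ^ 2 * (ζ ω).im
      + 1 / y * Set.indicator {ω | |x - e| / 2 < ‖ζ ω - e‖} (fun _ => (1 : ℝ)) ω := by
    intro ω
    have h0 : 0 < (ζ ω).im := lt_of_lt_of_le hy (hζ ω)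
    have h3 : 0 < (x - e) ^ 2 := by
      have := sq_pos_of_pos (abs_pos.2 (sub_ne_zero.2 hx))
      rwa [sq_abs] at this
    by_cases hω : |x - e| / 2 < ‖ζ ω - e‖
    · rw [Set.indicator_of_mem (show ω ∈ {ω | |x - e| / 2 < ‖ζ ω - e‖} from hω)]
      have h1 := u0_inv_im_le x h0
      have h2 : 1 / (ζ ω).im ≤ 1 / y := one_div_le_one_div_of_le hy (hζ ω)
      have h4 : 0 ≤ 4 / (x - e) ^ 2 * (ζ ω).im := by positivity
      linarith
    · rw [Set.indicator_of_notMem (show ω ∉ {ω | |x - e| / 2 < ‖ζ ω - e‖} from hω)]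
      have h1 := u0_inv_im_far h0.le hx (not_lt.1 hω)
      have e1 : 4 * (ζ ω).im / (x - e) ^ 2 = 4 / (x - e) ^ 2 * (ζ ω).im := by ring
      linarith
  have hR : Integrable (fun ω => 4 / (x - e) ^ 2 * (ζ ω).im
      + 1 / y * Set.indicator {ω | |x - e| / 2 < ‖ζ ω - e‖} (fun _ => (1 : ℝ)) ω) μ :=
    (hi.const_mul _).add (hind.const_mul _)
  have hL : Integrable (fun ω => (((x : ℂ) - ζ ω)⁻¹).im) μ := by
    refine Integrable.of_bound (C := 1 / y) ?_ (Filter.Eventually.of_forall fun ω => ?_)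
    · exact (Complex.measurable_im.comp (measurable_const.sub hm).inv).aestronglyMeasurable
    · have h0 : 0 < (ζ ω).im := lt_of_lt_of_le hy (hζ ω)
      rw [Real.norm_eq_abs, abs_of_nonneg (u0_inv_im_nonneg x h0.le)]
      exact (u0_inv_im_le x h0).trans (one_div_le_one_div_of_le hy (hζ ω))
  calc ∫ ω, (((x : ℂ) - ζ ω)⁻¹).im ∂μ ≤ ∫ ω, (4 / (x - e) ^ 2 * (ζ ω).im
      + 1 / y * Set.indicator {ω | |x - e| / 2 < ‖ζ ω - e‖} (fun _ => (1 : ℝ)) ω) ∂μ := integral_mono hL hR hpt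
    _ = _ := by
      rw [integral_add (hi.const_mul _) (hind.const_mul _), integral_const_mul, integral_const_mul,
        integral_indicator hS, setIntegral_const, smul_eq_mul, mul_one]

/-! ## C. the conditional one-step lemma (the minor is frozen) -/

variable {ι : Type} [Fintype ι] [DecidableEq ι]

/-- what is used of the (zero-padded) resolvent `B` of the minor at `z = e + iy` -/
structure U0B (y C : ℝ) (B : Matrix ι ι ℂ) : Prop where
  sym : Bᵀ = B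
  im : ∀ v : ι → ℝ, 0 ≤ (qfC B v).im
  op : ∀ v : ι → ℝ, ‖qfC B v‖ ≤ 1 / y * (v ⬝ᵥ v)
  tr : ‖B.trace‖ ≤ C
  hs : ∑ i, ∑ k, ‖B i k‖ ^ 2 ≤ C / y

/-- the fluctuation `ξ = - √Δ √2 g_j + Δ (gᵀ B g - Tr B)` -/
def u0Xi (j : ι) (Δ : ℝ) (B : Matrix ι ι ℂ) (g : ι → ℝ) : ℂ :=
  -((Real.sqrt Δ * (Real.sqrt 2 * g j) : ℝ) : ℂ) + (Δ : ℂ) * (qfC B g - B.trace)

/-- the self energy `ζ = z - √Δ √2 g_j + Δ gᵀ B g` -/
def u0Z (j : ι) (Δ : ℝ) (z : ℂ) (B : Matrix ι ι ℂ) (g : ι → ℝ) : ℂ :=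
  z - ((Real.sqrt Δ * (Real.sqrt 2 * g j) : ℝ) : ℂ) + (Δ : ℂ) * qfC B g

theorem u0_eqns_cite : True := by
  have := @u0Xi.eq_1
  have := @u0Z.eq_1
  trivial

theorem u0_C_continuous (B : Matrix ι ι ℂ) : Continuous (qfC B) := by
  unfold qfC
  fun_prop

theorem u0_Z_continuous (j : ι) (Δ : ℝ) (z : ℂ) (B : Matrix ι ι ℂ) : Continuous (u0Z j Δ z B) := by
  have := u0_C_continuous B
  unfold u0Z
  fun_prop

theorem u0_Xi_continuous (j : ι) (Δ : ℝ) (B : Matrix ι ι ℂ) : Continuous (u0Xi j Δ B) := by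
  have := u0_C_continuous B
  unfold u0Xi
  fun_prop

theorem u0_Z_eq (j : ι) (Δ : ℝ) (z : ℂ) (B : Matrix ι ι ℂ) (g : ι → ℝ) :
    u0Z j Δ z B g = z + u0Xi j Δ B g + (Δ : ℂ) * B.trace := by
  unfold u0Z u0Xi
  ring

theorem u0_Z_im (j : ι) (Δ : ℝ) (z : ℂ) (B : Matrix ι ι ℂ) (g : ι → ℝ) :
    (u0Z j Δ z B g).im = z.im + Δ * (qfC B g).im := by
  unfold u0Z
  simp

/-- second moment of the fluctuation -/
theorem u0_Xi_sq {y C Δ : ℝ} {B : Matrix ι ι ℂ} (hB : U0B y C B) (hΔ : 0 ≤ Δ) (j : ι) :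
    Integrable (fun g => ‖u0Xi j Δ B g‖ ^ 2) (qfG ι) ∧ ∫ g, ‖u0Xi j Δ B g‖ ^ 2 ∂qfG ι ≤ 4 * (Δ + Δ ^ 2 * C / y) := by
  have hpt : ∀ g, ‖u0Xi j Δ B g‖ ^ 2 ≤ 4 * Δ * (g j) ^ 2 + 2 * Δ ^ 2 * ‖qfC B g - B.trace‖ ^ 2 := by
    intro g
    have h1 : ‖u0Xi j Δ B g‖ ≤ Real.sqrt Δ * (Real.sqrt 2 * |g j|) + Δ * ‖qfC B g - B.trace‖ := by
      unfold u0Xi
      refine (norm_add_le _ _).trans (add_le_add (le_of_eq ?_) (le_of_eq ?_))
      · rw [norm_neg, Complex.norm_real, Real.norm_eq_abs, abs_mul, abs_mul, abs_of_nonneg (Real.sqrt_nonneg _),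
          abs_of_nonneg (Real.sqrt_nonneg _)]
      · rw [norm_mul, Complex.norm_real, Real.norm_eq_abs, abs_of_nonneg hΔ]
    have h2 : (Real.sqrt Δ * (Real.sqrt 2 * |g j|)) ^ 2 = 2 * Δ * (g j) ^ 2 := by
      rw [mul_pow, mul_pow, Real.sq_sqrt hΔ, Real.sq_sqrt (by norm_num), sq_abs]
      ring
    have h3 := pow_le_pow_left₀ (norm_nonneg _) h1 2
    nlinarith [sq_nonneg (Real.sqrt Δ * (Real.sqrt 2 * |g j|) - Δ * ‖qfC B g - B.trace‖)]
  have i1 : Integrable (fun g : ι → ℝ => 4 * Δ * (g j) ^ 2) (qfG ι) :=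
    (qf_coord_integrable (qf_g1_pow_integrable 2) j).const_mul _
  have i2 : Integrable (fun g : ι → ℝ => 2 * Δ ^ 2 * ‖qfC B g - B.trace‖ ^ 2) (qfG ι) :=
    (qf_C_sq_integrable hB.sym).const_mul _
  have i3 : Integrable (fun g => ‖u0Xi j Δ B g‖ ^ 2) (qfG ι) := by
    refine (i1.add i2).mono' ((u0_Xi_continuous j Δ B).norm.pow 2).aestronglyMeasurable
      (Filter.Eventually.of_forall fun g => ?_)
    rw [Real.norm_eq_abs, abs_of_nonneg (by positivity)]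
    exact hpt g
  refine ⟨i3, ?_⟩
  calc ∫ g, ‖u0Xi j Δ B g‖ ^ 2 ∂qfG ι ≤ ∫ g, (4 * Δ * (g j) ^ 2 + 2 * Δ ^ 2 * ‖qfC B g - B.trace‖ ^ 2) ∂qfG ι :=
        integral_mono i3 (i1.add i2) hpt
    _ = 4 * Δ + 2 * Δ ^ 2 * (2 * ∑ i, ∑ k, ‖B i k‖ ^ 2) := by
        rw [integral_add i1 i2, integral_const_mul, integral_const_mul, qf_C_var hB.sym,
          qf_coord_integral (f := fun t => t ^ 2) (by fun_prop), qf_g1_sq, mul_one]
    _ ≤ 4 * Δ + 2 * Δ ^ 2 * (2 * (C / y)) := by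
        have := hB.hs
        gcongr
    _ = 4 * (Δ + Δ ^ 2 * C / y) := by ring

/-- **Chebyshev form** (A9 1(d)) -/
theorem u0_Xi_cheb {y C Δ r : ℝ} {B : Matrix ι ι ℂ} (hB : U0B y C B) (hΔ : 0 ≤ Δ) (hr : 0 < r) (j : ι) :
    (qfG ι).real {g | r / 4 < ‖u0Xi j Δ B g‖} ≤ 64 * (Δ + Δ ^ 2 * C / y) / r ^ 2 := by
  obtain ⟨i3, h3⟩ := u0_Xi_sq hB hΔ j
  have h := mul_meas_ge_le_integral_of_nonneg (μ := qfG ι) (f := fun g => ‖u0Xi j Δ B g‖ ^ 2)
    (Filter.Eventually.of_forall fun g => sq_nonneg _) i3 ((r / 4) ^ 2)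
  have hs : {g | r / 4 < ‖u0Xi j Δ B g‖} ⊆ {g | (r / 4) ^ 2 ≤ ‖u0Xi j Δ B g‖ ^ 2} := by
    intro g hg
    simp only [Set.mem_ofPred_eq] at hg ⊢
    exact pow_le_pow_left₀ (by positivity) hg.le 2
  have h4 := (mul_le_mul_of_nonneg_left (measureReal_mono (μ := qfG ι) hs) (by positivity : 0 ≤ (r / 4) ^ 2)).trans (h.trans h3)
  rw [le_div_iff₀ (by positivity)]
  nlinarith

theorem u0_coord_tail (j : ι) {s : ℝ} (hs : 0 ≤ s) :
    (qfG ι).real {g | s ≤ |g j|} ≤ 2 * Real.exp (-s ^ 2 / 2) := by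
  have hS : MeasurableSet {t : ℝ | s ≤ |t|} := measurableSet_le measurable_const measurable_id.abs
  have h1 : (qfG ι) {g | s ≤ |g j|} = (gaussianReal 0 1) {t : ℝ | s ≤ |t|} :=
    (measurePreserving_eval (fun _ : ι => gaussianReal 0 1) j).measure_preimage hS.nullMeasurableSet
  have h2 : (qfG ι).real {g | s ≤ |g j|} = (gaussianReal 0 1).real {t : ℝ | s ≤ |t|} := by
    unfold Measure.real
    rw [h1]
  rw [h2]
  exact qf_g1_tail hs

/-- **Bernstein form** (A9 1(e)) -/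
theorem u0_Xi_bern {y C Δ r : ℝ} {B : Matrix ι ι ℂ} (hB : U0B y C B) (hy : 0 < y) (hC : 0 < C) (hΔ : 0 < Δ)
    (hr : 16 * Δ * C ≤ r) (j : ι) :
    (qfG ι).real {g | r / 4 < ‖u0Xi j Δ B g‖} ≤ 2 * Real.exp (-r ^ 2 / (256 * Δ)) + 4 * Real.exp (-(y * r) / (128 * Δ)) := by
  have hr0 : 0 < r := lt_of_lt_of_le (by positivity) hr
  have hsΔ : 0 < Real.sqrt Δ := Real.sqrt_pos.2 hΔ
  have hs2 : 0 < Real.sqrt 2 := Real.sqrt_pos.2 (by norm_num)
  have hs : {g | r / 4 < ‖u0Xi j Δ B g‖} ⊆ {g | r / (8 * (Real.sqrt Δ * Real.sqrt 2)) ≤ |g j|}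
      ∪ {g | r / (8 * Δ) ≤ ‖qfC B g - B.trace‖} := by
    intro g hg
    simp only [Set.mem_ofPred_eq, Set.mem_union] at hg ⊢
    by_contra hcon
    push Not at hcon
    obtain ⟨c1, c2⟩ := hcon
    rw [lt_div_iff₀ (by positivity)] at c1 c2
    have h1 : ‖u0Xi j Δ B g‖ ≤ Real.sqrt Δ * (Real.sqrt 2 * |g j|) + Δ * ‖qfC B g - B.trace‖ := by
      unfold u0Xi
      refine (norm_add_le _ _).trans (add_le_add (le_of_eq ?_) (le_of_eq ?_))
      · rw [norm_neg, Complex.norm_real, Real.norm_eq_abs, abs_mul, abs_mul, abs_of_nonneg (Real.sqrt_nonneg _),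
          abs_of_nonneg (Real.sqrt_nonneg _)]
      · rw [norm_mul, Complex.norm_real, Real.norm_eq_abs, abs_of_nonneg hΔ.le]
    nlinarith
  have t1 := u0_coord_tail j (s := r / (8 * (Real.sqrt Δ * Real.sqrt 2))) (by positivity)
  have e1 : -(r / (8 * (Real.sqrt Δ * Real.sqrt 2))) ^ 2 / 2 = -r ^ 2 / (256 * Δ) := by
    rw [div_pow, mul_pow, mul_pow, Real.sq_sqrt hΔ.le, Real.sq_sqrt (by norm_num)]
    field_simp
    ring
  rw [e1] at t1
  have t2 := qf_C_tail hB.sym (α := 1 / y) (H := C / y) (r := r / (8 * Δ)) hB.op (by positivity) (by positivity) hB.hs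
    (by positivity)
  have e2 : (y * r) / (128 * Δ) ≤ min ((r / (8 * Δ)) ^ 2 / (32 * (C / y))) (r / (8 * Δ) / (16 * (1 / y))) := by
    refine le_min ?_ (le_of_eq ?_)
    · have e3 : (r / (8 * Δ)) ^ 2 / (32 * (C / y)) = (y * r) / (128 * Δ) * (r / (16 * Δ * C)) := by
        field_simp
        ring
      rw [e3]
      have h1 : 1 ≤ r / (16 * Δ * C) := by rwa [le_div_iff₀ (by positivity), one_mul]
      have h2 : 0 ≤ (y * r) / (128 * Δ) := by positivity
      nlinarith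
    · field_simp
      ring
  have t3 : 4 * Real.exp (-min ((r / (8 * Δ)) ^ 2 / (32 * (C / y))) (r / (8 * Δ) / (16 * (1 / y))))
      ≤ 4 * Real.exp (-(y * r) / (128 * Δ)) := by
    have : -min ((r / (8 * Δ)) ^ 2 / (32 * (C / y))) (r / (8 * Δ) / (16 * (1 / y))) ≤ -(y * r) / (128 * Δ) := by
      rw [neg_div]
      exact neg_le_neg e2
    have := Real.exp_le_exp.2 this
    linarith
  calc _ ≤ (qfG ι).real _ := measureReal_mono hs
    _ ≤ _ := measureReal_union_le _ _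
    _ ≤ _ := by linarith

/-- **the conditional one-step lemma** (A9 1(c)): the minor is frozen, the row is Gaussian -/
theorem u0_cond {C Δ x : ℝ} {z : ℂ} {B : Matrix ι ι ℂ} (hB : U0B z.im C B) (hy : 0 < z.im) (hΔ : 0 ≤ Δ)
    (hr : 4 * (z.im + Δ * C) ≤ |x - z.re|) (j : ι) :
    ∫ g, (((x : ℂ) - u0Z j Δ z B g)⁻¹).im ∂qfG ι ≤ 4 * (z.im + Δ * C) / (x - z.re) ^ 2
      + 1 / z.im * (qfG ι).real {g | |x - z.re| / 4 < ‖u0Xi j Δ B g‖} := by
  have hC : 0 ≤ C := (norm_nonneg _).trans hB.tr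
  have hr0 : 0 < |x - z.re| := lt_of_lt_of_le (by positivity) hr
  have hx : x ≠ z.re := sub_ne_zero.1 (abs_pos.1 hr0)
  have hsq : 0 < (x - z.re) ^ 2 := by rw [← sq_abs]; positivity
  have hi0 : Integrable (fun g => (qfC B g).im) (qfG ι) := by
    simp only [qf_C_im]
    exact qf_Q_integrable (qf_im_herm hB.sym)
  have hi : Integrable (fun g => (u0Z j Δ z B g).im) (qfG ι) := by
    simp only [u0_Z_im]
    exact (integrable_const _).add (hi0.const_mul _)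
  have h1 := u0_split (qfG ι) (u0_Z_continuous j Δ z B).measurable (x := x) (e := z.re) hy
    (fun g => by rw [u0_Z_im]; have := mul_nonneg hΔ (hB.im g); linarith) hi hx
  have h2 : ∫ g, (u0Z j Δ z B g).im ∂qfG ι ≤ z.im + Δ * C := by
    simp only [u0_Z_im]
    rw [integral_add (integrable_const _) (hi0.const_mul _), integral_const_mul]
    simp only [qf_C_im]
    rw [qf_mean (qf_im_herm hB.sym), ← qf_trace_im]
    simp only [integral_const, probReal_univ, smul_eq_mul, one_mul]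
    have : (B.trace).im ≤ C := ((le_abs_self _).trans (Complex.abs_im_le_norm _)).trans hB.tr
    have := mul_le_mul_of_nonneg_left this hΔ
    linarith
  have hs : {g | |x - z.re| / 2 < ‖u0Z j Δ z B g - (z.re : ℂ)‖} ⊆ {g | |x - z.re| / 4 < ‖u0Xi j Δ B g‖} := by
    intro g hg
    simp only [Set.mem_ofPred_eq] at hg ⊢
    have e1 : u0Z j Δ z B g - (z.re : ℂ) = (z - (z.re : ℂ)) + u0Xi j Δ B g + (Δ : ℂ) * B.trace := by
      rw [u0_Z_eq]; ring
    have e2 : ‖z - (z.re : ℂ)‖ = z.im := by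
      have : z - (z.re : ℂ) = (z.im : ℂ) * Complex.I := by
        apply Complex.ext <;> simp
      rw [this, norm_mul, Complex.norm_I, mul_one, Complex.norm_real, Real.norm_eq_abs, abs_of_pos hy]
    have e3 : ‖(Δ : ℂ) * B.trace‖ ≤ Δ * C := by
      rw [norm_mul, Complex.norm_real, Real.norm_eq_abs, abs_of_nonneg hΔ]
      exact mul_le_mul_of_nonneg_left hB.tr hΔ
    have e4 : ‖u0Z j Δ z B g - (z.re : ℂ)‖ ≤ z.im + ‖u0Xi j Δ B g‖ + Δ * C := by
      rw [e1]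
      refine (norm_add_le _ _).trans (add_le_add ((norm_add_le _ _).trans (add_le_add e2.le le_rfl)) e3)
    linarith
  have h3 : (qfG ι).real {g | |x - z.re| / 2 < ‖u0Z j Δ z B g - (z.re : ℂ)‖}
      ≤ (qfG ι).real {g | |x - z.re| / 4 < ‖u0Xi j Δ B g‖} := measureReal_mono hs
  calc _ ≤ _ := h1
    _ ≤ 4 / (x - z.re) ^ 2 * (z.im + Δ * C) + 1 / z.im * (qfG ι).real {g | |x - z.re| / 4 < ‖u0Xi j Δ B g‖} := by
        gcongr
    _ = _ := by ring

/-! ## D. the link with the resolvent -/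

/-- zero padded resolvent of a full size minor: rows and columns `j` put to zero -/
def u0B (M : Matrix ι ι ℝ) (j : ι) (z : ℂ) : Matrix ι ι ℂ :=
  Matrix.of fun u v => if u = j ∨ v = j then 0 else rsG M z u v

/-- the coordinate `j` put to zero -/
def u0K (j : ι) (v : ι → ℝ) : ι → ℝ := fun u => if u = j then 0 else v u

/-- the matrix `diag(x) + √Δ W` -/
def u0M (x : ι → ℝ) (Δ : ℝ) (N : Matrix ι ι ℝ) : Matrix ι ι ℝ := Matrix.diagonal x + Real.sqrt Δ • goeOf N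

theorem u0_D_eqns_cite : True := by
  have := @u0B.eq_1
  have := @u0K.eq_1
  have := @u0M.eq_1
  trivial

theorem u0_B_apply (M : Matrix ι ι ℝ) (j : ι) (z : ℂ) (u v : ι) :
    u0B M j z u v = if u = j ∨ v = j then 0 else rsG M z u v := rfl

theorem u0_B_qf (M : Matrix ι ι ℝ) (j : ι) (z : ℂ) (v : ι → ℝ) :
    qfC (u0B M j z) v = ∑ a, ∑ b, ((u0K j v a : ℝ) : ℂ) * rsG M z a b * ((u0K j v b : ℝ) : ℂ) := by
  unfold qfC
  refine Finset.sum_congr rfl fun a _ => Finset.sum_congr rfl fun b _ => ?_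
  rw [u0_B_apply]
  unfold u0K
  by_cases ha : a = j <;> by_cases hb : b = j <;> simp [ha, hb]

theorem u0_B_qf_congr (M : Matrix ι ι ℝ) (j : ι) (z : ℂ) {v w : ι → ℝ} (h : ∀ u, u ≠ j → v u = w u) :
    qfC (u0B M j z) v = qfC (u0B M j z) w := by
  rw [u0_B_qf, u0_B_qf]
  have : u0K j v = u0K j w := by
    funext u
    unfold u0K
    by_cases hu : u = j
    · simp [hu]
    · simp [hu, h u hu]
  rw [this]

theorem u0_qf_smul (B : Matrix ι ι ℂ) (c : ℝ) (v : ι → ℝ) : qfC B (fun u => c * v u) = ((c ^ 2 : ℝ) : ℂ) * qfC B v := by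
  unfold qfC
  rw [Finset.mul_sum]
  refine Finset.sum_congr rfl fun a _ => ?_
  rw [Finset.mul_sum]
  refine Finset.sum_congr rfl fun b _ => ?_
  push_cast
  ring

theorem u0_K_sq_le (j : ι) (v : ι → ℝ) : ∑ u, u0K j v u ^ 2 ≤ v ⬝ᵥ v := by
  unfold dotProduct u0K
  refine Finset.sum_le_sum fun u _ => ?_
  by_cases hu : u = j
  · simp only [if_pos hu]; nlinarith [mul_self_nonneg (v u)]
  · simp only [if_neg hu]; nlinarith

theorem u0_B_trace_eq (M : Matrix ι ι ℝ) (j : ι) (z : ℂ) : (u0B M j z).trace = ∑ u, if u = j then 0 else rsG M z u u := by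
  unfold Matrix.trace
  refine Finset.sum_congr rfl fun u _ => ?_
  rw [Matrix.diag_apply, u0_B_apply]
  simp

/-- the zero padded resolvent of a real symmetric matrix has the properties `U0B` -/
theorem u0_B_ok {M : Matrix ι ι ℝ} (hM : M.IsHermitian) {z : ℂ} (hz : 0 < z.im) (j : ι) {C : ℝ}
    (hC : ‖(u0B M j z).trace‖ ≤ C) : U0B z.im C (u0B M j z) where
  sym := by
    ext u v
    rw [Matrix.transpose_apply, u0_B_apply, u0_B_apply, rs_G_symm hM hz.ne' v u]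
    simp only [or_comm]
  im v := by
    rw [u0_B_qf]
    exact rs_quad_im_nonneg hM hz _
  op v := by
    rw [u0_B_qf]
    refine (rs_bilin_le hM hz _ _).trans ?_
    rw [Real.mul_self_sqrt (Finset.sum_nonneg fun u _ => sq_nonneg _), div_eq_mul_inv, mul_comm, one_div]
    exact mul_le_mul_of_nonneg_left (u0_K_sq_le j v) (inv_nonneg.2 hz.le)
  tr := hC
  hs := by
    have h1 : ∀ i, ∑ k, ‖u0B M j z i k‖ ^ 2 ≤ (if i = j then 0 else rsG M z i i).im / z.im := by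
      intro i
      by_cases hi : i = j
      · simp [u0_B_apply, hi]
      · rw [if_neg hi, ← rs_ward hM hz.ne' i]
        refine Finset.sum_le_sum fun k _ => ?_
        rw [u0_B_apply]
        by_cases hk : k = j
        · simp [hk]
        · simp [hi, hk]
    calc ∑ i, ∑ k, ‖u0B M j z i k‖ ^ 2 ≤ ∑ i, (if i = j then 0 else rsG M z i i).im / z.im := Finset.sum_le_sum fun i _ => h1 i
      _ = ((u0B M j z).trace).im / z.im := by rw [u0_B_trace_eq, Complex.im_sum, Finset.sum_div]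
      _ ≤ C / z.im := div_le_div_of_nonneg_right (((le_abs_self _).trans (Complex.abs_im_le_norm _)).trans hC) hz.le

/-- **trace of the minor, without interlacing** (A9 1(b)) -/
theorem u0_B_trace {A : Matrix ι ι ℝ} (hA : A.IsHermitian) {z : ℂ} (hz : 0 < z.im) (j : ι) :
    ‖(rsG A z).trace - (u0B (rsDel A {j}) j z).trace‖ ≤ 1 / z.im := by
  have h0 := rs_G_diag_ne hA hz.ne' j
  have e : (rsG A z).trace - (u0B (rsDel A {j}) j z).trace = (∑ a, rsG A z a j * rsG A z j a) / rsG A z j j := by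
    rw [u0_B_trace_eq, Matrix.trace, ← Finset.sum_sub_distrib, Finset.sum_div]
    refine Finset.sum_congr rfl fun a _ => ?_
    rw [Matrix.diag_apply]
    by_cases ha : a = j
    · subst ha
      rw [if_pos rfl, sub_zero]
      field_simp
    · rw [if_neg ha, rs_remove hA hz.ne' ha]
      ring
  rw [e, norm_div, div_le_iff₀ (norm_pos_iff.2 h0)]
  calc _ ≤ ‖rsG A z j j‖ / z.im := rs_sq_sum_le hA hz j
    _ = 1 / z.im * ‖rsG A z j j‖ := by ring

/-- **Schur** (A9 1(a)) for a general real symmetric matrix -/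
theorem u0_schur {A : Matrix ι ι ℝ} (hA : A.IsHermitian) {z : ℂ} (hz : z.im ≠ 0) (j : ι) :
    rsG A z j j = ((A j j : ℂ) - z - qfC (u0B (rsDel A {j}) j z) (A j))⁻¹ := by
  rw [rs_cavity hA hz j, one_div]
  congr 2
  unfold qfC
  rw [← Finset.sum_add_sum_compl ({j} : Finset ι) (fun a => ∑ b, (A j a : ℂ) * u0B (rsDel A {j}) j z a b * (A j b : ℂ)),
    Finset.sum_singleton]
  have h1 : ∑ b, (A j j : ℂ) * u0B (rsDel A {j}) j z j b * (A j b : ℂ) = 0 :=
    Finset.sum_eq_zero fun b _ => by rw [u0_B_apply]; simp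
  rw [h1, zero_add]
  refine Finset.sum_congr rfl fun a ha => ?_
  have ha' : a ≠ j := by simpa using ha
  rw [← Finset.sum_add_sum_compl ({j} : Finset ι) (fun b => (A j a : ℂ) * u0B (rsDel A {j}) j z a b * (A j b : ℂ)),
    Finset.sum_singleton]
  have h2 : (A j a : ℂ) * u0B (rsDel A {j}) j z a j * (A j j : ℂ) = 0 := by rw [u0_B_apply]; simp
  rw [h2, zero_add]
  refine Finset.sum_congr rfl fun b hb => ?_
  have hb' : b ≠ j := by simpa using hb
  rw [u0_B_apply, if_neg (by simp [ha', hb']), rs_A_symm hA b j]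

theorem u0_goe_herm (N : Matrix ι ι ℝ) : (goeOf N).IsHermitian := by
  ext a b
  simp only [goeOf, Matrix.conjTranspose_apply, Matrix.smul_apply, Matrix.add_apply, Matrix.transpose_apply, star_trivial,
    smul_eq_mul]
  ring

theorem u0_M_herm (x : ι → ℝ) (Δ : ℝ) (N : Matrix ι ι ℝ) : (u0M x Δ N).IsHermitian := by
  unfold u0M
  refine Matrix.IsHermitian.add ?_ ?_
  · exact Matrix.isHermitian_diagonal_of_self_adjoint _ (by ext; simp)
  · ext a b
    have := (u0_goe_herm N).apply a b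
    simp only [star_trivial] at this
    simp [Matrix.conjTranspose_apply, this]

/-- the minor of `diag(x) + √Δ W` as a function of the minor of `W` -/
def u0Mj (x : ι → ℝ) (Δ : ℝ) (j : ι) (M : Matrix ι ι ℝ) : Matrix ι ι ℝ := rsDel (Matrix.diagonal x) {j} + Real.sqrt Δ • M

theorem u0_Mj_eq (x : ι → ℝ) (Δ : ℝ) (j : ι) (N : Matrix ι ι ℝ) :
    rsDel (u0M x Δ N) {j} = u0Mj x Δ j (rsDel (goeOf N) {j}) := by
  ext a b
  unfold u0M u0Mj
  simp only [rs_del_apply, Matrix.add_apply, Matrix.smul_apply, smul_eq_mul]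
  by_cases h : a ∈ ({j} : Finset ι) ∨ b ∈ ({j} : Finset ι)
  · rw [if_pos h, if_pos h, if_pos h]; simp
  · rw [if_neg h, if_neg h, if_neg h]

/-- **Schur for `diag(x) + √Δ W`**: `G_jj = 1/(x_j - ζ_j)`, `ζ_j = z - √Δ W_jj + Δ wᵀ G^{(j)} w` -/
theorem u0_schur_M (x : ι → ℝ) {Δ : ℝ} (hΔ : 0 ≤ Δ) (N : Matrix ι ι ℝ) {z : ℂ} (hz : z.im ≠ 0) (j : ι) :
    rsG (u0M x Δ N) z j j = ((x j : ℂ) - (z - ((Real.sqrt Δ * goeOf N j j : ℝ) : ℂ)
      + (Δ : ℂ) * qfC (u0B (u0Mj x Δ j (rsDel (goeOf N) {j})) j z) (goeOf N j)))⁻¹ := by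
  rw [u0_schur (u0_M_herm x Δ N) hz j, u0_Mj_eq]
  have e1 : qfC (u0B (u0Mj x Δ j (rsDel (goeOf N) {j})) j z) (u0M x Δ N j)
      = qfC (u0B (u0Mj x Δ j (rsDel (goeOf N) {j})) j z) (fun u => Real.sqrt Δ * goeOf N j u) := by
    refine u0_B_qf_congr _ j z fun u hu => ?_
    unfold u0M
    simp [Matrix.diagonal_apply_ne _ (Ne.symm hu)]
  rw [e1, u0_qf_smul, Real.sq_sqrt hΔ]
  have e2 : (u0M x Δ N j j : ℂ) = (x j : ℂ) + ((Real.sqrt Δ * goeOf N j j : ℝ) : ℂ) := by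
    unfold u0M
    simp
  rw [e2]
  congr 1
  ring

/-! ### measurability -/

theorem u0_G_measurable (z : ℂ) (u v : ι) : Measurable fun A : Matrix ι ι ℝ => rsG A z u v := by
  have e : (fun A : Matrix ι ι ℝ => rsG A z u v)
      = fun A => ((rsC A - z • (1 : Matrix ι ι ℂ)).det)⁻¹ * (rsC A - z • (1 : Matrix ι ι ℂ)).adjugate u v := by
    funext A
    unfold rsG
    rw [Matrix.inv_def, Matrix.smul_apply, Ring.inverse_eq_inv', smul_eq_mul]
  rw [e]
  have hc : Continuous fun A : Matrix ι ι ℝ => rsC A - z • (1 : Matrix ι ι ℂ) := by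
    have : Continuous fun A : Matrix ι ι ℝ => rsC A := by
      show Continuous fun A : Matrix ι ι ℝ => A.map Complex.ofRealHom
      exact Continuous.matrix_map continuous_id Complex.continuous_ofReal
    exact this.sub continuous_const
  have h1 : Measurable fun A : Matrix ι ι ℝ => (rsC A - z • (1 : Matrix ι ι ℂ)).det := hc.matrix_det.measurable
  have h2 : Measurable fun A : Matrix ι ι ℝ => (rsC A - z • (1 : Matrix ι ι ℂ)).adjugate u v :=
    (hc.matrix_adjugate.matrix_elem u v).measurable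
  exact h1.inv.mul h2

theorem u0_M_measurable (x : ι → ℝ) (Δ : ℝ) : Measurable (u0M x Δ) := by
  refine u0_measurable_of_entries fun k l => ?_
  unfold u0M
  simp only [Matrix.add_apply, Matrix.smul_apply, smul_eq_mul]
  have : Measurable fun N : Matrix ι ι ℝ => goeOf N k l := (u0_entry_measurable k l).comp u0_goe_measurable
  exact measurable_const.add (this.const_mul _)

theorem u0_Mj_measurable (x : ι → ℝ) (Δ : ℝ) (j : ι) : Measurable (u0Mj x Δ j) := by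
  refine u0_measurable_of_entries fun k l => ?_
  unfold u0Mj
  simp only [Matrix.add_apply, Matrix.smul_apply, smul_eq_mul]
  exact measurable_const.add ((u0_entry_measurable k l).const_mul _)

theorem u0_B_measurable (j : ι) (z : ℂ) (u v : ι) : Measurable fun M : Matrix ι ι ℝ => u0B M j z u v := by
  simp only [u0_B_apply]
  by_cases h : u = j ∨ v = j
  · simp only [if_pos h]; exact measurable_const
  · simp only [if_neg h]; exact u0_G_measurable z u v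

/-! ## F. the site bound and the summed forms -/

theorem u0_Mj_herm (x : ι → ℝ) (Δ : ℝ) (j : ι) {M : Matrix ι ι ℝ} (hM : M.IsHermitian) : (u0Mj x Δ j M).IsHermitian := by
  unfold u0Mj
  refine Matrix.IsHermitian.add (rs_del_herm (Matrix.isHermitian_diagonal_of_self_adjoint _ (by ext; simp)) _) ?_
  ext a b
  have := hM.apply a b
  simp only [star_trivial] at this
  simp [Matrix.conjTranspose_apply, this]

/-- the self energy as a function of the row `ρ` of `W` and of the minor `M` of `W` -/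
def u0Zr (x : ι → ℝ) (Δ : ℝ) (z : ℂ) (j : ι) (ρ : ι → ℝ) (M : Matrix ι ι ℝ) : ℂ :=
  z - ((Real.sqrt Δ * ρ j : ℝ) : ℂ) + (Δ : ℂ) * qfC (u0B (u0Mj x Δ j M) j z) ρ

/-- the integrand after Schur, on the event `good_j` (a function of the minor only) -/
def u0F (x : ι → ℝ) (Δ C : ℝ) (z : ℂ) (j : ι) (ρ : ι → ℝ) (M : Matrix ι ι ℝ) : ℝ :=
  if ‖(u0B (u0Mj x Δ j M) j z).trace‖ ≤ C then (((x j : ℂ) - u0Zr x Δ z j ρ M)⁻¹).im else 0

theorem u0_F_eqns_cite : True := by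
  have := @u0Mj.eq_1
  have := @u0Zr.eq_1
  have := @u0F.eq_1
  trivial

theorem u0_Zr_im (x : ι → ℝ) (Δ : ℝ) (z : ℂ) (j : ι) (ρ : ι → ℝ) (M : Matrix ι ι ℝ) :
    (u0Zr x Δ z j ρ M).im = z.im + Δ * (qfC (u0B (u0Mj x Δ j M) j z) ρ).im := by
  unfold u0Zr
  simp

theorem u0_Zr_im_ge (x : ι → ℝ) {Δ : ℝ} (hΔ : 0 ≤ Δ) {z : ℂ} (hz : 0 < z.im) (j : ι) (ρ : ι → ℝ) {M : Matrix ι ι ℝ}
    (hM : M.IsHermitian) : z.im ≤ (u0Zr x Δ z j ρ M).im := by
  rw [u0_Zr_im, u0_B_qf]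
  have := mul_nonneg hΔ (rs_quad_im_nonneg (u0_Mj_herm x Δ j hM) hz (u0K j ρ))
  linarith

theorem u0_F_nonneg (x : ι → ℝ) {Δ : ℝ} (hΔ : 0 ≤ Δ) (C : ℝ) {z : ℂ} (hz : 0 < z.im) (j : ι) (ρ : ι → ℝ) {M : Matrix ι ι ℝ}
    (hM : M.IsHermitian) : 0 ≤ u0F x Δ C z j ρ M := by
  unfold u0F
  split_ifs
  · exact u0_inv_im_nonneg _ (hz.le.trans (u0_Zr_im_ge x hΔ hz j ρ hM))
  · exact le_rfl

theorem u0_F_le (x : ι → ℝ) {Δ : ℝ} (hΔ : 0 ≤ Δ) (C : ℝ) {z : ℂ} (hz : 0 < z.im) (j : ι) (ρ : ι → ℝ) {M : Matrix ι ι ℝ}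
    (hM : M.IsHermitian) : u0F x Δ C z j ρ M ≤ 1 / z.im := by
  unfold u0F
  have h1 := u0_Zr_im_ge x hΔ hz j ρ hM
  split_ifs
  · exact (u0_inv_im_le _ (lt_of_lt_of_le hz h1)).trans (one_div_le_one_div_of_le hz h1)
  · positivity

theorem u0_F_measurable (x : ι → ℝ) (Δ C : ℝ) (z : ℂ) (j : ι) : Measurable (Function.uncurry (u0F x Δ C z j)) := by
  have hB : ∀ u v, Measurable fun p : (ι → ℝ) × Matrix ι ι ℝ => u0B (u0Mj x Δ j p.2) j z u v := fun u v =>
    (u0_B_measurable j z u v).comp ((u0_Mj_measurable x Δ j).comp measurable_snd)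
  have hρ : ∀ u, Measurable fun p : (ι → ℝ) × Matrix ι ι ℝ => ((p.1 u : ℝ) : ℂ) := fun u =>
    Complex.measurable_ofReal.comp ((measurable_pi_apply u).comp measurable_fst)
  have hq : Measurable fun p : (ι → ℝ) × Matrix ι ι ℝ => qfC (u0B (u0Mj x Δ j p.2) j z) p.1 := by
    unfold qfC
    exact Finset.measurable_fun_sum _ fun a _ => Finset.measurable_fun_sum _ fun b _ => ((hρ a).mul (hB a b)).mul (hρ b)
  have ht : Measurable fun p : (ι → ℝ) × Matrix ι ι ℝ => (u0B (u0Mj x Δ j p.2) j z).trace := by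
    unfold Matrix.trace
    exact Finset.measurable_fun_sum _ fun a _ => hB a a
  have hZ : Measurable fun p : (ι → ℝ) × Matrix ι ι ℝ => u0Zr x Δ z j p.1 p.2 := by
    unfold u0Zr
    have h1 : Measurable fun p : (ι → ℝ) × Matrix ι ι ℝ => ((Real.sqrt Δ * p.1 j : ℝ) : ℂ) :=
      Complex.measurable_ofReal.comp (((measurable_pi_apply j).comp measurable_fst).const_mul _)
    exact (measurable_const.sub h1).add (hq.const_mul _)
  have : Function.uncurry (u0F x Δ C z j) = fun p : (ι → ℝ) × Matrix ι ι ℝ =>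
      if ‖(u0B (u0Mj x Δ j p.2) j z).trace‖ ≤ C then (((x j : ℂ) - u0Zr x Δ z j p.1 p.2)⁻¹).im else 0 := by
    funext p
    rfl
  rw [this]
  exact Measurable.ite (measurableSet_le ht.norm measurable_const)
    (Complex.measurable_im.comp (measurable_const.sub hZ).inv) measurable_const

/-- with a Gaussian row the self energy is `u0Z` -/
theorem u0_Zr_D (x : ι → ℝ) (Δ : ℝ) (z : ℂ) (j : ι) (g : ι → ℝ) (M : Matrix ι ι ℝ) :
    u0Zr x Δ z j (u0D j g) M = u0Z j Δ z (u0B (u0Mj x Δ j M) j z) g := by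
  unfold u0Zr u0Z
  have e1 : u0D j g j = Real.sqrt 2 * g j := by unfold u0D; simp
  have e2 : qfC (u0B (u0Mj x Δ j M) j z) (u0D j g) = qfC (u0B (u0Mj x Δ j M) j z) g :=
    u0_B_qf_congr _ j z fun u hu => by unfold u0D; simp [hu]
  rw [e1, e2]

theorem u0_good_measurable (x : ι → ℝ) (Δ C0 : ℝ) (z : ℂ) : MeasurableSet {N : Matrix ι ι ℝ | ‖(rsG (u0M x Δ N) z).trace‖ ≤ C0} := by
  have : Measurable fun N : Matrix ι ι ℝ => (rsG (u0M x Δ N) z).trace := by
    unfold Matrix.trace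
    exact Finset.measurable_fun_sum _ fun a _ => (u0_G_measurable z a a).comp (u0_M_measurable x Δ)
  exact measurableSet_le this.norm measurable_const

/-- **the site bound** (A9 1(c)), with any bound `P` of the tail of the fluctuation, uniform in the admissible minors -/
theorem u0_site (x : ι → ℝ) {Δ C0 P : ℝ} {z : ℂ} (hΔ : 0 ≤ Δ) (hz : 0 < z.im) (hC0 : 0 ≤ C0) (j : ι)
    (hr : 4 * (z.im + Δ * (C0 + 1 / z.im)) ≤ |x j - z.re|) (hP0 : 0 ≤ P)
    (hP : ∀ B : Matrix ι ι ℂ, U0B z.im (C0 + 1 / z.im) B → (qfG ι).real {g | |x j - z.re| / 4 < ‖u0Xi j Δ B g‖} ≤ P) :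
    ∫ N in {N | ‖(rsG (u0M x Δ N) z).trace‖ ≤ C0}, (rsG (u0M x Δ N) z j j).im ∂gArr ι ι
      ≤ 4 * (z.im + Δ * (C0 + 1 / z.im)) / (x j - z.re) ^ 2 + 1 / z.im * P := by
  set C : ℝ := C0 + 1 / z.im with hCdef
  have hmin : ∀ N : Matrix ι ι ℝ, (rsDel (goeOf N) {j}).IsHermitian := fun N => rs_del_herm (u0_goe_herm N) _
  have hFm := u0_F_measurable x Δ C z j
  have hΦ : Measurable fun N : Matrix ι ι ℝ => (goeOf N j, rsDel (goeOf N) {j}) :=
    ((measurable_pi_apply j).comp u0_goe_measurable).prodMk ((u0_cut_measurable j).comp u0_goe_measurable)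
  have hFi : Integrable (fun N => u0F x Δ C z j (goeOf N j) (rsDel (goeOf N) {j})) (gArr ι ι) := by
    refine Integrable.of_bound (C := 1 / z.im) (hFm.comp hΦ).aestronglyMeasurable (Filter.Eventually.of_forall fun N => ?_)
    rw [Real.norm_eq_abs, abs_of_nonneg (u0_F_nonneg x hΔ C hz j _ (hmin N))]
    exact u0_F_le x hΔ C hz j _ (hmin N)
  -- step 1: Schur and `good ⊆ good_j`
  have hpt : ∀ N : Matrix ι ι ℝ, Set.indicator {N | ‖(rsG (u0M x Δ N) z).trace‖ ≤ C0} (fun N => (rsG (u0M x Δ N) z j j).im) N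
      ≤ u0F x Δ C z j (goeOf N j) (rsDel (goeOf N) {j}) := by
    intro N
    by_cases hN : ‖(rsG (u0M x Δ N) z).trace‖ ≤ C0
    · rw [Set.indicator_of_mem (show N ∈ {N | ‖(rsG (u0M x Δ N) z).trace‖ ≤ C0} from hN)]
      have h1 := u0_B_trace (u0_M_herm x Δ N) hz j
      rw [u0_Mj_eq] at h1
      have h2 : ‖(u0B (u0Mj x Δ j (rsDel (goeOf N) {j})) j z).trace‖ ≤ C := by
        have := norm_sub_norm_le (u0B (u0Mj x Δ j (rsDel (goeOf N) {j})) j z).trace (rsG (u0M x Δ N) z).trace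
        rw [norm_sub_rev] at this
        linarith
      unfold u0F
      rw [if_pos h2, u0_schur_M x hΔ N hz.ne' j]
      rfl
    · rw [Set.indicator_of_notMem (show N ∉ {N | ‖(rsG (u0M x Δ N) z).trace‖ ≤ C0} from hN)]
      exact u0_F_nonneg x hΔ C hz j _ (hmin N)
  have hLi : Integrable (Set.indicator {N | ‖(rsG (u0M x Δ N) z).trace‖ ≤ C0} (fun N => (rsG (u0M x Δ N) z j j).im)) (gArr ι ι) := by
    refine Integrable.indicator ?_ (u0_good_measurable x Δ C0 z)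
    refine Integrable.of_bound (C := 1 / z.im)
      (Complex.measurable_im.comp ((u0_G_measurable z j j).comp (u0_M_measurable x Δ))).aestronglyMeasurable
      (Filter.Eventually.of_forall fun N => ?_)
    rw [Real.norm_eq_abs, abs_of_pos (rs_G_im_pos (u0_M_herm x Δ N) hz j)]
    exact rs_G_im_le (u0_M_herm x Δ N) hz j
  -- step 2: the inner integral
  have hCnn : 0 ≤ C := by rw [hCdef]; positivity
  have hbd : 0 ≤ 4 * (z.im + Δ * C) / (x j - z.re) ^ 2 + 1 / z.im * P := by positivity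
  have hin : ∀ N : Matrix ι ι ℝ, ∫ g, u0F x Δ C z j (u0D j g) (rsDel (goeOf N) {j}) ∂qfG ι
      ≤ 4 * (z.im + Δ * C) / (x j - z.re) ^ 2 + 1 / z.im * P := by
    intro N
    by_cases hN : ‖(u0B (u0Mj x Δ j (rsDel (goeOf N) {j})) j z).trace‖ ≤ C
    · have hB := u0_B_ok (u0_Mj_herm x Δ j (hmin N)) hz j hN
      have h1 := u0_cond hB hz hΔ hr j
      have h2 := hP _ hB
      have e : ∀ g, u0F x Δ C z j (u0D j g) (rsDel (goeOf N) {j})
          = (((x j : ℂ) - u0Z j Δ z (u0B (u0Mj x Δ j (rsDel (goeOf N) {j})) j z) g)⁻¹).im := by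
        intro g
        unfold u0F
        rw [if_pos hN, u0_Zr_D]
      simp only [e]
      refine h1.trans ?_
      have : 0 ≤ 1 / z.im := by positivity
      have := mul_le_mul_of_nonneg_left h2 this
      linarith
    · have e : ∀ g, u0F x Δ C z j (u0D j g) (rsDel (goeOf N) {j}) = 0 := by
        intro g
        unfold u0F
        rw [if_neg hN]
      simp only [e, integral_zero]
      exact hbd
  calc ∫ N in {N | ‖(rsG (u0M x Δ N) z).trace‖ ≤ C0}, (rsG (u0M x Δ N) z j j).im ∂gArr ι ι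
      = ∫ N, Set.indicator {N | ‖(rsG (u0M x Δ N) z).trace‖ ≤ C0} (fun N => (rsG (u0M x Δ N) z j j).im) N ∂gArr ι ι :=
        (integral_indicator (u0_good_measurable x Δ C0 z)).symm
    _ ≤ ∫ N, u0F x Δ C z j (goeOf N j) (rsDel (goeOf N) {j}) ∂gArr ι ι := integral_mono hLi hFi hpt
    _ = ∫ N, ∫ g, u0F x Δ C z j (u0D j g) (rsDel (goeOf N) {j}) ∂qfG ι ∂gArr ι ι := u0_row_integral j _ hFm hFi
    _ ≤ ∫ _N : Matrix ι ι ℝ, (4 * (z.im + Δ * C) / (x j - z.re) ^ 2 + 1 / z.im * P) ∂gArr ι ι := by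
        refine integral_mono_of_nonneg (Filter.Eventually.of_forall fun N => ?_) (integrable_const _)
          (Filter.Eventually.of_forall hin)
        exact integral_nonneg fun g => u0_F_nonneg x hΔ C hz j _ (hmin N)
    _ = _ := by simp


/-- **U0, general summed form**: the tails of the fluctuations are `≤ Q / r_j²` -/
theorem u0_main (x : ι → ℝ) {Δ C0 C1 R Q : ℝ} {z : ℂ} (hΔ : 0 ≤ Δ) (hz : 0 < z.im) (hC0 : 0 ≤ C0)
    (hR : 4 * (z.im + Δ * (C0 + 1 / z.im)) ≤ R) (hC1 : ∑ j, R / ((x j - z.re) ^ 2 + R ^ 2) ≤ C1) (hQ0 : 0 ≤ Q)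
    (hQ : ∀ j, R < |x j - z.re| → ∀ B : Matrix ι ι ℂ, U0B z.im (C0 + 1 / z.im) B →
      (qfG ι).real {g | |x j - z.re| / 4 < ‖u0Xi j Δ B g‖} ≤ Q / (x j - z.re) ^ 2) :
    ∫ N in {N | ‖(rsG (u0M x Δ N) z).trace‖ ≤ C0}, ∑ j with R < |x j - z.re|, (rsG (u0M x Δ N) z j j).im ∂gArr ι ι
      ≤ 2 * C1 / R * (4 * (z.im + Δ * (C0 + 1 / z.im)) + Q / z.im) := by
  have hR0 : 0 < R := lt_of_lt_of_le (by positivity) hR
  have hint : ∀ j, Integrable (fun N => (rsG (u0M x Δ N) z j j).im)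
      ((gArr ι ι).restrict {N | ‖(rsG (u0M x Δ N) z).trace‖ ≤ C0}) := by
    intro j
    refine Integrable.of_bound (C := 1 / z.im)
      (Complex.measurable_im.comp ((u0_G_measurable z j j).comp (u0_M_measurable x Δ))).aestronglyMeasurable
      (Filter.Eventually.of_forall fun N => ?_)
    rw [Real.norm_eq_abs, abs_of_pos (rs_G_im_pos (u0_M_herm x Δ N) hz j)]
    exact rs_G_im_le (u0_M_herm x Δ N) hz j
  rw [integral_finsetSum _ fun j _ => hint j]
  have h1 : ∀ j ∈ univ.filter (fun j => R < |x j - z.re|),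
      ∫ N in {N | ‖(rsG (u0M x Δ N) z).trace‖ ≤ C0}, (rsG (u0M x Δ N) z j j).im ∂gArr ι ι
        ≤ (4 * (z.im + Δ * (C0 + 1 / z.im)) + Q / z.im) * (1 / (x j - z.re) ^ 2) := by
    intro j hj
    have hj' : R < |x j - z.re| := (Finset.mem_filter.1 hj).2
    have := u0_site x hΔ hz hC0 j (hR.trans hj'.le) (P := Q / (x j - z.re) ^ 2) (by positivity) (hQ j hj')
    refine this.trans (le_of_eq ?_)
    ring
  refine (Finset.sum_le_sum h1).trans ?_
  rw [← Finset.mul_sum]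
  have h2 := (u0_reg x z.re hR0 hC1).1
  have h3 : 0 ≤ 4 * (z.im + Δ * (C0 + 1 / z.im)) + Q / z.im := by positivity
  calc _ ≤ (4 * (z.im + Δ * (C0 + 1 / z.im)) + Q / z.im) * (2 * C1 / R) := mul_le_mul_of_nonneg_left h2 h3
    _ = _ := by ring

/-- **U0, Chebyshev form** (A9 sec. 1 RESULT, first alternative) -/
theorem u0_main_cheb (x : ι → ℝ) {Δ C0 C1 R : ℝ} {z : ℂ} (hΔ : 0 ≤ Δ) (hz : 0 < z.im) (hC0 : 0 ≤ C0)
    (hR : 4 * (z.im + Δ * (C0 + 1 / z.im)) ≤ R) (hC1 : ∑ j, R / ((x j - z.re) ^ 2 + R ^ 2) ≤ C1) :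
    ∫ N in {N | ‖(rsG (u0M x Δ N) z).trace‖ ≤ C0}, ∑ j with R < |x j - z.re|, (rsG (u0M x Δ N) z j j).im ∂gArr ι ι
      ≤ 2 * C1 / R * (4 * (z.im + Δ * (C0 + 1 / z.im)) + 64 * (Δ + Δ ^ 2 * (C0 + 1 / z.im) / z.im) / z.im) := by
  have hR0 : 0 < R := lt_of_lt_of_le (by positivity) hR
  refine u0_main x hΔ hz hC0 hR hC1 (by positivity) fun j hj B hB => ?_
  have := u0_Xi_cheb hB hΔ (hR0.trans hj) j
  rwa [sq_abs] at this

/-- `e^{-s} ≤ 1/s` -/
theorem u0_exp_le_inv {s : ℝ} (hs : 0 < s) : Real.exp (-s) ≤ 1 / s := by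
  rw [Real.exp_neg, ← one_div]
  exact one_div_le_one_div_of_le hs ((by linarith : s ≤ s + 1).trans (Real.add_one_le_exp s))

/-- `e^{-s} ≤ 2/s²` -/
theorem u0_exp_le_inv_sq {s : ℝ} (hs : 0 < s) : Real.exp (-s) ≤ 2 / s ^ 2 := by
  have h1 : s ^ 2 / 2 ≤ Real.exp s := by
    have := Real.quadratic_le_exp_of_nonneg hs.le
    nlinarith
  rw [Real.exp_neg, ← one_div, div_le_div_iff₀ (Real.exp_pos s) (by positivity)]
  nlinarith

/-- **U0, Bernstein form** (A9 sec. 1 RESULT, second alternative): regularity of `x` at the ONE scale `R` only -/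
theorem u0_main_bern (x : ι → ℝ) {Δ C0 C1 R : ℝ} {z : ℂ} (hΔ : 0 < Δ) (hz : 0 < z.im) (hC0 : 0 ≤ C0)
    (hR : 4 * (z.im + Δ * (C0 + 1 / z.im)) ≤ R) (hR' : 16 * Δ * (C0 + 1 / z.im) ≤ R)
    (hC1 : ∑ j, R / ((x j - z.re) ^ 2 + R ^ 2) ≤ C1) :
    ∫ N in {N | ‖(rsG (u0M x Δ N) z).trace‖ ≤ C0}, ∑ j with R < |x j - z.re|, (rsG (u0M x Δ N) z j j).im ∂gArr ι ι
      ≤ 2 * C1 / R * (4 * (z.im + Δ * (C0 + 1 / z.im))
        + (1024 * Δ * Real.exp (-R ^ 2 / (512 * Δ)) + 524288 * Δ ^ 2 / z.im ^ 2 * Real.exp (-(z.im * R) / (256 * Δ))) / z.im) := by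
  have hR0 : 0 < R := lt_of_lt_of_le (by positivity) hR
  have hC : 0 < C0 + 1 / z.im := by positivity
  refine u0_main x hΔ.le hz hC0 hR hC1 (by positivity) fun j hj B hB => ?_
  set r : ℝ := |x j - z.re| with hr
  have hr0 : 0 < r := hR0.trans hj
  have h1 := u0_Xi_bern hB hz hC hΔ (hR'.trans hj.le) j
  rw [← sq_abs (x j - z.re), ← hr]
  refine h1.trans ?_
  -- Gaussian part
  have g1 : Real.exp (-r ^ 2 / (256 * Δ)) ≤ Real.exp (-R ^ 2 / (512 * Δ)) * (512 * Δ / r ^ 2) := by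
    have e1 : -r ^ 2 / (256 * Δ) = -r ^ 2 / (512 * Δ) + -(r ^ 2 / (512 * Δ)) := by field_simp; ring
    rw [e1, Real.exp_add]
    have a1 : Real.exp (-r ^ 2 / (512 * Δ)) ≤ Real.exp (-R ^ 2 / (512 * Δ)) := by
      apply Real.exp_le_exp.2
      have : R ^ 2 ≤ r ^ 2 := pow_le_pow_left₀ hR0.le hj.le 2
      rw [div_le_div_iff_of_pos_right (by positivity)]
      linarith
    have a2 : Real.exp (-(r ^ 2 / (512 * Δ))) ≤ 512 * Δ / r ^ 2 := by
      have := u0_exp_le_inv (s := r ^ 2 / (512 * Δ)) (by positivity)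
      rwa [one_div_div] at this
    exact mul_le_mul a1 a2 (Real.exp_pos _).le (Real.exp_pos _).le
  -- exponential part
  have g2 : Real.exp (-(z.im * r) / (128 * Δ)) ≤ Real.exp (-(z.im * R) / (256 * Δ)) * (131072 * Δ ^ 2 / z.im ^ 2 / r ^ 2) := by
    have e1 : -(z.im * r) / (128 * Δ) = -(z.im * r) / (256 * Δ) + -(z.im * r / (256 * Δ)) := by field_simp; ring
    rw [e1, Real.exp_add]
    have a1 : Real.exp (-(z.im * r) / (256 * Δ)) ≤ Real.exp (-(z.im * R) / (256 * Δ)) := by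
      apply Real.exp_le_exp.2
      have : z.im * R ≤ z.im * r := mul_le_mul_of_nonneg_left hj.le hz.le
      rw [div_le_div_iff_of_pos_right (by positivity)]
      linarith
    have a2 : Real.exp (-(z.im * r / (256 * Δ))) ≤ 131072 * Δ ^ 2 / z.im ^ 2 / r ^ 2 := by
      have := u0_exp_le_inv_sq (s := z.im * r / (256 * Δ)) (by positivity)
      refine this.trans (le_of_eq ?_)
      field_simp
      ring
    exact mul_le_mul a1 a2 (Real.exp_pos _).le (Real.exp_pos _).le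
  calc 2 * Real.exp (-r ^ 2 / (256 * Δ)) + 4 * Real.exp (-(z.im * r) / (128 * Δ))
      ≤ 2 * (Real.exp (-R ^ 2 / (512 * Δ)) * (512 * Δ / r ^ 2))
        + 4 * (Real.exp (-(z.im * R) / (256 * Δ)) * (131072 * Δ ^ 2 / z.im ^ 2 / r ^ 2)) := by linarith
    _ = _ := by field_simp; ring

/-- the matrices of `LStat` are of the form `u0M` -/
theorem u0_M_cut (K : ℕ) (Δ : ℝ) (x : Conf) (N : Matrix (Win K) (Win K) ℝ) : cutM K Δ x N = u0M (cPos K x) Δ N := rfl

theorem u0_rTr (H : Matrix ι ι ℝ) (z : ℂ) : rTr H z = (rsG H z).trace := rfl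

/-! ## G. per site forms (consumers: U1) -/

/-- **U0 per site, Bernstein form** -/
theorem u0_site_bern (x : ι → ℝ) {T C0 : ℝ} {z : ℂ} (hT : 0 < T) (hz : 0 < z.im) (hC0 : 0 ≤ C0) (j : ι)
    (hr : 16 * (z.im + T * (C0 + 1 / z.im)) ≤ |x j - z.re|) :
    ∫ N in {N | ‖rTr (Matrix.diagonal x + Real.sqrt T • goeOf N) z‖ ≤ C0},
        (rsG (Matrix.diagonal x + Real.sqrt T • goeOf N) z j j).im ∂gArr ι ι
      ≤ 4 * (z.im + T * (C0 + 1 / z.im)) / (x j - z.re) ^ 2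
        + 1 / z.im * (2 * Real.exp (-(x j - z.re) ^ 2 / (256 * T)) + 4 * Real.exp (-(z.im * |x j - z.re|) / (128 * T))) := by
  have hC : 0 < C0 + 1 / z.im := by positivity
  have h0 : 0 ≤ z.im + T * (C0 + 1 / z.im) := by positivity
  have h1 : 4 * (z.im + T * (C0 + 1 / z.im)) ≤ |x j - z.re| := by linarith
  have h2 : 16 * T * (C0 + 1 / z.im) ≤ |x j - z.re| := by nlinarith
  refine u0_site x hT.le hz hC0 j h1 (by positivity) fun B hB => ?_
  have := u0_Xi_bern hB hz hC hT h2 j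
  rwa [sq_abs] at this

/-- **U0 per site, Chebyshev form** -/
theorem u0_site_cheb (x : ι → ℝ) {T C0 : ℝ} {z : ℂ} (hT : 0 ≤ T) (hz : 0 < z.im) (hC0 : 0 ≤ C0) (j : ι)
    (hr : 4 * (z.im + T * (C0 + 1 / z.im)) ≤ |x j - z.re|) :
    ∫ N in {N | ‖rTr (Matrix.diagonal x + Real.sqrt T • goeOf N) z‖ ≤ C0},
        (rsG (Matrix.diagonal x + Real.sqrt T • goeOf N) z j j).im ∂gArr ι ι
      ≤ (4 * (z.im + T * (C0 + 1 / z.im)) + 64 * (T + T ^ 2 * (C0 + 1 / z.im) / z.im) / z.im) / (x j - z.re) ^ 2 := by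
  have hr0 : 0 < |x j - z.re| := lt_of_lt_of_le (by positivity) hr
  have := u0_site x hT hz hC0 j hr (P := 64 * (T + T ^ 2 * (C0 + 1 / z.im) / z.im) / (x j - z.re) ^ 2) (by positivity)
    fun B hB => by
      have := u0_Xi_cheb hB hT hr0 j
      rwa [sq_abs] at this
  refine this.trans (le_of_eq ?_)
  ring


end

end Claimed.Agent.R287
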