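-- KEEP
import Claimed.Agent.R287.Defs
import Claimed.Agent.R287.Goe233
import Claimed.Agent.R287.Res
import Claimed.Agent.R287.Rsv
import Claimed.Agent.R287.ResC
import Claimed.Agent.R287.U0
import Claimed.Agent.R287.Stj227

/-!
# Row 287 (S0534), unit U1 = TRANSLATION INVARIANCE of a law with (R) + (I)      owner helper67      prefixes `sh_` (SHIFT kit), `u1_`

WRITTEN PROOF: `origin/helper67:notes/R287/U1_67.md`.   EXIT: `u1_shift` (trace form), `u1_transl` (Laplace form, via K9 of helper227).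

* `shU t G X = E G(X + √t W)` (heat semigroup of the raw GOE), `shV l G X` = the SHIFTED chain along the list of steps `l` (iterated integrals, recursion on the list);
* L² transfer `sh_l2 : (shV l G X)² ≤ e^κ shU T (G²) X`, total variation `sh_tv`, hybrid telescoping `sh_hyb`, L² norm of the error `sh_err_l2`, result `sh_main`;
* cutoff `u1Chi R X = R² (XᵀX + R²)⁻¹`, capped shift `u1Th σ C₁ R X`;
* one step effect `u1_eff` (R4 of Rsv + U0 per site of helper170 + summation with the cap condition only);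
* `K → ∞` with `LStat`, `LReg`; one integer parameter `Nn → ∞`.
-/

set_option autoImplicit false
set_option linter.unusedSectionVars false
set_option linter.unusedVariables false
open MeasureTheory ProbabilityTheory Matrix Filter Topology

namespace Claimed.Agent.R287

section shift
variable {ι : Type} [Fintype ι] [DecidableEq ι]

/-! ## 1. SHIFT kit -/

/-- heat semigroup of the raw GOE: `E G(X + √t W)` -/
noncomputable def shU (t : ℝ) (G : Matrix ι ι ℝ → ℝ) (X : Matrix ι ι ℝ) : ℝ :=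
  ∫ N, G (X + Real.sqrt t • goeOf N) ∂gArr ι ι

/-- a step of the shifted chain: duration `Δ`, shift `θ` (a function of the current matrix), cost `c` -/
structure ShStep (ι : Type) where
  Δ : ℝ
  θ : Matrix ι ι ℝ → Matrix ι ι ℝ
  c : ℝ

/-- admissible step: `Tr θ(X)² ≤ 2 Δ c` POINTWISE -/
structure ShOk (st : ShStep ι) : Prop where
  pos : 0 < st.Δ
  c0 : 0 ≤ st.c
  meas : Measurable st.θ
  symm : ∀ X, (st.θ X).IsSymm
  cost : ∀ X, (st.θ X * st.θ X).trace ≤ 2 * st.Δ * st.c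

/-- expectation of `G` at the end of the shifted chain started from `X` -/
noncomputable def shV : List (ShStep ι) → (Matrix ι ι ℝ → ℝ) → Matrix ι ι ℝ → ℝ
  | [], G => G
  | st :: l, G => fun X => ∫ N, shV l G (X + st.θ X + Real.sqrt st.Δ • goeOf N) ∂gArr ι ι

/-- total time -/
def shT (l : List (ShStep ι)) : ℝ := (l.map ShStep.Δ).sum
/-- total cost -/
def shK (l : List (ShStep ι)) : ℝ := (l.map ShStep.c).sum

/-- the defect of one step: the shift `θ(X)` against the full shift `σ`, all later steps being full shifts -/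
noncomputable def shD (σ : ℝ) (F : Matrix ι ι ℝ → ℝ) (st : ShStep ι) (l : List (ShStep ι)) (X : Matrix ι ι ℝ) : ℝ :=
  |shU (shT (st :: l)) F (X + st.θ X + (σ * l.length) • (1 : Matrix ι ι ℝ))
    - shU (shT (st :: l)) F (X + (σ * (l.length + 1)) • (1 : Matrix ι ι ℝ))|

/-- accumulated defect under the shifted chain -/
noncomputable def shErr (σ : ℝ) (F : Matrix ι ι ℝ → ℝ) : List (ShStep ι) → Matrix ι ι ℝ → ℝ
  | [] => fun _ => 0
  | st :: l => fun X => shD σ F st l X + ∫ N, shErr σ F l (X + st.θ X + Real.sqrt st.Δ • goeOf N) ∂gArr ι ι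

/-- `L²` norm at time `t` over the initial law `ν` -/
noncomputable def shN (ν : Measure (Matrix ι ι ℝ)) (t : ℝ) (G : Matrix ι ι ℝ → ℝ) : ℝ :=
  Real.sqrt (∫ X, shU t (fun Y => G Y ^ 2) X ∂ν)

/-- sum of the `L²` norms of the defects under the UNSHIFTED evolution -/
noncomputable def shS (ν : Measure (Matrix ι ι ℝ)) (σ : ℝ) (F : Matrix ι ι ℝ → ℝ) : ℝ → List (ShStep ι) → ℝ
  | _, [] => 0
  | t, st :: l => shN ν t (shD σ F st l) + shS ν σ F (t + st.Δ) l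

theorem sh_eqns_cite : True := by
  have := @shU.eq_1
  have := @shV.eq_1
  have := @shV.eq_2
  have := @shT.eq_1
  have := @shK.eq_1
  have := @shD.eq_1
  have := @shErr.eq_1
  have := @shErr.eq_2
  have := @shN.eq_1
  have := @shS.eq_1
  have := @shS.eq_2
  trivial


/-! ### 1a. measurability, bounds, semigroup -/

theorem sh_aff_meas (t : ℝ) : Measurable fun p : Matrix ι ι ℝ × Matrix ι ι ℝ => p.1 + Real.sqrt t • goeOf p.2 :=
  goe_add_measurable measurable_fst ((goe_smul_measurable _).comp (goe_of_measurable.comp measurable_snd))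

theorem sh_aff_meas' (t : ℝ) (X : Matrix ι ι ℝ) : Measurable fun N : Matrix ι ι ℝ => X + Real.sqrt t • goeOf N :=
  goe_add_measurable measurable_const ((goe_smul_measurable _).comp goe_of_measurable)

theorem sh_int_of_bdd {α : Type} [MeasurableSpace α] (P : Measure α) [IsFiniteMeasure P] {f : α → ℝ} (hf : Measurable f) {B : ℝ} (hB : ∀ x, |f x| ≤ B) :
    Integrable f P :=
  Integrable.of_bound hf.aestronglyMeasurable B (Filter.Eventually.of_forall fun x => by simpa using hB x)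

theorem sh_abs_int_le {α : Type} [MeasurableSpace α] (P : Measure α) [IsProbabilityMeasure P] {f : α → ℝ} {B : ℝ} (hB : ∀ x, |f x| ≤ B) :
    |∫ x, f x ∂P| ≤ B := by
  have := norm_integral_le_of_norm_le_const (μ := P) (f := f) (C := B) (Filter.Eventually.of_forall fun x => by simpa using hB x)
  simpa using this

theorem sh_U_meas (t : ℝ) {G : Matrix ι ι ℝ → ℝ} (hG : Measurable G) : Measurable (shU t G) := by
  have h : StronglyMeasurable fun p : Matrix ι ι ℝ × Matrix ι ι ℝ => G (p.1 + Real.sqrt t • goeOf p.2) :=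
    (hG.comp (sh_aff_meas t)).stronglyMeasurable
  exact (h.integral_prod_right' (ν := gArr ι ι)).measurable

theorem sh_U_bdd (t : ℝ) {G : Matrix ι ι ℝ → ℝ} {B : ℝ} (hB : ∀ X, |G X| ≤ B) (X : Matrix ι ι ℝ) : |shU t G X| ≤ B :=
  sh_abs_int_le _ fun _ => hB _

theorem sh_U_int (t : ℝ) {G : Matrix ι ι ℝ → ℝ} (hG : Measurable G) {B : ℝ} (hB : ∀ X, |G X| ≤ B) (X : Matrix ι ι ℝ) :
    Integrable (fun N => G (X + Real.sqrt t • goeOf N)) (gArr ι ι) :=
  sh_int_of_bdd _ (hG.comp (sh_aff_meas' t X)) fun _ => hB _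

theorem sh_U_zero (G : Matrix ι ι ℝ → ℝ) (X : Matrix ι ι ℝ) : shU 0 G X = G X := by
  unfold shU
  simp

theorem sh_U_mono (t : ℝ) {G H : Matrix ι ι ℝ → ℝ} (hG : Measurable G) (hH : Measurable H) {B : ℝ} (hGB : ∀ X, |G X| ≤ B) (hHB : ∀ X, |H X| ≤ B)
    (h : ∀ X, G X ≤ H X) (X : Matrix ι ι ℝ) : shU t G X ≤ shU t H X :=
  integral_mono (sh_U_int t hG hGB X) (sh_U_int t hH hHB X) fun _ => h _

theorem sh_U_const_mul (t a : ℝ) (G : Matrix ι ι ℝ → ℝ) (X : Matrix ι ι ℝ) : shU t (fun Y => a * G Y) X = a * shU t G X :=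
  integral_const_mul _ _

theorem sh_raw_int {f : Matrix ι ι ℝ → ℝ} (hf : Measurable f) : ∫ W, f W ∂goeRaw ι = ∫ N, f (goeOf N) ∂gArr ι ι := by
  unfold goeRaw
  exact integral_map goe_of_measurable.aemeasurable hf.aestronglyMeasurable

/-- ADD: `U_t U_t' = U_(t+t')`.  Plan: `integral_map` to `goeRaw`, Fubini, `goe_raw_integral_add (√t) (√t')`. -/
theorem sh_U_add {t t' : ℝ} (ht : 0 ≤ t) (ht' : 0 ≤ t') {G : Matrix ι ι ℝ → ℝ} (hG : Measurable G) {B : ℝ} (hB : ∀ X, |G X| ≤ B)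
    (X : Matrix ι ι ℝ) : shU t (shU t' G) X = shU (t + t') G X := by
  have hF : Measurable fun M : Matrix ι ι ℝ => G (X + M) := hG.comp (goe_add_measurable measurable_const measurable_id)
  have h := goe_raw_integral_add (Real.sqrt t) (Real.sqrt t') (fun M => G (X + M)) hF
  rw [Real.sq_sqrt ht, Real.sq_sqrt ht'] at h
  have hm2 : Measurable fun p : Matrix ι ι ℝ × Matrix ι ι ℝ => G (X + (Real.sqrt t • p.1 + Real.sqrt t' • p.2)) :=
    hF.comp (goe_lin_measurable _ _)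
  have hint : Integrable (fun p : Matrix ι ι ℝ × Matrix ι ι ℝ => G (X + (Real.sqrt t • p.1 + Real.sqrt t' • p.2))) ((goeRaw ι).prod (goeRaw ι)) :=
    sh_int_of_bdd _ hm2 fun _ => hB _
  rw [integral_prod _ hint] at h
  have hin : Measurable fun W : Matrix ι ι ℝ => ∫ W', G (X + (Real.sqrt t • W + Real.sqrt t' • W')) ∂goeRaw ι :=
    (hm2.stronglyMeasurable.integral_prod_right' (ν := goeRaw ι)).measurable
  have hm3 : Measurable fun W : Matrix ι ι ℝ => G (X + Real.sqrt (t + t') • W) := hF.comp (goe_smul_measurable _)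
  rw [sh_raw_int hin, sh_raw_int hm3] at h
  unfold shU
  rw [← h]
  refine integral_congr_ae (Filter.Eventually.of_forall fun N => ?_)
  beta_reduce
  have hm4 : Measurable fun W' : Matrix ι ι ℝ => G (X + (Real.sqrt t • goeOf N + Real.sqrt t' • W')) :=
    hm2.comp (measurable_const.prodMk measurable_id)
  rw [sh_raw_int hm4]
  simp only [add_assoc]

theorem sh_step_meas (st : ShStep ι) (hst : ShOk st) :
    Measurable fun p : Matrix ι ι ℝ × Matrix ι ι ℝ => p.1 + st.θ p.1 + Real.sqrt st.Δ • goeOf p.2 :=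
  goe_add_measurable (goe_add_measurable measurable_fst (hst.meas.comp measurable_fst))
    ((goe_smul_measurable _).comp (goe_of_measurable.comp measurable_snd))

theorem sh_step_meas' (st : ShStep ι) (X : Matrix ι ι ℝ) :
    Measurable fun N : Matrix ι ι ℝ => X + st.θ X + Real.sqrt st.Δ • goeOf N :=
  goe_add_measurable measurable_const ((goe_smul_measurable _).comp goe_of_measurable)

/-- one shifted step preserves measurability -/
theorem sh_one_meas (st : ShStep ι) (hst : ShOk st) {G : Matrix ι ι ℝ → ℝ} (hG : Measurable G) :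
    Measurable fun X => ∫ N, G (X + st.θ X + Real.sqrt st.Δ • goeOf N) ∂gArr ι ι :=
  ((hG.comp (sh_step_meas st hst)).stronglyMeasurable.integral_prod_right' (ν := gArr ι ι)).measurable

theorem sh_V_meas (l : List (ShStep ι)) (hl : ∀ st ∈ l, ShOk st) {G : Matrix ι ι ℝ → ℝ} (hG : Measurable G) : Measurable (shV l G) := by
  induction l with
  | nil => exact hG
  | cons st l ih =>
    exact sh_one_meas st (hl st (List.mem_cons_self ..)) (ih fun s hs => hl s (List.mem_cons_of_mem _ hs))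

theorem sh_V_bdd (l : List (ShStep ι)) {G : Matrix ι ι ℝ → ℝ} {B : ℝ} (hB : ∀ X, |G X| ≤ B) (X : Matrix ι ι ℝ) : |shV l G X| ≤ B := by
  induction l generalizing X with
  | nil => exact hB X
  | cons st l ih => exact sh_abs_int_le _ fun _ => ih _

/-- `V_l (G + a) = V_l G + a` -/
theorem sh_V_add_const (l : List (ShStep ι)) (hl : ∀ st ∈ l, ShOk st) {G : Matrix ι ι ℝ → ℝ} (hG : Measurable G) {B : ℝ} (hB : ∀ X, |G X| ≤ B)
    (a : ℝ) (X : Matrix ι ι ℝ) : shV l (fun Y => G Y + a) X = shV l G X + a := by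
  induction l generalizing X with
  | nil => rfl
  | cons st l ih =>
    have hl' : ∀ s ∈ l, ShOk s := fun s hs => hl s (List.mem_cons_of_mem _ hs)
    have e : ∀ Y, shV l (fun Y => G Y + a) Y = shV l G Y + a := fun Y => ih hl' Y
    show ∫ N, shV l (fun Y => G Y + a) (X + st.θ X + Real.sqrt st.Δ • goeOf N) ∂gArr ι ι = (∫ N, shV l G (X + st.θ X + Real.sqrt st.Δ • goeOf N) ∂gArr ι ι) + a
    simp only [e]
    have hi : Integrable (fun N => shV l G (X + st.θ X + Real.sqrt st.Δ • goeOf N)) (gArr ι ι) :=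
      sh_int_of_bdd _ ((sh_V_meas l hl' hG).comp (sh_step_meas' st X)) fun _ => sh_V_bdd l hB _
    rw [integral_add hi (integrable_const _)]
    simp

/-! ### 1b. the L² transfer -/

/-- Cauchy-Schwarz for integrals -/
theorem sh_cs {α : Type} [MeasurableSpace α] (P : Measure α) {f g : α → ℝ} (hf : Integrable (fun x => f x ^ 2) P) (hg : Integrable (fun x => g x ^ 2) P)
    (hfg : Integrable (fun x => f x * g x) P) : (∫ x, f x * g x ∂P) ^ 2 ≤ (∫ x, f x ^ 2 ∂P) * ∫ x, g x ^ 2 ∂P := by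
  have key : ∀ r : ℝ, 0 ≤ (∫ x, f x ^ 2 ∂P) * (r * r) + (2 * ∫ x, f x * g x ∂P) * r + ∫ x, g x ^ 2 ∂P := by
    intro r
    have e : ∫ x, (r * f x + g x) ^ 2 ∂P = (∫ x, f x ^ 2 ∂P) * (r * r) + (2 * ∫ x, f x * g x ∂P) * r + ∫ x, g x ^ 2 ∂P := by
      have e1 : ∀ x, (r * f x + g x) ^ 2 = r * r * f x ^ 2 + 2 * r * (f x * g x) + g x ^ 2 := fun x => by ring
      simp only [e1]
      have i1 : Integrable (fun x => r * r * f x ^ 2) P := hf.const_mul _
      have i2 : Integrable (fun x => 2 * r * (f x * g x)) P := hfg.const_mul _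
      have i12 : Integrable (fun x => r * r * f x ^ 2 + 2 * r * (f x * g x)) P := i1.add i2
      rw [integral_add i12 hg, integral_add i1 i2, integral_const_mul, integral_const_mul]
      ring
    rw [← e]
    exact integral_nonneg fun x => sq_nonneg _
  have := discrim_le_zero key
  unfold discrim at this
  nlinarith

/-- **A1** one step.  Plan: `X + θX + √Δ W = X + √Δ (W + Θ)`, `Θ = (√Δ)⁻¹ θX`; `goe_of_shift`; Cauchy-Schwarz; `goe_dens_sq_int`; `tr Θ² / 2 = tr (θX)² / (2Δ) ≤ c`. -/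
theorem sh_one_l2 (st : ShStep ι) (hst : ShOk st) {G : Matrix ι ι ℝ → ℝ} (hG : Measurable G) {B : ℝ} (hB : ∀ X, |G X| ≤ B) (X : Matrix ι ι ℝ) :
    (∫ N, G (X + st.θ X + Real.sqrt st.Δ • goeOf N) ∂gArr ι ι) ^ 2 ≤ Real.exp st.c * shU st.Δ (fun Y => G Y ^ 2) X := by
  have hs : 0 < Real.sqrt st.Δ := Real.sqrt_pos.2 hst.pos
  set Θ : Matrix ι ι ℝ := (Real.sqrt st.Δ)⁻¹ • st.θ X with hΘdef
  have hΘ : Θ.IsSymm := (hst.symm X).smul _
  have e1 : ∀ N, G (X + st.θ X + Real.sqrt st.Δ • goeOf N) = (fun W => G (X + Real.sqrt st.Δ • W)) (goeOf N + Θ) := by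
    intro N
    beta_reduce
    congr 1
    rw [smul_add, hΘdef, smul_smul, mul_inv_cancel₀ hs.ne', one_smul]
    abel
  have e0 : ∫ N, G (X + st.θ X + Real.sqrt st.Δ • goeOf N) ∂gArr ι ι = ∫ N, goeDens Θ (goeOf N) * G (X + Real.sqrt st.Δ • goeOf N) ∂gArr ι ι := by
    rw [← goe_of_shift Θ hΘ (fun W => G (X + Real.sqrt st.Δ • W))]
    exact integral_congr_ae (Filter.Eventually.of_forall e1)
  rw [e0]
  have hm : Measurable fun N : Matrix ι ι ℝ => G (X + Real.sqrt st.Δ • goeOf N) := hG.comp (sh_aff_meas' st.Δ X)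
  have hg2 : Integrable (fun N => G (X + Real.sqrt st.Δ • goeOf N) ^ 2) (gArr ι ι) :=
    sh_int_of_bdd (B := B ^ 2) _ (hm.pow_const 2) fun N => by
      rw [abs_pow]; exact pow_le_pow_left₀ (abs_nonneg _) (hB _) 2
  have hfg : Integrable (fun N => goeDens Θ (goeOf N) * G (X + Real.sqrt st.Δ • goeOf N)) (gArr ι ι) :=
    (goe_dens_integrable Θ hΘ).mul_bdd (c := B) hm.aestronglyMeasurable (Filter.Eventually.of_forall fun N => by simpa using hB _)
  refine (sh_cs (gArr ι ι) (goe_dens_sq_integrable Θ hΘ) hg2 hfg).trans ?_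
  rw [goe_dens_sq_int Θ hΘ]
  refine mul_le_mul_of_nonneg_right (Real.exp_le_exp.2 ?_) (integral_nonneg fun _ => sq_nonneg _)
  have ht : (Θ * Θ).trace = (st.θ X * st.θ X).trace / st.Δ := by
    rw [hΘdef, Matrix.smul_mul, Matrix.mul_smul, smul_smul, Matrix.trace_smul, smul_eq_mul, ← mul_inv, Real.mul_self_sqrt hst.pos.le]
    field_simp
  rw [ht, div_div, div_le_iff₀ (by have := hst.pos; positivity)]
  have := hst.cost X
  linarith

theorem sh_T_nonneg (l : List (ShStep ι)) (hl : ∀ st ∈ l, ShOk st) : 0 ≤ shT l := by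
  unfold shT
  refine List.sum_nonneg fun x hx => ?_
  obtain ⟨st, hst, rfl⟩ := List.mem_map.1 hx
  exact (hl st hst).pos.le

theorem sh_K_nonneg (l : List (ShStep ι)) (hl : ∀ st ∈ l, ShOk st) : 0 ≤ shK l := by
  unfold shK
  refine List.sum_nonneg fun x hx => ?_
  obtain ⟨st, hst, rfl⟩ := List.mem_map.1 hx
  exact (hl st hst).c0

theorem sh_T_cons (st : ShStep ι) (l : List (ShStep ι)) : shT (st :: l) = st.Δ + shT l := by simp [shT]
theorem sh_K_cons (st : ShStep ι) (l : List (ShStep ι)) : shK (st :: l) = st.c + shK l := by simp [shK]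

theorem sh_sq_bdd {G : Matrix ι ι ℝ → ℝ} {B : ℝ} (hB : ∀ X, |G X| ≤ B) (X : Matrix ι ι ℝ) : |G X ^ 2| ≤ B ^ 2 := by
  rw [abs_pow]; exact pow_le_pow_left₀ (abs_nonneg _) (hB _) 2

/-- **A2** all steps: `(V_l G)² ≤ e^κ U_T (G²)`.  Induction on `l`: `sh_one_l2` for `shV l G`, IH under the integral, `sh_U_add`. -/
theorem sh_l2 (l : List (ShStep ι)) (hl : ∀ st ∈ l, ShOk st) {G : Matrix ι ι ℝ → ℝ} (hG : Measurable G) {B : ℝ} (hB : ∀ X, |G X| ≤ B)
    (X : Matrix ι ι ℝ) : shV l G X ^ 2 ≤ Real.exp (shK l) * shU (shT l) (fun Y => G Y ^ 2) X := by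
  induction l generalizing X with
  | nil =>
    have : shT ([] : List (ShStep ι)) = 0 := rfl
    rw [this, sh_U_zero]
    simp [shK, shV]
  | cons st l ih =>
    have hst : ShOk st := hl st (List.mem_cons_self ..)
    have hl' : ∀ s ∈ l, ShOk s := fun s hs => hl s (List.mem_cons_of_mem _ hs)
    have h1 := sh_one_l2 st hst (sh_V_meas l hl' hG) (sh_V_bdd l hB) X
    have hG2 : Measurable fun Y => G Y ^ 2 := hG.pow_const 2
    have hE : 0 ≤ Real.exp (shK l) := (Real.exp_pos _).le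
    have h2 : shU st.Δ (fun Y => shV l G Y ^ 2) X ≤ shU st.Δ (fun Y => Real.exp (shK l) * shU (shT l) (fun Y => G Y ^ 2) Y) X := by
      refine sh_U_mono (B := B ^ 2 + Real.exp (shK l) * B ^ 2) st.Δ ((sh_V_meas l hl' hG).pow_const 2) ((sh_U_meas _ hG2).const_mul _) (fun Y => ?_) (fun Y => ?_)
        (fun Y => ih hl' Y) X
      · have := sh_sq_bdd (sh_V_bdd l hB) Y
        have h3 : 0 ≤ Real.exp (shK l) * B ^ 2 := by positivity
        linarith
      · rw [abs_mul, abs_of_nonneg hE]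
        have := sh_U_bdd (shT l) (sh_sq_bdd hB) Y
        have h3 : Real.exp (shK l) * |shU (shT l) (fun Y => G Y ^ 2) Y| ≤ Real.exp (shK l) * B ^ 2 := mul_le_mul_of_nonneg_left this hE
        have h4 : 0 ≤ B ^ 2 := by positivity
        linarith
    rw [sh_U_const_mul, sh_U_add hst.pos.le (sh_T_nonneg l hl') hG2 (sh_sq_bdd hB)] at h2
    rw [sh_K_cons, sh_T_cons, Real.exp_add, mul_assoc]
    exact h1.trans (mul_le_mul_of_nonneg_left h2 (Real.exp_pos _).le)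

/-- scalar optimisation: `(a + t)² ≤ E (v + t²)` for all `t`, `E ≥ 1`  ⟹  `a² ≤ (E - 1) v`.   (`t = a / (E - 1)`; `E = 1`: `2 a t ≤ v - a²` for all `t` forces `a = 0`.) -/
theorem sh_opt {a v E : ℝ} (hE : 1 ≤ E) (h : ∀ t : ℝ, (a + t) ^ 2 ≤ E * (v + t ^ 2)) : a ^ 2 ≤ (E - 1) * v := by
  rcases hE.eq_or_lt with rfl | hE'
  · have h1 : a = 0 := by
      by_contra ha
      have := h ((v + 1) / (2 * a))
      have e : 2 * a * ((v + 1) / (2 * a)) = v + 1 := by field_simp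
      nlinarith [sq_nonneg a]
    simp [h1]
  · have hw : 0 < E - 1 := by linarith
    have := h (a / (E - 1))
    have e1 : a + a / (E - 1) = a * E / (E - 1) := by field_simp; ring
    rw [e1, div_pow, div_pow, mul_add, ← sub_le_iff_le_add] at this
    have e2 : (a * E) ^ 2 / (E - 1) ^ 2 - E * (a ^ 2 / (E - 1) ^ 2) = E * (a ^ 2 / (E - 1)) := by
      field_simp
    rw [e2] at this
    have h3 : a ^ 2 / (E - 1) ≤ v := le_of_mul_le_mul_left this (by linarith)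
    rw [div_le_iff₀ hw] at h3
    linarith

/-- **A3** total variation.  `m = U_T F X`, `a = V_l F X - m`; `sh_l2` for `G = F - m + t`; `U_T ((F - m + t)²) = Var + t²`, `Var ≤ B²`; `sh_opt`. -/
theorem sh_tv (l : List (ShStep ι)) (hl : ∀ st ∈ l, ShOk st) {F : Matrix ι ι ℝ → ℝ} (hF : Measurable F) {B : ℝ} (hB : ∀ X, |F X| ≤ B)
    (X : Matrix ι ι ℝ) : |shV l F X - shU (shT l) F X| ≤ B * Real.sqrt (Real.exp (shK l) - 1) := by
  have hB0 : 0 ≤ B := (abs_nonneg _).trans (hB X)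
  set m := shU (shT l) F X with hm
  set v := shU (shT l) (fun Y => F Y ^ 2) X - m ^ 2 with hv
  have hE : 1 ≤ Real.exp (shK l) := Real.one_le_exp (sh_K_nonneg l hl)
  have key : ∀ t : ℝ, (shV l F X - m + t) ^ 2 ≤ Real.exp (shK l) * (v + t ^ 2) := by
    intro t
    have hGm : Measurable fun Y => F Y + (t - m) := hF.add_const _
    have hGB : ∀ Y, |F Y + (t - m)| ≤ B + |t - m| := fun Y => (abs_add_le _ _).trans (by have := hB Y; linarith)
    have h1 := sh_l2 l hl hGm hGB X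
    rw [sh_V_add_const l hl hF hB] at h1
    have e : shU (shT l) (fun Y => (F Y + (t - m)) ^ 2) X = v + t ^ 2 := by
      have e1 : ∀ Y, (F Y + (t - m)) ^ 2 = F Y ^ 2 + 2 * (t - m) * F Y + (t - m) ^ 2 := fun Y => by ring
      simp only [e1]
      have i1 : Integrable (fun N => F (X + Real.sqrt (shT l) • goeOf N) ^ 2) (gArr ι ι) := sh_U_int _ (hF.pow_const 2) (sh_sq_bdd hB) X
      have i2 : Integrable (fun N => 2 * (t - m) * F (X + Real.sqrt (shT l) • goeOf N)) (gArr ι ι) := (sh_U_int _ hF hB X).const_mul _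
      have i12 : Integrable (fun N => F (X + Real.sqrt (shT l) • goeOf N) ^ 2 + 2 * (t - m) * F (X + Real.sqrt (shT l) • goeOf N)) (gArr ι ι) := i1.add i2
      have e3 : shU (shT l) (fun Y => F Y ^ 2 + 2 * (t - m) * F Y + (t - m) ^ 2) X
          = shU (shT l) (fun Y => F Y ^ 2) X + 2 * (t - m) * shU (shT l) F X + (t - m) ^ 2 := by
        unfold shU
        rw [integral_add i12 (integrable_const _), integral_add i1 i2, integral_const_mul]
        simp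
      rw [e3, hv, ← hm]
      ring
    rw [e] at h1
    have e2 : shV l F X + (t - m) = shV l F X - m + t := by ring
    rwa [e2] at h1
  have h2 := sh_opt hE key
  have hvB : v ≤ B ^ 2 := by
    have := (abs_le.1 (sh_U_bdd (shT l) (sh_sq_bdd hB) X)).2
    have h3 := sq_nonneg m
    rw [hv]; linarith
  have h3 : (shV l F X - m) ^ 2 ≤ B ^ 2 * (Real.exp (shK l) - 1) := by
    refine h2.trans ?_
    rw [mul_comm]
    exact mul_le_mul_of_nonneg_right hvB (by linarith)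
  rw [← Real.sqrt_sq hB0, ← Real.sqrt_mul (sq_nonneg B), ← Real.sqrt_sq_eq_abs]
  exact Real.sqrt_le_sqrt h3

/-! ### 1c. hybrid telescoping -/

theorem sh_D_meas (σ : ℝ) {F : Matrix ι ι ℝ → ℝ} (hF : Measurable F) (st : ShStep ι) (hst : ShOk st) (l : List (ShStep ι)) :
    Measurable (shD σ F st l) := by
  unfold shD
  have h1 : Measurable fun X : Matrix ι ι ℝ => X + st.θ X + (σ * l.length) • (1 : Matrix ι ι ℝ) :=
    goe_add_measurable (goe_add_measurable measurable_id hst.meas) measurable_const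
  have h2 : Measurable fun X : Matrix ι ι ℝ => X + (σ * (l.length + 1)) • (1 : Matrix ι ι ℝ) :=
    goe_add_measurable measurable_id measurable_const
  exact (((sh_U_meas _ hF).comp h1).sub ((sh_U_meas _ hF).comp h2)).abs

theorem sh_D_nonneg (σ : ℝ) (F : Matrix ι ι ℝ → ℝ) (st : ShStep ι) (l : List (ShStep ι)) (X : Matrix ι ι ℝ) : 0 ≤ shD σ F st l X := abs_nonneg _

theorem sh_D_bdd (σ : ℝ) {F : Matrix ι ι ℝ → ℝ} {B : ℝ} (hB : ∀ X, |F X| ≤ B) (st : ShStep ι) (l : List (ShStep ι)) (X : Matrix ι ι ℝ) :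
    |shD σ F st l X| ≤ 2 * B := by
  unfold shD
  rw [abs_abs]
  have h1 := sh_U_bdd (shT (st :: l)) hB (X + st.θ X + (σ * l.length) • (1 : Matrix ι ι ℝ))
  have h2 := sh_U_bdd (shT (st :: l)) hB (X + (σ * (l.length + 1)) • (1 : Matrix ι ι ℝ))
  have := abs_sub (shU (shT (st :: l)) F (X + st.θ X + (σ * l.length) • (1 : Matrix ι ι ℝ))) (shU (shT (st :: l)) F (X + (σ * (l.length + 1)) • (1 : Matrix ι ι ℝ)))
  linarith

theorem sh_Err_meas (σ : ℝ) {F : Matrix ι ι ℝ → ℝ} (hF : Measurable F) (l : List (ShStep ι)) (hl : ∀ st ∈ l, ShOk st) :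
    Measurable (shErr σ F l) := by
  induction l with
  | nil => exact measurable_const
  | cons st l ih =>
    have hst : ShOk st := hl st (List.mem_cons_self ..)
    exact (sh_D_meas σ hF st hst l).add (sh_one_meas st hst (ih fun s hs => hl s (List.mem_cons_of_mem _ hs)))

theorem sh_Err_bdd (σ : ℝ) {F : Matrix ι ι ℝ → ℝ} {B : ℝ} (hB : ∀ X, |F X| ≤ B) (l : List (ShStep ι)) (X : Matrix ι ι ℝ) :
    |shErr σ F l X| ≤ 2 * B * l.length := by
  induction l generalizing X with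
  | nil => simp [shErr]
  | cons st l ih =>
    have h1 := sh_D_bdd σ hB st l X
    have h2 : |∫ N, shErr σ F l (X + st.θ X + Real.sqrt st.Δ • goeOf N) ∂gArr ι ι| ≤ 2 * B * l.length := sh_abs_int_le _ fun _ => ih _
    have h3 : shErr σ F (st :: l) X = shD σ F st l X + ∫ N, shErr σ F l (X + st.θ X + Real.sqrt st.Δ • goeOf N) ∂gArr ι ι := rfl
    rw [h3, List.length_cons]
    push_cast
    have := abs_add_le (shD σ F st l X) (∫ N, shErr σ F l (X + st.θ X + Real.sqrt st.Δ • goeOf N) ∂gArr ι ι)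
    linarith

/-- **A4**.  Induction on `l`: IH under the integral, `sh_U_add` (`∫ U_T(l) F (Y + √Δ W) = U_(Δ+T(l)) F Y` with `Y = X + θX + σ|l|`), triangle inequality. -/
theorem sh_hyb (σ : ℝ) (l : List (ShStep ι)) (hl : ∀ st ∈ l, ShOk st) {F : Matrix ι ι ℝ → ℝ} (hF : Measurable F) {B : ℝ} (hB : ∀ X, |F X| ≤ B)
    (X : Matrix ι ι ℝ) : |shV l F X - shU (shT l) F (X + (σ * l.length) • (1 : Matrix ι ι ℝ))| ≤ shErr σ F l X := by
  induction l generalizing X with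
  | nil =>
    have : shT ([] : List (ShStep ι)) = 0 := rfl
    rw [this, sh_U_zero]
    simp [shV, shErr]
  | cons st l ih =>
    have hst : ShOk st := hl st (List.mem_cons_self ..)
    have hl' : ∀ s ∈ l, ShOk s := fun s hs => hl s (List.mem_cons_of_mem _ hs)
    have hc : Measurable fun Y : Matrix ι ι ℝ => Y + (σ * l.length) • (1 : Matrix ι ι ℝ) := goe_add_measurable measurable_id measurable_const
    -- the hybrid: shifted first step, then full shifts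
    have eA : ∫ N, shU (shT l) F (X + st.θ X + Real.sqrt st.Δ • goeOf N + (σ * l.length) • (1 : Matrix ι ι ℝ)) ∂gArr ι ι
        = shU (shT (st :: l)) F (X + st.θ X + (σ * l.length) • (1 : Matrix ι ι ℝ)) := by
      rw [sh_T_cons, ← sh_U_add hst.pos.le (sh_T_nonneg l hl') hF hB]
      unfold shU
      refine integral_congr_ae (Filter.Eventually.of_forall fun N => ?_)
      beta_reduce
      have : X + st.θ X + Real.sqrt st.Δ • goeOf N + (σ * l.length) • (1 : Matrix ι ι ℝ) = X + st.θ X + (σ * l.length) • (1 : Matrix ι ι ℝ) + Real.sqrt st.Δ • goeOf N := by abel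
      rw [this]
    have i1 : Integrable (fun N => shV l F (X + st.θ X + Real.sqrt st.Δ • goeOf N)) (gArr ι ι) :=
      sh_int_of_bdd _ ((sh_V_meas l hl' hF).comp (sh_step_meas' st X)) fun _ => sh_V_bdd l hB _
    have i2 : Integrable (fun N => shU (shT l) F (X + st.θ X + Real.sqrt st.Δ • goeOf N + (σ * l.length) • (1 : Matrix ι ι ℝ))) (gArr ι ι) :=
      sh_int_of_bdd _ (((sh_U_meas _ hF).comp hc).comp (sh_step_meas' st X)) fun _ => sh_U_bdd _ hB _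
    have i3 : Integrable (fun N => shErr σ F l (X + st.θ X + Real.sqrt st.Δ • goeOf N)) (gArr ι ι) :=
      sh_int_of_bdd _ ((sh_Err_meas σ hF l hl').comp (sh_step_meas' st X)) fun _ => sh_Err_bdd σ hB l _
    have h1 : |(∫ N, shV l F (X + st.θ X + Real.sqrt st.Δ • goeOf N) ∂gArr ι ι)
        - ∫ N, shU (shT l) F (X + st.θ X + Real.sqrt st.Δ • goeOf N + (σ * l.length) • (1 : Matrix ι ι ℝ)) ∂gArr ι ι|
        ≤ ∫ N, shErr σ F l (X + st.θ X + Real.sqrt st.Δ • goeOf N) ∂gArr ι ι := by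
      rw [← integral_sub i1 i2]
      refine (abs_integral_le_integral_abs).trans (integral_mono (i1.sub i2).abs i3 fun N => ih hl' _)
    rw [eA] at h1
    have e1 : shV (st :: l) F X = ∫ N, shV l F (X + st.θ X + Real.sqrt st.Δ • goeOf N) ∂gArr ι ι := rfl
    have e2 : shErr σ F (st :: l) X = shD σ F st l X + ∫ N, shErr σ F l (X + st.θ X + Real.sqrt st.Δ • goeOf N) ∂gArr ι ι := rfl
    have e3 : ((st :: l).length : ℝ) = l.length + 1 := by simp
    rw [e1, e2, e3]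
    have h2 : |shU (shT (st :: l)) F (X + st.θ X + (σ * l.length) • (1 : Matrix ι ι ℝ)) - shU (shT (st :: l)) F (X + (σ * (l.length + 1)) • (1 : Matrix ι ι ℝ))|
        = shD σ F st l X := rfl
    have := abs_sub_le (∫ N, shV l F (X + st.θ X + Real.sqrt st.Δ • goeOf N) ∂gArr ι ι)
      (shU (shT (st :: l)) F (X + st.θ X + (σ * l.length) • (1 : Matrix ι ι ℝ))) (shU (shT (st :: l)) F (X + (σ * (l.length + 1)) • (1 : Matrix ι ι ℝ)))
    linarith

/-! ### 1d. `L²` norms -/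

/-- Minkowski -/
theorem sh_mink {α : Type} [MeasurableSpace α] (P : Measure α) [IsFiniteMeasure P] {G H : α → ℝ} (hG : Measurable G) (hH : Measurable H)
    {B : ℝ} (hGB : ∀ X, |G X| ≤ B) (hHB : ∀ X, |H X| ≤ B) :
    Real.sqrt (∫ x, (G x + H x) ^ 2 ∂P) ≤ Real.sqrt (∫ x, G x ^ 2 ∂P) + Real.sqrt (∫ x, H x ^ 2 ∂P) := by
  have sqb : ∀ {f : α → ℝ}, (∀ X, |f X| ≤ B) → ∀ x, |f x ^ 2| ≤ B ^ 2 := fun hf x => by
    rw [abs_pow]; exact pow_le_pow_left₀ (abs_nonneg _) (hf _) 2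
  have i1 : Integrable (fun x => G x ^ 2) P := sh_int_of_bdd _ (hG.pow_const 2) (sqb hGB)
  have i2 : Integrable (fun x => H x ^ 2) P := sh_int_of_bdd _ (hH.pow_const 2) (sqb hHB)
  have i3 : Integrable (fun x => G x * H x) P := sh_int_of_bdd (B := B * B) _ (hG.mul hH) fun x => by
    rw [abs_mul]; exact mul_le_mul (hGB x) (hHB x) (abs_nonneg _) ((abs_nonneg _).trans (hGB x))
  have i3' : Integrable (fun x => 2 * (G x * H x)) P := i3.const_mul 2
  have i13 : Integrable (fun x => G x ^ 2 + 2 * (G x * H x)) P := i1.add i3'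
  have ha : 0 ≤ ∫ x, G x ^ 2 ∂P := integral_nonneg fun _ => sq_nonneg _
  have hb : 0 ≤ ∫ x, H x ^ 2 ∂P := integral_nonneg fun _ => sq_nonneg _
  have hc : ∫ x, G x * H x ∂P ≤ Real.sqrt (∫ x, G x ^ 2 ∂P) * Real.sqrt (∫ x, H x ^ 2 ∂P) := by
    rw [← Real.sqrt_mul ha]
    exact (le_abs_self _).trans (Real.abs_le_sqrt (sh_cs P i1 i2 i3))
  have e : ∫ x, (G x + H x) ^ 2 ∂P = (∫ x, G x ^ 2 ∂P) + 2 * (∫ x, G x * H x ∂P) + ∫ x, H x ^ 2 ∂P := by
    have e1 : ∀ x, (G x + H x) ^ 2 = G x ^ 2 + 2 * (G x * H x) + H x ^ 2 := fun x => by ring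
    simp only [e1]
    rw [integral_add i13 i2, integral_add i1 i3', integral_const_mul]
  rw [e]
  refine Real.sqrt_le_iff.2 ⟨by positivity, ?_⟩
  have s1 := Real.sq_sqrt ha
  have s2 := Real.sq_sqrt hb
  nlinarith

/-- the law at time `t` -/
noncomputable def shM (ν : Measure (Matrix ι ι ℝ)) (t : ℝ) : Measure (Matrix ι ι ℝ) :=
  (ν.prod (gArr ι ι)).map fun p => p.1 + Real.sqrt t • goeOf p.2

instance sh_M_prob (ν : Measure (Matrix ι ι ℝ)) [IsProbabilityMeasure ν] (t : ℝ) : IsProbabilityMeasure (shM ν t) :=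
  Measure.isProbabilityMeasure_map (sh_aff_meas t).aemeasurable

theorem sh_M_int (ν : Measure (Matrix ι ι ℝ)) [IsProbabilityMeasure ν] (t : ℝ) {H : Matrix ι ι ℝ → ℝ} (hH : Measurable H) {B : ℝ} (hB : ∀ X, |H X| ≤ B) :
    ∫ X, shU t H X ∂ν = ∫ Y, H Y ∂(shM ν t) := by
  unfold shM shU
  have hi : Integrable (fun p : Matrix ι ι ℝ × Matrix ι ι ℝ => H (p.1 + Real.sqrt t • goeOf p.2)) (ν.prod (gArr ι ι)) :=
    sh_int_of_bdd _ (hH.comp (sh_aff_meas t)) fun _ => hB _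
  rw [integral_map (sh_aff_meas t).aemeasurable hH.aestronglyMeasurable, integral_prod _ hi]

theorem sh_N_eq (ν : Measure (Matrix ι ι ℝ)) [IsProbabilityMeasure ν] (t : ℝ) {G : Matrix ι ι ℝ → ℝ} (hG : Measurable G) {B : ℝ} (hB : ∀ X, |G X| ≤ B) :
    shN ν t G = Real.sqrt (∫ Y, G Y ^ 2 ∂(shM ν t)) := by
  unfold shN
  rw [sh_M_int ν t (hG.pow_const 2) (sh_sq_bdd hB)]

theorem sh_N_nonneg (ν : Measure (Matrix ι ι ℝ)) (t : ℝ) (G : Matrix ι ι ℝ → ℝ) : 0 ≤ shN ν t G := Real.sqrt_nonneg _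

/-- Minkowski for `shN` -/
theorem sh_N_add (ν : Measure (Matrix ι ι ℝ)) [IsProbabilityMeasure ν] (t : ℝ) {G H : Matrix ι ι ℝ → ℝ} (hG : Measurable G) (hH : Measurable H)
    {B : ℝ} (hGB : ∀ X, |G X| ≤ B) (hHB : ∀ X, |H X| ≤ B) : shN ν t (fun X => G X + H X) ≤ shN ν t G + shN ν t H := by
  have hs : ∀ X, |G X + H X| ≤ B + B := fun X => (abs_add_le _ _).trans (add_le_add (hGB X) (hHB X))
  have hm : Measurable fun X => G X + H X := hG.add hH
  rw [sh_N_eq ν t hm hs, sh_N_eq ν t hG hGB, sh_N_eq ν t hH hHB]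
  exact sh_mink _ hG hH hGB hHB

/-- one shifted step in `L²`: `‖X ↦ ∫ G(X + θX + √Δ W)‖_t ≤ e^{c/2} ‖G‖_{t+Δ}`   (`sh_one_l2` + `sh_U_add`) -/
theorem sh_N_step (ν : Measure (Matrix ι ι ℝ)) [IsProbabilityMeasure ν] {t : ℝ} (ht : 0 ≤ t) (st : ShStep ι) (hst : ShOk st)
    {G : Matrix ι ι ℝ → ℝ} (hG : Measurable G) {B : ℝ} (hB : ∀ X, |G X| ≤ B) :
    shN ν t (fun X => ∫ N, G (X + st.θ X + Real.sqrt st.Δ • goeOf N) ∂gArr ι ι) ≤ Real.exp (st.c / 2) * shN ν (t + st.Δ) G := by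
  have hG2 : Measurable fun Y => G Y ^ 2 := hG.pow_const 2
  have hE : 0 ≤ Real.exp st.c := (Real.exp_pos _).le
  have hV : Measurable fun X => ∫ N, G (X + st.θ X + Real.sqrt st.Δ • goeOf N) ∂gArr ι ι := sh_one_meas st hst hG
  have hVB : ∀ X, |∫ N, G (X + st.θ X + Real.sqrt st.Δ • goeOf N) ∂gArr ι ι| ≤ B := fun X => sh_abs_int_le _ fun _ => hB _
  have hB2 : 0 ≤ B ^ 2 := sq_nonneg B
  have h1 : ∀ X, shU t (fun Y => (∫ N, G (Y + st.θ Y + Real.sqrt st.Δ • goeOf N) ∂gArr ι ι) ^ 2) X ≤ Real.exp st.c * shU (t + st.Δ) (fun Y => G Y ^ 2) X := by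
    intro X
    rw [← sh_U_add ht hst.pos.le hG2 (sh_sq_bdd hB), ← sh_U_const_mul]
    refine sh_U_mono (B := B ^ 2 + Real.exp st.c * B ^ 2) t (hV.pow_const 2) ((sh_U_meas _ hG2).const_mul _) (fun Y => ?_) (fun Y => ?_)
      (fun Y => sh_one_l2 st hst hG hB Y) X
    · have := sh_sq_bdd hVB Y
      have h3 : 0 ≤ Real.exp st.c * B ^ 2 := by positivity
      linarith
    · rw [abs_mul, abs_of_nonneg hE]
      have h3 : Real.exp st.c * |shU st.Δ (fun Y => G Y ^ 2) Y| ≤ Real.exp st.c * B ^ 2 :=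
        mul_le_mul_of_nonneg_left (sh_U_bdd st.Δ (sh_sq_bdd hB) Y) hE
      linarith
  unfold shN
  rw [Real.exp_half, ← Real.sqrt_mul hE, ← integral_const_mul]
  refine Real.sqrt_le_sqrt (integral_mono ?_ ?_ h1)
  · exact sh_int_of_bdd _ (sh_U_meas _ (hV.pow_const 2)) fun X => sh_U_bdd _ (sh_sq_bdd hVB) X
  · exact (sh_int_of_bdd _ (sh_U_meas _ hG2) fun X => sh_U_bdd _ (sh_sq_bdd hB) X).const_mul _

theorem sh_S_nonneg (ν : Measure (Matrix ι ι ℝ)) (σ : ℝ) (F : Matrix ι ι ℝ → ℝ) (t : ℝ) (l : List (ShStep ι)) : 0 ≤ shS ν σ F t l := by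
  induction l generalizing t with
  | nil => exact le_rfl
  | cons st l ih => exact add_nonneg (sh_N_nonneg _ _ _) (ih _)

/-- **A5** -/
theorem sh_err_l2 (ν : Measure (Matrix ι ι ℝ)) [IsProbabilityMeasure ν] (σ : ℝ) {F : Matrix ι ι ℝ → ℝ} (hF : Measurable F) {B : ℝ}
    (hB : ∀ X, |F X| ≤ B) (l : List (ShStep ι)) (hl : ∀ st ∈ l, ShOk st) {t : ℝ} (ht : 0 ≤ t) :
    shN ν t (shErr σ F l) ≤ Real.exp (shK l / 2) * shS ν σ F t l := by
  have hB0 : 0 ≤ B := (abs_nonneg _).trans (hB 0)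
  induction l generalizing t with
  | nil =>
    have : shN ν t (shErr σ F ([] : List (ShStep ι))) = 0 := by
      unfold shN shU
      simp [shErr]
    rw [this]
    exact mul_nonneg (Real.exp_pos _).le le_rfl
  | cons st l ih =>
    have hst : ShOk st := hl st (List.mem_cons_self ..)
    have hl' : ∀ s ∈ l, ShOk s := fun s hs => hl s (List.mem_cons_of_mem _ hs)
    have hlen : (0 : ℝ) ≤ l.length := Nat.cast_nonneg _
    have hEm := sh_Err_meas σ hF l hl'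
    have hEb := sh_Err_bdd σ hB l
    have b1 : ∀ X, |shD σ F st l X| ≤ 2 * B * (l.length + 1) := fun X => (sh_D_bdd σ hB st l X).trans (by nlinarith)
    have b2 : ∀ X, |∫ N, shErr σ F l (X + st.θ X + Real.sqrt st.Δ • goeOf N) ∂gArr ι ι| ≤ 2 * B * (l.length + 1) := fun X =>
      (sh_abs_int_le _ fun _ => hEb _).trans (by nlinarith)
    have h1 := sh_N_add ν t (sh_D_meas σ hF st hst l) (sh_one_meas st hst hEm) b1 b2
    have h2 := sh_N_step ν ht st hst hEm hEb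
    have h3 := ih hl' (add_nonneg ht hst.pos.le)
    have e1 : shErr σ F (st :: l) = fun X => shD σ F st l X + ∫ N, shErr σ F l (X + st.θ X + Real.sqrt st.Δ • goeOf N) ∂gArr ι ι := rfl
    have e2 : shS ν σ F t (st :: l) = shN ν t (shD σ F st l) + shS ν σ F (t + st.Δ) l := rfl
    rw [e1, e2, sh_K_cons, add_div, Real.exp_add]
    have hc1 : 1 ≤ Real.exp (st.c / 2) := Real.one_le_exp (by have := hst.c0; positivity)
    have hk1 : 1 ≤ Real.exp (shK l / 2) := Real.one_le_exp (by have := sh_K_nonneg l hl'; positivity)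
    have hN := sh_N_nonneg ν t (shD σ F st l)
    have hS := sh_S_nonneg ν σ F (t + st.Δ) l
    calc _ ≤ shN ν t (shD σ F st l) + Real.exp (st.c / 2) * (Real.exp (shK l / 2) * shS ν σ F (t + st.Δ) l) := by
          refine h1.trans (add_le_add le_rfl (h2.trans (mul_le_mul_of_nonneg_left h3 (Real.exp_pos _).le)))
      _ ≤ Real.exp (st.c / 2) * Real.exp (shK l / 2) * shN ν t (shD σ F st l) + Real.exp (st.c / 2) * (Real.exp (shK l / 2) * shS ν σ F (t + st.Δ) l) := by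
          have : 1 ≤ Real.exp (st.c / 2) * Real.exp (shK l / 2) := by nlinarith
          nlinarith
      _ = _ := by ring

/-- `∫ |G| ≤ ‖G‖_0` -/
theorem sh_N_zero (ν : Measure (Matrix ι ι ℝ)) [IsProbabilityMeasure ν] {G : Matrix ι ι ℝ → ℝ} (hG : Measurable G) {B : ℝ} (hB : ∀ X, |G X| ≤ B) :
    ∫ X, |G X| ∂ν ≤ shN ν 0 G := by
  unfold shN
  simp only [sh_U_zero]
  refine Real.le_sqrt_of_sq_le ?_
  have i1 : Integrable (fun _ : Matrix ι ι ℝ => (1 : ℝ) ^ 2) ν := integrable_const _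
  have i2 : Integrable (fun X => |G X| ^ 2) ν := sh_int_of_bdd (B := B ^ 2) _ (hG.abs.pow_const 2) fun X => by
    rw [sq_abs]; exact sh_sq_bdd hB X
  have i3 : Integrable (fun X => (1 : ℝ) * |G X|) ν := sh_int_of_bdd (B := B) _ (hG.abs.const_mul 1) fun X => by
    rw [one_mul, abs_abs]; exact hB X
  have := sh_cs ν i1 i2 i3
  simpa using this

/-- **RESULT of the SHIFT kit**: the heat flow at time `T(l)` of a law `ν` is almost invariant under the translation by `σ |l|` -/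
theorem sh_main (ν : Measure (Matrix ι ι ℝ)) [IsProbabilityMeasure ν] (σ : ℝ) {F : Matrix ι ι ℝ → ℝ} (hF : Measurable F) {B : ℝ}
    (hB : ∀ X, |F X| ≤ B) (l : List (ShStep ι)) (hl : ∀ st ∈ l, ShOk st) :
    |∫ X, shU (shT l) F (X + (σ * l.length) • (1 : Matrix ι ι ℝ)) ∂ν - ∫ X, shU (shT l) F X ∂ν|
      ≤ B * Real.sqrt (Real.exp (shK l) - 1) + Real.exp (shK l / 2) * shS ν σ F 0 l := by
  have hc : Measurable fun Y : Matrix ι ι ℝ => Y + (σ * l.length) • (1 : Matrix ι ι ℝ) := goe_add_measurable measurable_id measurable_const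
  have i1 : Integrable (fun X => shU (shT l) F (X + (σ * l.length) • (1 : Matrix ι ι ℝ))) ν :=
    sh_int_of_bdd _ ((sh_U_meas _ hF).comp hc) fun _ => sh_U_bdd _ hB _
  have i2 : Integrable (fun X => shU (shT l) F X) ν := sh_int_of_bdd _ (sh_U_meas _ hF) fun _ => sh_U_bdd _ hB _
  have i3 : Integrable (fun X => |shErr σ F l X|) ν :=
    sh_int_of_bdd (B := 2 * B * l.length) _ (sh_Err_meas σ hF l hl).abs fun X => by rw [abs_abs]; exact sh_Err_bdd σ hB l X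
  rw [← integral_sub i1 i2]
  have h1 : ∀ X, |shU (shT l) F (X + (σ * l.length) • (1 : Matrix ι ι ℝ)) - shU (shT l) F X| ≤ |shErr σ F l X| + B * Real.sqrt (Real.exp (shK l) - 1) := by
    intro X
    have a1 := sh_hyb σ l hl hF hB X
    have a2 := sh_tv l hl hF hB X
    have a3 := abs_sub_le (shU (shT l) F (X + (σ * l.length) • (1 : Matrix ι ι ℝ))) (shV l F X) (shU (shT l) F X)
    rw [abs_sub_comm] at a1
    have a4 := le_abs_self (shErr σ F l X)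
    linarith
  have h2 : ∫ X, (|shErr σ F l X| + B * Real.sqrt (Real.exp (shK l) - 1)) ∂ν = (∫ X, |shErr σ F l X| ∂ν) + B * Real.sqrt (Real.exp (shK l) - 1) := by
    rw [integral_add i3 (integrable_const _)]
    simp
  have h3 := sh_N_zero ν (sh_Err_meas σ hF l hl) (sh_Err_bdd σ hB l)
  have h4 := sh_err_l2 ν σ hF hB l hl le_rfl
  calc _ ≤ ∫ X, |shU (shT l) F (X + (σ * l.length) • (1 : Matrix ι ι ℝ)) - shU (shT l) F X| ∂ν := abs_integral_le_integral_abs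
    _ ≤ ∫ X, (|shErr σ F l X| + B * Real.sqrt (Real.exp (shK l) - 1)) ∂ν := integral_mono (i1.sub i2).abs (i3.add (integrable_const _)) h1
    _ ≤ _ := by rw [h2]; linarith

theorem sh_M_eqns_cite : True := by
  have := @shM.eq_1
  trivial

/-! ## 2. The cutoff and the capped shift -/

/-- the cutoff `χ_R(X) = R² (XᵀX + R²)⁻¹`  (`= R Im G_X(iR)` for symmetric `X`) -/
noncomputable def u1Chi (R : ℝ) (X : Matrix ι ι ℝ) : Matrix ι ι ℝ := R ^ 2 • (Xᵀ * X + R ^ 2 • (1 : Matrix ι ι ℝ))⁻¹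

/-- the capped shift -/
noncomputable def u1Th (σ C₁ R : ℝ) (X : Matrix ι ι ℝ) : Matrix ι ι ℝ :=
  if (u1Chi R X).trace ≤ C₁ * R then σ • u1Chi R X else 0

/-- the step of duration `Δ` with the cutoff at scale `R` -/
noncomputable def u1St (σ C₁ Δ R : ℝ) : ShStep ι := ⟨Δ, u1Th σ C₁ R, σ ^ 2 * C₁ * R / (2 * Δ)⟩

/-- the observable: a function of finitely many resolvent traces -/
noncomputable def u1F {b : ℕ} (Φ : (Fin b → ℂ) → ℝ) (z : Fin b → ℂ) (X : Matrix ι ι ℝ) : ℝ := Φ fun a => rTr X (z a)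

/-- the error of one step, divided by `σ` -/
noncomputable def u1Eps (C₀ C' C₁ e₀ s y T R R₁ : ℝ) : ℝ :=
  C₀ * ((R₁ + e₀ + s) / R) ^ 2 + 9 * C₁ * (y + T * C') / R
    + 9 * C₁ * R₁ ^ 2 / (4 * y * R) * (2 * Real.exp (-R₁ ^ 2 / (256 * T)) + 4 * Real.exp (-y * R₁ / (128 * T)))

theorem u1_eqns_cite : True := by
  have := @u1Chi.eq_1
  have := @u1Th.eq_1
  have := @u1St.eq_1
  have := @u1F.eq_1
  have := @u1Eps.eq_1
  trivial

theorem u1_chi_posdef {ι : Type} [Fintype ι] [DecidableEq ι] {R : ℝ} (hR : 0 < R) (X : Matrix ι ι ℝ) :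
    (Xᵀ * X + R ^ 2 • (1 : Matrix ι ι ℝ)).PosDef := by
  have h1 : (Xᵀ * X).PosSemidef := by
    have := Matrix.posSemidef_conjTranspose_mul_self X
    simpa [conjTranspose_eq_transpose_of_trivial] using this
  have h2 : (R ^ 2 • (1 : Matrix ι ι ℝ)).PosDef := Matrix.PosDef.one.smul (by positivity)
  exact h2.posSemidef_add h1 |> fun h => by simpa [add_comm] using h

/-- `XᵀX + R²` is invertible.  Plan: it is positive definite (`Matrix.PosDef`: `vᵀ(XᵀX + R²)v = |Xv|² + R²|v|²`), `PosDef.det_pos`. -/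
theorem u1_chi_unit {R : ℝ} (hR : 0 < R) (X : Matrix ι ι ℝ) : IsUnit (Xᵀ * X + R ^ 2 • (1 : Matrix ι ι ℝ)).det := by
  exact (u1_chi_posdef hR X).det_pos.ne'.isUnit

theorem u1_chi_symm (R : ℝ) (X : Matrix ι ι ℝ) : (u1Chi R X).IsSymm := by
  unfold u1Chi Matrix.IsSymm
  rw [transpose_smul, transpose_nonsing_inv]
  congr 2
  simp [transpose_mul]

theorem u1_det_meas {ι : Type} [Fintype ι] [DecidableEq ι] {Y : Type*} [MeasurableSpace Y] {f : Y → Matrix ι ι ℝ} (hf : ∀ i j, Measurable fun x => f x i j) :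
    Measurable fun x => (f x).det := by
  simp only [Matrix.det_apply]
  refine Finset.measurable_sum _ fun σ _ => ?_
  exact (Finset.measurable_prod _ fun i _ => hf _ _).const_smul _

theorem u1_inv_meas {ι : Type} [Fintype ι] [DecidableEq ι] {Y : Type*} [MeasurableSpace Y] {f : Y → Matrix ι ι ℝ} (hf : ∀ i j, Measurable fun x => f x i j) (i j : ι) :
    Measurable fun x => (f x)⁻¹ i j := by
  simp only [Matrix.inv_def, Matrix.smul_apply, Ring.inverse_eq_inv', Matrix.adjugate_apply, smul_eq_mul]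
  refine (u1_det_meas hf).inv.mul (u1_det_meas fun a b => ?_)
  by_cases h : a = j
  · subst h
    simp only [Matrix.updateRow_self]
    exact measurable_const
  · simp only [Matrix.updateRow_ne h]
    exact hf a b

/-- Plan: `A⁻¹ = Ring.inverse (det A) • adjugate A`; entries of the adjugate and `det` are polynomials in the entries (continuous), `x ↦ x⁻¹` is measurable. -/
theorem u1_chi_meas (R : ℝ) : Measurable (u1Chi R : Matrix ι ι ℝ → Matrix ι ι ℝ) := by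
  refine goe_measurable_of_entries fun i j => ?_
  unfold u1Chi
  simp only [Matrix.smul_apply]
  refine (u1_inv_meas (f := fun X : Matrix ι ι ℝ => Xᵀ * X + R ^ 2 • (1 : Matrix ι ι ℝ)) (fun a b => ?_) i j).const_smul (R ^ 2)
  simp only [Matrix.add_apply, Matrix.mul_apply, Matrix.transpose_apply, Matrix.smul_apply]
  exact (Finset.measurable_sum _ fun c _ => (goe_entry_measurable c a).mul (goe_entry_measurable c b)).add measurable_const

/-- `Tr χ² ≤ Tr χ`.  Plan: with `P = XᵀX`, `Q = (P + R²)⁻¹`: `χ - χ² = R² Q P Q = R² (XQ)ᵀ(XQ)`, whose trace is `R² ∑ (XQ)_ij² ≥ 0`. -/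
theorem u1_chi_sq_trace {R : ℝ} (hR : 0 < R) (X : Matrix ι ι ℝ) : (u1Chi R X * u1Chi R X).trace ≤ (u1Chi R X).trace := by
  have hu := u1_chi_unit hR X
  obtain ⟨A, hA⟩ : ∃ A, A = Xᵀ * X + R ^ 2 • (1 : Matrix ι ι ℝ) := ⟨_, rfl⟩
  obtain ⟨Q, hQ⟩ : ∃ Q, Q = A⁻¹ := ⟨_, rfl⟩
  rw [← hA] at hu
  have hQA : Q * A = 1 := by rw [hQ]; exact Matrix.nonsing_inv_mul _ hu
  have hQs : Qᵀ = Q := by
    rw [hQ, transpose_nonsing_inv]
    congr 1
    rw [hA]; simp [transpose_mul]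
  have hχ : u1Chi R X = R ^ 2 • Q := by rw [hQ, hA]; rfl
  have hXX : Xᵀ * X = A - R ^ 2 • (1 : Matrix ι ι ℝ) := by rw [hA]; simp
  have e : u1Chi R X - u1Chi R X * u1Chi R X = R ^ 2 • ((X * Q)ᵀ * (X * Q)) := by
    have e1 : (X * Q)ᵀ * (X * Q) = Q * (Xᵀ * X) * Q := by
      rw [transpose_mul, hQs]; simp only [Matrix.mul_assoc]
    rw [e1, hXX, Matrix.mul_sub, Matrix.sub_mul, hQA, hχ]
    simp only [Matrix.one_mul, Matrix.mul_smul, Matrix.smul_mul, Matrix.mul_one, smul_sub, smul_smul]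
  have h0 : 0 ≤ ((X * Q)ᵀ * (X * Q)).trace := by
    have := Matrix.posSemidef_conjTranspose_mul_self (X * Q)
    rw [conjTranspose_eq_transpose_of_trivial] at this
    exact this.trace_nonneg
  have h1 : 0 ≤ (u1Chi R X - u1Chi R X * u1Chi R X).trace := by
    rw [e, trace_smul]
    exact mul_nonneg (by positivity) h0
  rw [trace_sub] at h1
  linarith

theorem u1_chi_diag {R : ℝ} (hR : 0 < R) (x : ι → ℝ) : u1Chi R (Matrix.diagonal x) = Matrix.diagonal fun j => R ^ 2 / (x j ^ 2 + R ^ 2) := by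
  unfold u1Chi
  have e : (Matrix.diagonal x)ᵀ * Matrix.diagonal x + R ^ 2 • (1 : Matrix ι ι ℝ) = Matrix.diagonal fun j => x j ^ 2 + R ^ 2 := by
    rw [diagonal_transpose, diagonal_mul_diagonal, ← diagonal_one, ← diagonal_smul, diagonal_add]
    congr 1
    funext j
    simp [sq]
  have e2 : (Matrix.diagonal fun j => x j ^ 2 + R ^ 2)⁻¹ = Matrix.diagonal fun j => (x j ^ 2 + R ^ 2)⁻¹ := by
    refine Matrix.inv_eq_right_inv ?_
    rw [diagonal_mul_diagonal, ← diagonal_one]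
    congr 1
    funext j
    have : x j ^ 2 + R ^ 2 ≠ 0 := by positivity
    exact mul_inv_cancel₀ this
  rw [e, e2, ← diagonal_smul]
  congr 1

/-- covariance under orthogonal conjugation -/
theorem u1_chi_conj {R : ℝ} (hR : 0 < R) (O X : Matrix ι ι ℝ) (h1 : O * Oᵀ = 1) (h2 : Oᵀ * O = 1) :
    u1Chi R (O * X * Oᵀ) = O * u1Chi R X * Oᵀ := by
  have hu := u1_chi_unit hR X
  unfold u1Chi
  have e : (O * X * Oᵀ)ᵀ * (O * X * Oᵀ) + R ^ 2 • (1 : Matrix ι ι ℝ) = O * (Xᵀ * X + R ^ 2 • (1 : Matrix ι ι ℝ)) * Oᵀ := by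
    rw [Matrix.mul_add, Matrix.add_mul, Matrix.mul_smul, Matrix.smul_mul, Matrix.mul_one, h1]
    congr 1
    simp only [transpose_mul, transpose_transpose]
    calc O * (Xᵀ * Oᵀ) * (O * X * Oᵀ) = O * Xᵀ * (Oᵀ * O) * X * Oᵀ := by simp only [Matrix.mul_assoc]
      _ = O * (Xᵀ * X) * Oᵀ := by rw [h2]; simp only [Matrix.mul_one, Matrix.mul_assoc]
  have e2 : (O * (Xᵀ * X + R ^ 2 • (1 : Matrix ι ι ℝ)) * Oᵀ)⁻¹ = O * (Xᵀ * X + R ^ 2 • (1 : Matrix ι ι ℝ))⁻¹ * Oᵀ := by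
    refine Matrix.inv_eq_right_inv ?_
    calc O * (Xᵀ * X + R ^ 2 • (1 : Matrix ι ι ℝ)) * Oᵀ * (O * (Xᵀ * X + R ^ 2 • (1 : Matrix ι ι ℝ))⁻¹ * Oᵀ)
        = O * ((Xᵀ * X + R ^ 2 • (1 : Matrix ι ι ℝ)) * (Oᵀ * O) * (Xᵀ * X + R ^ 2 • (1 : Matrix ι ι ℝ))⁻¹) * Oᵀ := by simp only [Matrix.mul_assoc]
      _ = 1 := by rw [h2, Matrix.mul_one, Matrix.mul_nonsing_inv _ hu, Matrix.mul_one, h1]
  rw [e, e2, Matrix.mul_smul, Matrix.smul_mul]

theorem u1_trace_meas {ι : Type} [Fintype ι] [DecidableEq ι] : Measurable fun M : Matrix ι ι ℝ => M.trace := by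
  simp only [Matrix.trace, Matrix.diag]
  exact Finset.measurable_sum _ fun i _ => goe_entry_measurable i i

/-- `Tr χ_R(X) = R Im Tr G_X(iR)`.  Plan: `rs_spectral`, `u1_chi_conj`, `u1_chi_diag`, `rs_trace`. -/
theorem u1_chi_trace {R : ℝ} (hR : 0 < R) {X : Matrix ι ι ℝ} (hX : X.IsSymm) : (u1Chi R X).trace = R * (rTr X ((R : ℂ) * Complex.I)).im := by
  have hH : X.IsHermitian := by rw [Matrix.IsHermitian, conjTranspose_eq_transpose_of_trivial]; exact hX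
  have hz : ((R : ℂ) * Complex.I).im ≠ 0 := by simp [hR.ne']
  have e1 : (u1Chi R X).trace = ∑ j, R ^ 2 / (hH.eigenvalues j ^ 2 + R ^ 2) := by
    conv_lhs => rw [rs_spectral hH]
    rw [u1_chi_conj hR _ _ (rs_U_mul_T hH) (rs_T_mul_U hH), u1_chi_diag hR, Matrix.trace_mul_comm, ← Matrix.mul_assoc, rs_T_mul_U hH,
      Matrix.one_mul, Matrix.trace_diagonal]
  have hrt : rTr X ((R : ℂ) * Complex.I) = (rsG X ((R : ℂ) * Complex.I)).trace := rfl
  rw [e1, hrt, rs_trace hH hz, Complex.im_sum, Finset.mul_sum]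
  refine Finset.sum_congr rfl fun j _ => ?_
  rw [Complex.inv_im]
  have : Complex.normSq ((hH.eigenvalues j : ℂ) - (R : ℂ) * Complex.I) = hH.eigenvalues j ^ 2 + R ^ 2 := by
    simp [Complex.normSq_apply]; ring
  rw [this]
  simp
  ring

theorem u1_th_meas (σ C₁ R : ℝ) : Measurable (u1Th σ C₁ R : Matrix ι ι ℝ → Matrix ι ι ℝ) := by
  unfold u1Th
  refine Measurable.ite (measurableSet_le (u1_trace_meas.comp (u1_chi_meas R)) measurable_const) ?_ measurable_const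
  exact (goe_smul_measurable σ).comp (u1_chi_meas R)

theorem u1_st_ok {σ C₁ Δ R : ℝ} (hΔ : 0 < Δ) (hR : 0 < R) (hC : 0 ≤ C₁) : ShOk (u1St σ C₁ Δ R : ShStep ι) := by
  refine ⟨hΔ, ?_, u1_th_meas σ C₁ R, fun X => ?_, fun X => ?_⟩
  · show 0 ≤ σ ^ 2 * C₁ * R / (2 * Δ)
    positivity
  · show (u1Th σ C₁ R X).IsSymm
    unfold u1Th
    split_ifs
    · exact (u1_chi_symm R X).smul σ
    · exact Matrix.isSymm_zero
  · show (u1Th σ C₁ R X * u1Th σ C₁ R X).trace ≤ 2 * Δ * (σ ^ 2 * C₁ * R / (2 * Δ))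
    have e : 2 * Δ * (σ ^ 2 * C₁ * R / (2 * Δ)) = σ ^ 2 * (C₁ * R) := by field_simp
    rw [e]
    unfold u1Th
    split_ifs with h
    · rw [Matrix.smul_mul, Matrix.mul_smul, smul_smul, trace_smul, smul_eq_mul, ← sq]
      exact mul_le_mul_of_nonneg_left ((u1_chi_sq_trace hR X).trans h) (sq_nonneg _)
    · simp only [Matrix.mul_zero, trace_zero]
      positivity

/-! ## 3. The observable -/

/-- Plan: as `u1_chi_meas` (complex entries). -/
theorem u1_rTr_meas (z : ℂ) : Measurable fun X : Matrix ι ι ℝ => rTr X z := by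
  exact goe_rTr_measurable z

theorem u1_F_meas {b : ℕ} {Φ : (Fin b → ℂ) → ℝ} (hΦ : Measurable Φ) (z : Fin b → ℂ) : Measurable (u1F Φ z : Matrix ι ι ℝ → ℝ) :=
  hΦ.comp (measurable_pi_lambda _ fun a => u1_rTr_meas (z a))

theorem u1_rTr_eq (X : Matrix ι ι ℝ) (z : ℂ) : rTr X z = (rsG X z).trace := rfl

/-- a scalar shift of the matrix is a shift of the energy -/
theorem u1_rTr_shift (X : Matrix ι ι ℝ) (c : ℝ) (z : ℂ) : rTr (X + c • (1 : Matrix ι ι ℝ)) z = rTr X (z - c) := by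
  unfold rTr
  congr 2
  ext i j
  by_cases h : i = j
  · subst h; simp; ring
  · simp [h]

theorem u1_rTr_conj (O X : Matrix ι ι ℝ) (h1 : O * Oᵀ = 1) (h2 : Oᵀ * O = 1) (z : ℂ) : rTr (O * X * Oᵀ) z = rTr X z := by
  rw [u1_rTr_eq, u1_rTr_eq]
  unfold rsG
  have g1 : rsC O * rsC Oᵀ = 1 := by rw [← rs_C_mul, h1, rs_C_one]
  have g2 : rsC Oᵀ * rsC O = 1 := by rw [← rs_C_mul, h2, rs_C_one]
  have e : rsC (O * X * Oᵀ) - z • (1 : Matrix ι ι ℂ) = rsC O * (rsC X - z • (1 : Matrix ι ι ℂ)) * rsC Oᵀ := by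
    rw [Matrix.mul_sub, Matrix.sub_mul, Matrix.mul_smul, Matrix.smul_mul, Matrix.mul_one, g1, rs_C_mul, rs_C_mul]
  rw [e, Matrix.mul_inv_rev, Matrix.mul_inv_rev, Matrix.inv_eq_right_inv g1, Matrix.inv_eq_right_inv g2, Matrix.trace_mul_comm, Matrix.mul_assoc, g2,
    Matrix.mul_one]

/-- ROT: the heat flow of a conjugation invariant function is conjugation invariant (`goe_raw_integral_conj`) -/
theorem u1_U_conj (t : ℝ) {G : Matrix ι ι ℝ → ℝ} (hG : Measurable G) (O : Matrix ι ι ℝ) (h1 : O * Oᵀ = 1) (h2 : Oᵀ * O = 1)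
    (hinv : ∀ Y, G (O * Y * Oᵀ) = G Y) (X : Matrix ι ι ℝ) : shU t G (O * X * Oᵀ) = shU t G X := by
  have hm : ∀ Z : Matrix ι ι ℝ, Measurable fun W : Matrix ι ι ℝ => G (Z + Real.sqrt t • W) := fun Z =>
    hG.comp (goe_add_measurable measurable_const (goe_smul_measurable _))
  have hraw : ∀ Z : Matrix ι ι ℝ, shU t G Z = ∫ W, G (Z + Real.sqrt t • W) ∂goeRaw ι := by
    intro Z
    unfold shU goeRaw
    rw [integral_map goe_of_measurable.aemeasurable (hm Z).aestronglyMeasurable]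
  rw [hraw, hraw, ← goe_raw_integral_conj O h1 _ (hm _)]
  refine integral_congr_ae (Filter.Eventually.of_forall fun W => ?_)
  show G (O * X * Oᵀ + Real.sqrt t • (O * W * Oᵀ)) = G (X + Real.sqrt t • W)
  rw [← hinv (X + Real.sqrt t • W)]
  congr 1
  rw [Matrix.mul_add, Matrix.add_mul, Matrix.mul_smul, Matrix.smul_mul]

/-! ## 4. The effect of one step -/

theorem u1_symm_herm {Z : Matrix ι ι ℝ} (hZ : Z.IsSymm) : Z.IsHermitian := by
  rw [Matrix.IsHermitian, Matrix.conjTranspose_eq_transpose_of_trivial]; exact hZ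

theorem u1_Z_eq (e y : ℝ) : (e : ℂ) + (y : ℂ) * Complex.I = rsZ e y := by
  apply Complex.ext <;> simp

theorem u1_diag_shift (x : ι → ℝ) (c : ℝ) : Matrix.diagonal x + c • (1 : Matrix ι ι ℝ) = Matrix.diagonal fun j => x j + c := by
  ext i j
  by_cases h : i = j
  · subst h; simp
  · simp [h]

theorem u1_Zf_symm (x : ι → ℝ) (T : ℝ) (N : Matrix ι ι ℝ) : (Matrix.diagonal x + Real.sqrt T • goeOf N).IsSymm :=
  (Matrix.isSymm_diagonal x).add ((goe_of_isSymm N).smul _)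

theorem u1_bad_meas (C₀ : ℝ) (w : ℂ) : Measurable fun Y : Matrix ι ι ℝ => if C₀ < ‖rTr Y w‖ then (1 : ℝ) else 0 :=
  Measurable.ite (measurableSet_lt measurable_const (u1_rTr_meas w).norm) measurable_const measurable_const

theorem u1_bad_01 (C₀ : ℝ) (w : ℂ) (Y : Matrix ι ι ℝ) : 0 ≤ (if C₀ < ‖rTr Y w‖ then (1 : ℝ) else 0) ∧ (if C₀ < ‖rTr Y w‖ then (1 : ℝ) else 0) ≤ 1 := by
  split_ifs <;> norm_num

theorem u1_U_bad_01 (T C₀ : ℝ) (w : ℂ) (X : Matrix ι ι ℝ) :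
    0 ≤ shU T (fun Y => if C₀ < ‖rTr Y w‖ then (1 : ℝ) else 0) X ∧ shU T (fun Y => if C₀ < ‖rTr Y w‖ then (1 : ℝ) else 0) X ≤ 1 := by
  constructor
  · exact integral_nonneg fun N => (u1_bad_01 C₀ w _).1
  · have := sh_U_bdd (B := 1) T (G := fun Y : Matrix ι ι ℝ => if C₀ < ‖rTr Y w‖ then (1 : ℝ) else 0) (fun Y => by
      rw [abs_of_nonneg (u1_bad_01 C₀ w Y).1]; exact (u1_bad_01 C₀ w Y).2) X
    exact (le_abs_self _).trans this

/-- **E3 = U0 PER SITE** (A9 sec.1 (c)+(e)).   OWNER helper170 (unit U0): to be replaced by a call. -/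
theorem u1_u0_site (x : ι → ℝ) {T e y C₀ C' : ℝ} (hT : 0 < T) (hy : 0 < y) (hC : 0 ≤ C₀) (hC' : C₀ + 2 / y ≤ C') (j : ι)
    (hr : 16 * (y + T * C') ≤ |x j - e|) :
    ∫ N, (if ‖rTr (Matrix.diagonal x + Real.sqrt T • goeOf N) ((e : ℂ) + (y : ℂ) * Complex.I)‖ ≤ C₀
        then (rsG (Matrix.diagonal x + Real.sqrt T • goeOf N) ((e : ℂ) + (y : ℂ) * Complex.I) j j).im else 0) ∂gArr ι ι
      ≤ 4 * (y + T * C') / (x j - e) ^ 2
        + 1 / y * (2 * Real.exp (-(x j - e) ^ 2 / (256 * T)) + 4 * Real.exp (-y * |x j - e| / (128 * T))) := by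
  have him : ((e : ℂ) + (y : ℂ) * Complex.I).im = y := by simp
  have hre : ((e : ℂ) + (y : ℂ) * Complex.I).re = e := by simp
  have h1y : C₀ + 1 / y ≤ C' := by
    have : 1 / y ≤ 2 / y := by gcongr; norm_num
    linarith
  have hTC : T * (C₀ + 1 / y) ≤ T * C' := mul_le_mul_of_nonneg_left h1y hT.le
  have key := u0_site_bern x (T := T) (C0 := C₀) (z := (e : ℂ) + (y : ℂ) * Complex.I) hT (by rw [him]; exact hy) hC j
    (by rw [him, hre]; linarith)
  rw [him, hre] at key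
  have hm : MeasurableSet {N : Matrix ι ι ℝ | ‖rTr (Matrix.diagonal x + Real.sqrt T • goeOf N) ((e : ℂ) + (y : ℂ) * Complex.I)‖ ≤ C₀} := by
    refine measurableSet_le (Measurable.norm ?_) measurable_const
    exact (u1_rTr_meas _).comp (goe_add_measurable measurable_const ((goe_smul_measurable _).comp goe_of_measurable))
  have e1 : ∫ N, (if ‖rTr (Matrix.diagonal x + Real.sqrt T • goeOf N) ((e : ℂ) + (y : ℂ) * Complex.I)‖ ≤ C₀
        then (rsG (Matrix.diagonal x + Real.sqrt T • goeOf N) ((e : ℂ) + (y : ℂ) * Complex.I) j j).im else 0) ∂gArr ι ι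
      = ∫ N in {N | ‖rTr (Matrix.diagonal x + Real.sqrt T • goeOf N) ((e : ℂ) + (y : ℂ) * Complex.I)‖ ≤ C₀},
        (rsG (Matrix.diagonal x + Real.sqrt T • goeOf N) ((e : ℂ) + (y : ℂ) * Complex.I) j j).im ∂gArr ι ι := by
    rw [← integral_indicator hm]
    refine integral_congr_ae (Filter.Eventually.of_forall fun N => ?_)
    simp only [Set.indicator_apply, Set.mem_ofPred_eq]
  rw [e1]
  refine key.trans ?_
  have e2 : -(y * |x j - e|) / (128 * T) = -y * |x j - e| / (128 * T) := by ring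
  rw [e2]
  have : 4 * (y + T * (C₀ + 1 / y)) / (x j - e) ^ 2 ≤ 4 * (y + T * C') / (x j - e) ^ 2 := by
    gcongr
  linarith

/-- `u e^{-u/A}` is nonincreasing on `u ≥ A` -/
theorem u1_dec_aux {A u v : ℝ} (hA : 0 < A) (h : A ≤ u) (huv : u ≤ v) : v * Real.exp (-v / A) ≤ u * Real.exp (-u / A) := by
  have hu : 0 < u := hA.trans_le h
  set x : ℝ := (v - u) / A with hx
  have hx0 : 0 ≤ x := div_nonneg (by linarith) hA.le
  have e1 : -v / A = -u / A + -x := by rw [hx]; field_simp; ring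
  have h1 : v ≤ u * (1 + x) := by
    have : v = u + A * x := by rw [hx]; field_simp; ring
    nlinarith
  have h2 : (1 + x) * Real.exp (-x) ≤ 1 := by
    have h3 : 1 + x ≤ Real.exp x := by linarith [Real.add_one_le_exp x]
    calc (1 + x) * Real.exp (-x) ≤ Real.exp x * Real.exp (-x) := mul_le_mul_of_nonneg_right h3 (Real.exp_pos _).le
      _ = 1 := by rw [← Real.exp_add]; simp
  rw [e1, Real.exp_add]
  have hE := (Real.exp_pos (-u / A)).le
  have hE2 := (Real.exp_pos (-x)).le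
  calc v * (Real.exp (-u / A) * Real.exp (-x)) ≤ u * (1 + x) * (Real.exp (-u / A) * Real.exp (-x)) :=
        mul_le_mul_of_nonneg_right h1 (mul_nonneg hE hE2)
    _ = u * Real.exp (-u / A) * ((1 + x) * Real.exp (-x)) := by ring
    _ ≤ u * Real.exp (-u / A) * 1 := mul_le_mul_of_nonneg_left h2 (mul_nonneg hu.le hE)
    _ = u * Real.exp (-u / A) := mul_one _

/-- `r² e^{-r²/(256T)}` is nonincreasing on `r² ≥ 256 T` -/
theorem u1_dec1 {T R₁ r : ℝ} (hT : 0 < T) (h : 256 * T ≤ R₁ ^ 2) (h0 : 0 ≤ R₁) (hr : R₁ ≤ r) :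
    r ^ 2 * Real.exp (-r ^ 2 / (256 * T)) ≤ R₁ ^ 2 * Real.exp (-R₁ ^ 2 / (256 * T)) :=
  u1_dec_aux (by positivity) h (pow_le_pow_left₀ h0 hr 2)

/-- `r² e^{-yr/(128T)}` is nonincreasing on `y r ≥ 256 T` -/
theorem u1_dec2 {T y R₁ r : ℝ} (hT : 0 < T) (hy : 0 < y) (h : 256 * T ≤ y * R₁) (hr : R₁ ≤ r) :
    r ^ 2 * Real.exp (-y * r / (128 * T)) ≤ R₁ ^ 2 * Real.exp (-y * R₁ / (128 * T)) := by
  have hA : 0 < 256 * T / y := by positivity
  have hR : 256 * T / y ≤ R₁ := by rw [div_le_iff₀ hy]; linarith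
  have hR0 : 0 < R₁ := hA.trans_le hR
  have h1 := u1_dec_aux hA hR hr
  have e : ∀ t : ℝ, t ^ 2 * Real.exp (-y * t / (128 * T)) = (t * Real.exp (-t / (256 * T / y))) ^ 2 := by
    intro t
    rw [mul_pow, ← Real.exp_nat_mul]
    congr 2
    field_simp
    ring
  rw [e, e]
  exact pow_le_pow_left₀ (mul_nonneg (hR0.le.trans hr) (Real.exp_pos _).le) h1 2

/-- per site, with the weight `a_j = σ x_j²/(x_j²+R²)`, far sites (`r_j > R₁`): note sec.2 E4, second half -/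
theorem u1_site_far (x : ι → ℝ) {σ C₀ C' e₀ s y T R R₁ c' e : ℝ} (hσ : 0 ≤ σ) (hc0 : 0 ≤ c') (hcs : c' ≤ s) (he : |e| ≤ e₀) (hy : 0 < y) (hT : 0 < T)
    (hR : 0 < R) (hC₀ : 0 ≤ C₀) (hC' : C₀ + 2 / y ≤ C') (h1 : 16 * (y + T * C') ≤ R₁) (h2 : 2 * (e₀ + s) ≤ R₁) (h3 : 512 * T ≤ R₁ ^ 2) (h4 : 256 * T ≤ y * R₁)
    (j : ι) (hj : R₁ < |x j + c' - e|) :
    σ * (x j ^ 2 / (x j ^ 2 + R ^ 2)) * ∫ N, (if ‖rTr (Matrix.diagonal (fun j => x j + c') + Real.sqrt T • goeOf N) ((e : ℂ) + (y : ℂ) * Complex.I)‖ ≤ C₀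
        then (rsG (Matrix.diagonal (fun j => x j + c') + Real.sqrt T • goeOf N) ((e : ℂ) + (y : ℂ) * Complex.I) j j).im else 0) ∂gArr ι ι
      ≤ σ * (1 / (x j ^ 2 + R ^ 2)) * (9 * (y + T * C')
          + 9 * R₁ ^ 2 / (4 * y) * (2 * Real.exp (-R₁ ^ 2 / (256 * T)) + 4 * Real.exp (-y * R₁ / (128 * T)))) := by
  have hC'0 : 0 ≤ C' := le_trans (add_nonneg hC₀ (by positivity)) hC'
  have hyT : 0 < y + T * C' := by positivity
  have hR1 : 0 < R₁ := lt_of_lt_of_le (by positivity) h1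
  have hu := u1_u0_site (fun j => x j + c') (e := e) hT hy hC₀ hC' j (h1.trans hj.le)
  beta_reduce at hu
  set I : ℝ := ∫ N, (if ‖rTr (Matrix.diagonal (fun j => x j + c') + Real.sqrt T • goeOf N) ((e : ℂ) + (y : ℂ) * Complex.I)‖ ≤ C₀
        then (rsG (Matrix.diagonal (fun j => x j + c') + Real.sqrt T • goeOf N) ((e : ℂ) + (y : ℂ) * Complex.I) j j).im else 0) ∂gArr ι ι with hI
  set r : ℝ := |x j + c' - e| with hr
  have hr0 : 0 < r := hR1.trans hj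
  have hr2 : (x j + c' - e) ^ 2 = r ^ 2 := (sq_abs _).symm
  rw [hr2] at hu
  have hx : x j ^ 2 ≤ 9 / 4 * r ^ 2 := by
    have h5 : |x j| ≤ r + c' + |e| := by
      have e1 : x j = (x j + c' - e) + (-c') + e := by ring
      calc |x j| = |(x j + c' - e) + (-c') + e| := by rw [← e1]
        _ ≤ |x j + c' - e| + |-c'| + |e| := abs_add_three _ _ _
        _ = r + c' + |e| := by rw [abs_neg, abs_of_nonneg hc0]
    have h6 : |x j| ≤ 3 / 2 * r := by linarith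
    have h7 := pow_le_pow_left₀ (abs_nonneg (x j)) h6 2
    rw [sq_abs] at h7
    nlinarith
  have d1 := u1_dec1 hT (by linarith) hR1.le hj.le
  have d2 := u1_dec2 hT hy h4 hj.le
  have hD : 0 < x j ^ 2 + R ^ 2 := by positivity
  set E1 : ℝ := Real.exp (-r ^ 2 / (256 * T)) with hE1
  set E2 : ℝ := Real.exp (-y * r / (128 * T)) with hE2
  have hE1p : 0 ≤ E1 := (Real.exp_pos _).le
  have hE2p : 0 ≤ E2 := (Real.exp_pos _).le
  have hb0 : 0 ≤ 4 * (y + T * C') / r ^ 2 + 1 / y * (2 * E1 + 4 * E2) := by positivity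
  calc σ * (x j ^ 2 / (x j ^ 2 + R ^ 2)) * I
      ≤ σ * (x j ^ 2 / (x j ^ 2 + R ^ 2)) * (4 * (y + T * C') / r ^ 2 + 1 / y * (2 * E1 + 4 * E2)) :=
        mul_le_mul_of_nonneg_left hu (by positivity)
    _ = σ * (1 / (x j ^ 2 + R ^ 2)) * (x j ^ 2 * (4 * (y + T * C') / r ^ 2 + 1 / y * (2 * E1 + 4 * E2))) := by ring
    _ ≤ σ * (1 / (x j ^ 2 + R ^ 2)) * (9 / 4 * r ^ 2 * (4 * (y + T * C') / r ^ 2 + 1 / y * (2 * E1 + 4 * E2))) :=
        mul_le_mul_of_nonneg_left (mul_le_mul_of_nonneg_right hx hb0) (by positivity)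
    _ = σ * (1 / (x j ^ 2 + R ^ 2)) * (9 * (y + T * C') + 9 / (4 * y) * (2 * (r ^ 2 * E1) + 4 * (r ^ 2 * E2))) := by
        congr 1
        field_simp
    _ ≤ σ * (1 / (x j ^ 2 + R ^ 2)) * (9 * (y + T * C') + 9 / (4 * y) * (2 * (R₁ ^ 2 * Real.exp (-R₁ ^ 2 / (256 * T)))
          + 4 * (R₁ ^ 2 * Real.exp (-y * R₁ / (128 * T))))) := by
        refine mul_le_mul_of_nonneg_left ?_ (by positivity)
        have : 0 ≤ 9 / (4 * y) := by positivity
        have := mul_le_mul_of_nonneg_left (by linarith : 2 * (r ^ 2 * E1) + 4 * (r ^ 2 * E2) ≤ 2 * (R₁ ^ 2 * Real.exp (-R₁ ^ 2 / (256 * T)))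
          + 4 * (R₁ ^ 2 * Real.exp (-y * R₁ / (128 * T)))) this
        linarith
    _ = _ := by
        congr 1
        field_simp

/-- the entries of the resolvent are measurable in the matrix -/
theorem u1_G_meas (z : ℂ) (i j : ι) : Measurable fun X : Matrix ι ι ℝ => rsG X z i j := by
  unfold rsG
  refine goe_inv_measurable (fun a b => ?_) i j
  simp only [Matrix.sub_apply, Matrix.smul_apply]
  exact (Complex.measurable_ofReal.comp (goe_entry_measurable a b)).sub measurable_const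

theorem u1_aff_meas (D : Matrix ι ι ℝ) (t : ℝ) : Measurable fun N : Matrix ι ι ℝ => D + Real.sqrt t • goeOf N :=
  goe_add_measurable measurable_const ((goe_smul_measurable _).comp goe_of_measurable)

/-- **E4** summation; only the cap condition on `x` is used -/
theorem u1_sum (x : ι → ℝ) {σ C₀ C' C₁ e₀ s y T R R₁ c' e : ℝ} (hσ : 0 ≤ σ) (hc0 : 0 ≤ c') (hcs : c' ≤ s) (he : |e| ≤ e₀) (hy : 0 < y) (hT : 0 < T)
    (hR : 0 < R) (hC₀ : 0 ≤ C₀) (hC' : C₀ + 2 / y ≤ C') (hC₁ : 0 ≤ C₁) (hcap : ∑ j, R ^ 2 / (x j ^ 2 + R ^ 2) ≤ C₁ * R)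
    (h1 : 16 * (y + T * C') ≤ R₁) (h2 : 2 * (e₀ + s) ≤ R₁) (h3 : 512 * T ≤ R₁ ^ 2) (h4 : 256 * T ≤ y * R₁) :
    ∫ N, (if ‖rTr (Matrix.diagonal (fun j => x j + c') + Real.sqrt T • goeOf N) ((e : ℂ) + (y : ℂ) * Complex.I)‖ ≤ C₀
        then ∑ j, σ * (x j ^ 2 / (x j ^ 2 + R ^ 2)) * (rsG (Matrix.diagonal (fun j => x j + c') + Real.sqrt T • goeOf N) ((e : ℂ) + (y : ℂ) * Complex.I) j j).im
        else 0) ∂gArr ι ι ≤ σ * u1Eps C₀ C' C₁ e₀ s y T R R₁ := by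
  classical
  have hC'0 : 0 ≤ C' := le_trans (add_nonneg hC₀ (by positivity)) hC'
  have hyT : 0 < y + T * C' := by positivity
  have hR1 : 0 < R₁ := lt_of_lt_of_le (by positivity) h1
  have he0 : 0 ≤ e₀ := (abs_nonneg e).trans he
  have hs0 : 0 ≤ s := hc0.trans hcs
  set z : ℂ := (e : ℂ) + (y : ℂ) * Complex.I with hz
  have hzi : z.im = y := by simp [hz]
  have hz0 : 0 < z.im := by rw [hzi]; exact hy
  set Mx : Matrix ι ι ℝ → Matrix ι ι ℝ := fun N => Matrix.diagonal (fun j => x j + c') + Real.sqrt T • goeOf N with hMx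
  have hH : ∀ N, (Mx N).IsHermitian := fun N => eig_herm_path (eig_diag_herm _) (eig_goeOf_herm N) _
  have hMm : Measurable Mx := u1_aff_meas _ _
  set a : ι → ℝ := fun j => σ * (x j ^ 2 / (x j ^ 2 + R ^ 2)) with ha
  have ha0 : ∀ j, 0 ≤ a j := fun j => by positivity
  set g : ι → Matrix ι ι ℝ → ℝ := fun j N => if ‖rTr (Mx N) z‖ ≤ C₀ then (rsG (Mx N) z j j).im else 0 with hg
  have hgood : MeasurableSet {N : Matrix ι ι ℝ | ‖rTr (Mx N) z‖ ≤ C₀} :=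
    measurableSet_le ((goe_rTr_measurable z).comp hMm).norm measurable_const
  have hgm : ∀ j, Measurable (g j) := fun j =>
    Measurable.ite hgood (Complex.measurable_im.comp ((u1_G_meas z j j).comp hMm)) measurable_const
  have hg0 : ∀ j N, 0 ≤ g j N := fun j N => by
    simp only [hg]
    split_ifs
    · exact (rs_G_im_pos (hH N) hz0 j).le
    · exact le_rfl
  have hg1 : ∀ j N, g j N ≤ 1 / y := fun j N => by
    simp only [hg]
    split_ifs
    · rw [← hzi]; exact rs_G_im_le (hH N) hz0 j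
    · positivity
  have hgi : ∀ j, Integrable (g j) (gArr ι ι) := fun j =>
    Integrable.of_bound (hgm j).aestronglyMeasurable (1 / y) (Filter.Eventually.of_forall fun N => by
      rw [Real.norm_eq_abs, abs_of_nonneg (hg0 j N)]; exact hg1 j N)
  have hgs : ∀ N, ∑ j, g j N ≤ C₀ := fun N => by
    simp only [hg]
    split_ifs with hh
    · have e2 : ∑ j, (rsG (Mx N) z j j).im = (rTr (Mx N) z).im := by
        rw [u1_rTr_eq, Matrix.trace, Complex.im_sum]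
        rfl
      rw [e2]
      exact ((le_abs_self _).trans (Complex.abs_im_le_norm _)).trans hh
    · simpa using hC₀
  have e1 : ∀ N, (if ‖rTr (Mx N) z‖ ≤ C₀ then ∑ j, a j * (rsG (Mx N) z j j).im else 0) = ∑ j, a j * g j N := fun N => by
    simp only [hg]
    split_ifs <;> simp
  set κ : ℝ := ((R₁ + e₀ + s) / R) ^ 2 with hκ
  have hκ0 : 0 ≤ κ := by positivity
  set Bd : ℝ := 9 * (y + T * C') + 9 * R₁ ^ 2 / (4 * y) * (2 * Real.exp (-R₁ ^ 2 / (256 * T)) + 4 * Real.exp (-y * R₁ / (128 * T))) with hBd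
  have hBd0 : 0 ≤ Bd := by positivity
  -- each site
  have hsite : ∀ j, a j * ∫ N, g j N ∂gArr ι ι ≤ σ * κ * ∫ N, g j N ∂gArr ι ι + σ * (1 / (x j ^ 2 + R ^ 2)) * Bd := by
    intro j
    have hI0 : 0 ≤ ∫ N, g j N ∂gArr ι ι := integral_nonneg (hg0 j)
    have hD : 0 < x j ^ 2 + R ^ 2 := by positivity
    rcases le_or_gt (|x j + c' - e|) R₁ with hj | hj
    · have h5 : |x j| ≤ R₁ + e₀ + s := by
        have e3 : x j = (x j + c' - e) + (-c') + e := by ring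
        calc |x j| = |(x j + c' - e) + (-c') + e| := by rw [← e3]
          _ ≤ |x j + c' - e| + |-c'| + |e| := abs_add_three _ _ _
          _ = |x j + c' - e| + c' + |e| := by rw [abs_neg, abs_of_nonneg hc0]
          _ ≤ R₁ + e₀ + s := by linarith
      have h6 : x j ^ 2 / (x j ^ 2 + R ^ 2) ≤ κ := by
        rw [hκ, div_pow, div_le_div_iff₀ hD (by positivity)]
        have h7 := pow_le_pow_left₀ (abs_nonneg (x j)) h5 2
        rw [sq_abs] at h7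
        have h8 : 0 ≤ (R₁ + e₀ + s) ^ 2 * x j ^ 2 := by positivity
        nlinarith
      have h9 : a j ≤ σ * κ := mul_le_mul_of_nonneg_left h6 hσ
      have h10 : 0 ≤ σ * (1 / (x j ^ 2 + R ^ 2)) * Bd := by positivity
      have := mul_le_mul_of_nonneg_right h9 hI0
      linarith
    · have := u1_site_far x hσ hc0 hcs he hy hT hR hC₀ hC' h1 h2 h3 h4 j hj
      have h10 : 0 ≤ σ * κ * ∫ N, g j N ∂gArr ι ι := by positivity
      have h11 : a j * ∫ N, g j N ∂gArr ι ι ≤ σ * (1 / (x j ^ 2 + R ^ 2)) * Bd := this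
      linarith
  have hsum1 : ∑ j, ∫ N, g j N ∂gArr ι ι ≤ C₀ := by
    rw [← integral_finsetSum _ fun j _ => hgi j]
    calc ∫ N, ∑ j, g j N ∂gArr ι ι ≤ ∫ _N, C₀ ∂gArr ι ι :=
          integral_mono (integrable_finsetSum _ fun j _ => hgi j) (integrable_const _) hgs
      _ = C₀ := by simp
  have hsum2 : ∑ j, 1 / (x j ^ 2 + R ^ 2) ≤ C₁ / R := by
    have e4 : ∑ j, 1 / (x j ^ 2 + R ^ 2) = (∑ j, R ^ 2 / (x j ^ 2 + R ^ 2)) / R ^ 2 := by
      rw [Finset.sum_div]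
      refine Finset.sum_congr rfl fun j _ => ?_
      have hD : 0 < x j ^ 2 + R ^ 2 := by positivity
      field_simp
    rw [e4, div_le_div_iff₀ (by positivity) hR]
    nlinarith [mul_le_mul_of_nonneg_right hcap hR.le]
  calc ∫ N, (if ‖rTr (Mx N) z‖ ≤ C₀ then ∑ j, a j * (rsG (Mx N) z j j).im else 0) ∂gArr ι ι
      = ∫ N, ∑ j, a j * g j N ∂gArr ι ι := by simp only [e1]
    _ = ∑ j, a j * ∫ N, g j N ∂gArr ι ι := by
        rw [integral_finsetSum _ fun j _ => (hgi j).const_mul _]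
        exact Finset.sum_congr rfl fun j _ => integral_const_mul _ _
    _ ≤ ∑ j, (σ * κ * ∫ N, g j N ∂gArr ι ι + σ * (1 / (x j ^ 2 + R ^ 2)) * Bd) := Finset.sum_le_sum fun j _ => hsite j
    _ = σ * κ * ∑ j, ∫ N, g j N ∂gArr ι ι + σ * Bd * ∑ j, 1 / (x j ^ 2 + R ^ 2) := by
        rw [Finset.sum_add_distrib, Finset.mul_sum, Finset.mul_sum]
        congr 1
        exact Finset.sum_congr rfl fun j _ => by ring
    _ ≤ σ * κ * C₀ + σ * Bd * (C₁ / R) :=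
        add_le_add (mul_le_mul_of_nonneg_left hsum1 (by positivity)) (mul_le_mul_of_nonneg_left hsum2 (by positivity))
    _ = σ * u1Eps C₀ C' C₁ e₀ s y T R R₁ := by
        unfold u1Eps
        rw [hκ, hBd]
        field_simp
        ring

/-- **R4 for a diagonal nonnegative perturbation, at a lower height**: `0 ≤ a_j ≤ y₁/2`, `y₁ ≤ y`:
`|Tr G_{Z - diag a}(e+iy₁) - Tr G_Z(e+iy₁)| ≤ (3y/(2y₁²)) ∑_j a_j Im G_Z(e+iy)_jj`.   Plan: `rsv_trace_sub_le` with `R = diag √a`, `rsv_hs_eq`, `rs_im_div_anti`/`rsv_div_im_anti`. -/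
theorem u1_r4 {Z : Matrix ι ι ℝ} (hZ : Z.IsSymm) (a : ι → ℝ) {e y₁ y : ℝ} (hy₁ : 0 < y₁) (hy : y₁ ≤ y) (ha0 : ∀ j, 0 ≤ a j) (ha : ∀ j, a j ≤ y₁ / 2) :
    ‖rTr (Z - Matrix.diagonal a) ((e : ℂ) + (y₁ : ℂ) * Complex.I) - rTr Z ((e : ℂ) + (y₁ : ℂ) * Complex.I)‖
      ≤ 3 * y / (2 * y₁ ^ 2) * ∑ j, a j * (rsG Z ((e : ℂ) + (y : ℂ) * Complex.I) j j).im := by
  have hH := u1_symm_herm hZ
  rw [u1_Z_eq, u1_Z_eq]
  set R : Matrix ι ι ℝ := Matrix.diagonal fun j => Real.sqrt (a j) with hR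
  have hRR : Rᵀ * R = Matrix.diagonal a := by
    rw [hR, Matrix.diagonal_transpose, Matrix.diagonal_mul_diagonal]
    congr 1
    funext j
    exact Real.mul_self_sqrt (ha0 j)
  have hz : 0 < (rsZ e y₁).im := hy₁
  have h1 := rs_trace_sub_le (B := Z) (R := R) hH hz (by
    intro u
    rw [hRR, Finset.mul_sum]
    refine Finset.sum_le_sum fun x _ => ?_
    rw [Matrix.mulVec_diagonal, mul_pow]
    refine mul_le_mul_of_nonneg_right ?_ (sq_nonneg _)
    exact pow_le_pow_left₀ (ha0 x) (ha x) 2)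
  have h2 := rs_hs_eq R hH hz.ne'
  rw [hRR] at h1 h2
  have h3 : ((rsC (Matrix.diagonal a) * rsG Z (rsZ e y₁)).trace).im = ∑ j, a j * (rsG Z (rsZ e y₁) j j).im := by
    rw [rs_C_diagonal, Matrix.trace, Complex.im_sum]
    refine Finset.sum_congr rfl fun j _ => ?_
    rw [Matrix.diag_apply, Matrix.diagonal_mul]
    simp
  rw [h3] at h2
  have h4 : ∑ j, a j * (rsG Z (rsZ e y₁) j j).im ≤ y / y₁ * ∑ j, a j * (rsG Z (rsZ e y) j j).im := by
    rw [Finset.mul_sum]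
    refine Finset.sum_le_sum fun j _ => ?_
    have := rs_eta_im_mono hH e hy₁ hy j
    have h5 : (rsG Z (rsZ e y₁) j j).im ≤ y / y₁ * (rsG Z (rsZ e y) j j).im := by
      rw [div_mul_eq_mul_div, le_div_iff₀ hy₁]; linarith
    calc a j * (rsG Z (rsZ e y₁) j j).im ≤ a j * (y / y₁ * (rsG Z (rsZ e y) j j).im) := mul_le_mul_of_nonneg_left h5 (ha0 j)
      _ = _ := by ring
  have h6 : ∑ a_1, ∑ b, ‖(rsC R * rsG Z (rsZ e y₁)) a_1 b‖ ^ 2 = (∑ j, a j * (rsG Z (rsZ e y₁) j j).im) / y₁ := by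
    rw [← h2]; simp only [rs_Z_im]; field_simp
  rw [h6] at h1
  refine h1.trans ?_
  calc 3 / 2 * ((∑ j, a j * (rsG Z (rsZ e y₁) j j).im) / y₁) ≤ 3 / 2 * ((y / y₁ * ∑ j, a j * (rsG Z (rsZ e y) j j).im) / y₁) := by
        gcongr
    _ = _ := by field_simp


/-- hypotheses on the observable and on the parameters of one step -/
structure U1Par {b : ℕ} (Φ : (Fin b → ℂ) → ℝ) (z : Fin b → ℂ) (B Lp σ C₀ C' C₁ e₀ s y y₀ : ℝ) : Prop where
  meas : Measurable Φ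
  bdd : ∀ w, |Φ w| ≤ B
  lip : ∀ w w', |Φ w - Φ w'| ≤ Lp * ∑ a, ‖w a - w' a‖
  lp0 : 0 ≤ Lp
  im0 : ∀ a, y₀ ≤ (z a).im
  imy : ∀ a, (z a).im ≤ y
  re : ∀ a, |(z a).re| ≤ e₀
  y0 : 0 < y₀
  σ0 : 0 ≤ σ
  σs : σ ≤ s
  sy : s ≤ y₀ / 2
  c0 : 0 ≤ C₀
  c' : C₀ + 2 / y ≤ C'
  c1 : 0 ≤ C₁

/-- **E2-E4, diagonal data, cap inactive** -/
theorem u1_eff_diag {b : ℕ} {Φ : (Fin b → ℂ) → ℝ} {z : Fin b → ℂ} {B Lp σ C₀ C' C₁ e₀ s y y₀ : ℝ} (hp : U1Par Φ z B Lp σ C₀ C' C₁ e₀ s y y₀)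
    {T R R₁ c : ℝ} (hT : 0 < T) (hR : 0 < R) (hc0 : 0 ≤ c) (hcs : c + σ ≤ s)
    (h1 : 16 * (y + T * C') ≤ R₁) (h2 : 2 * (e₀ + s) ≤ R₁) (h3 : 512 * T ≤ R₁ ^ 2) (h4 : 256 * T ≤ y * R₁)
    (x : ι → ℝ) (hcap : ∑ j, R ^ 2 / (x j ^ 2 + R ^ 2) ≤ C₁ * R) :
    |shU T (u1F Φ z) (Matrix.diagonal x + σ • (Matrix.diagonal fun j => R ^ 2 / (x j ^ 2 + R ^ 2)) + c • (1 : Matrix ι ι ℝ))
        - shU T (u1F Φ z) (Matrix.diagonal x + (c + σ) • (1 : Matrix ι ι ℝ))|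
      ≤ 2 * B * ∑ a, shU T (fun Y => if C₀ < ‖rTr Y ((((z a).re - (c + σ) : ℝ) : ℂ) + (y : ℂ) * Complex.I)‖ then 1 else 0) (Matrix.diagonal x)
        + Lp * b * (3 * y / (2 * y₀ ^ 2)) * (σ * u1Eps C₀ C' C₁ e₀ s y T R R₁) := by
  have hB0 : 0 ≤ B := (abs_nonneg _).trans (hp.bdd 0)
  set Zf : Matrix ι ι ℝ → Matrix ι ι ℝ := fun N => Matrix.diagonal (fun j => x j + (c + σ)) + Real.sqrt T • goeOf N with hZf
  set av : ι → ℝ := fun j => σ * (x j ^ 2 / (x j ^ 2 + R ^ 2)) with hav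
  set ζ : Fin b → ℂ := fun a => (((z a).re : ℝ) : ℂ) + (y : ℂ) * Complex.I with hζ
  have hden : ∀ j, 0 < x j ^ 2 + R ^ 2 := fun j => by positivity
  have hav0 : ∀ j, 0 ≤ av j := fun j => mul_nonneg hp.σ0 (div_nonneg (sq_nonneg _) (hden j).le)
  have havσ : ∀ j, av j ≤ σ := fun j => by
    have : x j ^ 2 / (x j ^ 2 + R ^ 2) ≤ 1 := (div_le_one (hden j)).2 (by nlinarith [sq_nonneg R])
    calc av j ≤ σ * 1 := mul_le_mul_of_nonneg_left this hp.σ0
      _ = σ := mul_one _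
  have hZs : ∀ N, (Zf N).IsSymm := fun N => u1_Zf_symm _ T N
  have hZm : Measurable Zf := sh_aff_meas' T _
  have e1 : ∀ N, Matrix.diagonal x + σ • (Matrix.diagonal fun j => R ^ 2 / (x j ^ 2 + R ^ 2)) + c • (1 : Matrix ι ι ℝ) + Real.sqrt T • goeOf N
      = Zf N - Matrix.diagonal av := by
    intro N
    have : Matrix.diagonal x + σ • (Matrix.diagonal fun j => R ^ 2 / (x j ^ 2 + R ^ 2)) + c • (1 : Matrix ι ι ℝ)
        = Matrix.diagonal (fun j => x j + (c + σ)) - Matrix.diagonal av := by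
      rw [Matrix.diagonal_sub, ← Matrix.diagonal_smul, Matrix.diagonal_add, u1_diag_shift]
      congr 1
      funext j
      simp only [hav, Pi.smul_apply, smul_eq_mul]
      have := (hden j).ne'
      field_simp
      ring
    rw [this]
    exact sub_add_eq_add_sub _ _ _
  have e2 : ∀ N, Matrix.diagonal x + (c + σ) • (1 : Matrix ι ι ℝ) + Real.sqrt T • goeOf N = Zf N := by
    intro N; rw [u1_diag_shift]
  set P : Fin b → Matrix ι ι ℝ → ℝ := fun a N => if C₀ < ‖rTr (Zf N) (ζ a)‖ then 1 else 0 with hP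
  set Q : Fin b → Matrix ι ι ℝ → ℝ := fun a N => if ‖rTr (Zf N) (ζ a)‖ ≤ C₀ then ∑ j, av j * (rsG (Zf N) (ζ a) j j).im else 0 with hQ
  have hya : ∀ a : Fin b, 0 < y := fun a => hp.y0.trans_le ((hp.im0 a).trans (hp.imy a))
  have hζim : ∀ a, (ζ a).im = y := fun a => by simp [hζ]
  have hS0 : ∀ a N, 0 ≤ ∑ j, av j * (rsG (Zf N) (ζ a) j j).im := fun a N =>
    Finset.sum_nonneg fun j _ => mul_nonneg (hav0 j) (rs_G_im_pos (u1_symm_herm (hZs N)) (by rw [hζim]; exact hya a) j).le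
  have hP0 : ∀ a N, 0 ≤ P a N := fun a N => by simp only [hP]; split_ifs <;> norm_num
  have hQ0 : ∀ a N, 0 ≤ Q a N := fun a N => by
    simp only [hQ]; split_ifs
    · exact hS0 a N
    · exact le_rfl
  have hk : 0 ≤ 3 * y / (2 * y₀ ^ 2) ∨ b = 0 := by
    rcases Nat.eq_zero_or_pos b with h | h
    · exact Or.inr h
    · left
      have := hya ⟨0, h⟩
      have := hp.y0
      positivity
  -- the pointwise bound
  have hpt : ∀ N, |u1F Φ z (Zf N - Matrix.diagonal av) - u1F Φ z (Zf N)| ≤ 2 * B * ∑ a, P a N + Lp * (3 * y / (2 * y₀ ^ 2)) * ∑ a, Q a N := by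
    intro N
    by_cases hg : ∀ a, ‖rTr (Zf N) (ζ a)‖ ≤ C₀
    · have hPz : ∀ a, P a N = 0 := fun a => by simp only [hP]; rw [if_neg (not_lt.2 (hg a))]
      have hQz : ∀ a, Q a N = ∑ j, av j * (rsG (Zf N) (ζ a) j j).im := fun a => by simp only [hQ]; rw [if_pos (hg a)]
      simp only [hPz, hQz, Finset.sum_const_zero, mul_zero, zero_add]
      refine (hp.lip _ _).trans ?_
      rw [mul_assoc]
      refine mul_le_mul_of_nonneg_left ?_ hp.lp0
      rw [Finset.mul_sum]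
      refine Finset.sum_le_sum fun a _ => ?_
      have hy1 : 0 < (z a).im := hp.y0.trans_le (hp.im0 a)
      have h := u1_r4 (hZs N) av (e := (z a).re) hy1 (hp.imy a) hav0 (fun j => (havσ j).trans (by
        have := hp.σs; have := hp.sy; have := hp.im0 a; linarith))
      rw [Complex.re_add_im] at h
      refine h.trans (mul_le_mul_of_nonneg_right ?_ (hS0 a N))
      have hy := hya a
      have h0 := hp.y0
      have : y₀ ^ 2 ≤ (z a).im ^ 2 := pow_le_pow_left₀ h0.le (hp.im0 a) 2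
      gcongr
    · push Not at hg
      obtain ⟨a₀, ha₀⟩ := hg
      have h1' : (1 : ℝ) ≤ ∑ a, P a N := by
        have : P a₀ N = 1 := by simp only [hP]; rw [if_pos ha₀]
        rw [← this]
        exact Finset.single_le_sum (fun a _ => hP0 a N) (Finset.mem_univ a₀)
      have h2' : |u1F Φ z (Zf N - Matrix.diagonal av) - u1F Φ z (Zf N)| ≤ 2 * B := by
        have a1 := hp.bdd fun a => rTr (Zf N - Matrix.diagonal av) (z a)
        have a2 := hp.bdd fun a => rTr (Zf N) (z a)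
        have := abs_sub (u1F Φ z (Zf N - Matrix.diagonal av)) (u1F Φ z (Zf N))
        unfold u1F at *
        linarith
      have h3' : 0 ≤ Lp * (3 * y / (2 * y₀ ^ 2)) * ∑ a, Q a N := by
        have hy := hya a₀
        have h0 := hp.y0
        exact mul_nonneg (mul_nonneg hp.lp0 (by positivity)) (Finset.sum_nonneg fun a _ => hQ0 a N)
      nlinarith
  -- measurability and integrability
  have hFm : Measurable (u1F Φ z : Matrix ι ι ℝ → ℝ) := u1_F_meas hp.meas z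
  have hFb : ∀ X : Matrix ι ι ℝ, |u1F Φ z X| ≤ B := fun X => hp.bdd _
  have hTm : ∀ a, Measurable fun N => ‖rTr (Zf N) (ζ a)‖ := fun a => ((u1_rTr_meas (ζ a)).comp hZm).norm
  have hPm : ∀ a, Measurable (P a) := fun a => Measurable.ite (measurableSet_lt measurable_const (hTm a)) measurable_const measurable_const
  have hSm : ∀ a, Measurable fun N => ∑ j, av j * (rsG (Zf N) (ζ a) j j).im := fun a =>
    Finset.measurable_fun_sum _ fun j _ => (Complex.measurable_im.comp ((u0_G_measurable (ζ a) j j).comp hZm)).const_mul _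
  have hQm : ∀ a, Measurable (Q a) := fun a => Measurable.ite (measurableSet_le (hTm a) measurable_const) (hSm a) measurable_const
  have hPi : ∀ a, Integrable (P a) (gArr ι ι) := fun a => sh_int_of_bdd (B := 1) _ (hPm a) fun N => by
    rw [abs_of_nonneg (hP0 a N)]; simp only [hP]; split_ifs <;> norm_num
  have hQi : ∀ a, Integrable (Q a) (gArr ι ι) := fun a => sh_int_of_bdd (B := ∑ j, av j * (1 / y)) _ (hQm a) fun N => by
    rw [abs_of_nonneg (hQ0 a N)]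
    have hb : ∑ j, av j * (rsG (Zf N) (ζ a) j j).im ≤ ∑ j, av j * (1 / y) :=
      Finset.sum_le_sum fun j _ => mul_le_mul_of_nonneg_left (by
        have := rs_G_im_le (u1_symm_herm (hZs N)) (z := ζ a) (by rw [hζim]; exact hya a) j
        rwa [hζim] at this) (hav0 j)
    simp only [hQ]; split_ifs
    · exact hb
    · exact (hS0 a N).trans hb
  -- integrate
  have hZm' : Measurable fun N => Zf N - Matrix.diagonal av := by
    have : (fun N => Zf N - Matrix.diagonal av) = fun N => Zf N + (-Matrix.diagonal av) := by funext N; exact sub_eq_add_neg _ _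
    rw [this]; exact goe_add_measurable hZm measurable_const
  have i1 : Integrable (fun N => u1F Φ z (Zf N - Matrix.diagonal av)) (gArr ι ι) := sh_int_of_bdd _ (hFm.comp hZm') fun _ => hFb _
  have i2 : Integrable (fun N => u1F Φ z (Zf N)) (gArr ι ι) := sh_int_of_bdd _ (hFm.comp hZm) fun _ => hFb _
  have eL : shU T (u1F Φ z) (Matrix.diagonal x + σ • (Matrix.diagonal fun j => R ^ 2 / (x j ^ 2 + R ^ 2)) + c • (1 : Matrix ι ι ℝ))
        - shU T (u1F Φ z) (Matrix.diagonal x + (c + σ) • (1 : Matrix ι ι ℝ)) = ∫ N, (u1F Φ z (Zf N - Matrix.diagonal av) - u1F Φ z (Zf N)) ∂gArr ι ι := by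
    unfold shU
    simp only [e1, e2]
    rw [integral_sub i1 i2]
  rw [eL]
  have iP : Integrable (fun N => 2 * B * ∑ a, P a N) (gArr ι ι) := (integrable_finsetSum _ fun a _ => hPi a).const_mul _
  have iQ : Integrable (fun N => Lp * (3 * y / (2 * y₀ ^ 2)) * ∑ a, Q a N) (gArr ι ι) := (integrable_finsetSum _ fun a _ => hQi a).const_mul _
  have hI : ∫ N, (2 * B * ∑ a, P a N + Lp * (3 * y / (2 * y₀ ^ 2)) * ∑ a, Q a N) ∂gArr ι ι
      = 2 * B * ∑ a, ∫ N, P a N ∂gArr ι ι + Lp * (3 * y / (2 * y₀ ^ 2)) * ∑ a, ∫ N, Q a N ∂gArr ι ι := by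
    rw [integral_add iP iQ, integral_const_mul, integral_const_mul, integral_finsetSum _ fun a _ => hPi a, integral_finsetSum _ fun a _ => hQi a]
  have hPe : ∀ a, ∫ N, P a N ∂gArr ι ι
      = shU T (fun Y => if C₀ < ‖rTr Y ((((z a).re - (c + σ) : ℝ) : ℂ) + (y : ℂ) * Complex.I)‖ then 1 else 0) (Matrix.diagonal x) := by
    intro a
    unfold shU
    refine integral_congr_ae (Filter.Eventually.of_forall fun N => ?_)
    simp only [hP]
    have : rTr (Zf N) (ζ a) = rTr (Matrix.diagonal x + Real.sqrt T • goeOf N) ((((z a).re - (c + σ) : ℝ) : ℂ) + (y : ℂ) * Complex.I) := by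
      rw [← e2 N, add_right_comm, u1_rTr_shift]
      congr 1
      simp only [hζ]
      push_cast
      ring
    rw [this]
  have hQe : ∀ a, ∫ N, Q a N ∂gArr ι ι ≤ σ * u1Eps C₀ C' C₁ e₀ s y T R R₁ := fun a =>
    u1_sum x hp.σ0 (add_nonneg hc0 hp.σ0) hcs (hp.re a) (hya a) hT hR hp.c0 hp.c' hp.c1 hcap h1 h2 h3 h4
  have hfin : Lp * (3 * y / (2 * y₀ ^ 2)) * ∑ a, ∫ N, Q a N ∂gArr ι ι ≤ Lp * b * (3 * y / (2 * y₀ ^ 2)) * (σ * u1Eps C₀ C' C₁ e₀ s y T R R₁) := by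
    rcases hk with hk | hb
    · calc Lp * (3 * y / (2 * y₀ ^ 2)) * ∑ a, ∫ N, Q a N ∂gArr ι ι ≤ Lp * (3 * y / (2 * y₀ ^ 2)) * ∑ _a : Fin b, σ * u1Eps C₀ C' C₁ e₀ s y T R R₁ :=
            mul_le_mul_of_nonneg_left (Finset.sum_le_sum fun a _ => hQe a) (mul_nonneg hp.lp0 hk)
        _ = _ := by
            rw [Finset.sum_const, Finset.card_univ, Fintype.card_fin, nsmul_eq_mul]; ring
    · subst hb; simp
  calc |∫ N, (u1F Φ z (Zf N - Matrix.diagonal av) - u1F Φ z (Zf N)) ∂gArr ι ι|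
      ≤ ∫ N, |u1F Φ z (Zf N - Matrix.diagonal av) - u1F Φ z (Zf N)| ∂gArr ι ι := abs_integral_le_integral_abs
    _ ≤ ∫ N, (2 * B * ∑ a, P a N + Lp * (3 * y / (2 * y₀ ^ 2)) * ∑ a, Q a N) ∂gArr ι ι := integral_mono (i1.sub i2).abs (iP.add iQ) hpt
    _ ≤ _ := by
        rw [hI]
        simp only [hPe]
        linarith


/-- **E2-E4, symmetric data, cap inactive**: `rs_spectral` + ROT (`u1_U_conj`, `u1_chi_conj`, `u1_rTr_conj`) + `u1_eff_diag` -/
theorem u1_eff {b : ℕ} {Φ : (Fin b → ℂ) → ℝ} {z : Fin b → ℂ} {B Lp σ C₀ C' C₁ e₀ s y y₀ : ℝ} (hp : U1Par Φ z B Lp σ C₀ C' C₁ e₀ s y y₀)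
    {T R R₁ c : ℝ} (hT : 0 < T) (hR : 0 < R) (hc0 : 0 ≤ c) (hcs : c + σ ≤ s)
    (h1 : 16 * (y + T * C') ≤ R₁) (h2 : 2 * (e₀ + s) ≤ R₁) (h3 : 512 * T ≤ R₁ ^ 2) (h4 : 256 * T ≤ y * R₁)
    {X : Matrix ι ι ℝ} (hX : X.IsSymm) (hcap : (u1Chi R X).trace ≤ C₁ * R) :
    |shU T (u1F Φ z) (X + u1Th σ C₁ R X + c • (1 : Matrix ι ι ℝ)) - shU T (u1F Φ z) (X + (c + σ) • (1 : Matrix ι ι ℝ))|
      ≤ 2 * B * ∑ a, shU T (fun Y => if C₀ < ‖rTr Y ((((z a).re - (c + σ) : ℝ) : ℂ) + (y : ℂ) * Complex.I)‖ then 1 else 0) X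
        + Lp * b * (3 * y / (2 * y₀ ^ 2)) * (σ * u1Eps C₀ C' C₁ e₀ s y T R R₁) := by
  have hH := u1_symm_herm hX
  set U := rsU hH with hU
  set lam := hH.eigenvalues with hlam
  have eX : X = U * Matrix.diagonal lam * Uᵀ := rs_spectral hH
  have o1 : U * Uᵀ = 1 := rs_U_mul_T hH
  have o2 : Uᵀ * U = 1 := rs_T_mul_U hH
  have eχ : u1Chi R X = U * (Matrix.diagonal fun j => R ^ 2 / (lam j ^ 2 + R ^ 2)) * Uᵀ := by
    conv_lhs => rw [eX]
    rw [u1_chi_conj hR U _ o1 o2, u1_chi_diag hR]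
  have e1c : ∀ t : ℝ, t • (1 : Matrix ι ι ℝ) = U * (t • (1 : Matrix ι ι ℝ)) * Uᵀ := fun t => by
    rw [Matrix.mul_smul, Matrix.smul_mul, Matrix.mul_one, o1]
  have eA : X + u1Th σ C₁ R X + c • (1 : Matrix ι ι ℝ)
      = U * (Matrix.diagonal lam + σ • (Matrix.diagonal fun j => R ^ 2 / (lam j ^ 2 + R ^ 2)) + c • (1 : Matrix ι ι ℝ)) * Uᵀ := by
    unfold u1Th
    rw [if_pos hcap, eχ, Matrix.mul_add, Matrix.mul_add, Matrix.add_mul, Matrix.add_mul, ← eX, ← e1c, Matrix.mul_smul, Matrix.smul_mul]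
  have eB : X + (c + σ) • (1 : Matrix ι ι ℝ) = U * (Matrix.diagonal lam + (c + σ) • (1 : Matrix ι ι ℝ)) * Uᵀ := by
    rw [Matrix.mul_add, Matrix.add_mul, ← eX, ← e1c]
  have hcap' : ∑ j, R ^ 2 / (lam j ^ 2 + R ^ 2) ≤ C₁ * R := by
    rw [eχ, Matrix.trace_mul_comm, ← Matrix.mul_assoc, o2, Matrix.one_mul, Matrix.trace_diagonal] at hcap
    exact hcap
  have hinvF : ∀ Y, u1F Φ z (U * Y * Uᵀ) = u1F Φ z Y := fun Y => by
    unfold u1F
    simp only [u1_rTr_conj U Y o1 o2]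
  have hbad : ∀ a, shU T (fun Y => if C₀ < ‖rTr Y ((((z a).re - (c + σ) : ℝ) : ℂ) + (y : ℂ) * Complex.I)‖ then (1 : ℝ) else 0) X
      = shU T (fun Y => if C₀ < ‖rTr Y ((((z a).re - (c + σ) : ℝ) : ℂ) + (y : ℂ) * Complex.I)‖ then (1 : ℝ) else 0) (Matrix.diagonal lam) := by
    intro a
    conv_lhs => rw [eX]
    exact u1_U_conj T (u1_bad_meas C₀ _) U o1 o2 (fun Y => by simp only [u1_rTr_conj U Y o1 o2]) _
  rw [eA, eB, u1_U_conj T (u1_F_meas hp.meas z) U o1 o2 hinvF, u1_U_conj T (u1_F_meas hp.meas z) U o1 o2 hinvF]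
  simp only [hbad]
  exact u1_eff_diag hp hT hR hc0 hcs h1 h2 h3 h4 lam hcap'

/-- **E5** the square of the defect of one step -/
theorem u1_D_sq {b : ℕ} {Φ : (Fin b → ℂ) → ℝ} {z : Fin b → ℂ} {B Lp σ C₀ C' C₁ e₀ s y y₀ : ℝ} (hp : U1Par Φ z B Lp σ C₀ C' C₁ e₀ s y y₀)
    {Δ R R₁ : ℝ} (l : List (ShStep ι)) (hT : 0 < shT (u1St σ C₁ Δ R :: l)) (hR : 0 < R) (hcs : σ * (l.length + 1) ≤ s)
    (h1 : 16 * (y + shT (u1St σ C₁ Δ R :: l) * C') ≤ R₁) (h2 : 2 * (e₀ + s) ≤ R₁) (h3 : 512 * shT (u1St σ C₁ Δ R :: l) ≤ R₁ ^ 2)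
    (h4 : 256 * shT (u1St σ C₁ Δ R :: l) ≤ y * R₁) {X : Matrix ι ι ℝ} (hX : X.IsSymm) :
    shD σ (u1F Φ z) (u1St σ C₁ Δ R) l X ^ 2
      ≤ 4 * B ^ 2 * (if C₁ < ‖rTr X ((R : ℂ) * Complex.I)‖ then 1 else 0)
        + 2 * (Lp * b * (3 * y / (2 * y₀ ^ 2)) * (σ * u1Eps C₀ C' C₁ e₀ s y (shT (u1St σ C₁ Δ R :: l)) R R₁)) ^ 2
        + 8 * B ^ 2 * b * ∑ a, shU (shT (u1St σ C₁ Δ R :: l))
            (fun Y => if C₀ < ‖rTr Y ((((z a).re - σ * (l.length + 1) : ℝ) : ℂ) + (y : ℂ) * Complex.I)‖ then 1 else 0) X := by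
  set T := shT (u1St σ C₁ Δ R :: l) with hTdef
  set p : Fin b → ℝ := fun a => shU T (fun Y => if C₀ < ‖rTr Y ((((z a).re - σ * (l.length + 1) : ℝ) : ℂ) + (y : ℂ) * Complex.I)‖ then (1 : ℝ) else 0) X with hpdef
  set E := Lp * b * (3 * y / (2 * y₀ ^ 2)) * (σ * u1Eps C₀ C' C₁ e₀ s y T R R₁) with hE
  have hp01 : ∀ a, 0 ≤ p a ∧ p a ≤ 1 := fun a => u1_U_bad_01 T C₀ _ X
  have hsum0 : 0 ≤ ∑ a, p a := Finset.sum_nonneg fun a _ => (hp01 a).1
  have hD0 : 0 ≤ shD σ (u1F Φ z) (u1St σ C₁ Δ R) l X := abs_nonneg _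
  have hB2 : 0 ≤ B ^ 2 := sq_nonneg B
  have hb0 : (0 : ℝ) ≤ b := Nat.cast_nonneg b
  by_cases hcap : (u1Chi R X).trace ≤ C₁ * R
  · have hlen : (0 : ℝ) ≤ l.length := Nat.cast_nonneg _
    have hc : σ * l.length + σ = σ * (l.length + 1) := by ring
    have h := u1_eff hp (c := σ * l.length) hT hR (mul_nonneg hp.σ0 hlen) (by rw [hc]; exact hcs) h1 h2 h3 h4 hX hcap
    rw [hc] at h
    have hD : shD σ (u1F Φ z) (u1St σ C₁ Δ R) l X ≤ 2 * B * ∑ a, p a + E := h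
    have hsq : (∑ a, p a) ^ 2 ≤ b * ∑ a, p a := by
      have h5 := sq_sum_le_card_mul_sum_sq (s := (Finset.univ : Finset (Fin b))) (f := p)
      rw [Finset.card_univ, Fintype.card_fin] at h5
      refine h5.trans (mul_le_mul_of_nonneg_left (Finset.sum_le_sum fun a _ => ?_) hb0)
      have := hp01 a
      nlinarith
    have h6 : shD σ (u1F Φ z) (u1St σ C₁ Δ R) l X ^ 2 ≤ (2 * B * ∑ a, p a + E) ^ 2 := pow_le_pow_left₀ hD0 hD 2
    have h7 : (2 * B * ∑ a, p a + E) ^ 2 ≤ 2 * (2 * B * ∑ a, p a) ^ 2 + 2 * E ^ 2 := by nlinarith [sq_nonneg (2 * B * ∑ a, p a - E)]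
    have h8 : (2 * B * ∑ a, p a) ^ 2 ≤ 4 * B ^ 2 * (b * ∑ a, p a) := by
      rw [mul_pow, mul_pow]
      have : (2 : ℝ) ^ 2 * B ^ 2 = 4 * B ^ 2 := by ring
      rw [this]
      exact mul_le_mul_of_nonneg_left hsq (by positivity)
    have h9 : 0 ≤ 4 * B ^ 2 * (if C₁ < ‖rTr X ((R : ℂ) * Complex.I)‖ then (1 : ℝ) else 0) := by
      split_ifs <;> positivity
    nlinarith
  · have hbig : C₁ < ‖rTr X ((R : ℂ) * Complex.I)‖ := by
      rw [not_le, u1_chi_trace hR hX, mul_comm] at hcap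
      have h5 : C₁ < (rTr X ((R : ℂ) * Complex.I)).im := lt_of_mul_lt_mul_left hcap hR.le
      exact h5.trans_le ((le_abs_self _).trans (Complex.abs_im_le_norm _))
    rw [if_pos hbig]
    have h5 := sh_D_bdd σ (F := u1F Φ z) (B := B) (fun Y => hp.bdd _) (u1St σ C₁ Δ R) l X
    rw [abs_of_nonneg hD0] at h5
    have h6 : shD σ (u1F Φ z) (u1St σ C₁ Δ R) l X ^ 2 ≤ (2 * B) ^ 2 := pow_le_pow_left₀ hD0 h5 2
    have h7 : 0 ≤ 8 * B ^ 2 * b * ∑ a, p a := by positivity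
    nlinarith [sq_nonneg E]


/-- the list of steps, executed from `k = n` down to `k = 1`: `Δ_k = y 2^k`, remaining time `T_k = y (2^(k+1) - 2)`, cutoff `R_k = M T_k` -/
noncomputable def u1L (σ C₁ y M : ℝ) : ℕ → List (ShStep ι)
  | 0 => []
  | k + 1 => u1St σ C₁ (y * 2 ^ (k + 1)) (M * (y * (2 ^ (k + 2) - 2))) :: u1L σ C₁ y M k

theorem u1_L_eqns_cite : True := by
  have := @u1L.eq_1
  have := @u1L.eq_2
  trivial

theorem u1_L_length (σ C₁ y M : ℝ) (k : ℕ) : (u1L σ C₁ y M k : List (ShStep ι)).length = k := by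
  induction k with
  | zero => rfl
  | succ k ih => simp [u1L, ih]

theorem u1_L_T (σ C₁ y M : ℝ) (k : ℕ) : shT (u1L σ C₁ y M k : List (ShStep ι)) = y * (2 ^ (k + 1) - 2) := by
  induction k with
  | zero => simp [u1L, shT]
  | succ k ih =>
    rw [u1L, sh_T_cons, ih]
    show y * 2 ^ (k + 1) + y * (2 ^ (k + 1) - 2) = y * (2 ^ (k + 1 + 1) - 2)
    ring

theorem u1_L_ok {σ C₁ y M : ℝ} (hy : 0 < y) (hM : 0 < M) (hC : 0 ≤ C₁) (k : ℕ) : ∀ st ∈ (u1L σ C₁ y M k : List (ShStep ι)), ShOk st := by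
  induction k with
  | zero => intro st hst; simp [u1L] at hst
  | succ k ih =>
    intro st hst
    rw [u1L] at hst
    rcases List.mem_cons.1 hst with rfl | hst
    · refine u1_st_ok (by positivity) ?_ hC
      have : (2 : ℝ) < 2 ^ (k + 2) := by
        calc (2 : ℝ) = 2 ^ 1 := by norm_num
          _ < 2 ^ (k + 2) := pow_lt_pow_right₀ (by norm_num) (by omega)
      have h2 : 0 < (2 : ℝ) ^ (k + 2) - 2 := by linarith
      positivity
    · exact ih st hst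

/-- `c_k = σ² C₁ M T_k / (2 Δ_k) ≤ σ² C₁ M` -/
theorem u1_L_K {σ C₁ y M : ℝ} (hy : 0 < y) (hM : 0 < M) (hC : 0 ≤ C₁) (k : ℕ) :
    0 ≤ shK (u1L σ C₁ y M k : List (ShStep ι)) ∧ shK (u1L σ C₁ y M k : List (ShStep ι)) ≤ k * (σ ^ 2 * C₁ * M) := by
  refine ⟨sh_K_nonneg _ (u1_L_ok hy hM hC k), ?_⟩
  induction k with
  | zero => simp [u1L, shK]
  | succ k ih =>
    rw [u1L, sh_K_cons]
    have hc : (u1St σ C₁ (y * 2 ^ (k + 1)) (M * (y * (2 ^ (k + 2) - 2))) : ShStep ι).c ≤ σ ^ 2 * C₁ * M := by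
      show σ ^ 2 * C₁ * (M * (y * (2 ^ (k + 2) - 2))) / (2 * (y * 2 ^ (k + 1))) ≤ σ ^ 2 * C₁ * M
      rw [div_le_iff₀ (by positivity)]
      have h0 : 0 ≤ σ ^ 2 * C₁ * M * y := by positivity
      have e : σ ^ 2 * C₁ * M * (2 * (y * 2 ^ (k + 1))) - σ ^ 2 * C₁ * (M * (y * (2 ^ (k + 2) - 2))) = 2 * (σ ^ 2 * C₁ * M * y) := by ring
      linarith
    push_cast
    linarith

end shift


/-! ## 5. `K → ∞` -/

section limit

/-- the initial law: `D_K(x) + W₀` (one free unit of time, so that every stage has a positive time) -/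
noncomputable def u1Nu (μ : Measure Conf) (K : ℕ) : Measure (Matrix (Win K) (Win K) ℝ) :=
  (μ.prod (gArr (Win K) (Win K))).map fun p => cutM K 1 p.1 p.2

/-- the bound of the `L²` norm of the defect of one step, in the limit `K → ∞` -/
noncomputable def u1Beta (b : ℕ) (B Lp σ C₀ C' C₁ e₀ s y y₀ Cd : ℝ) (D : ℕ) (T R R₁ : ℝ) : ℝ :=
  Real.sqrt (4 * B ^ 2 * (Cd * R ^ (-(D : ℝ))) + 2 * (Lp * b * (3 * y / (2 * y₀ ^ 2)) * (σ * u1Eps C₀ C' C₁ e₀ s y T R R₁)) ^ 2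
    + 8 * B ^ 2 * b * (b * (Cd * y ^ (-(D : ℝ)))))

theorem u1_lim_eqns_cite : True := by
  have := @u1Nu.eq_1
  have := @u1Beta.eq_1
  trivial

theorem u1_cutM_meas (K : ℕ) (t : ℝ) : Measurable fun p : Conf × Matrix (Win K) (Win K) ℝ => cutM K t p.1 p.2 := by
  unfold cutM
  refine goe_add_measurable ?_ ((goe_smul_measurable _).comp (goe_of_measurable.comp measurable_snd))
  refine goe_measurable_of_entries fun i j => ?_
  by_cases hij : i = j
  · subst hij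
    simp only [Matrix.diagonal_apply_eq]
    exact (measurable_pi_apply _).comp measurable_fst
  · simp only [Matrix.diagonal_apply_ne _ hij]
    exact measurable_const

theorem u1_cutM_symm (K : ℕ) (t : ℝ) (x : Conf) (N : Matrix (Win K) (Win K) ℝ) : (cutM K t x N).IsSymm := by
  unfold cutM
  exact (Matrix.isSymm_diagonal _).add ((goe_of_isSymm N).smul _)

instance u1_nu_prob (μ : Measure Conf) [IsProbabilityMeasure μ] (K : ℕ) : IsProbabilityMeasure (u1Nu μ K) :=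
  Measure.isProbabilityMeasure_map (u1_cutM_meas K 1).aemeasurable

/-- the heat flow of the initial law (`integral_map`, Fubini, `sh_U_add`) -/
theorem u1_nu_int (μ : Measure Conf) [IsProbabilityMeasure μ] (K : ℕ) {t : ℝ} (ht : 0 ≤ t) {G : Matrix (Win K) (Win K) ℝ → ℝ} (hG : Measurable G)
    {B : ℝ} (hB : ∀ X, |G X| ≤ B) :
    ∫ X, shU t G X ∂(u1Nu μ K) = ∫ x, ∫ N, G (cutM K (1 + t) x N) ∂(gArr (Win K) (Win K)) ∂μ := by
  unfold u1Nu
  rw [integral_map (u1_cutM_meas K 1).aemeasurable (sh_U_meas t hG).aestronglyMeasurable]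
  rw [integral_prod]
  · refine integral_congr_ae (Eventually.of_forall fun x => ?_)
    have := sh_U_add (ι := Win K) zero_le_one ht hG hB (Matrix.diagonal (cPos K x))
    simp only [shU, cutM] at this ⊢
    exact this
  · refine Integrable.of_bound ((sh_U_meas t hG).comp (u1_cutM_meas K 1)).aestronglyMeasurable B
      (Eventually.of_forall fun p => ?_)
    rw [Real.norm_eq_abs]
    exact sh_U_bdd t hB _

theorem u1x_tr_meas (K : ℕ) (t : ℝ) {b : ℕ} (z : Fin b → ℂ) :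
    Measurable fun p : Conf × Matrix (Win K) (Win K) ℝ => fun a => rTr (cutM K t p.1 p.2) (z a) :=
  measurable_pi_lambda _ fun a => (goe_rTr_measurable (z a)).comp (u1_cutM_meas K t)

theorem u1x_cS_meas {b : ℕ} (z : Fin b → ℂ) : Measurable fun x : Conf => fun a => cS x (z a) :=
  measurable_pi_lambda _ fun a => k9_meas_cS (z a)

theorem u1x_cSK_meas (K : ℕ) {b : ℕ} (z : Fin b → ℂ) : Measurable fun x : Conf => fun a => cSK K x (z a) :=
  measurable_pi_lambda _ fun a => k9_meas_cSK K (z a)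

/-- `LStat` in limit form, bounded Lipschitz tests -/
theorem u1x_lim_lip {ρ ξ : ℝ} (hρ : 0 < ρ) (μ : Measure Conf) [IsProbabilityMeasure μ] (hR : LReg ρ ξ μ) (hI : LStat μ) {t : ℝ} (ht : 0 < t)
    {b : ℕ} (z : Fin b → ℂ) (hz : ∀ a, 0 < (z a).im) (f : (Fin b → ℂ) → ℝ) (hB : ∃ B : ℝ, ∀ v, |f v| ≤ B)
    (hL : ∃ Lc : NNReal, LipschitzWith Lc f) :
    Tendsto (fun K : ℕ => ∫ x, ∫ N, f (fun a => rTr (cutM K t x N) (z a)) ∂(gArr (Win K) (Win K)) ∂μ) atTop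
      (𝓝 (∫ x, f (fun a => cS x (z a)) ∂μ)) := by
  have h1 := hI t ht b z hz f hB hL
  obtain ⟨B, hB⟩ := hB
  obtain ⟨Lc, hLc⟩ := hL
  have hfc : Continuous f := hLc.continuous
  have h2 : Tendsto (fun K : ℕ => ∫ x, f (fun a => cSK K x (z a)) ∂μ) atTop (𝓝 (∫ x, f (fun a => cS x (z a)) ∂μ)) := by
    refine tendsto_integral_of_dominated_convergence (fun _ => B)
      (fun K => (hfc.measurable.comp (u1x_cSK_meas K z)).aestronglyMeasurable) (integrable_const _)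
      (fun K => Eventually.of_forall fun x => by rw [Real.norm_eq_abs]; exact hB _) ?_
    filter_upwards [k9_lreg_tendsto hρ hR] with x hx
    exact (hfc.tendsto _).comp (tendsto_pi_nhds.2 fun a => hx (z a))
  have h3 := h1.add h2
  simp only [sub_add_cancel, zero_add] at h3
  exact h3

theorem u1x_P_prob (μ : Measure Conf) [IsProbabilityMeasure μ] (t : ℝ) {b : ℕ} (z : Fin b → ℂ) (K : ℕ) :
    IsProbabilityMeasure ((μ.prod (gArr (Win K) (Win K))).map fun p => fun a => rTr (cutM K t p.1 p.2) (z a)) :=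
  Measure.isProbabilityMeasure_map (u1x_tr_meas K t z).aemeasurable

theorem u1x_P_ex (μ : Measure Conf) [IsProbabilityMeasure μ] (t : ℝ) {b : ℕ} (z : Fin b → ℂ) :
    ∃ P : ℕ → ProbabilityMeasure (Fin b → ℂ), ∀ K, (P K : Measure (Fin b → ℂ))
      = (μ.prod (gArr (Win K) (Win K))).map fun p => fun a => rTr (cutM K t p.1 p.2) (z a) :=
  ⟨fun K => ⟨_, u1x_P_prob μ t z K⟩, fun _ => rfl⟩

theorem u1x_Q_ex (μ : Measure Conf) [IsProbabilityMeasure μ] {b : ℕ} (z : Fin b → ℂ) :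
    ∃ Q : ProbabilityMeasure (Fin b → ℂ), (Q : Measure (Fin b → ℂ)) = μ.map fun x => fun a => cS x (z a) :=
  ⟨⟨_, Measure.isProbabilityMeasure_map (u1x_cS_meas z).aemeasurable⟩, rfl⟩

/-- **L1**: `LStat` in limit form (`LStat` + `k9_lreg_tendsto` + dominated convergence) -/
theorem u1_lim {ρ ξ : ℝ} (hρ : 0 < ρ) (μ : Measure Conf) [IsProbabilityMeasure μ] (hR : LReg ρ ξ μ) (hI : LStat μ) {t : ℝ} (ht : 0 < t)
    {b : ℕ} (z : Fin b → ℂ) (hz : ∀ a, 0 < (z a).im) (Φ : BoundedContinuousFunction (Fin b → ℂ) ℝ) :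
    Tendsto (fun K : ℕ => ∫ x, ∫ N, Φ (fun a => rTr (cutM K t x N) (z a)) ∂(gArr (Win K) (Win K)) ∂μ) atTop
      (𝓝 (∫ x, Φ (fun a => cS x (z a)) ∂μ)) := by
  obtain ⟨P, hP⟩ := u1x_P_ex μ t z
  obtain ⟨Q, hQ⟩ := u1x_Q_ex μ z
  have eP : ∀ (f : (Fin b → ℂ) → ℝ), Continuous f → (∃ B : ℝ, ∀ v, |f v| ≤ B) → ∀ K,
      ∫ w, f w ∂(P K : Measure (Fin b → ℂ)) = ∫ x, ∫ N, f (fun a => rTr (cutM K t x N) (z a)) ∂(gArr (Win K) (Win K)) ∂μ := by
    intro f hf hB K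
    obtain ⟨B, hB⟩ := hB
    rw [hP K, integral_map (u1x_tr_meas K t z).aemeasurable hf.measurable.aestronglyMeasurable, integral_prod]
    exact Integrable.of_bound (hf.measurable.comp (u1x_tr_meas K t z)).aestronglyMeasurable B
      (Eventually.of_forall fun p => by rw [Real.norm_eq_abs]; exact hB _)
  have eQ : ∀ (f : (Fin b → ℂ) → ℝ), Continuous f →
      ∫ w, f w ∂(Q : Measure (Fin b → ℂ)) = ∫ x, f (fun a => cS x (z a)) ∂μ := by
    intro f hf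
    rw [hQ, integral_map (u1x_cS_meas z).aemeasurable hf.measurable.aestronglyMeasurable]
  have hconv : Tendsto P atTop (𝓝 Q) := by
    rw [tendsto_iff_forall_lipschitz_integral_tendsto]
    intro f hC hL
    obtain ⟨C, hC⟩ := hC
    have hB : ∃ B : ℝ, ∀ v, |f v| ≤ B := ⟨|f 0| + C, fun v => by
      have h1 := hC v 0
      rw [Real.dist_eq] at h1
      have h2 : |f v| ≤ |f v - f 0| + |f 0| := by
        have := abs_add_le (f v - f 0) (f 0)
        simpa using this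
      linarith⟩
    have hfc : Continuous f := by obtain ⟨L, hL⟩ := hL; exact hL.continuous
    simp only [eP f hfc hB, eQ f hfc]
    exact u1x_lim_lip hρ μ hR hI ht z hz f hB hL
  have := (ProbabilityMeasure.tendsto_iff_forall_integral_tendsto.1 hconv) Φ
  have hΦB : ∃ B : ℝ, ∀ v, |Φ v| ≤ B := ⟨‖Φ‖, fun v => by rw [← Real.norm_eq_abs]; exact Φ.norm_coe_le_norm v⟩
  simp only [eP Φ Φ.continuous hΦB, eQ Φ Φ.continuous] at this
  exact this

/-- the trace at height `u ≥ u₀` is bounded by `πρ + 2` off an event of probability `Cd u^{-D}`, at ALL times and energies, as `K → ∞` -/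
def U1Bad (ρ : ℝ) (μ : Measure Conf) (D : ℕ) (Cd u₀ : ℝ) : Prop :=
  ∀ t : ℝ, 0 < t → ∀ e u : ℝ, u₀ ≤ u → ∀ ε : ℝ, 0 < ε → ∀ᶠ K : ℕ in atTop,
    ∫ x, ∫ N, (if Real.pi * ρ + 2 < ‖rTr (cutM K t x N) ((e : ℂ) + (u : ℂ) * Complex.I)‖ then (1 : ℝ) else 0) ∂(gArr (Win K) (Win K)) ∂μ
      ≤ Cd * u ^ (-(D : ℝ)) + ε

theorem u1x_prod_eq (μ : Measure Conf) [IsProbabilityMeasure μ] (K : ℕ) (t : ℝ) {b : ℕ} (z : Fin b → ℂ) {g : (Fin b → ℂ) → ℝ}
    (hg : Measurable g) {B : ℝ} (hB : ∀ v, |g v| ≤ B) :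
    Integrable (fun p : Conf × Matrix (Win K) (Win K) ℝ => g fun a => rTr (cutM K t p.1 p.2) (z a)) (μ.prod (gArr (Win K) (Win K))) ∧
    ∫ x, ∫ N, g (fun a => rTr (cutM K t x N) (z a)) ∂(gArr (Win K) (Win K)) ∂μ
      = ∫ p, g (fun a => rTr (cutM K t p.1 p.2) (z a)) ∂(μ.prod (gArr (Win K) (Win K))) := by
  have hi : Integrable (fun p : Conf × Matrix (Win K) (Win K) ℝ => g fun a => rTr (cutM K t p.1 p.2) (z a)) (μ.prod (gArr (Win K) (Win K))) :=
    Integrable.of_bound (hg.comp (u1x_tr_meas K t z)).aestronglyMeasurable B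
      (Eventually.of_forall fun p => by rw [Real.norm_eq_abs]; exact hB _)
  exact ⟨hi, (integral_prod _ hi).symm⟩

/-- the soft indicator of `{πρ+1 < ‖w‖}` -/
theorem u1x_psi (c : ℝ) : ∃ ψ : (Fin 1 → ℂ) → ℝ, (∃ Lc : NNReal, LipschitzWith Lc ψ) ∧ (∀ w, 0 ≤ ψ w) ∧ (∀ w, ψ w ≤ 1) ∧
    (∀ w, c + 1 < ‖w 0‖ → ψ w = 1) ∧ (∀ w, ‖w 0‖ ≤ c → ψ w = 0) := by
  refine ⟨fun w => min 1 (max 0 (‖w 0‖ - c)), ⟨_, LipschitzWith.const_min (LipschitzWith.const_max
    ((lipschitzWith_one_norm.comp (LipschitzWith.eval (0 : Fin 1))).sub (LipschitzWith.const c)) 0) 1⟩, ?_, ?_, ?_, ?_⟩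
  · intro w; exact le_min zero_le_one (le_max_left _ _)
  · intro w; exact min_le_left _ _
  · intro w hw
    exact min_eq_left (le_trans (by linarith) (le_max_right _ _))
  · intro w hw
    simp only
    rw [max_eq_left (by linarith)]
    simp

/-- **L2**.  Plan: `ψ(w) = min 1 (max 0 (‖w‖ - (πρ+1)))`, `1{πρ+2 < ‖w‖} ≤ ψ ≤ 1{πρ+1 < ‖w‖}`; `u1_lim` for `ψ` (`b = 1`); `LReg.tr` with `u^{-ξ} ≤ 1` for `u ≥ 1`. -/
theorem u1_bad_lim {ρ ξ : ℝ} (hρ : 0 < ρ) (hξ : 0 < ξ) (μ : Measure Conf) [IsProbabilityMeasure μ] (hR : LReg ρ ξ μ) (hI : LStat μ) (D : ℕ) :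
    ∃ Cd u₀ : ℝ, 0 ≤ Cd ∧ 1 ≤ u₀ ∧ U1Bad ρ μ D Cd u₀ := by
  obtain ⟨C, u₀, htr⟩ := hR.tr D
  refine ⟨max C 0, max u₀ 1, le_max_right _ _, le_max_right _ _, ?_⟩
  intro t ht e u hu ε hε
  have hu0 : u₀ ≤ u := le_trans (le_max_left _ _) hu
  have hu1 : 1 ≤ u := le_trans (le_max_right _ _) hu
  have hupos : 0 < u := by linarith
  obtain ⟨ψ, hψL, hψ0, hψ1, hψhi, hψlo⟩ := u1x_psi (Real.pi * ρ + 1)
  set z : Fin 1 → ℂ := fun _ => (e : ℂ) + (u : ℂ) * Complex.I with hz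
  have hzim : ∀ a, 0 < (z a).im := fun a => by simp [hz, hupos]
  have hψB : ∀ v, |ψ v| ≤ 1 := fun v => by rw [abs_of_nonneg (hψ0 v)]; exact hψ1 v
  have hψc : Continuous ψ := by obtain ⟨L, hL⟩ := hψL; exact hL.continuous
  have hlim := u1x_lim_lip hρ μ hR hI ht z hzim ψ ⟨1, hψB⟩ hψL
  -- the limit is small
  have hsmall : ∫ x, ψ (fun a => cS x (z a)) ∂μ ≤ max C 0 * u ^ (-(D : ℝ)) := by
    set S : Set Conf := {x | u ^ (-ξ) < ‖cS x ((e : ℂ) + (u : ℂ) * Complex.I) - ((Real.pi * ρ : ℝ) : ℂ) * Complex.I‖} with hS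
    have hSm : MeasurableSet S := by
      refine measurableSet_lt measurable_const ?_
      exact ((k9_meas_cS _).sub measurable_const).norm
    have hle : ∀ x, ψ (fun a => cS x (z a)) ≤ S.indicator (fun _ => (1 : ℝ)) x := by
      intro x
      by_cases hx : x ∈ S
      · rw [Set.indicator_of_mem hx]; exact hψ1 _
      · rw [Set.indicator_of_notMem hx]
        refine le_of_eq (hψlo _ ?_)
        simp only [hS, Set.mem_ofPred_eq, not_lt] at hx
        have h1 : u ^ (-ξ) ≤ 1 := Real.rpow_le_one_of_one_le_of_nonpos hu1 (by linarith)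
        have h2 : ‖((Real.pi * ρ : ℝ) : ℂ) * Complex.I‖ = Real.pi * ρ := by
          rw [norm_mul, Complex.norm_I, mul_one, Complex.norm_real, Real.norm_eq_abs, abs_of_pos (by positivity)]
        have h3 : ‖cS x ((e : ℂ) + (u : ℂ) * Complex.I)‖
            ≤ ‖cS x ((e : ℂ) + (u : ℂ) * Complex.I) - ((Real.pi * ρ : ℝ) : ℂ) * Complex.I‖ + ‖((Real.pi * ρ : ℝ) : ℂ) * Complex.I‖ := by
          have := norm_add_le (cS x ((e : ℂ) + (u : ℂ) * Complex.I) - ((Real.pi * ρ : ℝ) : ℂ) * Complex.I) (((Real.pi * ρ : ℝ) : ℂ) * Complex.I)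
          simpa using this
        simp only [hz]
        linarith
    have h1 : ∫ x, ψ (fun a => cS x (z a)) ∂μ ≤ ∫ x, S.indicator (fun _ => (1 : ℝ)) x ∂μ := by
      refine integral_mono_of_nonneg (Eventually.of_forall fun x => hψ0 _) ?_ (Eventually.of_forall hle)
      exact (integrable_const (1 : ℝ)).indicator hSm
    have h2 : ∫ x, S.indicator (fun _ => (1 : ℝ)) x ∂μ = μ.real S := by
      rw [integral_indicator hSm]; simp
    have h3 : μ.real S ≤ max C 0 * u ^ (-(D : ℝ)) := by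
      have h4 := htr e u hu0
      have h5 : 0 ≤ max C 0 * u ^ (-(D : ℝ)) := mul_nonneg (le_max_right _ _) (Real.rpow_nonneg hupos.le _)
      rw [Measure.real]
      refine ENNReal.toReal_le_of_le_ofReal h5 (h4.trans (ENNReal.ofReal_le_ofReal ?_))
      exact mul_le_mul_of_nonneg_right (le_max_left _ _) (Real.rpow_nonneg hupos.le _)
    linarith
  have hev : ∀ᶠ K : ℕ in atTop, ∫ x, ∫ N, ψ (fun a => rTr (cutM K t x N) (z a)) ∂(gArr (Win K) (Win K)) ∂μ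
      < max C 0 * u ^ (-(D : ℝ)) + ε := hlim.eventually (gt_mem_nhds (by linarith))
  filter_upwards [hev] with K hK
  refine le_trans ?_ hK.le
  set g : (Fin 1 → ℂ) → ℝ := fun w => if Real.pi * ρ + 2 < ‖w 0‖ then (1 : ℝ) else 0 with hg
  have hgm : Measurable g := by
    refine Measurable.ite ?_ measurable_const measurable_const
    exact measurableSet_lt measurable_const (measurable_pi_apply 0).norm
  have hgB : ∀ v, |g v| ≤ 1 := fun v => by
    simp only [hg]; split_ifs <;> simp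
  obtain ⟨ig, eg⟩ := u1x_prod_eq μ K t z hgm hgB
  obtain ⟨iψ, eψ⟩ := u1x_prod_eq μ K t z hψc.measurable hψB
  have e1 : ∫ x, ∫ N, (if Real.pi * ρ + 2 < ‖rTr (cutM K t x N) ((e : ℂ) + (u : ℂ) * Complex.I)‖ then (1 : ℝ) else 0) ∂(gArr (Win K) (Win K)) ∂μ
      = ∫ x, ∫ N, g (fun a => rTr (cutM K t x N) (z a)) ∂(gArr (Win K) (Win K)) ∂μ := rfl
  rw [e1, eg, eψ]
  refine integral_mono ig iψ fun p => ?_
  simp only [hg]
  split_ifs with h
  · exact le_of_eq (hψhi _ (by linarith)).symm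
  · exact hψ0 _

/-- the conditions on the parameters `(y, M, m₁)` -/
structure U1Cond (C' e₀ s y u₀ M m₁ : ℝ) : Prop where
  y1 : 1 ≤ y
  yu : u₀ ≤ y
  m1 : 16 * (1 + C') ≤ m₁
  m2 : e₀ + s ≤ m₁ * y
  m3 : 256 ≤ m₁ * y
  M1 : 1 ≤ M

theorem u1n_prod (μ : Measure Conf) [IsProbabilityMeasure μ] (K : ℕ) (t : ℝ) {G : Matrix (Win K) (Win K) ℝ → ℝ} (hG : Measurable G)
    {B : ℝ} (hB : ∀ X, |G X| ≤ B) :
    Integrable (fun p : Conf × Matrix (Win K) (Win K) ℝ => G (cutM K t p.1 p.2)) (μ.prod (gArr (Win K) (Win K))) ∧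
    ∫ x, ∫ N, G (cutM K t x N) ∂(gArr (Win K) (Win K)) ∂μ = ∫ p, G (cutM K t p.1 p.2) ∂(μ.prod (gArr (Win K) (Win K))) := by
  have hi : Integrable (fun p : Conf × Matrix (Win K) (Win K) ℝ => G (cutM K t p.1 p.2)) (μ.prod (gArr (Win K) (Win K))) :=
    sh_int_of_bdd _ (hG.comp (u1_cutM_meas K t)) fun _ => hB _
  exact ⟨hi, (integral_prod _ hi).symm⟩

/-- the finite `K` inequality -/
theorem u1n_fin (μ : Measure Conf) [IsProbabilityMeasure μ] (K : ℕ)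
    {b : ℕ} {Φ : (Fin b → ℂ) → ℝ} {z : Fin b → ℂ} {B Lp σ C₀ C' C₁ e₀ s y y₀ : ℝ} (hp : U1Par Φ z B Lp σ C₀ C' C₁ e₀ s y y₀)
    {Δ R R₁ T : ℝ} (l : List (ShStep (Win K))) (hTeq : shT (u1St σ C₁ Δ R :: l) = T) (hΔ : 0 < Δ) (hT : 0 < T) (hR : 0 < R)
    (hcs : σ * (l.length + 1) ≤ s)
    (h1 : 16 * (y + T * C') ≤ R₁) (h2 : 2 * (e₀ + s) ≤ R₁) (h3 : 512 * T ≤ R₁ ^ 2) (h4 : 256 * T ≤ y * R₁) {t : ℝ} (ht : 0 ≤ t) :
    ∫ X, shU t (fun Y => shD σ (u1F Φ z) (u1St σ C₁ Δ R) l Y ^ 2) X ∂(u1Nu μ K)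
      ≤ 4 * B ^ 2 * (∫ x, ∫ N, (if C₁ < ‖rTr (cutM K (1 + t) x N) ((R : ℂ) * Complex.I)‖ then (1 : ℝ) else 0) ∂(gArr (Win K) (Win K)) ∂μ)
        + 2 * (Lp * b * (3 * y / (2 * y₀ ^ 2)) * (σ * u1Eps C₀ C' C₁ e₀ s y T R R₁)) ^ 2
        + 8 * B ^ 2 * b * ∑ a, ∫ x, ∫ N, (if C₀ < ‖rTr (cutM K (1 + (t + T)) x N) ((((z a).re - σ * (l.length + 1) : ℝ) : ℂ) + (y : ℂ) * Complex.I)‖ then (1 : ℝ) else 0) ∂(gArr (Win K) (Win K)) ∂μ := by
  have hFm : Measurable (u1F Φ z : Matrix (Win K) (Win K) ℝ → ℝ) := u1_F_meas hp.meas z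
  have hFB : ∀ X : Matrix (Win K) (Win K) ℝ, |u1F Φ z X| ≤ B := fun X => hp.bdd _
  have hst : ShOk (u1St σ C₁ Δ R : ShStep (Win K)) := u1_st_ok hΔ hR hp.c1
  have hDm : Measurable fun Y : Matrix (Win K) (Win K) ℝ => shD σ (u1F Φ z) (u1St σ C₁ Δ R) l Y ^ 2 := (sh_D_meas σ hFm _ hst l).pow_const 2
  have hDB : ∀ Y : Matrix (Win K) (Win K) ℝ, |shD σ (u1F Φ z) (u1St σ C₁ Δ R) l Y ^ 2| ≤ (2 * B) ^ 2 := sh_sq_bdd (sh_D_bdd σ hFB _ l)
  set I0 : Matrix (Win K) (Win K) ℝ → ℝ := fun Y => if C₁ < ‖rTr Y ((R : ℂ) * Complex.I)‖ then (1 : ℝ) else 0 with hI0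
  set Ia : Fin b → Matrix (Win K) (Win K) ℝ → ℝ := fun a Y => if C₀ < ‖rTr Y ((((z a).re - σ * (l.length + 1) : ℝ) : ℂ) + (y : ℂ) * Complex.I)‖ then (1 : ℝ) else 0 with hIa
  have hI0m : Measurable I0 := u1_bad_meas _ _
  have hIam : ∀ a, Measurable (Ia a) := fun a => u1_bad_meas _ _
  have hI0B : ∀ Y, |I0 Y| ≤ 1 := fun Y => by rw [abs_of_nonneg (u1_bad_01 _ _ Y).1]; exact (u1_bad_01 _ _ Y).2
  have hIaB : ∀ a Y, |Ia a Y| ≤ 1 := fun a Y => by rw [abs_of_nonneg (u1_bad_01 _ _ Y).1]; exact (u1_bad_01 _ _ Y).2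
  have hUm : ∀ a, Measurable (shU T (Ia a)) := fun a => sh_U_meas T (hIam a)
  have hUB : ∀ a Y, |shU T (Ia a) Y| ≤ 1 := fun a Y => sh_U_bdd T (hIaB a) Y
  -- the last terms
  have hlast : ∀ a, ∫ x, ∫ N, Ia a (cutM K (1 + (t + T)) x N) ∂(gArr (Win K) (Win K)) ∂μ
      = ∫ p, shU T (Ia a) (cutM K (1 + t) p.1 p.2) ∂(μ.prod (gArr (Win K) (Win K))) := by
    intro a
    rw [← (u1n_prod μ K (1 + t) (hUm a) (hUB a)).2, ← u1_nu_int μ K (add_nonneg ht hT.le) (hIam a) (hIaB a),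
      ← u1_nu_int μ K ht (hUm a) (hUB a)]
    refine integral_congr_ae (Eventually.of_forall fun X => ?_)
    exact (sh_U_add ht hT.le (hIam a) (hIaB a) X).symm
  rw [u1_nu_int μ K ht hDm hDB, (u1n_prod μ K (1 + t) hDm hDB).2]
  have e0 : ∫ x, ∫ N, (if C₁ < ‖rTr (cutM K (1 + t) x N) ((R : ℂ) * Complex.I)‖ then (1 : ℝ) else 0) ∂(gArr (Win K) (Win K)) ∂μ
      = ∫ p, I0 (cutM K (1 + t) p.1 p.2) ∂(μ.prod (gArr (Win K) (Win K))) := (u1n_prod μ K (1 + t) hI0m hI0B).2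
  rw [e0]
  have e1 : ∀ a, ∫ x, ∫ N, (if C₀ < ‖rTr (cutM K (1 + (t + T)) x N) ((((z a).re - σ * (l.length + 1) : ℝ) : ℂ) + (y : ℂ) * Complex.I)‖ then (1 : ℝ) else 0) ∂(gArr (Win K) (Win K)) ∂μ
      = ∫ p, shU T (Ia a) (cutM K (1 + t) p.1 p.2) ∂(μ.prod (gArr (Win K) (Win K))) := hlast
  simp only [e1]
  have hpt : ∀ p : Conf × Matrix (Win K) (Win K) ℝ, shD σ (u1F Φ z) (u1St σ C₁ Δ R) l (cutM K (1 + t) p.1 p.2) ^ 2
      ≤ 4 * B ^ 2 * I0 (cutM K (1 + t) p.1 p.2) + 2 * (Lp * b * (3 * y / (2 * y₀ ^ 2)) * (σ * u1Eps C₀ C' C₁ e₀ s y T R R₁)) ^ 2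
        + 8 * B ^ 2 * b * ∑ a, shU T (Ia a) (cutM K (1 + t) p.1 p.2) := by
    intro p
    have := u1_D_sq hp (Δ := Δ) (R := R) (R₁ := R₁) l (by rw [hTeq]; exact hT) hR hcs (by rw [hTeq]; exact h1) h2 (by rw [hTeq]; exact h3)
      (by rw [hTeq]; exact h4) (u1_cutM_symm K (1 + t) p.1 p.2)
    rw [hTeq] at this
    exact this
  generalize 2 * (Lp * b * (3 * y / (2 * y₀ ^ 2)) * (σ * u1Eps C₀ C' C₁ e₀ s y T R R₁)) ^ 2 = E at hpt ⊢
  have i0 := (u1n_prod μ K (1 + t) hI0m hI0B).1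
  have ia := fun a => (u1n_prod μ K (1 + t) (hUm a) (hUB a)).1
  have hrhs : 4 * B ^ 2 * (∫ p, I0 (cutM K (1 + t) p.1 p.2) ∂(μ.prod (gArr (Win K) (Win K)))) + E
        + 8 * B ^ 2 * b * ∑ a, ∫ p, shU T (Ia a) (cutM K (1 + t) p.1 p.2) ∂(μ.prod (gArr (Win K) (Win K)))
      = ∫ p, (4 * B ^ 2 * I0 (cutM K (1 + t) p.1 p.2) + E + 8 * B ^ 2 * b * ∑ a, shU T (Ia a) (cutM K (1 + t) p.1 p.2)) ∂(μ.prod (gArr (Win K) (Win K))) := by
    rw [integral_add, integral_add, integral_const_mul, integral_const_mul, integral_finsetSum _ (fun a _ => ia a)]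
    · simp
    · exact i0.const_mul _
    · exact integrable_const _
    · exact (i0.const_mul _).add (integrable_const _)
    · exact (integrable_finsetSum _ fun a _ => ia a).const_mul _
  rw [hrhs]
  refine integral_mono (u1n_prod μ K (1 + t) hDm hDB).1 ?_ fun p => ?_
  · exact ((i0.const_mul _).add (integrable_const _)).add ((integrable_finsetSum _ fun a _ => ia a).const_mul _)
  · exact hpt p

/-- **the `L²` norm of the defect of step `k+1`, as `K → ∞`**.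
Plan: `shN² = ∫∫ D(cutM K (1+t) x N)²` (`u1_nu_int`), `u1_D_sq` pointwise (`u1_cutM_symm`), `u1_nu_int`/`sh_U_add` for the last term, `U1Bad` at `(1+t, 0, R)` and `(1+t+T, Re z_a - σ(k+1), y)`,
`√(A + δ) ≤ √A + √δ`. -/
theorem u1_N_lim {ρ : ℝ} (μ : Measure Conf) [IsProbabilityMeasure μ] {D : ℕ} {Cd u₀ : ℝ} (hbad : U1Bad ρ μ D Cd u₀) (hCd : 0 ≤ Cd)
    {b : ℕ} {Φ : (Fin b → ℂ) → ℝ} {z : Fin b → ℂ} {B Lp σ C' e₀ s y y₀ M m₁ : ℝ}
    (hp : U1Par Φ z B Lp σ (Real.pi * ρ + 2) C' (Real.pi * ρ + 2) e₀ s y y₀) (hc : U1Cond C' e₀ s y u₀ M m₁)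
    (k : ℕ) (hk : σ * (k + 1) ≤ s) {t : ℝ} (ht : 0 ≤ t) {ε : ℝ} (hε : 0 < ε) :
    ∀ᶠ K : ℕ in atTop,
      shN (u1Nu μ K) t (shD σ (u1F Φ z) (u1St σ (Real.pi * ρ + 2) (y * 2 ^ (k + 1)) (M * (y * (2 ^ (k + 2) - 2)))) (u1L σ (Real.pi * ρ + 2) y M k))
        ≤ u1Beta b B Lp σ (Real.pi * ρ + 2) C' (Real.pi * ρ + 2) e₀ s y y₀ Cd D (y * (2 ^ (k + 2) - 2)) (M * (y * (2 ^ (k + 2) - 2))) (m₁ * (y * (2 ^ (k + 2) - 2))) + ε := by
  set T := y * (2 ^ (k + 2) - 2) with hT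
  have hy0 : 0 < y := lt_of_lt_of_le one_pos hc.y1
  have hM0 : 0 < M := lt_of_lt_of_le one_pos hc.M1
  have h2k : (4 : ℝ) ≤ 2 ^ (k + 2) := by
    have h1 : (1 : ℝ) ≤ 2 ^ k := one_le_pow₀ (by norm_num)
    rw [pow_add]; linarith
  have hT2 : 2 * y ≤ T := by rw [hT]; nlinarith
  have hT0 : 0 < T := by linarith
  have hR0 : 0 < M * T := by positivity
  have hm0 : 0 < m₁ := by
    by_contra h
    push Not at h
    have := hc.m3
    nlinarith
  have hC'0 : 0 ≤ C' := by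
    have h1 := hp.c'; have h2 := hp.c0
    have h3 : 0 ≤ 2 / y := by positivity
    linarith
  have h1 : 16 * (y + T * C') ≤ m₁ * T := by
    have h5 := hc.m1
    have h6 : 16 * (1 + C') * T ≤ m₁ * T := mul_le_mul_of_nonneg_right h5 hT0.le
    nlinarith
  have h2 : 2 * (e₀ + s) ≤ m₁ * T := by
    have h5 := hc.m2
    have h6 : m₁ * (2 * y) ≤ m₁ * T := mul_le_mul_of_nonneg_left hT2 hm0.le
    linarith
  have h4 : 256 * T ≤ y * (m₁ * T) := by
    have h5 := hc.m3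
    have h6 : 256 * T ≤ (m₁ * y) * T := mul_le_mul_of_nonneg_right h5 hT0.le
    linarith
  have h3 : 512 * T ≤ (m₁ * T) ^ 2 := by
    have h5 := hc.m3
    have h6 := hc.m1
    have h7 : 16 ≤ m₁ := by linarith
    have h8 : 512 ≤ m₁ * (m₁ * T) := by
      have h9 : m₁ * (2 * y) ≤ m₁ * T := mul_le_mul_of_nonneg_left hT2 hm0.le
      have h10 : 512 ≤ m₁ * T := by linarith
      nlinarith
    have h11 : 512 * T ≤ (m₁ * (m₁ * T)) * T := mul_le_mul_of_nonneg_right h8 hT0.le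
    calc 512 * T ≤ (m₁ * (m₁ * T)) * T := h11
      _ = _ := by ring
  have huR : u₀ ≤ M * T := by
    have h5 := hc.yu
    have h6 := hc.M1
    have h7 : 1 * T ≤ M * T := mul_le_mul_of_nonneg_right h6 hT0.le
    linarith
  set δ := ε ^ 2 / (4 * B ^ 2 + 8 * B ^ 2 * b * b + 1) with hδ
  have hden : 0 < 4 * B ^ 2 + 8 * B ^ 2 * b * b + 1 := by positivity
  have hδ0 : 0 < δ := by positivity
  have ev0 := hbad (1 + t) (by linarith) 0 (M * T) huR δ hδ0
  have eva : ∀ a : Fin b, _ := fun a => hbad (1 + (t + T)) (by positivity) ((z a).re - σ * (k + 1)) y hc.yu δ hδ0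
  filter_upwards [ev0, eventually_all.2 eva] with K hK0 hKa
  simp only [Complex.ofReal_zero, zero_add] at hK0
  have hTeq : shT (u1St σ (Real.pi * ρ + 2) (y * 2 ^ (k + 1)) (M * T) :: (u1L σ (Real.pi * ρ + 2) y M k : List (ShStep (Win K)))) = T :=
    u1_L_T σ (Real.pi * ρ + 2) y M (k + 1)
  have hlen : (((u1L σ (Real.pi * ρ + 2) y M k : List (ShStep (Win K))).length : ℕ) : ℝ) = k := by rw [u1_L_length]
  have hfin := u1n_fin μ K hp (Δ := y * 2 ^ (k + 1)) (R := M * T) (R₁ := m₁ * T) (u1L σ (Real.pi * ρ + 2) y M k) hTeq (by positivity) hT0 hR0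
    (by rw [hlen]; exact hk) h1 h2 h3 h4 ht
  rw [hlen] at hfin
  unfold shN u1Beta
  set A := 4 * B ^ 2 * (Cd * (M * T) ^ (-(D : ℝ))) + 2 * (Lp * b * (3 * y / (2 * y₀ ^ 2)) * (σ * u1Eps (Real.pi * ρ + 2) C' (Real.pi * ρ + 2) e₀ s y T (M * T) (m₁ * T))) ^ 2
    + 8 * B ^ 2 * b * (b * (Cd * y ^ (-(D : ℝ)))) with hA
  have hA0 : 0 ≤ A := by
    have r1 : 0 ≤ (M * T) ^ (-(D : ℝ)) := Real.rpow_nonneg hR0.le _
    have r2 : 0 ≤ y ^ (-(D : ℝ)) := Real.rpow_nonneg hy0.le _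
    positivity
  apply Real.sqrt_le_iff.2
  refine ⟨by positivity, ?_⟩
  have hsum : ∑ a : Fin b, ∫ x, ∫ N, (if Real.pi * ρ + 2 < ‖rTr (cutM K (1 + (t + T)) x N) ((((z a).re - σ * (k + 1) : ℝ) : ℂ) + (y : ℂ) * Complex.I)‖ then (1 : ℝ) else 0) ∂(gArr (Win K) (Win K)) ∂μ
      ≤ b * (Cd * y ^ (-(D : ℝ)) + δ) := by
    calc _ ≤ ∑ a : Fin b, (Cd * y ^ (-(D : ℝ)) + δ) := Finset.sum_le_sum fun a _ => hKa a
      _ = _ := by rw [Finset.sum_const, Finset.card_univ, Fintype.card_fin, nsmul_eq_mul]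
  have hB2 : 0 ≤ 4 * B ^ 2 := by positivity
  have hB3 : 0 ≤ 8 * B ^ 2 * b := by positivity
  have hX := hfin.trans (add_le_add (add_le_add (mul_le_mul_of_nonneg_left hK0 hB2) le_rfl) (mul_le_mul_of_nonneg_left hsum hB3))
  refine hX.trans ?_
  have hδe : (4 * B ^ 2 + 8 * B ^ 2 * b * b) * δ ≤ ε ^ 2 := by
    rw [hδ, mul_div_assoc', div_le_iff₀ hden]
    have : 0 ≤ ε ^ 2 := by positivity
    nlinarith
  have hsq : Real.sqrt A ^ 2 = A := Real.sq_sqrt hA0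
  have hs0 : 0 ≤ Real.sqrt A := Real.sqrt_nonneg A
  have : (Real.sqrt A + ε) ^ 2 = A + 2 * Real.sqrt A * ε + ε ^ 2 := by rw [add_sq, hsq]
  rw [this]
  have h9 : 0 ≤ 2 * Real.sqrt A * ε := by positivity
  have h10 : 4 * B ^ 2 * (Cd * (M * T) ^ (-(D : ℝ)) + δ) + 2 * (Lp * b * (3 * y / (2 * y₀ ^ 2)) * (σ * u1Eps (Real.pi * ρ + 2) C' (Real.pi * ρ + 2) e₀ s y T (M * T) (m₁ * T))) ^ 2
      + 8 * B ^ 2 * b * (b * (Cd * y ^ (-(D : ℝ)) + δ)) = A + (4 * B ^ 2 + 8 * B ^ 2 * b * b) * δ := by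
    rw [hA]; ring
  rw [h10]
  linarith

/-- the sum of the defects, as `K → ∞` (induction on `k`, `u1_N_lim` with `ε / (k+1)`) -/
theorem u1_S_lim {ρ : ℝ} (μ : Measure Conf) [IsProbabilityMeasure μ] {D : ℕ} {Cd u₀ : ℝ} (hbad : U1Bad ρ μ D Cd u₀) (hCd : 0 ≤ Cd)
    {b : ℕ} {Φ : (Fin b → ℂ) → ℝ} {z : Fin b → ℂ} {B Lp σ C' e₀ s y y₀ M m₁ : ℝ}
    (hp : U1Par Φ z B Lp σ (Real.pi * ρ + 2) C' (Real.pi * ρ + 2) e₀ s y y₀) (hc : U1Cond C' e₀ s y u₀ M m₁)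
    (k : ℕ) (hk : σ * k ≤ s) {t : ℝ} (ht : 0 ≤ t) {ε : ℝ} (hε : 0 < ε) :
    ∀ᶠ K : ℕ in atTop,
      shS (u1Nu μ K) σ (u1F Φ z) t (u1L σ (Real.pi * ρ + 2) y M k)
        ≤ ∑ j ∈ Finset.range k, u1Beta b B Lp σ (Real.pi * ρ + 2) C' (Real.pi * ρ + 2) e₀ s y y₀ Cd D (y * (2 ^ (j + 2) - 2)) (M * (y * (2 ^ (j + 2) - 2))) (m₁ * (y * (2 ^ (j + 2) - 2))) + ε := by
  induction k generalizing t ε with
  | zero =>
    refine Eventually.of_forall fun K => ?_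
    simp only [u1L, shS, Finset.range_zero, Finset.sum_empty, zero_add]
    exact hε.le
  | succ k ih =>
    have hσ := hp.σ0
    have hy0 : 0 < y := lt_of_lt_of_le one_pos hc.y1
    have hk1 : σ * ((k : ℝ) + 1) ≤ s := by push_cast at hk; exact hk
    have hk0 : σ * (k : ℝ) ≤ s := by nlinarith
    have e1 := u1_N_lim μ hbad hCd hp hc k hk1 ht (half_pos hε)
    have e2 := ih hk0 (t := t + y * 2 ^ (k + 1)) (by positivity) (half_pos hε)
    filter_upwards [e1, e2] with K h1 h2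
    rw [Finset.sum_range_succ]
    simp only [u1L, shS]
    have h3 : (u1St σ (Real.pi * ρ + 2) (y * 2 ^ (k + 1)) (M * (y * (2 ^ (k + 2) - 2))) : ShStep (Win K)).Δ = y * 2 ^ (k + 1) := rfl
    rw [h3]
    linarith

theorem u1x_U_shift {ι : Type} [Fintype ι] [DecidableEq ι] {b : ℕ} (Φ : (Fin b → ℂ) → ℝ) (z : Fin b → ℂ) (T s : ℝ) (X : Matrix ι ι ℝ) :
    shU T (u1F Φ z) (X + s • (1 : Matrix ι ι ℝ)) = shU T (u1F Φ fun a => z a - (s : ℂ)) X := by
  unfold shU u1F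
  refine integral_congr_ae (Eventually.of_forall fun N => ?_)
  simp only
  congr 1
  funext a
  rw [add_right_comm, u1_rTr_shift]

theorem u1x_beta_nonneg (b : ℕ) (B Lp σ C₀ C' C₁ e₀ s y y₀ Cd : ℝ) (D : ℕ) (T R R₁ : ℝ) :
    0 ≤ u1Beta b B Lp σ C₀ C' C₁ e₀ s y y₀ Cd D T R R₁ := Real.sqrt_nonneg _

/-- **KEY INEQUALITY** for the limit law, for all admissible parameters.
Plan: `sh_main` with `ν = u1Nu μ K`, `l = u1L σ C₁ y M n`, `σ = s / n`; `u1_nu_int`; `u1_rTr_shift`; `u1_lim` at `t = 1 + T` for `z` and `z - s`; `u1_S_lim`; `u1_L_K`; `le_of_tendsto`. -/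
theorem u1_key {ρ ξ : ℝ} (hρ : 0 < ρ) (μ : Measure Conf) [IsProbabilityMeasure μ] (hR : LReg ρ ξ μ) (hI : LStat μ)
    {D : ℕ} {Cd u₀ : ℝ} (hbad : U1Bad ρ μ D Cd u₀) (hCd : 0 ≤ Cd)
    {b : ℕ} (Φ : BoundedContinuousFunction (Fin b → ℂ) ℝ) {z : Fin b → ℂ} {B Lp C' e₀ s y y₀ M m₁ : ℝ} (n : ℕ) (hn : 0 < n)
    (hp : U1Par Φ z B Lp (s / n) (Real.pi * ρ + 2) C' (Real.pi * ρ + 2) e₀ s y y₀) (hc : U1Cond C' e₀ s y u₀ M m₁) :
    |∫ x, Φ (fun a => cS x (z a - (s : ℂ))) ∂μ - ∫ x, Φ (fun a => cS x (z a)) ∂μ|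
      ≤ B * Real.sqrt (Real.exp (s ^ 2 * (Real.pi * ρ + 2) * M / n) - 1)
        + Real.exp (s ^ 2 * (Real.pi * ρ + 2) * M / n / 2) *
          ∑ j ∈ Finset.range n, u1Beta b B Lp (s / n) (Real.pi * ρ + 2) C' (Real.pi * ρ + 2) e₀ s y y₀ Cd D (y * (2 ^ (j + 2) - 2)) (M * (y * (2 ^ (j + 2) - 2))) (m₁ * (y * (2 ^ (j + 2) - 2))) := by
  have hn' : (0 : ℝ) < n := by exact_mod_cast hn
  have hσn : s / n * (n : ℝ) = s := by field_simp
  have hB0 : 0 ≤ B := (abs_nonneg _).trans (hp.bdd 0)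
  have hy0 : 0 < y := lt_of_lt_of_le one_pos hc.y1
  have hM0 : 0 < M := lt_of_lt_of_le one_pos hc.M1
  have hC1 : 0 ≤ Real.pi * ρ + 2 := hp.c1
  set T : ℝ := y * (2 ^ (n + 1) - 2) with hT
  have hT0 : 0 ≤ T := by
    have : (2 : ℝ) ≤ 2 ^ (n + 1) := by
      calc (2 : ℝ) = 2 ^ 1 := by norm_num
        _ ≤ 2 ^ (n + 1) := pow_le_pow_right₀ (by norm_num) (by omega)
    rw [hT]
    exact mul_nonneg hy0.le (by linarith)
  have hz : ∀ a, 0 < (z a).im := fun a => lt_of_lt_of_le hp.y0 (hp.im0 a)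
  have hz' : ∀ a, 0 < (z a - (s : ℂ)).im := fun a => by simpa using hz a
  have lim1 := u1_lim hρ μ hR hI (t := 1 + T) (by positivity) (fun a => z a - (s : ℂ)) hz' Φ
  have lim2 := u1_lim hρ μ hR hI (t := 1 + T) (by positivity) z hz Φ
  set κ' : ℝ := s ^ 2 * (Real.pi * ρ + 2) * M / n with hκ'
  set Sβ : ℝ := ∑ j ∈ Finset.range n, u1Beta b B Lp (s / n) (Real.pi * ρ + 2) C' (Real.pi * ρ + 2) e₀ s y y₀ Cd D (y * (2 ^ (j + 2) - 2)) (M * (y * (2 ^ (j + 2) - 2))) (m₁ * (y * (2 ^ (j + 2) - 2))) with hSβ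
  have hSβ0 : 0 ≤ Sβ := Finset.sum_nonneg fun j _ => u1x_beta_nonneg _ _ _ _ _ _ _ _ _ _ _ _ _ _ _ _
  -- the inequality at finite `K`
  have hfin : ∀ K : ℕ, |(∫ x, ∫ N, Φ (fun a => rTr (cutM K (1 + T) x N) (z a - (s : ℂ))) ∂(gArr (Win K) (Win K)) ∂μ)
        - ∫ x, ∫ N, Φ (fun a => rTr (cutM K (1 + T) x N) (z a)) ∂(gArr (Win K) (Win K)) ∂μ|
      ≤ B * Real.sqrt (Real.exp κ' - 1) + Real.exp (κ' / 2) * shS (u1Nu μ K) (s / n) (u1F Φ z) 0 (u1L (s / n) (Real.pi * ρ + 2) y M n)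
        ∨ shS (u1Nu μ K) (s / n) (u1F Φ z) 0 (u1L (s / n) (Real.pi * ρ + 2) y M n) < 0 := by
    intro K
    by_cases hneg : shS (u1Nu μ K) (s / n) (u1F Φ z) 0 (u1L (s / n) (Real.pi * ρ + 2) y M n) < 0
    · exact Or.inr hneg
    left
    have hS0 := not_lt.1 hneg
    have hm := sh_main (u1Nu μ K) (s / n) (F := u1F Φ z) (u1_F_meas hp.meas z) (B := B) (fun X => hp.bdd _)
      (u1L (s / n) (Real.pi * ρ + 2) y M n) (u1_L_ok hy0 hM0 hC1 n)
    rw [u1_L_length, u1_L_T, hσn, ← hT] at hm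
    simp only [u1x_U_shift] at hm
    rw [u1_nu_int μ K hT0 (u1_F_meas hp.meas _) (B := B) (fun X => hp.bdd _),
      u1_nu_int μ K hT0 (u1_F_meas hp.meas _) (B := B) (fun X => hp.bdd _)] at hm
    obtain ⟨hk0, hk1⟩ := u1_L_K (ι := Win K) (σ := s / n) hy0 hM0 hC1 n
    have hk2 : shK (u1L (s / n) (Real.pi * ρ + 2) y M n : List (ShStep (Win K))) ≤ κ' := by
      refine hk1.trans (le_of_eq ?_)
      rw [hκ']; field_simp
    refine hm.trans (add_le_add ?_ ?_)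
    · refine mul_le_mul_of_nonneg_left (Real.sqrt_le_sqrt ?_) hB0
      have := Real.exp_le_exp.2 hk2
      linarith
    · refine mul_le_mul_of_nonneg_right (Real.exp_le_exp.2 (by linarith)) hS0
  -- `K → ∞`
  have hmain : ∀ ε : ℝ, 0 < ε → |∫ x, Φ (fun a => cS x (z a - (s : ℂ))) ∂μ - ∫ x, Φ (fun a => cS x (z a)) ∂μ|
      ≤ B * Real.sqrt (Real.exp κ' - 1) + Real.exp (κ' / 2) * (Sβ + ε) := by
    intro ε hε
    have hS := u1_S_lim μ hbad hCd hp hc n (le_of_eq hσn) (t := 0) le_rfl hε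
    refine le_of_tendsto (lim1.sub lim2).abs ?_
    filter_upwards [hS] with K hK
    have hexp : 0 < Real.exp (κ' / 2) := Real.exp_pos _
    rcases hfin K with h | h
    · refine h.trans (add_le_add le_rfl (mul_le_mul_of_nonneg_left hK hexp.le))
    · -- impossible sign: use `sh_main` directly with the negative value bounded by the positive one
      have hm := sh_main (u1Nu μ K) (s / n) (F := u1F Φ z) (u1_F_meas hp.meas z) (B := B) (fun X => hp.bdd _)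
        (u1L (s / n) (Real.pi * ρ + 2) y M n) (u1_L_ok hy0 hM0 hC1 n)
      rw [u1_L_length, u1_L_T, hσn, ← hT] at hm
      simp only [u1x_U_shift] at hm
      rw [u1_nu_int μ K hT0 (u1_F_meas hp.meas _) (B := B) (fun X => hp.bdd _),
        u1_nu_int μ K hT0 (u1_F_meas hp.meas _) (B := B) (fun X => hp.bdd _)] at hm
      obtain ⟨hk0, hk1⟩ := u1_L_K (ι := Win K) (σ := s / n) hy0 hM0 hC1 n
      have hk2 : shK (u1L (s / n) (Real.pi * ρ + 2) y M n : List (ShStep (Win K))) ≤ κ' := by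
        refine hk1.trans (le_of_eq ?_)
        rw [hκ']; field_simp
      refine hm.trans (add_le_add ?_ ?_)
      · refine mul_le_mul_of_nonneg_left (Real.sqrt_le_sqrt ?_) hB0
        have := Real.exp_le_exp.2 hk2
        linarith
      · have h1 : Real.exp (shK (u1L (s / n) (Real.pi * ρ + 2) y M n : List (ShStep (Win K))) / 2)
            * shS (u1Nu μ K) (s / n) (u1F Φ z) 0 (u1L (s / n) (Real.pi * ρ + 2) y M n) ≤ 0 :=
          mul_nonpos_of_nonneg_of_nonpos (Real.exp_pos _).le h.le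
        have h2 : 0 ≤ Real.exp (κ' / 2) * (Sβ + ε) := by positivity
        linarith
  refine le_of_forall_pos_le_add fun δ hδ => ?_
  have hexp : 0 < Real.exp (κ' / 2) := Real.exp_pos _
  have := hmain (δ / Real.exp (κ' / 2)) (by positivity)
  have e : Real.exp (κ' / 2) * (Sβ + δ / Real.exp (κ' / 2)) = Real.exp (κ' / 2) * Sβ + δ := by
    field_simp
  rw [e] at this
  linarith

/-! ## 6. The parameters -/

theorem u1p_eps {C₀ C' e₀ s N t P : ℝ} (hC₀ : 0 ≤ C₀) (hC' : 0 ≤ C') (he : 0 ≤ e₀) (hs : 0 ≤ s) (hN : 1 ≤ N) (ht : 2 ≤ t) (htP : t ≤ P)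
    (hes : e₀ + s ≤ 512 * N ^ 8) (hexp : N ^ 6 * P ≤ Real.exp (4 * N ^ 8)) :
    0 ≤ u1Eps C₀ C' C₀ e₀ s (N ^ 4) (N ^ 4 * t) (512 * N ^ 7 * (N ^ 4 * t)) (512 * N ^ 4 * (N ^ 4 * t)) ∧
    u1Eps C₀ C' C₀ e₀ s (N ^ 4) (N ^ 4 * t) (512 * N ^ 7 * (N ^ 4 * t)) (512 * N ^ 4 * (N ^ 4 * t))
      ≤ C₀ * (9 / 4 + 9 * (1 / 2 + C') + 6912) / N ^ 5 := by
  have hN0 : 0 < N := by linarith
  have ht0 : 0 < t := by linarith
  unfold u1Eps
  constructor
  · positivity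
  have hpow : ∀ k : ℕ, 1 ≤ N ^ k := fun k => one_le_pow₀ hN
  -- term 1
  have h1 : C₀ * ((512 * N ^ 4 * (N ^ 4 * t) + e₀ + s) / (512 * N ^ 7 * (N ^ 4 * t))) ^ 2 ≤ C₀ * (9 / 4) / N ^ 5 := by
    have h2 : (512 * N ^ 4 * (N ^ 4 * t) + e₀ + s) / (512 * N ^ 7 * (N ^ 4 * t)) ≤ (3 / 2) / N ^ 3 := by
      rw [div_le_div_iff₀ (by positivity) (by positivity)]
      have h3 : e₀ + s ≤ 512 * N ^ 8 * (t / 2) := by
        have : 512 * N ^ 8 * 1 ≤ 512 * N ^ 8 * (t / 2) := by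
          apply mul_le_mul_of_nonneg_left (by linarith) (by positivity)
        linarith
      have h4 : (512 * N ^ 4 * (N ^ 4 * t) + e₀ + s) ≤ 512 * N ^ 8 * t * (3 / 2) := by nlinarith
      calc (512 * N ^ 4 * (N ^ 4 * t) + e₀ + s) * N ^ 3 ≤ (512 * N ^ 8 * t * (3 / 2)) * N ^ 3 :=
            mul_le_mul_of_nonneg_right h4 (by positivity)
        _ = 3 / 2 * (512 * N ^ 7 * (N ^ 4 * t)) := by ring
    have h5 : ((512 * N ^ 4 * (N ^ 4 * t) + e₀ + s) / (512 * N ^ 7 * (N ^ 4 * t))) ^ 2 ≤ ((3 / 2) / N ^ 3) ^ 2 :=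
      pow_le_pow_left₀ (by positivity) h2 2
    have h6 : ((3 / 2) / N ^ 3) ^ 2 ≤ (9 / 4) / N ^ 5 := by
      rw [div_pow, div_le_div_iff₀ (by positivity) (by positivity)]
      have : N ^ 5 ≤ N ^ 5 * N := le_mul_of_one_le_right (by positivity) hN
      nlinarith
    calc _ ≤ C₀ * ((9 / 4) / N ^ 5) := mul_le_mul_of_nonneg_left (h5.trans h6) hC₀
      _ = _ := by ring
  -- term 2
  have h2 : 9 * C₀ * (N ^ 4 + N ^ 4 * t * C') / (512 * N ^ 7 * (N ^ 4 * t)) ≤ C₀ * (9 * (1 / 2 + C')) / N ^ 5 := by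
    rw [div_le_div_iff₀ (by positivity) (by positivity)]
    have h3 : N ^ 4 + N ^ 4 * t * C' ≤ N ^ 4 * t * (1 / 2 + C') := by
      have : N ^ 4 * 1 ≤ N ^ 4 * (t / 2) := mul_le_mul_of_nonneg_left (by linarith) (by positivity)
      nlinarith
    have h4 : N ^ 9 * t * (1 / 2 + C') ≤ 512 * N ^ 11 * t * (1 / 2 + C') := by
      have h5 : N ^ 9 ≤ 512 * N ^ 11 := by
        have : N ^ 9 * 1 ≤ N ^ 9 * N ^ 2 := mul_le_mul_of_nonneg_left (hpow 2) (by positivity)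
        nlinarith [pow_pos hN0 11]
      have h6 : 0 ≤ t * (1 / 2 + C') := by positivity
      nlinarith
    calc 9 * C₀ * (N ^ 4 + N ^ 4 * t * C') * N ^ 5 ≤ 9 * C₀ * (N ^ 4 * t * (1 / 2 + C')) * N ^ 5 := by
          apply mul_le_mul_of_nonneg_right _ (by positivity)
          exact mul_le_mul_of_nonneg_left h3 (by positivity)
      _ = 9 * C₀ * (N ^ 9 * t * (1 / 2 + C')) := by ring
      _ ≤ 9 * C₀ * (512 * N ^ 11 * t * (1 / 2 + C')) := mul_le_mul_of_nonneg_left h4 (by positivity)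
      _ = _ := by ring
  -- term 3
  have h3 : 9 * C₀ * (512 * N ^ 4 * (N ^ 4 * t)) ^ 2 / (4 * N ^ 4 * (512 * N ^ 7 * (N ^ 4 * t)))
      * (2 * Real.exp (-(512 * N ^ 4 * (N ^ 4 * t)) ^ 2 / (256 * (N ^ 4 * t))) + 4 * Real.exp (-N ^ 4 * (512 * N ^ 4 * (N ^ 4 * t)) / (128 * (N ^ 4 * t))))
      ≤ C₀ * 6912 / N ^ 5 := by
    have e1 : 9 * C₀ * (512 * N ^ 4 * (N ^ 4 * t)) ^ 2 / (4 * N ^ 4 * (512 * N ^ 7 * (N ^ 4 * t))) = 9 * C₀ * (128 * N * t) := by
      field_simp; ring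
    have e2 : -(512 * N ^ 4 * (N ^ 4 * t)) ^ 2 / (256 * (N ^ 4 * t)) = -(1024 * N ^ 12 * t) := by
      field_simp; ring
    have e3 : -N ^ 4 * (512 * N ^ 4 * (N ^ 4 * t)) / (128 * (N ^ 4 * t)) = -(4 * N ^ 8) := by
      field_simp; ring
    rw [e1, e2, e3]
    have h4 : Real.exp (-(1024 * N ^ 12 * t)) ≤ Real.exp (-(4 * N ^ 8)) := by
      apply Real.exp_le_exp.2
      have h5 : N ^ 8 * 1 ≤ N ^ 8 * N ^ 4 := mul_le_mul_of_nonneg_left (hpow 4) (by positivity)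
      have h6 : N ^ 12 * 2 ≤ N ^ 12 * t := mul_le_mul_of_nonneg_left ht (by positivity)
      nlinarith
    have h5 : Real.exp (-(4 * N ^ 8)) ≤ 1 / (N ^ 6 * P) := by
      rw [Real.exp_neg, ← one_div]
      exact one_div_le_one_div_of_le (by have : 0 < P := by linarith
                                         positivity) hexp
    have hP : 0 < P := by linarith
    calc 9 * C₀ * (128 * N * t) * (2 * Real.exp (-(1024 * N ^ 12 * t)) + 4 * Real.exp (-(4 * N ^ 8)))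
        ≤ 9 * C₀ * (128 * N * P) * (6 * (1 / (N ^ 6 * P))) := by
          apply mul_le_mul _ (by linarith) (by positivity) (by positivity)
          apply mul_le_mul_of_nonneg_left _ (by positivity)
          exact mul_le_mul_of_nonneg_left htP (by positivity)
      _ = _ := by field_simp; ring
  calc _ ≤ C₀ * (9 / 4) / N ^ 5 + C₀ * (9 * (1 / 2 + C')) / N ^ 5 + C₀ * 6912 / N ^ 5 := add_le_add (add_le_add h1 h2) h3
    _ = _ := by ring

theorem u1p_sqrt3 {X1 X2 X3 a1 a2 a3 : ℝ} (h1 : X1 ≤ a1 ^ 2) (h2 : X2 ≤ a2 ^ 2) (h3 : X3 ≤ a3 ^ 2) (p1 : 0 ≤ a1) (p2 : 0 ≤ a2) (p3 : 0 ≤ a3) :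
    Real.sqrt (X1 + X2 + X3) ≤ a1 + a2 + a3 := by
  apply Real.sqrt_le_iff.2
  refine ⟨by positivity, ?_⟩
  nlinarith [mul_nonneg p1 p2, mul_nonneg p1 p3, mul_nonneg p2 p3]

theorem u1p_beta (b : ℕ) {B Lp C₀ C' e₀ s y₀ Cd N t P : ℝ} (hB : 0 ≤ B) (hL : 0 ≤ Lp) (hC₀ : 0 ≤ C₀) (hC' : 0 ≤ C') (he : 0 ≤ e₀) (hs : 0 ≤ s)
    (hy₀ : 0 < y₀) (hCd : 0 ≤ Cd) (hN : 1 ≤ N) (ht : 2 ≤ t) (htP : t ≤ P)
    (hes : e₀ + s ≤ 512 * N ^ 8) (hexp : N ^ 6 * P ≤ Real.exp (4 * N ^ 8)) :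
    u1Beta b B Lp (s / N ^ 8) C₀ C' C₀ e₀ s (N ^ 4) y₀ Cd 5 (N ^ 4 * t) (512 * N ^ 7 * (N ^ 4 * t)) (512 * N ^ 4 * (N ^ 4 * t))
      ≤ (2 * B * (1 + Cd) + 2 * (Lp * b * (3 / (2 * y₀ ^ 2)) * (s * (C₀ * (9 / 4 + 9 * (1 / 2 + C') + 6912)))) + 3 * B * b * (1 + Cd)) / N ^ 9 := by
  have hN0 : 0 < N := by linarith
  have ht0 : 0 < t := by linarith
  have hpow : ∀ k : ℕ, 1 ≤ N ^ k := fun k => one_le_pow₀ hN
  obtain ⟨hE0, hE⟩ := u1p_eps hC₀ hC' he hs hN ht htP hes hexp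
  set E := u1Eps C₀ C' C₀ e₀ s (N ^ 4) (N ^ 4 * t) (512 * N ^ 7 * (N ^ 4 * t)) (512 * N ^ 4 * (N ^ 4 * t)) with hEdef
  set E₁ := C₀ * (9 / 4 + 9 * (1 / 2 + C') + 6912) with hE₁
  have hE₁0 : 0 ≤ E₁ := by positivity
  unfold u1Beta
  rw [← hEdef]
  have hCd2 : Cd ≤ (1 + Cd) ^ 2 := by nlinarith
  have r1 : (512 * N ^ 7 * (N ^ 4 * t)) ^ (-((5 : ℕ) : ℝ)) ≤ (1 / N ^ 9) ^ 2 := by
    rw [Real.rpow_neg (by positivity), Real.rpow_natCast, ← one_div, div_pow, one_pow]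
    apply one_div_le_one_div_of_le (by positivity)
    have h1 : N ^ 4 ≤ 512 * N ^ 7 * (N ^ 4 * t) := by
      have h2 : (1 : ℝ) ≤ 512 * N ^ 7 * t := by nlinarith [hpow 7]
      have : N ^ 4 * 1 ≤ N ^ 4 * (512 * N ^ 7 * t) := mul_le_mul_of_nonneg_left h2 (by positivity)
      nlinarith
    calc (N ^ 9) ^ 2 = N ^ 18 * 1 := by ring
      _ ≤ N ^ 18 * N ^ 2 := mul_le_mul_of_nonneg_left (hpow 2) (by positivity)
      _ = (N ^ 4) ^ 5 := by ring
      _ ≤ _ := pow_le_pow_left₀ (by positivity) h1 5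
  have r3 : (N ^ 4) ^ (-((5 : ℕ) : ℝ)) ≤ (1 / N ^ 9) ^ 2 := by
    rw [Real.rpow_neg (by positivity), Real.rpow_natCast, ← one_div, div_pow, one_pow]
    apply one_div_le_one_div_of_le (by positivity)
    calc (N ^ 9) ^ 2 = N ^ 18 * 1 := by ring
      _ ≤ N ^ 18 * N ^ 2 := mul_le_mul_of_nonneg_left (hpow 2) (by positivity)
      _ = (N ^ 4) ^ 5 := by ring
  have hX1 : 4 * B ^ 2 * (Cd * (512 * N ^ 7 * (N ^ 4 * t)) ^ (-((5 : ℕ) : ℝ))) ≤ (2 * B * (1 + Cd) / N ^ 9) ^ 2 := by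
    calc _ ≤ 4 * B ^ 2 * ((1 + Cd) ^ 2 * (1 / N ^ 9) ^ 2) := by
          apply mul_le_mul_of_nonneg_left _ (by positivity)
          exact mul_le_mul hCd2 r1 (by positivity) (by positivity)
      _ = _ := by ring
  have hX3 : 8 * B ^ 2 * b * (b * (Cd * (N ^ 4) ^ (-((5 : ℕ) : ℝ)))) ≤ (3 * B * b * (1 + Cd) / N ^ 9) ^ 2 := by
    calc _ ≤ 9 * B ^ 2 * b * (b * ((1 + Cd) ^ 2 * (1 / N ^ 9) ^ 2)) := by
          apply mul_le_mul _ _ (by positivity) (by positivity)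
          · have : 0 ≤ B ^ 2 * b := by positivity
            nlinarith
          · apply mul_le_mul_of_nonneg_left _ (by positivity)
            exact mul_le_mul hCd2 r3 (by positivity) (by positivity)
      _ = _ := by ring
  have hX2 : 2 * (Lp * b * (3 * N ^ 4 / (2 * y₀ ^ 2)) * (s / N ^ 8 * E)) ^ 2
      ≤ (2 * (Lp * b * (3 / (2 * y₀ ^ 2)) * (s * E₁)) / N ^ 9) ^ 2 := by
    have h1 : Lp * b * (3 * N ^ 4 / (2 * y₀ ^ 2)) * (s / N ^ 8 * E) ≤ Lp * b * (3 / (2 * y₀ ^ 2)) * (s * E₁) / N ^ 9 := by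
      calc _ ≤ Lp * b * (3 * N ^ 4 / (2 * y₀ ^ 2)) * (s / N ^ 8 * (E₁ / N ^ 5)) := by
            apply mul_le_mul_of_nonneg_left _ (by positivity)
            exact mul_le_mul_of_nonneg_left hE (by positivity)
        _ = _ := by field_simp
    have h0 : 0 ≤ Lp * b * (3 * N ^ 4 / (2 * y₀ ^ 2)) * (s / N ^ 8 * E) := by positivity
    have h2 := pow_le_pow_left₀ h0 h1 2
    calc _ ≤ 2 * (Lp * b * (3 / (2 * y₀ ^ 2)) * (s * E₁) / N ^ 9) ^ 2 := by linarith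
      _ ≤ 4 * (Lp * b * (3 / (2 * y₀ ^ 2)) * (s * E₁) / N ^ 9) ^ 2 := by
          have : 0 ≤ (Lp * b * (3 / (2 * y₀ ^ 2)) * (s * E₁) / N ^ 9) ^ 2 := by positivity
          linarith
      _ = _ := by ring
  have := u1p_sqrt3 hX1 hX2 hX3 (by positivity) (by positivity) (by positivity)
  calc _ ≤ _ := this
    _ = _ := by ring

theorem u1p_exp (Nn : ℕ) (hN : 1 ≤ Nn) : (Nn : ℝ) ^ 6 * 2 ^ (Nn ^ 8 + 1) ≤ Real.exp (4 * (Nn : ℝ) ^ 8) := by
  have hN' : (1 : ℝ) ≤ Nn := by exact_mod_cast hN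
  have h1 : (2 : ℝ) ^ (Nn ^ 8) ≤ Real.exp ((Nn : ℝ) ^ 8) := by
    have h2 : Real.exp 1 ^ (Nn ^ 8) = Real.exp ((Nn ^ 8 : ℕ) : ℝ) := Real.exp_one_pow _
    have h3 : (2 : ℝ) ≤ Real.exp 1 := by have := Real.add_one_le_exp (1 : ℝ); linarith
    have h4 := pow_le_pow_left₀ (by norm_num) h3 (Nn ^ 8)
    rw [h2] at h4
    push_cast at h4
    exact h4
  have h5 : (Nn : ℝ) ^ 8 + 1 ≤ Real.exp ((Nn : ℝ) ^ 8) := Real.add_one_le_exp _
  have h6 : (1 : ℝ) ≤ (Nn : ℝ) ^ 8 := one_le_pow₀ hN'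
  have h7 : (Nn : ℝ) ^ 6 ≤ (Nn : ℝ) ^ 8 := pow_le_pow_right₀ hN' (by norm_num)
  have e1 : Real.exp (4 * (Nn : ℝ) ^ 8) = Real.exp ((Nn : ℝ) ^ 8) * Real.exp ((Nn : ℝ) ^ 8) * (Real.exp ((Nn : ℝ) ^ 8) * Real.exp ((Nn : ℝ) ^ 8)) := by
    rw [← Real.exp_add, ← Real.exp_add]; congr 1; ring
  rw [e1, pow_succ]
  have h8 : (Nn : ℝ) ^ 6 * 2 ^ (Nn ^ 8) ≤ Real.exp ((Nn : ℝ) ^ 8) * Real.exp ((Nn : ℝ) ^ 8) :=
    mul_le_mul (by linarith) h1 (by positivity) (by positivity)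
  have h9 : (2 : ℝ) ≤ Real.exp ((Nn : ℝ) ^ 8) * Real.exp ((Nn : ℝ) ^ 8) := by nlinarith
  calc (Nn : ℝ) ^ 6 * (2 ^ (Nn ^ 8) * 2) = ((Nn : ℝ) ^ 6 * 2 ^ (Nn ^ 8)) * 2 := by ring
    _ ≤ _ := mul_le_mul h8 h9 (by norm_num) (by positivity)

/-- **PARAMETERS** (note sec.4): `y = Nn⁴`, `n = Nn⁸`, `m₁ = 512 Nn⁴`, `M = Nn³ m₁`, `D = 5`, `Nn → ∞`. -/
theorem u1_params (b : ℕ) {B Lp C₀ C' e₀ s y₀ Cd u₀ ymax : ℝ} (hB : 0 ≤ B) (hL : 0 ≤ Lp) (hC₀ : 0 ≤ C₀) (hC' : C₀ + 2 ≤ C') (he : 0 ≤ e₀) (hs : 0 ≤ s) (hy₀ : 0 < y₀)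
    (hCd : 0 ≤ Cd) {η : ℝ} (hη : 0 < η) :
    ∃ (n : ℕ) (y M m₁ : ℝ), 0 < n ∧ ymax ≤ y ∧ U1Cond C' e₀ s y u₀ M m₁ ∧
      B * Real.sqrt (Real.exp (s ^ 2 * C₀ * M / n) - 1)
        + Real.exp (s ^ 2 * C₀ * M / n / 2) *
          ∑ j ∈ Finset.range n, u1Beta b B Lp (s / n) C₀ C' C₀ e₀ s y y₀ Cd 5 (y * (2 ^ (j + 2) - 2)) (M * (y * (2 ^ (j + 2) - 2))) (m₁ * (y * (2 ^ (j + 2) - 2))) ≤ η := by
  have hC'0 : 0 ≤ C' := by linarith
  set A : ℝ := 2 * B * (1 + Cd) + 2 * (Lp * b * (3 / (2 * y₀ ^ 2)) * (s * (C₀ * (9 / 4 + 9 * (1 / 2 + C') + 6912)))) + 3 * B * b * (1 + Cd) with hA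
  set c : ℝ := 512 * s ^ 2 * C₀ with hc
  have hlim : Tendsto (fun k : ℕ => B * Real.sqrt (Real.exp (c * (1 / (k : ℝ))) - 1) + Real.exp (c * (1 / (k : ℝ)) / 2) * (A * (1 / (k : ℝ)))) atTop (𝓝 0) := by
    have hg : Continuous fun x : ℝ => B * Real.sqrt (Real.exp (c * x) - 1) + Real.exp (c * x / 2) * (A * x) := by fun_prop
    have := (hg.tendsto 0).comp tendsto_one_div_atTop_nhds_zero_nat
    simp only [mul_zero, Real.exp_zero, sub_self, Real.sqrt_zero, zero_div, add_zero] at this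
    exact this
  have hev := hlim.eventually (gt_mem_nhds hη)
  obtain ⟨Nn, hlt, hge⟩ := (hev.and (eventually_ge_atTop (Nat.ceil (1 + |u₀| + |ymax| + (1 + C') + (e₀ + s))))).exists
  have hW : 1 + |u₀| + |ymax| + (1 + C') + (e₀ + s) ≤ (Nn : ℝ) := (Nat.le_ceil _).trans (by exact_mod_cast hge)
  set N : ℝ := (Nn : ℝ) with hNdef
  have hN1 : 1 ≤ N := by
    have := abs_nonneg u₀; have := abs_nonneg ymax
    linarith
  have hNn1 : 1 ≤ Nn := by rw [hNdef] at hN1; exact_mod_cast hN1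
  have hN0 : 0 < N := by linarith
  have hpow : ∀ k : ℕ, 1 ≤ N ^ k := fun k => one_le_pow₀ hN1
  have hN4 : N ≤ N ^ 4 := le_self_pow₀ hN1 (by norm_num)
  have hN8 : N ≤ N ^ 8 := le_self_pow₀ hN1 (by norm_num)
  have hu0 := abs_nonneg u₀
  have hu1 := le_abs_self u₀
  have hy0 := abs_nonneg ymax
  have hy1 := le_abs_self ymax
  have hes : e₀ + s ≤ 512 * N ^ 8 := by linarith
  refine ⟨Nn ^ 8, N ^ 4, 512 * N ^ 7, 512 * N ^ 4, by positivity, ?_, ?_, ?_⟩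
  · linarith
  · refine ⟨hpow 4, ?_, ?_, ?_, ?_, ?_⟩
    · linarith
    · linarith
    · calc e₀ + s ≤ 512 * N ^ 8 := hes
        _ = _ := by ring
    · have := hpow 8
      calc (256 : ℝ) ≤ 512 * N ^ 8 := by linarith
        _ = _ := by ring
    · have := hpow 7
      linarith
  · have hsum : ∑ j ∈ Finset.range (Nn ^ 8), u1Beta b B Lp (s / ((Nn ^ 8 : ℕ) : ℝ)) C₀ C' C₀ e₀ s (N ^ 4) y₀ Cd 5 (N ^ 4 * (2 ^ (j + 2) - 2)) (512 * N ^ 7 * (N ^ 4 * (2 ^ (j + 2) - 2))) (512 * N ^ 4 * (N ^ 4 * (2 ^ (j + 2) - 2)))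
        ≤ A * (1 / N) := by
      calc _ ≤ ∑ j ∈ Finset.range (Nn ^ 8), A / N ^ 9 := by
            refine Finset.sum_le_sum fun j hj => ?_
            have hj' : j < Nn ^ 8 := Finset.mem_range.1 hj
            have e1 : ((Nn ^ 8 : ℕ) : ℝ) = N ^ 8 := by push_cast; rfl
            rw [e1]
            refine u1p_beta b hB hL hC₀ hC'0 he hs hy₀ hCd hN1 (P := 2 ^ (Nn ^ 8 + 1)) ?_ ?_ hes (u1p_exp Nn hNn1)
            · have : (4 : ℝ) ≤ 2 ^ (j + 2) := by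
                have h1 : (1 : ℝ) ≤ 2 ^ j := one_le_pow₀ (by norm_num)
                rw [pow_add]; linarith
              linarith
            · have : (2 : ℝ) ^ (j + 2) ≤ 2 ^ (Nn ^ 8 + 1) := pow_le_pow_right₀ (by norm_num) (by omega)
              linarith
        _ = _ := by
            have e1 : ((Nn ^ 8 : ℕ) : ℝ) = N ^ 8 := by push_cast; rfl
            rw [Finset.sum_const, Finset.card_range, nsmul_eq_mul, e1]
            field_simp
    have e2 : s ^ 2 * C₀ * (512 * N ^ 7) / ((Nn ^ 8 : ℕ) : ℝ) = c * (1 / N) := by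
      have e1 : ((Nn ^ 8 : ℕ) : ℝ) = N ^ 8 := by push_cast; rfl
      rw [hc, e1]
      field_simp
    rw [e2]
    refine le_trans ?_ hlt.le
    gcongr

/-! ## 7. The exits -/

/-- small shifts, Lipschitz observables -/
theorem u1_shift_lip {ρ ξ : ℝ} (hρ : 0 < ρ) (hξ : 0 < ξ) (μ : Measure Conf) [IsProbabilityMeasure μ] (hR : LReg ρ ξ μ) (hI : LStat μ)
    {b : ℕ} (Φ : BoundedContinuousFunction (Fin b → ℂ) ℝ) {Lp : ℝ} (hL0 : 0 ≤ Lp) (hL : ∀ w w', |Φ w - Φ w'| ≤ Lp * ∑ a, ‖w a - w' a‖)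
    (z : Fin b → ℂ) {y₀ s : ℝ} (hy₀ : 0 < y₀) (hz : ∀ a, y₀ ≤ (z a).im) (hs0 : 0 ≤ s) (hs : s ≤ y₀ / 2) :
    ∫ x, Φ (fun a => cS x (z a - (s : ℂ))) ∂μ = ∫ x, Φ (fun a => cS x (z a)) ∂μ := by
  obtain ⟨Cd, u₀, hCd, hu₀, hbad⟩ := u1_bad_lim hρ hξ μ hR hI 5
  refine eq_of_abs_sub_le_all fun η hη => ?_
  set C₀ : ℝ := Real.pi * ρ + 2 with hC₀
  have hC₀pos : 0 ≤ C₀ := by positivity
  set e₀ : ℝ := ∑ a, |(z a).re| with he₀
  set ymax : ℝ := ∑ a, |(z a).im| with hymax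
  have he₀0 : 0 ≤ e₀ := Finset.sum_nonneg fun a _ => abs_nonneg _
  obtain ⟨n, y, M, m₁, hn, hy, hcond, hbound⟩ := u1_params b (B := ‖Φ‖) (Lp := Lp) (C₀ := C₀) (C' := C₀ + 2) (e₀ := e₀) (s := s)
    (y₀ := y₀) (Cd := Cd) (u₀ := u₀) (ymax := ymax) (norm_nonneg _) hL0 hC₀pos le_rfl he₀0 hs0 hy₀ hCd hη
  have hn' : (0 : ℝ) < n := by exact_mod_cast hn
  have hn1 : (1 : ℝ) ≤ n := by exact_mod_cast hn
  have hp : U1Par Φ z ‖Φ‖ Lp (s / n) C₀ (C₀ + 2) C₀ e₀ s y y₀ :=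
    { meas := Φ.continuous.measurable
      bdd := fun w => by rw [← Real.norm_eq_abs]; exact Φ.norm_coe_le_norm w
      lip := hL
      lp0 := hL0
      im0 := hz
      imy := fun a => by
        have h1 : |(z a).im| ≤ ymax := Finset.single_le_sum (f := fun a => |(z a).im|) (fun a _ => abs_nonneg _) (Finset.mem_univ a)
        exact (le_abs_self _).trans (h1.trans hy)
      re := fun a => Finset.single_le_sum (f := fun a => |(z a).re|) (fun a _ => abs_nonneg _) (Finset.mem_univ a)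
      y0 := hy₀
      σ0 := by positivity
      σs := div_le_self hs0 hn1
      sy := hs
      c0 := hC₀pos
      c' := by
        have h1 : 2 / y ≤ 2 := div_le_self (by norm_num) hcond.y1
        linarith
      c1 := hC₀pos }
  exact (u1_key hρ μ hR hI hbad hCd Φ n hn hp hcond).trans hbound

theorem u1x_shift_nat {ρ ξ : ℝ} (hρ : 0 < ρ) (hξ : 0 < ξ) (μ : Measure Conf) [IsProbabilityMeasure μ] (hR : LReg ρ ξ μ) (hI : LStat μ)
    {b : ℕ} (Φ : BoundedContinuousFunction (Fin b → ℂ) ℝ) {Lp : ℝ} (hL0 : 0 ≤ Lp) (hL : ∀ w w', |Φ w - Φ w'| ≤ Lp * ∑ a, ‖w a - w' a‖)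
    {y₀ s : ℝ} (hy₀ : 0 < y₀) (hs0 : 0 ≤ s) (hs : s ≤ y₀ / 2) (n : ℕ) (z : Fin b → ℂ) (hz : ∀ a, y₀ ≤ (z a).im) :
    ∫ x, Φ (fun a => cS x (z a - (((n : ℝ) * s : ℝ) : ℂ))) ∂μ = ∫ x, Φ (fun a => cS x (z a)) ∂μ := by
  induction n generalizing z with
  | zero => simp
  | succ n ih =>
    have h1 := u1_shift_lip hρ hξ μ hR hI Φ hL0 hL (fun a => z a - (((n : ℝ) * s : ℝ) : ℂ)) hy₀
      (fun a => by simpa using hz a) hs0 hs
    have h2 : ∀ a, z a - ((((n + 1 : ℕ) : ℝ) * s : ℝ) : ℂ) = z a - (((n : ℝ) * s : ℝ) : ℂ) - (s : ℂ) := fun a => by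
      push_cast; ring
    simp only [h2]
    rw [h1]
    exact ih z hz

theorem u1x_shift_neg {ρ ξ : ℝ} (hρ : 0 < ρ) (hξ : 0 < ξ) (μ : Measure Conf) [IsProbabilityMeasure μ] (hR : LReg ρ ξ μ) (hI : LStat μ)
    {b : ℕ} (Φ : BoundedContinuousFunction (Fin b → ℂ) ℝ) {Lp : ℝ} (hL0 : 0 ≤ Lp) (hL : ∀ w w', |Φ w - Φ w'| ≤ Lp * ∑ a, ‖w a - w' a‖)
    {y₀ : ℝ} (hy₀ : 0 < y₀) (z : Fin b → ℂ) (hz : ∀ a, y₀ ≤ (z a).im) {r : ℝ} (hr : 0 ≤ r) :
    ∫ x, Φ (fun a => cS x (z a - (r : ℂ))) ∂μ = ∫ x, Φ (fun a => cS x (z a)) ∂μ := by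
  obtain ⟨n, hn⟩ := exists_nat_gt (r / (y₀ / 2))
  have hn0 : (0 : ℝ) < n := lt_of_le_of_lt (by positivity) hn
  have h1 := u1x_shift_nat hρ hξ μ hR hI Φ hL0 hL hy₀ (s := r / n) (by positivity)
    (by
      rw [div_lt_iff₀ (by positivity)] at hn
      rw [div_le_iff₀ hn0]
      linarith) n z hz
  have h2 : (n : ℝ) * (r / n) = r := by field_simp
  rw [h2] at h1
  exact h1

/-- all shifts, Lipschitz observables (iterate `u1_shift_lip`; the family `z - s` has the same `y₀`) -/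
theorem u1_shift_lip' {ρ ξ : ℝ} (hρ : 0 < ρ) (hξ : 0 < ξ) (μ : Measure Conf) [IsProbabilityMeasure μ] (hR : LReg ρ ξ μ) (hI : LStat μ)
    {b : ℕ} (Φ : BoundedContinuousFunction (Fin b → ℂ) ℝ) {Lp : ℝ} (hL0 : 0 ≤ Lp) (hL : ∀ w w', |Φ w - Φ w'| ≤ Lp * ∑ a, ‖w a - w' a‖)
    (z : Fin b → ℂ) (hz : ∀ a, 0 < (z a).im) (s : ℝ) :
    ∫ x, Φ (fun a => cS x (z a + (s : ℂ))) ∂μ = ∫ x, Φ (fun a => cS x (z a)) ∂μ := by
  obtain ⟨y₀, hy₀, hzy⟩ : ∃ y₀ : ℝ, 0 < y₀ ∧ ∀ a, y₀ ≤ (z a).im := by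
    rcases isEmpty_or_nonempty (Fin b) with hb | hb
    · exact ⟨1, one_pos, fun a => (hb.false a).elim⟩
    · obtain ⟨a₀, ha₀⟩ := Finite.exists_min fun a => (z a).im
      exact ⟨(z a₀).im, hz a₀, ha₀⟩
  rcases le_total 0 s with hs | hs
  · have h1 := u1x_shift_neg hρ hξ μ hR hI Φ hL0 hL hy₀ (fun a => z a + (s : ℂ)) (fun a => by simpa using hzy a) hs
    simp only [add_sub_cancel_right] at h1
    exact h1.symm
  · have h1 := u1x_shift_neg hρ hξ μ hR hI Φ hL0 hL hy₀ z hzy (r := -s) (by linarith)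
    have h2 : ∀ a, z a - ((-s : ℝ) : ℂ) = z a + (s : ℂ) := fun a => by push_cast; ring
    simp only [h2] at h1
    exact h1

theorem u1x_dist_le_sum {b : ℕ} (w w' : Fin b → ℂ) : dist w w' ≤ ∑ a, ‖w a - w' a‖ := by
  refine (dist_pi_le_iff (Finset.sum_nonneg fun a _ => norm_nonneg _)).2 fun a => ?_
  rw [dist_eq_norm]
  exact Finset.single_le_sum (f := fun a => ‖w a - w' a‖) (fun a _ => norm_nonneg _) (Finset.mem_univ a)

/-- two finite measures on `Fin b → ℂ` which agree on the bounded Lipschitz functions agree on the bounded continuous functions.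
Plan: `thickenedIndicator` of a closed set is Lipschitz ⟹ equal on closed sets ⟹ equal (`ext_of_generate_finite` / `HasOuterApproxClosed`). -/
theorem u1_ext_lip {b : ℕ} (P Q : Measure (Fin b → ℂ)) [IsFiniteMeasure P] [IsFiniteMeasure Q]
    (h : ∀ (Φ : BoundedContinuousFunction (Fin b → ℂ) ℝ) (Lp : ℝ), 0 ≤ Lp → (∀ w w', |Φ w - Φ w'| ≤ Lp * ∑ a, ‖w a - w' a‖) → ∫ w, Φ w ∂P = ∫ w, Φ w ∂Q) :
    P = Q := by
  have key : ∀ F : Set (Fin b → ℂ), IsClosed F → P F = Q F := by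
    intro F hF
    have hδ : ∀ n : ℕ, (0 : ℝ) < 1 / ((n : ℝ) + 1) := fun n => by positivity
    have oP := tendsto_lintegral_thickenedIndicator_of_isClosed P hF hδ tendsto_one_div_add_atTop_nhds_zero_nat
    have oQ := tendsto_lintegral_thickenedIndicator_of_isClosed Q hF hδ tendsto_one_div_add_atTop_nhds_zero_nat
    have heq : ∀ n : ℕ, ∫⁻ ω, (thickenedIndicator (hδ n) F ω : ENNReal) ∂P = ∫⁻ ω, (thickenedIndicator (hδ n) F ω : ENNReal) ∂Q := by
      intro n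
      set f := thickenedIndicator (hδ n) F with hf
      apply (ENNReal.toReal_eq_toReal_iff' (BoundedContinuousFunction.lintegral_lt_top_of_nnreal P f).ne (BoundedContinuousFunction.lintegral_lt_top_of_nnreal Q f).ne).mp
      rw [BoundedContinuousFunction.toReal_lintegral_coe_eq_integral f P, BoundedContinuousFunction.toReal_lintegral_coe_eq_integral f Q]
      have hb : ∀ x, ‖((f x : NNReal) : ℝ)‖ ≤ 1 := fun x => by
        rw [Real.norm_eq_abs, abs_of_nonneg (NNReal.coe_nonneg _)]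
        have h0 : f x ≤ 1 := thickenedIndicator_le_one (hδ n) F x
        exact_mod_cast h0
      have hcont : Continuous fun x => ((f x : NNReal) : ℝ) := NNReal.continuous_coe.comp f.continuous
      refine h (BoundedContinuousFunction.ofNormedAddCommGroup (fun x => ((f x : NNReal) : ℝ)) hcont 1 hb)
        (((1 / ((n : ℝ) + 1)).toNNReal⁻¹ : NNReal) : ℝ) (NNReal.coe_nonneg _) fun w w' => ?_
      have hl := (lipschitzWith_thickenedIndicator (hδ n) F).dist_le_mul w w'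
      have h1 : |((f w : NNReal) : ℝ) - ((f w' : NNReal) : ℝ)| = dist (f w) (f w') := by
        rw [NNReal.dist_eq]
      rw [BoundedContinuousFunction.coe_ofNormedAddCommGroup]
      calc |((f w : NNReal) : ℝ) - ((f w' : NNReal) : ℝ)| = dist (f w) (f w') := h1
        _ ≤ _ := hl
        _ ≤ _ := mul_le_mul_of_nonneg_left (u1x_dist_le_sum w w') (NNReal.coe_nonneg _)
    simp only [heq] at oP
    exact tendsto_nhds_unique oP oQ
  apply ext_of_generate_finite _ ?_ isPiSystem_isClosed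
  · exact fun F hF => key F hF
  · exact key _ isClosed_univ
  · rw [BorelSpace.measurable_eq (α := Fin b → ℂ), borel_eq_generateFrom_isClosed]

/-- **EXIT U1, trace form** -/
theorem u1_shift {ρ ξ : ℝ} (hρ : 0 < ρ) (hξ : 0 < ξ) (μ : Measure Conf) [IsProbabilityMeasure μ] (hR : LReg ρ ξ μ) (hI : LStat μ) (s : ℝ)
    (b : ℕ) (z : Fin b → ℂ) (hz : ∀ a, 0 < (z a).im) (Φ : BoundedContinuousFunction (Fin b → ℂ) ℝ) :
    ∫ x, Φ (fun a => cS x (z a + (s : ℂ))) ∂μ = ∫ x, Φ (fun a => cS x (z a)) ∂μ := by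
  have m1 := u1x_cS_meas fun a => z a + (s : ℂ)
  have m2 := u1x_cS_meas z
  have hPQ : μ.map (fun x => fun a => cS x (z a + (s : ℂ))) = μ.map fun x => fun a => cS x (z a) := by
    have := Measure.isProbabilityMeasure_map (μ := μ) m1.aemeasurable
    have := Measure.isProbabilityMeasure_map (μ := μ) m2.aemeasurable
    refine u1_ext_lip _ _ fun Ψ Lp hL0 hL => ?_
    rw [integral_map m1.aemeasurable Ψ.continuous.measurable.aestronglyMeasurable,
      integral_map m2.aemeasurable Ψ.continuous.measurable.aestronglyMeasurable]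
    exact u1_shift_lip' hρ hξ μ hR hI Ψ hL0 hL z hz s
  have e1 := integral_map (μ := μ) m1.aemeasurable (f := Φ) Φ.continuous.measurable.aestronglyMeasurable
  have e2 := integral_map (μ := μ) m2.aemeasurable (f := Φ) Φ.continuous.measurable.aestronglyMeasurable
  rw [← e1, ← e2, hPQ]

/-- **EXIT U1, Laplace form** -/
theorem u1_transl {ρ ξ : ℝ} (hρ : 0 < ρ) (hξ : 0 < ξ) (μ : Measure Conf) [IsProbabilityMeasure μ] (hR : LReg ρ ξ μ) (hI : LStat μ) (s : ℝ)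
    (h : ℝ → ℝ) (hc : Continuous h) (hs : HasCompactSupport h) (hn : ∀ t, 0 ≤ h t) : cLap μ (fun t => h (t - s)) = cLap μ h :=
  k9_shift_lreg μ hρ hR s (fun b z hz Φ => u1_shift hρ hξ μ hR hI s b z hz Φ) h hc hs hn

end limit

end Claimed.Agent.R287
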