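-- KEEP
import Claimed.Agent.R287.Defs
import Claimed.Agent.R287.Rsv
import Claimed.Agent.R287.Qf
import Claimed.Agent.R287.RowLaw

/-!
# Row 287 (S0534), unit WL: WEAK LAW for `diag(x) + √D W`      (owner + prover helper174; plan helper230 `notes/R287/WL_230.md`; prefix `wl_`; 0 sorry)

`J` any `Fintype`, `x : J → ℝ` deterministic, `D > 0`, `N ~ gArr J J`, `W = goeOf N`, `wlM x D N = diag x + √D W`
(`cutM K D x N = wlM (cPos K x) D N` by `rfl`), `T(z) = rTr (wlM x D N) z = wlT x D N z`, `wlS x ζ = ∑_j 1/(x_j - ζ)`.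

**`wl_main`**: if `|wlS x ζ| ≤ C₁` on `{Im ζ ≥ y, |Re ζ - e| ≤ 2 D (C₁+1)}` (`WlReg`: ONE energy window, all heights `≥ y`) and
`y ≥ max(1, √D, 4 D (C₁+1))`, then off an event of probability `≤ 16 (1152 p² C₁ √D)^p y^{-p/2}`, at ALL heights `u = 2^k y`:
`|T(e+iu)| ≤ C₁+1` and `|T(z) - wlS x (z + D T(z))| ≤ u^{-1/2}`.       No dependence on `|J|`, `x`, `e`.

* sec. 1  deterministic: height halving (D3), top of the ladder (D4), Schur with the full size Gaussian row (D6), the cut resolvent (D8),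
          twice the resolvent identity (D9), `wl_det` (D11);
* sec. 2  measurability (M1);   * sec. 3  row law (P1);   * sec. 4  exponential moment of the Schur error (P2, P3);
* sec. 5  one step (P4) and the ladder (P5);   * sec. 6  forms for the consumers.
-/

set_option autoImplicit false
set_option linter.unusedSectionVars false

namespace Claimed.Agent.R287

open MeasureTheory ProbabilityTheory Matrix Finset ComplexConjugate
open scoped ENNReal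

variable {J : Type} [Fintype J] [DecidableEq J]

/-! ## 0. objects -/

/-- `diag(x) + √D W` -/
noncomputable def wlM (x : J → ℝ) (D : ℝ) (N : Matrix J J ℝ) : Matrix J J ℝ :=
  Matrix.diagonal x + Real.sqrt D • goeOf N

/-- Stieltjes sum of the deterministic positions -/
noncomputable def wlS (x : J → ℝ) (ζ : ℂ) : ℂ := ∑ j, ((x j : ℂ) - ζ)⁻¹

/-- the ONLY hypothesis on `x`: bounded Stieltjes sum above the height `y` in the energy window `|Re ζ - e| ≤ R` -/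
def WlReg (x : J → ℝ) (e y C₁ R : ℝ) : Prop :=
  ∀ ζ : ℂ, y ≤ ζ.im → |ζ.re - e| ≤ R → ‖wlS x ζ‖ ≤ C₁

/-- the resolvent trace, in the language of the kit `Rsv` -/
noncomputable def wlT (x : J → ℝ) (D : ℝ) (N : Matrix J J ℝ) (z : ℂ) : ℂ := (rsv (toC (wlM x D N)) z).trace

/-- the FULL SIZE standard Gaussian row: `W_jk = g_k` (`k ≠ j`), `W_jj = √2 g_j` -/
noncomputable def wlRow (j : J) (N : Matrix J J ℝ) : J → ℝ :=
  fun k => if k = j then N j j else (N j k + N k j) / Real.sqrt 2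

/-- the array without its row and column `j` -/
def wlCut (j : J) (N : Matrix J J ℝ) : Matrix J J ℝ := fun k l => if k = j ∨ l = j then 0 else N k l

/-- the resolvent of the minor, full size, row and column `j` put to `0` -/
noncomputable def wlGh (x : J → ℝ) (D : ℝ) (j : J) (N : Matrix J J ℝ) (z : ℂ) : Matrix J J ℂ :=
  rsvCut (rsv (rsvCut (toC (wlM x D N)) {j}) z) {j}

/-- the Schur error `√(2D) g_j - D (gᵀ Ĝ g - Tr Ĝ)` -/
noncomputable def wlE (G : Matrix J J ℂ) (D : ℝ) (j : J) (g : J → ℝ) : ℂ :=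
  ((Real.sqrt (2 * D) * g j : ℝ) : ℂ) - (D : ℂ) * (qfC G g - G.trace)

/-- `V + V²/u` -/
noncomputable def wlY (u V : ℝ) : ℝ := V + V ^ 2 / u

/-- `V_j = |ε'_j| + D/u` as a function of the row and of the array -/
noncomputable def wlV (x : J → ℝ) (D : ℝ) (j : J) (z : ℂ) (g : J → ℝ) (N : Matrix J J ℝ) : ℝ :=
  ‖wlE (wlGh x D j N z) D j g‖ + D / z.im

theorem wl_eqns_cite : True := by
  have := @wlM.eq_1
  have := @wlS.eq_1
  have := @WlReg.eq_1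
  have := @wlT.eq_1
  have := @wlRow.eq_1
  have := @wlCut.eq_1
  have := @wlGh.eq_1
  have := @wlE.eq_1
  have := @wlY.eq_1
  have := @wlV.eq_1
  trivial

theorem wl_cutM_eq (K : ℕ) (D : ℝ) (x : Conf) (N : Matrix (Win K) (Win K) ℝ) : cutM K D x N = wlM (cPos K x) D N := rfl

theorem wl_cSK_eq (K : ℕ) (x : Conf) (z : ℂ) : cSK K x z = wlS (cPos K x) z := rfl

theorem wl_rTr_eq (H : Matrix J J ℝ) (z : ℂ) : rTr H z = (rsv (toC H) z).trace := by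
  unfold rTr rsv toC
  rw [rsv_scalar_eq]

theorem wl_T_eq (x : J → ℝ) (D : ℝ) (N : Matrix J J ℝ) (z : ℂ) : wlT x D N z = rTr (wlM x D N) z :=
  (wl_rTr_eq _ _).symm

/-! ## 1. deterministic leaves -/

theorem wl_M_symm (x : J → ℝ) (D : ℝ) (N : Matrix J J ℝ) : (wlM x D N)ᵀ = wlM x D N := by
  unfold wlM goeOf
  rw [Matrix.transpose_add, Matrix.diagonal_transpose, Matrix.transpose_smul, Matrix.transpose_smul,
    Matrix.transpose_add, Matrix.transpose_transpose, add_comm Nᵀ N]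

theorem wl_toC_symm (x : J → ℝ) (D : ℝ) (N : Matrix J J ℝ) : (toC (wlM x D N))ᵀ = toC (wlM x D N) := by
  unfold toC
  rw [← Matrix.transpose_map, wl_M_symm]

theorem wl_toC_herm (x : J → ℝ) (D : ℝ) (N : Matrix J J ℝ) : (toC (wlM x D N)).IsHermitian := by
  ext i j
  have h := congrFun (congrFun (wl_M_symm x D N) i) j
  simp only [Matrix.transpose_apply] at h
  simp [toC, Matrix.conjTranspose_apply, h]

theorem wl_height_cont {M : Matrix J J ℂ} (hM : M.IsHermitian) (e : ℝ) {u u' : ℝ} (hu' : 0 < u') (h : u' ≤ u) :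
    ‖(rsv M ⟨e, u'⟩).trace - (rsv M ⟨e, u⟩).trace‖ ≤ (u - u') / u' * ((rsv M ⟨e, u⟩).trace).im := by
  have h1 : ∀ j, ‖rsv M ⟨e, u'⟩ j j - rsv M ⟨e, u⟩ j j‖ ≤ (u - u') / u' * (rsv M ⟨e, u⟩ j j).im := by
    intro j
    have := rsv_height_cont hM e hu' h j j
    rwa [← sq, Real.sqrt_sq (rsv_im_nonneg hM (z := ⟨e, u⟩) (lt_of_lt_of_le hu' h) j)] at this
  rw [← Matrix.trace_sub, Matrix.trace, Matrix.trace, Complex.im_sum, Finset.mul_sum]
  exact (norm_sum_le _ _).trans (Finset.sum_le_sum fun j _ => h1 j)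

theorem wl_half_height {M : Matrix J J ℂ} (hM : M.IsHermitian) (e : ℝ) {u : ℝ} (hu : 0 < u) :
    ‖(rsv M ⟨e, u⟩).trace‖ ≤ 2 * ‖(rsv M ⟨e, 2 * u⟩).trace‖ := by
  have h := wl_height_cont hM e hu (by linarith : u ≤ 2 * u)
  have e1 : (2 * u - u) / u = 1 := by field_simp; ring
  rw [e1, one_mul] at h
  have h2 := Complex.im_le_norm ((rsv M ⟨e, 2 * u⟩).trace)
  have h3 := norm_sub_norm_le ((rsv M ⟨e, u⟩).trace) ((rsv M ⟨e, 2 * u⟩).trace)
  linarith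

theorem wl_trace_le {M : Matrix J J ℂ} (hM : M.IsHermitian) {z : ℂ} (hz : 0 < z.im) :
    ‖(rsv M z).trace‖ ≤ Fintype.card J / z.im := by
  rw [Matrix.trace]
  refine (norm_sum_le _ _).trans ?_
  refine (Finset.sum_le_sum fun j _ => rsv_norm_le hM hz j j).trans (le_of_eq ?_)
  rw [Finset.sum_const, Finset.card_univ, nsmul_eq_mul]
  ring

theorem wl_trace_im_nonneg {M : Matrix J J ℂ} (hM : M.IsHermitian) {z : ℂ} (hz : 0 < z.im) :
    0 ≤ ((rsv M z).trace).im := by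
  rw [Matrix.trace, Complex.im_sum]
  exact Finset.sum_nonneg fun j _ => rsv_im_nonneg hM hz j

theorem wl_M_apply (x : J → ℝ) (D : ℝ) (N : Matrix J J ℝ) (k l : J) :
    wlM x D N k l = (if k = l then x k else 0) + Real.sqrt D * ((Real.sqrt 2)⁻¹ * (N k l + N l k)) := by
  simp only [wlM, goeOf, Matrix.add_apply, Matrix.smul_apply, Matrix.diagonal_apply, Matrix.transpose_apply, smul_eq_mul]

theorem wl_gh_cut (x : J → ℝ) (D : ℝ) (j : J) (N : Matrix J J ℝ) (z : ℂ) :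
    wlGh x D j (wlCut j N) z = wlGh x D j N z := by
  have h : rsvCut (toC (wlM x D (wlCut j N))) {j} = rsvCut (toC (wlM x D N)) {j} := by
    ext k l
    rw [rsvCut_apply, rsvCut_apply]
    by_cases hkl : k ∈ ({j} : Finset J) ∨ l ∈ ({j} : Finset J)
    · rw [if_pos hkl, if_pos hkl]
    · rw [if_neg hkl, if_neg hkl]
      simp only [Finset.mem_singleton, not_or] at hkl
      have e1 : wlCut j N k l = N k l := by rw [wlCut, if_neg (by tauto)]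
      have e2 : wlCut j N l k = N l k := by rw [wlCut, if_neg (by tauto)]
      simp only [toC, Matrix.map_apply, wl_M_apply, e1, e2]
  unfold wlGh
  rw [h]

theorem wl_gh_trace (x : J → ℝ) (D : ℝ) (j : J) (N : Matrix J J ℝ) (z : ℂ) :
    (wlGh x D j N z).trace = ∑ k ∈ univ.erase j, rsv (rsvCut (toC (wlM x D N)) {j}) z k k := by
  rw [Matrix.trace, ← Finset.sum_erase_add _ _ (Finset.mem_univ j)]
  have h0 : (wlGh x D j N z).diag j = 0 := by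
    simp [wlGh, rsvCut_apply]
  rw [h0, add_zero]
  refine Finset.sum_congr rfl fun k hk => ?_
  have hk' := (Finset.mem_erase.1 hk).1
  simp [wlGh, rsvCut_apply, hk']

theorem wl_trace_gh_le (x : J → ℝ) (D : ℝ) (j : J) (N : Matrix J J ℝ) {z : ℂ} (hz : 0 < z.im) :
    ‖wlT x D N z - (wlGh x D j N z).trace‖ ≤ 1 / z.im := by
  rw [wl_gh_trace]
  exact rsv_trace_minor (wl_toC_herm x D N) hz j

theorem wl_qfC_cut (A : Matrix J J ℂ) (j : J) (g : J → ℝ) :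
    qfC (rsvCut A {j}) g = ∑ k ∈ univ.erase j, ∑ l ∈ univ.erase j, (g k : ℂ) * A k l * (g l : ℂ) := by
  unfold qfC
  rw [← Finset.sum_erase_add _ _ (Finset.mem_univ j)]
  have h0 : ∑ l, (g j : ℂ) * rsvCut A {j} j l * (g l : ℂ) = 0 :=
    Finset.sum_eq_zero fun l _ => by simp [rsvCut_apply]
  rw [h0, add_zero]
  refine Finset.sum_congr rfl fun k hk => ?_
  have hk' := (Finset.mem_erase.1 hk).1
  rw [← Finset.sum_erase_add _ _ (Finset.mem_univ j)]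
  have h1 : (g k : ℂ) * rsvCut A {j} k j * (g j : ℂ) = 0 := by simp [rsvCut_apply]
  rw [h1, add_zero]
  refine Finset.sum_congr rfl fun l hl => ?_
  have hl' := (Finset.mem_erase.1 hl).1
  simp [rsvCut_apply, hk', hl']

theorem wl_M_off (x : J → ℝ) (D : ℝ) (N : Matrix J J ℝ) {j k : J} (hk : k ≠ j) :
    toC (wlM x D N) j k = ((Real.sqrt D : ℝ) : ℂ) * (wlRow j N k : ℂ) := by
  simp only [toC, Matrix.map_apply, wl_M_apply, wlRow]
  rw [if_neg (Ne.symm hk), if_neg hk]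
  push_cast
  ring

theorem wl_M_off' (x : J → ℝ) (D : ℝ) (N : Matrix J J ℝ) {j k : J} (hk : k ≠ j) :
    toC (wlM x D N) k j = ((Real.sqrt D : ℝ) : ℂ) * (wlRow j N k : ℂ) := by
  simp only [toC, Matrix.map_apply, wl_M_apply, wlRow]
  rw [if_neg hk, if_neg hk]
  push_cast
  ring

theorem wl_M_diag (x : J → ℝ) {D : ℝ} (_hD : 0 ≤ D) (N : Matrix J J ℝ) (j : J) :
    toC (wlM x D N) j j = (x j : ℂ) + ((Real.sqrt (2 * D) * wlRow j N j : ℝ) : ℂ) := by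
  simp only [toC, Matrix.map_apply, wl_M_apply, wlRow, if_true]
  rw [Real.sqrt_mul (by norm_num : (0 : ℝ) ≤ 2)]
  have h2 : (Real.sqrt 2)⁻¹ * (N j j + N j j) = Real.sqrt 2 * N j j := by
    have : Real.sqrt 2 * Real.sqrt 2 = 2 := Real.mul_self_sqrt (by norm_num)
    have h0 : Real.sqrt 2 ≠ 0 := by positivity
    field_simp
    rw [sq, this]
    ring
  rw [h2]
  push_cast
  ring

theorem wl_schur (x : J → ℝ) {D : ℝ} (hD : 0 ≤ D) (j : J) (N : Matrix J J ℝ) {z : ℂ} (hz : z.im ≠ 0) :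
    rsv (toC (wlM x D N)) z j j *
      ((x j : ℂ) - z - D * (wlGh x D j N z).trace + wlE (wlGh x D j N z) D j (wlRow j N)) = 1 := by
  have h := rsv_schur_diag (wl_toC_herm x D N) hz j
  have hs : rsvSelf (toC (wlM x D N)) z j = (D : ℂ) * qfC (wlGh x D j N z) (wlRow j N) := by
    rw [rsvSelf, wlGh, wl_qfC_cut, Finset.mul_sum]
    refine Finset.sum_congr rfl fun k hk => ?_
    rw [Finset.mul_sum]
    refine Finset.sum_congr rfl fun l hl => ?_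
    rw [wl_M_off x D N (Finset.mem_erase.1 hk).1, wl_M_off' x D N (Finset.mem_erase.1 hl).1]
    have hDD : ((Real.sqrt D : ℝ) : ℂ) * ((Real.sqrt D : ℝ) : ℂ) = (D : ℂ) := by
      rw [← Complex.ofReal_mul, Real.mul_self_sqrt hD]
    linear_combination ((wlRow j N k : ℂ) * rsv (rsvCut (toC (wlM x D N)) {j}) z k l * (wlRow j N l : ℂ)) * hDD
  rw [hs, wl_M_diag x hD] at h
  rw [← h, wlE]
  ring

theorem wl_rsvCut_transpose (A : Matrix J J ℂ) (T : Finset J) : (rsvCut A T)ᵀ = rsvCut Aᵀ T := by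
  ext k l
  rw [Matrix.transpose_apply, rsvCut_apply, rsvCut_apply, Matrix.transpose_apply]
  by_cases h : k ∈ T ∨ l ∈ T
  · rw [if_pos h, if_pos (Or.symm h)]
  · rw [if_neg h, if_neg (fun h' => h (Or.symm h'))]

theorem wl_gh_symm (x : J → ℝ) (D : ℝ) (j : J) (N : Matrix J J ℝ) (z : ℂ) :
    (wlGh x D j N z)ᵀ = wlGh x D j N z := by
  unfold wlGh
  rw [wl_rsvCut_transpose, rsv_transpose]
  rw [wl_rsvCut_transpose, wl_toC_symm]


theorem wl_qfC_cut_dot (A : Matrix J J ℂ) (j : J) (v : J → ℝ) :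
    qfC (rsvCut A {j}) v = (fun k => if k = j then (0 : ℂ) else (v k : ℂ)) ⬝ᵥ
      (A *ᵥ fun k => if k = j then (0 : ℂ) else (v k : ℂ)) := by
  unfold qfC dotProduct Matrix.mulVec dotProduct
  refine Finset.sum_congr rfl fun k _ => ?_
  rw [Finset.mul_sum]
  refine Finset.sum_congr rfl fun l _ => ?_
  rw [rsvCut_apply]
  by_cases hk : k = j
  · simp [hk]
  · by_cases hl : l = j
    · simp [hl]
    · simp [hk, hl, mul_assoc]

theorem wl_gh_qf_le (x : J → ℝ) (D : ℝ) (j : J) (N : Matrix J J ℝ) {z : ℂ} (hz : 0 < z.im) (v : J → ℝ) :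
    ‖qfC (wlGh x D j N z) v‖ ≤ 1 / z.im * (v ⬝ᵥ v) := by
  have hH := rsvCut_isHermitian (wl_toC_herm x D N) {j}
  rw [wlGh, wl_qfC_cut_dot]
  set v' : J → ℂ := fun k => if k = j then (0 : ℂ) else (v k : ℂ) with hv'
  have h1 := rsv_cs v' (rsv (rsvCut (toC (wlM x D N)) {j}) z *ᵥ v')
  have h2 := rsv_mulVec_sq_le hH hz v'
  have h3 : rsvSq v' ≤ v ⬝ᵥ v := by
    unfold rsvSq dotProduct
    refine Finset.sum_le_sum fun k _ => ?_
    rw [hv']
    by_cases hk : k = j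
    · simp only [hk, if_true, norm_zero]
      nlinarith [sq_nonneg (v j)]
    · simp only [hk, if_false, Complex.norm_real, Real.norm_eq_abs, sq_abs]
      exact le_of_eq (sq _)
  have h0 := rsvSq_nonneg v'
  have h4 : ‖v' ⬝ᵥ (rsv (rsvCut (toC (wlM x D N)) {j}) z *ᵥ v')‖ ^ 2 ≤ (1 / z.im * rsvSq v') ^ 2 := by
    calc _ ≤ rsvSq v' * rsvSq (rsv (rsvCut (toC (wlM x D N)) {j}) z *ᵥ v') := h1
      _ ≤ rsvSq v' * (rsvSq v' / z.im ^ 2) := mul_le_mul_of_nonneg_left h2 h0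
      _ = _ := by field_simp
  have h5 := (abs_le_of_sq_le_sq' h4 (by positivity)).2
  exact h5.trans (mul_le_mul_of_nonneg_left h3 (by positivity))

theorem wl_gh_hs (x : J → ℝ) (D : ℝ) (j : J) (N : Matrix J J ℝ) {z : ℂ} (hz : 0 < z.im) :
    ∑ k, ∑ l, ‖wlGh x D j N z k l‖ ^ 2 ≤ ‖(wlGh x D j N z).trace‖ / z.im := by
  have hH := rsvCut_isHermitian (wl_toC_herm x D N) {j}
  have h1 : ∑ k, ∑ l, ‖wlGh x D j N z k l‖ ^ 2 ≤
      ∑ k ∈ univ.erase j, ∑ l, ‖rsv (rsvCut (toC (wlM x D N)) {j}) z k l‖ ^ 2 := by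
    rw [← Finset.sum_erase_add _ _ (Finset.mem_univ j)]
    have h0 : ∑ l, ‖wlGh x D j N z j l‖ ^ 2 = 0 := Finset.sum_eq_zero fun l _ => by simp [wlGh, rsvCut_apply]
    rw [h0, add_zero]
    refine Finset.sum_le_sum fun k _ => Finset.sum_le_sum fun l _ => ?_
    rw [wlGh, rsvCut_apply]
    split_ifs
    · simp
    · exact le_rfl
  refine h1.trans ?_
  have h2 : ∑ k ∈ univ.erase j, ∑ l, ‖rsv (rsvCut (toC (wlM x D N)) {j}) z k l‖ ^ 2 = ((wlGh x D j N z).trace).im / z.im := by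
    rw [wl_gh_trace, Complex.im_sum, Finset.sum_div]
    exact Finset.sum_congr rfl fun k _ => rsv_ward hH hz.ne' k
  rw [h2]
  exact div_le_div_of_nonneg_right (Complex.im_le_norm _) hz.le

theorem wl_two_step {G a ε : ℂ} {u : ℝ} (_hu : 0 < u) (ha : a ≠ 0) (h : G * (a + ε) = 1) (hG : ‖G‖ ≤ 1 / u) :
    ‖G - a⁻¹‖ ≤ (‖ε‖ + ‖ε‖ ^ 2 / u) / ‖a‖ ^ 2 := by
  have e : G - a⁻¹ = (-ε + ε ^ 2 * G) / a ^ 2 := by
    field_simp
    linear_combination (a - ε) * h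
  rw [e, norm_div, norm_pow]
  refine div_le_div_of_nonneg_right ?_ (by positivity)
  calc ‖-ε + ε ^ 2 * G‖ ≤ ‖-ε‖ + ‖ε ^ 2 * G‖ := norm_add_le _ _
    _ = ‖ε‖ + ‖ε‖ ^ 2 * ‖G‖ := by rw [norm_neg, norm_mul, norm_pow]
    _ ≤ ‖ε‖ + ‖ε‖ ^ 2 * (1 / u) := by gcongr
    _ = _ := by ring

theorem wl_weights (x : J → ℝ) {z : ℂ} (hz : 0 < z.im) :
    ∑ j, 1 / ‖(x j : ℂ) - z‖ ^ 2 = (wlS x z).im / z.im := by
  rw [wlS, Complex.im_sum, Finset.sum_div]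
  refine Finset.sum_congr rfl fun j _ => ?_
  rw [Complex.inv_im, ← Complex.normSq_eq_norm_sq]
  simp only [Complex.sub_im, Complex.ofReal_im, zero_sub, neg_neg]
  field_simp

theorem wl_norm_ge_im (a : ℝ) (z : ℂ) : |z.im| ≤ ‖(a : ℂ) - z‖ := by
  have := Complex.abs_im_le_norm ((a : ℂ) - z)
  simpa using this

theorem wl_Y_mono {u V V' : ℝ} (hu : 0 < u) (hV : 0 ≤ V) (h : V ≤ V') : wlY u V ≤ wlY u V' := by
  unfold wlY
  gcongr

theorem wl_Y_nonneg {u V : ℝ} (hu : 0 < u) (hV : 0 ≤ V) : 0 ≤ wlY u V := by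
  unfold wlY
  positivity

theorem wl_det (x : J → ℝ) {D : ℝ} (hD : 0 ≤ D) (N : Matrix J J ℝ) {z : ℂ} (hz : 0 < z.im)
    (hT : D * ‖wlT x D N z‖ ≤ z.im / 2) :
    ‖wlT x D N z - wlS x (z + D * wlT x D N z)‖ ≤
      4 * ∑ j, 1 / ‖(x j : ℂ) - z‖ ^ 2 * wlY z.im (wlV x D j z (wlRow j N) (wlCut j N)) := by
  have key : ∀ j, ‖rsv (toC (wlM x D N)) z j j - ((x j : ℂ) - (z + D * wlT x D N z))⁻¹‖ ≤
      4 * (1 / ‖(x j : ℂ) - z‖ ^ 2 * wlY z.im (wlV x D j z (wlRow j N) (wlCut j N))) := by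
    intro j
    set T := wlT x D N z with hTdef
    set a : ℂ := (x j : ℂ) - (z + D * T) with ha
    set ε : ℂ := wlE (wlGh x D j N z) D j (wlRow j N) + D * (T - (wlGh x D j N z).trace) with hε
    have hs : rsv (toC (wlM x D N)) z j j * (a + ε) = 1 := by
      rw [← wl_schur x hD j N hz.ne', ha, hε]
      ring
    have hb : z.im ≤ ‖(x j : ℂ) - z‖ := (le_abs_self _).trans (wl_norm_ge_im (x j) z)
    have hDT : ‖(D : ℂ) * T‖ ≤ z.im / 2 := by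
      rw [norm_mul, Complex.norm_real, Real.norm_eq_abs, abs_of_nonneg hD]; exact hT
    have han : ‖(x j : ℂ) - z‖ / 2 ≤ ‖a‖ := by
      have e1 : a = ((x j : ℂ) - z) - D * T := by rw [ha]; ring
      have := norm_sub_norm_le ((x j : ℂ) - z) ((D : ℂ) * T)
      rw [e1]
      linarith
    have hpos : 0 < ‖(x j : ℂ) - z‖ := lt_of_lt_of_le hz hb
    have ha0 : a ≠ 0 := by
      intro h0
      rw [h0, norm_zero] at han
      linarith
    have hεV : ‖ε‖ ≤ wlV x D j z (wlRow j N) (wlCut j N) := by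
      rw [wlV, wl_gh_cut, hε]
      refine (norm_add_le _ _).trans ?_
      have := wl_trace_gh_le x D j N hz
      rw [norm_mul, Complex.norm_real, Real.norm_eq_abs, abs_of_nonneg hD]
      have h2 : D * ‖T - (wlGh x D j N z).trace‖ ≤ D * (1 / z.im) := mul_le_mul_of_nonneg_left this hD
      have e2 : D * (1 / z.im) = D / z.im := by ring
      linarith
    have h1 := wl_two_step hz ha0 hs (rsv_norm_le (wl_toC_herm x D N) hz j j)
    have h2 : ‖ε‖ + ‖ε‖ ^ 2 / z.im ≤ wlY z.im (wlV x D j z (wlRow j N) (wlCut j N)) :=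
      wl_Y_mono hz (norm_nonneg _) hεV
    have hY0 : 0 ≤ wlY z.im (wlV x D j z (wlRow j N) (wlCut j N)) :=
      le_trans (by positivity) h2
    have h3 : 1 / ‖a‖ ^ 2 ≤ 4 * (1 / ‖(x j : ℂ) - z‖ ^ 2) := by
      have : (‖(x j : ℂ) - z‖ / 2) ^ 2 ≤ ‖a‖ ^ 2 := pow_le_pow_left₀ (by positivity) han 2
      calc 1 / ‖a‖ ^ 2 ≤ 1 / (‖(x j : ℂ) - z‖ / 2) ^ 2 := one_div_le_one_div_of_le (by positivity) this
        _ = _ := by field_simp; norm_num
    calc _ ≤ (‖ε‖ + ‖ε‖ ^ 2 / z.im) / ‖a‖ ^ 2 := h1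
      _ = (‖ε‖ + ‖ε‖ ^ 2 / z.im) * (1 / ‖a‖ ^ 2) := by ring
      _ ≤ wlY z.im (wlV x D j z (wlRow j N) (wlCut j N)) * (4 * (1 / ‖(x j : ℂ) - z‖ ^ 2)) :=
          mul_le_mul h2 h3 (by positivity) hY0
      _ = _ := by ring
  have e : wlT x D N z - wlS x (z + D * wlT x D N z) =
      ∑ j, (rsv (toC (wlM x D N)) z j j - ((x j : ℂ) - (z + D * wlT x D N z))⁻¹) := by
    rw [Finset.sum_sub_distrib]
    rfl
  rw [e, Finset.mul_sum]
  exact (norm_sum_le _ _).trans (Finset.sum_le_sum fun j _ => key j)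

/-! ## 2. measurability (M1) -/

theorem wl_meas_det {Ω : Type*} [MeasurableSpace Ω] {f : Ω → Matrix J J ℂ} (hf : ∀ k l, Measurable fun ω => f ω k l) :
    Measurable fun ω => (f ω).det := by
  simp only [Matrix.det_apply]
  refine Finset.measurable_fun_sum _ fun σ _ => ?_
  exact (Finset.measurable_fun_prod _ fun i _ => hf _ _).const_smul _

theorem wl_meas_rsv {Ω : Type*} [MeasurableSpace Ω] {f : Ω → Matrix J J ℂ} (hf : ∀ k l, Measurable fun ω => f ω k l)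
    (z : ℂ) (k l : J) : Measurable fun ω => rsv (f ω) z k l := by
  unfold rsv
  simp only [Matrix.inv_def, Matrix.smul_apply, smul_eq_mul, Ring.inverse_eq_inv', Matrix.adjugate_apply]
  have h1 : ∀ a b, Measurable fun ω => (f ω - Matrix.scalar J z) a b := fun a b => by
    simp only [Matrix.sub_apply]
    exact (hf a b).sub_const _
  refine Measurable.mul (Measurable.inv (wl_meas_det h1)) (wl_meas_det fun a b => ?_)
  simp only [Matrix.updateRow_apply]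
  by_cases h : a = l
  · simp only [h, if_true]
    exact measurable_const
  · simp only [h, if_false]
    exact h1 a b

theorem wl_meas_entry (k l : J) : Measurable fun N : Matrix J J ℝ => N k l :=
  (measurable_pi_apply l).comp (measurable_pi_apply (X := fun _ : J => J → ℝ) k)

theorem wl_meas_M (x : J → ℝ) (D : ℝ) (k l : J) : Measurable fun N : Matrix J J ℝ => toC (wlM x D N) k l := by
  simp only [toC, Matrix.map_apply, wl_M_apply]
  refine Complex.measurable_ofReal.comp ?_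
  exact ((((wl_meas_entry k l).add (wl_meas_entry l k)).const_mul _).const_mul _).const_add _

theorem wl_meas_T (x : J → ℝ) (D : ℝ) (z : ℂ) : Measurable fun N : Matrix J J ℝ => wlT x D N z := by
  unfold wlT Matrix.trace
  exact Finset.measurable_fun_sum _ fun k _ => wl_meas_rsv (wl_meas_M x D) z k k

theorem wl_meas_gh (x : J → ℝ) (D : ℝ) (j : J) (z : ℂ) (k l : J) :
    Measurable fun N : Matrix J J ℝ => wlGh x D j N z k l := by
  simp only [wlGh, rsvCut_apply (rsv _ _)]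
  by_cases h : k ∈ ({j} : Finset J) ∨ l ∈ ({j} : Finset J)
  · simp only [h, if_true]
    exact measurable_const
  · simp only [h, if_false]
    refine wl_meas_rsv (fun a b => ?_) z k l
    simp only [rsvCut_apply]
    by_cases h' : a ∈ ({j} : Finset J) ∨ b ∈ ({j} : Finset J)
    · simp only [h', if_true]
      exact measurable_const
    · simp only [h', if_false]
      exact wl_meas_M x D a b

theorem wl_meas_V (x : J → ℝ) (D : ℝ) (j : J) (z : ℂ) :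
    Measurable fun q : (J → ℝ) × Matrix J J ℝ => wlV x D j z q.1 q.2 := by
  have hg : ∀ k, Measurable fun q : (J → ℝ) × Matrix J J ℝ => ((q.1 k : ℝ) : ℂ) := fun k =>
    Complex.measurable_ofReal.comp ((measurable_pi_apply k).comp measurable_fst)
  have hG : ∀ k l, Measurable fun q : (J → ℝ) × Matrix J J ℝ => wlGh x D j q.2 z k l := fun k l =>
    (wl_meas_gh x D j z k l).comp measurable_snd
  unfold wlV wlE qfC Matrix.trace
  refine (Measurable.norm ?_).add_const _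
  refine Measurable.sub ?_ (Measurable.const_mul (Measurable.sub ?_ ?_) _)
  · exact Complex.measurable_ofReal.comp (((measurable_pi_apply j).comp measurable_fst).const_mul _)
  · exact Finset.measurable_fun_sum _ fun k _ => Finset.measurable_fun_sum _ fun l _ => ((hg k).mul (hG k l)).mul (hg l)
  · exact Finset.measurable_fun_sum _ fun k _ => hG k k

/-! ## 3. the row law (P1) -/

theorem wl_row_eq (j : J) (N : Matrix J J ℝ) : wlRow j N = u0Row j N := by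
  funext k
  unfold wlRow u0Row
  by_cases h : k = j
  · rw [if_pos h, if_pos h]
  · rw [if_neg h, if_neg h, div_eq_inv_mul]

theorem wl_cut_eq (j : J) (N : Matrix J J ℝ) : wlCut j N = rsDel N {j} := by
  ext k l
  rw [rs_del_apply, wlCut]
  simp only [Finset.mem_singleton]

theorem wl_meas_row (j : J) : Measurable (wlRow j : Matrix J J ℝ → J → ℝ) := by
  have : (wlRow j : Matrix J J ℝ → J → ℝ) = u0Row j := funext fun N => wl_row_eq j N
  rw [this]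
  exact u0_Row_measurable j

theorem wl_meas_cut (j : J) : Measurable (wlCut j : Matrix J J ℝ → Matrix J J ℝ) := by
  have : (wlCut j : Matrix J J ℝ → Matrix J J ℝ) = fun N => rsDel N {j} := funext fun N => wl_cut_eq j N
  rw [this]
  exact u0_cut_measurable j

/-- **P1, row law** (helper170, `u0_raw_lintegral`): the row `j` of `W` is a standard Gaussian vector independent of the minor -/
theorem wl_row_law (j : J) (F : (J → ℝ) → Matrix J J ℝ → ℝ≥0∞) (hF : Measurable (Function.uncurry F)) :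
    ∫⁻ N, F (wlRow j N) (wlCut j N) ∂gArr J J = ∫⁻ N, ∫⁻ g, F g (wlCut j N) ∂qfG J ∂gArr J J := by
  simp only [wl_row_eq, wl_cut_eq]
  exact u0_raw_lintegral j F hF

/-! ## 4. exponential moment of the Schur error (P2, P3) -/

/-- `E e^{s g_j} = e^{s²/2}` -/
theorem wl_coord_mgf (j : J) (s : ℝ) :
    Integrable (fun g : J → ℝ => Real.exp (s * g j)) (qfG J) ∧ ∫ g, Real.exp (s * g j) ∂qfG J = Real.exp (s ^ 2 / 2) := by
  constructor
  · exact qf_coord_integrable (f := fun y => Real.exp (s * y)) (integrable_exp_mul_gaussianReal s) j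
  · rw [qf_coord_integral (f := fun y => Real.exp (s * y)) (by fun_prop) j]
    have h := congrFun (mgf_id_gaussianReal (μ := 0) (v := 1)) s
    simp only [mgf, id] at h
    rw [h]
    congr 1
    simp

theorem wl_exp_abs_le (t y : ℝ) : Real.exp (t * |y|) ≤ Real.exp (t * y) + Real.exp (-t * y) := by
  rcases abs_cases y with ⟨h, _⟩ | ⟨h, _⟩
  · rw [h]
    linarith [Real.exp_pos (-t * y)]
  · rw [h]
    have : t * -y = -t * y := by ring
    rw [this]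
    linarith [Real.exp_pos (t * y)]

theorem wl_exp_three (a b c : ℝ) :
    Real.exp (a + b + c) ≤ (Real.exp (3 * a) + Real.exp (3 * b) + Real.exp (3 * c)) / 3 := by
  have e : ∀ r : ℝ, Real.exp (3 * r) = Real.exp r ^ 3 := fun r => by
    rw [← Real.exp_nat_mul]
    norm_num
  rw [e, e, e, Real.exp_add, Real.exp_add]
  have hX := (Real.exp_pos a).le
  have hY := (Real.exp_pos b).le
  have hZ := (Real.exp_pos c).le
  nlinarith [mul_nonneg (add_nonneg (add_nonneg hX hY) hZ) (sq_nonneg (Real.exp a - Real.exp b)),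
    mul_nonneg (add_nonneg (add_nonneg hX hY) hZ) (sq_nonneg (Real.exp b - Real.exp c)),
    mul_nonneg (add_nonneg (add_nonneg hX hY) hZ) (sq_nonneg (Real.exp c - Real.exp a))]

theorem wl_E_norm_le (G : Matrix J J ℂ) {D : ℝ} (hD : 0 ≤ D) (j : J) (g : J → ℝ) :
    ‖wlE G D j g‖ ≤ Real.sqrt (2 * D) * |g j| + D * |qfQ (G.map Complex.re) g - (G.map Complex.re).trace|
      + D * |qfQ (G.map Complex.im) g - (G.map Complex.im).trace| := by
  unfold wlE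
  refine (norm_sub_le _ _).trans ?_
  rw [Complex.norm_real, Real.norm_eq_abs, abs_mul, abs_of_nonneg (Real.sqrt_nonneg _), norm_mul, Complex.norm_real,
    Real.norm_eq_abs, abs_of_nonneg hD]
  have h3 := Complex.norm_le_abs_re_add_abs_im (qfC G g - G.trace)
  rw [Complex.sub_re, Complex.sub_im, qf_C_re, qf_C_im, qf_trace_re, qf_trace_im] at h3
  have := mul_le_mul_of_nonneg_left h3 hD
  linarith

theorem wl_lint_six {Ω : Type*} [MeasurableSpace Ω] {P : Measure Ω} {f f1 f2 f3 f4 f5 f6 : Ω → ℝ}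
    {b1 b2 b3 b4 b5 b6 : ℝ} (h : ∀ ω, f ω ≤ (f1 ω + f2 ω + (f3 ω + f4 ω) + (f5 ω + f6 ω)) / 3)
    (i1 : Integrable f1 P) (i2 : Integrable f2 P) (i3 : Integrable f3 P) (i4 : Integrable f4 P)
    (i5 : Integrable f5 P) (i6 : Integrable f6 P) (n1 : ∀ ω, 0 ≤ f1 ω) (n2 : ∀ ω, 0 ≤ f2 ω) (n3 : ∀ ω, 0 ≤ f3 ω)
    (n4 : ∀ ω, 0 ≤ f4 ω) (n5 : ∀ ω, 0 ≤ f5 ω) (n6 : ∀ ω, 0 ≤ f6 ω)
    (hb1 : ∫ ω, f1 ω ∂P ≤ b1) (hb2 : ∫ ω, f2 ω ∂P ≤ b2) (hb3 : ∫ ω, f3 ω ∂P ≤ b3) (hb4 : ∫ ω, f4 ω ∂P ≤ b4)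
    (hb5 : ∫ ω, f5 ω ∂P ≤ b5) (hb6 : ∫ ω, f6 ω ∂P ≤ b6) :
    ∫⁻ ω, ENNReal.ofReal (f ω) ∂P ≤ ENNReal.ofReal ((b1 + b2 + (b3 + b4) + (b5 + b6)) / 3) := by
  have i12 : Integrable (fun ω => f1 ω + f2 ω) P := i1.add i2
  have i34 : Integrable (fun ω => f3 ω + f4 ω) P := i3.add i4
  have i56 : Integrable (fun ω => f5 ω + f6 ω) P := i5.add i6
  have i14 : Integrable (fun ω => f1 ω + f2 ω + (f3 ω + f4 ω)) P := i12.add i34
  have i16 : Integrable (fun ω => f1 ω + f2 ω + (f3 ω + f4 ω) + (f5 ω + f6 ω)) P := i14.add i56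
  calc ∫⁻ ω, ENNReal.ofReal (f ω) ∂P
      ≤ ∫⁻ ω, ENNReal.ofReal ((f1 ω + f2 ω + (f3 ω + f4 ω) + (f5 ω + f6 ω)) / 3) ∂P :=
        lintegral_mono fun ω => ENNReal.ofReal_le_ofReal (h ω)
    _ = ENNReal.ofReal (∫ ω, (f1 ω + f2 ω + (f3 ω + f4 ω) + (f5 ω + f6 ω)) / 3 ∂P) := by
        refine (ofReal_integral_eq_lintegral_ofReal (i16.div_const 3) (Filter.Eventually.of_forall fun ω => ?_)).symm
        have := n1 ω; have := n2 ω; have := n3 ω; have := n4 ω; have := n5 ω; have := n6 ω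
        simp only [Pi.zero_apply]
        linarith
    _ ≤ _ := by
        apply ENNReal.ofReal_le_ofReal
        rw [integral_div, integral_add i14 i56, integral_add i12 i34, integral_add i1 i2, integral_add i3 i4,
          integral_add i5 i6]
        linarith

/-- P2 -/
theorem wl_exp_bound {G : Matrix J J ℂ} (hG : Gᵀ = G) {α H D μ : ℝ} (hD : 0 ≤ D) (hμ : 0 ≤ μ)
    (hα : ∀ v : J → ℝ, ‖qfC G v‖ ≤ α * (v ⬝ᵥ v)) (hH : ∑ k, ∑ l, ‖G k l‖ ^ 2 ≤ H) (hs : 3 * μ * D * α ≤ 1 / 4) (j : J) :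
    ∫⁻ g, ENNReal.ofReal (Real.exp (μ * ‖wlE G D j g‖)) ∂qfG J ≤
      ENNReal.ofReal (2 / 3 * (Real.exp (9 * μ ^ 2 * D) + 2 * Real.exp (18 * μ ^ 2 * D ^ 2 * H))) := by
  have hA := qf_re_herm hG
  have hB := qf_im_herm hG
  have hαA : ∀ v : J → ℝ, |qfQ (G.map Complex.re) v| ≤ α * (v ⬝ᵥ v) := fun v => by
    rw [← qf_C_re]; exact (Complex.abs_re_le_norm _).trans (hα v)
  have hαB : ∀ v : J → ℝ, |qfQ (G.map Complex.im) v| ≤ α * (v ⬝ᵥ v) := fun v => by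
    rw [← qf_C_im]; exact (Complex.abs_im_le_norm _).trans (hα v)
  have hle : ∀ i l, (G.map Complex.re) i l ^ 2 ≤ ‖G i l‖ ^ 2 ∧ (G.map Complex.im) i l ^ 2 ≤ ‖G i l‖ ^ 2 := by
    intro i l
    rw [← Complex.normSq_eq_norm_sq, Complex.normSq_apply]
    simp only [Matrix.map_apply]
    constructor <;> nlinarith [sq_nonneg (G i l).re, sq_nonneg (G i l).im]
  have hHA : ((G.map Complex.re) * (G.map Complex.re)).trace ≤ H := by
    rw [qf_trace_sq_herm hA]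
    exact (Finset.sum_le_sum fun i _ => Finset.sum_le_sum fun l _ => (hle i l).1).trans hH
  have hHB : ((G.map Complex.im) * (G.map Complex.im)).trace ≤ H := by
    rw [qf_trace_sq_herm hB]
    exact (Finset.sum_le_sum fun i _ => Finset.sum_le_sum fun l _ => (hle i l).2).trans hH
  obtain ⟨t, ht⟩ : ∃ t : ℝ, t = 3 * μ * D := ⟨_, rfl⟩
  obtain ⟨s, hsd⟩ : ∃ s : ℝ, s = 3 * μ * Real.sqrt (2 * D) := ⟨_, rfl⟩
  have ht0 : 0 ≤ t := by rw [ht]; positivity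
  have hs0 : 0 ≤ s := by rw [hsd]; positivity
  have htα : |t| * α ≤ 1 / 4 := by rw [abs_of_nonneg ht0, ht]; exact hs
  have htα' : |-t| * α ≤ 1 / 4 := by rw [abs_neg]; exact htα
  obtain ⟨iA1, bA1⟩ := qf_laplace' hA hαA htα
  obtain ⟨iA2, bA2⟩ := qf_laplace' hA hαA htα'
  obtain ⟨iB1, bB1⟩ := qf_laplace' hB hαB htα
  obtain ⟨iB2, bB2⟩ := qf_laplace' hB hαB htα'
  obtain ⟨iC1, bC1⟩ := wl_coord_mgf j s
  obtain ⟨iC2, bC2⟩ := wl_coord_mgf j (-s)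
  have hpt : ∀ g : J → ℝ, Real.exp (μ * ‖wlE G D j g‖) ≤
      ((Real.exp (s * g j) + Real.exp (-s * g j))
        + (Real.exp (t * (qfQ (G.map Complex.re) g - (G.map Complex.re).trace))
          + Real.exp (-t * (qfQ (G.map Complex.re) g - (G.map Complex.re).trace)))
        + (Real.exp (t * (qfQ (G.map Complex.im) g - (G.map Complex.im).trace))
          + Real.exp (-t * (qfQ (G.map Complex.im) g - (G.map Complex.im).trace)))) / 3 := by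
    intro g
    have h1 := mul_le_mul_of_nonneg_left (wl_E_norm_le G hD j g) hμ
    have h2 := wl_exp_three (μ * (Real.sqrt (2 * D) * |g j|))
      (μ * (D * |qfQ (G.map Complex.re) g - (G.map Complex.re).trace|))
      (μ * (D * |qfQ (G.map Complex.im) g - (G.map Complex.im).trace|))
    have e1 : 3 * (μ * (Real.sqrt (2 * D) * |g j|)) = s * |g j| := by rw [hsd]; ring
    have e2 : ∀ r : ℝ, 3 * (μ * (D * r)) = t * r := fun r => by rw [ht]; ring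
    rw [e1, e2, e2] at h2
    have h3 := wl_exp_abs_le s (g j)
    have h4 := wl_exp_abs_le t (qfQ (G.map Complex.re) g - (G.map Complex.re).trace)
    have h5 := wl_exp_abs_le t (qfQ (G.map Complex.im) g - (G.map Complex.im).trace)
    have h6 : Real.exp (μ * ‖wlE G D j g‖) ≤ Real.exp (μ * (Real.sqrt (2 * D) * |g j|) +
        μ * (D * |qfQ (G.map Complex.re) g - (G.map Complex.re).trace|) +
        μ * (D * |qfQ (G.map Complex.im) g - (G.map Complex.im).trace|)) := by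
      apply Real.exp_le_exp.2
      linarith
    linarith
  have e3 : s ^ 2 / 2 = 9 * μ ^ 2 * D := by
    rw [hsd, mul_pow, Real.sq_sqrt (by positivity)]
    ring
  have e4 : (-s) ^ 2 / 2 = 9 * μ ^ 2 * D := by rw [neg_sq, e3]
  rw [e3] at bC1
  rw [e4] at bC2
  have hm : ∀ X : ℝ, X ≤ H → Real.exp (2 * t ^ 2 * X) ≤ Real.exp (18 * μ ^ 2 * D ^ 2 * H) := by
    intro X hX
    apply Real.exp_le_exp.2
    have : 2 * t ^ 2 * X ≤ 2 * t ^ 2 * H := mul_le_mul_of_nonneg_left hX (by positivity)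
    calc _ ≤ 2 * t ^ 2 * H := this
      _ = _ := by rw [ht]; ring
  have hm' : ∀ X : ℝ, X ≤ H → Real.exp (2 * (-t) ^ 2 * X) ≤ Real.exp (18 * μ ^ 2 * D ^ 2 * H) := by
    intro X hX
    rw [neg_sq]
    exact hm X hX
  refine (wl_lint_six hpt iC1 iC2 iA1 iA2 iB1 iB2 (fun _ => (Real.exp_pos _).le) (fun _ => (Real.exp_pos _).le)
    (fun _ => (Real.exp_pos _).le) (fun _ => (Real.exp_pos _).le) (fun _ => (Real.exp_pos _).le)
    (fun _ => (Real.exp_pos _).le) bC1.le bC2.le (bA1.trans (hm _ hHA)) (bA2.trans (hm' _ hHA))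
    (bB1.trans (hm _ hHB)) (bB2.trans (hm' _ hHB))).trans (le_of_eq ?_)
  congr 1
  ring

/-- P3, pointwise: `(V + V²/u)^p ≤ (288 p² √D)^p e^{μ V}`, `μ = 1/(12 √D)` -/
theorem wl_pow_le_exp {D u V : ℝ} (p : ℕ) (hp : 1 ≤ p) (hD : 0 < D) (hu : Real.sqrt D ≤ u) (hV : 0 ≤ V) :
    wlY u V ^ p ≤ (288 * (p : ℝ) ^ 2 * Real.sqrt D) ^ p * Real.exp (V / (12 * Real.sqrt D)) := by
  obtain ⟨r, hr⟩ : ∃ r : ℝ, r = Real.sqrt D := ⟨_, rfl⟩
  rw [← hr] at hu ⊢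
  have hr0 : 0 < r := by rw [hr]; exact Real.sqrt_pos.2 hD
  have hu0 : 0 < u := lt_of_lt_of_le hr0 hu
  have hp1 : (1 : ℝ) ≤ p := by exact_mod_cast hp
  have hp0 : (0 : ℝ) < p := by linarith
  obtain ⟨s, hs⟩ : ∃ s : ℝ, s = V / (12 * r * p) := ⟨_, rfl⟩
  have hs0 : 0 ≤ s := by rw [hs]; positivity
  have hVs : V = 12 * r * p * s := by rw [hs]; field_simp
  have h1 : wlY u V ≤ 288 * (p : ℝ) ^ 2 * r * Real.exp s := by
    have h2 : wlY u V ≤ V + V ^ 2 / r := by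
      unfold wlY
      gcongr
    have h3 : V + V ^ 2 / r = 12 * r * p * s + 144 * r * (p : ℝ) ^ 2 * s ^ 2 := by
      rw [hVs]; field_simp; ring
    have h4 := Real.quadratic_le_exp_of_nonneg hs0
    have h5 : 12 * r * p * s ≤ 144 * r * (p : ℝ) ^ 2 * s := by
      have : (p : ℝ) ≤ 12 * (p : ℝ) ^ 2 := by nlinarith
      have h6 : 0 ≤ 12 * r * s := by positivity
      nlinarith [mul_le_mul_of_nonneg_left this h6]
    have h7 : 144 * r * (p : ℝ) ^ 2 * (s + s ^ 2) ≤ 144 * r * (p : ℝ) ^ 2 * (2 * Real.exp s) := by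
      apply mul_le_mul_of_nonneg_left _ (by positivity)
      nlinarith
    nlinarith
  have h0 : 0 ≤ wlY u V := wl_Y_nonneg hu0 hV
  calc wlY u V ^ p ≤ (288 * (p : ℝ) ^ 2 * r * Real.exp s) ^ p := pow_le_pow_left₀ h0 h1 p
    _ = (288 * (p : ℝ) ^ 2 * r) ^ p * Real.exp s ^ p := mul_pow _ _ _
    _ = _ := by
        rw [← Real.exp_nat_mul]
        congr 2
        rw [hs]
        field_simp

theorem wl_exp_quarter : Real.exp (1 / 4) ≤ 2 := by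
  rw [← Real.le_log_iff_exp_le (by norm_num)]
  linarith [Real.log_two_gt_d9]

/-- P3 -/
theorem wl_moment {G : Matrix J J ℂ} (hG : Gᵀ = G) {D u C₀ : ℝ} (p : ℕ) (hp : 1 ≤ p) (hD : 0 < D) (hC : 1 ≤ C₀)
    (hu2 : Real.sqrt D ≤ u) (hu3 : 4 * D * C₀ ≤ u)
    (hα : ∀ v : J → ℝ, ‖qfC G v‖ ≤ 1 / u * (v ⬝ᵥ v)) (hH : ∑ k, ∑ l, ‖G k l‖ ^ 2 ≤ (2 * C₀ + 1) / u) (j : J) :
    ∫⁻ g, ENNReal.ofReal (wlY u (‖wlE G D j g‖ + D / u) ^ p) ∂qfG J ≤
      ENNReal.ofReal (4 * (288 * (p : ℝ) ^ 2 * Real.sqrt D) ^ p) := by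
  obtain ⟨r, hr⟩ : ∃ r : ℝ, r = Real.sqrt D := ⟨_, rfl⟩
  have hr0 : 0 < r := by rw [hr]; exact Real.sqrt_pos.2 hD
  have hrr : r * r = D := by rw [hr]; exact Real.mul_self_sqrt hD.le
  have hu0 : 0 < u := lt_of_lt_of_le (Real.sqrt_pos.2 hD) hu2
  obtain ⟨μ, hμ⟩ : ∃ μ : ℝ, μ = 1 / (12 * r) := ⟨_, rfl⟩
  have hμ0 : 0 ≤ μ := by rw [hμ]; positivity
  obtain ⟨c, hc⟩ : ∃ c : ℝ, c = (288 * (p : ℝ) ^ 2 * Real.sqrt D) ^ p := ⟨_, rfl⟩
  have hc0 : 0 ≤ c := by rw [hc]; positivity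
  have hDu : D / u ≤ r := by
    rw [div_le_iff₀ hu0, ← hrr]
    exact mul_le_mul_of_nonneg_left (hr ▸ hu2) hr0.le
  have hpt : ∀ g : J → ℝ, wlY u (‖wlE G D j g‖ + D / u) ^ p ≤ c * Real.exp (1 / 8) * Real.exp (μ * ‖wlE G D j g‖) := by
    intro g
    have h1 := wl_pow_le_exp (V := ‖wlE G D j g‖ + D / u) p hp hD hu2 (by positivity)
    rw [← hc, ← hr] at h1
    refine h1.trans ?_
    rw [mul_assoc, ← Real.exp_add]
    apply mul_le_mul_of_nonneg_left _ hc0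
    apply Real.exp_le_exp.2
    have e1 : (‖wlE G D j g‖ + D / u) / (12 * r) = μ * ‖wlE G D j g‖ + (D / u) / (12 * r) := by
      rw [hμ]; ring
    have e2 : (D / u) / (12 * r) ≤ 1 / 8 := by
      rw [div_le_iff₀ (by positivity)]
      nlinarith
    linarith
  have hb := wl_exp_bound hG (α := 1 / u) (H := (2 * C₀ + 1) / u) (D := D) (μ := μ) hD.le hμ0 hα hH (by
    have : 3 * μ * D * (1 / u) = (D / u) / (4 * r) := by rw [hμ]; field_simp; ring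
    rw [this, div_le_iff₀ (by positivity)]
    linarith) j
  have e3 : 9 * μ ^ 2 * D = 1 / 16 := by
    rw [hμ, ← hrr]; field_simp; norm_num
  have e4 : 18 * μ ^ 2 * D ^ 2 * ((2 * C₀ + 1) / u) ≤ 1 / 8 := by
    have e5 : 18 * μ ^ 2 * D ^ 2 * ((2 * C₀ + 1) / u) = D * (2 * C₀ + 1) / (8 * u) := by
      rw [hμ]
      have : D ^ 2 = r * r * D := by rw [hrr]; ring
      rw [this]
      field_simp
      norm_num
    rw [e5, div_le_iff₀ (by positivity)]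
    nlinarith
  calc ∫⁻ g, ENNReal.ofReal (wlY u (‖wlE G D j g‖ + D / u) ^ p) ∂qfG J
      ≤ ∫⁻ g, ENNReal.ofReal (c * Real.exp (1 / 8)) * ENNReal.ofReal (Real.exp (μ * ‖wlE G D j g‖)) ∂qfG J := by
        refine lintegral_mono fun g => ?_
        rw [← ENNReal.ofReal_mul (by positivity)]
        exact ENNReal.ofReal_le_ofReal (hpt g)
    _ = ENNReal.ofReal (c * Real.exp (1 / 8)) * ∫⁻ g, ENNReal.ofReal (Real.exp (μ * ‖wlE G D j g‖)) ∂qfG J :=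
        lintegral_const_mul' _ _ ENNReal.ofReal_ne_top
    _ ≤ ENNReal.ofReal (c * Real.exp (1 / 8)) * ENNReal.ofReal (2 / 3 * (Real.exp (9 * μ ^ 2 * D) +
          2 * Real.exp (18 * μ ^ 2 * D ^ 2 * ((2 * C₀ + 1) / u)))) := by gcongr
    _ = ENNReal.ofReal (c * Real.exp (1 / 8) * (2 / 3 * (Real.exp (9 * μ ^ 2 * D) +
          2 * Real.exp (18 * μ ^ 2 * D ^ 2 * ((2 * C₀ + 1) / u))))) := (ENNReal.ofReal_mul (by positivity)).symm
    _ ≤ ENNReal.ofReal (4 * c) := by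
        apply ENNReal.ofReal_le_ofReal
        have q1 : Real.exp (9 * μ ^ 2 * D) ≤ Real.exp (1 / 8) := Real.exp_le_exp.2 (by rw [e3]; norm_num)
        have q2 : Real.exp (18 * μ ^ 2 * D ^ 2 * ((2 * C₀ + 1) / u)) ≤ Real.exp (1 / 8) := Real.exp_le_exp.2 e4
        have q3 : Real.exp (1 / 8) * Real.exp (1 / 8) ≤ 2 := by
          rw [← Real.exp_add]
          norm_num
          exact wl_exp_quarter
        have q0 := Real.exp_pos (1 / 8 : ℝ)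
        have q4 : 2 / 3 * (Real.exp (9 * μ ^ 2 * D) + 2 * Real.exp (18 * μ ^ 2 * D ^ 2 * ((2 * C₀ + 1) / u)))
            ≤ 2 * Real.exp (1 / 8) := by linarith
        calc c * Real.exp (1 / 8) * (2 / 3 * (Real.exp (9 * μ ^ 2 * D) +
              2 * Real.exp (18 * μ ^ 2 * D ^ 2 * ((2 * C₀ + 1) / u))))
            ≤ c * Real.exp (1 / 8) * (2 * Real.exp (1 / 8)) := mul_le_mul_of_nonneg_left q4 (by positivity)
          _ = 2 * c * (Real.exp (1 / 8) * Real.exp (1 / 8)) := by ring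
          _ ≤ 2 * c * 2 := mul_le_mul_of_nonneg_left q3 (by positivity)
          _ = 4 * c := by ring
    _ = _ := by rw [hc]

/-! ## 5. one step (P4), the ladder (P5) -/

/-- P4, Jensen -/
theorem wl_jensen (w Y : J → ℝ) (hw : ∀ j, 0 ≤ w j) (hY : ∀ j, 0 ≤ Y j) (p : ℕ) (hp : 1 ≤ p) :
    (∑ j, w j * Y j) ^ p ≤ (∑ j, w j) ^ (p - 1) * ∑ j, w j * Y j ^ p := by
  obtain ⟨W, hW⟩ : ∃ W : ℝ, W = ∑ j, w j := ⟨_, rfl⟩
  rw [← hW]
  have hW0 : 0 ≤ W := by rw [hW]; exact Finset.sum_nonneg fun j _ => hw j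
  rcases hW0.eq_or_lt with h0 | h0
  · have hz : ∀ j, w j = 0 := by
      intro j
      have := (Finset.sum_eq_zero_iff_of_nonneg fun j _ => hw j).1 (hW.symm.trans h0.symm) j (Finset.mem_univ j)
      exact this
    simp only [hz, zero_mul, Finset.sum_const_zero, mul_zero]
    exact le_of_eq (zero_pow (by omega))
  · have h1 := Real.pow_arith_mean_le_arith_mean_pow Finset.univ (fun j => w j / W) Y
      (fun j _ => div_nonneg (hw j) hW0) (by rw [← Finset.sum_div, ← hW, div_self h0.ne']) (fun j _ => hY j) p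
    have e1 : ∑ j, w j / W * Y j = (∑ j, w j * Y j) / W := by
      rw [Finset.sum_div]
      exact Finset.sum_congr rfl fun j _ => by ring
    have e2 : ∑ j, w j / W * Y j ^ p = (∑ j, w j * Y j ^ p) / W := by
      rw [Finset.sum_div]
      exact Finset.sum_congr rfl fun j _ => by ring
    rw [e1, e2, div_pow, div_le_div_iff₀ (by positivity) h0] at h1
    have e3 : W ^ p = W ^ (p - 1) * W := by
      rw [← pow_succ]
      congr 1
      omega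
    rw [e3] at h1
    have h2 : (∑ j, w j * Y j) ^ p * W ≤ (W ^ (p - 1) * ∑ j, w j * Y j ^ p) * W := by
      calc _ ≤ _ := h1
        _ = _ := by ring
    exact le_of_mul_le_mul_right h2 h0

theorem wl_jensen' (w Y : J → ℝ) (hw : ∀ j, 0 ≤ w j) (hY : ∀ j, 0 ≤ Y j) (p : ℕ) (hp : 1 ≤ p) {δ : ℝ} (hδ : 0 < δ)
    (h : δ < 4 * ∑ j, w j * Y j) : δ ^ p ≤ ∑ j, 4 ^ p * (∑ j, w j) ^ (p - 1) * w j * Y j ^ p := by
  have h1 := wl_jensen w Y hw hY p hp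
  calc δ ^ p ≤ (4 * ∑ j, w j * Y j) ^ p := pow_le_pow_left₀ hδ.le h.le p
    _ = 4 ^ p * (∑ j, w j * Y j) ^ p := mul_pow _ _ _
    _ ≤ 4 ^ p * ((∑ j, w j) ^ (p - 1) * ∑ j, w j * Y j ^ p) := mul_le_mul_of_nonneg_left h1 (by positivity)
    _ = 4 ^ p * (∑ j, w j) ^ (p - 1) * ∑ j, w j * Y j ^ p := by ring
    _ = _ := by
        rw [Finset.mul_sum]
        exact Finset.sum_congr rfl fun j _ => by ring

/-- `1_{good_j} (V_j + V_j²/u)^p` as a function of the row and of the array -/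
noncomputable def wlF (x : J → ℝ) (D C₀ : ℝ) (p : ℕ) (z : ℂ) (j : J) (g : J → ℝ) (N : Matrix J J ℝ) : ℝ≥0∞ :=
  if ‖(wlGh x D j N z).trace‖ ≤ 2 * C₀ + 1 then ENNReal.ofReal (wlY z.im (wlV x D j z g N) ^ p) else 0

theorem wl_F_eqns_cite : True := by
  have := @wlF.eq_1
  trivial

theorem wl_meas_F (x : J → ℝ) (D C₀ : ℝ) (p : ℕ) (z : ℂ) (j : J) : Measurable (Function.uncurry (wlF x D C₀ p z j)) := by
  have h1 : Measurable fun q : (J → ℝ) × Matrix J J ℝ => ‖(wlGh x D j q.2 z).trace‖ := by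
    unfold Matrix.trace
    exact (Finset.measurable_fun_sum _ fun k _ => (wl_meas_gh x D j z k k).comp measurable_snd).norm
  have h2 : Measurable fun q : (J → ℝ) × Matrix J J ℝ => ENNReal.ofReal (wlY z.im (wlV x D j z q.1 q.2) ^ p) := by
    unfold wlY
    have := wl_meas_V x D j z
    exact (((this.add ((this.pow_const 2).div_const z.im))).pow_const p).ennreal_ofReal
  exact Measurable.ite (measurableSet_le h1 measurable_const) h2 measurable_const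

theorem wl_F_row (x : J → ℝ) {D C₀ : ℝ} (p : ℕ) (hp : 1 ≤ p) (hD : 0 < D) (hC : 1 ≤ C₀) {z : ℂ}
    (hu2 : Real.sqrt D ≤ z.im) (hu3 : 4 * D * C₀ ≤ z.im) (j : J) (N : Matrix J J ℝ) :
    ∫⁻ g, wlF x D C₀ p z j g N ∂qfG J ≤ ENNReal.ofReal (4 * (288 * (p : ℝ) ^ 2 * Real.sqrt D) ^ p) := by
  have hu0 : 0 < z.im := lt_of_lt_of_le (Real.sqrt_pos.2 hD) hu2
  by_cases hgood : ‖(wlGh x D j N z).trace‖ ≤ 2 * C₀ + 1
  · simp only [wlF, if_pos hgood, wlV]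
    exact wl_moment (wl_gh_symm x D j N z) p hp hD hC hu2 hu3 (wl_gh_qf_le x D j N hu0)
      ((wl_gh_hs x D j N hu0).trans (div_le_div_of_nonneg_right hgood hu0.le)) j
  · simp only [wlF, if_neg hgood, lintegral_zero]
    exact zero_le

theorem wl_F_int (x : J → ℝ) {D C₀ : ℝ} (p : ℕ) (hp : 1 ≤ p) (hD : 0 < D) (hC : 1 ≤ C₀) {z : ℂ}
    (hu2 : Real.sqrt D ≤ z.im) (hu3 : 4 * D * C₀ ≤ z.im) (j : J) :
    ∫⁻ N, wlF x D C₀ p z j (wlRow j N) (wlCut j N) ∂gArr J J ≤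
      ENNReal.ofReal (4 * (288 * (p : ℝ) ^ 2 * Real.sqrt D) ^ p) := by
  rw [wl_row_law j (wlF x D C₀ p z j) (wl_meas_F x D C₀ p z j)]
  calc ∫⁻ N, ∫⁻ g, wlF x D C₀ p z j g (wlCut j N) ∂qfG J ∂gArr J J
      ≤ ∫⁻ _N : Matrix J J ℝ, ENNReal.ofReal (4 * (288 * (p : ℝ) ^ 2 * Real.sqrt D) ^ p) ∂gArr J J :=
        lintegral_mono fun N => wl_F_row x p hp hD hC hu2 hu3 j _
    _ = _ := by rw [lintegral_const, measure_univ, mul_one]

/-- Markov for a weighted sum -/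
theorem wl_markov_sum {Ω : Type*} [MeasurableSpace Ω] (P : Measure Ω) (f : J → Ω → ℝ≥0∞) (hf : ∀ j, Measurable (f j))
    (a : J → ℝ) (ha : ∀ j, 0 ≤ a j) {K t : ℝ} (hK : 0 ≤ K) (ht : 0 < t) (hb : ∀ j, ∫⁻ ω, f j ω ∂P ≤ ENNReal.ofReal K) :
    P {ω | ENNReal.ofReal t ≤ ∑ j, ENNReal.ofReal (a j) * f j ω} ≤ ENNReal.ofReal ((∑ j, a j) * K / t) := by
  have hmeas : Measurable fun ω => ∑ j, ENNReal.ofReal (a j) * f j ω :=
    Finset.measurable_fun_sum _ fun j _ => (hf j).const_mul _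
  calc P {ω | ENNReal.ofReal t ≤ ∑ j, ENNReal.ofReal (a j) * f j ω}
      ≤ (∫⁻ ω, ∑ j, ENNReal.ofReal (a j) * f j ω ∂P) / ENNReal.ofReal t :=
        meas_ge_le_lintegral_div hmeas.aemeasurable (by simpa using ht) ENNReal.ofReal_ne_top
    _ ≤ ENNReal.ofReal ((∑ j, a j) * K) / ENNReal.ofReal t := by
        gcongr
        rw [lintegral_finsetSum _ fun j _ => (hf j).const_mul _]
        calc ∑ j, ∫⁻ ω, ENNReal.ofReal (a j) * f j ω ∂P
            = ∑ j, ENNReal.ofReal (a j) * ∫⁻ ω, f j ω ∂P :=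
              Finset.sum_congr rfl fun j _ => lintegral_const_mul' _ _ ENNReal.ofReal_ne_top
          _ ≤ ∑ j, ENNReal.ofReal (a j) * ENNReal.ofReal K := Finset.sum_le_sum fun j _ => by
              gcongr
              exact hb j
          _ = ENNReal.ofReal (∑ j, a j * K) := by
              rw [ENNReal.ofReal_sum_of_nonneg fun j _ => mul_nonneg (ha j) hK]
              exact Finset.sum_congr rfl fun j _ => (ENNReal.ofReal_mul (ha j)).symm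
          _ = _ := by rw [Finset.sum_mul]
    _ = _ := (ENNReal.ofReal_div_of_pos ht).symm

theorem wl_sum_sub (x : J → ℝ) {D C₀ δ : ℝ} (p : ℕ) (hp : 1 ≤ p) (hD : 0 < D) {z : ℂ} (hu0 : 0 < z.im)
    (hδ : 0 < δ) (w : J → ℝ) (hw : ∀ j, 0 ≤ w j) (N : Matrix J J ℝ)
    (hg : ∀ j, ‖(wlGh x D j N z).trace‖ ≤ 2 * C₀ + 1)
    (hN : δ < 4 * ∑ j, w j * wlY z.im (wlV x D j z (wlRow j N) (wlCut j N))) :
    ENNReal.ofReal (δ ^ p) ≤ ∑ j, ENNReal.ofReal (4 ^ p * (∑ j, w j) ^ (p - 1) * w j) *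
        wlF x D C₀ p z j (wlRow j N) (wlCut j N) := by
  have hW0 : 0 ≤ ∑ j, w j := Finset.sum_nonneg fun j _ => hw j
  have hY0 : ∀ j, 0 ≤ wlY z.im (wlV x D j z (wlRow j N) (wlCut j N)) := fun j =>
    wl_Y_nonneg hu0 (by unfold wlV; positivity)
  have e1 : ∀ j, wlF x D C₀ p z j (wlRow j N) (wlCut j N) =
      ENNReal.ofReal (wlY z.im (wlV x D j z (wlRow j N) (wlCut j N)) ^ p) := by
    intro j
    rw [wlF, wl_gh_cut, if_pos (hg j)]
  obtain ⟨Y, hY⟩ : ∃ Y : J → ℝ, Y = fun j => wlY z.im (wlV x D j z (wlRow j N) (wlCut j N)) := ⟨_, rfl⟩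
  have hYj : ∀ j, wlY z.im (wlV x D j z (wlRow j N) (wlCut j N)) = Y j := fun j => by rw [hY]
  simp only [e1, hYj] at hN hY0 ⊢
  have hc0 : ∀ j, 0 ≤ 4 ^ p * (∑ j, w j) ^ (p - 1) * w j := fun j => mul_nonneg (by positivity) (hw j)
  have e2 : ∑ j, ENNReal.ofReal (4 ^ p * (∑ j, w j) ^ (p - 1) * w j) * ENNReal.ofReal (Y j ^ p) =
      ENNReal.ofReal (∑ j, 4 ^ p * (∑ j, w j) ^ (p - 1) * w j * Y j ^ p) := by
    rw [ENNReal.ofReal_sum_of_nonneg fun j _ => mul_nonneg (hc0 j) (pow_nonneg (hY0 j) p)]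
    exact Finset.sum_congr rfl fun j _ => (ENNReal.ofReal_mul (hc0 j)).symm
  rw [e2]
  exact ENNReal.ofReal_le_ofReal (wl_jensen' w _ hw hY0 p hp hδ hN)

theorem wl_meas_F' (x : J → ℝ) (D C₀ : ℝ) (p : ℕ) (z : ℂ) (j : J) :
    Measurable fun N : Matrix J J ℝ => wlF x D C₀ p z j (wlRow j N) (wlCut j N) := by
  have h := (wl_meas_F x D C₀ p z j).comp ((wl_meas_row j).prodMk (wl_meas_cut j))
  simpa only [Function.comp_def, Function.uncurry_apply_pair] using h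

/-- P4, the probabilistic estimate: weighted sum of the Schur errors on the event where all the minors are good -/
theorem wl_sum_tail_z (x : J → ℝ) {D C₀ δ : ℝ} (p : ℕ) (hp : 1 ≤ p) (hD : 0 < D) (hC : 1 ≤ C₀) {z : ℂ}
    (hu2 : Real.sqrt D ≤ z.im) (hu3 : 4 * D * C₀ ≤ z.im) (hδ : 0 < δ) (w : J → ℝ) (hw : ∀ j, 0 ≤ w j) :
    gArr J J {N | (∀ j, ‖(wlGh x D j N z).trace‖ ≤ 2 * C₀ + 1) ∧
        δ < 4 * ∑ j, w j * wlY z.im (wlV x D j z (wlRow j N) (wlCut j N))} ≤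
      ENNReal.ofReal ((4 * (∑ j, w j) / δ) ^ p * (4 * (288 * (p : ℝ) ^ 2 * Real.sqrt D) ^ p)) := by
  have hu0 : 0 < z.im := lt_of_lt_of_le (Real.sqrt_pos.2 hD) hu2
  obtain ⟨K, hK⟩ : ∃ K : ℝ, K = 4 * (288 * (p : ℝ) ^ 2 * Real.sqrt D) ^ p := ⟨_, rfl⟩
  have hK0 : 0 ≤ K := by rw [hK]; positivity
  have hW0 : 0 ≤ ∑ j, w j := Finset.sum_nonneg fun j _ => hw j
  have hsub : {N | (∀ j, ‖(wlGh x D j N z).trace‖ ≤ 2 * C₀ + 1) ∧
        δ < 4 * ∑ j, w j * wlY z.im (wlV x D j z (wlRow j N) (wlCut j N))} ⊆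
      {N | ENNReal.ofReal (δ ^ p) ≤ ∑ j, ENNReal.ofReal (4 ^ p * (∑ j, w j) ^ (p - 1) * w j) *
        wlF x D C₀ p z j (wlRow j N) (wlCut j N)} :=
    fun N hN => wl_sum_sub x p hp hD hu0 hδ w hw N hN.1 hN.2
  have hint : ∀ j, ∫⁻ N, wlF x D C₀ p z j (wlRow j N) (wlCut j N) ∂gArr J J ≤ ENNReal.ofReal K := fun j => by
    rw [hK]; exact wl_F_int x p hp hD hC hu2 hu3 j
  have hm : ∀ j, Measurable fun N : Matrix J J ℝ => wlF x D C₀ p z j (wlRow j N) (wlCut j N) :=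
    wl_meas_F' x D C₀ p z
  have ha : ∀ j, 0 ≤ 4 ^ p * (∑ j, w j) ^ (p - 1) * w j := fun j => mul_nonneg (by positivity) (hw j)
  have hδp : 0 < δ ^ p := by positivity
  have hmk := wl_markov_sum (gArr J J) (fun j N => wlF x D C₀ p z j (wlRow j N) (wlCut j N)) hm
    (fun j => 4 ^ p * (∑ j, w j) ^ (p - 1) * w j) ha hK0 hδp hint
  refine (measure_mono hsub).trans (hmk.trans (le_of_eq ?_))
  congr 1
  have e3 : (∑ j, w j) ^ p = (∑ j, w j) ^ (p - 1) * ∑ j, w j := by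
    rw [← pow_succ]
    congr 1
    omega
  rw [← Finset.mul_sum, div_pow, mul_pow, e3, ← hK]
  ring

theorem wl_sum_tail (x : J → ℝ) {D u C₀ δ : ℝ} (e : ℝ) (p : ℕ) (hp : 1 ≤ p) (hD : 0 < D) (hC : 1 ≤ C₀)
    (hu2 : Real.sqrt D ≤ u) (hu3 : 4 * D * C₀ ≤ u) (hδ : 0 < δ) (w : J → ℝ) (hw : ∀ j, 0 ≤ w j) :
    gArr J J {N | (∀ j, ‖(wlGh x D j N ⟨e, u⟩).trace‖ ≤ 2 * C₀ + 1) ∧
        δ < 4 * ∑ j, w j * wlY u (wlV x D j ⟨e, u⟩ (wlRow j N) (wlCut j N))} ≤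
      ENNReal.ofReal ((4 * (∑ j, w j) / δ) ^ p * (4 * (288 * (p : ℝ) ^ 2 * Real.sqrt D) ^ p)) :=
  wl_sum_tail_z x p hp hD hC (z := ⟨e, u⟩) hu2 hu3 hδ w hw

/-- the deterministic content of one step -/
theorem wl_step_det {x : J → ℝ} {D e y C₁ u : ℝ} (hD : 0 < D) (hyu : y ≤ u) (hu1 : 1 ≤ u)
    (hu3 : 4 * D * (C₁ + 1) ≤ u) (hx : WlReg x e y C₁ (2 * D * (C₁ + 1))) (N : Matrix J J ℝ)
    (hN : ‖wlT x D N ⟨e, 2 * u⟩‖ ≤ C₁ + 1) :
    (∀ j, ‖(wlGh x D j N ⟨e, u⟩).trace‖ ≤ 2 * (C₁ + 1) + 1) ∧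
    ∀ δ : ℝ, δ ≤ 1 →
      4 * ∑ j, 1 / ‖(x j : ℂ) - (⟨e, u⟩ : ℂ)‖ ^ 2 * wlY u (wlV x D j ⟨e, u⟩ (wlRow j N) (wlCut j N)) ≤ δ →
      ‖wlT x D N ⟨e, u⟩‖ ≤ C₁ + 1 ∧ ‖wlT x D N ⟨e, u⟩ - wlS x ((⟨e, u⟩ : ℂ) + D * wlT x D N ⟨e, u⟩)‖ ≤ δ := by
  have hu0 : 0 < u := by linarith
  have hH := wl_toC_herm x D N
  have hT : ‖wlT x D N ⟨e, u⟩‖ ≤ 2 * (C₁ + 1) := by
    have := wl_half_height hH e hu0
    unfold wlT at hN ⊢
    linarith
  obtain ⟨T, hTd⟩ : ∃ T : ℂ, T = wlT x D N ⟨e, u⟩ := ⟨_, rfl⟩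
  rw [← hTd] at hT ⊢
  have hDT : D * ‖T‖ ≤ u / 2 := by
    have := mul_le_mul_of_nonneg_left hT hD.le
    linarith
  refine ⟨fun j => ?_, fun δ hδ hs => ?_⟩
  · have h1 := wl_trace_gh_le x D j N (z := ⟨e, u⟩) hu0
    rw [← hTd] at h1
    have h2 : (1 : ℝ) / u ≤ 1 := by rw [div_le_one hu0]; exact hu1
    have h3 := norm_sub_norm_le ((wlGh x D j N ⟨e, u⟩).trace) T
    rw [norm_sub_rev] at h3
    have h4 : ‖T - (wlGh x D j N ⟨e, u⟩).trace‖ ≤ 1 / u := h1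
    linarith
  · have h1 := wl_det x hD.le N (z := ⟨e, u⟩) hu0 (by rw [← hTd]; exact hDT)
    rw [← hTd] at h1
    have h2 : ‖T - wlS x ((⟨e, u⟩ : ℂ) + D * T)‖ ≤ δ := h1.trans hs
    refine ⟨?_, h2⟩
    have hTim : 0 ≤ T.im := by rw [hTd]; exact wl_trace_im_nonneg hH (z := ⟨e, u⟩) hu0
    have h3 : ‖wlS x ((⟨e, u⟩ : ℂ) + D * T)‖ ≤ C₁ := by
      apply hx
      · rw [Complex.add_im, Complex.im_ofReal_mul]
        have : 0 ≤ D * T.im := mul_nonneg hD.le hTim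
        show y ≤ u + D * T.im
        linarith
      · rw [Complex.add_re, Complex.re_ofReal_mul]
        show |e + D * T.re - e| ≤ _
        rw [add_sub_cancel_left, abs_mul, abs_of_pos hD]
        have h5 := mul_le_mul_of_nonneg_left ((Complex.abs_re_le_norm T).trans hT) hD.le
        linarith
    have h4 := norm_sub_norm_le T (wlS x ((⟨e, u⟩ : ℂ) + D * T))
    linarith

/-- **one step of the ladder** -/
theorem wl_step {x : J → ℝ} {D e y C₁ u : ℝ} (p : ℕ) (hp : 1 ≤ p) (hD : 0 < D) (hC : 0 ≤ C₁) (hyu : y ≤ u) (hu1 : 1 ≤ u)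
    (hu2 : Real.sqrt D ≤ u) (hu3 : 4 * D * (C₁ + 1) ≤ u) (hx : WlReg x e y C₁ (2 * D * (C₁ + 1))) :
    gArr J J {N | ‖wlT x D N ⟨e, 2 * u⟩‖ ≤ C₁ + 1 ∧ ¬ (‖wlT x D N ⟨e, u⟩‖ ≤ C₁ + 1 ∧
        ‖wlT x D N ⟨e, u⟩ - wlS x ((⟨e, u⟩ : ℂ) + D * wlT x D N ⟨e, u⟩)‖ ≤ u ^ (-(1 / 2 : ℝ)))} ≤
      ENNReal.ofReal (4 * (1152 * (p : ℝ) ^ 2 * C₁ * Real.sqrt D) ^ p * u ^ (-(p : ℝ) / 2)) := by
  have hu0 : 0 < u := by linarith
  obtain ⟨δ, hδ⟩ : ∃ δ : ℝ, δ = u ^ (-(1 / 2 : ℝ)) := ⟨_, rfl⟩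
  rw [← hδ]
  have hδ0 : 0 < δ := by rw [hδ]; exact Real.rpow_pos_of_pos hu0 _
  have hδ1 : δ ≤ 1 := by rw [hδ]; exact Real.rpow_le_one_of_one_le_of_nonpos hu1 (by norm_num)
  have hδp : δ ^ p = u ^ (-(p : ℝ) / 2) := by
    rw [hδ, ← Real.rpow_natCast, ← Real.rpow_mul hu0.le]
    congr 1
    ring
  have hδ2 : δ ^ 2 = 1 / u := by
    rw [hδ, ← Real.rpow_natCast, ← Real.rpow_mul hu0.le]
    norm_num
    exact Real.rpow_neg_one u
  have hsub : {N | ‖wlT x D N ⟨e, 2 * u⟩‖ ≤ C₁ + 1 ∧ ¬ (‖wlT x D N ⟨e, u⟩‖ ≤ C₁ + 1 ∧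
        ‖wlT x D N ⟨e, u⟩ - wlS x ((⟨e, u⟩ : ℂ) + D * wlT x D N ⟨e, u⟩)‖ ≤ δ)} ⊆
      {N | (∀ j, ‖(wlGh x D j N ⟨e, u⟩).trace‖ ≤ 2 * (C₁ + 1) + 1) ∧
        δ < 4 * ∑ j, 1 / ‖(x j : ℂ) - (⟨e, u⟩ : ℂ)‖ ^ 2 * wlY u (wlV x D j ⟨e, u⟩ (wlRow j N) (wlCut j N))} := by
    rintro N ⟨h1, h2⟩
    obtain ⟨g1, g2⟩ := wl_step_det hD hyu hu1 hu3 hx N h1
    refine ⟨g1, ?_⟩
    by_contra hcon
    exact h2 (g2 δ hδ1 (not_lt.1 hcon))
  refine (measure_mono hsub).trans ?_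
  refine (wl_sum_tail x e p hp hD (by linarith : (1 : ℝ) ≤ C₁ + 1) hu2 hu3 hδ0
    (fun j => 1 / ‖(x j : ℂ) - (⟨e, u⟩ : ℂ)‖ ^ 2) (fun j => by positivity)).trans ?_
  apply ENNReal.ofReal_le_ofReal
  have hW : ∑ j, 1 / ‖(x j : ℂ) - (⟨e, u⟩ : ℂ)‖ ^ 2 ≤ C₁ / u := by
    rw [wl_weights x (z := ⟨e, u⟩) hu0]
    refine div_le_div_of_nonneg_right ((Complex.im_le_norm _).trans (hx _ hyu ?_)) hu0.le
    show |e - e| ≤ _
    rw [sub_self, abs_zero]
    positivity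
  have hW0 : 0 ≤ ∑ j, 1 / ‖(x j : ℂ) - (⟨e, u⟩ : ℂ)‖ ^ 2 := Finset.sum_nonneg fun j _ => by positivity
  have h1 : 4 * (∑ j, 1 / ‖(x j : ℂ) - (⟨e, u⟩ : ℂ)‖ ^ 2) / δ ≤ 4 * C₁ * δ := by
    rw [div_le_iff₀ hδ0]
    calc 4 * (∑ j, 1 / ‖(x j : ℂ) - (⟨e, u⟩ : ℂ)‖ ^ 2) ≤ 4 * (C₁ / u) := by linarith
      _ = 4 * C₁ * δ ^ 2 := by rw [hδ2]; ring
      _ = _ := by ring
  calc (4 * (∑ j, 1 / ‖(x j : ℂ) - (⟨e, u⟩ : ℂ)‖ ^ 2) / δ) ^ p * (4 * (288 * (p : ℝ) ^ 2 * Real.sqrt D) ^ p)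
      ≤ (4 * C₁ * δ) ^ p * (4 * (288 * (p : ℝ) ^ 2 * Real.sqrt D) ^ p) := by
        apply mul_le_mul_of_nonneg_right _ (by positivity)
        exact pow_le_pow_left₀ (by positivity) h1 p
    _ = 4 * (1152 * (p : ℝ) ^ 2 * C₁ * Real.sqrt D) ^ p * δ ^ p := by
        have : (1152 * (p : ℝ) ^ 2 * C₁ * Real.sqrt D) = 4 * C₁ * (288 * (p : ℝ) ^ 2 * Real.sqrt D) := by ring
        rw [this, mul_pow (4 * C₁) δ, mul_pow (4 * C₁) (288 * (p : ℝ) ^ 2 * Real.sqrt D)]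
        ring
    _ = _ := by rw [hδp]

/-- downward induction on a ladder whose top is sure -/
theorem wl_ladder (A B : ℕ → Prop) (K : ℕ) (hK : ∀ k, K ≤ k → A k) (hstep : ∀ k, A (k + 1) → A k ∧ B k) :
    ∀ k, A k ∧ B k := by
  have hA : ∀ n k, K ≤ k + n → A k := by
    intro n
    induction n with
    | zero => exact fun k hk => hK k hk
    | succ n ih => exact fun k hk => (hstep k (ih (k + 1) (by omega))).1
  exact fun k => hstep k (hA K (k + 1) (by omega))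

theorem wl_two_rpow_le (p : ℕ) (hp : 1 ≤ p) : (2 : ℝ) ^ (-(p : ℝ) / 2) ≤ 3 / 4 := by
  have hp1 : (1 : ℝ) ≤ p := by exact_mod_cast hp
  have h3 : (2 : ℝ) ^ (-(p : ℝ) / 2) ≤ (2 : ℝ) ^ (-(1 / 2 : ℝ)) :=
    Real.rpow_le_rpow_of_exponent_le (by norm_num) (by linarith)
  have h4 : (2 : ℝ) ^ (-(1 / 2 : ℝ)) ≤ 3 / 4 := by
    rw [Real.rpow_neg (by norm_num), ← Real.sqrt_eq_rpow]
    have h5 : (4 : ℝ) / 3 ≤ Real.sqrt 2 := Real.le_sqrt' (by norm_num) |>.2 (by norm_num)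
    calc (Real.sqrt 2)⁻¹ ≤ (4 / 3 : ℝ)⁻¹ := inv_anti₀ (by norm_num) h5
      _ = 3 / 4 := by norm_num
  exact h3.trans h4

theorem wl_rung_rpow_le {y : ℝ} (hy : 0 < y) (p : ℕ) (hp : 1 ≤ p) (k : ℕ) :
    (2 ^ k * y) ^ (-(p : ℝ) / 2) ≤ y ^ (-(p : ℝ) / 2) * (3 / 4) ^ k := by
  rw [Real.mul_rpow (by positivity) hy.le, mul_comm]
  apply mul_le_mul_of_nonneg_left _ (Real.rpow_nonneg hy.le _)
  have e : ((2 : ℝ) ^ k) ^ (-(p : ℝ) / 2) = ((2 : ℝ) ^ (-(p : ℝ) / 2)) ^ k := by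
    rw [← Real.rpow_natCast, ← Real.rpow_natCast, ← Real.rpow_mul (by norm_num), ← Real.rpow_mul (by norm_num), mul_comm]
  rw [e]
  exact pow_le_pow_left₀ (Real.rpow_nonneg (by norm_num) _) (wl_two_rpow_le p hp) k

/-- **WEAK LAW** on the dyadic ladder of heights above `y`, at one energy -/
theorem wl_main {x : J → ℝ} {D e y C₁ : ℝ} (p : ℕ) (hp : 1 ≤ p) (hD : 0 < D) (hC : 0 ≤ C₁) (hy1 : 1 ≤ y)
    (hy2 : Real.sqrt D ≤ y) (hy3 : 4 * D * (C₁ + 1) ≤ y) (hx : WlReg x e y C₁ (2 * D * (C₁ + 1))) :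
    gArr J J {N | ∃ k : ℕ, ¬ (‖rTr (wlM x D N) ⟨e, 2 ^ k * y⟩‖ ≤ C₁ + 1 ∧
        ‖rTr (wlM x D N) ⟨e, 2 ^ k * y⟩ - wlS x ((⟨e, 2 ^ k * y⟩ : ℂ) + D * rTr (wlM x D N) ⟨e, 2 ^ k * y⟩)‖
          ≤ (2 ^ k * y) ^ (-(1 / 2 : ℝ)))} ≤
      ENNReal.ofReal (16 * (1152 * (p : ℝ) ^ 2 * C₁ * Real.sqrt D) ^ p * y ^ (-(p : ℝ) / 2)) := by
  simp only [← wl_T_eq]
  have hy0 : 0 < y := by linarith
  have huk : ∀ k : ℕ, y ≤ 2 ^ k * y := fun k => by
    have : (1 : ℝ) ≤ 2 ^ k := one_le_pow₀ (by norm_num)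
    nlinarith
  obtain ⟨c, hc⟩ : ∃ c : ℝ, c = 4 * (1152 * (p : ℝ) ^ 2 * C₁ * Real.sqrt D) ^ p := ⟨_, rfl⟩
  have hc0 : 0 ≤ c := by rw [hc]; positivity
  have hsub : {N | ∃ k : ℕ, ¬ (‖wlT x D N ⟨e, 2 ^ k * y⟩‖ ≤ C₁ + 1 ∧
        ‖wlT x D N ⟨e, 2 ^ k * y⟩ - wlS x ((⟨e, 2 ^ k * y⟩ : ℂ) + D * wlT x D N ⟨e, 2 ^ k * y⟩)‖
          ≤ (2 ^ k * y) ^ (-(1 / 2 : ℝ)))} ⊆
      ⋃ k : ℕ, {N | ‖wlT x D N ⟨e, 2 * (2 ^ k * y)⟩‖ ≤ C₁ + 1 ∧ ¬ (‖wlT x D N ⟨e, 2 ^ k * y⟩‖ ≤ C₁ + 1 ∧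
        ‖wlT x D N ⟨e, 2 ^ k * y⟩ - wlS x ((⟨e, 2 ^ k * y⟩ : ℂ) + D * wlT x D N ⟨e, 2 ^ k * y⟩)‖
          ≤ (2 ^ k * y) ^ (-(1 / 2 : ℝ)))} := by
    rintro N ⟨k, hk⟩
    by_contra hcon
    simp only [Set.mem_iUnion, Set.mem_ofPred_eq, not_exists] at hcon
    refine hk (wl_ladder (fun k => ‖wlT x D N ⟨e, 2 ^ k * y⟩‖ ≤ C₁ + 1)
      (fun k => ‖wlT x D N ⟨e, 2 ^ k * y⟩ - wlS x ((⟨e, 2 ^ k * y⟩ : ℂ) + D * wlT x D N ⟨e, 2 ^ k * y⟩)‖
          ≤ (2 ^ k * y) ^ (-(1 / 2 : ℝ))) (Fintype.card J) ?_ ?_ k)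
    · intro m hm
      have h1 := wl_trace_le (wl_toC_herm x D N) (z := ⟨e, 2 ^ m * y⟩) (by positivity)
      have h2 : (Fintype.card J : ℝ) ≤ 2 ^ m := by
        have h3 : Fintype.card J < 2 ^ Fintype.card J := Nat.lt_two_pow_self
        have h4 : 2 ^ Fintype.card J ≤ 2 ^ m := Nat.pow_le_pow_right (by norm_num) hm
        exact_mod_cast (h3.le.trans h4)
      have h5 : (Fintype.card J : ℝ) / (2 ^ m * y) ≤ 1 := by
        rw [div_le_one (by positivity)]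
        have : (2 : ℝ) ^ m ≤ 2 ^ m * y := by
          have : (0 : ℝ) < 2 ^ m := by positivity
          nlinarith
        linarith
      have h6 : ‖wlT x D N ⟨e, 2 ^ m * y⟩‖ ≤ (Fintype.card J : ℝ) / (2 ^ m * y) := h1
      show ‖wlT x D N ⟨e, 2 ^ m * y⟩‖ ≤ C₁ + 1
      linarith
    · intro m hm
      have e1 : (2 : ℝ) * (2 ^ m * y) = 2 ^ (m + 1) * y := by ring
      by_contra hne
      exact hcon m ⟨by rw [e1]; exact hm, hne⟩
  have hq : ∀ k : ℕ, gArr J J {N | ‖wlT x D N ⟨e, 2 * (2 ^ k * y)⟩‖ ≤ C₁ + 1 ∧ ¬ (‖wlT x D N ⟨e, 2 ^ k * y⟩‖ ≤ C₁ + 1 ∧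
        ‖wlT x D N ⟨e, 2 ^ k * y⟩ - wlS x ((⟨e, 2 ^ k * y⟩ : ℂ) + D * wlT x D N ⟨e, 2 ^ k * y⟩)‖
          ≤ (2 ^ k * y) ^ (-(1 / 2 : ℝ)))} ≤ ENNReal.ofReal (c * y ^ (-(p : ℝ) / 2) * (3 / 4) ^ k) := by
    intro k
    have hk := huk k
    refine (wl_step p hp hD hC hk (by linarith) (by linarith) (by linarith) hx).trans ?_
    apply ENNReal.ofReal_le_ofReal
    rw [← hc, mul_assoc]
    exact mul_le_mul_of_nonneg_left (wl_rung_rpow_le hy0 p hp k) hc0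
  have ha0 : 0 ≤ c * y ^ (-(p : ℝ) / 2) := mul_nonneg hc0 (Real.rpow_nonneg hy0.le _)
  have hsum : Summable fun k : ℕ => c * y ^ (-(p : ℝ) / 2) * (3 / 4 : ℝ) ^ k :=
    (summable_geometric_of_lt_one (by norm_num) (by norm_num)).mul_left _
  refine (measure_mono hsub).trans ((measure_iUnion_le _).trans ((ENNReal.tsum_le_tsum hq).trans ?_))
  rw [← ENNReal.ofReal_tsum_of_nonneg (fun k => mul_nonneg ha0 (by positivity)) hsum, tsum_mul_left,
    tsum_geometric_of_lt_one (by norm_num) (by norm_num)]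
  apply ENNReal.ofReal_le_ofReal
  rw [hc]
  norm_num
  apply le_of_eq
  ring

end Claimed.Agent.R287
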