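-- KEEP
import Claimed.Agent.R287.Defs

/-!
# Row 287, unit B2, block U4 (helper197): shift invariance + equal gap statistics determine the Laplace functional

Reference: note A9 of helper275, section 4 (no Palm theory).

IMPORTS (typed here, produced by U1 and U3):
* `U4Shift μ`   : the Laplace functionals of `μ` are invariant under translations of the test function;
* `U4GapEq μ₁ μ₂` : for every bounded uniformly continuous `F` of the relative positions of `2m+1` consecutive points, the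
                  label-window averages of `F` have asymptotically (along SOME sequence of windows) the same mean.
EXPORT: `u4_main : cLap μ₁ h = cLap μ₂ h`.
-/

set_option autoImplicit false
open MeasureTheory ProbabilityTheory Filter Topology

namespace Claimed.Agent.R287

/-! ## 0. Interface -/

/-- **(U1 export)** translation invariance of the Laplace functionals -/
def U4Shift (μ : Measure Conf) : Prop :=
  ∀ (s : ℝ) (h : ℝ → ℝ), Continuous h → HasCompactSupport h → (∀ t, 0 ≤ h t) →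
    cLap μ (fun t => h (t - s)) = cLap μ h

/-- relative positions of the `2m+1` points with labels `i-m, …, i+m`, seen from `x i` -/
def u4Rel (m : ℕ) (x : Conf) (i : ℤ) : Fin (2 * m + 1) → ℝ := fun a => x (i + ((a.val : ℤ) - m)) - x i

/-- average of `F(relative positions at i)` over the labels `|i| ≤ L` -/
noncomputable def u4Avg (m L : ℕ) (F : (Fin (2 * m + 1) → ℝ) → ℝ) (x : Conf) : ℝ :=
  (∑ i ∈ Finset.Icc (-(L : ℤ)) L, F (u4Rel m x i)) / (2 * (L : ℝ) + 1)

/-- **(U3 export)** equality of the gap statistics, in the weakest form which U4 can use -/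
def U4GapEq (μ₁ μ₂ : Measure Conf) : Prop :=
  ∀ (m : ℕ) (F : (Fin (2 * m + 1) → ℝ) → ℝ), UniformContinuous F → (∃ B : ℝ, ∀ g, |F g| ≤ B) →
    ∀ ε : ℝ, 0 < ε → ∃ᶠ L : ℕ in atTop, |(∫ x, u4Avg m L F x ∂μ₁) - ∫ x, u4Avg m L F x ∂μ₂| ≤ ε

/-! ## 1. The integrand seen from `t` -/

/-- the integrand of `cLap`, seen from `t` -/
noncomputable def u4W (h : ℝ → ℝ) (x : Conf) (t : ℝ) : ℝ := Real.exp (-∑' j : ℤ, h (x j - t))

theorem u4_W_pos (h : ℝ → ℝ) (x : Conf) (t : ℝ) : 0 < u4W h x t := Real.exp_pos _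

theorem u4_W_le_one {h : ℝ → ℝ} (hn : ∀ t, 0 ≤ h t) (x : Conf) (t : ℝ) : u4W h x t ≤ 1 := by
  unfold u4W
  rw [Real.exp_le_one_iff, neg_nonpos]
  exact tsum_nonneg fun j => hn _

theorem u4_W_abs_le {h : ℝ → ℝ} (hn : ∀ t, 0 ≤ h t) (x : Conf) (t : ℝ) : ‖u4W h x t‖ ≤ 1 := by
  rw [Real.norm_eq_abs, abs_of_pos (u4_W_pos h x t)]
  exact u4_W_le_one hn x t

theorem u4_W_meas {h : ℝ → ℝ} (hm : Measurable h) :
    Measurable fun p : Conf × ℝ => u4W h p.1 p.2 := by
  unfold u4W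
  refine Real.measurable_exp.comp (Measurable.neg ?_)
  refine Measurable.tsum fun j => hm.comp ?_
  exact ((measurable_pi_apply j).comp measurable_fst).sub measurable_snd

theorem u4_W_meas_t {h : ℝ → ℝ} (hm : Measurable h) (x : Conf) : Measurable (u4W h x) :=
  (u4_W_meas hm).comp (measurable_const.prodMk measurable_id)

theorem u4_W_meas_x {h : ℝ → ℝ} (hm : Measurable h) (t : ℝ) : Measurable fun x => u4W h x t :=
  (u4_W_meas hm).comp (measurable_id.prodMk measurable_const)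

theorem u4_W_ii {h : ℝ → ℝ} (hm : Measurable h) (hn : ∀ t, 0 ≤ h t) (x : Conf) (a b : ℝ) :
    IntervalIntegrable (u4W h x) volume a b := by
  rw [intervalIntegrable_iff]
  refine Measure.integrableOn_of_bounded (M := 1) ?_ (u4_W_meas_t hm x).aestronglyMeasurable ?_
  · simp
  · exact Eventually.of_forall fun t => u4_W_abs_le hn x t

theorem u4_cLap_shift (μ : Measure Conf) (h : ℝ → ℝ) (t : ℝ) :
    cLap μ (fun u => h (u - t)) = ∫ x, u4W h x t ∂μ := rfl

theorem u4_cLap_zero (μ : Measure Conf) (h : ℝ → ℝ) : cLap μ h = ∫ x, u4W h x 0 ∂μ := by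
  simp [cLap, u4W]

/-! ## 2. Good configurations -/

/-- what U4 uses of a configuration: monotone labels and asymptotic density `ρ` -/
structure U4Good (ρ : ℝ) (x : Conf) : Prop where
  mono : Monotone x
  lin : Tendsto (fun j : ℤ => x j / (j : ℝ)) cofinite (𝓝 (1 / ρ))

theorem u4_abs_int_tendsto : Tendsto (fun j : ℤ => |(j : ℝ)|) cofinite atTop := by
  rw [Int.cofinite_eq, tendsto_sup]
  exact ⟨tendsto_abs_atBot_atTop.comp (tendsto_intCast_atBot_iff.2 tendsto_id),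
    tendsto_abs_atTop_atTop.comp tendsto_intCast_atTop_atTop⟩

theorem u4_good_of_creg {ρ χ C₀ : ℝ} {J₀ : ℕ} {x : Conf} (hχ : 0 < χ) (h : CReg ρ χ C₀ J₀ x) :
    U4Good ρ x := by
  refine ⟨h.1, ?_⟩
  have h0 : Tendsto (fun j : ℤ => C₀ * |(j : ℝ)| ^ (-χ)) cofinite (𝓝 0) := by
    have := ((tendsto_rpow_neg_atTop hχ).comp u4_abs_int_tendsto).const_mul C₀
    simpa using this
  rw [tendsto_iff_norm_sub_tendsto_zero]
  refine squeeze_zero' (Eventually.of_forall fun _ => norm_nonneg _) ?_ h0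
  have e1 : ∀ᶠ j : ℤ in cofinite, (max (J₀ : ℝ) 1) ≤ |(j : ℝ)| := u4_abs_int_tendsto.eventually_ge_atTop _
  filter_upwards [e1] with j hj
  have hj1 : (1 : ℝ) ≤ |(j : ℝ)| := le_trans (le_max_right _ _) hj
  have hjJ : (J₀ : ℤ) ≤ |j| := by
    have : (J₀ : ℝ) ≤ |(j : ℝ)| := le_trans (le_max_left _ _) hj
    exact_mod_cast this
  have hpos : 0 < |(j : ℝ)| := by linarith
  have hj0 : (j : ℝ) ≠ 0 := abs_pos.1 hpos
  have h2 := h.2 j hjJ
  have h3 : x j / (j : ℝ) - 1 / ρ = (x j - j / ρ) / (j : ℝ) := by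
    field_simp
  rw [h3, Real.norm_eq_abs, abs_div, div_le_iff₀ hpos]
  calc |x j - j / ρ| ≤ C₀ * |(j : ℝ)| ^ (1 - χ) := h2
    _ = C₀ * |(j : ℝ)| ^ (-χ) * |(j : ℝ)| := by
        rw [mul_assoc, ← Real.rpow_add_one hpos.ne']
        congr 2; ring

theorem u4_good_fin {ρ : ℝ} (hρ : 0 < ρ) {x : Conf} (hx : U4Good ρ x) (M : ℝ) : {j : ℤ | |x j| ≤ M}.Finite := by
  have e1 : ∀ᶠ j : ℤ in cofinite, 1 / (2 * ρ) < x j / (j : ℝ) := by
    refine hx.lin.eventually (lt_mem_nhds ?_)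
    rw [div_lt_div_iff₀ (by positivity) hρ]; linarith
  have e2 : ∀ᶠ j : ℤ in cofinite, max 1 (2 * ρ * (|M| + 1)) ≤ |(j : ℝ)| := u4_abs_int_tendsto.eventually_ge_atTop _
  have e3 : ∀ᶠ j : ℤ in cofinite, ¬ (|x j| ≤ M) := by
    filter_upwards [e1, e2] with j h1 h2
    have hj1 : (1 : ℝ) ≤ |(j : ℝ)| := le_trans (le_max_left _ _) h2
    have hj2 : 2 * ρ * (|M| + 1) ≤ |(j : ℝ)| := le_trans (le_max_right _ _) h2
    have hpos : 0 < |(j : ℝ)| := by linarith
    have h3 : 1 / (2 * ρ) < |x j| / |(j : ℝ)| := by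
      rw [← abs_div]; exact lt_of_lt_of_le h1 (le_abs_self _)
    rw [div_lt_div_iff₀ (by positivity) hpos] at h3
    have h4 : M ≤ |M| := le_abs_self M
    intro h5
    nlinarith
  rw [Filter.eventually_cofinite] at e3
  simpa using e3

theorem u4_good_top {ρ : ℝ} {x : Conf} (hx : U4Good ρ x) :
    Tendsto (fun L : ℕ => x ((L : ℤ) + 1) / (L : ℝ)) atTop (𝓝 (1 / ρ)) := by
  have h1 : Tendsto (fun L : ℕ => ((L : ℤ) + 1)) atTop (cofinite : Filter ℤ) := by
    rw [Int.cofinite_eq]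
    refine Tendsto.mono_right ?_ le_sup_right
    exact tendsto_atTop_add_const_right _ _ tendsto_natCast_atTop_atTop
  have h2 := hx.lin.comp h1
  have h3 : Tendsto (fun L : ℕ => ((L : ℝ) + 1) / (L : ℝ)) atTop (𝓝 1) := by
    have : Tendsto (fun L : ℕ => 1 + 1 / (L : ℝ)) atTop (𝓝 (1 + 0)) :=
      tendsto_const_nhds.add tendsto_one_div_atTop_nhds_zero_nat
    rw [add_zero] at this
    refine this.congr' ?_
    filter_upwards [eventually_gt_atTop 0] with L hL
    have : (L : ℝ) ≠ 0 := by positivity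
    field_simp
  have h4 := h2.mul h3
  rw [mul_one] at h4
  refine h4.congr' ?_
  filter_upwards [eventually_gt_atTop 0] with L hL
  have h5 : (L : ℝ) ≠ 0 := by positivity
  have h6 : (L : ℝ) + 1 ≠ 0 := by positivity
  simp only [Function.comp, Int.cast_add, Int.cast_natCast, Int.cast_one]
  field_simp

theorem u4_good_bot {ρ : ℝ} {x : Conf} (hx : U4Good ρ x) :
    Tendsto (fun L : ℕ => x (-(L : ℤ)) / (L : ℝ)) atTop (𝓝 (-(1 / ρ))) := by
  have h1 : Tendsto (fun L : ℕ => (-(L : ℤ))) atTop (cofinite : Filter ℤ) := by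
    rw [Int.cofinite_eq]
    refine Tendsto.mono_right ?_ le_sup_left
    exact tendsto_neg_atTop_atBot.comp tendsto_natCast_atTop_atTop
  have h2 := (hx.lin.comp h1).neg
  refine h2.congr fun L => ?_
  simp only [Function.comp, Int.cast_neg, Int.cast_natCast]
  rw [div_neg, neg_neg]


/-! ## 3. Sums over a good configuration -/

theorem u4_supp_radius {h : ℝ → ℝ} (hs : HasCompactSupport h) : ∃ T : ℝ, 0 < T ∧ ∀ u, T < |u| → h u = 0 := by
  obtain ⟨T, hT, hb⟩ := hs.isCompact.isBounded.exists_pos_norm_le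
  refine ⟨T, hT, fun u hu => image_eq_zero_of_notMem_tsupport fun hmem => ?_⟩
  have := hb u hmem
  rw [Real.norm_eq_abs] at this
  linarith

theorem u4_summable {ρ : ℝ} (hρ : 0 < ρ) {x : Conf} (hx : U4Good ρ x) {H : ℝ → ℝ} {T : ℝ}
    (hT : ∀ u, T < |u| → H u = 0) (t : ℝ) : Summable fun j : ℤ => H (x j - t) := by
  refine summable_of_hasFiniteSupport ((u4_good_fin hρ hx (T + |t|)).subset fun j hj => ?_)
  rw [Function.mem_support] at hj
  by_contra hcon
  simp only [Set.mem_ofPred_eq, not_le] at hcon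
  apply hj
  apply hT
  have h1 : |x j| ≤ |x j - t| + |t| := by
    have := abs_add_le (x j - t) t
    simpa using this
  linarith

/-! ## 4. Tent functions -/

/-- tent of height and half-width `a` -/
def u4Tent (a u : ℝ) : ℝ := max 0 (a - |u|)

theorem u4_tent_nonneg (a u : ℝ) : 0 ≤ u4Tent a u := le_max_left _ _

theorem u4_tent_cont (a : ℝ) : Continuous (u4Tent a) :=
  continuous_const.max (continuous_const.sub continuous_abs)

theorem u4_tent_zero {a u : ℝ} (h : a ≤ |u|) : u4Tent a u = 0 := max_eq_left (by linarith)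

theorem u4_tent_ge (a u : ℝ) : a - |u| ≤ u4Tent a u := le_max_right _ _

theorem u4_tent_cs (a : ℝ) : HasCompactSupport (u4Tent a) := by
  refine HasCompactSupport.intro (isCompact_Icc (a := -a) (b := a)) fun u hu => u4_tent_zero ?_
  by_contra hcon
  push Not at hcon
  exact hu ⟨(abs_lt.1 hcon).1.le, (abs_lt.1 hcon).2.le⟩

/-- the shifted tent, supported in `[-A, 0]` -/
noncomputable def u4TentL (A u : ℝ) : ℝ := u4Tent (A / 2) (u - (-(A / 2)))

theorem u4_tentL_nonneg (A u : ℝ) : 0 ≤ u4TentL A u := u4_tent_nonneg _ _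

theorem u4_tentL_cont (A : ℝ) : Continuous (u4TentL A) :=
  (u4_tent_cont _).comp (continuous_id.sub continuous_const)

theorem u4_tentL_cs (A : ℝ) : HasCompactSupport (u4TentL A) := by
  refine HasCompactSupport.intro (isCompact_Icc (a := -A) (b := 0)) fun u hu => u4_tent_zero ?_
  by_contra hcon
  push Not at hcon
  exact hu ⟨by linarith [(abs_lt.1 hcon).1], by linarith [(abs_lt.1 hcon).2]⟩

theorem u4_tentL_zero_left {A u : ℝ} (h : u ≤ -A) (hA : 0 ≤ A) : u4TentL A u = 0 := by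
  refine u4_tent_zero ?_
  rw [abs_of_nonpos (by linarith)]
  linarith

theorem u4_tentL_zero_right {A u : ℝ} (h : 0 ≤ u) (hA : 0 ≤ A) : u4TentL A u = 0 := by
  refine u4_tent_zero ?_
  rw [abs_of_nonneg (by linarith)]
  linarith

/-- scaled tent `c τ_{T+1}`, which is `≥ c` on `[-T, T]` -/
def u4TentC (c T u : ℝ) : ℝ := c * u4Tent (T + 1) u

theorem u4_tentC_nonneg {c : ℝ} (hc : 0 ≤ c) (T u : ℝ) : 0 ≤ u4TentC c T u := mul_nonneg hc (u4_tent_nonneg _ _)

theorem u4_tentC_cont (c T : ℝ) : Continuous (u4TentC c T) := continuous_const.mul (u4_tent_cont _)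

theorem u4_tentC_cs (c T : ℝ) : HasCompactSupport (u4TentC c T) := (u4_tent_cs (T + 1)).mul_left

theorem u4_tentC_zero {c T u : ℝ} (h : T + 1 < |u|) : u4TentC c T u = 0 := by
  unfold u4TentC; rw [u4_tent_zero h.le, mul_zero]

theorem u4_tentC_ge {c T u : ℝ} (hc : 0 ≤ c) (h : |u| ≤ T) : c ≤ u4TentC c T u := by
  have := u4_tent_ge (T + 1) u
  unfold u4TentC
  nlinarith

/-! ## 5. Pointwise comparison with the functional of `2M+1` labels -/

/-- the functional which only sees the labels `i-M, …, i+M` -/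
noncomputable def u4WM (h : ℝ → ℝ) (M : ℕ) (x : Conf) (i : ℤ) (t : ℝ) : ℝ :=
  Real.exp (-∑ a : Fin (2 * M + 1), h (x (i + ((a.val : ℤ) - M)) - t))

theorem u4_WM_pos (h : ℝ → ℝ) (M : ℕ) (x : Conf) (i : ℤ) (t : ℝ) : 0 < u4WM h M x i t := Real.exp_pos _

theorem u4_WM_le_one {h : ℝ → ℝ} (hn : ∀ t, 0 ≤ h t) (M : ℕ) (x : Conf) (i : ℤ) (t : ℝ) : u4WM h M x i t ≤ 1 := by
  unfold u4WM
  rw [Real.exp_le_one_iff, neg_nonpos]
  exact Finset.sum_nonneg fun j _ => hn _

theorem u4_WM_cont {h : ℝ → ℝ} (hc : Continuous h) (M : ℕ) (x : Conf) (i : ℤ) : Continuous (u4WM h M x i) := by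
  unfold u4WM
  refine Real.continuous_exp.comp (Continuous.neg ?_)
  exact continuous_finsetSum _ fun a _ => hc.comp (continuous_const.sub continuous_id)

theorem u4_lab_inj (M : ℕ) (i : ℤ) : Function.Injective fun a : Fin (2 * M + 1) => i + ((a.val : ℤ) - M) := by
  intro a b hab
  simp only at hab
  apply Fin.ext
  omega

theorem u4_W_le_WM {ρ : ℝ} (hρ : 0 < ρ) {x : Conf} (hx : U4Good ρ x) {h : ℝ → ℝ} {T : ℝ}
    (hT : ∀ u, T < |u| → h u = 0) (hn : ∀ t, 0 ≤ h t) (M : ℕ) (i : ℤ) (t : ℝ) :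
    u4W h x t ≤ u4WM h M x i t := by
  unfold u4W u4WM
  rw [Real.exp_le_exp, neg_le_neg_iff]
  have := tsum_comp_le_tsum_of_inj (u4_summable hρ hx hT t) (fun j => hn _) (u4_lab_inj M i)
  rwa [tsum_fintype] at this

/-- the constant `κ = 1/(1 - e^{-c(M+1)})` -/
noncomputable def u4Kap (c : ℝ) (M : ℕ) : ℝ := (1 - Real.exp (-(c * ((M : ℝ) + 1))))⁻¹

theorem u4_kap_pos {c : ℝ} (hc : 0 < c) (M : ℕ) : 0 < u4Kap c M := by
  unfold u4Kap
  rw [inv_pos, sub_pos, Real.exp_lt_one_iff, neg_lt_zero]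
  positivity

theorem u4_WM_sub_le {ρ : ℝ} (hρ : 0 < ρ) {x : Conf} (hx : U4Good ρ x) {h : ℝ → ℝ} {T : ℝ}
    (hT : ∀ u, T < |u| → h u = 0) (hn : ∀ t, 0 ≤ h t) (M : ℕ) (i : ℤ) {t : ℝ} (h1 : x i ≤ t) (h2 : t ≤ x (i + 1))
    {c : ℝ} (hc : 0 < c) :
    u4WM h M x i t - u4W h x t ≤ u4Kap c M * (1 - u4W (u4TentC c T) x t) := by
  have hκ := u4_kap_pos hc M
  have hQ : 0 ≤ 1 - u4W (u4TentC c T) x t := sub_nonneg.2 (u4_W_le_one (fun u => u4_tentC_nonneg hc.le T u) x t)
  by_cases hfar : ∀ j : ℤ, (M : ℤ) < |j - i| → h (x j - t) = 0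
  · have heq : u4WM h M x i t = u4W h x t := by
      unfold u4W u4WM
      congr 2
      have key := (u4_lab_inj M i).tsum_eq (f := fun j => h (x j - t)) fun j hj => by
        rw [Function.mem_support] at hj
        have hj' : |j - i| ≤ (M : ℤ) := by
          by_contra hcon
          exact hj (hfar j (not_le.1 hcon))
        rw [abs_le] at hj'
        refine ⟨⟨(j - i + M).toNat, by omega⟩, ?_⟩
        simp only
        omega
      rw [tsum_fintype] at key
      exact key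
    rw [heq, sub_self]
    positivity
  · push Not at hfar
    obtain ⟨j, hj, hne⟩ := hfar
    have hjT : |x j - t| ≤ T := by
      by_contra hcon
      exact hne (hT _ (not_le.1 hcon))
    rw [abs_le] at hjT
    -- a block of `M+1` labels inside `[t-T, t+T]`
    have hblock : ∃ s : Finset ℤ, s.card = M + 1 ∧ ∀ k ∈ s, |x k - t| ≤ T := by
      rcases lt_abs.1 hj with hj1 | hj1
      · refine ⟨Finset.Icc (i + 1) (i + 1 + M), ?_, fun k hk => ?_⟩
        · rw [Int.card_Icc]; omega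
        · rw [Finset.mem_Icc] at hk
          have a1 : x (i + 1) ≤ x k := hx.mono hk.1
          have a2 : x k ≤ x j := hx.mono (by omega)
          rw [abs_le]; constructor <;> linarith
      · refine ⟨Finset.Icc (i - M) i, ?_, fun k hk => ?_⟩
        · rw [Int.card_Icc]; omega
        · rw [Finset.mem_Icc] at hk
          have a1 : x k ≤ x i := hx.mono hk.2
          have a2 : x j ≤ x k := hx.mono (by omega)
          rw [abs_le]; constructor <;> linarith
    obtain ⟨s, hcard, hs⟩ := hblock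
    have hsum : c * ((M : ℝ) + 1) ≤ ∑' k : ℤ, u4TentC c T (x k - t) := by
      have b1 : ∑ k ∈ s, u4TentC c T (x k - t) ≤ ∑' k : ℤ, u4TentC c T (x k - t) :=
        (u4_summable hρ hx (H := u4TentC c T) (T := T + 1) (fun u hu => u4_tentC_zero hu) t).sum_le_tsum s
          (fun k _ => u4_tentC_nonneg hc.le T _)
      have b2 : ∑ k ∈ s, c ≤ ∑ k ∈ s, u4TentC c T (x k - t) :=
        Finset.sum_le_sum fun k hk => u4_tentC_ge hc.le (hs k hk)
      rw [Finset.sum_const, hcard, nsmul_eq_mul] at b2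
      push_cast at b2
      linarith
    have hW : u4W (u4TentC c T) x t ≤ Real.exp (-(c * ((M : ℝ) + 1))) := by
      unfold u4W
      rw [Real.exp_le_exp]
      linarith
    have h3 : 1 ≤ u4Kap c M * (1 - u4W (u4TentC c T) x t) := by
      have h4 : 0 < 1 - Real.exp (-(c * ((M : ℝ) + 1))) := by
        have := hκ; unfold u4Kap at this; exact inv_pos.1 this
      have h5 : u4Kap c M * (1 - Real.exp (-(c * ((M : ℝ) + 1)))) = 1 := by
        unfold u4Kap; exact inv_mul_cancel₀ h4.ne'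
      calc (1 : ℝ) = u4Kap c M * (1 - Real.exp (-(c * ((M : ℝ) + 1)))) := h5.symm
        _ ≤ _ := mul_le_mul_of_nonneg_left (by linarith) hκ.le
    have h6 := u4_WM_le_one hn M x i t
    have h7 := u4_W_pos h x t
    linarith

theorem u4_void {x : Conf} (hm : Monotone x) {A : ℝ} (hA : 0 ≤ A) (i : ℤ) {t : ℝ} (h1 : x i + A ≤ t) (h2 : t ≤ x (i + 1)) :
    u4W (u4TentL A) x t = 1 := by
  unfold u4W
  have : ∀ j : ℤ, u4TentL A (x j - t) = 0 := by
    intro j
    rcases le_or_gt j i with hj | hj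
    · have := hm hj
      exact u4_tentL_zero_left (by linarith) hA
    · have := hm (show i + 1 ≤ j by omega)
      exact u4_tentL_zero_right (by linarith) hA
  simp [this]


/-! ## 6. The gap statistic `F` -/

/-- index of the label `i+1` among `i-M, …, i+M` (for `M ≥ 1`) -/
def u4Nx (M : ℕ) : Fin (2 * M + 1) := ⟨min (M + 1) (2 * M), by omega⟩

/-- `F(g) = ∫_0^{min(gap, A)} exp(-∑_a h(g_a - s)) ds`: bounded, uniformly continuous -/
noncomputable def u4F (h : ℝ → ℝ) (M : ℕ) (A : ℝ) (g : Fin (2 * M + 1) → ℝ) : ℝ :=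
  ∫ s in (0 : ℝ)..max 0 (min (g (u4Nx M)) A), Real.exp (-∑ a, h (g a - s))

theorem u4_exp_lip {X Y : ℝ} (hX : 0 ≤ X) (hY : 0 ≤ Y) : |Real.exp (-X) - Real.exp (-Y)| ≤ |X - Y| := by
  wlog hXY : X ≤ Y generalizing X Y
  · have := this hY hX (le_of_not_ge hXY)
    rwa [abs_sub_comm, abs_sub_comm Y X] at this
  have h1 : Real.exp (-Y) = Real.exp (-X) * Real.exp (-(Y - X)) := by
    rw [← Real.exp_add]; congr 1; ring
  have h2 : -(Y - X) + 1 ≤ Real.exp (-(Y - X)) := Real.add_one_le_exp _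
  have h3 : Real.exp (-X) ≤ 1 := by rw [Real.exp_le_one_iff]; linarith
  have h4 : 0 < Real.exp (-X) := Real.exp_pos _
  have h5 : Real.exp (-(Y - X)) ≤ 1 := by rw [Real.exp_le_one_iff]; linarith
  rw [abs_of_nonneg (by rw [h1]; nlinarith), abs_of_nonpos (by linarith), h1]
  nlinarith

theorem u4_clamp_mem (u : ℝ) {A : ℝ} (hA : 0 ≤ A) : 0 ≤ max 0 (min u A) ∧ max 0 (min u A) ≤ A :=
  ⟨le_max_left _ _, max_le hA (min_le_right _ _)⟩

theorem u4_clamp_lip (u v A : ℝ) : |max 0 (min u A) - max 0 (min v A)| ≤ |u - v| := by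
  have h1 := abs_max_sub_max_le_max 0 (min u A) 0 (min v A)
  have h2 := abs_min_sub_min_le_max u A v A
  simp only [sub_self, abs_zero] at h1 h2
  exact h1.trans (max_le (abs_nonneg _) (h2.trans (max_le le_rfl (abs_nonneg _))))

theorem u4_F_integrand_cont {h : ℝ → ℝ} (hc : Continuous h) {M : ℕ} (g : Fin (2 * M + 1) → ℝ) :
    Continuous fun s : ℝ => Real.exp (-∑ a, h (g a - s)) :=
  Real.continuous_exp.comp (Continuous.neg (continuous_finsetSum _ fun _ _ => hc.comp (continuous_const.sub continuous_id)))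

theorem u4_F_bdd {h : ℝ → ℝ} (hn : ∀ t, 0 ≤ h t) (M : ℕ) {A : ℝ} (hA : 0 ≤ A) (g : Fin (2 * M + 1) → ℝ) :
    |u4F h M A g| ≤ A := by
  unfold u4F
  have h1 := intervalIntegral.norm_integral_le_of_norm_le_const (a := 0) (b := max 0 (min (g (u4Nx M)) A)) (C := 1)
    (f := fun s : ℝ => Real.exp (-∑ a, h (g a - s))) (fun s _ => by
      rw [Real.norm_eq_abs, abs_of_pos (Real.exp_pos _), Real.exp_le_one_iff, neg_nonpos]
      exact Finset.sum_nonneg fun a _ => hn _)
  rw [Real.norm_eq_abs, one_mul, sub_zero, abs_of_nonneg (u4_clamp_mem _ hA).1] at h1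
  exact h1.trans (u4_clamp_mem _ hA).2

theorem u4_F_uc {h : ℝ → ℝ} (hc : Continuous h) (hs : HasCompactSupport h) (hn : ∀ t, 0 ≤ h t) (M : ℕ) {A : ℝ}
    (hA : 0 ≤ A) : UniformContinuous (u4F h M A) := by
  have huc : UniformContinuous h := hs.uniformContinuous_of_continuous hc
  rw [Metric.uniformContinuous_iff] at huc ⊢
  intro ε hε
  set n : ℝ := 2 * (M : ℝ) + 1 with hn'
  have hnpos : 0 < n := by positivity
  set η : ℝ := ε / (2 * n * (A + 1)) with hη
  have hηpos : 0 < η := by positivity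
  obtain ⟨δ, hδ, hh⟩ := huc η hηpos
  refine ⟨min δ (ε / 2), lt_min hδ (by positivity), fun {g g'} hgg => ?_⟩
  have hcoord : ∀ a, |g a - g' a| < min δ (ε / 2) := fun a => by
    have := dist_le_pi_dist g g' a
    rw [Real.dist_eq] at this
    exact lt_of_le_of_lt this hgg
  set e : (Fin (2 * M + 1) → ℝ) → ℝ → ℝ := fun g s => Real.exp (-∑ a, h (g a - s)) with he
  have hpt : ∀ s, |e g s - e g' s| ≤ n * η := by
    intro s
    refine (u4_exp_lip (Finset.sum_nonneg fun a _ => hn _) (Finset.sum_nonneg fun a _ => hn _)).trans ?_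
    rw [← Finset.sum_sub_distrib]
    refine (Finset.abs_sum_le_sum_abs _ _).trans ?_
    have : ∀ a ∈ (Finset.univ : Finset (Fin (2 * M + 1))), |h (g a - s) - h (g' a - s)| ≤ η := by
      intro a _
      have h1 : dist (g a - s) (g' a - s) < δ := by
        rw [Real.dist_eq]
        have : g a - s - (g' a - s) = g a - g' a := by ring
        rw [this]
        exact lt_of_lt_of_le (hcoord a) (min_le_left _ _)
      have := hh h1
      rw [Real.dist_eq] at this
      exact this.le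
    refine (Finset.sum_le_sum this).trans ?_
    rw [Finset.sum_const, Finset.card_univ, Fintype.card_fin, nsmul_eq_mul]
    push_cast
    rw [hn']
  set c : ℝ := max 0 (min (g (u4Nx M)) A) with hcdef
  set c' : ℝ := max 0 (min (g' (u4Nx M)) A) with hcdef'
  have hi : ∀ (g : Fin (2 * M + 1) → ℝ) (a b : ℝ), IntervalIntegrable (e g) volume a b :=
    fun g a b => (u4_F_integrand_cont hc g).intervalIntegrable a b
  have hsplit : u4F h M A g - u4F h M A g' = (∫ s in (0 : ℝ)..c, (e g s - e g' s)) + ∫ s in c'..c, e g' s := by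
    unfold u4F
    rw [intervalIntegral.integral_sub (hi g _ _) (hi g' _ _),
      ← intervalIntegral.integral_add_adjacent_intervals (hi g' 0 c') (hi g' c' c)]
    ring
  have hb1 : |∫ s in (0 : ℝ)..c, (e g s - e g' s)| ≤ n * η * A := by
    have := intervalIntegral.norm_integral_le_of_norm_le_const (a := 0) (b := c) (C := n * η)
      (f := fun s => e g s - e g' s) (fun s _ => by rw [Real.norm_eq_abs]; exact hpt s)
    rw [Real.norm_eq_abs, sub_zero, abs_of_nonneg (u4_clamp_mem _ hA).1] at this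
    exact this.trans (mul_le_mul_of_nonneg_left (u4_clamp_mem _ hA).2 (by positivity))
  have hb2 : |∫ s in c'..c, e g' s| ≤ |g (u4Nx M) - g' (u4Nx M)| := by
    have := intervalIntegral.norm_integral_le_of_norm_le_const (a := c') (b := c) (C := 1)
      (f := fun s => e g' s) (fun s _ => by
        rw [Real.norm_eq_abs, abs_of_pos (Real.exp_pos _), Real.exp_le_one_iff, neg_nonpos]
        exact Finset.sum_nonneg fun _ _ => hn _)
    rw [Real.norm_eq_abs, one_mul] at this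
    exact this.trans (u4_clamp_lip _ _ _)
  rw [Real.dist_eq, hsplit]
  have hb3 : n * η * A < ε / 2 := by
    have : n * η * A = ε / 2 * (A / (A + 1)) := by
      rw [hη]; field_simp
    rw [this]
    have h1 : A / (A + 1) < 1 := by rw [div_lt_one (by linarith)]; linarith
    have h2 : 0 < ε / 2 := by positivity
    nlinarith
  have hb4 : |g (u4Nx M) - g' (u4Nx M)| < ε / 2 := lt_of_lt_of_le (hcoord _) (min_le_right _ _)
  calc _ ≤ |∫ s in (0 : ℝ)..c, (e g s - e g' s)| + |∫ s in c'..c, e g' s| := abs_add_le _ _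
    _ < ε := by linarith

theorem u4_rel_nx {M : ℕ} (hM : 1 ≤ M) (x : Conf) (i : ℤ) : u4Rel M x i (u4Nx M) = x (i + 1) - x i := by
  unfold u4Rel u4Nx
  simp only
  rw [min_eq_left (by omega)]
  congr 2
  push_cast
  ring

theorem u4_F_rel {h : ℝ → ℝ} {M : ℕ} (hM : 1 ≤ M) {A : ℝ} (hA : 0 ≤ A) {x : Conf} (hm : Monotone x) (i : ℤ) :
    u4F h M A (u4Rel M x i) = ∫ t in x i..x i + min (x (i + 1) - x i) A, u4WM h M x i t := by
  have hgap : 0 ≤ x (i + 1) - x i := sub_nonneg.2 (hm (by omega))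
  unfold u4F
  rw [u4_rel_nx hM, max_eq_right (le_min hgap hA)]
  have := intervalIntegral.integral_comp_add_left (a := 0) (b := min (x (i + 1) - x i) A) (u4WM h M x i) (x i)
  rw [add_zero] at this
  rw [← this]
  refine intervalIntegral.integral_congr fun s _ => ?_
  simp only [u4WM, u4Rel]
  congr 2
  refine Finset.sum_congr rfl fun a _ => ?_
  congr 1
  ring


/-! ## 7. Comparison on one gap and on a label window -/

/-- the error density: `1` on long voids to the left of `t`, `≥ 1` on crowded windows -/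
noncomputable def u4E (T A c : ℝ) (M : ℕ) (x : Conf) (t : ℝ) : ℝ :=
  u4W (u4TentL A) x t + u4Kap c M * (1 - u4W (u4TentC c T) x t)

theorem u4_Q_nonneg {c : ℝ} (hc : 0 < c) (T : ℝ) (x : Conf) (t : ℝ) : 0 ≤ 1 - u4W (u4TentC c T) x t :=
  sub_nonneg.2 (u4_W_le_one (fun u => u4_tentC_nonneg hc.le T u) x t)

theorem u4_E_nonneg {c : ℝ} (hc : 0 < c) (T A : ℝ) (M : ℕ) (x : Conf) (t : ℝ) : 0 ≤ u4E T A c M x t :=
  add_nonneg (u4_W_pos _ _ _).le (mul_nonneg (u4_kap_pos hc M).le (u4_Q_nonneg hc T x t))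

theorem u4_E_ii {c : ℝ} (hc : 0 < c) (T A : ℝ) (M : ℕ) (x : Conf) (a b : ℝ) :
    IntervalIntegrable (u4E T A c M x) volume a b := by
  unfold u4E
  refine (u4_W_ii (u4_tentL_cont A).measurable (u4_tentL_nonneg A) x a b).add ?_
  refine IntervalIntegrable.const_mul ?_ _
  exact (intervalIntegrable_const).sub (u4_W_ii (u4_tentC_cont c T).measurable (fun u => u4_tentC_nonneg hc.le T u) x a b)

theorem u4_gap_cmp {ρ : ℝ} (hρ : 0 < ρ) {x : Conf} (hx : U4Good ρ x) {h : ℝ → ℝ} (hc : Continuous h) {T : ℝ}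
    (hT : ∀ u, T < |u| → h u = 0) (hn : ∀ t, 0 ≤ h t) {M : ℕ} (hM : 1 ≤ M) {A : ℝ} (hA : 0 ≤ A)
    {c : ℝ} (hc0 : 0 < c) (i : ℤ) :
    |(∫ t in x i..x (i + 1), u4W h x t) - u4F h M A (u4Rel M x i)| ≤ ∫ t in x i..x (i + 1), u4E T A c M x t := by
  rw [u4_F_rel hM hA hx.mono i]
  have hpq : x i ≤ x (i + 1) := hx.mono (by omega)
  set p := x i with hp
  set q := x (i + 1) with hq
  set r := p + min (q - p) A with hr
  have hpr : p ≤ r := by
    have : 0 ≤ min (q - p) A := le_min (by linarith) hA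
    linarith
  have hrq : r ≤ q := by
    have : min (q - p) A ≤ q - p := min_le_left _ _
    linarith
  have iW : ∀ a b, IntervalIntegrable (u4W h x) volume a b := u4_W_ii hc.measurable hn x
  have iM : ∀ a b, IntervalIntegrable (u4WM h M x i) volume a b := fun a b => (u4_WM_cont hc M x i).intervalIntegrable a b
  have iE : ∀ a b, IntervalIntegrable (u4E T A c M x) volume a b := u4_E_ii hc0 T A M x
  have s1 := intervalIntegral.integral_add_adjacent_intervals (iW p r) (iW r q)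
  have s2 := intervalIntegral.integral_add_adjacent_intervals (iE p r) (iE r q)
  have b1l : (∫ t in p..r, u4W h x t) ≤ ∫ t in p..r, u4WM h M x i t :=
    intervalIntegral.integral_mono_on hpr (iW p r) (iM p r) fun t _ => u4_W_le_WM hρ hx hT hn M i t
  have b1u : (∫ t in p..r, u4WM h M x i t) ≤ (∫ t in p..r, u4W h x t) + ∫ t in p..r, u4E T A c M x t := by
    rw [← intervalIntegral.integral_add (iW p r) (iE p r)]
    refine intervalIntegral.integral_mono_on hpr (iM p r) ((iW p r).add (iE p r)) fun t ht => ?_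
    have := u4_WM_sub_le hρ hx hT hn M i (t := t) ht.1 (ht.2.trans hrq) hc0
    have h2 := u4_W_pos (u4TentL A) x t
    unfold u4E
    linarith
  have b2l : 0 ≤ ∫ t in r..q, u4W h x t :=
    intervalIntegral.integral_nonneg hrq fun t _ => (u4_W_pos h x t).le
  have b2u : (∫ t in r..q, u4W h x t) ≤ ∫ t in r..q, u4E T A c M x t := by
    by_cases hgap : q - p ≤ A
    · have : r = q := by rw [hr, min_eq_left hgap]; ring
      rw [this]; simp
    · have hrA : r = p + A := by rw [hr, min_eq_right (le_of_not_ge hgap)]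
      refine intervalIntegral.integral_mono_on hrq (iW r q) (iE r q) fun t ht => ?_
      have h1 : u4W (u4TentL A) x t = 1 := u4_void hx.mono hA i (by rw [← hp, ← hrA]; exact ht.1) ht.2
      have h2 := u4_W_le_one hn x t
      have h3 := mul_nonneg (u4_kap_pos hc0 M).le (u4_Q_nonneg hc0 T x t)
      unfold u4E
      linarith
  have b3 : 0 ≤ ∫ t in p..r, u4E T A c M x t :=
    intervalIntegral.integral_nonneg hpr fun t _ => u4_E_nonneg hc0 T A M x t
  have b4 : 0 ≤ ∫ t in r..q, u4E T A c M x t :=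
    intervalIntegral.integral_nonneg hrq fun t _ => u4_E_nonneg hc0 T A M x t
  rw [abs_le]
  constructor <;> linarith

theorem u4_sum_Icc (L : ℕ) (φ : ℤ → ℝ) :
    ∑ i ∈ Finset.Icc (-(L : ℤ)) L, φ i = ∑ k ∈ Finset.range (2 * L + 1), φ ((k : ℤ) - L) := by
  symm
  refine Finset.sum_bij (fun k _ => (k : ℤ) - L) ?_ ?_ ?_ ?_
  · intro k hk
    rw [Finset.mem_range] at hk
    rw [Finset.mem_Icc]
    constructor <;> omega
  · intro a _ b _ hab
    omega
  · intro j hj
    rw [Finset.mem_Icc] at hj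
    refine ⟨(j + L).toNat, ?_, ?_⟩
    · rw [Finset.mem_range]; omega
    · omega
  · intro k _
    rfl

theorem u4_adj {f : ℝ → ℝ} (hf : ∀ a b, IntervalIntegrable f volume a b) (x : Conf) (L : ℕ) :
    ∑ i ∈ Finset.Icc (-(L : ℤ)) L, ∫ t in x i..x (i + 1), f t = ∫ t in x (-(L : ℤ))..x ((L : ℤ) + 1), f t := by
  rw [u4_sum_Icc L fun i => ∫ t in x i..x (i + 1), f t]
  have := intervalIntegral.sum_integral_adjacent_intervals (f := f) (μ := volume) (a := fun k : ℕ => x ((k : ℤ) - L))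
    (n := 2 * L + 1) (fun k _ => hf _ _)
  have e1 : (((2 * L + 1 : ℕ) : ℤ) - L) = (L : ℤ) + 1 := by push_cast; ring
  have e0 : (((0 : ℕ) : ℤ) - L) = -(L : ℤ) := by simp
  rw [e1, e0] at this
  rw [← this]
  refine Finset.sum_congr rfl fun k _ => ?_
  have : (((k + 1 : ℕ) : ℤ) - L) = (k : ℤ) - L + 1 := by push_cast; ring
  rw [this]

theorem u4_window {ρ : ℝ} (hρ : 0 < ρ) {x : Conf} (hx : U4Good ρ x) {h : ℝ → ℝ} (hc : Continuous h) {T : ℝ}
    (hT : ∀ u, T < |u| → h u = 0) (hn : ∀ t, 0 ≤ h t) {M : ℕ} (hM : 1 ≤ M) {A : ℝ} (hA : 0 ≤ A)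
    {c : ℝ} (hc0 : 0 < c) (L : ℕ) {R : ℝ} (h1 : -R ≤ x (-(L : ℤ))) (h2 : x ((L : ℤ) + 1) ≤ R) :
    |(∫ t in -R..R, u4W h x t) - ∑ i ∈ Finset.Icc (-(L : ℤ)) L, u4F h M A (u4Rel M x i)|
      ≤ (∫ t in -R..R, u4E T A c M x t) + (2 * R - (x ((L : ℤ) + 1) - x (-(L : ℤ)))) := by
  set a := x (-(L : ℤ)) with ha
  set b := x ((L : ℤ) + 1) with hb
  have hab : a ≤ b := hx.mono (by omega)
  have iW : ∀ a b, IntervalIntegrable (u4W h x) volume a b := u4_W_ii hc.measurable hn x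
  have iE : ∀ a b, IntervalIntegrable (u4E T A c M x) volume a b := u4_E_ii hc0 T A M x
  have s1 := intervalIntegral.integral_add_adjacent_intervals (iW (-R) a) (iW a b)
  have s2 := intervalIntegral.integral_add_adjacent_intervals (iW (-R) b) (iW b R)
  have o1l : 0 ≤ ∫ t in -R..a, u4W h x t := intervalIntegral.integral_nonneg h1 fun t _ => (u4_W_pos h x t).le
  have o2l : 0 ≤ ∫ t in b..R, u4W h x t := intervalIntegral.integral_nonneg h2 fun t _ => (u4_W_pos h x t).le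
  have o1u : (∫ t in -R..a, u4W h x t) ≤ a - -R := by
    have := intervalIntegral.integral_mono_on h1 (iW (-R) a) intervalIntegrable_const (g := fun _ => (1 : ℝ))
      fun t _ => u4_W_le_one hn x t
    simpa using this
  have o2u : (∫ t in b..R, u4W h x t) ≤ R - b := by
    have := intervalIntegral.integral_mono_on h2 (iW b R) intervalIntegrable_const (g := fun _ => (1 : ℝ))
      fun t _ => u4_W_le_one hn x t
    simpa using this
  have m1 : |(∫ t in a..b, u4W h x t) - ∑ i ∈ Finset.Icc (-(L : ℤ)) L, u4F h M A (u4Rel M x i)|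
      ≤ ∫ t in a..b, u4E T A c M x t := by
    rw [← u4_adj iW x L, ← u4_adj iE x L, ← Finset.sum_sub_distrib]
    refine (Finset.abs_sum_le_sum_abs _ _).trans (Finset.sum_le_sum fun i _ => ?_)
    exact u4_gap_cmp hρ hx hc hT hn hM hA hc0 i
  have m2 : (∫ t in a..b, u4E T A c M x t) ≤ ∫ t in -R..R, u4E T A c M x t :=
    intervalIntegral.integral_mono_interval h1 hab h2 (Eventually.of_forall fun t => u4_E_nonneg hc0 T A M x t) (iE _ _)
  rw [abs_le] at m1 ⊢
  constructor <;> linarith [m1.1, m1.2]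

/-! ## 8. Averaging over translations (Fubini) -/

theorem u4_prod_intble (μ : Measure Conf) [IsProbabilityMeasure μ] {H : ℝ → ℝ} (hm : Measurable H) (hn : ∀ t, 0 ≤ H t) (R : ℝ) :
    Integrable (Function.uncurry fun (x : Conf) (t : ℝ) => u4W H x t) (μ.prod (volume.restrict (Set.Ioc (-R) R))) :=
  Integrable.of_bound (u4_W_meas hm).aestronglyMeasurable 1 (Eventually.of_forall fun p => u4_W_abs_le hn p.1 p.2)

theorem u4_I_intble (μ : Measure Conf) [IsProbabilityMeasure μ] {H : ℝ → ℝ} (hm : Measurable H) (hn : ∀ t, 0 ≤ H t)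
    {R : ℝ} (hR : 0 ≤ R) : Integrable (fun x => ∫ t in -R..R, u4W H x t) μ := by
  have := (u4_prod_intble μ hm hn R).integral_prod_left
  simp only [Function.uncurry] at this
  refine this.congr (Eventually.of_forall fun x => ?_)
  simp only
  rw [intervalIntegral.integral_of_le (by linarith)]

theorem u4_fubini (μ : Measure Conf) [IsProbabilityMeasure μ] (hT : U4Shift μ) {H : ℝ → ℝ} (hc : Continuous H)
    (hs : HasCompactSupport H) (hn : ∀ t, 0 ≤ H t) {R : ℝ} (hR : 0 ≤ R) :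
    ∫ x, (∫ t in -R..R, u4W H x t) ∂μ = 2 * R * cLap μ H := by
  have h1 : ∀ x : Conf, (∫ t in -R..R, u4W H x t) = ∫ t in Set.Ioc (-R) R, u4W H x t := fun x =>
    intervalIntegral.integral_of_le (by linarith)
  simp only [h1]
  rw [integral_integral_swap (u4_prod_intble μ hc.measurable hn R)]
  have h2 : ∀ t : ℝ, ∫ x, u4W H x t ∂μ = cLap μ H := fun t => by
    rw [← u4_cLap_shift]; exact hT t H hc hs hn
  simp only [h2]
  rw [integral_const]
  simp only [measureReal_restrict_apply_univ, Real.volume_real_Ioc, smul_eq_mul]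
  rw [max_eq_left (by linarith)]
  ring

theorem u4_E_int {c : ℝ} (hc : 0 < c) (T A : ℝ) (M : ℕ) (x : Conf) (R : ℝ) :
    ∫ t in -R..R, u4E T A c M x t
      = (∫ t in -R..R, u4W (u4TentL A) x t) + u4Kap c M * (2 * R - ∫ t in -R..R, u4W (u4TentC c T) x t) := by
  have i1 := u4_W_ii (u4_tentL_cont A).measurable (u4_tentL_nonneg A) x (-R) R
  have i2 := u4_W_ii (u4_tentC_cont c T).measurable (fun u => u4_tentC_nonneg hc.le T u) x (-R) R
  unfold u4E
  rw [intervalIntegral.integral_add i1 ((intervalIntegrable_const.sub i2).const_mul _),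
    intervalIntegral.integral_const_mul, intervalIntegral.integral_sub intervalIntegrable_const i2]
  simp only [intervalIntegral.integral_const, smul_eq_mul, mul_one]
  ring

theorem u4_E_intble (μ : Measure Conf) [IsProbabilityMeasure μ] {c : ℝ} (hc : 0 < c) (T A : ℝ) (M : ℕ) {R : ℝ} (hR : 0 ≤ R) :
    Integrable (fun x => ∫ t in -R..R, u4E T A c M x t) μ := by
  simp only [u4_E_int hc]
  refine (u4_I_intble μ (u4_tentL_cont A).measurable (u4_tentL_nonneg A) hR).add ?_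
  refine Integrable.const_mul ?_ _
  exact (integrable_const _).sub (u4_I_intble μ (u4_tentC_cont c T).measurable (fun u => u4_tentC_nonneg hc.le T u) hR)

theorem u4_E_mean (μ : Measure Conf) [IsProbabilityMeasure μ] (hT : U4Shift μ) {c : ℝ} (hc : 0 < c) (T A : ℝ) (M : ℕ)
    {R : ℝ} (hR : 0 ≤ R) :
    ∫ x, (∫ t in -R..R, u4E T A c M x t) ∂μ
      = 2 * R * (cLap μ (u4TentL A) + u4Kap c M * (1 - cLap μ (u4TentC c T))) := by
  simp only [u4_E_int hc]
  have i1 := u4_I_intble μ (u4_tentL_cont A).measurable (u4_tentL_nonneg A) hR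
  have i2 := u4_I_intble μ (u4_tentC_cont c T).measurable (fun u => u4_tentC_nonneg hc.le T u) hR
  have i3 : Integrable (fun x : Conf => 2 * R - ∫ t in -R..R, u4W (u4TentC c T) x t) μ := (integrable_const _).sub i2
  rw [integral_add i1 (i3.const_mul _), integral_const_mul, integral_sub (integrable_const _) i2,
    u4_fubini μ hT (u4_tentL_cont A) (u4_tentL_cs A) (u4_tentL_nonneg A) hR,
    u4_fubini μ hT (u4_tentC_cont c T) (u4_tentC_cs c T) (fun u => u4_tentC_nonneg hc.le T u) hR]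
  simp only [integral_const, probReal_univ, smul_eq_mul, one_mul]
  ring

/-! ## 9. The two error terms are small -/

theorem u4_e1 {ρ : ℝ} (hρ : 0 < ρ) (μ : Measure Conf) [IsProbabilityMeasure μ] (hg : ∀ᵐ x ∂μ, U4Good ρ x) (hT : U4Shift μ) :
    Tendsto (fun n : ℕ => cLap μ (u4TentL n)) atTop (𝓝 0) := by
  have h1 : ∀ n : ℕ, cLap μ (u4TentL n) = ∫ x, u4W (u4Tent ((n : ℝ) / 2)) x 0 ∂μ := fun n => by
    rw [← u4_cLap_zero]
    exact hT (-((n : ℝ) / 2)) (u4Tent ((n : ℝ) / 2)) (u4_tent_cont _) (u4_tent_cs _) (u4_tent_nonneg _)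
  simp only [h1]
  have := tendsto_integral_of_dominated_convergence (μ := μ) (F := fun (n : ℕ) x => u4W (u4Tent ((n : ℝ) / 2)) x 0)
    (f := fun _ => (0 : ℝ)) (fun _ => (1 : ℝ))
    (fun n => (u4_W_meas_x (u4_tent_cont _).measurable 0).aestronglyMeasurable) (integrable_const _)
    (fun n => Eventually.of_forall fun x => u4_W_abs_le (u4_tent_nonneg _) x 0) ?_
  · simpa using this
  filter_upwards [hg] with x hx
  have hlim : Tendsto (fun n : ℕ => Real.exp (-((n : ℝ) / 2 - |x 0|))) atTop (𝓝 0) := by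
    refine Real.tendsto_exp_neg_atTop_nhds_zero.comp ?_
    refine tendsto_atTop_add_const_right _ _ ?_
    exact tendsto_natCast_atTop_atTop.atTop_div_const (by norm_num)
  refine squeeze_zero (fun n => (u4_W_pos _ _ _).le) (fun n => ?_) hlim
  unfold u4W
  rw [Real.exp_le_exp, neg_le_neg_iff]
  have s := u4_summable hρ hx (H := u4Tent ((n : ℝ) / 2)) (T := (n : ℝ) / 2) (fun u hu => u4_tent_zero hu.le) 0
  have := s.le_tsum 0 fun j _ => u4_tent_nonneg _ _
  have h2 := u4_tent_ge ((n : ℝ) / 2) (x 0 - 0)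
  simp only [sub_zero] at this h2 ⊢
  linarith

theorem u4_e2 (μ : Measure Conf) [IsProbabilityMeasure μ] (T : ℝ) :
    Tendsto (fun n : ℕ => 1 - cLap μ (u4TentC (1 / ((n : ℝ) + 1)) T)) atTop (𝓝 0) := by
  have key : Tendsto (fun n : ℕ => cLap μ (u4TentC (1 / ((n : ℝ) + 1)) T)) atTop (𝓝 1) := by
    simp only [u4_cLap_zero]
    have := tendsto_integral_of_dominated_convergence (μ := μ)
      (F := fun (n : ℕ) x => u4W (u4TentC (1 / ((n : ℝ) + 1)) T) x 0)
      (f := fun _ => (1 : ℝ)) (fun _ => (1 : ℝ))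
      (fun n => (u4_W_meas_x (u4_tentC_cont _ _).measurable 0).aestronglyMeasurable) (integrable_const _)
      (fun n => Eventually.of_forall fun x => u4_W_abs_le (fun u => u4_tentC_nonneg (by positivity) T u) x 0) ?_
    · simpa using this
    refine Eventually.of_forall fun x => ?_
    unfold u4W u4TentC
    simp only [tsum_mul_left]
    have h0 : Tendsto (fun n : ℕ => -(1 / ((n : ℝ) + 1) * ∑' j : ℤ, u4Tent (T + 1) (x j - 0))) atTop (𝓝 (-(0 * ∑' j : ℤ, u4Tent (T + 1) (x j - 0)))) :=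
      (tendsto_one_div_add_atTop_nhds_zero_nat.mul_const _).neg
    have := (Real.continuous_exp.tendsto _).comp h0
    simpa [Function.comp_def] using this
  have := (tendsto_const_nhds (x := (1 : ℝ))).sub key
  simpa using this

/-! ## 10. Label window against position window -/

/-- the label window `[-L, L+1]` sits inside the position window `[-R, R]` -/
def u4Om (R : ℝ) (L : ℕ) (x : Conf) : Prop :=
  -R ≤ x (-(L : ℤ)) ∧ x ((L : ℤ) + 1) ≤ R ∧ x (-(L : ℤ)) ≤ x ((L : ℤ) + 1)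

open Classical in
/-- the mismatch of the two windows (`B` = trivial bound, used off `u4Om`) -/
noncomputable def u4Y (R B : ℝ) (L : ℕ) (x : Conf) : ℝ :=
  if u4Om R L x then 2 * R - (x ((L : ℤ) + 1) - x (-(L : ℤ))) else B

theorem u4_Y_meas (R B : ℝ) (L : ℕ) : Measurable (u4Y R B L) := by
  unfold u4Y
  refine Measurable.ite ?_ ?_ measurable_const
  · unfold u4Om
    refine MeasurableSet.inter ?_ (MeasurableSet.inter ?_ ?_)
    · exact measurableSet_le measurable_const (measurable_pi_apply _)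
    · exact measurableSet_le (measurable_pi_apply _) measurable_const
    · exact measurableSet_le (measurable_pi_apply _) (measurable_pi_apply _)
  · exact measurable_const.sub ((measurable_pi_apply _).sub (measurable_pi_apply _))

theorem u4_Y_mem {R B : ℝ} (hB : 2 * R ≤ B) (hR : 0 ≤ R) (L : ℕ) (x : Conf) : 0 ≤ u4Y R B L x ∧ u4Y R B L x ≤ B := by
  unfold u4Y
  split_ifs with h
  · obtain ⟨h1, h2, h3⟩ := h
    constructor <;> linarith
  · constructor <;> linarith

theorem u4_card_Icc (L : ℕ) : ((Finset.Icc (-(L : ℤ)) L).card : ℝ) = 2 * (L : ℝ) + 1 := by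
  rw [Int.card_Icc]
  have : ((L : ℤ) + 1 - -(L : ℤ)).toNat = 2 * L + 1 := by omega
  rw [this]; push_cast; ring

theorem u4_S_abs_le {h : ℝ → ℝ} (hn : ∀ t, 0 ≤ h t) (M : ℕ) {A : ℝ} (hA : 0 ≤ A) (L : ℕ) (x : Conf) :
    |∑ i ∈ Finset.Icc (-(L : ℤ)) L, u4F h M A (u4Rel M x i)| ≤ (2 * (L : ℝ) + 1) * A := by
  refine (Finset.abs_sum_le_sum_abs _ _).trans ?_
  refine (Finset.sum_le_sum fun i _ => u4_F_bdd hn M hA _).trans ?_
  rw [Finset.sum_const, nsmul_eq_mul, u4_card_Icc]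

theorem u4_all {ρ : ℝ} (hρ : 0 < ρ) {x : Conf} (hx : U4Good ρ x) {h : ℝ → ℝ} (hc : Continuous h) {T : ℝ}
    (hT : ∀ u, T < |u| → h u = 0) (hn : ∀ t, 0 ≤ h t) {M : ℕ} (hM : 1 ≤ M) {A : ℝ} (hA : 0 ≤ A)
    {c : ℝ} (hc0 : 0 < c) (L : ℕ) {R : ℝ} (hR : 0 ≤ R) :
    |(∫ t in -R..R, u4W h x t) - ∑ i ∈ Finset.Icc (-(L : ℤ)) L, u4F h M A (u4Rel M x i)|
      ≤ (∫ t in -R..R, u4E T A c M x t) + u4Y R (2 * R + (2 * (L : ℝ) + 1) * A) L x := by
  unfold u4Y
  split_ifs with hO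
  · exact u4_window hρ hx hc hT hn hM hA hc0 L hO.1 hO.2.1
  · have h1 : |∫ t in -R..R, u4W h x t| ≤ 2 * R := by
      have := intervalIntegral.norm_integral_le_of_norm_le_const (a := -R) (b := R) (C := 1) (f := u4W h x)
        (fun t _ => u4_W_abs_le hn x t)
      rw [Real.norm_eq_abs, one_mul, abs_of_nonneg (show 0 ≤ R - -R by linarith)] at this
      linarith
    have h2 := u4_S_abs_le hn M hA L x
    have h3 : 0 ≤ ∫ t in -R..R, u4E T A c M x t :=
      intervalIntegral.integral_nonneg (by linarith) fun t _ => u4_E_nonneg hc0 T A M x t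
    have h4 := abs_sub (∫ t in -R..R, u4W h x t) (∑ i ∈ Finset.Icc (-(L : ℤ)) L, u4F h M A (u4Rel M x i))
    linarith

/-- the position half-window attached to the label half-window `L` -/
noncomputable def u4R (ρ δ : ℝ) (L : ℕ) : ℝ := (1 + δ) * (L : ℝ) / ρ

theorem u4_R_pos {ρ δ : ℝ} (hρ : 0 < ρ) (hδ : 0 < δ) {L : ℕ} (hL : 1 ≤ L) : 0 < u4R ρ δ L := by
  have : (0 : ℝ) < L := by exact_mod_cast hL
  unfold u4R; positivity

theorem u4_theta_le {ρ δ : ℝ} (hρ : 0 < ρ) (hδ : 0 < δ) {L : ℕ} (hL : 1 ≤ L) :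
    (2 * (L : ℝ) + 1) / (2 * u4R ρ δ L) ≤ 2 * ρ := by
  have hL' : (1 : ℝ) ≤ L := by exact_mod_cast hL
  have hR := u4_R_pos hρ hδ hL
  rw [div_le_iff₀ (by positivity)]
  have : 2 * ρ * (2 * u4R ρ δ L) = 4 * (1 + δ) * L := by
    unfold u4R; field_simp; norm_num
  rw [this]
  nlinarith

theorem u4_Y_lim {ρ δ : ℝ} (hρ : 0 < ρ) (hδ : 0 < δ) (μ : Measure Conf) [IsProbabilityMeasure μ]
    (hg : ∀ᵐ x ∂μ, U4Good ρ x) {A : ℝ} (hA : 0 ≤ A) :
    Tendsto (fun L : ℕ => ∫ x, u4Y (u4R ρ δ L) (2 * u4R ρ δ L + (2 * (L : ℝ) + 1) * A) L x / (2 * u4R ρ δ L) ∂μ)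
      atTop (𝓝 (δ / (1 + δ))) := by
  have := tendsto_integral_of_dominated_convergence (μ := μ)
    (F := fun (L : ℕ) x => u4Y (u4R ρ δ L) (2 * u4R ρ δ L + (2 * (L : ℝ) + 1) * A) L x / (2 * u4R ρ δ L))
    (f := fun _ => δ / (1 + δ)) (fun _ => 1 + 2 * ρ * A)
    (fun L => ((u4_Y_meas _ _ L).div_const _).aestronglyMeasurable) (integrable_const _) ?_ ?_
  · simpa using this
  · intro L
    refine Eventually.of_forall fun x => ?_
    rcases Nat.eq_zero_or_pos L with rfl | hL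
    · simp only [u4R, Nat.cast_zero, mul_zero, zero_div, div_zero, norm_zero]
      positivity
    · have hR := u4_R_pos hρ hδ hL
      have hm := u4_Y_mem (R := u4R ρ δ L) (B := 2 * u4R ρ δ L + (2 * (L : ℝ) + 1) * A)
        (by have : 0 ≤ (2 * (L : ℝ) + 1) * A := by positivity
            linarith) hR.le L x
      rw [Real.norm_eq_abs, abs_of_nonneg (div_nonneg hm.1 (by positivity)), div_le_iff₀ (by positivity)]
      have h1 := u4_theta_le hρ hδ hL
      rw [div_le_iff₀ (by positivity)] at h1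
      nlinarith [hm.2]
  · filter_upwards [hg] with x hx
    have t1 := u4_good_top hx
    have t2 := u4_good_bot hx
    have hlt : 1 / ρ < (1 + δ) / ρ := by
      rw [div_lt_div_iff_of_pos_right hρ]; linarith
    have e1 : ∀ᶠ L : ℕ in atTop, x ((L : ℤ) + 1) / (L : ℝ) < (1 + δ) / ρ := t1.eventually (gt_mem_nhds hlt)
    have e2 : ∀ᶠ L : ℕ in atTop, -((1 + δ) / ρ) < x (-(L : ℤ)) / (L : ℝ) := t2.eventually (lt_mem_nhds (by linarith))
    have t3 : Tendsto (fun L : ℕ => 1 - (x ((L : ℤ) + 1) / (L : ℝ) - x (-(L : ℤ)) / (L : ℝ)) * (ρ / (2 * (1 + δ)))) atTop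
        (𝓝 (1 - (1 / ρ - -(1 / ρ)) * (ρ / (2 * (1 + δ))))) :=
      tendsto_const_nhds.sub ((t1.sub t2).mul_const _)
    have hval : 1 - (1 / ρ - -(1 / ρ)) * (ρ / (2 * (1 + δ))) = δ / (1 + δ) := by
      field_simp; ring
    rw [hval] at t3
    refine t3.congr' ?_
    filter_upwards [e1, e2, eventually_ge_atTop 1] with L h1 h2 hL
    have hL' : (0 : ℝ) < L := by exact_mod_cast hL
    have hR := u4_R_pos hρ hδ hL
    have hRL : u4R ρ δ L = (1 + δ) / ρ * L := by unfold u4R; ring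
    have hO : u4Om (u4R ρ δ L) L x := by
      refine ⟨?_, ?_, hx.mono (by omega)⟩
      · rw [lt_div_iff₀ hL'] at h2
        rw [hRL]; linarith
      · rw [div_lt_iff₀ hL'] at h1
        rw [hRL]; linarith
    unfold u4Y
    rw [if_pos hO, hRL]
    field_simp

/-! ## 11. One law: the Laplace functional is a gap statistic up to small errors -/

theorem u4_rel_meas (M : ℕ) (i : ℤ) : Measurable fun x : Conf => u4Rel M x i := by
  unfold u4Rel
  exact measurable_pi_lambda _ fun a => (measurable_pi_apply _).sub (measurable_pi_apply _)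

theorem u4_S_intble (μ : Measure Conf) [IsProbabilityMeasure μ] {h : ℝ → ℝ} (hc : Continuous h) (hs : HasCompactSupport h)
    (hn : ∀ t, 0 ≤ h t) (M : ℕ) {A : ℝ} (hA : 0 ≤ A) (L : ℕ) :
    Integrable (fun x : Conf => ∑ i ∈ Finset.Icc (-(L : ℤ)) L, u4F h M A (u4Rel M x i)) μ := by
  refine integrable_finsetSum _ fun i _ => ?_
  refine Integrable.of_bound ?_ A (Eventually.of_forall fun x => ?_)
  · exact ((u4_F_uc hc hs hn M hA).continuous.measurable.comp (u4_rel_meas M i)).aestronglyMeasurable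
  · rw [Real.norm_eq_abs]; exact u4_F_bdd hn M hA _

theorem u4_one {ρ : ℝ} (hρ : 0 < ρ) (μ : Measure Conf) [IsProbabilityMeasure μ] (hg : ∀ᵐ x ∂μ, U4Good ρ x) (hS : U4Shift μ)
    {h : ℝ → ℝ} (hc : Continuous h) (hs : HasCompactSupport h) {T : ℝ} (hT : ∀ u, T < |u| → h u = 0) (hn : ∀ t, 0 ≤ h t)
    {M : ℕ} (hM : 1 ≤ M) {A : ℝ} (hA : 0 ≤ A) {c : ℝ} (hc0 : 0 < c) (L : ℕ) {R : ℝ} (hR : 0 < R) :
    |cLap μ h - (2 * (L : ℝ) + 1) / (2 * R) * ∫ x, u4Avg M L (u4F h M A) x ∂μ|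
      ≤ cLap μ (u4TentL A) + u4Kap c M * (1 - cLap μ (u4TentC c T))
        + ∫ x, u4Y R (2 * R + (2 * (L : ℝ) + 1) * A) L x / (2 * R) ∂μ := by
  set B : ℝ := 2 * R + (2 * (L : ℝ) + 1) * A with hB
  have hB2 : 2 * R ≤ B := by
    have : 0 ≤ (2 * (L : ℝ) + 1) * A := by positivity
    linarith
  have iI := u4_I_intble μ hc.measurable hn hR.le
  have iS := u4_S_intble μ hc hs hn M hA L
  have iE := u4_E_intble μ hc0 T A M hR.le
  have iY : Integrable (u4Y R B L) μ :=
    Integrable.of_bound (u4_Y_meas R B L).aestronglyMeasurable B (Eventually.of_forall fun x => by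
      have := u4_Y_mem hB2 hR.le L x
      rw [Real.norm_eq_abs, abs_of_nonneg this.1]; exact this.2)
  have f1 := u4_fubini μ hS hc hs hn hR.le
  have f2 : ∫ x, u4Avg M L (u4F h M A) x ∂μ
      = (∫ x, ∑ i ∈ Finset.Icc (-(L : ℤ)) L, u4F h M A (u4Rel M x i) ∂μ) / (2 * (L : ℝ) + 1) := by
    unfold u4Avg
    rw [integral_div]
  have f3 : |(∫ x, (∫ t in -R..R, u4W h x t) ∂μ) - ∫ x, ∑ i ∈ Finset.Icc (-(L : ℤ)) L, u4F h M A (u4Rel M x i) ∂μ|
      ≤ (∫ x, (∫ t in -R..R, u4E T A c M x t) ∂μ) + ∫ x, u4Y R B L x ∂μ := by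
    rw [← integral_sub iI iS, ← integral_add iE iY]
    refine abs_integral_le_integral_abs.trans ?_
    refine integral_mono_ae (iI.sub iS).abs (iE.add iY) ?_
    filter_upwards [hg] with x hx
    exact u4_all hρ hx hc hT hn hM hA hc0 L hR.le
  rw [f1, u4_E_mean μ hS hc0 T A M hR.le] at f3
  have hL0 : (0 : ℝ) < 2 * (L : ℝ) + 1 := by positivity
  have f4 : cLap μ h - (2 * (L : ℝ) + 1) / (2 * R) * ∫ x, u4Avg M L (u4F h M A) x ∂μ
      = (2 * R * cLap μ h - ∫ x, ∑ i ∈ Finset.Icc (-(L : ℤ)) L, u4F h M A (u4Rel M x i) ∂μ) / (2 * R) := by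
    rw [f2]; field_simp
  rw [f4, abs_div, abs_of_pos (show 0 < 2 * R by positivity), div_le_iff₀ (by positivity), integral_div]
  have f5 : (cLap μ (u4TentL A) + u4Kap c M * (1 - cLap μ (u4TentC c T)) + (∫ x, u4Y R B L x ∂μ) / (2 * R)) * (2 * R)
      = 2 * R * (cLap μ (u4TentL A) + u4Kap c M * (1 - cLap μ (u4TentC c T))) + ∫ x, u4Y R B L x ∂μ := by
    field_simp
  rw [f5]
  exact f3

theorem u4_kap_le_two (n : ℕ) : u4Kap (1 / ((n : ℝ) + 1)) (n + 1) ≤ 2 := by
  unfold u4Kap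
  have h1 : (1 : ℝ) ≤ 1 / ((n : ℝ) + 1) * (((n + 1 : ℕ) : ℝ) + 1) := by
    push_cast
    rw [div_mul_eq_mul_div, one_mul, le_div_iff₀ (by positivity)]
    linarith
  have h2 : Real.exp (-(1 / ((n : ℝ) + 1) * (((n + 1 : ℕ) : ℝ) + 1))) ≤ 1 / 2 := by
    have h3 : Real.exp (-(1 / ((n : ℝ) + 1) * (((n + 1 : ℕ) : ℝ) + 1))) ≤ Real.exp (-1) := by
      rw [Real.exp_le_exp]; linarith
    have h4 : (2 : ℝ) ≤ Real.exp 1 := by
      have := Real.add_one_le_exp (1 : ℝ); linarith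
    have h5 : Real.exp (-1) ≤ 1 / 2 := by
      rw [Real.exp_neg, inv_eq_one_div]
      exact one_div_le_one_div_of_le (by norm_num) h4
    linarith
  rw [inv_le_comm₀ (by linarith) (by norm_num)]
  linarith

/-! ## 12. The theorem -/

/-- **U4**: shift invariance and equality of the gap statistics determine the Laplace functional. -/
theorem u4_main (ρ : ℝ) (hρ : 0 < ρ) (μ₁ μ₂ : Measure Conf) [IsProbabilityMeasure μ₁] [IsProbabilityMeasure μ₂]
    (hP₁ : ∀ᵐ x ∂μ₁, ∃ (χ C₀ : ℝ) (J₀ : ℕ), 0 < χ ∧ CReg ρ χ C₀ J₀ x)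
    (hP₂ : ∀ᵐ x ∂μ₂, ∃ (χ C₀ : ℝ) (J₀ : ℕ), 0 < χ ∧ CReg ρ χ C₀ J₀ x)
    (hT₁ : U4Shift μ₁) (hT₂ : U4Shift μ₂) (hG : U4GapEq μ₁ μ₂)
    (h : ℝ → ℝ) (hc : Continuous h) (hs : HasCompactSupport h) (hn : ∀ t, 0 ≤ h t) : cLap μ₁ h = cLap μ₂ h := by
  have hg₁ : ∀ᵐ x ∂μ₁, U4Good ρ x := by
    filter_upwards [hP₁] with x hx
    obtain ⟨χ, C₀, J₀, hχ, hx⟩ := hx
    exact u4_good_of_creg hχ hx
  have hg₂ : ∀ᵐ x ∂μ₂, U4Good ρ x := by
    filter_upwards [hP₂] with x hx
    obtain ⟨χ, C₀, J₀, hχ, hx⟩ := hx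
    exact u4_good_of_creg hχ hx
  obtain ⟨T, hT0, hT⟩ := u4_supp_radius hs
  refine eq_of_abs_sub_le_all fun ε hε => ?_
  set η : ℝ := ε / 9 with hη
  have hηpos : 0 < η := by positivity
  -- choice of `A`
  obtain ⟨nA, hA₁, hA₂⟩ : ∃ n : ℕ, cLap μ₁ (u4TentL n) < η ∧ cLap μ₂ (u4TentL n) < η :=
    (((u4_e1 hρ μ₁ hg₁ hT₁).eventually (gt_mem_nhds hηpos)).and
      ((u4_e1 hρ μ₂ hg₂ hT₂).eventually (gt_mem_nhds hηpos))).exists
  -- choice of `c` and `M`
  obtain ⟨nc, hc₁, hc₂⟩ : ∃ n : ℕ, 1 - cLap μ₁ (u4TentC (1 / ((n : ℝ) + 1)) T) < η ∧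
      1 - cLap μ₂ (u4TentC (1 / ((n : ℝ) + 1)) T) < η :=
    (((u4_e2 μ₁ T).eventually (gt_mem_nhds hηpos)).and ((u4_e2 μ₂ T).eventually (gt_mem_nhds hηpos))).exists
  set A : ℝ := (nA : ℝ) with hAdef
  have hA : 0 ≤ A := Nat.cast_nonneg _
  set c : ℝ := 1 / ((nc : ℝ) + 1) with hcdef
  have hc0 : 0 < c := by positivity
  set M : ℕ := nc + 1 with hMdef
  have hM : 1 ≤ M := by omega
  have hκ : u4Kap c M ≤ 2 := u4_kap_le_two nc
  have hκ0 : 0 < u4Kap c M := u4_kap_pos hc0 M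
  -- the window mismatch
  have hδ : η / (1 + η) < η := by
    rw [div_lt_iff₀ (by positivity)]; nlinarith
  have y₁ := (u4_Y_lim hρ hηpos μ₁ hg₁ hA).eventually (gt_mem_nhds hδ)
  have y₂ := (u4_Y_lim hρ hηpos μ₂ hg₂ hA).eventually (gt_mem_nhds hδ)
  -- the gap statistics
  have hfr := hG M (u4F h M A) (u4_F_uc hc hs hn M hA) ⟨A, fun g => u4_F_bdd hn M hA g⟩ (η / (2 * ρ)) (by positivity)
  obtain ⟨L, hLG, hy₁, hy₂, hL⟩ := (hfr.and_eventually (y₁.and (y₂.and (eventually_ge_atTop 1)))).exists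
  have hR := u4_R_pos hρ hηpos hL
  have o₁ := u4_one hρ μ₁ hg₁ hT₁ hc hs hT hn hM hA hc0 L hR
  have o₂ := u4_one hρ μ₂ hg₂ hT₂ hc hs hT hn hM hA hc0 L hR
  have hθ := u4_theta_le hρ hηpos hL
  set θ : ℝ := (2 * (L : ℝ) + 1) / (2 * u4R ρ η L) with hθdef
  have hθ0 : 0 ≤ θ := by positivity
  set a₁ := ∫ x, u4Avg M L (u4F h M A) x ∂μ₁ with ha₁
  set a₂ := ∫ x, u4Avg M L (u4F h M A) x ∂μ₂ with ha₂
  have hmid : |θ * a₁ - θ * a₂| ≤ η := by
    rw [← mul_sub, abs_mul, abs_of_nonneg hθ0]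
    calc θ * |a₁ - a₂| ≤ (2 * ρ) * (η / (2 * ρ)) := mul_le_mul hθ hLG (abs_nonneg _) (by positivity)
      _ = η := by field_simp
  have q₁ : u4Kap c M * (1 - cLap μ₁ (u4TentC c T)) ≤ 2 * η := by
    have h0 : 0 ≤ 1 - cLap μ₁ (u4TentC c T) := by
      rw [u4_cLap_zero, sub_nonneg]
      have := integral_mono_of_nonneg (μ := μ₁) (f := fun x => u4W (u4TentC c T) x 0) (g := fun _ => (1 : ℝ))
        (Eventually.of_forall fun x => (u4_W_pos _ _ _).le) (integrable_const _)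
        (Eventually.of_forall fun x => u4_W_le_one (fun u => u4_tentC_nonneg hc0.le T u) x 0)
      simpa using this
    nlinarith
  have q₂ : u4Kap c M * (1 - cLap μ₂ (u4TentC c T)) ≤ 2 * η := by
    have h0 : 0 ≤ 1 - cLap μ₂ (u4TentC c T) := by
      rw [u4_cLap_zero, sub_nonneg]
      have := integral_mono_of_nonneg (μ := μ₂) (f := fun x => u4W (u4TentC c T) x 0) (g := fun _ => (1 : ℝ))
        (Eventually.of_forall fun x => (u4_W_pos _ _ _).le) (integrable_const _)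
        (Eventually.of_forall fun x => u4_W_le_one (fun u => u4_tentC_nonneg hc0.le T u) x 0)
      simpa using this
    nlinarith
  have e₁ : |cLap μ₁ h - θ * a₁| ≤ 4 * η := by linarith
  have e₂ : |cLap μ₂ h - θ * a₂| ≤ 4 * η := by linarith
  have hfin : cLap μ₁ h - cLap μ₂ h = (cLap μ₁ h - θ * a₁) + (θ * a₁ - θ * a₂) - (cLap μ₂ h - θ * a₂) := by ring
  rw [hfin]
  have t1 := abs_sub ((cLap μ₁ h - θ * a₁) + (θ * a₁ - θ * a₂)) (cLap μ₂ h - θ * a₂)
  have t2 := abs_add_le (cLap μ₁ h - θ * a₁) (θ * a₁ - θ * a₂)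
  have : ε = 9 * η := by rw [hη]; ring
  linarith
/-- `u4_main` with the hypotheses of the Hub -/
theorem u4_main_reg (ρ ξ : ℝ) (hρ : 0 < ρ) (μ₁ μ₂ : Measure Conf) [IsProbabilityMeasure μ₁] [IsProbabilityMeasure μ₂]
    (hR₁ : LReg ρ ξ μ₁) (hR₂ : LReg ρ ξ μ₂) (hT₁ : U4Shift μ₁) (hT₂ : U4Shift μ₂) (hG : U4GapEq μ₁ μ₂)
    (h : ℝ → ℝ) (hc : Continuous h) (hs : HasCompactSupport h) (hn : ∀ t, 0 ≤ h t) : cLap μ₁ h = cLap μ₂ h := by
  obtain ⟨χ₁, hχ₁, h₁⟩ := hR₁.pos
  obtain ⟨χ₂, hχ₂, h₂⟩ := hR₂.pos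
  refine u4_main ρ hρ μ₁ μ₂ ?_ ?_ hT₁ hT₂ hG h hc hs hn
  · filter_upwards [h₁] with x hx
    obtain ⟨C₀, J₀, hx⟩ := hx
    exact ⟨χ₁, C₀, J₀, hχ₁, hx⟩
  · filter_upwards [h₂] with x hx
    obtain ⟨C₀, J₀, hx⟩ := hx
    exact ⟨χ₂, C₀, J₀, hχ₂, hx⟩

/-- a `Tendsto` form of the U3 export is enough -/
theorem u4_gapEq_of_tendsto {μ₁ μ₂ : Measure Conf}
    (H : ∀ (m : ℕ) (F : (Fin (2 * m + 1) → ℝ) → ℝ), UniformContinuous F → (∃ B : ℝ, ∀ g, |F g| ≤ B) →
      Tendsto (fun L : ℕ => (∫ x, u4Avg m L F x ∂μ₁) - ∫ x, u4Avg m L F x ∂μ₂) atTop (𝓝 0)) : U4GapEq μ₁ μ₂ := by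
  intro m F hF hB ε hε
  have h1 := (H m F hF hB).abs
  rw [abs_zero] at h1
  exact ((h1.eventually (gt_mem_nhds hε)).mono fun L hL => hL.le).frequently

theorem u4_eqns_cite : True := by
  have := @U4Shift.eq_1
  have := @u4Rel.eq_1
  have := @u4Avg.eq_1
  have := @U4GapEq.eq_1
  have := @u4W.eq_1
  have := @u4Tent.eq_1
  have := @u4TentL.eq_1
  have := @u4TentC.eq_1
  have := @u4WM.eq_1
  have := @u4Kap.eq_1
  have := @u4Nx.eq_1
  have := @u4F.eq_1
  have := @u4E.eq_1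
  have := @u4Om.eq_1
  have := @u4Y.eq_1
  have := @u4R.eq_1
  trivial

end Claimed.Agent.R287
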