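-- KEEP
import Claimed.Agent.R287.U4

/-!
# Row 287, unit B2, block U4P (helper197): the PATHWISE form of U4, for finite sorted data (consumer: `b2_pair`)

All statements are deterministic.  `u4pObs H T x = (2T)⁻¹ ∫_{-T}^{T} exp(-∑_i H(x_i - t)) dt` is `b2Obs` of unit B2 (same expression).

* `u4p_window` **(W)**: one good configuration, ANY label window `[a, b)`, position window `[-T, T]`:
  `|∫_{-T}^{T} W_h(x,t) dt - ∑_{i ∈ [a,b)} F(u4Rel M x i)| ≤ ∫_{-T}^{T} u4E(x,t) dt + A #{i : gap i not inside [-T,T]} + (x_a + T)₊ + (T - x_b)₊`;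
* `u4p_F_sum` **(G)**: `∑_{i ∈ [a,b)} |F(rel x i) - F(rel y i)| ≤ (b - a) ε' + 4 A M #{j ∈ [a-M, b+M) : |gap_j x - gap_j y| > η'}`;
* `u4pExt`, `u4p_ext_good`, `u4p_obs_ext` **(E)**: finite sorted data are good configurations (extension outside `[-W, W]`);
* `u4p_pair` **(P)**: `|u4pObs h T x - u4pObs h T y| ≤ u4pErr x + u4pErr y + (2T)⁻¹ (boundary terms + (G))`;
* `u4p_params`: the means of the error observables `u4pErr` (which are `u4pObs` of functions of `C_c^+`) are small in the limit.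
-/

set_option autoImplicit false
open MeasureTheory ProbabilityTheory Filter Topology

namespace Claimed.Agent.R287

/-! ## 1. General label windows -/

theorem u4p_sum_Ico (a b : ℤ) (φ : ℤ → ℝ) :
    ∑ i ∈ Finset.Ico a b, φ i = ∑ k ∈ Finset.range (b - a).toNat, φ (a + (k : ℤ)) := by
  symm
  refine Finset.sum_bij (fun k _ => a + (k : ℤ)) ?_ ?_ ?_ ?_
  · intro k hk
    rw [Finset.mem_range] at hk
    rw [Finset.mem_Ico]
    constructor <;> omega
  · intro k _ l _ hkl
    omega
  · intro j hj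
    rw [Finset.mem_Ico] at hj
    refine ⟨(j - a).toNat, ?_, ?_⟩
    · rw [Finset.mem_range]; omega
    · omega
  · intro k _
    rfl

theorem u4p_adj {f : ℝ → ℝ} (hf : ∀ a b, IntervalIntegrable f volume a b) (u : ℤ → ℝ) {a b : ℤ} (hab : a ≤ b) :
    ∑ i ∈ Finset.Ico a b, ∫ t in u i..u (i + 1), f t = ∫ t in u a..u b, f t := by
  rw [u4p_sum_Ico a b fun i => ∫ t in u i..u (i + 1), f t]
  have := intervalIntegral.sum_integral_adjacent_intervals (f := f) (μ := volume) (a := fun k : ℕ => u (a + (k : ℤ)))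
    (n := (b - a).toNat) (fun k _ => hf _ _)
  have e1 : a + (((b - a).toNat : ℕ) : ℤ) = b := by omega
  have e0 : a + ((0 : ℕ) : ℤ) = a := by simp
  rw [e1, e0] at this
  rw [← this]
  refine Finset.sum_congr rfl fun k _ => ?_
  have : a + ((k + 1 : ℕ) : ℤ) = a + (k : ℤ) + 1 := by push_cast; ring
  rw [this]

/-- projection on `[-T, T]` -/
def u4pClip (T s : ℝ) : ℝ := max (-T) (min s T)

theorem u4p_clip_mono (T : ℝ) : Monotone (u4pClip T) := fun _ _ h => max_le_max le_rfl (min_le_min h le_rfl)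

theorem u4p_clip_ge (T s : ℝ) : -T ≤ u4pClip T s := le_max_left _ _

theorem u4p_clip_le {T : ℝ} (hT : 0 ≤ T) (s : ℝ) : u4pClip T s ≤ T := max_le (by linarith) (min_le_right _ _)

theorem u4p_clip_of_mem {T s : ℝ} (h1 : -T ≤ s) (h2 : s ≤ T) : u4pClip T s = s := by
  unfold u4pClip; rw [min_eq_left h2, max_eq_right h1]

theorem u4p_clip_add_le (T s : ℝ) : u4pClip T s + T ≤ max 0 (s + T) := by
  unfold u4pClip
  rcases le_total s (-T) with h | h
  · rw [max_eq_left ((min_le_left _ _).trans h)]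
    simp
  · have : max (-T) (min s T) ≤ s := max_le h (min_le_left _ _)
    exact le_trans (by linarith) (le_max_right _ _)

theorem u4p_sub_clip_le {T : ℝ} (hT : 0 ≤ T) (s : ℝ) : T - u4pClip T s ≤ max 0 (T - s) := by
  unfold u4pClip
  rcases le_total T s with h | h
  · rw [min_eq_right h, max_eq_right (by linarith)]
    simp
  · rw [min_eq_left h]
    have : s ≤ max (-T) s := le_max_right _ _
    exact le_trans (by linarith) (le_max_right _ _)

open Classical in
/-- one gap, clipped to `[-T, T]` -/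
theorem u4p_gap {ρ : ℝ} (hρ : 0 < ρ) {x : Conf} (hx : U4Good ρ x) {h : ℝ → ℝ} (hc : Continuous h) {Th : ℝ}
    (hT : ∀ u, Th < |u| → h u = 0) (hn : ∀ t, 0 ≤ h t) {M : ℕ} (hM : 1 ≤ M) {A : ℝ} (hA : 0 ≤ A)
    {c : ℝ} (hc0 : 0 < c) {T : ℝ} (hT0 : 0 ≤ T) (i : ℤ) :
    |(∫ t in u4pClip T (x i)..u4pClip T (x (i + 1)), u4W h x t) - u4F h M A (u4Rel M x i)|
      ≤ (∫ t in u4pClip T (x i)..u4pClip T (x (i + 1)), u4E Th A c M x t)
        + (if -T ≤ x i ∧ x (i + 1) ≤ T then 0 else A) := by
  have hpq : x i ≤ x (i + 1) := hx.mono (by omega)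
  split_ifs with hin
  · rw [u4p_clip_of_mem hin.1 (hpq.trans hin.2), u4p_clip_of_mem (hin.1.trans hpq) hin.2, add_zero]
    exact u4_gap_cmp hρ hx hc hT hn hM hA hc0 i
  · set p := u4pClip T (x i) with hp
    set q := u4pClip T (x (i + 1)) with hq
    have hpq' : p ≤ q := u4p_clip_mono T hpq
    have iW : ∀ a b, IntervalIntegrable (u4W h x) volume a b := u4_W_ii hc.measurable hn x
    have iE : ∀ a b, IntervalIntegrable (u4E Th A c M x) volume a b := u4_E_ii hc0 Th A M x
    have hF := u4_F_bdd hn M hA (u4Rel M x i)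
    have hF0 : 0 ≤ u4F h M A (u4Rel M x i) := by
      rw [u4_F_rel hM hA hx.mono i]
      refine intervalIntegral.integral_nonneg ?_ fun t _ => (u4_WM_pos h M x i t).le
      have : 0 ≤ min (x (i + 1) - x i) A := le_min (by linarith) hA
      linarith
    have hW0 : 0 ≤ ∫ t in p..q, u4W h x t := intervalIntegral.integral_nonneg hpq' fun t _ => (u4_W_pos h x t).le
    have hE0 : 0 ≤ ∫ t in p..q, u4E Th A c M x t :=
      intervalIntegral.integral_nonneg hpq' fun t _ => u4_E_nonneg hc0 Th A M x t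
    have hWu : (∫ t in p..q, u4W h x t) ≤ (∫ t in p..q, u4E Th A c M x t) + A := by
      rcases eq_or_lt_of_le hpq' with heq | hlt
      · rw [heq]; simpa using hA
      · -- nondegenerate: `x i ≤ p`, `q ≤ x (i+1)`
        have hxp : x i ≤ p := by
          by_contra hcon
          have h1 : p < x i := not_le.1 hcon
          have h2 : T < x i := by
            by_contra h3
            have h3' : x i ≤ T := not_lt.1 h3
            have : x i ≤ p := by
              rw [hp]; unfold u4pClip; rw [min_eq_left h3']; exact le_max_right _ _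
            linarith
          have h4 : p = T := by
            rw [hp]; unfold u4pClip; rw [min_eq_right h2.le, max_eq_right (by linarith)]
          have h5 := u4p_clip_le hT0 (x (i + 1))
          rw [← hq] at h5
          linarith
        have hqx : q ≤ x (i + 1) := by
          by_contra hcon
          have h1 : x (i + 1) < q := not_le.1 hcon
          have h2 : x (i + 1) < -T := by
            by_contra h3
            have h3' : -T ≤ x (i + 1) := not_lt.1 h3
            have : q ≤ x (i + 1) := by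
              rw [hq]; unfold u4pClip; exact max_le h3' (min_le_left _ _)
            linarith
          have h4 : q = -T := by
            rw [hq]; unfold u4pClip
            exact max_eq_left ((min_le_left _ _).trans h2.le)
          have h5 := u4p_clip_ge T (x i)
          rw [← hp] at h5
          linarith
        set r := max p (min q (x i + A)) with hr
        have hpr : p ≤ r := le_max_left _ _
        have hrq : r ≤ q := max_le hpq' (min_le_left _ _)
        have hrA : r - p ≤ A := by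
          rw [hr]
          rcases le_total p (min q (x i + A)) with h1 | h1
          · rw [max_eq_right h1]
            have := min_le_right q (x i + A)
            linarith
          · rw [max_eq_left h1]; linarith
        have s1 := intervalIntegral.integral_add_adjacent_intervals (iW p r) (iW r q)
        have s2 := intervalIntegral.integral_add_adjacent_intervals (iE p r) (iE r q)
        have b1 : (∫ t in p..r, u4W h x t) ≤ r - p := by
          have := intervalIntegral.integral_mono_on hpr (iW p r) intervalIntegrable_const (g := fun _ => (1 : ℝ))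
            fun t _ => u4_W_le_one hn x t
          simpa using this
        have b2 : (∫ t in r..q, u4W h x t) ≤ ∫ t in r..q, u4E Th A c M x t := by
          rcases eq_or_lt_of_le hrq with heq | hlt'
          · rw [heq]; simp
          · have hrge : x i + A ≤ r := by
              by_contra hcon
              have h1 : r < x i + A := not_le.1 hcon
              have h2 : min q (x i + A) ≤ r := le_max_right _ _
              rcases le_total q (x i + A) with h3 | h3
              · rw [min_eq_left h3] at h2; linarith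
              · rw [min_eq_right h3] at h2; linarith
            refine intervalIntegral.integral_mono_on hrq (iW r q) (iE r q) fun t ht => ?_
            have h1 : u4W (u4TentL A) x t = 1 := u4_void hx.mono hA i (hrge.trans ht.1) (ht.2.trans hqx)
            have h2 := u4_W_le_one hn x t
            have h3 := mul_nonneg (u4_kap_pos hc0 M).le (u4_Q_nonneg hc0 Th x t)
            unfold u4E
            linarith
        have b3 : 0 ≤ ∫ t in p..r, u4E Th A c M x t :=
          intervalIntegral.integral_nonneg hpr fun t _ => u4_E_nonneg hc0 Th A M x t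
        linarith
    rw [abs_le] at hF ⊢
    constructor <;> linarith [hF.2]

open Classical in
/-- **(W)** one configuration, an arbitrary label window `[a, b)`, the position window `[-T, T]` -/
theorem u4p_window {ρ : ℝ} (hρ : 0 < ρ) {x : Conf} (hx : U4Good ρ x) {h : ℝ → ℝ} (hc : Continuous h) {Th : ℝ}
    (hT : ∀ u, Th < |u| → h u = 0) (hn : ∀ t, 0 ≤ h t) {M : ℕ} (hM : 1 ≤ M) {A : ℝ} (hA : 0 ≤ A)
    {c : ℝ} (hc0 : 0 < c) {T : ℝ} (hT0 : 0 ≤ T) {a b : ℤ} (hab : a ≤ b) :
    |(∫ t in -T..T, u4W h x t) - ∑ i ∈ Finset.Ico a b, u4F h M A (u4Rel M x i)|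
      ≤ (∫ t in -T..T, u4E Th A c M x t)
        + A * (((Finset.Ico a b).filter fun i => ¬(-T ≤ x i ∧ x (i + 1) ≤ T)).card : ℝ)
        + max 0 (x a + T) + max 0 (T - x b) := by
  set u : ℤ → ℝ := fun i => u4pClip T (x i) with hu
  have huab : u a ≤ u b := u4p_clip_mono T (hx.mono hab)
  have iW : ∀ a b, IntervalIntegrable (u4W h x) volume a b := u4_W_ii hc.measurable hn x
  have iE : ∀ a b, IntervalIntegrable (u4E Th A c M x) volume a b := u4_E_ii hc0 Th A M x
  have h1 : -T ≤ u a := u4p_clip_ge T _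
  have h2 : u b ≤ T := u4p_clip_le hT0 _
  have s1 := intervalIntegral.integral_add_adjacent_intervals (iW (-T) (u a)) (iW (u a) (u b))
  have s2 := intervalIntegral.integral_add_adjacent_intervals (iW (-T) (u b)) (iW (u b) T)
  have o1l : 0 ≤ ∫ t in -T..u a, u4W h x t := intervalIntegral.integral_nonneg h1 fun t _ => (u4_W_pos h x t).le
  have o2l : 0 ≤ ∫ t in u b..T, u4W h x t := intervalIntegral.integral_nonneg h2 fun t _ => (u4_W_pos h x t).le
  have o1u : (∫ t in -T..u a, u4W h x t) ≤ u a - -T := by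
    have := intervalIntegral.integral_mono_on h1 (iW (-T) (u a)) intervalIntegrable_const (g := fun _ => (1 : ℝ))
      fun t _ => u4_W_le_one hn x t
    simpa using this
  have o2u : (∫ t in u b..T, u4W h x t) ≤ T - u b := by
    have := intervalIntegral.integral_mono_on h2 (iW (u b) T) intervalIntegrable_const (g := fun _ => (1 : ℝ))
      fun t _ => u4_W_le_one hn x t
    simpa using this
  have c1 : u a + T ≤ max 0 (x a + T) := u4p_clip_add_le _ _
  have c2 : T - u b ≤ max 0 (T - x b) := u4p_sub_clip_le hT0 _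
  have m1 : |(∫ t in u a..u b, u4W h x t) - ∑ i ∈ Finset.Ico a b, u4F h M A (u4Rel M x i)|
      ≤ (∫ t in u a..u b, u4E Th A c M x t)
        + A * (((Finset.Ico a b).filter fun i => ¬(-T ≤ x i ∧ x (i + 1) ≤ T)).card : ℝ) := by
    rw [← u4p_adj iW u hab, ← u4p_adj iE u hab, ← Finset.sum_sub_distrib]
    refine (Finset.abs_sum_le_sum_abs _ _).trans ?_
    refine (Finset.sum_le_sum fun i _ => u4p_gap hρ hx hc hT hn hM hA hc0 hT0 i).trans ?_
    rw [Finset.sum_add_distrib]
    refine add_le_add le_rfl (le_of_eq ?_)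
    rw [Finset.card_filter]
    push_cast
    rw [Finset.mul_sum]
    refine Finset.sum_congr rfl fun i _ => ?_
    by_cases hin : -T ≤ x i ∧ x (i + 1) ≤ T
    · simp [hin]
    · simp [hin]
  have m2 : (∫ t in u a..u b, u4E Th A c M x t) ≤ ∫ t in -T..T, u4E Th A c M x t :=
    intervalIntegral.integral_mono_interval h1 huab h2 (Eventually.of_forall fun t => u4_E_nonneg hc0 Th A M x t) (iE _ _)
  rw [abs_le] at m1 ⊢
  constructor <;> linarith [m1.1, m1.2]


/-! ## 2. From gaps to the statistic `F` -/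

theorem u4p_tele (D : ℤ → ℝ) {s : ℝ} {p q : ℤ} (hpq : p ≤ q) (hd : ∀ j, p ≤ j → j < q → |D (j + 1) - D j| ≤ s) :
    |D q - D p| ≤ ((q - p : ℤ) : ℝ) * s := by
  induction q, hpq using Int.leInduction with
  | base => simp
  | succ q hq ih =>
    have h1 := ih fun j h1 h2 => hd j h1 (by omega)
    have h2 := hd q hq (by omega)
    have h3 : D (q + 1) - D p = (D (q + 1) - D q) + (D q - D p) := by ring
    rw [h3]
    refine (abs_add_le _ _).trans ?_
    push_cast at h1 ⊢
    linarith

/-- the difference of the gaps number `j` of two configurations -/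
def u4pD (x y : Conf) (j : ℤ) : ℝ := (x (j + 1) - x j) - (y (j + 1) - y j)

open Classical in
/-- the labels of the window `[a - M, b + M)` whose gaps differ by more than `η'` -/
noncomputable def u4pBad (x y : Conf) (a b : ℤ) (M : ℕ) (η' : ℝ) : Finset ℤ :=
  (Finset.Ico (a - M) (b + M)).filter fun j => η' < |u4pD x y j|

theorem u4p_rel_close {x y : Conf} {M : ℕ} {η' : ℝ} {i : ℤ}
    (hg : ∀ j, i - M ≤ j → j < i + M → |u4pD x y j| ≤ η') (k : Fin (2 * M + 1)) :
    |u4Rel M x i k - u4Rel M y i k| ≤ (M : ℝ) * η' := by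
  have hη : 0 ≤ η' ∨ M = 0 := by
    rcases Nat.eq_zero_or_pos M with h | h
    · exact Or.inr h
    · exact Or.inl ((abs_nonneg _).trans (hg i (by omega) (by omega)))
  set D : ℤ → ℝ := fun j => x j - y j with hD
  have hd : ∀ j, i - M ≤ j → j < i + M → |D (j + 1) - D j| ≤ η' := fun j h1 h2 => by
    have := hg j h1 h2
    unfold u4pD at this
    have e : D (j + 1) - D j = x (j + 1) - x j - (y (j + 1) - y j) := by simp only [hD]; ring
    rw [e]; exact this
  have e1 : u4Rel M x i k - u4Rel M y i k = D (i + ((k.val : ℤ) - M)) - D i := by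
    simp only [u4Rel, hD]; ring
  rw [e1]
  have hk : k.val < 2 * M + 1 := k.isLt
  rcases le_total (M : ℤ) (k.val : ℤ) with hkM | hkM
  · have := u4p_tele D (s := η') (p := i) (q := i + ((k.val : ℤ) - M)) (by omega)
      (fun j h1 h2 => hd j (by omega) (by omega))
    refine this.trans ?_
    rcases hη with hη | hM0
    · refine mul_le_mul_of_nonneg_right ?_ hη
      have : (i + ((k.val : ℤ) - M) - i : ℤ) ≤ (M : ℤ) := by omega
      exact_mod_cast this
    · subst hM0
      have : k.val = 0 := by omega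
      simp
  · have := u4p_tele D (s := η') (p := i + ((k.val : ℤ) - M)) (q := i) (by omega)
      (fun j h1 h2 => hd j (by omega) (by omega))
    rw [abs_sub_comm]
    refine this.trans ?_
    rcases hη with hη | hM0
    · refine mul_le_mul_of_nonneg_right ?_ hη
      have : (i - (i + ((k.val : ℤ) - M)) : ℤ) ≤ (M : ℤ) := by omega
      exact_mod_cast this
    · subst hM0
      have : k.val = 0 := by omega
      simp

open Classical in
/-- **(G)** -/
theorem u4p_F_sum {M : ℕ} {F : (Fin (2 * M + 1) → ℝ) → ℝ} {A η ε' η' : ℝ} (hA : ∀ g, |F g| ≤ A)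
    (hmod : ∀ g g' : Fin (2 * M + 1) → ℝ, (∀ k, |g k - g' k| ≤ η) → |F g - F g'| ≤ ε') (hε : 0 ≤ ε')
    (hη' : (M : ℝ) * η' ≤ η) (x y : Conf) {a b : ℤ} (hab : a ≤ b) :
    ∑ i ∈ Finset.Ico a b, |F (u4Rel M x i) - F (u4Rel M y i)|
      ≤ ((b - a : ℤ) : ℝ) * ε' + 2 * A * (2 * (M : ℝ)) * ((u4pBad x y a b M η').card : ℝ) := by
  have hA0 : 0 ≤ A := (abs_nonneg _).trans (hA 0)
  set Bad := u4pBad x y a b M η' with hBad
  set S : Finset ℤ := (Finset.Ico a b).filter fun i => ∃ j ∈ Bad, i - M ≤ j ∧ j < i + M with hS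
  have hpt : ∀ i ∈ Finset.Ico a b, |F (u4Rel M x i) - F (u4Rel M y i)| ≤ ε' + (if i ∈ S then 2 * A else 0) := by
    intro i hi
    by_cases hiS : i ∈ S
    · rw [if_pos hiS]
      have h1 := abs_sub (F (u4Rel M x i)) (F (u4Rel M y i))
      have h2 := hA (u4Rel M x i)
      have h3 := hA (u4Rel M y i)
      linarith
    · rw [if_neg hiS, add_zero]
      refine hmod _ _ fun k => (u4p_rel_close (η' := η') (fun j h1 h2 => ?_) k).trans hη'
      by_contra hcon
      apply hiS
      rw [hS, Finset.mem_filter]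
      refine ⟨hi, j, ?_, h1, h2⟩
      rw [hBad, u4pBad, Finset.mem_filter, Finset.mem_Ico]
      rw [Finset.mem_Ico] at hi
      exact ⟨⟨by omega, by omega⟩, not_le.1 hcon⟩
  have hcard : (S.card : ℝ) ≤ 2 * (M : ℝ) * (Bad.card : ℝ) := by
    have hsub : S ⊆ Bad.biUnion fun j => Finset.Ioc (j - M) (j + M) := by
      intro i hi
      rw [hS, Finset.mem_filter] at hi
      obtain ⟨_, j, hj, h1, h2⟩ := hi
      rw [Finset.mem_biUnion]
      refine ⟨j, hj, ?_⟩
      rw [Finset.mem_Ioc]
      constructor <;> omega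
    have h1 := (Finset.card_le_card hsub).trans Finset.card_biUnion_le
    have h2 : ∑ j ∈ Bad, (Finset.Ioc (j - (M : ℤ)) (j + M)).card = Bad.card * (2 * M) := by
      rw [Finset.sum_congr rfl fun j _ => show (Finset.Ioc (j - (M : ℤ)) (j + M)).card = 2 * M by
        rw [Int.card_Ioc]; omega]
      rw [Finset.sum_const, smul_eq_mul]
    rw [h2] at h1
    have : (S.card : ℝ) ≤ ((Bad.card * (2 * M) : ℕ) : ℝ) := by exact_mod_cast h1
    push_cast at this
    linarith
  refine (Finset.sum_le_sum hpt).trans ?_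
  rw [Finset.sum_add_distrib, Finset.sum_const, Int.card_Ico, nsmul_eq_mul]
  have e1 : (((b - a).toNat : ℕ) : ℝ) = ((b - a : ℤ) : ℝ) := by
    have : (((b - a).toNat : ℕ) : ℤ) = b - a := Int.toNat_of_nonneg (by omega)
    exact_mod_cast this
  rw [e1]
  have e2 : ∑ i ∈ Finset.Ico a b, (if i ∈ S then 2 * A else 0) = 2 * A * (S.card : ℝ) := by
    rw [← Finset.sum_filter]
    have : (Finset.Ico a b).filter (fun i => i ∈ S) = S := by
      ext i
      rw [Finset.mem_filter]
      constructor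
      · exact fun h => h.2
      · intro h
        refine ⟨?_, h⟩
        rw [hS, Finset.mem_filter] at h
        exact h.1
    rw [this, Finset.sum_const, nsmul_eq_mul]
    ring
  rw [e2]
  have : 2 * A * (S.card : ℝ) ≤ 2 * A * (2 * (M : ℝ) * (Bad.card : ℝ)) :=
    mul_le_mul_of_nonneg_left hcard (by positivity)
  linarith

/-! ## 3. Finite sorted data as good configurations -/

/-- clamped window index of an integer label -/
def u4pIdx (K : ℕ) (j : ℤ) : Win K := ⟨min (j + K).toNat (2 * K), by omega⟩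

/-- extension of finite data to a configuration of density `1`; the new points lie outside `[-W, W]` -/
noncomputable def u4pExt (W : ℝ) {K : ℕ} (x : Win K → ℝ) : Conf := fun j =>
  if j < -(K : ℤ) then min (x (u4pIdx K (-(K : ℤ)))) (-W) + ((j : ℝ) + K)
  else if (K : ℤ) < j then max (x (u4pIdx K K)) W + ((j : ℝ) - K)
  else x (u4pIdx K j)

theorem u4p_idx_wIdx {K : ℕ} (i : Win K) : u4pIdx K (wIdx i) = i := by
  unfold u4pIdx wIdx
  apply Fin.ext
  have := i.isLt
  simp only
  omega

theorem u4p_idx_mono (K : ℕ) : Monotone (u4pIdx K) := by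
  intro j j' hjj
  unfold u4pIdx
  rw [Fin.le_def]
  simp only
  omega

theorem u4p_ext_mid (W : ℝ) {K : ℕ} (x : Win K → ℝ) {j : ℤ} (h1 : -(K : ℤ) ≤ j) (h2 : j ≤ K) :
    u4pExt W x j = x (u4pIdx K j) := by
  unfold u4pExt
  rw [if_neg (by omega), if_neg (by omega)]

theorem u4p_ext_wIdx (W : ℝ) {K : ℕ} (x : Win K → ℝ) (i : Win K) : u4pExt W x (wIdx i) = x i := by
  have := i.isLt
  rw [u4p_ext_mid W x (by unfold wIdx; omega) (by unfold wIdx; omega), u4p_idx_wIdx]

theorem u4p_ext_left (W : ℝ) {K : ℕ} (x : Win K → ℝ) {j : ℤ} (h : j < -(K : ℤ)) :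
    u4pExt W x j = min (x (u4pIdx K (-(K : ℤ)))) (-W) + ((j : ℝ) + K) := by
  unfold u4pExt
  rw [if_pos h]

theorem u4p_ext_right (W : ℝ) {K : ℕ} (x : Win K → ℝ) {j : ℤ} (h : (K : ℤ) < j) :
    u4pExt W x j = max (x (u4pIdx K K)) W + ((j : ℝ) - K) := by
  unfold u4pExt
  rw [if_neg (by omega), if_pos h]

theorem u4p_ext_mono (W : ℝ) {K : ℕ} {x : Win K → ℝ} (hx : Monotone x) : Monotone (u4pExt W x) := by
  refine monotone_int_of_le_succ fun j => ?_
  rcases lt_trichotomy (j + 1) (-(K : ℤ)) with h | h | h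
  · rw [u4p_ext_left W x h, u4p_ext_left W x (by omega)]
    push_cast
    linarith
  · rw [u4p_ext_left W x (show j < -(K : ℤ) by omega), u4p_ext_mid W x (by omega) (by omega), h]
    have h1 : (j : ℝ) + K = -1 := by
      have : (j : ℤ) + K = -1 := by omega
      exact_mod_cast this
    have h2 := min_le_left (x (u4pIdx K (-(K : ℤ)))) (-W)
    linarith
  · rcases lt_trichotomy j (K : ℤ) with h' | h' | h'
    · rw [u4p_ext_mid W x (by omega) (by omega), u4p_ext_mid W x (by omega) (by omega)]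
      exact hx (u4p_idx_mono K (by omega))
    · rw [u4p_ext_mid W x (by omega) (by omega), u4p_ext_right W x (by omega), h']
      have h2 := le_max_left (x (u4pIdx K K)) W
      push_cast
      linarith
    · rw [u4p_ext_right W x h', u4p_ext_right W x (by omega)]
      push_cast
      linarith

theorem u4p_ext_good (W : ℝ) {K : ℕ} {x : Win K → ℝ} (hx : Monotone x) : U4Good 1 (u4pExt W x) := by
  refine u4_good_of_creg (χ := 1) (J₀ := K + 1)
    (C₀ := |max (x (u4pIdx K K)) W - K| + |min (x (u4pIdx K (-(K : ℤ)))) (-W) + K|) one_pos ⟨u4p_ext_mono W hx, fun j hj => ?_⟩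
  rw [sub_self, Real.rpow_zero, mul_one, div_one]
  rcases le_abs.1 hj with h | h
  · rw [u4p_ext_right W x (by push_cast at h; omega)]
    have e : max (x (u4pIdx K K)) W + ((j : ℝ) - K) - j = max (x (u4pIdx K K)) W - K := by ring
    rw [e]
    exact le_add_of_nonneg_right (abs_nonneg _)
  · rw [u4p_ext_left W x (by push_cast at h; omega)]
    have e : min (x (u4pIdx K (-(K : ℤ)))) (-W) + ((j : ℝ) + K) - j = min (x (u4pIdx K (-(K : ℤ)))) (-W) + K := by ring
    rw [e]
    exact le_add_of_nonneg_left (abs_nonneg _)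

theorem u4p_wIdx_inj (K : ℕ) : Function.Injective (wIdx : Win K → ℤ) := by
  intro i i' h
  unfold wIdx at h
  apply Fin.ext
  omega

/-- **(E)** the functional of the extension is the functional of the data, seen from `[-T, T]` -/
theorem u4p_ext_W {W T T' : ℝ} (hW : T + T' ≤ W) {K : ℕ} (x : Win K → ℝ) {H : ℝ → ℝ} (hH : ∀ u, T' < |u| → H u = 0)
    {t : ℝ} (ht : |t| ≤ T) : u4W H (u4pExt W x) t = Real.exp (-∑ i : Win K, H (x i - t)) := by
  unfold u4W
  congr 2
  have key := (u4p_wIdx_inj K).tsum_eq (f := fun j => H (u4pExt W x j - t)) fun j hj => by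
    rw [Function.mem_support] at hj
    by_contra hcon
    apply hj
    apply hH
    rw [abs_le] at ht
    have hout : j < -(K : ℤ) ∨ (K : ℤ) < j := by
      by_contra h
      push Not at h
      apply hcon
      refine ⟨u4pIdx K j, ?_⟩
      unfold wIdx u4pIdx
      simp only
      omega
    rcases hout with h | h
    · rw [u4p_ext_left W x h]
      have h1 : (j : ℝ) + K < 0 := by
        have : (j : ℤ) + K < 0 := by omega
        exact_mod_cast this
      have h2 := min_le_right (x (u4pIdx K (-(K : ℤ)))) (-W)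
      exact lt_abs.2 (Or.inr (by linarith [ht.1, ht.2]))
    · rw [u4p_ext_right W x h]
      have h1 : 0 < (j : ℝ) - K := by
        have : (0 : ℤ) < j - K := by omega
        exact_mod_cast this
      have h2 := le_max_right (x (u4pIdx K K)) W
      exact lt_abs.2 (Or.inl (by linarith [ht.1, ht.2]))
  rw [tsum_fintype] at key
  rw [← key]
  refine Finset.sum_congr rfl fun i _ => ?_
  rw [u4p_ext_wIdx]

/-- window average over translations of the Laplace observable (`= b2Obs` of unit B2) -/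
noncomputable def u4pObs {K : ℕ} (H : ℝ → ℝ) (T : ℝ) (x : Win K → ℝ) : ℝ :=
  (2 * T)⁻¹ * ∫ t in (-T)..T, Real.exp (-∑ i, H (x i - t))

theorem u4p_obs_ext {W T T' : ℝ} (hW : T + T' ≤ W) {K : ℕ} (x : Win K → ℝ) {H : ℝ → ℝ} (hH : ∀ u, T' < |u| → H u = 0)
    (hT : 0 ≤ T) : u4pObs H T x = (2 * T)⁻¹ * ∫ t in (-T)..T, u4W H (u4pExt W x) t := by
  unfold u4pObs
  congr 1
  refine intervalIntegral.integral_congr fun t ht => ?_
  rw [Set.uIcc_of_le (by linarith)] at ht
  rw [u4p_ext_W hW x hH (abs_le.2 ht)]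

/-! ## 4. The pathwise comparison of two sorted data -/

open Classical in
/-- boundary cost of the label window `[a, b)` against the position window `[-T, T]` -/
noncomputable def u4pBd (A T : ℝ) (x : Conf) (a b : ℤ) : ℝ :=
  A * (((Finset.Ico a b).filter fun i => ¬(-T ≤ x i ∧ x (i + 1) ≤ T)).card : ℝ) + max 0 (x a + T) + max 0 (T - x b)

/-- the error observable: a combination of `u4pObs` of two functions of `C_c^+` -/
noncomputable def u4pErr {K : ℕ} (Th A c : ℝ) (M : ℕ) (T : ℝ) (x : Win K → ℝ) : ℝ :=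
  u4pObs (u4TentL A) T x + u4Kap c M * (1 - u4pObs (u4TentC c Th) T x)

theorem u4p_tentL_radius {A : ℝ} (hA : 0 ≤ A) (u : ℝ) (hu : A < |u|) : u4TentL A u = 0 := by
  rcases lt_abs.1 hu with h | h
  · exact u4_tentL_zero_right (by linarith) hA
  · exact u4_tentL_zero_left (by linarith) hA

theorem u4p_err_ext {K : ℕ} (x : Win K → ℝ) {Th A c : ℝ} (hTh : 0 ≤ Th) (hA : 0 ≤ A) (hc0 : 0 < c) (M : ℕ) {T : ℝ} (hT0 : 0 < T) :
    u4pErr Th A c M T x = (2 * T)⁻¹ * ∫ t in -T..T, u4E Th A c M (u4pExt (T + Th + 1 + A) x) t := by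
  unfold u4pErr
  rw [u4_E_int hc0, u4p_obs_ext (W := T + Th + 1 + A) (T' := A) (by linarith) x (u4p_tentL_radius hA) hT0.le,
    u4p_obs_ext (W := T + Th + 1 + A) (T' := Th + 1) (by linarith) x (fun u hu => u4_tentC_zero hu) hT0.le]
  field_simp

theorem u4p_F_mod {h : ℝ → ℝ} (hc : Continuous h) (hs : HasCompactSupport h) (hn : ∀ t, 0 ≤ h t) (M : ℕ) {A : ℝ}
    (hA : 0 ≤ A) {ε' : ℝ} (hε : 0 < ε') :
    ∃ η : ℝ, 0 < η ∧ ∀ g g' : Fin (2 * M + 1) → ℝ, (∀ k, |g k - g' k| ≤ η) → |u4F h M A g - u4F h M A g'| ≤ ε' := by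
  obtain ⟨δ, hδ, hh⟩ := Metric.uniformContinuous_iff.1 (u4_F_uc hc hs hn M hA) ε' hε
  refine ⟨δ / 2, by positivity, fun g g' hg => ?_⟩
  have h1 : dist g g' ≤ δ / 2 := (dist_pi_le_iff (by positivity)).2 fun k => by rw [Real.dist_eq]; exact hg k
  have := hh (lt_of_le_of_lt h1 (by linarith))
  rw [Real.dist_eq] at this
  exact this.le

/-- **(P)** pathwise comparison of the window averaged Laplace observables of two sorted data -/
theorem u4p_pair {K : ℕ} {x y : Win K → ℝ} (hx : Monotone x) (hy : Monotone y) {h : ℝ → ℝ} (hc : Continuous h) {Th : ℝ}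
    (hTh : 0 ≤ Th) (hT : ∀ u, Th < |u| → h u = 0) (hn : ∀ t, 0 ≤ h t) {M : ℕ} (hM : 1 ≤ M) {A : ℝ} (hA : 0 ≤ A)
    {c : ℝ} (hc0 : 0 < c) {T : ℝ} (hT0 : 0 < T) {η ε' η' : ℝ}
    (hmod : ∀ g g' : Fin (2 * M + 1) → ℝ, (∀ k, |g k - g' k| ≤ η) → |u4F h M A g - u4F h M A g'| ≤ ε') (hε : 0 ≤ ε')
    (hη' : (M : ℝ) * η' ≤ η) {a b : ℤ} (hab : a ≤ b) :
    |u4pObs h T x - u4pObs h T y| ≤ u4pErr Th A c M T x + u4pErr Th A c M T y
      + (2 * T)⁻¹ * (u4pBd A T (u4pExt (T + Th + 1 + A) x) a b + u4pBd A T (u4pExt (T + Th + 1 + A) y) a b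
        + ((b - a : ℤ) : ℝ) * ε'
        + 2 * A * (2 * (M : ℝ)) * ((u4pBad (u4pExt (T + Th + 1 + A) x) (u4pExt (T + Th + 1 + A) y) a b M η').card : ℝ)) := by
  set W := T + Th + 1 + A with hW
  set x' := u4pExt W x with hx'
  set y' := u4pExt W y with hy'
  have gx : U4Good 1 x' := u4p_ext_good W hx
  have gy : U4Good 1 y' := u4p_ext_good W hy
  have wx := u4p_window one_pos gx hc hT hn hM hA hc0 hT0.le hab
  have wy := u4p_window one_pos gy hc hT hn hM hA hc0 hT0.le hab
  have fs := u4p_F_sum (F := u4F h M A) (fun g => u4_F_bdd hn M hA g) hmod hε hη' x' y' hab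
  have fs' : |∑ i ∈ Finset.Ico a b, u4F h M A (u4Rel M x' i) - ∑ i ∈ Finset.Ico a b, u4F h M A (u4Rel M y' i)|
      ≤ ∑ i ∈ Finset.Ico a b, |u4F h M A (u4Rel M x' i) - u4F h M A (u4Rel M y' i)| := by
    rw [← Finset.sum_sub_distrib]; exact Finset.abs_sum_le_sum_abs _ _
  rw [u4p_obs_ext (W := W) (T' := Th) (by rw [hW]; linarith) x hT hT0.le,
    u4p_obs_ext (W := W) (T' := Th) (by rw [hW]; linarith) y hT hT0.le,
    u4p_err_ext x hTh hA hc0 M hT0, u4p_err_ext y hTh hA hc0 M hT0, ← hW, ← hx', ← hy', ← mul_sub, abs_mul,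
    abs_of_pos (show 0 < (2 * T)⁻¹ by positivity), ← mul_add, ← mul_add]
  refine mul_le_mul_of_nonneg_left ?_ (by positivity)
  unfold u4pBd
  rw [abs_le] at wx wy fs' ⊢
  constructor <;> linarith [wx.1, wx.2, wy.1, wy.2, fs'.1, fs'.2]

theorem u4p_eqns_cite : True := by
  have := @u4pClip.eq_1
  have := @u4pD.eq_1
  have := @u4pBad.eq_1
  have := @u4pIdx.eq_1
  have := @u4pExt.eq_1
  have := @u4pObs.eq_1
  have := @u4pBd.eq_1
  have := @u4pErr.eq_1
  trivial

/-! ## 5. Choice of the parameters -/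

theorem u4_good_of_lreg {ρ ξ : ℝ} {μ : Measure Conf} (hR : LReg ρ ξ μ) : ∀ᵐ x ∂μ, U4Good ρ x := by
  obtain ⟨χ, hχ, h⟩ := hR.pos
  filter_upwards [h] with x hx
  obtain ⟨C₀, J₀, hx⟩ := hx
  exact u4_good_of_creg hχ hx

theorem u4p_Q_mean_nonneg (μ : Measure Conf) [IsProbabilityMeasure μ] {c : ℝ} (hc0 : 0 < c) (Th : ℝ) :
    0 ≤ 1 - cLap μ (u4TentC c Th) := by
  rw [u4_cLap_zero, sub_nonneg]
  have := integral_mono_of_nonneg (μ := μ) (f := fun x => u4W (u4TentC c Th) x 0) (g := fun _ => (1 : ℝ))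
    (Eventually.of_forall fun x => (u4_W_pos _ _ _).le) (integrable_const _)
    (Eventually.of_forall fun x => u4_W_le_one (fun u => u4_tentC_nonneg hc0.le Th u) x 0)
  simpa using this

/-- the limits of the means of `u4pErr` can be made `≤ 3η` for both laws with the same parameters -/
theorem u4p_params {ρ : ℝ} (hρ : 0 < ρ) (μ₁ μ₂ : Measure Conf) [IsProbabilityMeasure μ₁] [IsProbabilityMeasure μ₂]
    (hg₁ : ∀ᵐ x ∂μ₁, U4Good ρ x) (hg₂ : ∀ᵐ x ∂μ₂, U4Good ρ x) (hT₁ : U4Shift μ₁) (hT₂ : U4Shift μ₂) (Th : ℝ)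
    {η : ℝ} (hη : 0 < η) :
    ∃ (A c : ℝ) (M : ℕ), 0 ≤ A ∧ 0 < c ∧ 1 ≤ M ∧
      cLap μ₁ (u4TentL A) + u4Kap c M * (1 - cLap μ₁ (u4TentC c Th)) ≤ 3 * η ∧
      cLap μ₂ (u4TentL A) + u4Kap c M * (1 - cLap μ₂ (u4TentC c Th)) ≤ 3 * η := by
  obtain ⟨nA, hA₁, hA₂⟩ : ∃ n : ℕ, cLap μ₁ (u4TentL n) < η ∧ cLap μ₂ (u4TentL n) < η :=
    (((u4_e1 hρ μ₁ hg₁ hT₁).eventually (gt_mem_nhds hη)).and
      ((u4_e1 hρ μ₂ hg₂ hT₂).eventually (gt_mem_nhds hη))).exists
  obtain ⟨nc, hc₁, hc₂⟩ : ∃ n : ℕ, 1 - cLap μ₁ (u4TentC (1 / ((n : ℝ) + 1)) Th) < η ∧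
      1 - cLap μ₂ (u4TentC (1 / ((n : ℝ) + 1)) Th) < η :=
    (((u4_e2 μ₁ Th).eventually (gt_mem_nhds hη)).and ((u4_e2 μ₂ Th).eventually (gt_mem_nhds hη))).exists
  have hc0 : (0 : ℝ) < 1 / ((nc : ℝ) + 1) := by positivity
  have hκ := u4_kap_le_two nc
  have hκ0 := u4_kap_pos hc0 (nc + 1)
  have q₁ := u4p_Q_mean_nonneg μ₁ hc0 Th
  have q₂ := u4p_Q_mean_nonneg μ₂ hc0 Th
  refine ⟨nA, 1 / ((nc : ℝ) + 1), nc + 1, Nat.cast_nonneg _, hc0, by omega, ?_, ?_⟩
  · nlinarith
  · nlinarith

end Claimed.Agent.R287
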