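-- KEEP
import Claimed.Agent.R287.Defs.U3
import Claimed.Agent.R287.U4P

/-!
# Row 287 (S0534), unit U3, sub-unit D7 = Lemma 11 in `b2Obs` form (helper197; prefix `u3c_`; exit `u3t_cmp` of `U3Top.lean`)

Pathwise comparison of the window averaged Laplace observables on a good pair, DETERMINISTIC, from the counting form `u3t_cnt` of D3r:
`|b2Obs h (L/2) x - b2Obs h (L/2) y| <= eps1 + L^(-1 + 9 eps) Dis(x, y)` for `L` large.

Route: `u4p_pair` (`U4P.lean`) with `T = L/2`, the cutoff `A = 2 g`, `g = M y` (the longest gap), and FIXED `m, c, eta, eta'`: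
* `u3c_F_mod`  modulus of continuity of the gap statistic `u4F`, uniform in the cutoff `A`;
* `u3c_void`   **(V)** every `t` has a point in `[t - 3A/4, t - A/4]`, so the void observable is `<= exp(-A/4)`;
* `u3c_Q`      **(Q)** `1 - u4pObs (tentC)` is at most `c (Th+1) 2(Th+1) #{points near the window}/(2T)` (sum and integral exchanged);
* `u3c_ab`, `u3c_rng`, `u3c_real`   a label window `[a, b]` fitting `[-T, T]` up to `g`; the labels within `m` of it are real labels of the core;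
* `u3c_bd_x`, `u3c_bd_y`, `u3c_len` boundary cost of the label window for both coordinates, its length;
* `u3c_bad`    the labels whose gaps differ by more than `eta'` are paid by `uwDis`;
* `u3c_core`   the comparison with all parameters explicit;   `u3c_pow`, `u3c_ev`: powers of `L`;   `u3c_main`: the exit.
-/

set_option autoImplicit false
open MeasureTheory ProbabilityTheory Filter Topology

namespace Claimed.Agent.R287

/-! ## 1. The gap statistic: a modulus which does not depend on the cutoff -/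


/-- integral of a nonnegative function bounded by `B` and supported in `[z - r, z + r]` -/
theorem u3c_int_le {f : ℝ → ℝ} {B z r a b : ℝ} (hab : a ≤ b) (hB : 0 ≤ B) (hr : 0 ≤ r) (h0 : ∀ s, 0 ≤ f s) (hf : ∀ s, f s ≤ B)
    (hz : ∀ s, r < |s - z| → f s = 0) : ∫ s in a..b, f s ≤ B * (2 * r) := by
  rw [intervalIntegral.integral_of_le hab]
  have hi : Integrable ((Set.Icc (z - r) (z + r)).indicator fun _ : ℝ => B) volume :=
    (integrable_indicator_iff measurableSet_Icc).2 (integrableOn_const (by simp))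
  have hle : ∀ s, f s ≤ (Set.Icc (z - r) (z + r)).indicator (fun _ : ℝ => B) s := by
    intro s
    by_cases hs : s ∈ Set.Icc (z - r) (z + r)
    · rw [Set.indicator_of_mem hs]; exact hf s
    · rw [Set.indicator_of_notMem hs]
      refine (hz s ?_).le
      by_contra hcon
      push Not at hcon
      rw [abs_le] at hcon
      exact hs ⟨by linarith [hcon.1], by linarith [hcon.2]⟩
  have h1 : ∫ s in Set.Ioc a b, f s ≤ ∫ s in Set.Ioc a b, (Set.Icc (z - r) (z + r)).indicator (fun _ : ℝ => B) s :=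
    integral_mono_of_nonneg (Eventually.of_forall h0) hi.integrableOn (Eventually.of_forall hle)
  have h2 : ∫ s in Set.Ioc a b, (Set.Icc (z - r) (z + r)).indicator (fun _ : ℝ => B) s
      ≤ ∫ s, (Set.Icc (z - r) (z + r)).indicator (fun _ : ℝ => B) s :=
    setIntegral_le_integral hi (Eventually.of_forall fun s => Set.indicator_nonneg (fun _ _ => hB) s)
  have h3 : ∫ s, (Set.Icc (z - r) (z + r)).indicator (fun _ : ℝ => B) s = 2 * r * B := by
    rw [integral_indicator_const _ measurableSet_Icc, Real.volume_real_Icc_of_le (by linarith), smul_eq_mul]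
    ring
  linarith

/-- modulus of continuity of `u4F`, UNIFORM in the cutoff `A` -/
theorem u3c_F_mod {h : ℝ → ℝ} (hc : Continuous h) (hs : HasCompactSupport h) (hn : ∀ t, 0 ≤ h t) {Th : ℝ} (hTh : 0 ≤ Th)
    (hT : ∀ u, Th < |u| → h u = 0) (M : ℕ) {ε' : ℝ} (hε : 0 < ε') :
    ∃ η : ℝ, 0 < η ∧ ∀ A : ℝ, 0 ≤ A → ∀ g g' : Fin (2 * M + 1) → ℝ, (∀ k, |g k - g' k| ≤ η) →
      |u4F h M A g - u4F h M A g'| ≤ ε' := by
  have huc : UniformContinuous h := hs.uniformContinuous_of_continuous hc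
  rw [Metric.uniformContinuous_iff] at huc
  set n : ℝ := 2 * (M : ℝ) + 1 with hn'
  have hnpos : 0 < n := by positivity
  set ω : ℝ := ε' / (2 * n * (2 * (Th + 1))) with hω
  have hωpos : 0 < ω := by positivity
  obtain ⟨δ, hδ, hh⟩ := huc ω hωpos
  refine ⟨min (δ / 2) (min (ε' / 2) 1), by positivity, fun A hA g g' hgg => ?_⟩
  have hcd : ∀ a, |g a - g' a| < δ := fun a =>
    lt_of_le_of_lt ((hgg a).trans (min_le_left _ _)) (by linarith)
  have hc1 : ∀ a, |g a - g' a| ≤ 1 := fun a => (hgg a).trans ((min_le_right _ _).trans (min_le_right _ _))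
  have hc2 : ∀ a, |g a - g' a| ≤ ε' / 2 := fun a => (hgg a).trans ((min_le_right _ _).trans (min_le_left _ _))
  set e : (Fin (2 * M + 1) → ℝ) → ℝ → ℝ := fun g s => Real.exp (-∑ a, h (g a - s)) with he
  set d : Fin (2 * M + 1) → ℝ → ℝ := fun a s => |h (g a - s) - h (g' a - s)| with hd
  have hdc : ∀ a, Continuous (d a) := fun a =>
    ((hc.comp (continuous_const.sub continuous_id)).sub (hc.comp (continuous_const.sub continuous_id))).abs
  have hpt : ∀ s, |e g s - e g' s| ≤ ∑ a, d a s := by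
    intro s
    refine (u4_exp_lip (Finset.sum_nonneg fun a _ => hn _) (Finset.sum_nonneg fun a _ => hn _)).trans ?_
    rw [← Finset.sum_sub_distrib]
    exact Finset.abs_sum_le_sum_abs _ _
  have hdω : ∀ a s, d a s ≤ ω := by
    intro a s
    have h1 : dist (g a - s) (g' a - s) < δ := by
      rw [Real.dist_eq]
      have : g a - s - (g' a - s) = g a - g' a := by ring
      rw [this]
      exact hcd a
    have := hh h1
    rw [Real.dist_eq] at this
    exact this.le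
  have hdz : ∀ a s, Th + 1 < |s - g a| → d a s = 0 := by
    intro a s hs
    have h1 : Th < |g a - s| := by rw [abs_sub_comm]; linarith
    have h2 : Th < |g' a - s| := by
      have e1 : g a - s = (g' a - s) + (g a - g' a) := by ring
      have := abs_add_le (g' a - s) (g a - g' a)
      rw [← e1, abs_sub_comm (g a) s] at this
      linarith [hc1 a]
    simp only [hd]
    rw [hT _ h1, hT _ h2, sub_self, abs_zero]
  set c : ℝ := max 0 (min (g (u4Nx M)) A) with hcdef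
  set c' : ℝ := max 0 (min (g' (u4Nx M)) A) with hcdef'
  have hc0 : 0 ≤ c := le_max_left _ _
  have hi : ∀ (g : Fin (2 * M + 1) → ℝ) (a b : ℝ), IntervalIntegrable (e g) volume a b :=
    fun g a b => (u4_F_integrand_cont hc g).intervalIntegrable a b
  have hsplit : u4F h M A g - u4F h M A g' = (∫ s in (0 : ℝ)..c, (e g s - e g' s)) + ∫ s in c'..c, e g' s := by
    unfold u4F
    rw [intervalIntegral.integral_sub (hi g _ _) (hi g' _ _),
      ← intervalIntegral.integral_add_adjacent_intervals (hi g' 0 c') (hi g' c' c)]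
    ring
  have hb1 : |∫ s in (0 : ℝ)..c, (e g s - e g' s)| ≤ n * (ω * (2 * (Th + 1))) := by
    have s1 : |∫ s in (0 : ℝ)..c, (e g s - e g' s)| ≤ ∫ s in (0 : ℝ)..c, |e g s - e g' s| :=
      intervalIntegral.abs_integral_le_integral_abs hc0
    have s2 : ∫ s in (0 : ℝ)..c, |e g s - e g' s| ≤ ∫ s in (0 : ℝ)..c, ∑ a, d a s :=
      intervalIntegral.integral_mono_on hc0 ((hi g _ _).sub (hi g' _ _)).abs
        ((continuous_finsetSum _ fun a _ => hdc a).intervalIntegrable _ _) fun s _ => hpt s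
    rw [intervalIntegral.integral_finsetSum fun a _ => (hdc a).intervalIntegrable _ _] at s2
    have s3 : ∑ a, ∫ s in (0 : ℝ)..c, d a s ≤ ∑ _a : Fin (2 * M + 1), ω * (2 * (Th + 1)) :=
      Finset.sum_le_sum fun a _ => u3c_int_le hc0 hωpos.le (by linarith) (fun s => abs_nonneg _) (hdω a) (hdz a)
    rw [Finset.sum_const, Finset.card_univ, Fintype.card_fin, nsmul_eq_mul] at s3
    push_cast at s3
    rw [← hn'] at s3
    linarith
  have hb2 : |∫ s in c'..c, e g' s| ≤ |g (u4Nx M) - g' (u4Nx M)| := by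
    have := intervalIntegral.norm_integral_le_of_norm_le_const (a := c') (b := c) (C := 1)
      (f := fun s => e g' s) (fun s _ => by
        rw [Real.norm_eq_abs, abs_of_pos (Real.exp_pos _), Real.exp_le_one_iff, neg_nonpos]
        exact Finset.sum_nonneg fun _ _ => hn _)
    rw [Real.norm_eq_abs, one_mul] at this
    exact this.trans (u4_clamp_lip _ _ _)
  have hb3 : n * (ω * (2 * (Th + 1))) = ε' / 2 := by
    rw [hω]; field_simp
  rw [hsplit]
  calc _ ≤ |∫ s in (0 : ℝ)..c, (e g s - e g' s)| + |∫ s in c'..c, e g' s| := abs_add_le _ _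
    _ ≤ ε' := by linarith [hc2 (u4Nx M)]

/-! ## 2. The two error observables -/


theorem u3c_obs_cont {K : ℕ} {H : ℝ → ℝ} (hH : Continuous H) (z : Win K → ℝ) :
    Continuous fun t : ℝ => Real.exp (-∑ i, H (z i - t)) :=
  Real.continuous_exp.comp (Continuous.neg (continuous_finsetSum _ fun _ _ => hH.comp (continuous_const.sub continuous_id)))

/-- **(V)** no void of length `A/2` near `[-T, T]`: the void observable is exponentially small -/
theorem u3c_void {K : ℕ} (z : Win K → ℝ) {A T : ℝ} (hT : 0 < T)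
    (hpt : ∀ t, -T ≤ t → t ≤ T → ∃ i, t - 3 * A / 4 ≤ z i ∧ z i ≤ t - A / 4) :
    u4pObs (u4TentL A) T z ≤ Real.exp (-(A / 4)) := by
  unfold u4pObs
  have h1 : ∫ t in (-T)..T, Real.exp (-∑ i, u4TentL A (z i - t)) ≤ ∫ _t in (-T)..T, Real.exp (-(A / 4)) := by
    refine intervalIntegral.integral_mono_on (by linarith) ((u3c_obs_cont (u4_tentL_cont A) z).intervalIntegrable _ _)
      intervalIntegrable_const fun t ht => ?_
    obtain ⟨i, hi1, hi2⟩ := hpt t ht.1 ht.2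
    rw [Real.exp_le_exp, neg_le_neg_iff]
    have h2 : u4TentL A (z i - t) ≤ ∑ i, u4TentL A (z i - t) :=
      Finset.single_le_sum (f := fun i => u4TentL A (z i - t)) (fun j _ => u4_tentL_nonneg A _) (Finset.mem_univ i)
    refine le_trans ?_ h2
    unfold u4TentL
    refine le_trans ?_ (u4_tent_ge _ _)
    have h3 : |z i - t - -(A / 2)| ≤ A / 4 := by
      rw [abs_le]; constructor <;> linarith
    linarith
  rw [intervalIntegral.integral_const, smul_eq_mul] at h1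
  have h2 : (2 * T)⁻¹ * (∫ t in (-T)..T, Real.exp (-∑ i, u4TentL A (z i - t))) ≤ (2 * T)⁻¹ * ((T - -T) * Real.exp (-(A / 4))) :=
    mul_le_mul_of_nonneg_left h1 (by positivity)
  refine h2.trans (le_of_eq ?_)
  field_simp
  ring

/-- **(Q)** the crowding observable is controlled by the number of points near the window -/
theorem u3c_Q {K : ℕ} (z : Win K → ℝ) {c Th T : ℝ} (hc : 0 ≤ c) (hTh : 0 ≤ Th) (hT : 0 < T) :
    1 - u4pObs (u4TentC c Th) T z ≤ (2 * T)⁻¹ * (c * (Th + 1) * (2 * (Th + 1))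
      * ((Finset.univ.filter fun i => -(T + Th + 1) ≤ z i ∧ z i ≤ T + Th + 1).card : ℝ)) := by
  unfold u4pObs
  have hcont := u3c_obs_cont (u4_tentC_cont c Th) z
  have hSc : ∀ i, Continuous fun t : ℝ => u4TentC c Th (z i - t) := fun i =>
    (u4_tentC_cont c Th).comp (continuous_const.sub continuous_id)
  have e1 : 1 - (2 * T)⁻¹ * (∫ t in (-T)..T, Real.exp (-∑ i, u4TentC c Th (z i - t)))
      = (2 * T)⁻¹ * ∫ t in (-T)..T, (1 - Real.exp (-∑ i, u4TentC c Th (z i - t))) := by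
    rw [intervalIntegral.integral_sub intervalIntegrable_const (hcont.intervalIntegrable _ _), intervalIntegral.integral_const,
      smul_eq_mul]
    field_simp
    ring
  rw [e1]
  refine mul_le_mul_of_nonneg_left ?_ (by positivity)
  have h1 : ∫ t in (-T)..T, (1 - Real.exp (-∑ i, u4TentC c Th (z i - t))) ≤ ∫ t in (-T)..T, ∑ i, u4TentC c Th (z i - t) := by
    refine intervalIntegral.integral_mono_on (by linarith) ((continuous_const.sub hcont).intervalIntegrable _ _)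
      ((continuous_finsetSum _ fun i _ => hSc i).intervalIntegrable _ _) fun t _ => ?_
    have := Real.add_one_le_exp (-∑ i, u4TentC c Th (z i - t))
    linarith
  rw [intervalIntegral.integral_finsetSum fun i _ => (hSc i).intervalIntegrable _ _] at h1
  refine h1.trans ?_
  rw [Finset.card_filter]
  push_cast
  rw [Finset.mul_sum]
  refine Finset.sum_le_sum fun i _ => ?_
  by_cases hin : -(T + Th + 1) ≤ z i ∧ z i ≤ T + Th + 1
  · rw [if_pos hin, mul_one]
    refine u3c_int_le (z := z i) (by linarith) (by positivity) (by linarith) (fun s => u4_tentC_nonneg hc Th _) (fun s => ?_) fun s hs => ?_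
    · unfold u4TentC u4Tent
      refine mul_le_mul_of_nonneg_left (max_le (by linarith) ?_) hc
      linarith [abs_nonneg (z i - s)]
    · exact u4_tentC_zero (by rw [abs_sub_comm]; exact hs)
  · rw [if_neg hin, mul_zero]
    refine le_of_eq ?_
    have : ∀ t ∈ Set.uIcc (-T) T, u4TentC c Th (z i - t) = 0 := by
      intro t ht
      rw [Set.uIcc_of_le (by linarith)] at ht
      apply u4_tentC_zero
      by_contra hcon
      push Not at hcon
      rw [abs_le] at hcon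
      exact hin ⟨by linarith [hcon.1, ht.1], by linarith [hcon.2, ht.2]⟩
    rw [intervalIntegral.integral_congr this]
    simp

/-! ## 3. One regular coordinate: labels and counting -/


/-- what `u3t_cnt` gives for one coordinate: counting at scales `≥ yL`, no gap longer than `g` -/
structure U3cReg {K : ℕ} (L g C yL : ℝ) (z : Dat K) : Prop where
  mono : Monotone z
  cnt : ∀ a b : ℝ, -(4 * L) ≤ a → b ≤ 4 * L → yL ≤ b - a →
    ((Finset.univ.filter fun i => a ≤ z i ∧ z i ≤ b).card : ℝ) ≤ C * (b - a)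
  pt : ∀ a b : ℝ, -(3 * L) ≤ a → b ≤ 3 * L → g ≤ b - a → ∃ i, a ≤ z i ∧ z i ≤ b

theorem u3c_real {K : ℕ} {L g C yL : ℝ} {z : Dat K} (hz : U3cReg L g C yL z) (hL : 0 ≤ L) (hg : g ≤ L) (W : ℝ) {j : ℤ}
    (hj : |u4pExt W z j| ≤ 2 * L) : -(K : ℤ) ≤ j ∧ j ≤ K := by
  rw [abs_le] at hj
  constructor
  · by_contra hcon
    push Not at hcon
    obtain ⟨i, _, hi2⟩ := hz.pt (-(3 * L)) (-(3 * L) + g) le_rfl (by linarith) (by linarith)
    have h1 : z (u4pIdx K (-(K : ℤ))) ≤ z i := hz.mono (by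
      rw [Fin.le_def]; unfold u4pIdx; simp)
    have h2 := u4p_ext_left W z hcon
    have h3 : (j : ℝ) + K < 0 := by
      have : (j : ℤ) + K < 0 := by omega
      exact_mod_cast this
    have h4 := min_le_left (z (u4pIdx K (-(K : ℤ)))) (-W)
    linarith [hj.1]
  · by_contra hcon
    push Not at hcon
    obtain ⟨i, hi1, _⟩ := hz.pt (3 * L - g) (3 * L) (by linarith) le_rfl (by linarith)
    have h1 : z i ≤ z (u4pIdx K K) := hz.mono (by
      rw [Fin.le_def]; unfold u4pIdx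
      have := i.isLt
      simp only
      omega)
    have h2 := u4p_ext_right W z hcon
    have h3 : 0 < (j : ℝ) - K := by
      have : (0 : ℤ) < j - K := by omega
      exact_mod_cast this
    have h4 := le_max_left (z (u4pIdx K K)) W
    linarith [hj.2]

theorem u3c_prev {K : ℕ} {L g C yL : ℝ} {z : Dat K} (hz : U3cReg L g C yL z) (hg : g + 1 ≤ L) (W : ℝ) {j : ℤ}
    (hj : |u4pExt W z j| ≤ 2 * L) : u4pExt W z j - (g + 1) ≤ u4pExt W z (j - 1) := by
  rw [abs_le] at hj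
  obtain ⟨i, hi1, hi2⟩ := hz.pt (u4pExt W z j - (g + 1)) (u4pExt W z j - 1) (by linarith [hj.1]) (by linarith [hj.2]) (by linarith)
  have hlt : wIdx i < j := by
    by_contra hcon
    push Not at hcon
    have := u4p_ext_mono W hz.mono hcon
    rw [u4p_ext_wIdx] at this
    linarith
  have := u4p_ext_mono W hz.mono (show wIdx i ≤ j - 1 by omega)
  rw [u4p_ext_wIdx] at this
  linarith

theorem u3c_next {K : ℕ} {L g C yL : ℝ} {z : Dat K} (hz : U3cReg L g C yL z) (hg : g + 1 ≤ L) (W : ℝ) {j : ℤ}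
    (hj : |u4pExt W z j| ≤ 2 * L) : u4pExt W z (j + 1) ≤ u4pExt W z j + (g + 1) := by
  rw [abs_le] at hj
  obtain ⟨i, hi1, hi2⟩ := hz.pt (u4pExt W z j + 1) (u4pExt W z j + (g + 1)) (by linarith [hj.1]) (by linarith [hj.2]) (by linarith)
  have hlt : j < wIdx i := by
    by_contra hcon
    push Not at hcon
    have := u4p_ext_mono W hz.mono hcon
    rw [u4p_ext_wIdx] at this
    linarith
  have := u4p_ext_mono W hz.mono (show j + 1 ≤ wIdx i by omega)
  rw [u4p_ext_wIdx] at this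
  linarith

theorem u3c_walk_left {K : ℕ} {L g C yL : ℝ} {z : Dat K} (hz : U3cReg L g C yL z) (hg0 : 0 ≤ g) (hg : g + 1 ≤ L) (W : ℝ) (j : ℤ)
    (k : ℕ) (hk : |u4pExt W z j| + k * (g + 1) ≤ 2 * L) : u4pExt W z j - k * (g + 1) ≤ u4pExt W z (j - k) := by
  induction k with
  | zero => simp
  | succ k ih =>
    push_cast at hk ⊢
    have ih' := ih (by nlinarith)
    have hm := u4p_ext_mono W hz.mono (show j - (k : ℤ) ≤ j by omega)
    have ha := abs_le.1 (le_refl |u4pExt W z j|)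
    have hk0 : (0 : ℝ) ≤ k := Nat.cast_nonneg k
    have hb : |u4pExt W z (j - k)| ≤ 2 * L := by
      rw [abs_le]
      constructor
      · nlinarith [ha.1]
      · nlinarith [ha.2]
    have := u3c_prev hz hg W hb
    have e : j - ((k : ℤ) + 1) = j - k - 1 := by ring
    rw [e]
    linarith

theorem u3c_walk_right {K : ℕ} {L g C yL : ℝ} {z : Dat K} (hz : U3cReg L g C yL z) (hg0 : 0 ≤ g) (hg : g + 1 ≤ L) (W : ℝ) (j : ℤ)
    (k : ℕ) (hk : |u4pExt W z j| + k * (g + 1) ≤ 2 * L) : u4pExt W z (j + k) ≤ u4pExt W z j + k * (g + 1) := by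
  induction k with
  | zero => simp
  | succ k ih =>
    push_cast at hk ⊢
    have ih' := ih (by nlinarith)
    have hm := u4p_ext_mono W hz.mono (show j ≤ j + (k : ℤ) by omega)
    have ha := abs_le.1 (le_refl |u4pExt W z j|)
    have hk0 : (0 : ℝ) ≤ k := Nat.cast_nonneg k
    have hb : |u4pExt W z (j + k)| ≤ 2 * L := by
      rw [abs_le]
      constructor
      · nlinarith [ha.1]
      · nlinarith [ha.2]
    have := u3c_next hz hg W hb
    have e : j + ((k : ℤ) + 1) = j + k + 1 := by ring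
    rw [e]
    linarith

/-- counting transfer: integer labels to window indices -/
theorem u3c_card {K : ℕ} (z : Dat K) (W a b : ℝ) (S : Finset ℤ)
    (hS : ∀ j ∈ S, (-(K : ℤ) ≤ j ∧ j ≤ K) ∧ a ≤ u4pExt W z j ∧ u4pExt W z j ≤ b) :
    S.card ≤ (Finset.univ.filter fun i => a ≤ z i ∧ z i ≤ b).card := by
  refine Finset.card_le_card_of_injOn (u4pIdx K) (fun j hj => ?_) fun j hj j' hj' heq => ?_
  · obtain ⟨⟨h1, h2⟩, h3, h4⟩ := hS j hj
    rw [u4p_ext_mid W z h1 h2] at h3 h4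
    simp only [Finset.coe_filter, Finset.mem_univ, true_and, Set.mem_ofPred_eq]
    exact ⟨h3, h4⟩
  · obtain ⟨⟨h1, h2⟩, _⟩ := hS j hj
    obtain ⟨⟨h1', h2'⟩, _⟩ := hS j' hj'
    unfold u4pIdx at heq
    rw [Fin.ext_iff] at heq
    simp only at heq
    omega

theorem u3c_card_le {K : ℕ} {L g C yL : ℝ} {z : Dat K} (hz : U3cReg L g C yL z) (W : ℝ) {a b : ℝ} (ha : -(4 * L) ≤ a) (hb : b ≤ 4 * L)
    (hab : yL ≤ b - a) (S : Finset ℤ) (hS : ∀ j ∈ S, (-(K : ℤ) ≤ j ∧ j ≤ K) ∧ a ≤ u4pExt W z j ∧ u4pExt W z j ≤ b) :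
    (S.card : ℝ) ≤ C * (b - a) :=
  le_trans (by exact_mod_cast u3c_card z W a b S hS) (hz.cnt a b ha hb hab)

/-! ## 4. The label window -/


/-- a label window `[a, b]` which fits the position window `[-T, T]` up to `g` -/
theorem u3c_ab {K : ℕ} {L g C yL : ℝ} {z : Dat K} (hz : U3cReg L g C yL z) (hg0 : 0 ≤ g) (W : ℝ) {T : ℝ} (hT : T ≤ 3 * L) (hgT : g < T) :
    ∃ a b : ℤ, a ≤ b ∧ -T ≤ u4pExt W z a ∧ u4pExt W z a ≤ -T + g ∧ T - g ≤ u4pExt W z b ∧ u4pExt W z b ≤ T := by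
  obtain ⟨i, hi1, hi2⟩ := hz.pt (-T) (-T + g) (by linarith) (by linarith) (by linarith)
  obtain ⟨i', hi1', hi2'⟩ := hz.pt (T - g) T (by linarith) hT (by linarith)
  refine ⟨wIdx i, wIdx i', ?_, ?_, ?_, ?_, ?_⟩
  · by_contra hcon
    push Not at hcon
    have := u4p_ext_mono W hz.mono hcon.le
    rw [u4p_ext_wIdx, u4p_ext_wIdx] at this
    linarith
  all_goals rw [u4p_ext_wIdx]; assumption

/-- the labels within `m` of the label window stay within `m (g + 1)` of the position window -/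
theorem u3c_rng {K : ℕ} {L g C yL : ℝ} {z : Dat K} (hz : U3cReg L g C yL z) (hg0 : 0 ≤ g) (hg : g + 1 ≤ L) (W : ℝ) {T : ℝ} (hgT : g < T)
    {a b : ℤ} (ha1 : -T ≤ u4pExt W z a) (ha2 : u4pExt W z a ≤ -T + g) (hb1 : T - g ≤ u4pExt W z b) (hb2 : u4pExt W z b ≤ T)
    (m : ℕ) (hm : T + m * (g + 1) ≤ 2 * L) {j : ℤ} (hj1 : a - m ≤ j) (hj2 : j ≤ b + m) : |u4pExt W z j| ≤ T + m * (g + 1) := by
  have hA : |u4pExt W z a| ≤ T := abs_le.2 ⟨ha1, by linarith⟩
  have hB : |u4pExt W z b| ≤ T := abs_le.2 ⟨by linarith, hb2⟩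
  have h1 := u3c_walk_left hz hg0 hg W a m (by linarith)
  have h2 := u3c_walk_right hz hg0 hg W b m (by linarith)
  have h3 := u4p_ext_mono W hz.mono hj1
  have h4 := u4p_ext_mono W hz.mono hj2
  rw [abs_le]
  constructor <;> linarith

theorem u3c_al_ext {K : ℕ} {x y : Dat K} {L D : ℝ} (hal : ∀ i, |x i| ≤ L → |y i - x i| ≤ D) (W : ℝ) {j : ℤ} (h1 : -(K : ℤ) ≤ j)
    (h2 : j ≤ K) (hj : |u4pExt W x j| ≤ L) : |u4pExt W y j - u4pExt W x j| ≤ D := by
  rw [u4p_ext_mid W x h1 h2] at hj ⊢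
  rw [u4p_ext_mid W y h1 h2]
  exact hal _ hj

theorem u3c_bd_x {x : Conf} (hx : Monotone x) {A T g : ℝ} (hg0 : 0 ≤ g) {a b : ℤ} (ha1 : -T ≤ x a) (ha2 : x a ≤ -T + g) (hb1 : T - g ≤ x b)
    (hb2 : x b ≤ T) : u4pBd A T x a b ≤ 2 * g := by
  unfold u4pBd
  have h0 : ((Finset.Ico a b).filter fun i => ¬(-T ≤ x i ∧ x (i + 1) ≤ T)) = ∅ := by
    rw [Finset.filter_eq_empty_iff]
    intro i hi
    rw [Finset.mem_Ico] at hi
    rw [not_not]
    exact ⟨ha1.trans (hx hi.1), (hx (show i + 1 ≤ b by omega)).trans hb2⟩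
  rw [h0, Finset.card_empty, Nat.cast_zero, mul_zero, zero_add]
  have h1 : max 0 (x a + T) ≤ g := max_le hg0 (by linarith)
  have h2 : max 0 (T - x b) ≤ g := max_le hg0 (by linarith)
  linarith

/-! ## 5. Boundary cost, length, bad labels -/


/-- the labels of the window are real labels, and the two coordinates are aligned there -/
theorem u3c_key {K : ℕ} {x y : Dat K} {L g C yL D : ℝ} (hx : U3cReg L g C yL x) (hal : ∀ i, |x i| ≤ L → |y i - x i| ≤ D) (hL : 0 ≤ L)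
    (hgL : g ≤ L) (W : ℝ) {T : ℝ} (hTL : T ≤ L) {a b : ℤ} (ha1 : -T ≤ u4pExt W x a) (hb2 : u4pExt W x b ≤ T) {j : ℤ} (h1 : a ≤ j)
    (h2 : j ≤ b) : (-(K : ℤ) ≤ j ∧ j ≤ K) ∧ |u4pExt W y j - u4pExt W x j| ≤ D ∧ -T ≤ u4pExt W x j ∧ u4pExt W x j ≤ T := by
  have m1 := u4p_ext_mono W hx.mono h1
  have m2 := u4p_ext_mono W hx.mono h2
  have hab : |u4pExt W x j| ≤ T := abs_le.2 ⟨by linarith, by linarith⟩
  have hr := u3c_real hx hL hgL W (hab.trans (by linarith))
  exact ⟨hr, u3c_al_ext hal W hr.1 hr.2 (hab.trans hTL), by linarith, by linarith⟩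

open Classical in
theorem u3c_bd_y {K : ℕ} {x y : Dat K} {L g C yL D : ℝ} (hx : U3cReg L g C yL x) (hy : U3cReg L g C yL y)
    (hal : ∀ i, |x i| ≤ L → |y i - x i| ≤ D) (hL : 0 ≤ L) (hg0 : 0 ≤ g) (hgL : g ≤ L) (hD : 0 ≤ D) (W : ℝ) {A T : ℝ} (hA : 0 ≤ A)
    (hT0 : 0 ≤ T) (hTL : T ≤ L) (hfar : T + D + yL ≤ 4 * L) (hy0 : 0 ≤ yL) {a b : ℤ} (hab : a ≤ b) (ha1 : -T ≤ u4pExt W x a)
    (ha2 : u4pExt W x a ≤ -T + g) (hb1 : T - g ≤ u4pExt W x b) (hb2 : u4pExt W x b ≤ T) :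
    u4pBd A T (u4pExt W y) a b ≤ A * (2 * (C * (D + yL))) + 2 * (g + D) := by
  have key := fun {j : ℤ} (h1 : a ≤ j) (h2 : j ≤ b) => u3c_key (y := y) hx hal hL hgL W hTL ha1 hb2 h1 h2
  unfold u4pBd
  set F₁ : Finset ℤ := (Finset.Ico a b).filter fun i => u4pExt W y i < -T with hF₁
  set F₂ : Finset ℤ := ((Finset.Ico a b).filter fun i => T < u4pExt W y (i + 1)).image (fun i => i + 1) with hF₂
  have c1 : (F₁.card : ℝ) ≤ C * (-T - (-T - (D + yL))) := by
    refine u3c_card_le hy W (by linarith) (by linarith) (by linarith) F₁ fun j hj => ?_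
    rw [hF₁, Finset.mem_filter, Finset.mem_Ico] at hj
    obtain ⟨k1, k2, k3, k4⟩ := key hj.1.1 hj.1.2.le
    rw [abs_le] at k2
    exact ⟨k1, by linarith [k2.1], hj.2.le⟩
  have c2 : (F₂.card : ℝ) ≤ C * (T + (D + yL) - T) := by
    refine u3c_card_le hy W (by linarith) (by linarith) (by linarith) F₂ fun j hj => ?_
    rw [hF₂, Finset.mem_image] at hj
    obtain ⟨i, hi, rfl⟩ := hj
    rw [Finset.mem_filter, Finset.mem_Ico] at hi
    obtain ⟨k1, k2, k3, k4⟩ := key (show a ≤ i + 1 by omega) (show i + 1 ≤ b by omega)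
    rw [abs_le] at k2
    exact ⟨k1, hi.2.le, by linarith [k2.2]⟩
  have c3 : F₂.card = ((Finset.Ico a b).filter fun i => T < u4pExt W y (i + 1)).card :=
    Finset.card_image_of_injective _ (add_left_injective 1)
  have c4 : ((Finset.Ico a b).filter fun i => ¬(-T ≤ u4pExt W y i ∧ u4pExt W y (i + 1) ≤ T)).card ≤ F₁.card + F₂.card := by
    rw [c3]
    refine le_trans (Finset.card_le_card fun i hi => ?_) (Finset.card_union_le _ _)
    rw [Finset.mem_filter] at hi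
    rw [Finset.mem_union, hF₁, Finset.mem_filter, Finset.mem_filter]
    by_cases h : u4pExt W y i < -T
    · exact Or.inl ⟨hi.1, h⟩
    · refine Or.inr ⟨hi.1, ?_⟩
      by_contra h'
      exact hi.2 ⟨not_lt.1 h, not_lt.1 h'⟩
  have c5 : (((Finset.Ico a b).filter fun i => ¬(-T ≤ u4pExt W y i ∧ u4pExt W y (i + 1) ≤ T)).card : ℝ) ≤ 2 * (C * (D + yL)) := by
    have : (((Finset.Ico a b).filter fun i => ¬(-T ≤ u4pExt W y i ∧ u4pExt W y (i + 1) ≤ T)).card : ℝ)
        ≤ (F₁.card : ℝ) + (F₂.card : ℝ) := by exact_mod_cast c4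
    have e1 : -T - (-T - (D + yL)) = D + yL := by ring
    have e2 : T + (D + yL) - T = D + yL := by ring
    rw [e1] at c1
    rw [e2] at c2
    linarith
  obtain ⟨_, ka, _, _⟩ := key le_rfl hab
  obtain ⟨_, kb, _, _⟩ := key hab le_rfl
  rw [abs_le] at ka kb
  have h1 : max 0 (u4pExt W y a + T) ≤ g + D := max_le (by linarith) (by linarith [ka.2])
  have h2 : max 0 (T - u4pExt W y b) ≤ g + D := max_le (by linarith) (by linarith [kb.1])
  have h3 := mul_le_mul_of_nonneg_left c5 hA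
  linarith

theorem u3c_len {K : ℕ} {x : Dat K} {L g C yL : ℝ} (hx : U3cReg L g C yL x) (hL : 0 ≤ L) (hgL : g ≤ L) (W : ℝ) {T : ℝ}
    (hTL : T ≤ L) (hyT : yL ≤ 2 * T) {a b : ℤ} (hab : a ≤ b) (ha1 : -T ≤ u4pExt W x a) (hb2 : u4pExt W x b ≤ T) :
    ((b - a : ℤ) : ℝ) ≤ C * (2 * T) := by
  have h1 : ((Finset.Ico a b).card : ℝ) ≤ C * (T - -T) := by
    refine u3c_card_le hx W (by linarith) (by linarith) (by linarith) _ fun j hj => ?_
    rw [Finset.mem_Ico] at hj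
    obtain ⟨k1, _, k3, k4⟩ := u3c_key (y := x) (D := 0) hx (fun i _ => by simp) hL hgL W hTL ha1 hb2 hj.1 hj.2.le
    exact ⟨k1, k3, k4⟩
  rw [Int.card_Ico] at h1
  have h2 : (((b - a).toNat : ℤ) : ℝ) = ((b - a : ℤ) : ℝ) := by rw [Int.toNat_of_nonneg (by omega)]
  rw [Int.cast_natCast] at h2
  rw [h2] at h1
  have e : T - -T = 2 * T := by ring
  rwa [e] at h1

theorem u3c_gapD {K : ℕ} (x y : Dat K) (W : ℝ) (J : Fin (2 * K)) :
    u4pExt W x ((J.val : ℤ) - K) = x J.castSucc ∧ u4pExt W x ((J.val : ℤ) - K + 1) = x J.succ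
      ∧ u4pD (u4pExt W x) (u4pExt W y) ((J.val : ℤ) - K) = -uwGapD x y J := by
  have e1 : ((J.val : ℤ) - K) = wIdx (K := K) J.castSucc := by unfold wIdx; simp
  have e2 : ((J.val : ℤ) - K + 1) = wIdx (K := K) J.succ := by unfold wIdx; simp; ring
  unfold u4pD uwGapD
  rw [e2, e1, u4p_ext_wIdx, u4p_ext_wIdx, u4p_ext_wIdx, u4p_ext_wIdx]
  exact ⟨rfl, rfl, by ring⟩

open Classical in
/-- the bad labels are paid by the dissipation -/
theorem u3c_bad {K : ℕ} (x y : Dat K) (W L : ℝ) {η' : ℝ} (hη : 0 ≤ η') (S : Finset ℤ)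
    (hS : ∀ j ∈ S, (-(K : ℤ) ≤ j ∧ j + 1 ≤ K) ∧ |u4pExt W x j| ≤ 3 * L / 4 ∧ |u4pExt W x (j + 1)| ≤ 3 * L / 4
      ∧ η' < |u4pD (u4pExt W x) (u4pExt W y) j|) : (S.card : ℝ) * η' ^ 2 ≤ uwDis L x y := by
  set φ : Fin (2 * K) → ℤ := fun J => (J.val : ℤ) - K with hφ
  have hinj : Function.Injective φ := by
    intro J J' h
    simp only [hφ] at h
    apply Fin.ext
    omega
  have hsub : S ⊆ (Finset.univ.filter fun J : Fin (2 * K) => uwCore L x J).image φ := by
    intro j hj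
    obtain ⟨⟨h1, h2⟩, h3, h4, _⟩ := hS j hj
    rw [Finset.mem_image]
    have hlt : (j + K).toNat < 2 * K := by omega
    have e : φ ⟨(j + K).toNat, hlt⟩ = j := by
      simp only [hφ]
      omega
    refine ⟨⟨(j + K).toNat, hlt⟩, ?_, e⟩
    rw [Finset.mem_filter]
    refine ⟨Finset.mem_univ _, ?_⟩
    obtain ⟨g1, g2, _⟩ := u3c_gapD x y W ⟨(j + K).toNat, hlt⟩
    simp only [hφ] at e
    rw [e] at g1 g2
    unfold uwCore
    rw [← g1, ← g2]
    exact ⟨h3, h4⟩
  calc (S.card : ℝ) * η' ^ 2 = ∑ _j ∈ S, η' ^ 2 := by rw [Finset.sum_const, nsmul_eq_mul]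
    _ ≤ ∑ j ∈ S, (u4pD (u4pExt W x) (u4pExt W y) j) ^ 2 := by
        refine Finset.sum_le_sum fun j hj => ?_
        obtain ⟨_, _, _, h⟩ := hS j hj
        rw [← sq_abs (u4pD (u4pExt W x) (u4pExt W y) j)]
        exact pow_le_pow_left₀ hη h.le 2
    _ ≤ ∑ j ∈ (Finset.univ.filter fun J : Fin (2 * K) => uwCore L x J).image φ, (u4pD (u4pExt W x) (u4pExt W y) j) ^ 2 :=
        Finset.sum_le_sum_of_subset_of_nonneg hsub fun _ _ _ => sq_nonneg _
    _ = ∑ J ∈ Finset.univ.filter fun J : Fin (2 * K) => uwCore L x J, (uwGapD x y J) ^ 2 := by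
        rw [Finset.sum_image fun _ _ _ _ h => hinj h]
        refine Finset.sum_congr rfl fun J _ => ?_
        rw [(u3c_gapD x y W J).2.2, neg_sq]
    _ = uwDis L x y := by
        unfold uwDis
        rw [Finset.sum_filter]

/-! ## 6. The deterministic comparison -/


/-- the error observable of one regular coordinate -/
theorem u3c_err {K : ℕ} {z : Dat K} {L g C yL : ℝ} (hz : U3cReg L g C yL z) (hL : 0 < L) (hg0 : 0 ≤ g) (hC : 0 ≤ C) (hgL : g ≤ L) {Th : ℝ}
    (hTh : 0 ≤ Th) {c : ℝ} (hc0 : 0 < c) (m : ℕ) (n2 : Th + 1 ≤ L / 2) (n3 : yL ≤ L) :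
    u4pErr Th (2 * g) c m (L / 2) z ≤ Real.exp (-(g / 2)) + u4Kap c m * (4 * C * c * (Th + 1) ^ 2) := by
  have hT0 : 0 < L / 2 := by positivity
  unfold u4pErr
  have v := u3c_void z (A := 2 * g) hT0 fun t h1 h2 =>
    hz.pt (t - 3 * (2 * g) / 4) (t - 2 * g / 4) (by linarith) (by linarith) (by linarith)
  have e1 : 2 * g / 4 = g / 2 := by ring
  rw [e1] at v
  have q := u3c_Q z hc0.le hTh hT0
  have cn := hz.cnt (-(L / 2 + Th + 1)) (L / 2 + Th + 1) (by linarith) (by linarith) (by linarith)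
  have cn' : ((Finset.univ.filter fun i => -(L / 2 + Th + 1) ≤ z i ∧ z i ≤ L / 2 + Th + 1).card : ℝ) ≤ C * (2 * L) :=
    cn.trans (mul_le_mul_of_nonneg_left (by linarith) hC)
  have q' : 1 - u4pObs (u4TentC c Th) (L / 2) z ≤ 4 * C * c * (Th + 1) ^ 2 := by
    refine q.trans ?_
    have : (2 * (L / 2))⁻¹ * (c * (Th + 1) * (2 * (Th + 1))
        * ((Finset.univ.filter fun i => -(L / 2 + Th + 1) ≤ z i ∧ z i ≤ L / 2 + Th + 1).card : ℝ))
        ≤ (2 * (L / 2))⁻¹ * (c * (Th + 1) * (2 * (Th + 1)) * (C * (2 * L))) :=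
      mul_le_mul_of_nonneg_left (mul_le_mul_of_nonneg_left cn' (by positivity)) (by positivity)
    refine this.trans (le_of_eq ?_)
    field_simp
    ring
  have := mul_le_mul_of_nonneg_left q' (u4_kap_pos hc0 m).le
  linarith

/-- **the deterministic comparison** at scale `L`, all parameters explicit -/
theorem u3c_core {K : ℕ} {x y : Dat K} {L g C yL D : ℝ} (hx : U3cReg L g C yL x) (hy : U3cReg L g C yL y)
    (hal : ∀ i, |x i| ≤ L → |y i - x i| ≤ D) {h : ℝ → ℝ} (hc : Continuous h) {Th : ℝ} (hTh : 0 ≤ Th) (hT : ∀ u, Th < |u| → h u = 0)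
    (hn : ∀ t, 0 ≤ h t) {m : ℕ} (hm : 1 ≤ m) {c : ℝ} (hc0 : 0 < c) {η ε' η' : ℝ}
    (hmod : ∀ A : ℝ, 0 ≤ A → ∀ g g' : Fin (2 * m + 1) → ℝ, (∀ k, |g k - g' k| ≤ η) → |u4F h m A g - u4F h m A g'| ≤ ε')
    (hε : 0 ≤ ε') (hη' : (m : ℝ) * η' ≤ η) (hη'0 : 0 < η') (hL : 0 < L) (hg0 : 0 ≤ g) (hC : 0 ≤ C) (hD : 0 ≤ D) (hy0 : 0 ≤ yL)
    (n1 : L / 2 + m * (g + 1) ≤ 3 * L / 4) (n2 : Th + 1 ≤ L / 2) (n4 : D + yL ≤ L) :
    |b2Obs h (L / 2) x - b2Obs h (L / 2) y| ≤ 2 * Real.exp (-(g / 2)) + 2 * (u4Kap c m * (4 * C * c * (Th + 1) ^ 2))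
      + L⁻¹ * (4 * g + 2 * D + 4 * g * (C * (D + yL))) + C * ε' + L⁻¹ * (8 * g * m / η' ^ 2) * uwDis L x y := by
  have hT0 : 0 < L / 2 := by positivity
  have hm1 : (1 : ℝ) ≤ m := by exact_mod_cast hm
  have hg4 : g + 1 ≤ L / 4 := by nlinarith
  have hA : 0 ≤ 2 * g := by positivity
  have n3 : yL ≤ L := by linarith
  set W : ℝ := L / 2 + Th + 1 + 2 * g with hW
  obtain ⟨a, b, hab, ha1, ha2, hb1, hb2⟩ := u3c_ab hx hg0 W (T := L / 2) (by linarith) (by linarith)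
  have P := u4p_pair hx.mono hy.mono hc hTh hT hn hm hA hc0 hT0 (hmod (2 * g) hA) hε hη' hab
  rw [← hW] at P
  have ex := u3c_err hx hL hg0 hC (by linarith) hTh hc0 m n2 n3
  have ey := u3c_err hy hL hg0 hC (by linarith) hTh hc0 m n2 n3
  have bx := u3c_bd_x (A := 2 * g) (u4p_ext_mono W hx.mono) hg0 ha1 ha2 hb1 hb2
  have by' := u3c_bd_y hx hy hal hL.le hg0 (by linarith) hD W hA hT0.le (by linarith) (by linarith) hy0 hab ha1 ha2 hb1 hb2
  have ln := u3c_len hx hL.le (by linarith) W (T := L / 2) (by linarith) (by linarith) hab ha1 hb2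
  have bad : ((u4pBad (u4pExt W x) (u4pExt W y) a b m η').card : ℝ) * η' ^ 2 ≤ uwDis L x y := by
    refine u3c_bad x y W L hη'0.le _ fun j hj => ?_
    unfold u4pBad at hj
    rw [Finset.mem_filter, Finset.mem_Ico] at hj
    have r1 := u3c_rng hx hg0 (by linarith) W (by linarith) ha1 ha2 hb1 hb2 m (by linarith) hj.1.1 hj.1.2.le
    have r2 := u3c_rng hx hg0 (by linarith) W (by linarith) ha1 ha2 hb1 hb2 m (by linarith) (show a - m ≤ j + 1 by omega)
      (show j + 1 ≤ b + m by omega)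
    have q1 := u3c_real hx hL.le (by linarith) W (r1.trans (by linarith))
    have q2 := u3c_real hx hL.le (by linarith) W (r2.trans (by linarith))
    exact ⟨⟨q1.1, q2.2⟩, r1.trans n1, r2.trans n1, hj.2⟩
  have bad' : ((u4pBad (u4pExt W x) (u4pExt W y) a b m η').card : ℝ) ≤ uwDis L x y / η' ^ 2 := by
    rw [le_div_iff₀ (by positivity)]; exact bad
  have e2 : 2 * (L / 2) = L := by ring
  rw [e2] at P ln
  have s1 : u4pBd (2 * g) (L / 2) (u4pExt W x) a b + u4pBd (2 * g) (L / 2) (u4pExt W y) a b + ((b - a : ℤ) : ℝ) * ε'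
      + 2 * (2 * g) * (2 * (m : ℝ)) * ((u4pBad (u4pExt W x) (u4pExt W y) a b m η').card : ℝ)
      ≤ (4 * g + 2 * D + 4 * g * (C * (D + yL))) + C * L * ε' + 8 * g * m * (uwDis L x y / η' ^ 2) := by
    have t1 := mul_le_mul_of_nonneg_right ln hε
    have t2 := mul_le_mul_of_nonneg_left bad' (show 0 ≤ 2 * (2 * g) * (2 * (m : ℝ)) by positivity)
    nlinarith
  have s2 := mul_le_mul_of_nonneg_left s1 (show 0 ≤ L⁻¹ by positivity)
  have s3 : L⁻¹ * ((4 * g + 2 * D + 4 * g * (C * (D + yL))) + C * L * ε' + 8 * g * m * (uwDis L x y / η' ^ 2))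
      = L⁻¹ * (4 * g + 2 * D + 4 * g * (C * (D + yL))) + C * ε' + L⁻¹ * (8 * g * m / η' ^ 2) * uwDis L x y := by
    field_simp
  have P' : |b2Obs h (L / 2) x - b2Obs h (L / 2) y| ≤ _ := P
  linarith

/-! ## 7. Powers of `L` -/


/-- the powers of `L` which occur, all compared with `q = L^(1 - eps)` -/
theorem u3c_pow (P : U3Exp) {L : ℝ} (hL : 1 ≤ L) :
    1 ≤ L ^ (-P.ε) * L ∧ u3Y P L ≤ L ^ (-P.ε) * L ∧ u3Lam P L ≤ L ^ (-P.ε) * L ∧ u3Y P L * u3Lam P L ≤ L ^ (-P.ε) * L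
      ∧ u3Y P L * u3Y P L ≤ L ^ (-P.ε) * L ∧ L⁻¹ * u3Y P L * L ^ (8 * P.ε) = L ^ (-1 + 9 * P.ε) ∧ L ^ (-P.ε) * u3Y P L = 1 := by
  have hL0 : 0 < L := by linarith
  have h1 := P.hb
  have h2 := P.hκ
  have h3 := P.hχ1
  have h4 := P.hε
  have e : L ^ (-P.ε) * L = L ^ (-P.ε + 1) := (Real.rpow_add_one hL0.ne' _).symm
  unfold u3Y u3Lam
  rw [e, ← Real.rpow_add hL0, ← Real.rpow_add hL0, ← Real.rpow_neg_one, ← Real.rpow_add hL0, ← Real.rpow_add hL0,
    ← Real.rpow_add hL0]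
  refine ⟨Real.one_le_rpow hL (by linarith), Real.rpow_le_rpow_of_exponent_le hL (by linarith),
    Real.rpow_le_rpow_of_exponent_le hL (by linarith), Real.rpow_le_rpow_of_exponent_le hL (by linarith),
    Real.rpow_le_rpow_of_exponent_le hL (by linarith), by congr 1; ring, ?_⟩
  rw [neg_add_cancel, Real.rpow_zero]

theorem u3c_ev (P : U3Exp) (B : ℝ) {δ : ℝ} (hδ : 0 < δ) : ∀ᶠ L : ℝ in atTop, B * L ^ (-P.ε) ≤ δ := by
  have h := (tendsto_rpow_neg_atTop P.hε).const_mul B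
  rw [mul_zero] at h
  exact h.eventually_le_const hδ

theorem u3c_exp_le {u : ℝ} (hu : 0 < u) : Real.exp (-u) ≤ u⁻¹ := by
  rw [Real.exp_neg]
  exact inv_anti₀ hu (by linarith [Real.add_one_le_exp u])

theorem u3c_dis_nonneg {K : ℕ} (L : ℝ) (x y : Dat K) : 0 ≤ uwDis L x y := by
  unfold uwDis
  refine Finset.sum_nonneg fun j _ => ?_
  split_ifs
  · exact sq_nonneg _
  · exact le_rfl

/-! ## 8. The exit -/


/-- **EXIT D7 = Lemma 11** in `b2Obs` form, from the counting form `u3t_cnt` of D3r. -/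
theorem u3c_main (ρ : ℝ) (P : U3Exp) (C₁ : ℝ) (h : ℝ → ℝ) (hc : Continuous h) (hs : HasCompactSupport h)
    (hn : ∀ t, 0 ≤ h t) (ε₁ : ℝ) (hε₁ : 0 < ε₁)
    (hcnt : ∃ M C L₀ : ℝ, 0 < M ∧ 0 < C ∧ ∀ L : ℝ, L₀ ≤ L →
      ∀ (K : ℕ) (p : Dat K × Dat K), p ∈ u3S P ρ C₁ L K →
        (∀ x ∈ ({p.1, p.2} : Set (Dat K)), ∀ a b : ℝ, -(4 * L) ≤ a → b ≤ 4 * L → u3Y P L ≤ b - a →
          ((Finset.univ.filter fun i => a ≤ x i ∧ x i ≤ b).card : ℝ) ≤ C * (b - a)) ∧
        (∀ x ∈ ({p.1, p.2} : Set (Dat K)), ∀ a b : ℝ, -(3 * L) ≤ a → b ≤ 3 * L → M * u3Y P L ≤ b - a → ∃ i, a ≤ x i ∧ x i ≤ b) ∧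
        (∀ i, |p.2 i - p.1 i| ≤ (L + |p.1 i|) / 64) ∧
        (∀ i, |p.1 i| ≤ L → |p.2 i - p.1 i| ≤ C * u3Lam P L)) :
    ∃ L₀ : ℝ, ∀ L : ℝ, L₀ ≤ L → ∀ (K : ℕ) (p : Dat K × Dat K), p ∈ u3S P ρ C₁ L K →
      |b2Obs h (L / 2) p.1 - b2Obs h (L / 2) p.2| ≤ ε₁ + L ^ (-1 + 9 * P.ε) * uwDis L p.1 p.2 := by
  obtain ⟨Mg, C, L₁, hMg, hC, H⟩ := hcnt
  obtain ⟨Th, hTh0, hT⟩ := u4_supp_radius hs
  obtain ⟨n, hnn⟩ := exists_nat_ge (80 * C * (Th + 1) ^ 2 / ε₁)
  set m : ℕ := n + 1 with hm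
  set c : ℝ := 1 / ((n : ℝ) + 1) with hcdef
  have hc0 : 0 < c := by positivity
  have hκ : u4Kap c m ≤ 2 := u4_kap_le_two n
  have hm0 : (0 : ℝ) < m := by rw [hm]; positivity
  obtain ⟨η, hη0, hmod⟩ := u3c_F_mod hc hs hn hTh0.le hT m (ε' := ε₁ / (5 * C)) (by positivity)
  set η' : ℝ := η / m with hη'
  have hη'0 : 0 < η' := by positivity
  have hη'm : (m : ℝ) * η' ≤ η := by rw [hη']; field_simp; exact le_rfl
  -- the crowding term
  have tQ : 2 * (u4Kap c m * (4 * C * c * (Th + 1) ^ 2)) ≤ ε₁ / 5 := by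
    have h1 : 0 ≤ 4 * C * c * (Th + 1) ^ 2 := by positivity
    have h2 := mul_le_mul_of_nonneg_right hκ h1
    have h3 : 80 * C * (Th + 1) ^ 2 ≤ ε₁ * ((n : ℝ) + 1) := by
      rw [div_le_iff₀ hε₁] at hnn
      nlinarith
    have h4 : 4 * C * c * (Th + 1) ^ 2 ≤ ε₁ / 20 := by
      rw [hcdef]
      have : 4 * C * (1 / ((n : ℝ) + 1)) * (Th + 1) ^ 2 = 4 * C * (Th + 1) ^ 2 / ((n : ℝ) + 1) := by ring
      rw [this, div_le_iff₀ (by positivity)]
      linarith
    linarith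
  -- the conditions on `L`
  have E := (eventually_ge_atTop (max L₁ 1)).and <| (u3c_ev P (4 / Mg) (show 0 < ε₁ / 5 by positivity)).and <|
    (u3c_ev P (4 * Mg + 2 * C + 4 * Mg * C * C + 4 * Mg * C) (show 0 < ε₁ / 5 by positivity)).and <|
    (u3c_ev P (m * (Mg + 1)) (show (0 : ℝ) < 1 / 4 by norm_num)).and <|
    (u3c_ev P (Th + 1) (show (0 : ℝ) < 1 / 2 by norm_num)).and <|
    (u3c_ev P (C + 1) (show (0 : ℝ) < 1 by norm_num)).and <|
    (tendsto_rpow_atTop (show 0 < 8 * P.ε by linarith [P.hε])).eventually_ge_atTop (8 * Mg * m / η' ^ 2)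
  obtain ⟨L₀, hL₀⟩ := eventually_atTop.1 E
  refine ⟨L₀, fun L hL K p hp => ?_⟩
  obtain ⟨a0, a1, a2, a3, a4, a5, a6⟩ := hL₀ L hL
  have hL1 : 1 ≤ L := (le_max_right _ _).trans a0
  have hL0 : 0 < L := by linarith
  obtain ⟨c1, c2, _, c4⟩ := H L ((le_max_left _ _).trans a0) K p hp
  obtain ⟨⟨hm1, _⟩, ⟨hm2, _⟩, _⟩ := hp
  obtain ⟨p1, p2, p3, p4, p5, p6, p7⟩ := u3c_pow P hL1
  set θ : ℝ := L ^ (-P.ε) with hθ
  set yL : ℝ := u3Y P L with hyL
  set Lam : ℝ := u3Lam P L with hLam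
  have hy0 : 0 < yL := by rw [hyL]; unfold u3Y; exact Real.rpow_pos_of_pos hL0 _
  have hLam0 : 0 < Lam := by rw [hLam]; unfold u3Lam; exact Real.rpow_pos_of_pos hL0 _
  have hθ0 : 0 < θ := Real.rpow_pos_of_pos hL0 _
  have hx : U3cReg L (Mg * yL) C yL p.1 := ⟨hm1, c1 p.1 (Set.mem_insert _ _), c2 p.1 (Set.mem_insert _ _)⟩
  have hy : U3cReg L (Mg * yL) C yL p.2 :=
    ⟨hm2, c1 p.2 (Set.mem_insert_of_mem _ (Set.mem_singleton _)), c2 p.2 (Set.mem_insert_of_mem _ (Set.mem_singleton _))⟩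
  have n1 : L / 2 + m * (Mg * yL + 1) ≤ 3 * L / 4 := by
    have h0 := mul_le_mul_of_nonneg_left p2 hMg.le
    have h1 : Mg * yL + 1 ≤ (Mg + 1) * (θ * L) := by linarith
    have h2 : (m : ℝ) * (Mg * yL + 1) ≤ m * ((Mg + 1) * (θ * L)) := mul_le_mul_of_nonneg_left h1 hm0.le
    have h3 := mul_le_mul_of_nonneg_right a3 hL0.le
    linarith
  have n2 : Th + 1 ≤ L / 2 := by
    have h3 := mul_le_mul_of_nonneg_right a4 hL0.le
    have h4 := mul_le_mul_of_nonneg_left p1 (show 0 ≤ Th + 1 by linarith)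
    linarith
  have n4 : C * Lam + yL ≤ L := by
    have h3 := mul_le_mul_of_nonneg_right a5 hL0.le
    have h4 := mul_le_mul_of_nonneg_left p3 hC.le
    linarith
  have core := u3c_core hx hy c4 hc hTh0.le hT hn (show 1 ≤ m by omega) hc0 hmod (by positivity) hη'm hη'0 hL0 (by positivity) hC.le
    (by positivity) hy0.le n1 n2 n4
  -- the void term
  have tV : 2 * Real.exp (-(Mg * yL / 2)) ≤ ε₁ / 5 := by
    have h1 := u3c_exp_le (show 0 < Mg * yL / 2 by positivity)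
    have h2 : (Mg * yL / 2)⁻¹ = 2 / Mg * θ := by
      have : θ = yL⁻¹ := eq_inv_of_mul_eq_one_left p7
      rw [this]
      field_simp
    rw [h2] at h1
    have h3 : 4 / Mg * θ = 2 * (2 / Mg * θ) := by ring
    linarith
  -- the boundary term
  have tB : L⁻¹ * (4 * (Mg * yL) + 2 * (C * Lam) + 4 * (Mg * yL) * (C * (C * Lam + yL))) ≤ ε₁ / 5 := by
    have h1 : 4 * (Mg * yL) + 2 * (C * Lam) + 4 * (Mg * yL) * (C * (C * Lam + yL))
        = 4 * Mg * yL + 2 * C * Lam + 4 * Mg * C * C * (yL * Lam) + 4 * Mg * C * (yL * yL) := by ring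
    have h2 : 4 * Mg * yL + 2 * C * Lam + 4 * Mg * C * C * (yL * Lam) + 4 * Mg * C * (yL * yL)
        ≤ (4 * Mg + 2 * C + 4 * Mg * C * C + 4 * Mg * C) * (θ * L) := by
      have q1 := mul_le_mul_of_nonneg_left p2 (show 0 ≤ 4 * Mg by positivity)
      have q2 := mul_le_mul_of_nonneg_left p3 (show 0 ≤ 2 * C by positivity)
      have q3 := mul_le_mul_of_nonneg_left p4 (show 0 ≤ 4 * Mg * C * C by positivity)
      have q4 := mul_le_mul_of_nonneg_left p5 (show 0 ≤ 4 * Mg * C by positivity)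
      linarith
    rw [h1]
    have h3 := mul_le_mul_of_nonneg_left h2 (show 0 ≤ L⁻¹ by positivity)
    have h4 : L⁻¹ * ((4 * Mg + 2 * C + 4 * Mg * C * C + 4 * Mg * C) * (θ * L)) = (4 * Mg + 2 * C + 4 * Mg * C * C + 4 * Mg * C) * θ := by
      field_simp
    linarith
  -- the modulus term
  have tM : C * (ε₁ / (5 * C)) = ε₁ / 5 := by field_simp
  -- the price
  have tP : L⁻¹ * (8 * (Mg * yL) * m / η' ^ 2) * uwDis L p.1 p.2 ≤ L ^ (-1 + 9 * P.ε) * uwDis L p.1 p.2 := by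
    refine mul_le_mul_of_nonneg_right ?_ (u3c_dis_nonneg L p.1 p.2)
    rw [← p6]
    have h1 : L⁻¹ * (8 * (Mg * yL) * m / η' ^ 2) = L⁻¹ * yL * (8 * Mg * m / η' ^ 2) := by ring
    rw [h1]
    exact mul_le_mul_of_nonneg_left a6 (by positivity)
  linarith

end Claimed.Agent.R287
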