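-- KEEP
import Claimed.Agent.R287.EigHF
import Claimed.Agent.R287.ResC
import Claimed.Agent.R287.Defs.U3

/-!
# Row 287 (S0534), unit U3, block D1 = LEMMA 2 of `origin/helper295:notes/R287/U3_295.md` (THE ONE-STEP INEQUALITY)      helper251      prefix `u3c_`, defs `u3c…`

Deterministic, exact, for EVERY real symmetric noise matrix: no simplicity of the spectrum, no measurable eigenvectors.
* sec. 1  KY FAN at the eigenvectors of another matrix: `u3c_kyfan`, `u3c_kyfan_eq`.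
* sec. 2  HELLMANN-FEYNMAN at a point of differentiability (Ky Fan touches from below): `u3c_hf_sum`, `u3c_hf_point`.
* sec. 3  ANALYTIC CORE `u3c_cost_le`: Lipschitz ⟹ absolutely continuous ⟹ FTC, Cauchy-Schwarz on `[0,1]`.
* sec. 4  ALGEBRA: variance identity `u3c_var_id`, antisymmetric sets of pairs `u3c_var_pairs`, `u3c_point_id`, change of enumeration `u3c_sorted_sum`.
* sec. 5  K2e in POSITION form `u3c_k2e` (weight `u3cQ`).
* sec. 6  (w6) abstract: Cauchy mixtures `u3cMix`, resolvent form `u3cMixG`, `u3c_mix_spec`, `u3c_w6`.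
* sec. 7  continuity of all the integrands along continuous symmetric families: `u3c_G_cont`, `u3c_mixG_cont`, `u3c_Q_cont`.
* sec. 8  LEMMA 2, abstract in `(φ, Ψ, path X with velocity V, set of pairs P, upper weight U)`: `u3c_point_le`, `u3c_lemma2`.
* sec. 9  LEMMA 2 in the vocabulary of `Defs/U3.lean`.
-/

set_option autoImplicit false
set_option linter.unusedSectionVars false

namespace Claimed.Agent.R287

open Matrix Finset MeasureTheory
open scoped NNReal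

variable {ι : Type} [Fintype ι] [DecidableEq ι]

/-! ## 1. Ky Fan -/

/-- the quadratic form of `A` at an eigenvector of `B`, in the overlaps of the two eigenbases -/
theorem u3c_quad_ov {A B : Matrix ι ι ℝ} (hA : A.IsHermitian) (hB : B.IsHermitian) {k : ℕ} (hk : k < Fintype.card ι) :
    eigV B k ⬝ᵥ A *ᵥ eigV B k = ∑ i, hA.eigenvalues i * eigOv hA hB i (eigIx ι ⟨k, hk⟩) ^ 2 := by
  rw [eig_quad hA]
  refine Finset.sum_congr rfl fun i _ => ?_
  congr 2
  unfold eigCo eigOv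
  rw [Matrix.mul_apply]
  simp only [Matrix.mulVec, dotProduct]
  exact Finset.sum_congr rfl fun j _ => by rw [eig_V_eq hB hk]

/-- sums over the first `k` sorted positions -/
theorem u3c_sum_first (f : ℕ → ℝ) {k : ℕ} (hk : k ≤ Fintype.card ι) :
    ∑ q : Fin (Fintype.card ι), (if q.val < k then (1 : ℝ) else 0) * f q.val = ∑ i ∈ range k, f i := by
  rw [Fin.sum_univ_eq_sum_range (fun q => (if q < k then (1 : ℝ) else 0) * f q)]
  simp only [ite_mul, one_mul, zero_mul]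
  rw [← Finset.sum_filter]
  refine Finset.sum_congr ?_ fun _ _ => rfl
  ext q
  simp only [Finset.mem_filter, Finset.mem_range]
  omega

/-- **KY FAN** at the first `k` eigenvectors of another symmetric matrix `B` -/
theorem u3c_kyfan {A B : Matrix ι ι ℝ} (hA : A.IsHermitian) (hB : B.IsHermitian) {k : ℕ} (hk : k ≤ Fintype.card ι) :
    ∑ i ∈ range k, eigV B i ⬝ᵥ A *ᵥ eigV B i ≤ ∑ i ∈ range k, eigD A i := by
  set e : Fin (Fintype.card ι) ≃ ι := Fintype.equivOfCardEq (Fintype.card_fin (Fintype.card ι)) with he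
  set m : ι → ℝ := fun j => if (e.symm j).val < k then 1 else 0 with hm
  have hmono : Monovary hA.eigenvalues m := by
    intro i j hij
    have h1 : (e.symm j).val < k ∧ ¬ (e.symm i).val < k := by
      simp only [hm] at hij
      by_cases h1 : (e.symm j).val < k <;> by_cases h2 : (e.symm i).val < k <;> simp [h1, h2] at hij ⊢
      · exact absurd hij (by norm_num)
    have h2 : e.symm j ≤ e.symm i := by
      rw [Fin.le_def]; omega
    exact hA.eigenvalues₀_antitone h2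
  have hme : ∀ q : Fin (Fintype.card ι), m (eigIx ι q) = if q.val < k then 1 else 0 := fun q => by
    simp [hm, eigIx, he]
  have h := eig_ds_le hmono (eig_ov_ds hA hB)
  have hL : ∑ i, ∑ j, hA.eigenvalues i * m j * (Matrix.of fun i j => eigOv hA hB i j ^ 2) i j
      = ∑ i ∈ range k, eigV B i ⬝ᵥ A *ᵥ eigV B i := by
    rw [Finset.sum_comm, eig_ix_sum, ← u3c_sum_first (ι := ι) (fun i => eigV B i ⬝ᵥ A *ᵥ eigV B i) hk]
    refine Finset.sum_congr rfl fun q _ => ?_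
    rw [u3c_quad_ov hA hB q.2, Finset.mul_sum]
    refine Finset.sum_congr rfl fun i _ => ?_
    rw [hme, Matrix.of_apply]
    ring
  have hR : ∑ i, hA.eigenvalues i * m i = ∑ i ∈ range k, eigD A i := by
    rw [eig_ix_sum, ← u3c_sum_first (ι := ι) (fun i => eigD A i) hk]
    refine Finset.sum_congr rfl fun q _ => ?_
    rw [hme, eig_ix_val hA q]
    ring
  rw [hL, hR] at h
  exact h

/-- equality in Ky Fan at `B = A` -/
theorem u3c_kyfan_eq {A : Matrix ι ι ℝ} (hA : A.IsHermitian) {k : ℕ} (hk : k ≤ Fintype.card ι) :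
    ∑ i ∈ range k, eigV A i ⬝ᵥ A *ᵥ eigV A i = ∑ i ∈ range k, eigD A i := by
  refine Finset.sum_congr rfl fun i hi => ?_
  have hi' : i < Fintype.card ι := lt_of_lt_of_le (Finset.mem_range.1 hi) hk
  rw [eig_V_mul hA hi', dotProduct_smul, eig_V_norm hA hi', smul_eq_mul, mul_one]

/-! ## 2. Hellmann-Feynman at a point of differentiability -/

/-- derivative of a quadratic form along a differentiable path of matrices -/
theorem u3c_quad_deriv {Z : ℝ → Matrix ι ι ℝ} {a : ℝ} {Z' : Matrix ι ι ℝ}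
    (hd : ∀ i j, HasDerivAt (fun a' => Z a' i j) (Z' i j) a) (x : ι → ℝ) :
    HasDerivAt (fun a' => x ⬝ᵥ Z a' *ᵥ x) (x ⬝ᵥ Z' *ᵥ x) a := by
  simp only [dotProduct, Matrix.mulVec]
  refine HasDerivAt.fun_sum fun i _ => ?_
  refine HasDerivAt.const_mul _ ?_
  refine HasDerivAt.fun_sum fun j _ => ?_
  exact (hd i j).mul_const _

/-- **HELLMANN-FEYNMAN for the partial sums**, no simplicity of the spectrum, ANY point of differentiability (Ky Fan touches from below) -/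
theorem u3c_hf_sum {Z : ℝ → Matrix ι ι ℝ} (hZ : ∀ a, (Z a).IsHermitian) {a : ℝ} {Z' : Matrix ι ι ℝ}
    (hd : ∀ i j, HasDerivAt (fun a' => Z a' i j) (Z' i j) a) {k : ℕ} (hk : k ≤ Fintype.card ι)
    (hs : DifferentiableAt ℝ (fun a' => ∑ i ∈ range k, eigD (Z a') i) a) :
    deriv (fun a' => ∑ i ∈ range k, eigD (Z a') i) a = ∑ i ∈ range k, eigV (Z a) i ⬝ᵥ Z' *ᵥ eigV (Z a) i := by
  have hg : HasDerivAt (fun a' => ∑ i ∈ range k, eigV (Z a) i ⬝ᵥ Z a' *ᵥ eigV (Z a) i)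
      (∑ i ∈ range k, eigV (Z a) i ⬝ᵥ Z' *ᵥ eigV (Z a) i) a :=
    HasDerivAt.fun_sum fun i _ => u3c_quad_deriv hd _
  have hf := hs.hasDerivAt.sub hg
  have hmin : IsLocalMin (fun a' => (∑ i ∈ range k, eigD (Z a') i) - ∑ i ∈ range k, eigV (Z a) i ⬝ᵥ Z a' *ᵥ eigV (Z a) i) a := by
    refine Filter.Eventually.of_forall fun a' => ?_
    have h1 := u3c_kyfan (hZ a') (hZ a) hk
    have h2 := u3c_kyfan_eq (hZ a) hk
    simp only
    linarith
  have h0 := hmin.hasDerivAt_eq_zero hf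
  linarith

/-- **HELLMANN-FEYNMAN at a point of differentiability of all the sorted eigenvalues** -/
theorem u3c_hf_point {Z : ℝ → Matrix ι ι ℝ} (hZ : ∀ a, (Z a).IsHermitian) {a : ℝ} {Z' : Matrix ι ι ℝ}
    (hd : ∀ i j, HasDerivAt (fun a' => Z a' i j) (Z' i j) a)
    (hs : ∀ k, DifferentiableAt ℝ (fun a' => eigD (Z a') k) a) {k : ℕ} (hk : k < Fintype.card ι) :
    HasDerivAt (fun a' => eigD (Z a') k) (eigV (Z a) k ⬝ᵥ Z' *ᵥ eigV (Z a) k) a := by
  have hsum : ∀ m, HasDerivAt (fun a' => ∑ i ∈ range m, eigD (Z a') i) (∑ i ∈ range m, deriv (fun a' => eigD (Z a') i) a) a :=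
    fun m => HasDerivAt.fun_sum fun i _ => (hs i).hasDerivAt
  have h1 := u3c_hf_sum hZ hd (k := k + 1) hk (hsum _).differentiableAt
  have h2 := u3c_hf_sum hZ hd (k := k) hk.le (hsum _).differentiableAt
  rw [(hsum _).deriv] at h1 h2
  rw [Finset.sum_range_succ, Finset.sum_range_succ, h2] at h1
  have h3 : deriv (fun a' => eigD (Z a') k) a = eigV (Z a) k ⬝ᵥ Z' *ᵥ eigV (Z a) k := by linarith
  rw [← h3]
  exact (hs k).hasDerivAt

/-! ## 3. The analytic core -/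

/-- Cauchy-Schwarz on `[0,1]` -/
theorem u3c_sq_int_le {f : ℝ → ℝ} (hf : IntervalIntegrable f volume 0 1) (hf2 : IntervalIntegrable (fun a => f a ^ 2) volume 0 1) :
    (∫ a in (0 : ℝ)..1, f a) ^ 2 ≤ ∫ a in (0 : ℝ)..1, f a ^ 2 := by
  set c := ∫ a in (0 : ℝ)..1, f a with hc
  have h1 : 0 ≤ ∫ a in (0 : ℝ)..1, (f a - c) ^ 2 := intervalIntegral.integral_nonneg zero_le_one fun _ _ => sq_nonneg _
  have h2 : ∫ a in (0 : ℝ)..1, (f a - c) ^ 2 = (∫ a in (0 : ℝ)..1, f a ^ 2) - 2 * c * c + c ^ 2 := by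
    have e : ∀ a, (f a - c) ^ 2 = f a ^ 2 - 2 * c * f a + c ^ 2 := fun a => by ring
    simp only [e]
    rw [intervalIntegral.integral_add (hf2.sub (hf.const_mul _)) intervalIntegrable_const,
      intervalIntegral.integral_sub hf2 (hf.const_mul _), intervalIntegral.integral_const_mul, ← hc]
    simp
  nlinarith

/-- a symmetric path with bounded entrywise derivative: the sorted eigenvalues are Lipschitz -/
theorem u3c_path_lip {Z Z' : ℝ → Matrix ι ι ℝ} (hZ : ∀ a, (Z a).IsHermitian)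
    (hd : ∀ a ∈ Set.Icc (0 : ℝ) 1, ∀ i j, HasDerivAt (fun a' => Z a' i j) (Z' a i j) a)
    {M : ℝ} (hM : ∀ a ∈ Set.Icc (0 : ℝ) 1, ∀ i j, |Z' a i j| ≤ M) (k : ℕ) :
    LipschitzOnWith (Real.toNNReal (Fintype.card ι * |M|)) (fun a => eigD (Z a) k) (Set.Icc 0 1) := by
  refine LipschitzOnWith.of_dist_le_mul fun a ha b hb => ?_
  rw [Real.dist_eq, Real.dist_eq, Real.coe_toNNReal _ (by positivity)]
  refine (eig_D_lip (hZ a) (hZ b) k).trans ?_
  have hent : ∀ i j, |Z a i j - Z b i j| ≤ |M| * |a - b| := fun i j => by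
    have := Convex.norm_image_sub_le_of_norm_hasDerivWithin_le (f := fun a' => Z a' i j) (f' := fun a' => Z' a' i j) (C := |M|)
      (s := Set.Icc (0 : ℝ) 1) (fun x hx => (hd x hx i j).hasDerivWithinAt)
      (fun x hx => by rw [Real.norm_eq_abs]; exact (hM x hx i j).trans (le_abs_self M)) (convex_Icc _ _) hb ha
    simpa [Real.norm_eq_abs] using this
  have h1 : eigHS (Z a - Z b) ≤ (Fintype.card ι * |M| * |a - b|) ^ 2 := by
    unfold eigHS
    calc ∑ i, ∑ j, (Z a - Z b) i j ^ 2 ≤ ∑ _i : ι, ∑ _j : ι, (|M| * |a - b|) ^ 2 := by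
          refine Finset.sum_le_sum fun i _ => Finset.sum_le_sum fun j _ => ?_
          rw [Matrix.sub_apply, ← sq_abs]
          exact pow_le_pow_left₀ (abs_nonneg _) (hent i j) 2
      _ = (Fintype.card ι * |M| * |a - b|) ^ 2 := by
          simp only [Finset.sum_const, Finset.card_univ, nsmul_eq_mul]
          ring
  exact Real.sqrt_le_iff.2 ⟨by positivity, h1⟩

/-- **THE ANALYTIC CORE of the one-step inequality** (U3_295 Lemma 2 (a)(b)): `Ψ' = √φ`, `0 ≤ φ ≤ 1`; any symmetric path with bounded derivative. -/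
theorem u3c_cost_le {Z Z' : ℝ → Matrix ι ι ℝ} (hZ : ∀ a, (Z a).IsHermitian)
    (hd : ∀ a ∈ Set.Icc (0 : ℝ) 1, ∀ i j, HasDerivAt (fun a' => Z a' i j) (Z' a i j) a)
    {M : ℝ} (hM : ∀ a ∈ Set.Icc (0 : ℝ) 1, ∀ i j, |Z' a i j| ≤ M)
    {φ Ψ : ℝ → ℝ} (hφ0 : ∀ s, 0 ≤ φ s) (hφ1 : ∀ s, φ s ≤ 1) (hΨ : ∀ s, HasDerivAt Ψ (Real.sqrt (φ s)) s)
    {R : ℝ → ℝ} (hR : IntervalIntegrable R volume 0 1)
    (hpt : ∀ a ∈ Set.Ioo (0 : ℝ) 1,
      ∑ k ∈ range (Fintype.card ι), φ (eigD (Z a) k) * (eigV (Z a) k ⬝ᵥ Z' a *ᵥ eigV (Z a) k) ^ 2 ≤ R a) :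
    ∑ k ∈ range (Fintype.card ι), (Ψ (eigD (Z 1) k) - Ψ (eigD (Z 0) k)) ^ 2 ≤ ∫ a in (0 : ℝ)..1, R a := by
  have hu : Set.uIcc (0 : ℝ) 1 = Set.Icc 0 1 := Set.uIcc_of_le zero_le_one
  have hΨl : LipschitzWith 1 Ψ := by
    refine lipschitzWith_of_nnnorm_deriv_le (fun s => (hΨ s).differentiableAt) fun s => ?_
    rw [(hΨ s).deriv, ← NNReal.coe_le_coe, coe_nnnorm, Real.norm_eq_abs, abs_of_nonneg (Real.sqrt_nonneg _)]
    simpa using Real.sqrt_le_one.2 (hφ1 s)
  have hlam : ∀ k, AbsolutelyContinuousOnInterval (fun a => eigD (Z a) k) 0 1 := fun k =>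
    LipschitzOnWith.absolutelyContinuousOnInterval (by rw [hu]; exact u3c_path_lip hZ hd hM k)
  have hf : ∀ k, AbsolutelyContinuousOnInterval (fun a => Ψ (eigD (Z a) k)) 0 1 := fun k =>
    LipschitzOnWith.absolutelyContinuousOnInterval (by rw [hu]; exact hΨl.comp_lipschitzOnWith (u3c_path_lip hZ hd hM k))
  -- a.e. point is good
  have hae : ∀ᵐ a ∂(volume : Measure ℝ), a ∈ Set.Ioo (0 : ℝ) 1 → ∀ k, DifferentiableAt ℝ (fun a' => eigD (Z a') k) a := by
    have : ∀ᵐ a ∂(volume : Measure ℝ), ∀ k : ℕ, a ∈ Set.uIcc (0 : ℝ) 1 → DifferentiableAt ℝ (fun a' => eigD (Z a') k) a :=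
      ae_all_iff.2 fun k => (hlam k).ae_differentiableAt
    filter_upwards [this] with a ha ha' k
    exact ha k (by rw [hu]; exact Set.Ioo_subset_Icc_self ha')
  have hder : ∀ᵐ a ∂(volume : Measure ℝ), a ∈ Set.Ioo (0 : ℝ) 1 → ∀ k ∈ range (Fintype.card ι),
      deriv (fun a' => Ψ (eigD (Z a') k)) a ^ 2 = φ (eigD (Z a) k) * (eigV (Z a) k ⬝ᵥ Z' a *ᵥ eigV (Z a) k) ^ 2 := by
    filter_upwards [hae] with a ha ha' k hk
    have h1 := u3c_hf_point hZ (hd a (Set.Ioo_subset_Icc_self ha')) (ha ha') (Finset.mem_range.1 hk)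
    have h2 : HasDerivAt (fun a' => Ψ (eigD (Z a') k)) (Real.sqrt (φ (eigD (Z a) k)) * (eigV (Z a) k ⬝ᵥ Z' a *ᵥ eigV (Z a) k)) a :=
      (hΨ _).comp a h1
    rw [h2.deriv, mul_pow, Real.sq_sqrt (hφ0 _)]
  have hIoc : ∀ᵐ a ∂(volume : Measure ℝ), a ∈ Set.Ioc (0 : ℝ) 1 → a ∈ Set.Ioo (0 : ℝ) 1 := by
    have : ∀ᵐ a ∂(volume : Measure ℝ), a ≠ 1 := by
      simp [ae_iff]
    filter_upwards [this] with a ha h
    exact ⟨h.1, lt_of_le_of_ne h.2 ha⟩
  -- the squares of the derivatives are integrable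
  have hsq : ∀ k ∈ range (Fintype.card ι), IntervalIntegrable (fun a => deriv (fun a' => Ψ (eigD (Z a') k)) a ^ 2) volume 0 1 := by
    intro k hk
    rw [intervalIntegrable_iff, Set.uIoc_of_le zero_le_one] at hR ⊢
    refine Integrable.mono' hR ((measurable_deriv _).pow_const 2).aestronglyMeasurable ?_
    rw [ae_restrict_iff' measurableSet_Ioc]
    filter_upwards [hder, hIoc] with a ha hI ha'
    rw [Real.norm_eq_abs, abs_of_nonneg (sq_nonneg _), ha (hI ha') k hk]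
    refine le_trans ?_ (hpt a (hI ha'))
    exact Finset.single_le_sum (f := fun k => φ (eigD (Z a) k) * (eigV (Z a) k ⬝ᵥ Z' a *ᵥ eigV (Z a) k) ^ 2)
      (fun i _ => mul_nonneg (hφ0 _) (sq_nonneg _)) hk
  calc ∑ k ∈ range (Fintype.card ι), (Ψ (eigD (Z 1) k) - Ψ (eigD (Z 0) k)) ^ 2
      = ∑ k ∈ range (Fintype.card ι), (∫ a in (0 : ℝ)..1, deriv (fun a' => Ψ (eigD (Z a') k)) a) ^ 2 :=
        Finset.sum_congr rfl fun k _ => by rw [(hf k).integral_deriv_eq_sub]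
    _ ≤ ∑ k ∈ range (Fintype.card ι), ∫ a in (0 : ℝ)..1, deriv (fun a' => Ψ (eigD (Z a') k)) a ^ 2 :=
        Finset.sum_le_sum fun k hk => u3c_sq_int_le (hf k).intervalIntegrable_deriv (hsq k hk)
    _ = ∫ a in (0 : ℝ)..1, ∑ k ∈ range (Fintype.card ι), deriv (fun a' => Ψ (eigD (Z a') k)) a ^ 2 :=
        (intervalIntegral.integral_finsetSum hsq).symm
    _ ≤ ∫ a in (0 : ℝ)..1, R a := by
        have hsum : IntervalIntegrable (fun a => ∑ k ∈ range (Fintype.card ι), deriv (fun a' => Ψ (eigD (Z a') k)) a ^ 2) volume 0 1 := by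
          have := IntervalIntegrable.sum _ hsq
          have e : (∑ i ∈ range (Fintype.card ι), fun a => deriv (fun a' => Ψ (eigD (Z a') i)) a ^ 2)
              = fun a => ∑ k ∈ range (Fintype.card ι), deriv (fun a' => Ψ (eigD (Z a') k)) a ^ 2 := by
            funext a; simp
          rwa [e] at this
        refine intervalIntegral.integral_mono_ae_restrict zero_le_one hsum hR ?_
        have hIcc : ∀ᵐ a ∂(volume : Measure ℝ), a ∈ Set.Icc (0 : ℝ) 1 → a ∈ Set.Ioo (0 : ℝ) 1 := by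
          have h0 : ∀ᵐ a ∂(volume : Measure ℝ), a ≠ 0 := by simp [ae_iff]
          have h1 : ∀ᵐ a ∂(volume : Measure ℝ), a ≠ 1 := by simp [ae_iff]
          filter_upwards [h0, h1] with a ha0 ha1 h
          exact ⟨lt_of_le_of_ne h.1 (Ne.symm ha0), lt_of_le_of_ne h.2 ha1⟩
        rw [Filter.EventuallyLE, ae_restrict_iff' measurableSet_Icc]
        filter_upwards [hder, hIcc] with a ha hI ha'
        rw [Finset.sum_congr rfl (ha (hI ha'))]
        exact hpt a (hI ha')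

/-! ## 4. Algebra -/

/-- **variance identity** for one probability vector -/
theorem u3c_var_id (s v : ι → ℝ) (hs : ∑ j, s j = 1) :
    (∑ j, s j * v j) ^ 2 = ∑ j, s j * v j ^ 2 - 1 / 2 * ∑ j, ∑ l, s j * s l * (v j - v l) ^ 2 := by
  have h1 : ∑ j, ∑ l, s j * s l * (v j - v l) ^ 2
      = (∑ j, s j * v j ^ 2) * (∑ l, s l) - 2 * ((∑ j, s j * v j) * ∑ l, s l * v l) + (∑ j, s j) * ∑ l, s l * v l ^ 2 := by
    rw [Finset.sum_mul_sum, Finset.sum_mul_sum, Finset.sum_mul_sum, Finset.mul_sum, ← Finset.sum_sub_distrib, ← Finset.sum_add_distrib]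
    refine Finset.sum_congr rfl fun j _ => ?_
    rw [Finset.mul_sum, ← Finset.sum_sub_distrib, ← Finset.sum_add_distrib]
    exact Finset.sum_congr rfl fun l _ => by ring
  rw [h1, hs]
  ring

/-- the variance dominates the sum over any ANTISYMMETRIC set of pairs -/
theorem u3c_var_pairs (s v : ι → ℝ) (hs : ∀ j, 0 ≤ s j) (P : Finset (ι × ι)) (hP : ∀ p ∈ P, p.swap ∉ P) :
    ∑ p ∈ P, s p.1 * s p.2 * (v p.1 - v p.2) ^ 2 ≤ 1 / 2 * ∑ j, ∑ l, s j * s l * (v j - v l) ^ 2 := by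
  set T : ι × ι → ℝ := fun p => s p.1 * s p.2 * (v p.1 - v p.2) ^ 2 with hT
  have hT0 : ∀ p, 0 ≤ T p := fun p => mul_nonneg (mul_nonneg (hs _) (hs _)) (sq_nonneg _)
  have hTs : ∀ p, T p.swap = T p := fun p => by simp only [hT, Prod.fst_swap, Prod.snd_swap]; ring
  have h1 : ∑ j, ∑ l, s j * s l * (v j - v l) ^ 2 = ∑ p : ι × ι, T p := (Fintype.sum_prod_type T).symm
  have hinj : Set.InjOn (Prod.swap : ι × ι → ι × ι) (P : Set (ι × ι)) := Prod.swap_injective.injOn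
  have h2 : ∑ p ∈ P.image Prod.swap, T p = ∑ p ∈ P, T p := by
    rw [Finset.sum_image hinj]
    exact Finset.sum_congr rfl fun p _ => hTs p
  have hdis : Disjoint P (P.image Prod.swap) := by
    rw [Finset.disjoint_left]
    intro p hp hp'
    obtain ⟨q, hq, rfl⟩ := Finset.mem_image.1 hp'
    exact hP q hq hp
  have h3 : ∑ p ∈ P ∪ P.image Prod.swap, T p ≤ ∑ p : ι × ι, T p :=
    Finset.sum_le_sum_of_subset_of_nonneg (Finset.subset_univ _) fun p _ _ => hT0 p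
  rw [Finset.sum_union hdis, h2] at h3
  rw [h1]
  linarith

/-- from the sorted enumeration (`eigD`, `eigV`) to Mathlib's (`eigenvalues`, `rsU`) -/
theorem u3c_sorted_sum {A : Matrix ι ι ℝ} (hA : A.IsHermitian) (F : ℝ → (ι → ℝ) → ℝ) :
    ∑ k ∈ range (Fintype.card ι), F (eigD A k) (eigV A k) = ∑ i, F (hA.eigenvalues i) (fun j => rsU hA j i) := by
  rw [eig_ix_sum, ← Fin.sum_univ_eq_sum_range (fun k => F (eigD A k) (eigV A k))]
  refine Finset.sum_congr rfl fun k _ => ?_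
  rw [eig_ix_val hA k]
  congr 1
  funext j
  rw [eig_V_eq hA k.2]
  rfl

/-- **the pointwise identity** (U3_295 Lemma 2 (c)): weights `c_k ≥ 0`, rows `S_k` probability vectors -/
theorem u3c_point_id {n : ℕ} (c : ℕ → ℝ) (S : ℕ → ι → ℝ) (hS : ∀ k ∈ range n, ∑ j, S k j = 1) (v : ι → ℝ) :
    ∑ k ∈ range n, c k * (∑ j, S k j * v j) ^ 2
      = ∑ j, v j ^ 2 * (∑ k ∈ range n, c k * S k j) - ∑ k ∈ range n, c k * (1 / 2 * ∑ j, ∑ l, S k j * S k l * (v j - v l) ^ 2) := by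
  have h1 : ∑ j, v j ^ 2 * (∑ k ∈ range n, c k * S k j) = ∑ k ∈ range n, c k * ∑ j, S k j * v j ^ 2 := by
    simp only [Finset.mul_sum]
    rw [Finset.sum_comm]
    exact Finset.sum_congr rfl fun k _ => Finset.sum_congr rfl fun j _ => by ring
  rw [h1, ← Finset.sum_sub_distrib]
  refine Finset.sum_congr rfl fun k hk => ?_
  rw [u3c_var_id (S k) v (hS k hk)]
  ring

/-! ## 5. K2e, position form -/

/-- the non-degeneracy weight `(y / Im Tr G(z)) (|G_jk(z)| - 1/r)_+²` -/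
noncomputable def u3cQ (A : Matrix ι ι ℝ) (z : ℂ) (r : ℝ) (j k : ι) : ℝ :=
  z.im / ((rsG A z).trace).im * (max (‖rsG A z j k‖ - 1 / r) 0) ^ 2

theorem u3c_q_eqns_cite : True := by
  have := @u3cQ.eq_1
  trivial

/-- `Im Tr G = ∑ y/|λ_i - z|²` -/
theorem u3c_im_trace {A : Matrix ι ι ℝ} (hA : A.IsHermitian) {z : ℂ} (hz : z.im ≠ 0) :
    ((rsG A z).trace).im = ∑ i, z.im * (‖(hA.eigenvalues i : ℂ) - z‖⁻¹) ^ 2 := by
  rw [rs_trace hA hz, Complex.im_sum]
  refine Finset.sum_congr rfl fun i _ => ?_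
  rw [Complex.inv_im, inv_pow, ← Complex.normSq_eq_norm_sq]
  simp [div_eq_mul_inv]

theorem u3c_im_trace_pos [Nonempty ι] {A : Matrix ι ι ℝ} (hA : A.IsHermitian) {z : ℂ} (hz : 0 < z.im) :
    0 < ((rsG A z).trace).im := by
  rw [Matrix.trace, Complex.im_sum]
  exact Finset.sum_pos (fun i _ => rs_G_im_pos hA hz i) Finset.univ_nonempty

theorem u3c_q_nonneg {A : Matrix ι ι ℝ} (hA : A.IsHermitian) {z : ℂ} (hz : 0 < z.im) (r : ℝ) (j k : ι) : 0 ≤ u3cQ A z r j k := by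
  have : Nonempty ι := ⟨j⟩
  unfold u3cQ
  exact mul_nonneg (div_nonneg hz.le (u3c_im_trace_pos hA hz).le) (sq_nonneg _)

/-- rows of the eigenvector matrix: `∑_i |ψ_i(j) ψ_i(k)| ≤ 1` -/
theorem u3c_abs_row {A : Matrix ι ι ℝ} (hA : A.IsHermitian) (j k : ι) : ∑ i, |rsU hA j i * rsU hA k i| ≤ 1 := by
  have h1 := rs_U_row hA j j
  have h2 := rs_U_row hA k k
  rw [if_pos rfl] at h1 h2
  calc ∑ i, |rsU hA j i * rsU hA k i| ≤ ∑ i, (rsU hA j i * rsU hA j i + rsU hA k i * rsU hA k i) / 2 := by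
        refine Finset.sum_le_sum fun i _ => ?_
        rw [abs_le]
        constructor <;> nlinarith [sq_nonneg (rsU hA j i - rsU hA k i), sq_nonneg (rsU hA j i + rsU hA k i)]
    _ = 1 := by rw [← Finset.sum_div, Finset.sum_add_distrib, h1, h2]; norm_num

/-- **K2e, position form** (U3_295 Lemma 2 (d)): `E` any set of eigen-indices containing all eigenvalues at distance `< r` from `z` -/
theorem u3c_k2e {A : Matrix ι ι ℝ} (hA : A.IsHermitian) {z : ℂ} (hz : 0 < z.im) {r : ℝ} (hr : 0 < r) (E : Finset ι)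
    (hE : ∀ i, i ∉ E → r ≤ ‖(hA.eigenvalues i : ℂ) - z‖) (j k : ι) :
    u3cQ A z r j k ≤ ∑ i ∈ E, rsU hA j i ^ 2 * rsU hA k i ^ 2 := by
  have : Nonempty ι := ⟨j⟩
  set Q := ∑ i ∈ E, rsU hA j i ^ 2 * rsU hA k i ^ 2 with hQ
  set T := ((rsG A z).trace).im with hT
  have hTpos : 0 < T := u3c_im_trace_pos hA hz
  have hQ0 : 0 ≤ Q := Finset.sum_nonneg fun i _ => by positivity
  have hne : ∀ i, 0 < ‖(hA.eigenvalues i : ℂ) - z‖ := fun i => norm_pos_iff.2 (rs_ne hz.ne')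
  -- the bound of `|G_jk|`
  have h1 : ‖rsG A z j k‖ ≤ ∑ i, |rsU hA j i * rsU hA k i| * ‖(hA.eigenvalues i : ℂ) - z‖⁻¹ := by
    rw [rs_G_apply hA hz.ne']
    refine (norm_sum_le _ _).trans (le_of_eq (Finset.sum_congr rfl fun i _ => ?_))
    rw [norm_div, norm_mul, Complex.norm_real, Complex.norm_real, Real.norm_eq_abs, Real.norm_eq_abs, abs_mul, div_eq_mul_inv]
  have h2 : ∑ i ∈ Eᶜ, |rsU hA j i * rsU hA k i| * ‖(hA.eigenvalues i : ℂ) - z‖⁻¹ ≤ 1 / r := by
    calc ∑ i ∈ Eᶜ, |rsU hA j i * rsU hA k i| * ‖(hA.eigenvalues i : ℂ) - z‖⁻¹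
        ≤ ∑ i ∈ Eᶜ, |rsU hA j i * rsU hA k i| * (1 / r) := by
          refine Finset.sum_le_sum fun i hi => mul_le_mul_of_nonneg_left ?_ (abs_nonneg _)
          rw [one_div]
          exact inv_anti₀ hr (hE i (Finset.mem_compl.1 hi))
      _ = (∑ i ∈ Eᶜ, |rsU hA j i * rsU hA k i|) * (1 / r) := by rw [Finset.sum_mul]
      _ ≤ 1 * (1 / r) := by
          refine mul_le_mul_of_nonneg_right ?_ (by positivity)
          exact (Finset.sum_le_sum_of_subset_of_nonneg (Finset.subset_univ _) fun _ _ _ => abs_nonneg _).trans (u3c_abs_row hA j k)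
      _ = 1 / r := one_mul _
  have h3 : ∑ i ∈ E, |rsU hA j i * rsU hA k i| * ‖(hA.eigenvalues i : ℂ) - z‖⁻¹ ≤ Real.sqrt Q * Real.sqrt (T / z.im) := by
    refine (Real.sum_mul_le_sqrt_mul_sqrt _ _ _).trans ?_
    refine mul_le_mul (le_of_eq ?_) (Real.sqrt_le_sqrt ?_) (Real.sqrt_nonneg _) (Real.sqrt_nonneg _)
    · congr 1
      exact Finset.sum_congr rfl fun i _ => by rw [sq_abs, mul_pow]
    · rw [hT, u3c_im_trace hA hz.ne', ← Finset.mul_sum, mul_div_assoc, mul_comm, div_mul_cancel₀ _ hz.ne'] 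
      exact Finset.sum_le_sum_of_subset_of_nonneg (Finset.subset_univ _) fun _ _ _ => sq_nonneg _
  have h4 : ‖rsG A z j k‖ - 1 / r ≤ Real.sqrt Q * Real.sqrt (T / z.im) := by
    rw [← Finset.sum_add_sum_compl E] at h1
    linarith
  have h5 : max (‖rsG A z j k‖ - 1 / r) 0 ≤ Real.sqrt Q * Real.sqrt (T / z.im) :=
    max_le h4 (mul_nonneg (Real.sqrt_nonneg _) (Real.sqrt_nonneg _))
  have h6 : (max (‖rsG A z j k‖ - 1 / r) 0) ^ 2 ≤ Q * (T / z.im) := by
    have := pow_le_pow_left₀ (le_max_right _ _) h5 2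
    rwa [mul_pow, Real.sq_sqrt hQ0, Real.sq_sqrt (div_nonneg hTpos.le hz.le)] at this
  unfold u3cQ
  calc z.im / T * (max (‖rsG A z j k‖ - 1 / r) 0) ^ 2 ≤ z.im / T * (Q * (T / z.im)) :=
        mul_le_mul_of_nonneg_left h6 (div_nonneg hz.le hTpos.le)
    _ = Q := by field_simp

/-! ## 6. Cauchy mixtures, (w6) -/

/-- a positive mixture of Cauchy kernels at energy `0`, heights `η m` -/
noncomputable def u3cMix (w η : ℕ → ℝ) (s : ℝ) : ℝ := ∑' m, w m * (η m ^ 2 / (s ^ 2 + η m ^ 2))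

/-- its functional calculus `⟨e_j, mix(A) e_j⟩`, in RESOLVENT form -/
noncomputable def u3cMixG (w η : ℕ → ℝ) (A : Matrix ι ι ℝ) (j : ι) : ℝ :=
  ∑' m, w m * (η m * (rsG A (⟨0, η m⟩ : ℂ) j j).im)

theorem u3c_mix_eqns_cite : True := by
  have := @u3cMix.eq_1
  have := @u3cMixG.eq_1
  trivial

theorem u3c_kernel_mem {η : ℝ} (hη : 0 < η) (s : ℝ) : 0 ≤ η ^ 2 / (s ^ 2 + η ^ 2) ∧ η ^ 2 / (s ^ 2 + η ^ 2) ≤ 1 := by
  have h : 0 < s ^ 2 + η ^ 2 := by positivity
  refine ⟨by positivity, ?_⟩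
  rw [div_le_one h]
  nlinarith [sq_nonneg s]

theorem u3c_mix_summable {w η : ℕ → ℝ} (hw : ∀ m, 0 ≤ w m) (hws : Summable w) (hη : ∀ m, 0 < η m) (s : ℝ) :
    Summable fun m => w m * (η m ^ 2 / (s ^ 2 + η m ^ 2)) :=
  Summable.of_nonneg_of_le (fun m => mul_nonneg (hw m) (u3c_kernel_mem (hη m) s).1)
    (fun m => by simpa using mul_le_mul_of_nonneg_left (u3c_kernel_mem (hη m) s).2 (hw m)) hws

/-- `η Im G_jj(iη) = ∑_i ψ_i(j)² η²/(λ_i² + η²)` -/
theorem u3c_eta_im {A : Matrix ι ι ℝ} (hA : A.IsHermitian) {η : ℝ} (hη : 0 < η) (j : ι) :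
    η * (rsG A (⟨0, η⟩ : ℂ) j j).im = ∑ i, η ^ 2 / (hA.eigenvalues i ^ 2 + η ^ 2) * rsU hA j i ^ 2 := by
  have him : (⟨0, η⟩ : ℂ).im = η := rfl
  have hre : (⟨0, η⟩ : ℂ).re = 0 := rfl
  rw [rs_G_im hA (by rw [him]; exact hη.ne'), Finset.mul_sum]
  refine Finset.sum_congr rfl fun i _ => ?_
  rw [him, hre, sub_zero]
  ring

theorem u3c_eta_im_mem {A : Matrix ι ι ℝ} (hA : A.IsHermitian) {η : ℝ} (hη : 0 < η) (j : ι) :
    0 ≤ η * (rsG A (⟨0, η⟩ : ℂ) j j).im ∧ η * (rsG A (⟨0, η⟩ : ℂ) j j).im ≤ 1 := by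
  rw [u3c_eta_im hA hη]
  have h1 := rs_U_row hA j j
  rw [if_pos rfl] at h1
  refine ⟨Finset.sum_nonneg fun i _ => mul_nonneg (u3c_kernel_mem hη _).1 (sq_nonneg _), ?_⟩
  calc ∑ i, η ^ 2 / (hA.eigenvalues i ^ 2 + η ^ 2) * rsU hA j i ^ 2 ≤ ∑ i, 1 * rsU hA j i ^ 2 :=
        Finset.sum_le_sum fun i _ => mul_le_mul_of_nonneg_right (u3c_kernel_mem hη _).2 (sq_nonneg _)
    _ = 1 := by
        refine Eq.trans ?_ h1
        exact Finset.sum_congr rfl fun i _ => by ring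

/-- **spectral form of the mixture** -/
theorem u3c_mix_spec {A : Matrix ι ι ℝ} (hA : A.IsHermitian) {w η : ℕ → ℝ} (hw : ∀ m, 0 ≤ w m) (hws : Summable w)
    (hη : ∀ m, 0 < η m) (j : ι) :
    u3cMixG w η A j = ∑ i, u3cMix w η (hA.eigenvalues i) * rsU hA j i ^ 2 := by
  unfold u3cMixG u3cMix
  have h1 : ∀ m, w m * (η m * (rsG A (⟨0, η m⟩ : ℂ) j j).im)
      = ∑ i, w m * (η m ^ 2 / (hA.eigenvalues i ^ 2 + η m ^ 2)) * rsU hA j i ^ 2 := fun m => by
    rw [u3c_eta_im hA (hη m), Finset.mul_sum]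
    exact Finset.sum_congr rfl fun i _ => by ring
  simp only [h1]
  rw [Summable.tsum_finsetSum fun i _ => (u3c_mix_summable hw hws hη _).mul_right _]
  exact Finset.sum_congr rfl fun i _ => tsum_mul_right

/-- **(w6)** abstract: `φ ≤ 1`, `φ ≤ c · mix`  ⟹  `∑_k φ(λ_k) ψ_k(j)² ≤ min(1, c · mix[A]_j)` -/
theorem u3c_w6 {A : Matrix ι ι ℝ} (hA : A.IsHermitian) {w η : ℕ → ℝ} (hw : ∀ m, 0 ≤ w m) (hws : Summable w)
    (hη : ∀ m, 0 < η m) {φ : ℝ → ℝ} {c : ℝ} (hφ1 : ∀ s, φ s ≤ 1) (hφc : ∀ s, φ s ≤ c * u3cMix w η s) (j : ι) :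
    ∑ i, φ (hA.eigenvalues i) * rsU hA j i ^ 2 ≤ min 1 (c * u3cMixG w η A j) := by
  have h1 := rs_U_row hA j j
  rw [if_pos rfl] at h1
  refine le_min ?_ ?_
  · calc ∑ i, φ (hA.eigenvalues i) * rsU hA j i ^ 2 ≤ ∑ i, 1 * rsU hA j i ^ 2 :=
          Finset.sum_le_sum fun i _ => mul_le_mul_of_nonneg_right (hφ1 _) (sq_nonneg _)
      _ = 1 := by
          refine Eq.trans ?_ h1
          exact Finset.sum_congr rfl fun i _ => by ring
  · rw [u3c_mix_spec hA hw hws hη, Finset.mul_sum]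
    refine Finset.sum_le_sum fun i _ => ?_
    rw [← mul_assoc]
    exact mul_le_mul_of_nonneg_right (hφc _) (sq_nonneg _)

/-! ## 7. Continuity -/

/-- the resolvent entries are continuous along a continuous symmetric family with a continuous spectral parameter -/
theorem u3c_G_cont {T : Type} [TopologicalSpace T] {H : T → Matrix ι ι ℝ} (hc : ∀ i j, Continuous fun t => H t i j)
    (hH : ∀ t, (H t).IsHermitian) {z : T → ℂ} (hz : Continuous z) (hz0 : ∀ t, (z t).im ≠ 0) (j k : ι) :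
    Continuous fun t => rsG (H t) (z t) j k := by
  have hM : Continuous fun t => rsC (H t) - z t • (1 : Matrix ι ι ℂ) := by
    refine continuous_matrix fun i l => ?_
    simp only [Matrix.sub_apply, rs_C_apply, Matrix.smul_apply, smul_eq_mul]
    exact (Complex.continuous_ofReal.comp (hc i l)).sub (hz.mul continuous_const)
  have hdet : Continuous fun t => (rsC (H t) - z t • (1 : Matrix ι ι ℂ)).det := hM.matrix_det
  have hadj : Continuous fun t => (rsC (H t) - z t • (1 : Matrix ι ι ℂ)).adjugate j k :=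
    (continuous_apply k).comp ((continuous_apply j).comp hM.matrix_adjugate)
  have e : (fun t => rsG (H t) (z t) j k)
      = fun t => ((rsC (H t) - z t • (1 : Matrix ι ι ℂ)).det)⁻¹ * (rsC (H t) - z t • (1 : Matrix ι ι ℂ)).adjugate j k := by
    funext t
    rw [rsG, Matrix.inv_def, Ring.inverse_eq_inv', Matrix.smul_apply, smul_eq_mul]
  rw [e]
  exact (hdet.inv₀ fun t => (rs_isUnit (hH t) (hz0 t)).ne_zero).mul hadj

theorem u3c_mixG_cont {T : Type} [TopologicalSpace T] {H : T → Matrix ι ι ℝ} (hc : ∀ i j, Continuous fun t => H t i j)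
    (hH : ∀ t, (H t).IsHermitian) {w η : ℕ → ℝ} (hw : ∀ m, 0 ≤ w m) (hws : Summable w) (hη : ∀ m, 0 < η m) (j : ι) :
    Continuous fun t => u3cMixG w η (H t) j := by
  unfold u3cMixG
  refine continuous_tsum (u := w) (fun m => ?_) hws fun m t => ?_
  · refine continuous_const.mul (continuous_const.mul (Complex.continuous_im.comp ?_))
    exact u3c_G_cont hc hH continuous_const (fun _ => (hη m).ne') j j
  · have h := u3c_eta_im_mem (hH t) (hη m) j
    rw [Real.norm_eq_abs, abs_of_nonneg (mul_nonneg (hw m) h.1)]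
    simpa using mul_le_mul_of_nonneg_left h.2 (hw m)


theorem u3c_Q_cont {T : Type} [TopologicalSpace T] {H : T → Matrix ι ι ℝ} (hc : ∀ i j, Continuous fun t => H t i j)
    (hH : ∀ t, (H t).IsHermitian) {z : T → ℂ} (hz : Continuous z) (hz0 : ∀ t, 0 < (z t).im) (r : ℝ) (j k : ι) :
    Continuous fun t => u3cQ (H t) (z t) r j k := by
  have : Nonempty ι := ⟨j⟩
  unfold u3cQ
  have htr : Continuous fun t => ((rsG (H t) (z t)).trace).im := by
    refine Complex.continuous_im.comp ?_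
    unfold Matrix.trace
    simp only [Matrix.diag_apply]
    exact continuous_finsetSum _ fun i _ => u3c_G_cont hc hH hz (fun t => (hz0 t).ne') i i
  refine ((Complex.continuous_im.comp hz).div htr fun t => (u3c_im_trace_pos (hH t) (hz0 t)).ne').mul ?_
  exact ((((u3c_G_cont hc hH hz (fun t => (hz0 t).ne') j k).norm).sub continuous_const).max continuous_const).pow 2

/-! ## 8. Lemma 2, abstract form -/

/-- **the pointwise inequality** (U3_295 Lemma 2 (c)(d)(e)) at ONE symmetric matrix `A` and ONE velocity `v` -/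
theorem u3c_point_le {A : Matrix ι ι ℝ} (hA : A.IsHermitian) {φ : ℝ → ℝ} (hφ0 : ∀ s, 0 ≤ φ s) {L : ℝ}
    (hφL : ∀ s, |s| ≤ L → 1 ≤ φ s) (v : ι → ℝ) (P : Finset (ι × ι)) (hP : ∀ p ∈ P, p.swap ∉ P)
    {y r : ℝ} (hy : 0 < y) (hr : 0 < r) (e : ι × ι → ℝ) (he : ∀ p ∈ P, |e p| + r ≤ L) {U : ι → ℝ}
    (hU : ∀ j, ∑ k ∈ range (Fintype.card ι), φ (eigD A k) * eigV A k j ^ 2 ≤ U j) :
    ∑ k ∈ range (Fintype.card ι), φ (eigD A k) * (eigV A k ⬝ᵥ (diagonal v : Matrix ι ι ℝ) *ᵥ eigV A k) ^ 2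
      ≤ ∑ j, v j ^ 2 * U j - ∑ p ∈ P, (v p.1 - v p.2) ^ 2 * u3cQ A ⟨e p, y⟩ r p.1 p.2 := by
  have h1 := u3c_point_id (n := Fintype.card ι) (fun k => φ (eigD A k)) (fun k j => eigV A k j ^ 2)
    (fun k hk => eig_V_row hA (Finset.mem_range.1 hk)) v
  simp only [eig_diag_quad]
  rw [h1]
  have h2 : ∑ j, v j ^ 2 * ∑ k ∈ range (Fintype.card ι), φ (eigD A k) * eigV A k j ^ 2 ≤ ∑ j, v j ^ 2 * U j :=
    Finset.sum_le_sum fun j _ => mul_le_mul_of_nonneg_left (hU j) (sq_nonneg _)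
  have h3 : ∑ p ∈ P, (v p.1 - v p.2) ^ 2 * u3cQ A ⟨e p, y⟩ r p.1 p.2
      ≤ ∑ k ∈ range (Fintype.card ι), φ (eigD A k) *
          (1 / 2 * ∑ j, ∑ l, eigV A k j ^ 2 * eigV A k l ^ 2 * (v j - v l) ^ 2) := by
    calc ∑ p ∈ P, (v p.1 - v p.2) ^ 2 * u3cQ A ⟨e p, y⟩ r p.1 p.2
        ≤ ∑ p ∈ P, (v p.1 - v p.2) ^ 2 * ∑ k ∈ range (Fintype.card ι), φ (eigD A k) * (eigV A k p.1 ^ 2 * eigV A k p.2 ^ 2) := by
          refine Finset.sum_le_sum fun p hp => mul_le_mul_of_nonneg_left ?_ (sq_nonneg _)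
          rw [u3c_sorted_sum hA fun s ψ => φ s * (ψ p.1 ^ 2 * ψ p.2 ^ 2)]
          classical
          refine (u3c_k2e hA (z := ⟨e p, y⟩) hy hr (Finset.univ.filter fun i => |hA.eigenvalues i| ≤ L) ?_ p.1 p.2).trans ?_
          · intro i hi
            have hi' : L < |hA.eigenvalues i| := by
              by_contra hcon
              exact hi (Finset.mem_filter.2 ⟨Finset.mem_univ _, not_lt.1 hcon⟩)
            have h4 : |hA.eigenvalues i - e p| ≤ ‖(hA.eigenvalues i : ℂ) - (⟨e p, y⟩ : ℂ)‖ := by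
              have := Complex.abs_re_le_norm ((hA.eigenvalues i : ℂ) - (⟨e p, y⟩ : ℂ))
              simpa using this
            have h5 : |hA.eigenvalues i| - |e p| ≤ |hA.eigenvalues i - e p| := abs_sub_abs_le_abs_sub _ _
            have := he p hp
            linarith
          · calc ∑ i ∈ Finset.univ.filter (fun i => |hA.eigenvalues i| ≤ L), rsU hA p.1 i ^ 2 * rsU hA p.2 i ^ 2
                ≤ ∑ i ∈ Finset.univ.filter (fun i => |hA.eigenvalues i| ≤ L), φ (hA.eigenvalues i) * (rsU hA p.1 i ^ 2 * rsU hA p.2 i ^ 2) := by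
                  refine Finset.sum_le_sum fun i hi => ?_
                  have := hφL _ (Finset.mem_filter.1 hi).2
                  have h0 : 0 ≤ rsU hA p.1 i ^ 2 * rsU hA p.2 i ^ 2 := by positivity
                  nlinarith
              _ ≤ ∑ i, φ (hA.eigenvalues i) * (rsU hA p.1 i ^ 2 * rsU hA p.2 i ^ 2) :=
                  Finset.sum_le_sum_of_subset_of_nonneg (Finset.subset_univ _) fun i _ _ => mul_nonneg (hφ0 _) (by positivity)
      _ = ∑ k ∈ range (Fintype.card ι), φ (eigD A k) * ∑ p ∈ P, eigV A k p.1 ^ 2 * eigV A k p.2 ^ 2 * (v p.1 - v p.2) ^ 2 := by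
          simp only [Finset.mul_sum]
          rw [Finset.sum_comm]
          exact Finset.sum_congr rfl fun k _ => Finset.sum_congr rfl fun p _ => by ring
      _ ≤ _ := Finset.sum_le_sum fun k _ => mul_le_mul_of_nonneg_left
          (u3c_var_pairs (fun j => eigV A k j ^ 2) v (fun j => sq_nonneg _) P hP) (hφ0 _)
  linarith

theorem u3c_Z_herm (x : ι → ℝ) {N : Matrix ι ι ℝ} (hN : N.IsHermitian) : (diagonal x + N).IsHermitian :=
  (eig_diag_herm x).add hN

theorem u3c_mk_cont {T : Type} [TopologicalSpace T] {f : T → ℝ} (hf : Continuous f) (y : ℝ) :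
    Continuous fun t => (⟨f t, y⟩ : ℂ) := by
  have e : (fun t => (⟨f t, y⟩ : ℂ)) = fun t => ((f t : ℝ) : ℂ) + (y : ℂ) * Complex.I := by
    funext t; exact Complex.mk_eq_add_mul_I _ _
  rw [e]
  exact (Complex.continuous_ofReal.comp hf).add continuous_const

theorem u3c_Z_cont {T : Type} [TopologicalSpace T] {x : T → ι → ℝ} (hx : ∀ j, Continuous fun t => x t j) {N : T → Matrix ι ι ℝ}
    (hN : ∀ i j, Continuous fun t => N t i j) (i j : ι) : Continuous fun t => (diagonal (x t) + N t) i j := by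
  simp only [Matrix.add_apply, Matrix.diagonal_apply]
  by_cases h : i = j
  · simp only [if_pos h]; exact (hx i).add (hN i j)
  · simp only [if_neg h]; exact continuous_const.add (hN i j)

/-- **LEMMA 2** of U3_295, abstract in `(φ, Ψ)`, in the `C¹` path of diagonals `X` with velocity `V`, in the antisymmetric set of pairs `P`
and in the upper weight `U`;  EVERY real symmetric `N`. -/
theorem u3c_lemma2 {N : Matrix ι ι ℝ} (hN : N.IsHermitian) {X V : ℝ → ι → ℝ}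
    (hX : ∀ a ∈ Set.Icc (0 : ℝ) 1, ∀ j, HasDerivAt (fun a' => X a' j) (V a j) a)
    (hV : ∀ j, ContinuousOn (fun a => V a j) (Set.Icc 0 1))
    {φ Ψ : ℝ → ℝ} (hφ0 : ∀ s, 0 ≤ φ s) (hφ1 : ∀ s, φ s ≤ 1) (hΨ : ∀ s, HasDerivAt Ψ (Real.sqrt (φ s)) s)
    {L y r : ℝ} (hy : 0 < y) (hr : 0 < r) (hφL : ∀ s, |s| ≤ L → 1 ≤ φ s)
    (P : Finset (ι × ι)) (hP : ∀ p ∈ P, p.swap ∉ P) (hPX : ∀ a ∈ Set.Icc (0 : ℝ) 1, ∀ p ∈ P, |X a p.1| + r ≤ L)
    {U : ℝ → ι → ℝ}
    (hU : ∀ a ∈ Set.Icc (0 : ℝ) 1, ∀ j,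
      ∑ k ∈ range (Fintype.card ι), φ (eigD (diagonal (X a) + N) k) * eigV (diagonal (X a) + N) k j ^ 2 ≤ U a j)
    (hUc : ∀ j, ContinuousOn (fun a => U a j) (Set.Icc 0 1)) :
    ∑ k ∈ range (Fintype.card ι), (Ψ (eigD (diagonal (X 1) + N) k) - Ψ (eigD (diagonal (X 0) + N) k)) ^ 2
        + ∫ a in (0 : ℝ)..1, ∑ p ∈ P, (V a p.1 - V a p.2) ^ 2 * u3cQ (diagonal (X a) + N) ⟨X a p.1, y⟩ r p.1 p.2
      ≤ ∫ a in (0 : ℝ)..1, ∑ j, V a j ^ 2 * U a j := by
  have hu : Set.uIcc (0 : ℝ) 1 = Set.Icc 0 1 := Set.uIcc_of_le zero_le_one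
  have hXc : ∀ j, ContinuousOn (fun a => X a j) (Set.Icc 0 1) := fun j a ha => (hX a ha j).continuousAt.continuousWithinAt
  -- integrability
  have hDDc : ContinuousOn (fun a => ∑ p ∈ P, (V a p.1 - V a p.2) ^ 2 * u3cQ (diagonal (X a) + N) ⟨X a p.1, y⟩ r p.1 p.2)
      (Set.Icc 0 1) := by
    refine continuousOn_finsetSum _ fun p _ => (((hV p.1).sub (hV p.2)).pow 2).mul ?_
    rw [continuousOn_iff_continuous_domRestrict]
    have hx' : ∀ j, Continuous fun t : Set.Icc (0 : ℝ) 1 => X t.1 j := fun j => (hXc j).domRestrict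
    exact u3c_Q_cont (T := Set.Icc (0 : ℝ) 1) (H := fun t => diagonal (X t.1) + N) (z := fun t => ⟨X t.1 p.1, y⟩)
      (u3c_Z_cont hx' fun _ _ => continuous_const) (fun t => u3c_Z_herm _ hN) (u3c_mk_cont (hx' p.1) y) (fun _ => hy) r p.1 p.2
  have hUVc : ContinuousOn (fun a => ∑ j, V a j ^ 2 * U a j) (Set.Icc 0 1) :=
    continuousOn_finsetSum _ fun j _ => ((hV j).pow 2).mul (hUc j)
  have hDDi : IntervalIntegrable (fun a => ∑ p ∈ P, (V a p.1 - V a p.2) ^ 2 * u3cQ (diagonal (X a) + N) ⟨X a p.1, y⟩ r p.1 p.2)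
      volume 0 1 := ContinuousOn.intervalIntegrable (by rw [hu]; exact hDDc)
  have hUVi : IntervalIntegrable (fun a => ∑ j, V a j ^ 2 * U a j) volume 0 1 :=
    ContinuousOn.intervalIntegrable (by rw [hu]; exact hUVc)
  -- the bound of the velocity
  have hb : ∀ j, ∃ C, ∀ a ∈ Set.Icc (0 : ℝ) 1, ‖V a j‖ ≤ C := fun j => isCompact_Icc.exists_bound_of_continuousOn (hV j)
  choose C hC using hb
  have hM : ∀ a ∈ Set.Icc (0 : ℝ) 1, ∀ i j, |(diagonal (V a) : Matrix ι ι ℝ) i j| ≤ ∑ j, |C j| := by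
    intro a ha i j
    rw [Matrix.diagonal_apply]
    by_cases h : i = j
    · rw [if_pos h]
      calc |V a i| ≤ C i := hC i a ha
        _ ≤ |C i| := le_abs_self _
        _ ≤ ∑ j, |C j| := Finset.single_le_sum (f := fun j => |C j|) (fun _ _ => abs_nonneg _) (Finset.mem_univ i)
    · rw [if_neg h, abs_zero]
      exact Finset.sum_nonneg fun _ _ => abs_nonneg _
  have hd : ∀ a ∈ Set.Icc (0 : ℝ) 1, ∀ i j, HasDerivAt (fun a' => (diagonal (X a') + N) i j) ((diagonal (V a) : Matrix ι ι ℝ) i j) a := by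
    intro a ha i j
    simp only [Matrix.add_apply, Matrix.diagonal_apply]
    by_cases h : i = j
    · simp only [if_pos h]; exact (hX a ha i).add_const _
    · simp only [if_neg h]; exact hasDerivAt_const _ _
  have key := u3c_cost_le (Z := fun a => diagonal (X a) + N) (Z' := fun a => diagonal (V a)) (fun a => u3c_Z_herm _ hN) hd hM
    hφ0 hφ1 hΨ (hUVi.sub hDDi) (fun a ha => u3c_point_le (u3c_Z_herm (X a) hN) hφ0 hφL (V a) P hP hy hr (fun p => X a p.1)
      (hPX a (Set.Ioo_subset_Icc_self ha)) (hU a (Set.Ioo_subset_Icc_self ha)))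
  rw [intervalIntegral.integral_sub hUVi hDDi] at key
  linarith

/-! ## 9. Lemma 2 in the vocabulary of `Defs/U3.lean` -/

/-- the weights `4^(-α m)` of `uwPhi0` -/
noncomputable def u3cW (α : ℝ) (m : ℕ) : ℝ := (4 : ℝ) ^ (-(α * m))

/-- the heights `2^m L` of `uwPhi0` -/
noncomputable def u3cH (L : ℝ) (m : ℕ) : ℝ := 2 ^ m * L

theorem u3c_WH_eqns_cite : True := by
  have := @u3cW.eq_1
  have := @u3cH.eq_1
  trivial

theorem u3c_W_nonneg (α : ℝ) (m : ℕ) : 0 ≤ u3cW α m := by unfold u3cW; positivity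

theorem u3c_W_summable {α : ℝ} (hα : 0 < α) : Summable (u3cW α) := by
  have e : u3cW α = fun m : ℕ => ((4 : ℝ) ^ (-α)) ^ m := by
    funext m
    unfold u3cW
    rw [← Real.rpow_natCast, ← Real.rpow_mul (by norm_num)]
    congr 1; ring
  rw [e]
  exact summable_geometric_of_lt_one (by positivity) (Real.rpow_lt_one_of_one_lt_of_neg (by norm_num) (by linarith))

theorem u3c_H_pos {L : ℝ} (hL : 0 < L) (m : ℕ) : 0 < u3cH L m := by unfold u3cH; positivity

theorem u3c_phi0_eq (L α s : ℝ) : uwPhi0 L α s = u3cMix (u3cW α) (u3cH L) s := rfl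

theorem u3c_hat0_eq (L α : ℝ) (Z : Matrix ι ι ℝ) (j : ι) : uwHat0 L α Z j = u3cMixG (u3cW α) (u3cH L) Z j := by
  unfold uwHat0 u3cMixG u3cW u3cH
  simp only [rs_G_eq_rsv, rs_C_eq_toC]

theorem u3c_uwQ_eq (L y : ℝ) (Z : Matrix ι ι ℝ) (j k : ι) (e : ℝ) : uwQ L y Z j k e = u3cQ Z ⟨e, y⟩ (L / 8) j k := by
  unfold uwQ u3cQ
  rw [rs_rTr, rs_G_eq_rsv, rs_C_eq_toC, max_comm, one_div_div]

theorem u3c_phi0_nonneg {L : ℝ} (hL : 0 < L) (α s : ℝ) : 0 ≤ uwPhi0 L α s := by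
  rw [u3c_phi0_eq]
  exact tsum_nonneg fun m => mul_nonneg (u3c_W_nonneg α m) (u3c_kernel_mem (u3c_H_pos hL m) s).1

theorem u3c_phi0_pos {L α : ℝ} (hL : 0 < L) (hα : 0 < α) (s : ℝ) : 0 < uwPhi0 L α s := by
  rw [u3c_phi0_eq]
  have hs := u3c_mix_summable (u3c_W_nonneg α) (u3c_W_summable hα) (u3c_H_pos hL) s
  refine hs.tsum_pos (fun m => mul_nonneg (u3c_W_nonneg α m) (u3c_kernel_mem (u3c_H_pos hL m) s).1) 0 ?_
  have h1 : 0 < u3cW α 0 := by unfold u3cW; positivity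
  have h2 := u3c_H_pos hL 0
  have h3 : 0 < s ^ 2 + u3cH L 0 ^ 2 := by positivity
  positivity

theorem u3c_phi_nonneg {L : ℝ} (hL : 0 < L) (α s : ℝ) : 0 ≤ uwPhi L α s :=
  le_min zero_le_one (div_nonneg (u3c_phi0_nonneg hL α s) (u3c_phi0_nonneg hL α L))

theorem u3c_phi_le_one (L α s : ℝ) : uwPhi L α s ≤ 1 := min_le_left _ _

/-- `phi0` is nonincreasing in `|s|` -/
theorem u3c_phi0_anti {L α : ℝ} (hL : 0 < L) (hα : 0 < α) {s t : ℝ} (h : |s| ≤ |t|) : uwPhi0 L α t ≤ uwPhi0 L α s := by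
  rw [u3c_phi0_eq, u3c_phi0_eq]
  refine Summable.tsum_le_tsum (fun m => ?_) (u3c_mix_summable (u3c_W_nonneg α) (u3c_W_summable hα) (u3c_H_pos hL) t)
    (u3c_mix_summable (u3c_W_nonneg α) (u3c_W_summable hα) (u3c_H_pos hL) s)
  refine mul_le_mul_of_nonneg_left ?_ (u3c_W_nonneg α m)
  have h1 := u3c_H_pos hL m
  have h2 : s ^ 2 ≤ t ^ 2 := sq_le_sq.2 h
  exact div_le_div_of_nonneg_left (by positivity) (by positivity) (by linarith)

/-- FLAT CORE -/
theorem u3c_phi_flat {L α : ℝ} (hL : 0 < L) (hα : 0 < α) {s : ℝ} (h : |s| ≤ L) : uwPhi L α s = 1 := by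
  unfold uwPhi
  refine min_eq_left ?_
  rw [one_le_div (u3c_phi0_pos hL hα L)]
  exact u3c_phi0_anti hL hα (by rwa [abs_of_pos hL])

/-- **(w6)** in the vocabulary of `Defs/U3` -/
theorem u3c_w6_uw {L α : ℝ} (hL : 0 < L) (hα : 0 < α) {A : Matrix ι ι ℝ} (hA : A.IsHermitian) (j : ι) :
    ∑ k ∈ range (Fintype.card ι), uwPhi L α (eigD A k) * eigV A k j ^ 2 ≤ uwHat L α A j := by
  rw [u3c_sorted_sum hA fun s ψ => uwPhi L α s * ψ j ^ 2]
  have h := u3c_w6 hA (u3c_W_nonneg α) (u3c_W_summable hα) (u3c_H_pos hL) (φ := uwPhi L α) (c := (uwPhi0 L α L)⁻¹)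
    (u3c_phi_le_one L α) (fun s => by
      rw [← u3c_phi0_eq, mul_comm, ← div_eq_mul_inv]
      exact min_le_right _ _) j
  unfold uwHat
  rwa [← u3c_hat0_eq, mul_comm, ← div_eq_mul_inv] at h

theorem u3c_wlM_herm (x : ι → ℝ) (D : ℝ) (N : Matrix ι ι ℝ) : (wlM x D N).IsHermitian := by
  unfold wlM
  refine u3c_Z_herm x ?_
  have h := eig_goeOf_herm N
  rw [Matrix.IsHermitian, Matrix.conjTranspose_smul, h.eq]
  simp

theorem u3c_wlM_cont {T : Type} [TopologicalSpace T] {x : T → ι → ℝ} (hx : ∀ j, Continuous fun t => x t j) (D : ℝ)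
    {N : T → Matrix ι ι ℝ} (hN : ∀ i j, Continuous fun t => N t i j) (i j : ι) : Continuous fun t => wlM (x t) D (N t) i j := by
  unfold wlM
  refine u3c_Z_cont hx (fun i j => ?_) i j
  simp only [Matrix.smul_apply, eig_goeOf_apply, smul_eq_mul]
  exact continuous_const.mul (continuous_const.mul ((hN i j).add (hN j i)))

/-- continuity of `uwHat` along continuous data and noise -/
theorem u3c_hat_cont {T : Type} [TopologicalSpace T] {L α : ℝ} (hL : 0 < L) (hα : 0 < α) {x : T → ι → ℝ}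
    (hx : ∀ j, Continuous fun t => x t j) (D : ℝ) {N : T → Matrix ι ι ℝ} (hN : ∀ i j, Continuous fun t => N t i j) (j : ι) :
    Continuous fun t => uwHat L α (wlM (x t) D (N t)) j := by
  unfold uwHat
  simp only [u3c_hat0_eq]
  exact continuous_const.min ((u3c_mixG_cont (u3c_wlM_cont hx D hN) (fun t => u3c_wlM_herm _ _ _) (u3c_W_nonneg α)
    (u3c_W_summable hα) (u3c_H_pos hL) j).div_const _)

/-- continuity of `uwQ` along continuous data, noise and energy -/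
theorem u3c_uwQ_cont {T : Type} [TopologicalSpace T] (L : ℝ) {y : ℝ} (hy : 0 < y) {x : T → ι → ℝ}
    (hx : ∀ j, Continuous fun t => x t j) (D : ℝ) {N : T → Matrix ι ι ℝ} (hN : ∀ i j, Continuous fun t => N t i j)
    {e : T → ℝ} (he : Continuous e) (j k : ι) :
    Continuous fun t => uwQ L y (wlM (x t) D (N t)) j k (e t) := by
  simp only [u3c_uwQ_eq]
  exact u3c_Q_cont (u3c_wlM_cont hx D hN) (fun t => u3c_wlM_herm _ _ _) (u3c_mk_cont he y) (fun _ => hy) _ j k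

/-! ### the window `Win K` -/

/-- cost of the two ascending spectra = sum over the sorted positions -/
theorem u3c_cost_eig {K : ℕ} (L α : ℝ) (A B : Matrix (Win K) (Win K) ℝ) :
    uwCost L α (b2Eig A) (b2Eig B)
      = ∑ k ∈ range (Fintype.card (Win K)), (uwPsi L α (eigD B k) - uwPsi L α (eigD A k)) ^ 2 := by
  unfold uwCost b2Eig
  rw [Fin.sum_univ_eq_sum_range (fun i => (uwPsi L α (eigD B (2 * K - i)) - uwPsi L α (eigD A (2 * K - i))) ^ 2),
    Fintype.card_fin, ← Finset.sum_range_reflect]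
  refine Finset.sum_congr rfl fun i hi => ?_
  have hi' := Finset.mem_range.1 hi
  have e : 2 * K - (2 * K + 1 - 1 - i) = i := by omega
  rw [e]

open Classical in
/-- the core pairs as a set of ordered pairs of neighbours -/
noncomputable def u3cP {K : ℕ} (L : ℝ) (x : Dat K) : Finset (Win K × Win K) :=
  (Finset.univ.filter fun j : Fin (2 * K) => uwCore L x j).image fun j => (j.castSucc, j.succ)

theorem u3c_P_eqns_cite : True := by
  have := @u3cP.eq_1
  trivial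

theorem u3c_P_inj (K : ℕ) : Function.Injective fun j : Fin (2 * K) => ((j.castSucc, j.succ) : Win K × Win K) := by
  intro i j h
  exact Fin.castSucc_injective _ (Prod.ext_iff.1 h).1

theorem u3c_P_anti {K : ℕ} (L : ℝ) (x : Dat K) : ∀ p ∈ u3cP L x, p.swap ∉ u3cP L x := by
  intro p hp hq
  unfold u3cP at hp hq
  obtain ⟨i, -, rfl⟩ := Finset.mem_image.1 hp
  obtain ⟨j, -, hj⟩ := Finset.mem_image.1 hq
  simp only [Prod.swap_prod_mk, Prod.mk.injEq] at hj
  have h1 := congrArg Fin.val hj.1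
  have h2 := congrArg Fin.val hj.2
  simp only [Fin.val_castSucc, Fin.val_succ] at h1 h2
  omega

open Classical in
theorem u3c_P_sum {K : ℕ} (L : ℝ) (x : Dat K) (f : Win K × Win K → ℝ) :
    ∑ p ∈ u3cP L x, f p = ∑ j : Fin (2 * K), if uwCore L x j then f (j.castSucc, j.succ) else 0 := by
  unfold u3cP
  rw [Finset.sum_image (fun i _ j _ h => u3c_P_inj K h), Finset.sum_filter]

/-- **LEMMA 2 of U3_295** in the vocabulary of `Defs/U3.lean`.   The facts (w3), (w5) on `uwPsi`, `uwGeo`, `uwVel` (unit D0) and (r5) enter as hypotheses. -/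
theorem u3c_lemma2_uw {K : ℕ} {L α y : ℝ} (hL : 0 < L) (hα : 0 < α) (hy : 0 < y)
    (hΨ : ∀ s, HasDerivAt (uwPsi L α) (Real.sqrt (uwPhi L α s)) s) (x y' : Dat K) (N : Matrix (Win K) (Win K) ℝ)
    (hgeo : ∀ a ∈ Set.Icc (0 : ℝ) 1, ∀ j, HasDerivAt (fun a' => uwGeo L α x y' a' j) (uwVel L α x y' a j) a)
    (hvel : ∀ j, ContinuousOn (fun a => uwVel L α x y' a j) (Set.Icc 0 1))
    (h0 : uwGeo L α x y' 0 = x) (h1 : uwGeo L α x y' 1 = y')
    (hcore : ∀ j, uwCore L x j → ∀ a ∈ Set.Icc (0 : ℝ) 1, |uwGeo L α x y' a j.castSucc| ≤ 7 * L / 8 ∧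
      uwVel L α x y' a j.succ - uwVel L α x y' a j.castSucc = uwGapD x y' j) :
    uwCost L α (b2Step 1 x N) (b2Step 1 y' N) + ∫ a in (0 : ℝ)..1, uwDD L α y x y' a N
      ≤ ∫ a in (0 : ℝ)..1, ∑ j, uwVel L α x y' a j ^ 2 * uwHat L α (wlM (uwGeo L α x y' a) 1 N) j := by
  classical
  have hN : (Real.sqrt 1 • goeOf N).IsHermitian := by
    have h := eig_goeOf_herm N
    rw [Matrix.IsHermitian, Matrix.conjTranspose_smul, h.eq]
    simp
  have hXc : ∀ j, ContinuousOn (fun a => uwGeo L α x y' a j) (Set.Icc 0 1) :=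
    fun j a ha => (hgeo a ha j).continuousAt.continuousWithinAt
  have key := u3c_lemma2 hN hgeo hvel (u3c_phi_nonneg hL α) (u3c_phi_le_one L α) hΨ (L := L) (y := y) (r := L / 8) hy (by positivity)
    (fun s hs => (u3c_phi_flat hL hα hs).ge) (u3cP L x) (u3c_P_anti L x)
    (fun a ha p hp => by
      unfold u3cP at hp
      obtain ⟨j, hj, rfl⟩ := Finset.mem_image.1 hp
      have := (hcore j (Finset.mem_filter.1 hj).2 a ha).1
      simp only
      linarith)
    (U := fun a j => uwHat L α (wlM (uwGeo L α x y' a) 1 N) j)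
    (fun a _ j => u3c_w6_uw hL hα (u3c_wlM_herm _ 1 N) j)
    (fun j => by
      rw [continuousOn_iff_continuous_domRestrict]
      exact u3c_hat_cont (T := Set.Icc (0 : ℝ) 1) hL hα (x := fun t => uwGeo L α x y' t.1) (fun j => (hXc j).domRestrict) 1
        (N := fun _ => N) (fun _ _ => continuous_const) j)
  rw [h0, h1] at key
  have hcost : uwCost L α (b2Step 1 x N) (b2Step 1 y' N)
      = ∑ k ∈ range (Fintype.card (Win K)), (uwPsi L α (eigD (diagonal y' + Real.sqrt 1 • goeOf N) k)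
          - uwPsi L α (eigD (diagonal x + Real.sqrt 1 • goeOf N) k)) ^ 2 := u3c_cost_eig L α _ _
  have hDD : ∫ a in (0 : ℝ)..1, uwDD L α y x y' a N
      = ∫ a in (0 : ℝ)..1, ∑ p ∈ u3cP L x, (uwVel L α x y' a p.1 - uwVel L α x y' a p.2) ^ 2 *
          u3cQ (diagonal (uwGeo L α x y' a) + Real.sqrt 1 • goeOf N) ⟨uwGeo L α x y' a p.1, y⟩ (L / 8) p.1 p.2 := by
    refine intervalIntegral.integral_congr fun a ha => ?_
    rw [Set.uIcc_of_le zero_le_one] at ha
    rw [u3c_P_sum]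
    unfold uwDD
    refine Finset.sum_congr rfl fun j _ => ?_
    by_cases hj : uwCore L x j
    · rw [if_pos hj, if_pos hj, u3c_uwQ_eq, ← (hcore j hj a ha).2]
      simp only [wlM]
      ring
    · rw [if_neg hj, if_neg hj]
  rw [hcost, hDD]
  exact key

end Claimed.Agent.R287
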