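-- KEEP
import Claimed.Agent.R287.U3Core

/-!
# Row 287 (S0534), unit U3, block D0 (geodesic part) + the EXITS `u3t_step_det`, `u3t_geo_vel`, `u3t_geo_cont`      helper251      prefix `u3g_`

Concrete weights of `Defs/U3.lean` (text: `origin/helper295:notes/R287/U3_295.md` sec. 1, (w3), (w5)).
* sec. 1  `uwPhi0`, `uwPhi` continuous, positive, even;
* sec. 2  `uwPsi`: derivative `√uwPhi`, strictly increasing, odd, `= id` on `[-L, L]`;
* sec. 3  `uwPsi` is ONTO for `α ≤ 1` (the increments over `[2^m L, 2^(m+1) L]` are bounded below);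
* sec. 4  `uwInv`: two sided inverse, continuous, differentiable;
* sec. 5  `uwGeo`, `uwVel`: derivative at EVERY `a`, end points, continuity, the geodesic is the segment in the flat core;
* sec. 6  the exits.
-/

set_option autoImplicit false
set_option linter.unusedSectionVars false

namespace Claimed.Agent.R287

open Matrix Finset MeasureTheory Filter Topology

/-! ## 1. the weight -/

theorem u3g_phi0_cont {L α : ℝ} (hL : 0 < L) (hα : 0 < α) : Continuous (uwPhi0 L α) := by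
  have e : uwPhi0 L α = fun s => ∑' m, u3cW α m * (u3cH L m ^ 2 / (s ^ 2 + u3cH L m ^ 2)) := rfl
  rw [e]
  refine continuous_tsum (u := u3cW α) (fun m => ?_) (u3c_W_summable hα) fun m s => ?_
  · have h := u3c_H_pos hL m
    exact continuous_const.mul (continuous_const.div ((continuous_pow 2).add continuous_const) fun s => by positivity)
  · have h := u3c_kernel_mem (u3c_H_pos hL m) s
    rw [Real.norm_eq_abs, abs_of_nonneg (mul_nonneg (u3c_W_nonneg α m) h.1)]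
    simpa using mul_le_mul_of_nonneg_left h.2 (u3c_W_nonneg α m)

theorem u3g_phi_cont {L α : ℝ} (hL : 0 < L) (hα : 0 < α) : Continuous (uwPhi L α) :=
  continuous_const.min ((u3g_phi0_cont hL hα).div_const _)

theorem u3g_phi_pos {L α : ℝ} (hL : 0 < L) (hα : 0 < α) (s : ℝ) : 0 < uwPhi L α s :=
  lt_min one_pos (div_pos (u3c_phi0_pos hL hα s) (u3c_phi0_pos hL hα L))

theorem u3g_phi_neg (L α s : ℝ) : uwPhi L α (-s) = uwPhi L α s := by
  unfold uwPhi uwPhi0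
  simp only [neg_sq]

theorem u3g_phi_anti {L α : ℝ} (hL : 0 < L) (hα : 0 < α) {s t : ℝ} (h : |s| ≤ |t|) : uwPhi L α t ≤ uwPhi L α s :=
  min_le_min le_rfl (div_le_div_of_nonneg_right (u3c_phi0_anti hL hα h) (u3c_phi0_pos hL hα L).le)

theorem u3g_sq_cont {L α : ℝ} (hL : 0 < L) (hα : 0 < α) : Continuous fun s => Real.sqrt (uwPhi L α s) :=
  Real.continuous_sqrt.comp (u3g_phi_cont hL hα)

theorem u3g_sq_pos {L α : ℝ} (hL : 0 < L) (hα : 0 < α) (s : ℝ) : 0 < Real.sqrt (uwPhi L α s) :=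
  Real.sqrt_pos.2 (u3g_phi_pos hL hα s)

/-! ## 2. `Psi` -/

theorem u3g_psi_deriv {L α : ℝ} (hL : 0 < L) (hα : 0 < α) (s : ℝ) : HasDerivAt (uwPsi L α) (Real.sqrt (uwPhi L α s)) s :=
  ((u3g_sq_cont hL hα).integral_hasStrictDerivAt 0 s).hasDerivAt

theorem u3g_psi_cont {L α : ℝ} (hL : 0 < L) (hα : 0 < α) : Continuous (uwPsi L α) :=
  continuous_iff_continuousAt.2 fun s => (u3g_psi_deriv hL hα s).continuousAt

theorem u3g_psi_mono {L α : ℝ} (hL : 0 < L) (hα : 0 < α) : StrictMono (uwPsi L α) :=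
  strictMono_of_deriv_pos fun s => by rw [(u3g_psi_deriv hL hα s).deriv]; exact u3g_sq_pos hL hα s

theorem u3g_psi_neg (L α s : ℝ) : uwPsi L α (-s) = -uwPsi L α s := by
  unfold uwPsi
  have h := intervalIntegral.integral_comp_neg (a := 0) (b := s) fun r => Real.sqrt (uwPhi L α r)
  simp only [u3g_phi_neg, neg_zero] at h
  rw [h, intervalIntegral.integral_symm]

/-- FLAT CORE: `Psi = id` on `[-L, L]` -/
theorem u3g_psi_id {L α : ℝ} (hL : 0 < L) (hα : 0 < α) {s : ℝ} (h : |s| ≤ L) : uwPsi L α s = s := by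
  unfold uwPsi
  have h1 : ∫ r in (0 : ℝ)..s, Real.sqrt (uwPhi L α r) = ∫ _r in (0 : ℝ)..s, (1 : ℝ) := by
    refine intervalIntegral.integral_congr fun r hr => ?_
    have hr' : |r| ≤ L := by
      rcases Set.mem_uIcc.1 hr with ⟨h1, h2⟩ | ⟨h1, h2⟩
      · rw [abs_of_nonneg h1]; exact h2.trans ((le_abs_self s).trans h)
      · rw [abs_of_nonpos h2]; have := (neg_abs_le s); linarith
    simp only [u3c_phi_flat hL hα hr', Real.sqrt_one]
  rw [h1]
  simp

/-! ## 3. `Psi` is onto -/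

/-- one term of the series -/
theorem u3g_phi0_ge {L α : ℝ} (hL : 0 < L) (hα : 0 < α) (m : ℕ) : u3cW α m / 2 ≤ uwPhi0 L α (u3cH L m) := by
  rw [u3c_phi0_eq]
  have hs := u3c_mix_summable (u3c_W_nonneg α) (u3c_W_summable hα) (u3c_H_pos hL) (u3cH L m)
  have h1 := hs.le_tsum m fun k _ => mul_nonneg (u3c_W_nonneg α k) (u3c_kernel_mem (u3c_H_pos hL k) _).1
  have h2 : u3cH L m ^ 2 / (u3cH L m ^ 2 + u3cH L m ^ 2) = 1 / 2 := by
    have := u3c_H_pos hL m
    field_simp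
    ring
  rw [h2] at h1
  unfold u3cMix
  linarith

theorem u3g_W_ge {α : ℝ} (hα1 : α ≤ 1) (m : ℕ) : ((4 : ℝ) ^ m)⁻¹ ≤ u3cW α m := by
  unfold u3cW
  rw [← Real.rpow_natCast, ← Real.rpow_neg (by norm_num)]
  refine Real.rpow_le_rpow_of_exponent_le (by norm_num) ?_
  have : (0 : ℝ) ≤ m := Nat.cast_nonneg m
  nlinarith

/-- lower bound of `√phi` at the heights -/
theorem u3g_sq_ge {L α : ℝ} (hL : 0 < L) (hα : 0 < α) (hα1 : α ≤ 1) (m : ℕ) :
    min 1 (1 / (2 * uwPhi0 L α L)) / 2 ^ m ≤ Real.sqrt (uwPhi L α (u3cH L m)) := by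
  set κ := 1 / (2 * uwPhi0 L α L) with hκ
  have hp := u3c_phi0_pos hL hα L
  have hκ0 : 0 < κ := by positivity
  set d := min 1 κ with hd
  have hd0 : 0 < d := lt_min one_pos hκ0
  have hd1 : d ≤ 1 := min_le_left _ _
  have hdκ : d ≤ κ := min_le_right _ _
  refine Real.le_sqrt_of_sq_le ?_
  have h4 : (d / 2 ^ m) ^ 2 = d ^ 2 * ((4 : ℝ) ^ m)⁻¹ := by
    rw [div_pow, ← pow_mul, mul_comm m 2, pow_mul, div_eq_mul_inv]
    norm_num
  have h4' : 0 < ((4 : ℝ) ^ m)⁻¹ := by positivity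
  have h41 : ((4 : ℝ) ^ m)⁻¹ ≤ 1 := inv_le_one_of_one_le₀ (one_le_pow₀ (by norm_num))
  rw [h4]
  unfold uwPhi
  refine le_min ?_ ?_
  · calc d ^ 2 * ((4 : ℝ) ^ m)⁻¹ ≤ 1 * 1 := mul_le_mul (by nlinarith) h41 h4'.le zero_le_one
      _ = 1 := one_mul 1
  · rw [le_div_iff₀ hp]
    have h5 := u3g_phi0_ge hL hα m
    have h6 := u3g_W_ge hα1 m
    have h7 : d ^ 2 ≤ κ := by nlinarith
    calc d ^ 2 * ((4 : ℝ) ^ m)⁻¹ * uwPhi0 L α L ≤ κ * ((4 : ℝ) ^ m)⁻¹ * uwPhi0 L α L := by gcongr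
      _ = ((4 : ℝ) ^ m)⁻¹ / 2 := by rw [hκ]; field_simp
      _ ≤ uwPhi0 L α (u3cH L m) := by linarith

/-- the increments over the dyadic blocks are bounded below -/
theorem u3g_psi_incr {L α : ℝ} (hL : 0 < L) (hα : 0 < α) (hα1 : α ≤ 1) (m : ℕ) :
    L * min 1 (1 / (2 * uwPhi0 L α L)) / 2 ≤ uwPsi L α (u3cH L (m + 1)) - uwPsi L α (u3cH L m) := by
  set d := min 1 (1 / (2 * uwPhi0 L α L)) with hd
  have hH : u3cH L (m + 1) = 2 * u3cH L m := by unfold u3cH; ring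
  have hHm := u3c_H_pos hL m
  have hle : u3cH L m ≤ u3cH L (m + 1) := by rw [hH]; linarith
  have hint : ∀ a b : ℝ, IntervalIntegrable (fun r => Real.sqrt (uwPhi L α r)) volume a b :=
    fun a b => (u3g_sq_cont hL hα).intervalIntegrable a b
  have h1 : uwPsi L α (u3cH L (m + 1)) - uwPsi L α (u3cH L m)
      = ∫ r in (u3cH L m)..(u3cH L (m + 1)), Real.sqrt (uwPhi L α r) := by
    unfold uwPsi
    rw [intervalIntegral.integral_interval_sub_left (hint _ _) (hint _ _)]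
  have h2 : ∫ _r in (u3cH L m)..(u3cH L (m + 1)), d / 2 ^ (m + 1) ≤ ∫ r in (u3cH L m)..(u3cH L (m + 1)), Real.sqrt (uwPhi L α r) := by
    refine intervalIntegral.integral_mono_on hle intervalIntegrable_const (hint _ _) fun r hr => ?_
    refine (u3g_sq_ge hL hα hα1 (m + 1)).trans (Real.sqrt_le_sqrt ?_)
    refine u3g_phi_anti hL hα ?_
    rw [abs_of_nonneg (hHm.le.trans hr.1), abs_of_pos (u3c_H_pos hL (m + 1))]
    exact hr.2
  rw [h1]
  refine le_trans (le_of_eq ?_) h2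
  rw [intervalIntegral.integral_const, hH, smul_eq_mul]
  unfold u3cH
  field_simp
  ring

theorem u3g_psi_ge {L α : ℝ} (hL : 0 < L) (hα : 0 < α) (hα1 : α ≤ 1) (m : ℕ) :
    m * (L * min 1 (1 / (2 * uwPhi0 L α L)) / 2) ≤ uwPsi L α (u3cH L m) := by
  induction m with
  | zero =>
    have : u3cH L 0 = L := by unfold u3cH; simp
    rw [this, u3g_psi_id hL hα (by rw [abs_of_pos hL])]
    simpa using hL.le
  | succ m ih =>
    have := u3g_psi_incr hL hα hα1 m
    push_cast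
    linarith

theorem u3g_psi_surj {L α : ℝ} (hL : 0 < L) (hα : 0 < α) (hα1 : α ≤ 1) : Function.Surjective (uwPsi L α) := by
  have hc : 0 < L * min 1 (1 / (2 * uwPhi0 L α L)) / 2 := by
    have := u3c_phi0_pos hL hα L
    have : 0 < min 1 (1 / (2 * uwPhi0 L α L)) := lt_min one_pos (by positivity)
    positivity
  have hup : ∀ b : ℝ, ∃ a, b ≤ uwPsi L α a := fun b => by
    obtain ⟨m, hm⟩ := exists_nat_ge (b / (L * min 1 (1 / (2 * uwPhi0 L α L)) / 2))
    refine ⟨u3cH L m, le_trans ?_ (u3g_psi_ge hL hα hα1 m)⟩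
    rwa [div_le_iff₀ hc] at hm
  refine (u3g_psi_cont hL hα).surjective (tendsto_atTop_atTop_of_monotone (u3g_psi_mono hL hα).monotone hup)
    (tendsto_atBot_atBot_of_monotone (u3g_psi_mono hL hα).monotone fun b => ?_)
  obtain ⟨a, ha⟩ := hup (-b)
  exact ⟨-a, by rw [u3g_psi_neg]; linarith⟩

/-! ## 4. the inverse -/

theorem u3g_inv_left {L α : ℝ} (hL : 0 < L) (hα : 0 < α) (s : ℝ) : uwInv L α (uwPsi L α s) = s :=
  Function.leftInverse_invFun (u3g_psi_mono hL hα).injective s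

theorem u3g_inv_right {L α : ℝ} (hL : 0 < L) (hα : 0 < α) (hα1 : α ≤ 1) (t : ℝ) : uwPsi L α (uwInv L α t) = t :=
  Function.rightInverse_invFun (u3g_psi_surj hL hα hα1) t

theorem u3g_inv_cont {L α : ℝ} (hL : 0 < L) (hα : 0 < α) (hα1 : α ≤ 1) : Continuous (uwInv L α) := by
  set e : ℝ ≃o ℝ := (u3g_psi_mono hL hα).orderIsoOfSurjective (uwPsi L α) (u3g_psi_surj hL hα hα1) with he
  have h : uwInv L α = e.symm := by
    funext t
    apply (u3g_psi_mono hL hα).injective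
    rw [u3g_inv_right hL hα hα1]
    exact (e.apply_symm_apply t).symm
  rw [h]
  exact e.symm.continuous

theorem u3g_inv_deriv {L α : ℝ} (hL : 0 < L) (hα : 0 < α) (hα1 : α ≤ 1) (t : ℝ) :
    HasDerivAt (uwInv L α) (Real.sqrt (uwPhi L α (uwInv L α t)))⁻¹ t :=
  HasDerivAt.of_local_left_inverse (u3g_inv_cont hL hα hα1).continuousAt (u3g_psi_deriv hL hα _) (u3g_sq_pos hL hα _).ne'
    (Filter.Eventually.of_forall fun y => u3g_inv_right hL hα hα1 y)

/-! ## 5. the geodesic -/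

theorem u3g_geo_deriv {L α : ℝ} (hL : 0 < L) (hα : 0 < α) (hα1 : α ≤ 1) {J : Type} (x y : J → ℝ) (a : ℝ) (j : J) :
    HasDerivAt (fun a' => uwGeo L α x y a' j) (uwVel L α x y a j) a := by
  have h1 : HasDerivAt (fun a' : ℝ => (1 - a') * uwPsi L α (x j) + a' * uwPsi L α (y j)) (uwPsi L α (y j) - uwPsi L α (x j)) a := by
    have h := (((hasDerivAt_id a).const_sub 1).mul_const (uwPsi L α (x j))).add ((hasDerivAt_id a).mul_const (uwPsi L α (y j)))
    have e : uwPsi L α (y j) - uwPsi L α (x j) = -1 * uwPsi L α (x j) + 1 * uwPsi L α (y j) := by ring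
    rw [e]
    exact h
  have h2 := (u3g_inv_deriv hL hα hα1 ((1 - a) * uwPsi L α (x j) + a * uwPsi L α (y j))).comp a h1
  unfold uwVel
  rw [div_eq_inv_mul]
  exact h2

theorem u3g_geo_zero {L α : ℝ} (hL : 0 < L) (hα : 0 < α) {J : Type} (x y : J → ℝ) : uwGeo L α x y 0 = x := by
  funext j
  unfold uwGeo
  simp [u3g_inv_left hL hα]

theorem u3g_geo_one {L α : ℝ} (hL : 0 < L) (hα : 0 < α) {J : Type} (x y : J → ℝ) : uwGeo L α x y 1 = y := by
  funext j
  unfold uwGeo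
  simp [u3g_inv_left hL hα]

theorem u3g_geo_cont' {L α : ℝ} (hL : 0 < L) (hα : 0 < α) (hα1 : α ≤ 1) {J : Type} (x y : J → ℝ) (j : J) :
    Continuous fun a => uwGeo L α x y a j :=
  continuous_iff_continuousAt.2 fun a => (u3g_geo_deriv hL hα hα1 x y a j).continuousAt

theorem u3g_vel_cont {L α : ℝ} (hL : 0 < L) (hα : 0 < α) (hα1 : α ≤ 1) {J : Type} (x y : J → ℝ) (j : J) :
    Continuous fun a => uwVel L α x y a j := by
  unfold uwVel
  exact continuous_const.div ((u3g_sq_cont hL hα).comp (u3g_geo_cont' hL hα hα1 x y j)) fun a => (u3g_sq_pos hL hα _).ne'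

/-- in the flat core the geodesic is the segment -/
theorem u3g_geo_core {L α : ℝ} (hL : 0 < L) (hα : 0 < α) {J : Type} (x y : J → ℝ) {a : ℝ} (ha : a ∈ Set.Icc (0 : ℝ) 1) {j : J}
    (hx : |x j| ≤ L) (hy : |y j| ≤ L) : uwGeo L α x y a j = (1 - a) * x j + a * y j := by
  have hs : |(1 - a) * x j + a * y j| ≤ L := by
    have h1 : 0 ≤ 1 - a := by linarith [ha.2]
    calc |(1 - a) * x j + a * y j| ≤ |(1 - a) * x j| + |a * y j| := abs_add_le _ _
      _ = (1 - a) * |x j| + a * |y j| := by rw [abs_mul, abs_mul, abs_of_nonneg h1, abs_of_nonneg ha.1]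
      _ ≤ (1 - a) * L + a * L := add_le_add (mul_le_mul_of_nonneg_left hx h1) (mul_le_mul_of_nonneg_left hy ha.1)
      _ = L := by ring
  unfold uwGeo
  rw [u3g_psi_id hL hα hx, u3g_psi_id hL hα hy]
  conv_lhs => rw [← u3g_psi_id hL hα hs]
  exact u3g_inv_left hL hα _

theorem u3g_geo_core_le {L α B : ℝ} (hL : 0 < L) (hα : 0 < α) (hB : B ≤ L) {J : Type} (x y : J → ℝ) {a : ℝ} (ha : a ∈ Set.Icc (0 : ℝ) 1) {j : J}
    (hx : |x j| ≤ B) (hy : |y j| ≤ B) : |uwGeo L α x y a j| ≤ B := by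
  rw [u3g_geo_core hL hα x y ha (hx.trans hB) (hy.trans hB)]
  have h1 : 0 ≤ 1 - a := by linarith [ha.2]
  calc |(1 - a) * x j + a * y j| ≤ |(1 - a) * x j| + |a * y j| := abs_add_le _ _
    _ = (1 - a) * |x j| + a * |y j| := by rw [abs_mul, abs_mul, abs_of_nonneg h1, abs_of_nonneg ha.1]
    _ ≤ (1 - a) * B + a * B := add_le_add (mul_le_mul_of_nonneg_left hx h1) (mul_le_mul_of_nonneg_left hy ha.1)
    _ = B := by ring

theorem u3g_vel_core {L α : ℝ} (hL : 0 < L) (hα : 0 < α) {J : Type} (x y : J → ℝ) {a : ℝ} (ha : a ∈ Set.Icc (0 : ℝ) 1) {j : J}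
    (hx : |x j| ≤ L) (hy : |y j| ≤ L) : uwVel L α x y a j = y j - x j := by
  unfold uwVel
  rw [u3c_phi_flat hL hα (u3g_geo_core_le hL hα le_rfl x y ha hx hy), u3g_psi_id hL hα hx, u3g_psi_id hL hα hy]
  simp

/-! ## 6. the exits -/

/-- **EXIT D0 (w5)** = `u3t_geo_vel` -/
theorem u3g_geo_vel (L α : ℝ) (hL : 0 < L) (hα0 : 0 < α) (hα1 : α < 1) {J : Type} (x y' : J → ℝ) (a : ℝ) (j : J) :
    uwVel L α x y' a j ^ 2 * uwPhi L α (uwGeo L α x y' a j) = (uwPsi L α (y' j) - uwPsi L α (x j)) ^ 2 := by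
  have hp := u3g_phi_pos hL hα0 (uwGeo L α x y' a j)
  unfold uwVel
  rw [div_pow, Real.sq_sqrt hp.le, div_mul_cancel₀ _ hp.ne']

/-- **EXIT D0, continuity** = `u3t_geo_cont` -/
theorem u3g_geo_cont (L α y : ℝ) (hL : 0 < L) (hα0 : 0 < α) (hα1 : α < 1) (hy0 : 0 < y) {K : ℕ} (x y' : Dat K) :
    (Continuous fun q : ℝ × Matrix (Win K) (Win K) ℝ => uwDD L α y x y' q.1 q.2) ∧
    (∀ j, Continuous fun q : ℝ × Matrix (Win K) (Win K) ℝ => uwHat L α (wlM (uwGeo L α x y' q.1) 1 q.2) j) ∧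
    (∀ j, Continuous fun a : ℝ => uwVel L α x y' a j) := by
  have hx : ∀ j, Continuous fun q : ℝ × Matrix (Win K) (Win K) ℝ => uwGeo L α x y' q.1 j :=
    fun j => (u3g_geo_cont' hL hα0 hα1.le x y' j).comp continuous_fst
  have hN : ∀ i j, Continuous fun q : ℝ × Matrix (Win K) (Win K) ℝ => q.2 i j := fun i j => continuous_snd.matrix_elem i j
  refine ⟨?_, fun j => u3c_hat_cont hL hα0 hx 1 hN j, fun j => u3g_vel_cont hL hα0 hα1.le x y' j⟩
  unfold uwDD
  refine continuous_finsetSum _ fun j _ => ?_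
  by_cases hj : uwCore L x j
  · simp only [if_pos hj]
    exact continuous_const.mul (u3c_uwQ_cont L hy0 hx 1 hN (hx j.castSucc) j.castSucc j.succ)
  · simp only [if_neg hj]
    exact continuous_const

/-- **EXIT D1 = Lemma 2** = `u3t_step_det` -/
theorem u3g_step_det (L α y : ℝ) (hL : 0 < L) (hα0 : 0 < α) (hα1 : α < 1) (hy0 : 0 < y) {K : ℕ} (x y' : Dat K)
    (hy : ∀ j : Fin (2 * K), uwCore L x j → |y' j.castSucc| ≤ 7 * L / 8 ∧ |y' j.succ| ≤ 7 * L / 8)
    (N : Matrix (Win K) (Win K) ℝ) :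
    uwCost L α (b2Step 1 x N) (b2Step 1 y' N) + ∫ a in (0 : ℝ)..1, uwDD L α y x y' a N
      ≤ ∫ a in (0 : ℝ)..1, ∑ j, uwVel L α x y' a j ^ 2 * uwHat L α (wlM (uwGeo L α x y' a) 1 N) j := by
  refine u3c_lemma2_uw hL hα0 hy0 (u3g_psi_deriv hL hα0) x y' N (fun a _ j => u3g_geo_deriv hL hα0 hα1.le x y' a j)
    (fun j => (u3g_vel_cont hL hα0 hα1.le x y' j).continuousOn) (u3g_geo_zero hL hα0 x y') (u3g_geo_one hL hα0 x y') ?_
  intro j hj a ha
  have h78 : 7 * L / 8 ≤ L := by linarith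
  have hx1 : |x j.castSucc| ≤ 7 * L / 8 := hj.1.trans (by linarith)
  have hx2 : |x j.succ| ≤ 7 * L / 8 := hj.2.trans (by linarith)
  refine ⟨u3g_geo_core_le hL hα0 h78 x y' ha hx1 (hy j hj).1, ?_⟩
  rw [u3g_vel_core hL hα0 x y' ha (hx2.trans h78) ((hy j hj).2.trans h78),
    u3g_vel_core hL hα0 x y' ha (hx1.trans h78) ((hy j hj).1.trans h78)]
  rfl

end Claimed.Agent.R287
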