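-- KEEP
import Claimed.Agent.R287.Defs.U3
import Claimed.Agent.R287.B2Lim

/-!
# Row 287 (S0534), unit U3, sub-unit D6: THE MARGINAL PART OF GOODNESS      (helper227; prefix `ugd_`, defs `ugdQ`, `ugdTh`)

Text: `origin/helper295:notes/R287/U3_295.md` sec. 7, (g-far) and (g-loc).      EXIT: `ugd_mar` (= `u3t_mar` of `U3Top.lean`, with the conclusion of `u3t_far0` as a hypothesis).

* sec. 1  the free chain in `lintegral` form: marginals `ugd_iter_fst/snd`, chain law `ugd_iter_set` (from `b2l_Q1_iter`), `ugd_E_fst/snd(0)`;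
* sec. 2  measurability: `ugd_mar_meas`, `ugd_A_meas`;       * sec. 3  deterministic facts: `ugd_eig_mono`, `ugd_cPos_mono`, `ugd_wlS_step`;
* sec. 4  (g-far): `wl_main` at the 33 energies `i L/4`, base height `L`, `D = t ≤ L^(1-κ) + 1`, `p = ⌈8/κ⌉`;
* sec. 5  (g-loc): Lipschitz cutoff `ugdTh`, `LStat` at `Δ = t`, `b2l_cS_lim`, `LReg.tr` at the height `y = L^ε`, `D = ⌈5/ε⌉`;
* sec. 6  assembly.
-/

set_option autoImplicit false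
open MeasureTheory ProbabilityTheory Matrix Filter Topology
open scoped ENNReal

namespace Claimed.Agent.R287

/-! ## 1. The free chain in `lintegral` form -/

/-- the kernel of the single chain (step `Δ = 1`), with values in `[0, ∞]` -/
noncomputable def ugdQ {K : ℕ} (G : Dat K → ℝ≥0∞) : Dat K → ℝ≥0∞ :=
  fun x => ∫⁻ N, G (b2Step 1 x N) ∂(gArr (Win K) (Win K))

theorem ugd_eqns_cite : True := by
  have := @ugdQ.eq_1
  trivial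

theorem ugd_iter_fst {K : ℕ} (t : ℕ) (G : Dat K → ℝ≥0∞) :
    (ugQ Set.univ)^[t] (fun p : Dat K × Dat K => G p.1) = fun p => (ugdQ^[t] G) p.1 := by
  induction t generalizing G with
  | zero => rfl
  | succ t ih =>
    rw [Function.iterate_succ_apply, Function.iterate_succ_apply]
    have : ugQ Set.univ (fun p : Dat K × Dat K => G p.1) = fun p => ugdQ G p.1 := by
      funext p
      simp only [ugQ, Set.indicator_univ, ugStep, ugdQ]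
    rw [this, ih]

theorem ugd_iter_snd {K : ℕ} (t : ℕ) (G : Dat K → ℝ≥0∞) :
    (ugQ Set.univ)^[t] (fun p : Dat K × Dat K => G p.2) = fun p => (ugdQ^[t] G) p.2 := by
  induction t generalizing G with
  | zero => rfl
  | succ t ih =>
    rw [Function.iterate_succ_apply, Function.iterate_succ_apply]
    have : ugQ Set.univ (fun p : Dat K × Dat K => G p.2) = fun p => ugdQ G p.2 := by
      funext p
      simp only [ugQ, Set.indicator_univ, ugStep, ugdQ]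
    rw [this, ih]

theorem ugd_Q1_bm {K : ℕ} (Δ : ℝ) {F : Dat K → ℝ} (hF : B2Bm F) : B2Bm (b2Q1 Δ F) :=
  b2l_bm_integral (F := fun q : Dat K × Matrix (Win K) (Win K) ℝ => F (b2Step Δ q.1 q.2)) (b2l_bm_comp hF (b2l_step_meas Δ)) _

theorem ugd_Q1_nonneg {K : ℕ} (Δ : ℝ) {F : Dat K → ℝ} (h0 : ∀ x, 0 ≤ F x) (x : Dat K) : 0 ≤ b2Q1 Δ F x :=
  integral_nonneg fun _ => h0 _

/-- bridge between the two forms of the single chain -/
theorem ugd_iter_ofReal {K : ℕ} (t : ℕ) {F : Dat K → ℝ} (hF : B2Bm F) (h0 : ∀ x, 0 ≤ F x) :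
    ugdQ^[t] (fun x => ENNReal.ofReal (F x)) = fun x => ENNReal.ofReal ((b2Q1 1)^[t] F x) := by
  induction t generalizing F with
  | zero => rfl
  | succ t ih =>
    rw [Function.iterate_succ_apply]
    have : ugdQ (fun x => ENNReal.ofReal (F x)) = fun x => ENNReal.ofReal (b2Q1 1 F x) := by
      funext x
      unfold ugdQ b2Q1
      have hm : Measurable fun N : Matrix (Win K) (Win K) ℝ => b2Step 1 x N := b2l_step_meas_comp 1 measurable_const measurable_id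
      exact (ofReal_integral_eq_lintegral_ofReal (b2l_bm_int (b2l_bm_comp hF hm) _) (Eventually.of_forall fun _ => h0 _)).symm
    rw [this, ih (ugd_Q1_bm 1 hF) (ugd_Q1_nonneg 1 h0)]
    rfl

/-- **chain law**: `t + 1` steps of size `1` = one step of size `t + 1` -/
theorem ugd_iter_set {K : ℕ} (t : ℕ) {S : Set (Dat K)} (hS : MeasurableSet S) (x : Dat K) :
    ugdQ^[t + 1] (S.indicator 1) x = gArr (Win K) (Win K) {N | b2Step ((t : ℝ) + 1) x N ∈ S} := by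
  have hF : B2Bm (S.indicator (1 : Dat K → ℝ)) := ⟨measurable_one.indicator hS, 1, fun p => by
    by_cases hp : p ∈ S <;> simp [hp]⟩
  have h0 : ∀ x, 0 ≤ S.indicator (1 : Dat K → ℝ) x := fun x => Set.indicator_nonneg (fun _ _ => zero_le_one) x
  have e : (S.indicator 1 : Dat K → ℝ≥0∞) = fun x => ENNReal.ofReal (S.indicator (1 : Dat K → ℝ) x) := by
    funext p
    by_cases hp : p ∈ S <;> simp [hp]
  rw [e, ugd_iter_ofReal (t + 1) hF h0]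
  simp only
  rw [b2l_Q1_iter 1 zero_le_one t hF x, mul_one]
  unfold b2Q1
  have hm : MeasurableSet {N : Matrix (Win K) (Win K) ℝ | b2Step ((t : ℝ) + 1) x N ∈ S} :=
    (b2l_step_meas_comp _ measurable_const measurable_id) hS
  have e2 : (fun N : Matrix (Win K) (Win K) ℝ => S.indicator (1 : Dat K → ℝ) (b2Step ((t : ℝ) + 1) x N))
      = Set.indicator {N : Matrix (Win K) (Win K) ℝ | b2Step ((t : ℝ) + 1) x N ∈ S} 1 := by
    funext N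
    rfl
  rw [e2, integral_indicator_one hm, measureReal_def, ENNReal.ofReal_toReal (measure_ne_top _ _)]

theorem ugd_E_fst_le (ν₁ ν₂ : Measure Conf) (hν : ν₂ Set.univ ≤ 1) (K t : ℕ) (G : Dat K → ℝ≥0∞) :
    ugE ν₁ ν₂ K Set.univ t (fun p => G p.1) ≤ ∫⁻ x, (ugdQ^[t] G) (cPos K x) ∂ν₁ := by
  unfold ugE
  rw [ugd_iter_fst]
  refine lintegral_mono fun x => ?_
  simp only [lintegral_const]
  exact (mul_le_mul_right hν _).trans (le_of_eq (mul_one _))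

theorem ugd_E_snd_le (ν₁ ν₂ : Measure Conf) (hν : ν₁ Set.univ ≤ 1) (K t : ℕ) (G : Dat K → ℝ≥0∞) :
    ugE ν₁ ν₂ K Set.univ t (fun p => G p.2) ≤ ∫⁻ y, (ugdQ^[t] G) (cPos K y) ∂ν₂ := by
  unfold ugE
  rw [ugd_iter_snd]
  simp only [lintegral_const]
  exact (mul_le_mul_right hν _).trans (le_of_eq (mul_one _))

/-! ## 2. Measurability -/

theorem ugd_wlS_meas {K : ℕ} (z : ℂ) : Measurable fun x : Dat K => wlS x z := b2l_Tr_meas z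

theorem ugd_mono_meas {K : ℕ} : MeasurableSet {x : Dat K | Monotone x} := by
  have : {x : Dat K | Monotone x} = ⋂ (i : Win K) (j : Win K) (_ : i ≤ j), {x | x i ≤ x j} := by
    ext x
    simp only [Set.mem_iInter]
    exact ⟨fun h i j hij => h hij, fun h i j hij => h i j hij⟩
  rw [this]
  exact MeasurableSet.iInter fun i => MeasurableSet.iInter fun j => MeasurableSet.iInter fun _ =>
    measurableSet_le (measurable_pi_apply i) (measurable_pi_apply j)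

theorem ugd_far_meas {K : ℕ} (L C₁ : ℝ) : MeasurableSet {x : Dat K | ugFar L C₁ x} := by
  have : {x : Dat K | ugFar L C₁ x} = ⋂ (i : ℤ) (_ : |i| ≤ 16) (k : ℕ), {x | ‖wlS x ⟨i * (L / 4), 2 ^ k * L⟩‖ ≤ C₁} := by
    ext x
    simp only [Set.mem_iInter]
    rfl
  rw [this]
  exact MeasurableSet.iInter fun i => MeasurableSet.iInter fun _ => MeasurableSet.iInter fun k =>
    measurableSet_le (ugd_wlS_meas _).norm measurable_const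

theorem ugd_loc_meas {K : ℕ} (L y c₁ C₁ : ℝ) : MeasurableSet {x : Dat K | ugLoc L y c₁ C₁ x} := by
  have : {x : Dat K | ugLoc L y c₁ C₁ x} = ⋂ (i : ℤ) (_ : |(i : ℝ) * y| ≤ 4 * L),
      ({x | c₁ ≤ (wlS x ⟨i * y, y⟩).im} ∩ {x | (wlS x ⟨i * y, y⟩).im ≤ C₁}) := by
    ext x
    simp only [Set.mem_iInter]
    rfl
  rw [this]
  exact MeasurableSet.iInter fun i => MeasurableSet.iInter fun _ =>
    (measurableSet_le measurable_const (Complex.measurable_im.comp (ugd_wlS_meas _))).inter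
      (measurableSet_le (Complex.measurable_im.comp (ugd_wlS_meas _)) measurable_const)

theorem ugd_mar_meas {K : ℕ} (L y c₁ C₁ : ℝ) : MeasurableSet {x : Dat K | ugMar L y c₁ C₁ x} :=
  ugd_mono_meas.inter ((ugd_far_meas L C₁).inter (ugd_loc_meas L y c₁ C₁))

theorem ugd_A_meas (ρ χ C₀ : ℝ) (J₀ : ℕ) : MeasurableSet {x : Conf | CReg ρ χ C₀ J₀ x} := by
  have h1 : MeasurableSet {x : Conf | Monotone x} := by
    have : {x : Conf | Monotone x} = ⋂ (i : ℤ) (j : ℤ) (_ : i ≤ j), {x | x i ≤ x j} := by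
      ext x
      simp only [Set.mem_iInter]
      exact ⟨fun h i j hij => h hij, fun h i j hij => h i j hij⟩
    rw [this]
    exact MeasurableSet.iInter fun i => MeasurableSet.iInter fun j => MeasurableSet.iInter fun _ =>
      measurableSet_le (measurable_pi_apply i) (measurable_pi_apply j)
  have h2 : MeasurableSet {x : Conf | ∀ j : ℤ, (J₀ : ℤ) ≤ |j| → |x j - j / ρ| ≤ C₀ * |(j : ℝ)| ^ (1 - χ)} := by
    have : {x : Conf | ∀ j : ℤ, (J₀ : ℤ) ≤ |j| → |x j - j / ρ| ≤ C₀ * |(j : ℝ)| ^ (1 - χ)}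
        = ⋂ (j : ℤ) (_ : (J₀ : ℤ) ≤ |j|), {x | |x j - j / ρ| ≤ C₀ * |(j : ℝ)| ^ (1 - χ)} := by
      ext x
      simp only [Set.mem_iInter]
      rfl
    rw [this]
    exact MeasurableSet.iInter fun j => MeasurableSet.iInter fun _ =>
      measurableSet_le (((measurable_pi_apply j).sub_const _).abs) measurable_const
  exact h1.inter h2

/-! ## 3. Deterministic facts -/

theorem ugd_eig_mono {K : ℕ} {A : Matrix (Win K) (Win K) ℝ} (hA : A.IsHermitian) : Monotone (b2Eig A) := by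
  intro i j hij
  unfold b2Eig
  have hij' : i.val ≤ j.val := hij
  exact eig_D_anti hA (by omega) (by rw [Fintype.card_fin]; omega)

theorem ugd_step_mono {K : ℕ} (D : ℝ) (x : Dat K) (N : Matrix (Win K) (Win K) ℝ) : Monotone (b2Step D x N) :=
  ugd_eig_mono (b2l_cut_herm K D x N)

theorem ugd_cPos_mono {x : Conf} (hx : Monotone x) (K : ℕ) : Monotone (cPos K x) := by
  intro i j hij
  unfold cPos wIdx
  have hij' : i.val ≤ j.val := hij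
  exact hx (by omega)

/-- the Stieltjes sum of the new positions is the resolvent trace -/
theorem ugd_wlS_step {K : ℕ} (D : ℝ) (x : Dat K) (N : Matrix (Win K) (Win K) ℝ) {z : ℂ} (hz : z.im ≠ 0) :
    wlS (b2Step D x N) z = rTr (wlM x D N) z :=
  (b2l_rTr (b2l_cut_herm K D x N) hz).symm

/-! ## 4. (g-far) -/

/-- numerics of (g-far) -/
theorem ugd_far_num (C κ : ℝ) (hC : 0 ≤ C) (hκ : 0 < κ) (hκ1 : κ < 1) : ∃ L₀ : ℝ, 1 ≤ L₀ ∧ ∀ L : ℝ, L₀ ≤ L → ∀ D : ℝ, 0 < D → D ≤ L ^ (1 - κ) + 1 →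
    Real.sqrt D ≤ L ∧ 4 * D * (C + 1) ≤ L ∧
    33 * (16 * (1152 * ((⌈8 / κ⌉₊ : ℕ) : ℝ) ^ 2 * C * Real.sqrt D) ^ ⌈8 / κ⌉₊ * L ^ (-((⌈8 / κ⌉₊ : ℕ) : ℝ) / 2)) ≤ L ^ (-3 : ℝ) / 2 := by
  set p : ℕ := ⌈8 / κ⌉₊ with hp
  have hpk : 8 ≤ (p : ℝ) * κ := by
    have := Nat.le_ceil (8 / κ)
    rw [div_le_iff₀ hκ] at this
    exact this
  set a : ℝ := 1152 * (p : ℝ) ^ 2 * C with ha
  have ha0 : 0 ≤ a := by positivity
  set B : ℝ := (a * Real.sqrt 2) ^ p with hB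
  have hB0 : 0 ≤ B := by positivity
  refine ⟨max 1 (max ((8 * (C + 1)) ^ (1 / κ)) (1056 * B)), le_max_left _ _, fun L hL D hD hDL => ?_⟩
  have hL1 : 1 ≤ L := (le_max_left _ _).trans hL
  have hL2 : (8 * (C + 1)) ^ (1 / κ) ≤ L := ((le_max_left _ _).trans (le_max_right _ _)).trans hL
  have hL3 : 1056 * B ≤ L := ((le_max_right _ _).trans (le_max_right _ _)).trans hL
  have hL0 : 0 < L := by linarith
  have h1 : 1 ≤ L ^ (1 - κ) := Real.one_le_rpow hL1 (by linarith)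
  have hD2 : D ≤ 2 * L ^ (1 - κ) := by linarith
  have h2 : 8 * (C + 1) ≤ L ^ κ := by
    have := Real.rpow_le_rpow (by positivity) hL2 hκ.le
    rwa [← Real.rpow_mul (by positivity), one_div, inv_mul_cancel₀ hκ.ne', Real.rpow_one] at this
  have h3 : L ^ (1 - κ) * L ^ κ = L := by rw [← Real.rpow_add hL0]; simp
  have h4 : 4 * D * (C + 1) ≤ L := by
    calc 4 * D * (C + 1) ≤ 4 * (2 * L ^ (1 - κ)) * (C + 1) := by gcongr
      _ = L ^ (1 - κ) * (8 * (C + 1)) := by ring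
      _ ≤ L ^ (1 - κ) * L ^ κ := by gcongr
      _ = L := h3
  have h5 : Real.sqrt D ≤ L := by
    rw [Real.sqrt_le_left hL0.le]
    nlinarith
  refine ⟨h5, h4, ?_⟩
  have h6 : Real.sqrt D ≤ Real.sqrt 2 * L ^ ((1 - κ) / 2) := by
    calc Real.sqrt D ≤ Real.sqrt (2 * L ^ (1 - κ)) := Real.sqrt_le_sqrt hD2
      _ = Real.sqrt 2 * Real.sqrt (L ^ (1 - κ)) := Real.sqrt_mul (by norm_num) _
      _ = _ := by rw [Real.sqrt_eq_rpow (L ^ (1 - κ)), ← Real.rpow_mul hL0.le]; congr 2; ring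
  have h7 : (a * Real.sqrt D) ^ p ≤ B * L ^ ((1 - κ) / 2 * p) := by
    calc (a * Real.sqrt D) ^ p ≤ (a * (Real.sqrt 2 * L ^ ((1 - κ) / 2))) ^ p := by gcongr
      _ = B * (L ^ ((1 - κ) / 2)) ^ p := by rw [hB, ← mul_assoc, mul_pow]
      _ = _ := by rw [← Real.rpow_mul_natCast hL0.le]
  have h8 : L ^ ((1 - κ) / 2 * p) * L ^ (-(p : ℝ) / 2) ≤ L ^ (-4 : ℝ) := by
    rw [← Real.rpow_add hL0]
    exact Real.rpow_le_rpow_of_exponent_le hL1 (by nlinarith)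
  have h9 : L ^ (-4 : ℝ) = L ^ (-3 : ℝ) * L⁻¹ := by
    rw [← Real.rpow_neg_one, ← Real.rpow_add hL0]; norm_num
  have hp3 : 0 ≤ L ^ (-3 : ℝ) := Real.rpow_nonneg hL0.le _
  have hpp : 0 ≤ L ^ (-(p : ℝ) / 2) := Real.rpow_nonneg hL0.le _
  calc 33 * (16 * (a * Real.sqrt D) ^ p * L ^ (-(p : ℝ) / 2)) ≤ 33 * (16 * (B * L ^ ((1 - κ) / 2 * p)) * L ^ (-(p : ℝ) / 2)) := by gcongr
    _ = 528 * B * (L ^ ((1 - κ) / 2 * p) * L ^ (-(p : ℝ) / 2)) := by ring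
    _ ≤ 528 * B * L ^ (-4 : ℝ) := by gcongr
    _ = L ^ (-3 : ℝ) * (528 * B * L⁻¹) := by rw [h9]; ring
    _ ≤ L ^ (-3 : ℝ) * (1 / 2) := by
        refine mul_le_mul_of_nonneg_left ?_ hp3
        rw [← div_eq_mul_inv, div_le_iff₀ hL0]; linarith
    _ = _ := by ring

/-- (g-far) at a fixed start: `wl_main` at the 33 energies -/
theorem ugd_far_prob {C : ℝ} (hC : 0 ≤ C) {K : ℕ} (x : Dat K) {L D : ℝ} (p : ℕ) (hp : 1 ≤ p) (hD : 0 < D) (hL1 : 1 ≤ L)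
    (hL2 : Real.sqrt D ≤ L) (hL3 : 4 * D * (C + 1) ≤ L) (hx : ∀ ζ : ℂ, L ≤ ζ.im → |ζ.re| ≤ 5 * L → ‖wlS x ζ‖ ≤ C) :
    gArr (Win K) (Win K) {N | ¬ ugFar L (C + 1) (b2Step D x N)}
      ≤ ENNReal.ofReal (33 * (16 * (1152 * (p : ℝ) ^ 2 * C * Real.sqrt D) ^ p * L ^ (-(p : ℝ) / 2))) := by
  have hL0 : 0 < L := by linarith
  set bad : ℤ → Set (Matrix (Win K) (Win K) ℝ) := fun i => {N | ∃ k : ℕ, ¬ (‖rTr (wlM x D N) ⟨i * (L / 4), 2 ^ k * L⟩‖ ≤ C + 1 ∧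
        ‖rTr (wlM x D N) ⟨i * (L / 4), 2 ^ k * L⟩ - wlS x ((⟨i * (L / 4), 2 ^ k * L⟩ : ℂ) + D * rTr (wlM x D N) ⟨i * (L / 4), 2 ^ k * L⟩)‖
          ≤ (2 ^ k * L) ^ (-(1 / 2 : ℝ)))} with hbad
  have hsub : {N | ¬ ugFar L (C + 1) (b2Step D x N)} ⊆ ⋃ i ∈ Finset.Icc (-16 : ℤ) 16, bad i := by
    intro N hN
    simp only [Set.mem_ofPred_eq, ugFar, not_forall] at hN
    obtain ⟨i, hi, k, hk⟩ := hN
    simp only [Set.mem_iUnion]
    refine ⟨i, Finset.mem_Icc.2 (abs_le.1 hi), k, fun h => hk ?_⟩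
    rw [ugd_wlS_step D x N (by simp; positivity)]
    exact h.1
  have hone : ∀ i ∈ Finset.Icc (-16 : ℤ) 16, gArr (Win K) (Win K) (bad i)
      ≤ ENNReal.ofReal (16 * (1152 * (p : ℝ) ^ 2 * C * Real.sqrt D) ^ p * L ^ (-(p : ℝ) / 2)) := by
    intro i hi
    refine wl_main p hp hD hC hL1 hL2 hL3 fun ζ h1 h2 => hx ζ h1 ?_
    have hi' := Finset.mem_Icc.1 hi
    have hi1 : (-16 : ℝ) ≤ (i : ℝ) := by exact_mod_cast hi'.1
    have hi2 : (i : ℝ) ≤ 16 := by exact_mod_cast hi'.2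
    have h3 := abs_le.1 h2
    rw [abs_le]
    constructor <;> nlinarith
  calc _ ≤ gArr (Win K) (Win K) (⋃ i ∈ Finset.Icc (-16 : ℤ) 16, bad i) := measure_mono hsub
    _ ≤ ∑ i ∈ Finset.Icc (-16 : ℤ) 16, gArr (Win K) (Win K) (bad i) := measure_biUnion_finset_le _ _
    _ ≤ ∑ _i ∈ Finset.Icc (-16 : ℤ) 16, ENNReal.ofReal (16 * (1152 * (p : ℝ) ^ 2 * C * Real.sqrt D) ^ p * L ^ (-(p : ℝ) / 2)) :=
        Finset.sum_le_sum hone
    _ = _ := by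
        have h33 : (16 + 1 - (-16) : ℤ).toNat = 33 := by decide
        rw [Finset.sum_const, Int.card_Icc, h33, nsmul_eq_mul, ENNReal.ofReal_mul (p := (33 : ℝ)) (by norm_num)]
        norm_num

/-! ## 5. (g-loc) -/

/-- the Lipschitz cutoff: `1` when `Im w ∉ [πρ/4, 2πρ]`, `0` when `|w - iπρ| ≤ πρ/2` -/
noncomputable def ugdTh (ρ : ℝ) (w : Fin 1 → ℂ) : ℝ :=
  min 1 (max 0 ((|(w 0).im - Real.pi * ρ| - Real.pi * ρ / 2) * (4 / (Real.pi * ρ))))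

theorem ugd_th_eqns_cite : True := by
  have := @ugdTh.eq_1
  trivial

theorem ugd_th_mem (ρ : ℝ) (w : Fin 1 → ℂ) : 0 ≤ ugdTh ρ w ∧ ugdTh ρ w ≤ 1 :=
  ⟨le_min zero_le_one (le_max_left _ _), min_le_left _ _⟩

theorem ugd_th_abs (ρ : ℝ) (w : Fin 1 → ℂ) : |ugdTh ρ w| ≤ 1 := by
  rw [abs_of_nonneg (ugd_th_mem ρ w).1]
  exact (ugd_th_mem ρ w).2

theorem ugd_th_cont (ρ : ℝ) : Continuous (ugdTh ρ) := by
  unfold ugdTh
  fun_prop

theorem ugd_th_lip {ρ : ℝ} (hρ : 0 < ρ) : ∃ Lc : NNReal, LipschitzWith Lc (ugdTh ρ) := by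
  have hc : 0 ≤ 4 / (Real.pi * ρ) := by positivity
  refine ⟨Real.toNNReal (4 / (Real.pi * ρ)), LipschitzWith.of_dist_le_mul fun w w' => ?_⟩
  rw [Real.dist_eq, Real.coe_toNNReal _ hc]
  unfold ugdTh
  set a : ℝ := Real.pi * ρ
  set c : ℝ := 4 / a
  have h1 : ∀ u v : ℝ, |min 1 u - min 1 v| ≤ |u - v| := fun u v => by
    have := abs_min_sub_min_le_max 1 u 1 v
    simpa using this
  have h2 : ∀ u v : ℝ, |max 0 u - max 0 v| ≤ |u - v| := fun u v => by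
    rw [max_comm 0, max_comm 0]
    exact abs_max_sub_max_le_abs _ _ _
  have h3 : |(w 0).im - (w' 0).im| ≤ dist w w' := by
    rw [← Complex.sub_im]
    refine (Complex.abs_im_le_norm _).trans ?_
    rw [← dist_eq_norm]
    exact dist_le_pi_dist w w' 0
  have h4 : |(|(w 0).im - a| - a / 2) * c - (|(w' 0).im - a| - a / 2) * c| ≤ c * |(w 0).im - (w' 0).im| := by
    have e : (|(w 0).im - a| - a / 2) * c - (|(w' 0).im - a| - a / 2) * c = c * (|(w 0).im - a| - |(w' 0).im - a|) := by ring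
    rw [e, abs_mul, abs_of_nonneg hc]
    refine mul_le_mul_of_nonneg_left ?_ hc
    have := abs_abs_sub_abs_le_abs_sub ((w 0).im - a) ((w' 0).im - a)
    simpa using this
  exact ((h1 _ _).trans (h2 _ _)).trans (h4.trans (mul_le_mul_of_nonneg_left h3 hc))

theorem ugd_th_one {ρ : ℝ} (hρ : 0 < ρ) {C₁ : ℝ} (hC₁ : 2 * Real.pi * ρ ≤ C₁) (w : Fin 1 → ℂ)
    (h : ¬ (Real.pi * ρ / 4 ≤ (w 0).im ∧ (w 0).im ≤ C₁)) : ugdTh ρ w = 1 := by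
  unfold ugdTh
  have ha : 0 < Real.pi * ρ := by positivity
  set a : ℝ := Real.pi * ρ
  have h1 : a / 4 ≤ |(w 0).im - a| - a / 2 := by
    by_cases h2 : a / 4 ≤ (w 0).im
    · have h3 : C₁ < (w 0).im := by
        by_contra hcon
        exact h ⟨h2, not_lt.1 hcon⟩
      have := le_abs_self ((w 0).im - a)
      have h4 : 2 * a ≤ C₁ := by rw [← mul_assoc]; exact hC₁
      linarith
    · have := neg_abs_le ((w 0).im - a)
      rw [not_le] at h2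
      linarith
  have h2 : 1 ≤ (|(w 0).im - a| - a / 2) * (4 / a) := by
    calc (1 : ℝ) = a / 4 * (4 / a) := by field_simp
      _ ≤ _ := mul_le_mul_of_nonneg_right h1 (by positivity)
  rw [min_eq_left (h2.trans (le_max_right _ _))]

theorem ugd_th_zero {ρ : ℝ} (hρ : 0 < ρ) (w : Fin 1 → ℂ)
    (h : ‖w 0 - ((Real.pi * ρ : ℝ) : ℂ) * Complex.I‖ ≤ Real.pi * ρ / 2) : ugdTh ρ w = 0 := by
  unfold ugdTh
  have ha : 0 < Real.pi * ρ := by positivity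
  have h1 : |(w 0).im - Real.pi * ρ| ≤ Real.pi * ρ / 2 := by
    refine le_trans ?_ h
    have := Complex.abs_im_le_norm (w 0 - ((Real.pi * ρ : ℝ) : ℂ) * Complex.I)
    simpa using this
  have h2 : (|(w 0).im - Real.pi * ρ| - Real.pi * ρ / 2) * (4 / (Real.pi * ρ)) ≤ 0 :=
    mul_nonpos_of_nonpos_of_nonneg (by linarith) (by positivity)
  rw [max_eq_left h2]
  simp

theorem ugd_lim0 {ρ ξ : ℝ} (hρ : 0 < ρ) (μ : Measure Conf) [IsProbabilityMeasure μ] (hR : LReg ρ ξ μ) (z : ℂ) :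
    Tendsto (fun K : ℕ => ∫ x, ugdTh ρ (fun _ => cSK K x z) ∂μ) atTop (𝓝 (∫ x, ugdTh ρ (fun _ => cS x z) ∂μ)) :=
  b2l_cS_lim hρ μ hR (fun _ : Fin 1 => z) (ugdTh ρ) (ugd_th_cont ρ) 1 (ugd_th_abs ρ)

theorem ugd_lim {ρ ξ : ℝ} (hρ : 0 < ρ) (μ : Measure Conf) [IsProbabilityMeasure μ] (hR : LReg ρ ξ μ) (hI : LStat μ) (z : ℂ) (hz : 0 < z.im)
    (Δ : ℝ) (hΔ : 0 < Δ) :
    Tendsto (fun K : ℕ => ∫ x, ∫ N, ugdTh ρ (fun _ => rTr (cutM K Δ x N) z) ∂(gArr (Win K) (Win K)) ∂μ) atTop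
      (𝓝 (∫ x, ugdTh ρ (fun _ => cS x z) ∂μ)) := by
  have h1 := hI Δ hΔ 1 (fun _ => z) (fun _ => hz) (ugdTh ρ) ⟨1, ugd_th_abs ρ⟩ (ugd_th_lip hρ)
  have h2 := h1.add (ugd_lim0 hρ μ hR z)
  simpa using h2

theorem ugd_inf_le {ρ : ℝ} (hρ : 0 < ρ) (μ : Measure Conf) [IsProbabilityMeasure μ] (z : ℂ) :
    ∫ x, ugdTh ρ (fun _ => cS x z) ∂μ ≤ (μ {x | Real.pi * ρ / 2 < ‖cS x z - ((Real.pi * ρ : ℝ) : ℂ) * Complex.I‖}).toReal := by
  have hS : MeasurableSet {x : Conf | Real.pi * ρ / 2 < ‖cS x z - ((Real.pi * ρ : ℝ) : ℂ) * Complex.I‖} :=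
    measurableSet_lt measurable_const ((k9_meas_cS z).sub_const _).norm
  have hm : Measurable fun x : Conf => ugdTh ρ (fun _ => cS x z) :=
    (ugd_th_cont ρ).measurable.comp (measurable_pi_lambda _ fun _ => k9_meas_cS z)
  rw [← measureReal_def, ← integral_indicator_one hS]
  refine integral_mono (b2l_bm_int ⟨hm, 1, fun x => ugd_th_abs ρ _⟩ μ) ((integrable_const (1 : ℝ)).indicator hS) fun x => ?_
  by_cases hx : x ∈ {x : Conf | Real.pi * ρ / 2 < ‖cS x z - ((Real.pi * ρ : ℝ) : ℂ) * Complex.I‖}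
  · rw [Set.indicator_of_mem hx]
    exact (ugd_th_mem ρ _).2
  · rw [Set.indicator_of_notMem hx]
    exact le_of_eq (ugd_th_zero hρ _ (not_lt.1 hx))

theorem ugd_tr {ρ ξ : ℝ} (hρ : 0 < ρ) (hξ : 0 < ξ) (μ : Measure Conf) [IsProbabilityMeasure μ] (hR : LReg ρ ξ μ) (D : ℕ) :
    ∃ C u₀ : ℝ, 0 ≤ C ∧ 1 ≤ u₀ ∧ ∀ e u : ℝ, u₀ ≤ u → ∫ x, ugdTh ρ (fun _ => cS x ⟨e, u⟩) ∂μ ≤ C * u ^ (-(D : ℝ)) := by
  obtain ⟨C, u₀, h⟩ := hR.tr D
  have ha : 0 < Real.pi * ρ / 2 := by positivity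
  refine ⟨max C 0, max (max u₀ 1) ((Real.pi * ρ / 2) ^ (-(1 / ξ))), le_max_right _ _, (le_max_right _ _).trans (le_max_left _ _), fun e u hu => ?_⟩
  have hu0 : u₀ ≤ u := ((le_max_left _ _).trans (le_max_left _ _)).trans hu
  have hu1 : 1 ≤ u := ((le_max_right _ _).trans (le_max_left _ _)).trans hu
  have hu2 : (Real.pi * ρ / 2) ^ (-(1 / ξ)) ≤ u := (le_max_right _ _).trans hu
  have hupos : 0 < u := by linarith
  have h3 : u ^ (-ξ) ≤ Real.pi * ρ / 2 := by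
    have h4 := Real.rpow_le_rpow_of_nonpos (Real.rpow_pos_of_pos ha _) hu2 (neg_nonpos.2 hξ.le)
    rw [← Real.rpow_mul ha.le] at h4
    have e1 : -(1 / ξ) * -ξ = 1 := by field_simp
    rwa [e1, Real.rpow_one] at h4
  refine (ugd_inf_le hρ μ _).trans ?_
  refine ENNReal.toReal_le_of_le_ofReal (mul_nonneg (le_max_right _ _) (Real.rpow_nonneg hupos.le _)) ?_
  have e2 : (⟨e, u⟩ : ℂ) = (e : ℂ) + (u : ℂ) * Complex.I := Complex.mk_eq_add_mul_I e u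
  rw [e2]
  refine (measure_mono fun x hx => ?_).trans ((h e u hu0).trans (ENNReal.ofReal_le_ofReal ?_))
  · exact lt_of_le_of_lt h3 hx
  · exact mul_le_mul_of_nonneg_right (le_max_left _ _) (Real.rpow_nonneg hupos.le _)

theorem ugd_loc_sub {ρ : ℝ} (hρ : 0 < ρ) {C₁ : ℝ} (hC₁ : 2 * Real.pi * ρ ≤ C₁) {K : ℕ} {L y : ℝ} (hy : 1 ≤ y) (M : ℕ) (hM : 4 * L ≤ M)
    (x : Dat K) (h : ¬ ugLoc L y (Real.pi * ρ / 4) C₁ x) :
    ∃ i ∈ Finset.Icc (-(M : ℤ)) M, ugdTh ρ (fun _ => wlS x ⟨i * y, y⟩) = 1 := by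
  unfold ugLoc at h
  simp only [not_forall] at h
  obtain ⟨i, hi, hb⟩ := h
  refine ⟨i, ?_, ugd_th_one hρ hC₁ _ hb⟩
  have h1 : |(i : ℝ)| ≤ M := by
    rw [abs_mul, abs_of_pos (by linarith : 0 < y)] at hi
    have : |(i : ℝ)| * 1 ≤ |(i : ℝ)| * y := mul_le_mul_of_nonneg_left hy (abs_nonneg _)
    linarith
  have h2 := abs_le.1 h1
  rw [Finset.mem_Icc]
  constructor
  · have : (-(M : ℤ) : ℝ) ≤ (i : ℝ) := by push_cast; exact h2.1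
    exact_mod_cast this
  · have : (i : ℝ) ≤ ((M : ℤ) : ℝ) := by push_cast; exact h2.2
    exact_mod_cast this

theorem ugd_union_le {Ω : Type} [MeasurableSpace Ω] (P : Measure Ω) {ι : Type} (I : Finset ι) (f : ι → Ω → ℝ) (hf : ∀ i, Measurable (f i))
    (S : Set Ω) (hS : ∀ ω ∈ S, ∃ i ∈ I, f i ω = 1) : P S ≤ ∑ i ∈ I, ∫⁻ ω, ENNReal.ofReal (f i ω) ∂P := by
  have hsub : S ⊆ ⋃ i ∈ I, {ω | (1 : ℝ≥0∞) ≤ ENNReal.ofReal (f i ω)} := by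
    intro ω hω
    obtain ⟨i, hi, h1⟩ := hS ω hω
    simp only [Set.mem_iUnion]
    refine ⟨i, hi, ?_⟩
    show (1 : ℝ≥0∞) ≤ ENNReal.ofReal (f i ω)
    rw [h1]; simp
  refine (measure_mono hsub).trans ((measure_biUnion_finset_le _ _).trans (Finset.sum_le_sum fun i _ => ?_))
  have := mul_meas_ge_le_lintegral (μ := P) (f := fun ω => ENNReal.ofReal (f i ω)) (hf i).ennreal_ofReal 1
  rwa [one_mul] at this

theorem ugd_sum_ofReal {Ω : Type} [MeasurableSpace Ω] (P : Measure Ω) [IsFiniteMeasure P] {ι : Type} (I : Finset ι) (f : ι → Ω → ℝ)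
    (hf : ∀ i, B2Bm (f i)) (h0 : ∀ i ω, 0 ≤ f i ω) :
    ∑ i ∈ I, ∫⁻ ω, ENNReal.ofReal (f i ω) ∂P = ENNReal.ofReal (∑ i ∈ I, ∫ ω, f i ω ∂P) := by
  rw [ENNReal.ofReal_sum_of_nonneg fun i _ => integral_nonneg (h0 i)]
  refine Finset.sum_congr rfl fun i _ => ?_
  exact (ofReal_integral_eq_lintegral_ofReal (b2l_bm_int (hf i) P) (Eventually.of_forall (h0 i))).symm

theorem ugd_loc_int0 {ρ : ℝ} (hρ : 0 < ρ) {C₁ : ℝ} (hC₁ : 2 * Real.pi * ρ ≤ C₁) (μ : Measure Conf) [IsProbabilityMeasure μ] (K : ℕ) {L y : ℝ}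
    (hy : 1 ≤ y) (M : ℕ) (hM : 4 * L ≤ M) :
    μ {x | ¬ ugLoc L y (Real.pi * ρ / 4) C₁ (cPos K x)}
      ≤ ENNReal.ofReal (∑ i ∈ Finset.Icc (-(M : ℤ)) M, ∫ x, ugdTh ρ (fun _ => cSK K x ⟨i * y, y⟩) ∂μ) := by
  have hm : ∀ i : ℤ, Measurable fun x : Conf => ugdTh ρ (fun _ => cSK K x ⟨i * y, y⟩) := fun i =>
    (ugd_th_cont ρ).measurable.comp (measurable_pi_lambda _ fun _ => k9_meas_cSK K _)
  rw [← ugd_sum_ofReal μ _ (fun (i : ℤ) x => ugdTh ρ (fun _ => cSK K x ⟨i * y, y⟩)) (fun i => ⟨hm i, 1, fun x => ugd_th_abs ρ _⟩)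
    (fun i x => (ugd_th_mem ρ _).1)]
  exact ugd_union_le μ _ _ hm _ fun x hx => ugd_loc_sub hρ hC₁ hy M hM (cPos K x) hx

theorem ugd_loc_int {ρ : ℝ} (hρ : 0 < ρ) {C₁ : ℝ} (hC₁ : 2 * Real.pi * ρ ≤ C₁) (μ : Measure Conf) [IsProbabilityMeasure μ] (K : ℕ) {L y : ℝ} (Δ : ℝ)
    (hy : 1 ≤ y) (M : ℕ) (hM : 4 * L ≤ M) :
    ∫⁻ x, gArr (Win K) (Win K) {N | ¬ ugLoc L y (Real.pi * ρ / 4) C₁ (b2Step Δ (cPos K x) N)} ∂μ
      ≤ ENNReal.ofReal (∑ i ∈ Finset.Icc (-(M : ℤ)) M, ∫ x, ∫ N, ugdTh ρ (fun _ => rTr (cutM K Δ x N) ⟨i * y, y⟩) ∂(gArr (Win K) (Win K)) ∂μ) := by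
  have hy0 : 0 < y := by linarith
  have mS : Measurable fun q : Conf × Matrix (Win K) (Win K) ℝ => b2Step Δ (cPos K q.1) q.2 :=
    b2l_step_meas_comp Δ ((b2l_cPos_meas K).comp measurable_fst) measurable_snd
  set S : Set (Conf × Matrix (Win K) (Win K) ℝ) := {q | ¬ ugLoc L y (Real.pi * ρ / 4) C₁ (b2Step Δ (cPos K q.1) q.2)} with hSdef
  have hS : MeasurableSet S := (mS (ugd_loc_meas L y (Real.pi * ρ / 4) C₁)).compl
  set f : ℤ → Conf × Matrix (Win K) (Win K) ℝ → ℝ := fun i q => ugdTh ρ (fun _ => wlS (b2Step Δ (cPos K q.1) q.2) ⟨i * y, y⟩) with hf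
  have hm : ∀ i, Measurable (f i) := fun i =>
    (ugd_th_cont ρ).measurable.comp (measurable_pi_lambda _ fun _ => (ugd_wlS_meas _).comp mS)
  have hbm : ∀ i, B2Bm (f i) := fun i => ⟨hm i, 1, fun q => ugd_th_abs ρ _⟩
  have h1 : ∫⁻ x, gArr (Win K) (Win K) {N | ¬ ugLoc L y (Real.pi * ρ / 4) C₁ (b2Step Δ (cPos K x) N)} ∂μ = (μ.prod (gArr (Win K) (Win K))) S := by
    rw [Measure.prod_apply hS]
    rfl
  have h2 : ∀ i : ℤ, ∫ x, ∫ N, ugdTh ρ (fun _ => rTr (cutM K Δ x N) ⟨i * y, y⟩) ∂(gArr (Win K) (Win K)) ∂μ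
      = ∫ q, f i q ∂(μ.prod (gArr (Win K) (Win K))) := by
    intro i
    rw [integral_prod _ (b2l_bm_int (hbm i) _)]
    refine integral_congr_ae (Eventually.of_forall fun x => integral_congr_ae (Eventually.of_forall fun N => ?_))
    simp only [hf]
    rw [ugd_wlS_step Δ (cPos K x) N (by simpa using hy0.ne')]
    rfl
  rw [h1]
  simp only [h2]
  rw [← ugd_sum_ofReal _ _ f hbm (fun i q => (ugd_th_mem ρ _).1)]
  exact ugd_union_le _ _ _ hm _ fun q hq => ugd_loc_sub hρ hC₁ hy M hM _ hq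

theorem ugd_loc_num (C ε : ℝ) (hC : 0 ≤ C) (hε : 0 < ε) (u₀ : ℝ) : ∃ L₀ : ℝ, 1 ≤ L₀ ∧ ∀ L : ℝ, L₀ ≤ L →
    1 ≤ L ^ ε ∧ u₀ ≤ L ^ ε ∧
      ((2 * ⌈4 * L⌉₊ + 1 : ℕ) : ℝ) * ((C + 1) * (L ^ ε) ^ (-((⌈5 / ε⌉₊ : ℕ) : ℝ))) ≤ L ^ (-3 : ℝ) / 2 := by
  set D : ℕ := ⌈5 / ε⌉₊ with hD
  have hDε : 5 ≤ ε * (D : ℝ) := by
    have := Nat.le_ceil (5 / ε)
    rw [div_le_iff₀ hε] at this
    linarith
  refine ⟨max 1 (max ((max u₀ 1) ^ (1 / ε)) (22 * (C + 1))), le_max_left _ _, fun L hL => ?_⟩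
  have hL1 : 1 ≤ L := (le_max_left _ _).trans hL
  have hL2 : (max u₀ 1) ^ (1 / ε) ≤ L := ((le_max_left _ _).trans (le_max_right _ _)).trans hL
  have hL3 : 22 * (C + 1) ≤ L := ((le_max_right _ _).trans (le_max_right _ _)).trans hL
  have hL0 : 0 < L := by linarith
  have hm0 : 0 < max u₀ 1 := lt_of_lt_of_le one_pos (le_max_right _ _)
  have h2 : max u₀ 1 ≤ L ^ ε := by
    have := Real.rpow_le_rpow (by positivity) hL2 hε.le
    rwa [← Real.rpow_mul hm0.le, one_div, inv_mul_cancel₀ hε.ne', Real.rpow_one] at this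
  refine ⟨Real.one_le_rpow hL1 hε.le, (le_max_left _ _).trans h2, ?_⟩
  have h3 : (L ^ ε) ^ (-(D : ℝ)) ≤ L ^ (-5 : ℝ) := by
    rw [← Real.rpow_mul hL0.le]
    exact Real.rpow_le_rpow_of_exponent_le hL1 (by nlinarith)
  have h4 : ((2 * ⌈4 * L⌉₊ + 1 : ℕ) : ℝ) ≤ 11 * L := by
    have := (Nat.ceil_lt_add_one (by positivity : 0 ≤ 4 * L)).le
    push_cast
    linarith
  have h5 : L ^ (-5 : ℝ) = L ^ (-3 : ℝ) * (L⁻¹ * L⁻¹) := by
    rw [← Real.rpow_neg_one, ← Real.rpow_add hL0, ← Real.rpow_add hL0]; norm_num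
  have hp3 : 0 ≤ L ^ (-3 : ℝ) := Real.rpow_nonneg hL0.le _
  calc ((2 * ⌈4 * L⌉₊ + 1 : ℕ) : ℝ) * ((C + 1) * (L ^ ε) ^ (-(D : ℝ))) ≤ 11 * L * ((C + 1) * L ^ (-5 : ℝ)) := by gcongr
    _ = L ^ (-3 : ℝ) * (11 * (C + 1) * L⁻¹) := by
        rw [h5]
        field_simp
    _ ≤ L ^ (-3 : ℝ) * (1 / 2) := by
        refine mul_le_mul_of_nonneg_left ?_ hp3
        rw [← div_eq_mul_inv, div_le_iff₀ hL0]; linarith
    _ = _ := by ring

theorem ugd_loc {ρ ξ : ℝ} (hρ : 0 < ρ) (hξ : 0 < ξ) (μ : Measure Conf) [IsProbabilityMeasure μ] (hR : LReg ρ ξ μ) (hI : LStat μ) (ε : ℝ) (hε : 0 < ε)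
    {C₁ : ℝ} (hC₁ : 2 * Real.pi * ρ ≤ C₁) : ∃ L₀ : ℝ, 1 ≤ L₀ ∧ ∀ L : ℝ, L₀ ≤ L → ∀ n : ℕ, ∀ᶠ K : ℕ in atTop,
      μ {x | ¬ ugLoc L (L ^ ε) (Real.pi * ρ / 4) C₁ (cPos K x)} ≤ ENNReal.ofReal (L ^ (-3 : ℝ) / 2) ∧
      ∀ t : ℕ, t < n → ∫⁻ x, gArr (Win K) (Win K) {N | ¬ ugLoc L (L ^ ε) (Real.pi * ρ / 4) C₁ (b2Step ((t : ℝ) + 1) (cPos K x) N)} ∂μ
        ≤ ENNReal.ofReal (L ^ (-3 : ℝ) / 2) := by
  obtain ⟨C, u₀, hC, hu₀, htr⟩ := ugd_tr hρ hξ μ hR ⌈5 / ε⌉₊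
  obtain ⟨L₀, hL₀, hnum⟩ := ugd_loc_num C ε hC hε u₀
  refine ⟨L₀, hL₀, fun L hL n => ?_⟩
  obtain ⟨hy1, hyu, hN⟩ := hnum L hL
  set y : ℝ := L ^ ε with hy
  set M : ℕ := ⌈4 * L⌉₊ with hM
  set b : ℝ := (C + 1) * y ^ (-((⌈5 / ε⌉₊ : ℕ) : ℝ)) with hb
  have hy0 : 0 < y := by linarith
  have hypos : 0 < y ^ (-((⌈5 / ε⌉₊ : ℕ) : ℝ)) := Real.rpow_pos_of_pos hy0 _
  have hinf : ∀ i : ℤ, ∫ x, ugdTh ρ (fun _ => cS x ⟨i * y, y⟩) ∂μ < b := fun i =>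
    (htr _ y hyu).trans_lt (by rw [hb]; nlinarith)
  have hcard : (Finset.Icc (-(M : ℤ)) M).card = 2 * M + 1 := by
    rw [Int.card_Icc]; omega
  have hsum : ∀ g : ℤ → ℝ, (∀ i ∈ Finset.Icc (-(M : ℤ)) M, g i ≤ b) → ∑ i ∈ Finset.Icc (-(M : ℤ)) M, g i ≤ L ^ (-3 : ℝ) / 2 := by
    intro g hg
    refine (Finset.sum_le_card_nsmul _ _ b hg).trans ?_
    rw [hcard, nsmul_eq_mul]
    exact hN
  have e0 : ∀ᶠ K : ℕ in atTop, ∀ i ∈ Finset.Icc (-(M : ℤ)) M, ∫ x, ugdTh ρ (fun _ => cSK K x ⟨i * y, y⟩) ∂μ ≤ b :=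
    (Filter.eventually_all_finset _).2 fun i _ => ((tendsto_order.1 (ugd_lim0 hρ μ hR _)).2 b (hinf i)).mono fun K h => h.le
  have e1 : ∀ᶠ K : ℕ in atTop, ∀ t ∈ Finset.range n, ∀ i ∈ Finset.Icc (-(M : ℤ)) M,
      ∫ x, ∫ N, ugdTh ρ (fun _ => rTr (cutM K ((t : ℝ) + 1) x N) ⟨i * y, y⟩) ∂(gArr (Win K) (Win K)) ∂μ ≤ b :=
    (Filter.eventually_all_finset _).2 fun t _ => (Filter.eventually_all_finset _).2 fun i _ =>
      ((tendsto_order.1 (ugd_lim hρ μ hR hI ⟨i * y, y⟩ hy0 ((t : ℝ) + 1) (by positivity))).2 b (hinf i)).mono fun K h => h.le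
  filter_upwards [e0, e1] with K h0 h1
  refine ⟨?_, fun t ht => ?_⟩
  · exact (ugd_loc_int0 hρ hC₁ μ K hy1 M (Nat.le_ceil _)).trans (ENNReal.ofReal_le_ofReal (hsum _ h0))
  · exact (ugd_loc_int hρ hC₁ μ K _ hy1 M (Nat.le_ceil _)).trans (ENNReal.ofReal_le_ofReal (hsum _ (h1 t (Finset.mem_range.2 ht))))

/-! ## 6. Assembly -/

theorem ugd_far_mono {J : Type} [Fintype J] {L C C' : ℝ} (h : C ≤ C') {x : J → ℝ} (hx : ugFar L C x) : ugFar L C' x :=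
  fun i hi k => (hx i hi k).trans h

/-- Far at time `0` -/
theorem ugd_far_zero {J : Type} [Fintype J] {L C : ℝ} (hL : 0 < L) {x : J → ℝ} (hx : ∀ ζ : ℂ, L ≤ ζ.im → |ζ.re| ≤ 5 * L → ‖wlS x ζ‖ ≤ C) :
    ugFar L C x := by
  intro i hi k
  refine hx _ ?_ ?_
  · exact le_mul_of_one_le_left hL.le (one_le_pow₀ (by norm_num))
  · have h1 : |(i : ℝ)| ≤ 16 := by exact_mod_cast hi
    show |(i : ℝ) * (L / 4)| ≤ 5 * L
    rw [abs_mul, abs_of_pos (by positivity : 0 < L / 4)]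
    nlinarith

/-- **one marginal** -/
theorem ugd_one {ρ : ℝ} (hρ : 0 < ρ) {C : ℝ} (hC : 0 < C)
    (hfar : ∀ (χ : ℝ), 0 < χ → χ < 1 → ∀ (C₀ : ℝ) (J₀ : ℕ), ∃ L₀ : ℝ, ∀ L : ℝ, L₀ ≤ L → ∀ (K : ℕ) (x : Conf), CReg ρ χ C₀ J₀ x →
      ∀ ζ : ℂ, L ≤ ζ.im → |ζ.re| ≤ 5 * L → ‖cSK K x ζ‖ ≤ C)
    {ξ : ℝ} (hξ : 0 < ξ) {χ κ ε : ℝ} (hχ0 : 0 < χ) (hχ1 : χ < 1) (hκ : 0 < κ) (hκ1 : κ < 1) (hε : 0 < ε) (C₀ : ℝ) (J₀ : ℕ)
    (μ : Measure Conf) [IsProbabilityMeasure μ] (hR : LReg ρ ξ μ) (hI : LStat μ) :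
    ∃ L₀ : ℝ, ∀ L : ℝ, L₀ ≤ L → ∀ᶠ K : ℕ in atTop, ∀ t : ℕ, t ≤ ⌈L ^ (1 - κ)⌉₊ →
      ∫⁻ x, (ugdQ^[t] (Set.indicator {x : Dat K | ¬ ugMar L (L ^ ε) (Real.pi * ρ / 4) (max (2 * Real.pi * ρ) (C + 1)) x} 1)) (cPos K x)
        ∂(μ.restrict {x | CReg ρ χ C₀ J₀ x}) ≤ ENNReal.ofReal (L ^ (-3 : ℝ)) := by
  set C₁ : ℝ := max (2 * Real.pi * ρ) (C + 1) with hC₁
  obtain ⟨La, hLa⟩ := hfar χ hχ0 hχ1 C₀ J₀
  obtain ⟨Lb, hLb1, hLb⟩ := ugd_far_num C κ hC.le hκ hκ1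
  obtain ⟨Lc, hLc1, hLc⟩ := ugd_loc hρ hξ μ hR hI ε hε (le_max_left _ _ : 2 * Real.pi * ρ ≤ C₁)
  refine ⟨max La (max Lb Lc), fun L hL => ?_⟩
  have hL1 : La ≤ L := (le_max_left _ _).trans hL
  have hL2 : Lb ≤ L := ((le_max_left _ _).trans (le_max_right _ _)).trans hL
  have hL3 : Lc ≤ L := ((le_max_right _ _).trans (le_max_right _ _)).trans hL
  have hLone : 1 ≤ L := hLb1.trans hL2
  have hL0 : 0 < L := by linarith
  have hp3 : 0 ≤ L ^ (-3 : ℝ) := Real.rpow_nonneg hL0.le _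
  filter_upwards [hLc L hL3 ⌈L ^ (1 - κ)⌉₊] with K hK t ht
  obtain ⟨hK0, hK1⟩ := hK
  have hA : MeasurableSet {x : Conf | CReg ρ χ C₀ J₀ x} := ugd_A_meas ρ χ C₀ J₀
  have hS : MeasurableSet {x : Dat K | ¬ ugMar L (L ^ ε) (Real.pi * ρ / 4) C₁ x} := (ugd_mar_meas _ _ _ _).compl
  have hx : ∀ x ∈ {x : Conf | CReg ρ χ C₀ J₀ x}, ∀ ζ : ℂ, L ≤ ζ.im → |ζ.re| ≤ 5 * L → ‖wlS (cPos K x) ζ‖ ≤ C :=
    fun x hx => hLa L hL1 K x hx
  cases t with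
  | zero =>
    simp only [Function.iterate_zero, id]
    have hLm : MeasurableSet {x : Conf | ¬ ugLoc L (L ^ ε) (Real.pi * ρ / 4) C₁ (cPos K x)} :=
      ((b2l_cPos_meas K) (ugd_loc_meas L (L ^ ε) (Real.pi * ρ / 4) C₁)).compl
    calc ∫⁻ x in {x : Conf | CReg ρ χ C₀ J₀ x}, Set.indicator {x : Dat K | ¬ ugMar L (L ^ ε) (Real.pi * ρ / 4) C₁ x} 1 (cPos K x) ∂μ
        ≤ ∫⁻ x in {x : Conf | CReg ρ χ C₀ J₀ x}, Set.indicator {x : Conf | ¬ ugLoc L (L ^ ε) (Real.pi * ρ / 4) C₁ (cPos K x)} 1 x ∂μ := by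
          refine setLIntegral_mono' hA fun x hxA => ?_
          by_cases hl : ugLoc L (L ^ ε) (Real.pi * ρ / 4) C₁ (cPos K x)
          · have : cPos K x ∉ {x : Dat K | ¬ ugMar L (L ^ ε) (Real.pi * ρ / 4) C₁ x} := fun h =>
              h ⟨ugd_cPos_mono hxA.1 K, ugd_far_mono ((by linarith : C ≤ C + 1).trans (le_max_right _ _)) (ugd_far_zero hL0 (hx x hxA)), hl⟩
            rw [Set.indicator_of_notMem this]
            exact zero_le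
          · have : x ∈ {x : Conf | ¬ ugLoc L (L ^ ε) (Real.pi * ρ / 4) C₁ (cPos K x)} := hl
            rw [Set.indicator_of_mem this]
            exact Set.indicator_le_self' (fun _ _ => zero_le) _
      _ ≤ ∫⁻ x, Set.indicator {x : Conf | ¬ ugLoc L (L ^ ε) (Real.pi * ρ / 4) C₁ (cPos K x)} 1 x ∂μ := setLIntegral_le_lintegral _ _
      _ = μ {x : Conf | ¬ ugLoc L (L ^ ε) (Real.pi * ρ / 4) C₁ (cPos K x)} := lintegral_indicator_one hLm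
      _ ≤ ENNReal.ofReal (L ^ (-3 : ℝ) / 2) := hK0
      _ ≤ ENNReal.ofReal (L ^ (-3 : ℝ)) := ENNReal.ofReal_le_ofReal (half_le_self hp3)
  | succ t =>
    simp only [ugd_iter_set t hS]
    have htD : ((t : ℝ) + 1) ≤ L ^ (1 - κ) + 1 := by
      have h1 : ((t + 1 : ℕ) : ℝ) ≤ (⌈L ^ (1 - κ)⌉₊ : ℝ) := by exact_mod_cast ht
      have h2 := (Nat.ceil_lt_add_one (Real.rpow_nonneg hL0.le (1 - κ))).le
      push_cast at h1
      linarith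
    obtain ⟨n1, n2, n3⟩ := hLb L hL2 ((t : ℝ) + 1) (by positivity) htD
    have hp : 1 ≤ ⌈8 / κ⌉₊ := Nat.one_le_ceil_iff.2 (by positivity)
    calc ∫⁻ x in {x : Conf | CReg ρ χ C₀ J₀ x}, gArr (Win K) (Win K) {N | b2Step ((t : ℝ) + 1) (cPos K x) N ∈ {x : Dat K | ¬ ugMar L (L ^ ε) (Real.pi * ρ / 4) C₁ x}} ∂μ
        ≤ ∫⁻ x in {x : Conf | CReg ρ χ C₀ J₀ x}, (ENNReal.ofReal (L ^ (-3 : ℝ) / 2)
            + gArr (Win K) (Win K) {N | ¬ ugLoc L (L ^ ε) (Real.pi * ρ / 4) C₁ (b2Step ((t : ℝ) + 1) (cPos K x) N)}) ∂μ := by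
          refine setLIntegral_mono' hA fun x hxA => ?_
          have hsub : {N | b2Step ((t : ℝ) + 1) (cPos K x) N ∈ {x : Dat K | ¬ ugMar L (L ^ ε) (Real.pi * ρ / 4) C₁ x}}
              ⊆ {N | ¬ ugFar L (C + 1) (b2Step ((t : ℝ) + 1) (cPos K x) N)}
                ∪ {N | ¬ ugLoc L (L ^ ε) (Real.pi * ρ / 4) C₁ (b2Step ((t : ℝ) + 1) (cPos K x) N)} := by
            intro N hN
            by_contra hcon
            simp only [Set.mem_union, not_or] at hcon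
            exact hN ⟨ugd_step_mono _ _ _, ugd_far_mono (le_max_right _ _) (not_not.1 hcon.1), not_not.1 hcon.2⟩
          refine (measure_mono hsub).trans ((measure_union_le _ _).trans (add_le_add ?_ le_rfl))
          exact (ugd_far_prob hC.le (cPos K x) ⌈8 / κ⌉₊ hp (by positivity) hLone n1 n2 (hx x hxA)).trans (ENNReal.ofReal_le_ofReal n3)
      _ = ENNReal.ofReal (L ^ (-3 : ℝ) / 2) * μ {x : Conf | CReg ρ χ C₀ J₀ x}
            + ∫⁻ x in {x : Conf | CReg ρ χ C₀ J₀ x}, gArr (Win K) (Win K) {N | ¬ ugLoc L (L ^ ε) (Real.pi * ρ / 4) C₁ (b2Step ((t : ℝ) + 1) (cPos K x) N)} ∂μ := by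
          rw [lintegral_add_left measurable_const, setLIntegral_const]
      _ ≤ ENNReal.ofReal (L ^ (-3 : ℝ) / 2) + ENNReal.ofReal (L ^ (-3 : ℝ) / 2) := by
          refine add_le_add ?_ ((setLIntegral_le_lintegral _ _).trans (hK1 t (by omega)))
          exact (mul_le_mul_right prob_le_one _).trans (le_of_eq (mul_one _))
      _ = ENNReal.ofReal (L ^ (-3 : ℝ)) := by
          rw [← ENNReal.ofReal_add (by positivity) (by positivity)]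
          congr 1; ring

/-- **EXIT D6** (= `u3t_mar` of `U3Top.lean`; `hfar` = conclusion of `u3t_far0`) -/
theorem ugd_mar (ρ : ℝ) (hρ : 0 < ρ) (hfar : ∃ C : ℝ, 0 < C ∧ ∀ (χ : ℝ), 0 < χ → χ < 1 → ∀ (C₀ : ℝ) (J₀ : ℕ),
      ∃ L₀ : ℝ, ∀ L : ℝ, L₀ ≤ L → ∀ (K : ℕ) (x : Conf), CReg ρ χ C₀ J₀ x → ∀ ζ : ℂ, L ≤ ζ.im → |ζ.re| ≤ 5 * L → ‖cSK K x ζ‖ ≤ C) :
    ∃ C₁ : ℝ, 0 < C₁ ∧ ∀ (ξ : ℝ), 0 < ξ → ∀ (χ κ ε : ℝ), 0 < χ → χ < 1 → 0 < κ → κ < 1 → 0 < ε → ∀ (C₀ : ℝ) (J₀ : ℕ) (μ₁ μ₂ : Measure Conf)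
    [IsProbabilityMeasure μ₁] [IsProbabilityMeasure μ₂], LReg ρ ξ μ₁ → LStat μ₁ → LReg ρ ξ μ₂ → LStat μ₂ →
    ∃ L₀ : ℝ, ∀ L : ℝ, L₀ ≤ L → ∀ᶠ K : ℕ in atTop, ∀ t : ℕ, t ≤ ⌈L ^ (1 - κ)⌉₊ →
      ugE (μ₁.restrict {x | CReg ρ χ C₀ J₀ x}) (μ₂.restrict {x | CReg ρ χ C₀ J₀ x}) K Set.univ t
        (Set.indicator {p | ¬ ugMar L (L ^ ε) (Real.pi * ρ / 4) C₁ p.1} 1) ≤ ENNReal.ofReal (L ^ (-3 : ℝ)) ∧
      ugE (μ₁.restrict {x | CReg ρ χ C₀ J₀ x}) (μ₂.restrict {x | CReg ρ χ C₀ J₀ x}) K Set.univ t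
        (Set.indicator {p | ¬ ugMar L (L ^ ε) (Real.pi * ρ / 4) C₁ p.2} 1) ≤ ENNReal.ofReal (L ^ (-3 : ℝ)) := by
  obtain ⟨C, hC, hfar⟩ := hfar
  refine ⟨max (2 * Real.pi * ρ) (C + 1), lt_of_lt_of_le (by linarith) (le_max_right _ _), ?_⟩
  intro ξ hξ χ κ ε hχ0 hχ1 hκ hκ1 hε C₀ J₀ μ₁ μ₂ _ _ hR₁ hI₁ hR₂ hI₂
  obtain ⟨L₁, h₁⟩ := ugd_one hρ hC hfar hξ hχ0 hχ1 hκ hκ1 hε C₀ J₀ μ₁ hR₁ hI₁
  obtain ⟨L₂, h₂⟩ := ugd_one hρ hC hfar hξ hχ0 hχ1 hκ hκ1 hε C₀ J₀ μ₂ hR₂ hI₂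
  refine ⟨max L₁ L₂, fun L hL => ?_⟩
  filter_upwards [h₁ L ((le_max_left _ _).trans hL), h₂ L ((le_max_right _ _).trans hL)] with K k₁ k₂ t ht
  have m₁ : (μ₁.restrict {x | CReg ρ χ C₀ J₀ x}) Set.univ ≤ 1 := by
    rw [Measure.restrict_apply_univ]; exact prob_le_one
  have m₂ : (μ₂.restrict {x | CReg ρ χ C₀ J₀ x}) Set.univ ≤ 1 := by
    rw [Measure.restrict_apply_univ]; exact prob_le_one
  constructor
  · exact (ugd_E_fst_le _ _ m₂ K t (Set.indicator {x : Dat K | ¬ ugMar L (L ^ ε) (Real.pi * ρ / 4) (max (2 * Real.pi * ρ) (C + 1)) x} 1)).trans (k₁ t ht)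
  · exact (ugd_E_snd_le _ _ m₁ K t (Set.indicator {x : Dat K | ¬ ugMar L (L ^ ε) (Real.pi * ρ / 4) (max (2 * Real.pi * ρ) (C + 1)) x} 1)).trans (k₂ t ht)

end Claimed.Agent.R287
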