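-- KEEP
import Claimed.Agent.R287.U3Geo
import Claimed.Agent.R287.Stj227

/-!
# Row 287 (S0534), unit U3, block D0 (initial data): the EXITS `u3t_far0` (Lemma 9) and `u3t_init` (Lemma 10)      helper126      prefix `u3i_`

Text: `origin/helper295:notes/R287/U3_295.md` sec. 6, Lemmas 9, 10.   All deterministic, UNIFORM in the cut `K`.
ONE scale for everything: `w_j = |j|/ρ + u` (`u` = the height, resp. `L`).
* sec. 1  symmetric sums, the shell sum `∑_{k<K} ((k+1)/ρ + u)^(-1-θ) ≤ (ρ/θ) u^(-θ)` (telescoping, Bernoulli), `0 < θ ≤ 1`;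
* sec. 2  envelope of a regular configuration: `|x_j - j/ρ| ≤ M w_j^(1-χ)` for ALL `j` (monotonicity below `J₀`);
* sec. 3  Lemma 9: lattice sum (paired terms) + difference;
* sec. 4  upper bound of the weight `uwPhi ≤ C (L/(|s|+L))^(2β)` for every `β < α`; Lipschitz bound of `uwPsi` on a segment;
* sec. 5  Lemma 10.
-/

set_option autoImplicit false
set_option linter.unusedSectionVars false
set_option linter.unusedVariables false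

namespace Claimed.Agent.R287

open Matrix Finset MeasureTheory Filter Topology

/-! ## 1. sums -/

/-- a symmetric sum, paired -/
theorem u3i_sum_sym {M : Type} [AddCommGroup M] (K : ℕ) (F : ℤ → M) :
    ∑ j ∈ Finset.Icc (-(K : ℤ)) K, F j = F 0 + ∑ k ∈ Finset.range K, (F ((k : ℤ) + 1) + F (-((k : ℤ) + 1))) := by
  induction K with
  | zero => simp
  | succ K ih =>
    have := Finset.sum_Icc_succ_eq_add_endpoints F (N := K)
    push_cast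
    rw [this, ih, Finset.sum_range_succ]
    abel

/-- Bernoulli with a negative exponent, in increment form -/
theorem u3i_incr {θ t h : ℝ} (hθ0 : 0 < θ) (hθ1 : θ ≤ 1) (ht : 0 < t) (hh : 0 ≤ h) :
    θ * h * (t + h) ^ (-1 - θ) ≤ t ^ (-θ) - (t + h) ^ (-θ) := by
  have hs : 0 < t + h := by linarith
  set s := t + h with hsdef
  set r := t / s with hr
  have hr0 : 0 < r := div_pos ht hs
  have hr1 : r ≤ 1 := (div_le_one hs).2 (by linarith)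
  have hB : r ^ θ ≤ 1 + θ * (r - 1) := by
    have := rpow_one_add_le_one_add_mul_self (s := r - 1) (by linarith) hθ0.le hθ1
    simpa using this
  have hrθ : 0 < r ^ θ := Real.rpow_pos_of_pos hr0 _
  have hsθ : 0 < s ^ θ := Real.rpow_pos_of_pos hs _
  -- `t^θ = s^θ r^θ`
  have e1 : t ^ θ = s ^ θ * r ^ θ := by
    rw [← Real.mul_rpow hs.le hr0.le, hr, mul_div_cancel₀ _ hs.ne']
  have e2 : s ^ (-1 - θ) = (s ^ θ)⁻¹ * s⁻¹ := by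
    rw [show (-1 - θ) = -θ + -1 by ring, Real.rpow_add hs, Real.rpow_neg hs.le, Real.rpow_neg_one]
  have e3 : h * s⁻¹ = 1 - r := by
    rw [hr]; field_simp; simp [hsdef]
  rw [e2, Real.rpow_neg ht.le, Real.rpow_neg hs.le, e1, mul_inv]
  have h4 : 1 + θ * (1 - r) ≤ (r ^ θ)⁻¹ := by
    have hw0 : 0 ≤ θ * (1 - r) := mul_nonneg hθ0.le (by linarith)
    rw [le_inv_comm₀ (by linarith) hrθ]
    refine hB.trans ?_
    rw [← one_div, le_div_iff₀ (by linarith)]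
    nlinarith
  have : θ * h * ((s ^ θ)⁻¹ * s⁻¹) = (s ^ θ)⁻¹ * (θ * (h * s⁻¹)) := by ring
  rw [this, e3]
  have h5 : 0 < (s ^ θ)⁻¹ := inv_pos.2 hsθ
  nlinarith

/-- the shell sum (telescoping) -/
theorem u3i_shell {θ ρ u : ℝ} (hθ0 : 0 < θ) (hθ1 : θ ≤ 1) (hρ : 0 < ρ) (hu : 0 < u) (K : ℕ) :
    ∑ k ∈ Finset.range K, (((k : ℝ) + 1) / ρ + u) ^ (-1 - θ) ≤ ρ / θ * u ^ (-θ) := by
  have key : ∀ K : ℕ, ∑ k ∈ Finset.range K, (((k : ℝ) + 1) / ρ + u) ^ (-1 - θ) ≤ ρ / θ * (u ^ (-θ) - ((K : ℝ) / ρ + u) ^ (-θ)) := by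
    intro K
    induction K with
    | zero => simp
    | succ K ih =>
      rw [Finset.sum_range_succ]
      have h := u3i_incr hθ0 hθ1 (t := (K : ℝ) / ρ + u) (h := 1 / ρ) (by positivity) (by positivity)
      have e : (K : ℝ) / ρ + u + 1 / ρ = ((K : ℝ) + 1) / ρ + u := by ring
      rw [e] at h
      push_cast
      have h' : (((K : ℝ) + 1) / ρ + u) ^ (-1 - θ) ≤ ρ / θ * (((K : ℝ) / ρ + u) ^ (-θ) - (((K : ℝ) + 1) / ρ + u) ^ (-θ)) := by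
        have : (((K : ℝ) + 1) / ρ + u) ^ (-1 - θ) = ρ / θ * (θ * (1 / ρ) * (((K : ℝ) + 1) / ρ + u) ^ (-1 - θ)) := by field_simp
        rw [this]
        exact mul_le_mul_of_nonneg_left h (by positivity)
      linarith
  refine (key K).trans ?_
  have : 0 ≤ ((K : ℝ) / ρ + u) ^ (-θ) := Real.rpow_nonneg (by positivity) _
  have h2 : 0 ≤ ρ / θ := by positivity
  nlinarith

/-- the two-sided shell sum, `u ≥ 1` -/
theorem u3i_shell2 {θ ρ u : ℝ} (hθ0 : 0 < θ) (hθ1 : θ ≤ 1) (hρ : 0 < ρ) (hu : 1 ≤ u) (K : ℕ) :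
    ∑ j ∈ Finset.Icc (-(K : ℤ)) K, (|(j : ℝ)| / ρ + u) ^ (-1 - θ) ≤ (1 + 2 * ρ / θ) * u ^ (-θ) := by
  rw [u3i_sum_sym K (fun j : ℤ => (|(j : ℝ)| / ρ + u) ^ (-1 - θ))]
  have h0 : (|((0 : ℤ) : ℝ)| / ρ + u) ^ (-1 - θ) ≤ u ^ (-θ) := by
    simp only [Int.cast_zero, abs_zero, zero_div, zero_add]
    exact Real.rpow_le_rpow_of_exponent_le hu (by linarith)
  have h1 : ∑ k ∈ Finset.range K, ((|(((k : ℤ) + 1 : ℤ) : ℝ)| / ρ + u) ^ (-1 - θ) + (|((-((k : ℤ) + 1) : ℤ) : ℝ)| / ρ + u) ^ (-1 - θ))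
      = 2 * ∑ k ∈ Finset.range K, (((k : ℝ) + 1) / ρ + u) ^ (-1 - θ) := by
    rw [Finset.mul_sum]
    refine Finset.sum_congr rfl fun k _ => ?_
    have a1 : |(((k : ℤ) + 1 : ℤ) : ℝ)| = (k : ℝ) + 1 := by
      push_cast; rw [abs_of_nonneg (by positivity)]
    have a2 : |((-((k : ℤ) + 1) : ℤ) : ℝ)| = (k : ℝ) + 1 := by
      push_cast; rw [abs_neg, abs_of_nonneg (by positivity)]
    rw [a1, a2]; ring
  rw [h1]
  have h2 := u3i_shell hθ0 hθ1 hρ (by linarith : 0 < u) K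
  have e : (1 + 2 * ρ / θ) * u ^ (-θ) = u ^ (-θ) + 2 * (ρ / θ * u ^ (-θ)) := by ring
  rw [e]
  linarith

/-! ## 2. the envelope of a regular configuration -/

theorem u3i_C0_nonneg {ρ χ C₀ : ℝ} {J₀ : ℕ} {x : Conf} (hx : CReg ρ χ C₀ J₀ x) : 0 ≤ C₀ := by
  have h := hx.2 ((J₀ : ℤ) + 1) (by rw [abs_of_nonneg (by positivity)]; omega)
  have h1 : 0 < |(((J₀ : ℤ) + 1 : ℤ) : ℝ)| ^ (1 - χ) := Real.rpow_pos_of_pos (by push_cast; positivity) _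
  by_contra hc
  push Not at hc
  have := abs_nonneg (x ((J₀ : ℤ) + 1) - (((J₀ : ℤ) + 1 : ℤ) : ℝ) / ρ)
  nlinarith

/-- **envelope**: ONE bound for all labels, in the scale `w_j = |j|/ρ + u`, `u ≥ 1` -/
theorem u3i_env {ρ χ C₀ : ℝ} {J₀ : ℕ} {x : Conf} (hρ : 0 < ρ) (hχ1 : χ < 1) (hx : CReg ρ χ C₀ J₀ x) {u : ℝ} (hu : 1 ≤ u) (j : ℤ) :
    |x j - j / ρ| ≤ (2 * J₀ / ρ + C₀ * (J₀ : ℝ) ^ (1 - χ) + C₀ * ρ ^ (1 - χ)) * (|(j : ℝ)| / ρ + u) ^ (1 - χ) := by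
  have hC := u3i_C0_nonneg hx
  have hj0 : 0 ≤ |(j : ℝ)| / ρ := by positivity
  have hw1 : 1 ≤ (|(j : ℝ)| / ρ + u) ^ (1 - χ) := Real.one_le_rpow (by linarith) (by linarith)
  have hA : 0 ≤ 2 * (J₀ : ℝ) / ρ := by positivity
  have hB : 0 ≤ C₀ * (J₀ : ℝ) ^ (1 - χ) := mul_nonneg hC (Real.rpow_nonneg (by positivity) _)
  have hD : 0 ≤ C₀ * ρ ^ (1 - χ) := mul_nonneg hC (Real.rpow_nonneg hρ.le _)
  by_cases hj : (J₀ : ℤ) ≤ |j|
  · refine (hx.2 j hj).trans ?_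
    have e : |(j : ℝ)| ^ (1 - χ) = ρ ^ (1 - χ) * (|(j : ℝ)| / ρ) ^ (1 - χ) := by
      rw [← Real.mul_rpow hρ.le hj0, mul_div_cancel₀ _ hρ.ne']
    have h2 : (|(j : ℝ)| / ρ) ^ (1 - χ) ≤ (|(j : ℝ)| / ρ + u) ^ (1 - χ) :=
      Real.rpow_le_rpow hj0 (by linarith) (by linarith)
    rw [e, ← mul_assoc]
    have h3 : C₀ * ρ ^ (1 - χ) * (|(j : ℝ)| / ρ) ^ (1 - χ) ≤ C₀ * ρ ^ (1 - χ) * (|(j : ℝ)| / ρ + u) ^ (1 - χ) :=
      mul_le_mul_of_nonneg_left h2 hD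
    refine h3.trans (mul_le_mul_of_nonneg_right (by linarith) (by linarith))
  · push Not at hj
    obtain ⟨hj1, hj2⟩ := abs_lt.1 hj
    have hp := hx.2 (J₀ : ℤ) (by rw [abs_of_nonneg (by positivity)])
    have hm := hx.2 (-(J₀ : ℤ)) (by rw [abs_neg, abs_of_nonneg (by positivity)])
    have a1 : |(((J₀ : ℤ) : ℤ) : ℝ)| = (J₀ : ℝ) := by push_cast; rw [abs_of_nonneg (by positivity)]
    have a2 : |((-(J₀ : ℤ) : ℤ) : ℝ)| = (J₀ : ℝ) := by push_cast; rw [abs_neg, abs_of_nonneg (by positivity)]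
    rw [a1] at hp
    rw [a2] at hm
    push_cast at hp hm
    have m1 : x j ≤ x (J₀ : ℤ) := hx.1 hj2.le
    have m2 : x (-(J₀ : ℤ)) ≤ x j := hx.1 hj1.le
    have hjr : |(j : ℝ)| ≤ (J₀ : ℝ) := by
      have : ((|j| : ℤ) : ℝ) ≤ ((J₀ : ℤ) : ℝ) := by exact_mod_cast hj.le
      simpa using this
    have hjr' : |(j : ℝ) / ρ| ≤ (J₀ : ℝ) / ρ := by
      rw [abs_div, abs_of_pos hρ]; exact div_le_div_of_nonneg_right hjr hρ.le
    obtain ⟨p1, p2⟩ := abs_le.1 hp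
    obtain ⟨q1, q2⟩ := abs_le.1 hm
    obtain ⟨r1, r2⟩ := abs_le.1 hjr'
    have e2 : 2 * (J₀ : ℝ) / ρ = (J₀ : ℝ) / ρ + (J₀ : ℝ) / ρ := by ring
    have e3 : -(J₀ : ℝ) / ρ = -((J₀ : ℝ) / ρ) := by ring
    rw [e3] at q1 q2
    have h4 : |x j - j / ρ| ≤ 2 * (J₀ : ℝ) / ρ + C₀ * (J₀ : ℝ) ^ (1 - χ) := by
      rw [abs_le, e2]; constructor <;> linarith
    refine h4.trans ?_
    have h5 : 2 * (J₀ : ℝ) / ρ + C₀ * (J₀ : ℝ) ^ (1 - χ) ≤ 2 * (J₀ : ℝ) / ρ + C₀ * (J₀ : ℝ) ^ (1 - χ) + C₀ * ρ ^ (1 - χ) := by linarith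
    refine h5.trans ?_
    exact le_mul_of_one_le_right (by linarith) hw1

/-! ## 3. Lemma 9 -/

/-- distance of a real point to a spectral parameter in the cone `|Re ζ| ≤ 5 Im ζ` -/
theorem u3i_dist {ζ : ℂ} (hu : 0 < ζ.im) (hre : |ζ.re| ≤ 5 * ζ.im) (t : ℝ) : (|t| + ζ.im) / 11 ≤ ‖(t : ℂ) - ζ‖ := by
  have h1 : ζ.im ≤ ‖(t : ℂ) - ζ‖ := by
    have := Complex.abs_im_le_norm ((t : ℂ) - ζ)
    simp only [Complex.sub_im, Complex.ofReal_im, zero_sub, abs_neg] at this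
    exact (le_abs_self _).trans this
  have h2 : |t| - 5 * ζ.im ≤ ‖(t : ℂ) - ζ‖ := by
    have := Complex.abs_re_le_norm ((t : ℂ) - ζ)
    simp only [Complex.sub_re, Complex.ofReal_re] at this
    have h3 := abs_sub_abs_le_abs_sub t ζ.re
    linarith
  by_cases h : |t| ≤ 10 * ζ.im <;> linarith

/-- the lattice sum, paired -/
theorem u3i_lattice {ρ : ℝ} (hρ : 0 < ρ) {ζ : ℂ} (hu : 1 ≤ ζ.im) (hre : |ζ.re| ≤ 5 * ζ.im) (K : ℕ) :
    ‖∑ j ∈ Finset.Icc (-(K : ℤ)) K, ((((j : ℝ) / ρ : ℝ) : ℂ) - ζ)⁻¹‖ ≤ 1 + 1452 * ρ := by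
  have hu0 : 0 < ζ.im := by linarith
  rw [u3i_sum_sym K (fun j : ℤ => ((((j : ℝ) / ρ : ℝ) : ℂ) - ζ)⁻¹)]
  refine (norm_add_le _ _).trans (add_le_add ?_ ?_)
  · rw [norm_inv]
    have := u3i_dist hu0 hre (((0 : ℤ) : ℝ) / ρ)
    simp only [Int.cast_zero, zero_div, abs_zero, zero_add] at this ⊢
    have h1 : ζ.im ≤ ‖((0 : ℝ) : ℂ) - ζ‖ := by
      have := Complex.abs_im_le_norm (((0 : ℝ) : ℂ) - ζ)
      simp only [Complex.sub_im, Complex.ofReal_im, zero_sub, abs_neg] at this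
      exact (le_abs_self _).trans this
    exact inv_le_one_of_one_le₀ (hu.trans h1)
  · refine (norm_sum_le _ _).trans ?_
    have hz : ‖ζ‖ ≤ 6 * ζ.im := by
      have := Complex.norm_le_abs_re_add_abs_im ζ
      rw [abs_of_pos hu0] at this
      linarith
    have hterm : ∀ k ∈ Finset.range K, ‖(((((((k : ℤ) + 1 : ℤ) : ℝ)) / ρ : ℝ) : ℂ) - ζ)⁻¹ + ((((((-((k : ℤ) + 1) : ℤ) : ℝ)) / ρ : ℝ) : ℂ) - ζ)⁻¹‖
        ≤ 1452 * ζ.im * (((k : ℝ) + 1) / ρ + ζ.im) ^ (-1 - (1 : ℝ)) := by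
      intro k _
      set l : ℝ := ((k : ℝ) + 1) / ρ with hl
      have hl0 : 0 ≤ l := by positivity
      have e1 : (((((k : ℤ) + 1 : ℤ) : ℝ)) / ρ : ℝ) = l := by push_cast; rfl
      have e2 : ((((-((k : ℤ) + 1) : ℤ) : ℝ)) / ρ : ℝ) = -l := by push_cast; rw [hl]; ring
      rw [e1, e2]
      have d1 := u3i_dist hu0 hre l
      have d2 := u3i_dist hu0 hre (-l)
      rw [abs_neg] at d2
      rw [abs_of_nonneg hl0] at d1 d2
      have hw : 0 < l + ζ.im := by linarith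
      have n1 : ((l : ℂ) - ζ) ≠ 0 := by
        intro h; rw [h, norm_zero] at d1; linarith [div_pos hw (by norm_num : (0 : ℝ) < 11)]
      have n2 : (((-l : ℝ) : ℂ) - ζ) ≠ 0 := by
        intro h; rw [h, norm_zero] at d2; linarith [div_pos hw (by norm_num : (0 : ℝ) < 11)]
      have e3 : ((l : ℂ) - ζ)⁻¹ + (((-l : ℝ) : ℂ) - ζ)⁻¹ = (-2 * ζ) / (((l : ℂ) - ζ) * (((-l : ℝ) : ℂ) - ζ)) := by
        rw [inv_add_inv n1 n2]
        congr 1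
        push_cast; ring
      rw [e3, norm_div, norm_mul, norm_mul]
      have e4 : (l + ζ.im) ^ (-1 - (1 : ℝ)) = ((l + ζ.im) ^ 2)⁻¹ := by
        rw [show (-1 - (1 : ℝ)) = -(2 : ℝ) by norm_num, Real.rpow_neg hw.le, Real.rpow_two]
      rw [e4]
      have h5 : (l + ζ.im) / 11 * ((l + ζ.im) / 11) ≤ ‖(l : ℂ) - ζ‖ * ‖((-l : ℝ) : ℂ) - ζ‖ :=
        mul_le_mul d1 d2 (by positivity) (norm_nonneg _)
      have h6 : ‖(-2 : ℂ)‖ = 2 := by simp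
      rw [h6, div_le_iff₀ (lt_of_lt_of_le (by positivity) h5)]
      have h7 : 1452 * ζ.im * ((l + ζ.im) ^ 2)⁻¹ * ((l + ζ.im) / 11 * ((l + ζ.im) / 11)) = 12 * ζ.im := by
        field_simp; ring
      have h8 : 0 ≤ 1452 * ζ.im * ((l + ζ.im) ^ 2)⁻¹ := by positivity
      calc 2 * ‖ζ‖ ≤ 12 * ζ.im := by linarith
        _ = 1452 * ζ.im * ((l + ζ.im) ^ 2)⁻¹ * ((l + ζ.im) / 11 * ((l + ζ.im) / 11)) := h7.symm
        _ ≤ _ := mul_le_mul_of_nonneg_left h5 h8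
    refine (Finset.sum_le_sum hterm).trans ?_
    rw [← Finset.mul_sum]
    have h9 := u3i_shell (θ := 1) one_pos le_rfl hρ hu0 K
    have h10 : 1452 * ζ.im * (ρ / 1 * ζ.im ^ (-(1 : ℝ))) = 1452 * ρ := by
      rw [Real.rpow_neg_one]; field_simp
    rw [← h10]
    exact mul_le_mul_of_nonneg_left h9 (by positivity)

/-- `M w^(1-χ) ≤ w/c` as soon as `c M ≤ u^χ`, `u ≤ w` -/
theorem u3i_small {χ M c u w : ℝ} (hχ0 : 0 < χ) (hc : 0 < c) (hu : 0 < u) (huw : u ≤ w) (hbig : c * M ≤ u ^ χ) :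
    M * w ^ (1 - χ) ≤ w / c := by
  have hw : 0 < w := by linarith
  have hp : 0 < w ^ χ := Real.rpow_pos_of_pos hw _
  have h1 : u ^ χ ≤ w ^ χ := Real.rpow_le_rpow hu.le huw hχ0.le
  have e1 : w ^ (1 - χ) = w / w ^ χ := by rw [Real.rpow_sub hw, Real.rpow_one]
  rw [e1, mul_div_assoc', div_le_div_iff₀ hp hc]
  nlinarith

/-- the difference between the configuration and the lattice -/
theorem u3i_diff {ρ χ M : ℝ} (hρ : 0 < ρ) (hχ0 : 0 < χ) (hχ1 : χ < 1) (hM : 0 ≤ M) {x : Conf} {ζ : ℂ} (hu : 1 ≤ ζ.im) (hre : |ζ.re| ≤ 5 * ζ.im)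
    (hx : ∀ j : ℤ, |x j - j / ρ| ≤ M * (|(j : ℝ)| / ρ + ζ.im) ^ (1 - χ)) (hbig : 22 * M ≤ ζ.im ^ χ) (K : ℕ) :
    ‖∑ j ∈ Finset.Icc (-(K : ℤ)) K, ((((x j : ℝ) : ℂ) - ζ)⁻¹ - ((((j : ℝ) / ρ : ℝ) : ℂ) - ζ)⁻¹)‖
      ≤ 242 * M * ((1 + 2 * ρ / χ) * ζ.im ^ (-χ)) := by
  have hu0 : 0 < ζ.im := by linarith
  refine (norm_sum_le _ _).trans ?_
  have hterm : ∀ j ∈ Finset.Icc (-(K : ℤ)) K, ‖(((x j : ℝ) : ℂ) - ζ)⁻¹ - ((((j : ℝ) / ρ : ℝ) : ℂ) - ζ)⁻¹‖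
      ≤ 242 * M * (|(j : ℝ)| / ρ + ζ.im) ^ (-1 - χ) := by
    intro j _
    set w : ℝ := |(j : ℝ)| / ρ + ζ.im with hw
    have hj0 : 0 ≤ |(j : ℝ)| / ρ := by positivity
    have hw0 : 0 < w := by linarith
    have hd := hx j
    have hs : M * w ^ (1 - χ) ≤ w / 22 := u3i_small hχ0 (by norm_num) hu0 (by linarith) hbig
    have d1 := u3i_dist hu0 hre ((j : ℝ) / ρ)
    rw [abs_div, abs_of_pos hρ, ← hw] at d1
    have d2 : w / 22 ≤ ‖((x j : ℝ) : ℂ) - ζ‖ := by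
      have h1 : ‖(((j : ℝ) / ρ : ℝ) : ℂ) - ζ‖ ≤ ‖((x j : ℝ) : ℂ) - ζ‖ + ‖(((j : ℝ) / ρ : ℝ) : ℂ) - ((x j : ℝ) : ℂ)‖ := by
        have := norm_add_le (((x j : ℝ) : ℂ) - ζ) ((((j : ℝ) / ρ : ℝ) : ℂ) - ((x j : ℝ) : ℂ))
        simpa using this
      have h2 : ‖(((j : ℝ) / ρ : ℝ) : ℂ) - ((x j : ℝ) : ℂ)‖ = |x j - j / ρ| := by
        rw [← Complex.ofReal_sub, Complex.norm_real, Real.norm_eq_abs, abs_sub_comm]
      rw [h2] at h1
      linarith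
    have n1 : (((x j : ℝ) : ℂ) - ζ) ≠ 0 := by
      intro h; rw [h, norm_zero] at d2; linarith [div_pos hw0 (by norm_num : (0 : ℝ) < 22)]
    have n2 : ((((j : ℝ) / ρ : ℝ) : ℂ) - ζ) ≠ 0 := by
      intro h; rw [h, norm_zero] at d1; linarith [div_pos hw0 (by norm_num : (0 : ℝ) < 11)]
    rw [inv_sub_inv n1 n2, norm_div, norm_mul]
    have e1 : ‖(((j : ℝ) / ρ : ℝ) : ℂ) - ζ - (((x j : ℝ) : ℂ) - ζ)‖ = |x j - j / ρ| := by
      rw [sub_sub_sub_cancel_right, ← Complex.ofReal_sub, Complex.norm_real, Real.norm_eq_abs, abs_sub_comm]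
    rw [e1]
    have h5 : w / 22 * (w / 11) ≤ ‖((x j : ℝ) : ℂ) - ζ‖ * ‖(((j : ℝ) / ρ : ℝ) : ℂ) - ζ‖ :=
      mul_le_mul d2 d1 (by positivity) (norm_nonneg _)
    rw [div_le_iff₀ (lt_of_lt_of_le (by positivity) h5)]
    have e2 : w ^ (-1 - χ) = w ^ (1 - χ) * (w ^ 2)⁻¹ := by
      rw [show (-1 - χ) = (1 - χ) + -(2 : ℝ) by ring, Real.rpow_add hw0, Real.rpow_neg hw0.le, Real.rpow_two]
    have h7 : 242 * M * w ^ (-1 - χ) * (w / 22 * (w / 11)) = M * w ^ (1 - χ) := by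
      rw [e2]; field_simp; ring
    have h8 : 0 ≤ 242 * M * w ^ (-1 - χ) := mul_nonneg (by positivity) (Real.rpow_nonneg hw0.le _)
    calc |x j - j / ρ| ≤ M * w ^ (1 - χ) := hd
      _ = 242 * M * w ^ (-1 - χ) * (w / 22 * (w / 11)) := h7.symm
      _ ≤ _ := mul_le_mul_of_nonneg_left h5 h8
  refine (Finset.sum_le_sum hterm).trans ?_
  rw [← Finset.mul_sum]
  exact mul_le_mul_of_nonneg_left (u3i_shell2 hχ0 hχ1.le hρ hu K) (by positivity)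

/-- **Lemma 9** (= `u3t_far0`): the Stieltjes sums of the cut initial data are bounded above the height `L`, uniformly in `K`; the constant depends on `ρ` only. -/
theorem u3i_far0 (ρ : ℝ) (hρ : 0 < ρ) : ∃ C : ℝ, 0 < C ∧ ∀ (χ : ℝ), 0 < χ → χ < 1 → ∀ (C₀ : ℝ) (J₀ : ℕ),
    ∃ L₀ : ℝ, ∀ L : ℝ, L₀ ≤ L → ∀ (K : ℕ) (x : Conf), CReg ρ χ C₀ J₀ x → ∀ ζ : ℂ, L ≤ ζ.im → |ζ.re| ≤ 5 * L → ‖cSK K x ζ‖ ≤ C := by
  refine ⟨2 + 1452 * ρ, by positivity, fun χ hχ0 hχ1 C₀ J₀ => ?_⟩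
  obtain ⟨M, hMdef⟩ : ∃ M : ℝ, M = 2 * J₀ / ρ + C₀ * (J₀ : ℝ) ^ (1 - χ) + C₀ * ρ ^ (1 - χ) := ⟨_, rfl⟩
  obtain ⟨N₁, hN₁⟩ := eventually_atTop.1 ((tendsto_rpow_atTop hχ0).eventually_ge_atTop (242 * M * (1 + 2 * ρ / χ)))
  refine ⟨max 1 N₁, fun L hL K x hx ζ hζ hre => ?_⟩
  have hL1 : 1 ≤ L := (le_max_left _ _).trans hL
  have hu : 1 ≤ ζ.im := hL1.trans hζ
  have hu0 : 0 < ζ.im := by linarith
  have hre' : |ζ.re| ≤ 5 * ζ.im := by linarith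
  have hC := u3i_C0_nonneg hx
  have hM : 0 ≤ M := by
    rw [hMdef]
    have h1 : 0 ≤ C₀ * (J₀ : ℝ) ^ (1 - χ) := mul_nonneg hC (Real.rpow_nonneg (by positivity) _)
    have h2 : 0 ≤ C₀ * ρ ^ (1 - χ) := mul_nonneg hC (Real.rpow_nonneg hρ.le _)
    have h3 : 0 ≤ 2 * (J₀ : ℝ) / ρ := by positivity
    linarith
  have hbig : 242 * M * (1 + 2 * ρ / χ) ≤ ζ.im ^ χ := hN₁ _ (((le_max_right _ _).trans hL).trans hζ)
  have hq : 0 ≤ 2 * ρ / χ := by positivity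
  have hbig2 : 22 * M ≤ ζ.im ^ χ := by nlinarith
  have henv : ∀ j : ℤ, |x j - j / ρ| ≤ M * (|(j : ℝ)| / ρ + ζ.im) ^ (1 - χ) := fun j => by
    rw [hMdef]; exact u3i_env hρ hχ1 hx hu j
  have e0 : cSK K x ζ = ∑ j ∈ Finset.Icc (-(K : ℤ)) K, ((((j : ℝ) / ρ : ℝ) : ℂ) - ζ)⁻¹
      + ∑ j ∈ Finset.Icc (-(K : ℤ)) K, ((((x j : ℝ) : ℂ) - ζ)⁻¹ - ((((j : ℝ) / ρ : ℝ) : ℂ) - ζ)⁻¹) := by
    rw [← Finset.sum_add_distrib]
    unfold cSK cPos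
    rw [k9_sum_win K (fun j : ℤ => (((x j : ℝ) : ℂ) - ζ)⁻¹)]
    refine Finset.sum_congr rfl fun j _ => ?_
    ring
  rw [e0]
  refine (norm_add_le _ _).trans ?_
  have h1 := u3i_lattice hρ hu hre' K
  have h2 := u3i_diff hρ hχ0 hχ1 hM hu hre' henv hbig2 K
  have h3 : 242 * M * ((1 + 2 * ρ / χ) * ζ.im ^ (-χ)) ≤ 1 := by
    have hp : 0 < ζ.im ^ χ := Real.rpow_pos_of_pos hu0 _
    rw [Real.rpow_neg hu0.le, ← mul_assoc, ← div_eq_mul_inv, div_le_one hp]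
    exact hbig
  linarith

/-! ## 4. upper bound of the weight, Lipschitz bound of `Psi` -/

/-- one Cauchy kernel at the height `2^m L`, in the scale `L/(|s|+L)`, with any exponent `β ≤ 1` -/
theorem u3i_kernel {L β : ℝ} (hL : 0 < L) (hβ0 : 0 ≤ β) (hβ1 : β ≤ 1) (s : ℝ) (m : ℕ) :
    u3cH L m ^ 2 / (s ^ 2 + u3cH L m ^ 2) ≤ 2 * ((4 : ℝ) ^ (β * m) * (L / (|s| + L)) ^ (2 * β)) := by
  have hH := u3c_H_pos hL m
  set H := u3cH L m with hHdef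
  have hs0 := abs_nonneg s
  have h2m : (1 : ℝ) ≤ 2 ^ m := one_le_pow₀ (by norm_num)
  have hHL : L ≤ H := by
    rw [hHdef]; unfold u3cH; nlinarith
  set r : ℝ := H / (|s| + H) with hr
  have hr0 : 0 < r := by positivity
  have hr1 : r ≤ 1 := (div_le_one (by positivity)).2 (by linarith)
  have h1 : H ^ 2 / (s ^ 2 + H ^ 2) ≤ 2 * r ^ 2 := by
    rw [hr, div_pow, mul_div_assoc', div_le_div_iff₀ (by positivity) (by positivity), ← sq_abs s]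
    have : (|s| + H) ^ 2 ≤ 2 * (|s| ^ 2 + H ^ 2) := by nlinarith [sq_nonneg (|s| - H)]
    have hH2 : 0 ≤ H ^ 2 := by positivity
    nlinarith
  have h2 : r ^ 2 ≤ r ^ (2 * β) := by
    rw [← Real.rpow_two]
    exact Real.rpow_le_rpow_of_exponent_ge hr0 hr1 (by linarith)
  have h3 : r ≤ 2 ^ m * (L / (|s| + L)) := by
    rw [hr, mul_div_assoc']
    have : (2 : ℝ) ^ m * L = H := by rw [hHdef]; rfl
    rw [this]
    exact div_le_div_of_nonneg_left hH.le (by positivity) (by linarith)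
  have h4 : r ^ (2 * β) ≤ (2 ^ m * (L / (|s| + L))) ^ (2 * β) := Real.rpow_le_rpow hr0.le h3 (by linarith)
  have h5 : ((2 : ℝ) ^ m * (L / (|s| + L))) ^ (2 * β) = (4 : ℝ) ^ (β * m) * (L / (|s| + L)) ^ (2 * β) := by
    rw [Real.mul_rpow (by positivity) (by positivity)]
    congr 1
    rw [← Real.rpow_natCast, ← Real.rpow_mul (by norm_num), show (4 : ℝ) = 2 ^ (2 : ℝ) by norm_num, ← Real.rpow_mul (by norm_num)]
    congr 1
    ring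
  rw [h5] at h4
  linarith

/-- upper bound of `phi0` with a slightly smaller exponent: ONE geometric series -/
theorem u3i_phi0_le {L α β : ℝ} (hL : 0 < L) (hβ0 : 0 ≤ β) (hβα : β < α) (hβ1 : β ≤ 1) (s : ℝ) :
    uwPhi0 L α s ≤ 2 * (1 - (4 : ℝ) ^ (-(α - β)))⁻¹ * (L / (|s| + L)) ^ (2 * β) := by
  have hα : 0 < α := by linarith
  set q : ℝ := (4 : ℝ) ^ (-(α - β)) with hq
  have hq0 : 0 ≤ q := Real.rpow_nonneg (by norm_num) _
  have hq1 : q < 1 := Real.rpow_lt_one_of_one_lt_of_neg (by norm_num) (by linarith)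
  set X : ℝ := (L / (|s| + L)) ^ (2 * β) with hX
  have hX0 : 0 ≤ X := Real.rpow_nonneg (by positivity) _
  have hs1 := u3c_mix_summable (u3c_W_nonneg α) (u3c_W_summable hα) (u3c_H_pos hL) s
  have hs2 : Summable fun m : ℕ => 2 * X * q ^ m := (summable_geometric_of_lt_one hq0 hq1).mul_left _
  have hle : ∀ m : ℕ, u3cW α m * (u3cH L m ^ 2 / (s ^ 2 + u3cH L m ^ 2)) ≤ 2 * X * q ^ m := by
    intro m
    have h1 := mul_le_mul_of_nonneg_left (u3i_kernel hL hβ0 hβ1 s m) (u3c_W_nonneg α m)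
    refine h1.trans (le_of_eq ?_)
    have e : u3cW α m * (4 : ℝ) ^ (β * m) = q ^ m := by
      unfold u3cW
      rw [hq, ← Real.rpow_add (by norm_num), ← Real.rpow_natCast, ← Real.rpow_mul (by norm_num)]
      congr 1
      ring
    rw [← hX, ← e]
    ring
  have h := hs1.tsum_le_tsum hle hs2
  rw [tsum_mul_left, tsum_geometric_of_lt_one hq0 hq1] at h
  rw [u3c_phi0_eq]
  unfold u3cMix
  refine h.trans (le_of_eq ?_)
  ring

/-- upper bound of the weight -/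
theorem u3i_phi_le {L α β : ℝ} (hL : 0 < L) (hβ0 : 0 ≤ β) (hβα : β < α) (hβ1 : β ≤ 1) (s : ℝ) :
    uwPhi L α s ≤ 4 * (1 - (4 : ℝ) ^ (-(α - β)))⁻¹ * (L / (|s| + L)) ^ (2 * β) := by
  have hα : 0 < α := by linarith
  have h0 : 1 / 2 ≤ uwPhi0 L α L := by
    have := u3g_phi0_ge hL hα 0
    simpa [u3cW, u3cH] using this
  have h1 := u3i_phi0_le hL hβ0 hβα hβ1 s
  have h2 := u3c_phi0_nonneg hL α s
  unfold uwPhi
  refine (min_le_right _ _).trans ?_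
  rw [div_le_iff₀ (by linarith)]
  have h3 : 0 ≤ 4 * (1 - (4 : ℝ) ^ (-(α - β)))⁻¹ * (L / (|s| + L)) ^ (2 * β) := by linarith
  nlinarith

/-- the increment of `Psi` between two points of a ball on which the weight is `≤ B` -/
theorem u3i_psi_sq_le {L α B c d a b : ℝ} (hL : 0 < L) (hα : 0 < α) (hB : ∀ s, |s - c| ≤ d → uwPhi L α s ≤ B) (ha : |a - c| ≤ d) (hb : |b - c| ≤ d) :
    (uwPsi L α b - uwPsi L α a) ^ 2 ≤ B * (b - a) ^ 2 := by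
  have hB0 : 0 ≤ B := (u3g_phi_pos hL hα a).le.trans (hB a ha)
  have hmem : ∀ s, s ∈ Set.Icc (c - d) (c + d) ↔ |s - c| ≤ d := fun s => by
    rw [Set.mem_Icc, abs_le]; constructor <;> rintro ⟨h1, h2⟩ <;> constructor <;> linarith
  have h := Convex.norm_image_sub_le_of_norm_hasDerivWithin_le (f := uwPsi L α) (f' := fun s => Real.sqrt (uwPhi L α s)) (C := Real.sqrt B)
    (s := Set.Icc (c - d) (c + d)) (x := a) (y := b) (fun s _ => (u3g_psi_deriv hL hα s).hasDerivWithinAt)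
    (fun s hs => by
      rw [Real.norm_eq_abs, abs_of_nonneg (Real.sqrt_nonneg _)]
      exact Real.sqrt_le_sqrt (hB s ((hmem s).1 hs)))
    (convex_Icc _ _) ((hmem a).2 ha) ((hmem b).2 hb)
  rw [Real.norm_eq_abs, Real.norm_eq_abs] at h
  have h2 := pow_le_pow_left₀ (abs_nonneg _) h 2
  rw [sq_abs, mul_pow, Real.sq_sqrt hB0, sq_abs] at h2
  exact h2

/-! ## 5. Lemma 10 -/

/-- one term of the initial cost, in the scale `w = |j|/ρ + L` -/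
theorem u3i_term {L α β χ M Cq l w a b : ℝ} (hL : 0 < L) (hβ0 : 0 ≤ β) (hβα : β < α) (hβ1 : β ≤ 1) (hM : 0 ≤ M)
    (hCq : Cq = (1 - (4 : ℝ) ^ (-(α - β)))⁻¹) (hw : w = |l| + L) (hd : M * w ^ (1 - χ) ≤ w / 2)
    (ha : |a - l| ≤ M * w ^ (1 - χ)) (hb : |b - l| ≤ M * w ^ (1 - χ)) :
    (uwPsi L α b - uwPsi L α a) ^ 2 ≤ 64 * Cq * M ^ 2 * L ^ (2 * β) * w ^ (2 - 2 * χ - 2 * β) := by
  have hα : 0 < α := by linarith
  have hl0 := abs_nonneg l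
  have hw0 : 0 < w := by linarith
  have hq1 : (4 : ℝ) ^ (-(α - β)) < 1 := Real.rpow_lt_one_of_one_lt_of_neg (by norm_num) (by linarith)
  have hCq0 : 0 < Cq := by rw [hCq]; exact inv_pos.2 (by linarith)
  set d : ℝ := M * w ^ (1 - χ) with hddef
  have hB : ∀ s, |s - l| ≤ d → uwPhi L α s ≤ 4 * Cq * (2 * L / w) ^ (2 * β) := by
    intro s hs
    refine (u3i_phi_le hL hβ0 hβα hβ1 s).trans ?_
    rw [← hCq]
    refine mul_le_mul_of_nonneg_left ?_ (by positivity)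
    refine Real.rpow_le_rpow (by positivity) ?_ (by linarith)
    have h1 : |l| - |s| ≤ |s - l| := by rw [abs_sub_comm]; exact abs_sub_abs_le_abs_sub _ _
    have h2 : w / 2 ≤ |s| + L := by linarith
    rw [div_le_div_iff₀ (by positivity) hw0]
    nlinarith
  have h := u3i_psi_sq_le hL hα hB ha hb
  refine h.trans ?_
  have hba : (b - a) ^ 2 ≤ (2 * d) ^ 2 := by
    have h1 : |b - a| ≤ 2 * d := by
      have := abs_sub_le b l a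
      rw [abs_sub_comm l a] at this
      linarith
    have := pow_le_pow_left₀ (abs_nonneg _) h1 2
    rwa [sq_abs] at this
  have e1 : (2 * L / w) ^ (2 * β) = (2 : ℝ) ^ (2 * β) * L ^ (2 * β) * w ^ (-(2 * β)) := by
    rw [div_eq_mul_inv, Real.mul_rpow (by positivity) (by positivity), Real.mul_rpow (by norm_num) hL.le, Real.inv_rpow hw0.le,
      Real.rpow_neg hw0.le]
  have e2 : (2 : ℝ) ^ (2 * β) ≤ 4 := by
    have : (2 : ℝ) ^ (2 * β) ≤ (2 : ℝ) ^ (2 : ℝ) := Real.rpow_le_rpow_of_exponent_le (by norm_num) (by linarith)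
    refine this.trans (le_of_eq ?_)
    rw [Real.rpow_two]; norm_num
  have e3 : (2 * d) ^ 2 = 4 * M ^ 2 * w ^ (2 - 2 * χ) := by
    rw [hddef, mul_pow, mul_pow, ← Real.rpow_natCast (w ^ (1 - χ)) 2, ← Real.rpow_mul hw0.le,
      show (1 - χ) * ((2 : ℕ) : ℝ) = 2 - 2 * χ by push_cast; ring]
    ring
  have e4 : w ^ (2 - 2 * χ - 2 * β) = w ^ (-(2 * β)) * w ^ (2 - 2 * χ) := by
    rw [← Real.rpow_add hw0]; congr 1; ring
  have hLβ : 0 ≤ L ^ (2 * β) := Real.rpow_nonneg hL.le _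
  have hwβ : 0 ≤ w ^ (-(2 * β)) := Real.rpow_nonneg hw0.le _
  have hwχ : 0 ≤ w ^ (2 - 2 * χ) := Real.rpow_nonneg hw0.le _
  calc 4 * Cq * (2 * L / w) ^ (2 * β) * (b - a) ^ 2 ≤ 4 * Cq * (2 * L / w) ^ (2 * β) * (2 * d) ^ 2 :=
        mul_le_mul_of_nonneg_left hba (mul_nonneg (by positivity) (Real.rpow_nonneg (by positivity) _))
    _ = (2 : ℝ) ^ (2 * β) * (16 * Cq * M ^ 2 * L ^ (2 * β) * (w ^ (-(2 * β)) * w ^ (2 - 2 * χ))) := by rw [e1, e3]; ring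
    _ ≤ 4 * (16 * Cq * M ^ 2 * L ^ (2 * β) * (w ^ (-(2 * β)) * w ^ (2 - 2 * χ))) :=
        mul_le_mul_of_nonneg_right e2 (by positivity)
    _ = _ := by rw [e4]; ring

/-- **Lemma 10** (= `u3t_init`): the initial cost, uniformly in `K`. -/
theorem u3i_init (ρ : ℝ) (hρ : 0 < ρ) (P : U3Exp) (C₀ : ℝ) (J₀ : ℕ) :
    ∃ L₀ : ℝ, ∀ L : ℝ, L₀ ≤ L → ∀ (K : ℕ) (x y : Conf), CReg ρ P.χ C₀ J₀ x → CReg ρ P.χ C₀ J₀ y →
      uwCost L P.α (cPos K x) (cPos K y) ≤ L ^ (3 - 2 * P.χ + P.ε / 2) := by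
  obtain ⟨χ, hχdef⟩ : ∃ χ : ℝ, χ = P.χ := ⟨_, rfl⟩
  obtain ⟨α, hαdef⟩ : ∃ α : ℝ, α = P.α := ⟨_, rfl⟩
  have hχ : 1 / 2 < χ := hχdef ▸ P.hχ
  have hχ1 : χ < 1 := hχdef ▸ P.hχ1
  have hα : 3 / 2 - χ < α := by rw [hχdef, hαdef]; exact P.hα
  have hα1 : α < 1 := hαdef ▸ P.hα1
  have hε := P.hε
  rw [← hχdef, ← hαdef]
  obtain ⟨β, hβdef⟩ : ∃ β : ℝ, β = (α + 3 / 2 - χ) / 2 := ⟨_, rfl⟩
  obtain ⟨θ, hθdef⟩ : ∃ θ : ℝ, θ = α + χ - 3 / 2 := ⟨_, rfl⟩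
  have hβ0 : 0 ≤ β := by rw [hβdef]; linarith
  have hβα : β < α := by rw [hβdef]; linarith
  have hβ1 : β ≤ 1 := by rw [hβdef]; linarith
  have hθ0 : 0 < θ := by rw [hθdef]; linarith
  have hθ1 : θ ≤ 1 := by rw [hθdef]; linarith
  obtain ⟨M, hMdef⟩ : ∃ M : ℝ, M = 2 * J₀ / ρ + C₀ * (J₀ : ℝ) ^ (1 - χ) + C₀ * ρ ^ (1 - χ) := ⟨_, rfl⟩
  obtain ⟨Cq, hCq⟩ : ∃ Cq : ℝ, Cq = (1 - (4 : ℝ) ^ (-(α - β)))⁻¹ := ⟨_, rfl⟩
  obtain ⟨N₁, hN₁⟩ := eventually_atTop.1 ((tendsto_rpow_atTop (by linarith : 0 < χ)).eventually_ge_atTop (2 * M))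
  obtain ⟨N₂, hN₂⟩ := eventually_atTop.1 ((tendsto_rpow_atTop (by linarith : 0 < P.ε / 2)).eventually_ge_atTop
    (64 * Cq * M ^ 2 * (1 + 2 * ρ / θ)))
  refine ⟨max 1 (max N₁ N₂), fun L hL K x y hx hy => ?_⟩
  have hL1 : 1 ≤ L := (le_max_left _ _).trans hL
  have hL0 : 0 < L := by linarith
  have hb1 : 2 * M ≤ L ^ χ := hN₁ _ (((le_max_left _ _).trans (le_max_right _ _)).trans hL)
  have hb2 : 64 * Cq * M ^ 2 * (1 + 2 * ρ / θ) ≤ L ^ (P.ε / 2) := hN₂ _ (((le_max_right _ _).trans (le_max_right _ _)).trans hL)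
  have hC := u3i_C0_nonneg hx
  have hM : 0 ≤ M := by
    rw [hMdef]
    have h1 : 0 ≤ C₀ * (J₀ : ℝ) ^ (1 - χ) := mul_nonneg hC (Real.rpow_nonneg (by positivity) _)
    have h2 : 0 ≤ C₀ * ρ ^ (1 - χ) := mul_nonneg hC (Real.rpow_nonneg hρ.le _)
    have h3 : 0 ≤ 2 * (J₀ : ℝ) / ρ := by positivity
    linarith
  have hq1 : (4 : ℝ) ^ (-(α - β)) < 1 := Real.rpow_lt_one_of_one_lt_of_neg (by norm_num) (by linarith)
  have hCq0 : 0 < Cq := by rw [hCq]; exact inv_pos.2 (by linarith)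
  have e0 : uwCost L α (cPos K x) (cPos K y) = ∑ j ∈ Finset.Icc (-(K : ℤ)) K, (uwPsi L α (y j) - uwPsi L α (x j)) ^ 2 := by
    unfold uwCost cPos
    exact k9_sum_win K (fun j : ℤ => (uwPsi L α (y j) - uwPsi L α (x j)) ^ 2)
  rw [e0]
  have hterm : ∀ j ∈ Finset.Icc (-(K : ℤ)) K, (uwPsi L α (y j) - uwPsi L α (x j)) ^ 2
      ≤ 64 * Cq * M ^ 2 * L ^ (2 * β) * (|(j : ℝ)| / ρ + L) ^ (-1 - θ) := by
    intro j _
    have hj0 : 0 ≤ |(j : ℝ)| / ρ := by positivity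
    have hw : |(j : ℝ)| / ρ + L = |(j : ℝ) / ρ| + L := by rw [abs_div, abs_of_pos hρ]
    have hd : M * (|(j : ℝ)| / ρ + L) ^ (1 - χ) ≤ (|(j : ℝ)| / ρ + L) / 2 :=
      u3i_small (by linarith) (by norm_num) hL0 (by linarith) hb1
    have h := u3i_term (χ := χ) (l := (j : ℝ) / ρ) (a := x j) (b := y j) hL0 hβ0 hβα hβ1 hM hCq hw hd
      (by rw [hMdef]; exact u3i_env hρ hχ1 hx hL1 j) (by rw [hMdef]; exact u3i_env hρ hχ1 hy hL1 j)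
    have e : 2 - 2 * χ - 2 * β = -1 - θ := by rw [hβdef, hθdef]; ring
    rwa [e] at h
  refine (Finset.sum_le_sum hterm).trans ?_
  rw [← Finset.mul_sum]
  have hLβ : 0 ≤ L ^ (2 * β) := Real.rpow_nonneg hL0.le _
  have h1 := mul_le_mul_of_nonneg_left (u3i_shell2 hθ0 hθ1 hρ hL1 K) (by positivity : 0 ≤ 64 * Cq * M ^ 2 * L ^ (2 * β))
  refine h1.trans ?_
  have e1 : L ^ (3 - 2 * χ + P.ε / 2) = L ^ (P.ε / 2) * (L ^ (2 * β) * L ^ (-θ)) := by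
    rw [← Real.rpow_add hL0, ← Real.rpow_add hL0]; congr 1; rw [hβdef, hθdef]; ring
  rw [e1]
  have hLθ : 0 ≤ L ^ (-θ) := Real.rpow_nonneg hL0.le _
  calc 64 * Cq * M ^ 2 * L ^ (2 * β) * ((1 + 2 * ρ / θ) * L ^ (-θ)) = 64 * Cq * M ^ 2 * (1 + 2 * ρ / θ) * (L ^ (2 * β) * L ^ (-θ)) := by ring
    _ ≤ _ := mul_le_mul_of_nonneg_right hb2 (by positivity)

end Claimed.Agent.R287
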