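import Claimed.Agent.R287.WL
import Claimed.Agent.R287.Defs.U3

/-!
# Row 287 (S0534), unit U3, sub-unit D4 = NON-DEGENERACY (Lemma 7 of `origin/helper295:notes/R287/U3_295.md`)      helper275      prefix `u3n_`      0 sorry

`Z = diag x + √D W`, `G = (Z - z)⁻¹`, `z = e + i y`, `j ≠ k` with `|x_j - e|, |x_k - e| ≤ A`.   With probability `≥ 1/2`: `|Tr G| ≤ C₁ + 1` and `|G_jk|² ≥ min (y/(2R³)) (D s²/(4R⁴))`, `R = A + y + D (C₁+2) + r`.
PROOF with ONE level of conditioning (no minor of a minor, no 2x2 block):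
* rows `j` and `k` of the FULL matrix: Schur (`wl_schur`) + Markov for the Schur error (`wl_moment`, `p = 1`) give `|G_jj|, |G_kk| ≥ 1/R` (`u3n_err_tail`, `u3n_diag_lower`);  Ward: `Im G_kk ≥ y |G_kk|²`;
* DICHOTOMY (`u3n_det`): if `Im Ĝ_kk < y/(2R²)` (`Ĝ` = minor without `j`) then `G_kk = Ĝ_kk + G_kj²/G_jj` forces `|G_kj|² ≥ |G_jj| y/(2R²)`;
  otherwise `G_kj = -√D G_jj <g, Ĝ e_k>`, `‖Ĝ e_k‖² = Im Ĝ_kk/y` (Ward in the minor) and the Gaussian linear form is not small (`u3n_clin_anti`, `u3n_anti`);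
* `wl_main` (`p = 1`, `k = 0`) for `|Tr G| ≤ C₁ + 1`.
EXITS: `u3n_prob` (probability form), `u3n_exp` (expectation form, explicit constants), `u3n_nd` (= text of `u3t_nd`).
-/

set_option autoImplicit false
set_option linter.unusedSectionVars false

namespace Claimed.Agent.R287

open MeasureTheory ProbabilityTheory Matrix Finset ComplexConjugate
open scoped ENNReal

variable {J : Type} [Fintype J] [DecidableEq J]

/-! ## 1. Gaussian linear forms -/

/-- the law of a linear form of a standard Gaussian vector -/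
theorem u3n_lin_law (a : J → ℝ) :
    (qfG J).map (fun g => ∑ l, a l * g l) = gaussianReal 0 (Real.toNNReal (∑ l, a l ^ 2)) := by
  have h0 : 0 ≤ ∑ l, a l ^ 2 := Finset.sum_nonneg fun l _ => sq_nonneg _
  have hm : Measurable fun g : J → ℝ => ∑ l, a l * g l :=
    Finset.measurable_fun_sum _ fun l _ => (measurable_pi_apply l).const_mul _
  have : IsProbabilityMeasure (qfG J) := by unfold qfG; infer_instance
  have : IsProbabilityMeasure ((qfG J).map (fun g => ∑ l, a l * g l)) := Measure.isProbabilityMeasure_map hm.aemeasurable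
  apply Measure.ext_of_charFun
  funext t
  rw [charFun_apply_real, integral_map hm.aemeasurable (by fun_prop), charFun_gaussianReal]
  have e1 : ∀ g : J → ℝ, Complex.exp ((t : ℂ) * ((∑ l, a l * g l : ℝ) : ℂ) * Complex.I)
      = ∏ l, Complex.exp (((t * a l : ℝ) : ℂ) * (g l : ℂ) * Complex.I) := by
    intro g
    rw [← Complex.exp_sum]
    congr 1
    push_cast
    rw [Finset.mul_sum, Finset.sum_mul]
    exact Finset.sum_congr rfl fun l _ => by ring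
  simp_rw [e1]
  unfold qfG
  rw [integral_fintype_prod_eq_prod (f := fun l (x : ℝ) => Complex.exp (((t * a l : ℝ) : ℂ) * (x : ℂ) * Complex.I))]
  simp_rw [← charFun_apply_real, charFun_gaussianReal]
  rw [← Complex.exp_sum]
  congr 1
  push_cast
  simp only [mul_zero, zero_mul, zero_sub, one_mul]
  rw [Real.coe_toNNReal _ h0]
  push_cast
  rw [Finset.sum_mul, Finset.sum_div, ← Finset.sum_neg_distrib]
  exact Finset.sum_congr rfl fun l _ => by ring

/-- small ball for a centred real Gaussian -/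
theorem u3n_g_small {v : NNReal} (hv : v ≠ 0) {δ : ℝ} (hδ : 0 ≤ δ) :
    gaussianReal 0 v {x | |x| < δ} ≤ ENNReal.ofReal (δ / Real.sqrt v) := by
  have hv0 : (0 : ℝ) < v := by
    have := NNReal.coe_nonneg v
    exact lt_of_le_of_ne this (fun h => hv (by exact_mod_cast h.symm))
  rw [gaussianReal_apply 0 hv]
  have hb : ∀ x, gaussianPDF 0 v x ≤ ENNReal.ofReal ((Real.sqrt (2 * Real.pi * v))⁻¹) := by
    intro x
    unfold gaussianPDF
    apply ENNReal.ofReal_le_ofReal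
    rw [gaussianPDFReal_def]
    have h1 : Real.exp (-(x - 0) ^ 2 / (2 * v)) ≤ 1 := by
      apply Real.exp_le_one_iff.2
      have : 0 ≤ (x - 0) ^ 2 / (2 * v) := by positivity
      rw [neg_div]
      linarith
    calc _ ≤ (Real.sqrt (2 * Real.pi * v))⁻¹ * 1 := mul_le_mul_of_nonneg_left h1 (by positivity)
      _ = _ := mul_one _
  have hs : {x : ℝ | |x| < δ} = Set.Ioo (-δ) δ := by
    ext x
    simp [abs_lt]
  calc ∫⁻ x in {x | |x| < δ}, gaussianPDF 0 v x ≤ ∫⁻ _x in {x : ℝ | |x| < δ}, ENNReal.ofReal ((Real.sqrt (2 * Real.pi * v))⁻¹) :=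
        lintegral_mono fun x => hb x
    _ = ENNReal.ofReal ((Real.sqrt (2 * Real.pi * v))⁻¹) * ENNReal.ofReal (2 * δ) := by
        rw [setLIntegral_const, hs, Real.volume_Ioo]
        congr 2
        ring
    _ = ENNReal.ofReal ((Real.sqrt (2 * Real.pi * v))⁻¹ * (2 * δ)) := (ENNReal.ofReal_mul (by positivity)).symm
    _ ≤ _ := by
        apply ENNReal.ofReal_le_ofReal
        rw [Real.sqrt_mul (by positivity), mul_inv, div_eq_mul_inv]
        have h2 : (2 : ℝ) ≤ Real.sqrt (2 * Real.pi) := by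
          apply Real.le_sqrt_of_sq_le
          nlinarith [Real.pi_gt_three]
        have h3 : (Real.sqrt (2 * Real.pi))⁻¹ ≤ 2⁻¹ := inv_anti₀ (by norm_num) h2
        have h4 : 0 ≤ (Real.sqrt v)⁻¹ * (2 * δ) := by positivity
        calc (Real.sqrt (2 * Real.pi))⁻¹ * (Real.sqrt v)⁻¹ * (2 * δ) = (Real.sqrt (2 * Real.pi))⁻¹ * ((Real.sqrt v)⁻¹ * (2 * δ)) := by ring
          _ ≤ 2⁻¹ * ((Real.sqrt v)⁻¹ * (2 * δ)) := mul_le_mul_of_nonneg_right h3 h4
          _ = _ := by ring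

/-- anti-concentration of a real linear form -/
theorem u3n_lin_anti (a : J → ℝ) {s : ℝ} (hs : 0 ≤ s) :
    qfG J {g | |∑ l, a l * g l| < s * Real.sqrt (∑ l, a l ^ 2)} ≤ ENNReal.ofReal s := by
  have hm : Measurable fun g : J → ℝ => ∑ l, a l * g l :=
    Finset.measurable_fun_sum _ fun l _ => (measurable_pi_apply l).const_mul _
  have h0 : 0 ≤ ∑ l, a l ^ 2 := Finset.sum_nonneg fun l _ => sq_nonneg _
  by_cases hv : ∑ l, a l ^ 2 = 0
  · have : {g : J → ℝ | |∑ l, a l * g l| < s * Real.sqrt (∑ l, a l ^ 2)} = ∅ := by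
      ext g
      simp only [Set.mem_ofPred_eq, Set.mem_empty_iff_false, iff_false, not_lt]
      rw [hv, Real.sqrt_zero, mul_zero]
      exact abs_nonneg _
    rw [this, measure_empty]
    exact zero_le
  · have hS : MeasurableSet {x : ℝ | |x| < s * Real.sqrt (∑ l, a l ^ 2)} := measurableSet_lt measurable_id.abs measurable_const
    have e : qfG J {g | |∑ l, a l * g l| < s * Real.sqrt (∑ l, a l ^ 2)}
        = ((qfG J).map (fun g => ∑ l, a l * g l)) {x : ℝ | |x| < s * Real.sqrt (∑ l, a l ^ 2)} := by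
      rw [Measure.map_apply hm hS]
      rfl
    rw [e, u3n_lin_law]
    have hv' : Real.toNNReal (∑ l, a l ^ 2) ≠ 0 := fun h => hv (le_antisymm (Real.toNNReal_eq_zero.1 h) h0)
    refine (u3n_g_small hv' (by positivity)).trans (le_of_eq ?_)
    congr 1
    rw [Real.coe_toNNReal _ h0]
    have : 0 < Real.sqrt (∑ l, a l ^ 2) := Real.sqrt_pos.2 (lt_of_le_of_ne h0 (Ne.symm hv))
    field_simp

/-- anti-concentration of a complex linear form -/
theorem u3n_clin_anti (a : J → ℂ) {s : ℝ} (hs : 0 ≤ s) :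
    qfG J {g | ‖∑ l, (g l : ℂ) * a l‖ < s * Real.sqrt (rsvSq a / 2)} ≤ ENNReal.ofReal s := by
  have hsplit : rsvSq a = ∑ l, (a l).re ^ 2 + ∑ l, (a l).im ^ 2 := by
    unfold rsvSq
    rw [← Finset.sum_add_distrib]
    refine Finset.sum_congr rfl fun l _ => ?_
    rw [← Complex.normSq_eq_norm_sq, Complex.normSq_apply]
    ring
  have hre : ∀ g : J → ℝ, (∑ l, (g l : ℂ) * a l).re = ∑ l, (a l).re * g l := by
    intro g
    rw [Complex.re_sum]
    exact Finset.sum_congr rfl fun l _ => by simp [mul_comm]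
  have him : ∀ g : J → ℝ, (∑ l, (g l : ℂ) * a l).im = ∑ l, (a l).im * g l := by
    intro g
    rw [Complex.im_sum]
    exact Finset.sum_congr rfl fun l _ => by simp [mul_comm]
  rcases le_total (∑ l, (a l).im ^ 2) (∑ l, (a l).re ^ 2) with h | h
  · refine le_trans (measure_mono fun g hg => ?_) (u3n_lin_anti (fun l => (a l).re) hs)
    simp only [Set.mem_ofPred_eq] at hg ⊢
    rw [← hre]
    refine lt_of_le_of_lt (Complex.abs_re_le_norm _) (lt_of_lt_of_le hg ?_)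
    exact mul_le_mul_of_nonneg_left (Real.sqrt_le_sqrt (by rw [hsplit]; linarith)) hs
  · refine le_trans (measure_mono fun g hg => ?_) (u3n_lin_anti (fun l => (a l).im) hs)
    simp only [Set.mem_ofPred_eq] at hg ⊢
    rw [← him]
    refine lt_of_le_of_lt (Complex.abs_im_le_norm _) (lt_of_lt_of_le hg ?_)
    exact mul_le_mul_of_nonneg_left (Real.sqrt_le_sqrt (by rw [hsplit]; linarith)) hs

/-! ## 2. deterministic part -/

theorem u3n_gh_apply (x : J → ℝ) (D : ℝ) (j : J) (N : Matrix J J ℝ) {z : ℂ} (hz : z.im ≠ 0) {k : J} (hk : k ≠ j) (l : J) :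
    wlGh x D j N z k l = rsv (rsvCut (toC (wlM x D N)) {j}) z k l := by
  rw [wlGh, rsvCut_apply]
  by_cases hl : l = j
  · rw [if_pos (Or.inr (by simpa using hl)), hl,
      rsv_cut_out_in (wl_toC_herm x D N) {j} hz (by simpa using hk) (Finset.mem_singleton_self j)]
  · rw [if_neg (by simp [hk, hl])]

/-- row expansion: `G_kj = - √D G_jj ∑_l g_l Ĝ_kl` -/
theorem u3n_row (x : J → ℝ) (D : ℝ) (N : Matrix J J ℝ) {z : ℂ} (hz : z.im ≠ 0) {j k : J} (hk : k ≠ j) :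
    rsv (toC (wlM x D N)) z k j = - rsv (toC (wlM x D N)) z j j * ((Real.sqrt D : ℝ) : ℂ) *
      ∑ l, (wlRow j N l : ℂ) * wlGh x D j N z k l := by
  rw [rsv_schur_col (wl_toC_herm x D N) hz hk, ← Finset.sum_erase_add _ _ (Finset.mem_univ j)]
  have h0 : wlGh x D j N z k j = 0 := by simp [wlGh, rsvCut_apply]
  rw [h0, mul_zero, add_zero, mul_assoc, Finset.mul_sum (a := ((Real.sqrt D : ℝ) : ℂ))]
  congr 1
  refine Finset.sum_congr rfl fun l hl => ?_
  rw [wl_M_off' x D N (Finset.mem_erase.1 hl).1, u3n_gh_apply x D j N hz hk]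
  ring

/-- Ward identity in the minor -/
theorem u3n_ward (x : J → ℝ) (D : ℝ) (j : J) (N : Matrix J J ℝ) {z : ℂ} (hz : z.im ≠ 0) {k : J} (hk : k ≠ j) :
    rsvSq (fun l => wlGh x D j N z k l) = (wlGh x D j N z k k).im / z.im := by
  unfold rsvSq
  simp only [u3n_gh_apply x D j N hz hk]
  exact rsv_ward (rsvCut_isHermitian (wl_toC_herm x D N) {j}) hz k

theorem u3n_symm (x : J → ℝ) (D : ℝ) (N : Matrix J J ℝ) (z : ℂ) (j k : J) :
    rsv (toC (wlM x D N)) z j k = rsv (toC (wlM x D N)) z k j := by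
  have h := congrFun (congrFun (rsv_transpose (wl_toC_symm x D N) z) k) j
  rwa [Matrix.transpose_apply] at h

theorem u3n_minor (x : J → ℝ) (D : ℝ) (N : Matrix J J ℝ) {z : ℂ} (hz : z.im ≠ 0) {j k : J} (hk : k ≠ j) :
    rsv (toC (wlM x D N)) z k k = wlGh x D j N z k k +
      rsv (toC (wlM x D N)) z k j * rsv (toC (wlM x D N)) z k j / rsv (toC (wlM x D N)) z j j := by
  rw [u3n_gh_apply x D j N hz hk, u3n_symm x D N z k j]
  have := rsv_schur_minor (wl_toC_herm x D N) hz hk hk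
  rw [u3n_symm x D N z k j] at this
  exact this

/-- lower bound of a diagonal entry by the Schur formula -/
theorem u3n_diag_lower (x : J → ℝ) {D : ℝ} (hD : 0 ≤ D) (j : J) (N : Matrix J J ℝ) {z : ℂ} (hz : z.im ≠ 0) {R : ℝ}
    (h : ‖(x j : ℂ) - z‖ + D * ‖(wlGh x D j N z).trace‖ + ‖wlE (wlGh x D j N z) D j (wlRow j N)‖ ≤ R) :
    1 ≤ R * ‖rsv (toC (wlM x D N)) z j j‖ := by
  have h1 := wl_schur x hD j N hz
  have h2 := congrArg norm h1
  rw [norm_mul, norm_one] at h2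
  have h3 : ‖(x j : ℂ) - z - D * (wlGh x D j N z).trace + wlE (wlGh x D j N z) D j (wlRow j N)‖ ≤ R := by
    have q1 := norm_add_le ((x j : ℂ) - z - D * (wlGh x D j N z).trace) (wlE (wlGh x D j N z) D j (wlRow j N))
    have q2 := norm_sub_le ((x j : ℂ) - z) ((D : ℂ) * (wlGh x D j N z).trace)
    rw [norm_mul, Complex.norm_real, Real.norm_eq_abs, abs_of_nonneg hD] at q2
    linarith
  have h4 := mul_le_mul_of_nonneg_left h3 (norm_nonneg (rsv (toC (wlM x D N)) z j j))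
  linarith

/-- **the dichotomy**: either the minor has a small `Im Ĝ_kk`, and then `G_kj` is large by `G_kk = Ĝ_kk + G_kj²/G_jj`, or the row expansion applies -/
theorem u3n_det (x : J → ℝ) {D : ℝ} (hD : 0 ≤ D) (N : Matrix J J ℝ) {z : ℂ} (hz : 0 < z.im) {j k : J} (hk : k ≠ j) {R s : ℝ}
    (hR : 0 < R) (hs : 0 ≤ s) (hj : 1 ≤ R * ‖rsv (toC (wlM x D N)) z j j‖) (hkk : 1 ≤ R * ‖rsv (toC (wlM x D N)) z k k‖)
    (hX : ¬ ‖∑ l, (wlRow j N l : ℂ) * wlGh x D j N z k l‖ < s * Real.sqrt (rsvSq (fun l => wlGh x D j N z k l) / 2)) :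
    min (z.im / (2 * R ^ 3)) (D * s ^ 2 / (4 * R ^ 4)) ≤ ‖rsv (toC (wlM x D N)) z k j‖ ^ 2 := by
  obtain ⟨Gjj, hGjj⟩ : ∃ G, G = rsv (toC (wlM x D N)) z j j := ⟨_, rfl⟩
  obtain ⟨Gkk, hGkk⟩ : ∃ G, G = rsv (toC (wlM x D N)) z k k := ⟨_, rfl⟩
  obtain ⟨Gkj, hGkj⟩ : ∃ G, G = rsv (toC (wlM x D N)) z k j := ⟨_, rfl⟩
  obtain ⟨a, ha⟩ : ∃ a, a = (wlGh x D j N z k k).im := ⟨_, rfl⟩
  have hmin := u3n_minor x D N hz.ne' hk
  have hrow := u3n_row x D N hz.ne' hk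
  have hw := u3n_ward x D j N hz.ne' hk
  rw [← hGjj] at hj
  rw [← hGkk] at hkk
  rw [← hGjj, ← hGkk, ← hGkj] at hmin
  rw [← hGjj, ← hGkj] at hrow
  rw [← hGkj]
  rw [hw, ← ha] at hX
  have hjj0 : 0 < ‖Gjj‖ := by
    by_contra h
    have : ‖Gjj‖ = 0 := le_antisymm (not_lt.1 h) (norm_nonneg _)
    rw [this, mul_zero] at hj
    linarith
  have hjjR : 1 / R ≤ ‖Gjj‖ := by rw [div_le_iff₀ hR]; linarith
  have hkkR : 1 / R ≤ ‖Gkk‖ := by rw [div_le_iff₀ hR]; linarith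
  by_cases hcase : a < z.im / (2 * R ^ 2)
  · refine le_trans (min_le_left _ _) ?_
    have hW : z.im * ‖Gkk‖ ^ 2 ≤ Gkk.im := by
      have h1 := rsv_ward (wl_toC_herm x D N) hz.ne' k
      rw [← hGkk, eq_div_iff hz.ne'] at h1
      rw [← h1, mul_comm]
      apply mul_le_mul_of_nonneg_right _ hz.le
      rw [hGkk]
      exact Finset.single_le_sum (f := fun l => ‖rsv (toC (wlM x D N)) z k l‖ ^ 2) (fun l _ => sq_nonneg _) (Finset.mem_univ k)
    have h2 : z.im / R ^ 2 ≤ Gkk.im := by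
      refine le_trans ?_ hW
      have : (1 / R) ^ 2 ≤ ‖Gkk‖ ^ 2 := pow_le_pow_left₀ (by positivity) hkkR 2
      calc z.im / R ^ 2 = z.im * (1 / R) ^ 2 := by field_simp
        _ ≤ _ := mul_le_mul_of_nonneg_left this hz.le
    have h3 : Gkk.im = a + (Gkj * Gkj / Gjj).im := by rw [hmin, Complex.add_im, ha]
    have h4 : (Gkj * Gkj / Gjj).im ≤ ‖Gkj‖ ^ 2 / ‖Gjj‖ := by
      refine le_trans (Complex.im_le_norm _) (le_of_eq ?_)
      rw [norm_div, norm_mul, sq]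
    have h5 : z.im / (2 * R ^ 2) ≤ ‖Gkj‖ ^ 2 / ‖Gjj‖ := by
      have e : z.im / R ^ 2 = z.im / (2 * R ^ 2) + z.im / (2 * R ^ 2) := by field_simp; ring
      linarith
    rw [le_div_iff₀ hjj0] at h5
    refine le_trans ?_ h5
    calc z.im / (2 * R ^ 3) = z.im / (2 * R ^ 2) * (1 / R) := by field_simp
      _ ≤ _ := mul_le_mul_of_nonneg_left hjjR (by positivity)
  · refine le_trans (min_le_right _ _) ?_
    rw [not_lt] at hcase hX
    have h1 : s / (2 * R) ≤ ‖∑ l, (wlRow j N l : ℂ) * wlGh x D j N z k l‖ := by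
      refine le_trans ?_ hX
      have h2 : 1 / (2 * R) ≤ Real.sqrt (a / z.im / 2) := by
        apply Real.le_sqrt_of_sq_le
        rw [div_div, le_div_iff₀ (by positivity)]
        calc (1 / (2 * R)) ^ 2 * (z.im * 2) = z.im / (2 * R ^ 2) := by field_simp
          _ ≤ a := hcase
      calc s / (2 * R) = s * (1 / (2 * R)) := by ring
        _ ≤ _ := mul_le_mul_of_nonneg_left h2 hs
    have h3 : ‖Gkj‖ = ‖Gjj‖ * Real.sqrt D * ‖∑ l, (wlRow j N l : ℂ) * wlGh x D j N z k l‖ := by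
      rw [hrow, norm_mul, norm_mul, norm_neg, Complex.norm_real, Real.norm_eq_abs, abs_of_nonneg (Real.sqrt_nonneg _)]
    have h4 : 1 / R * Real.sqrt D * (s / (2 * R)) ≤ ‖Gkj‖ := by
      rw [h3]
      exact mul_le_mul (mul_le_mul_of_nonneg_right hjjR (Real.sqrt_nonneg _)) h1 (by positivity) (by positivity)
    have h5 := pow_le_pow_left₀ (by positivity) h4 2
    refine le_trans (le_of_eq ?_) h5
    rw [mul_pow, mul_pow, Real.sq_sqrt hD]
    field_simp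
    ring


/-! ## 3. probabilistic part -/

/-- the row law for events: if every section in the row variable has probability `≤ c`, so has the event -/
theorem u3n_row_meas (j : J) {S : Set ((J → ℝ) × Matrix J J ℝ)} (hS : MeasurableSet S) {c : ℝ≥0∞}
    (h : ∀ M, qfG J {g | (g, M) ∈ S} ≤ c) : gArr J J {N | (wlRow j N, wlCut j N) ∈ S} ≤ c := by
  have hm : Measurable fun N : Matrix J J ℝ => (wlRow j N, wlCut j N) := (wl_meas_row j).prodMk (wl_meas_cut j)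
  have hF : Measurable (Function.uncurry fun (g : J → ℝ) (M : Matrix J J ℝ) => S.indicator (fun _ => (1 : ℝ≥0∞)) (g, M)) :=
    measurable_const.indicator hS
  have e1 : gArr J J {N | (wlRow j N, wlCut j N) ∈ S} = ∫⁻ N, S.indicator (fun _ => (1 : ℝ≥0∞)) (wlRow j N, wlCut j N) ∂gArr J J := by
    have : ∀ N : Matrix J J ℝ, S.indicator (fun _ => (1 : ℝ≥0∞)) (wlRow j N, wlCut j N)
        = {N | (wlRow j N, wlCut j N) ∈ S}.indicator (fun _ => (1 : ℝ≥0∞)) N := fun N => rfl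
    simp_rw [this]
    have hS' : MeasurableSet {N | (wlRow j N, wlCut j N) ∈ S} := hm hS
    rw [lintegral_indicator hS', setLIntegral_const, one_mul]
  rw [e1, wl_row_law j (fun g M => S.indicator (fun _ => (1 : ℝ≥0∞)) (g, M)) hF]
  have e2 : ∀ M : Matrix J J ℝ, ∫⁻ g, S.indicator (fun _ => (1 : ℝ≥0∞)) (g, M) ∂qfG J = qfG J {g | (g, M) ∈ S} := by
    intro M
    have : ∀ g : J → ℝ, S.indicator (fun _ => (1 : ℝ≥0∞)) (g, M) = {g | (g, M) ∈ S}.indicator (fun _ => (1 : ℝ≥0∞)) g := fun g => rfl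
    simp_rw [this]
    have hS' : MeasurableSet {g : J → ℝ | (g, M) ∈ S} := measurable_prodMk_right hS
    rw [lintegral_indicator hS', setLIntegral_const, one_mul]
  simp_rw [e2]
  calc ∫⁻ N, qfG J {g | (g, wlCut j N) ∈ S} ∂gArr J J ≤ ∫⁻ _N, c ∂gArr J J := lintegral_mono fun N => h _
    _ = c := by rw [lintegral_const, measure_univ, mul_one]

/-- Markov for the Schur error, the minor being frozen and good -/
theorem u3n_err_g {G : Matrix J J ℂ} (hG : Gᵀ = G) {D u C₀ r : ℝ} (hD : 0 < D) (hC : 1 ≤ C₀)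
    (hu2 : Real.sqrt D ≤ u) (hu3 : 4 * D * C₀ ≤ u) (hr : 0 < r)
    (hα : ∀ v : J → ℝ, ‖qfC G v‖ ≤ 1 / u * (v ⬝ᵥ v)) (hH : ∑ k, ∑ l, ‖G k l‖ ^ 2 ≤ (2 * C₀ + 1) / u) (j : J) :
    qfG J {g | r ≤ ‖wlE G D j g‖} ≤ ENNReal.ofReal (1152 * Real.sqrt D / r) := by
  have hu0 : 0 < u := lt_of_lt_of_le (Real.sqrt_pos.2 hD) hu2
  have h1 := wl_moment hG 1 le_rfl hD hC hu2 hu3 hα hH j
  have hcont : Continuous fun g : J → ℝ => wlE G D j g := by
    unfold wlE qfC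
    fun_prop
  have hmeas : Measurable fun g : J → ℝ => ENNReal.ofReal (wlY u (‖wlE G D j g‖ + D / u) ^ 1) := by
    apply ENNReal.measurable_ofReal.comp
    unfold wlY
    have := hcont.norm
    exact (by fun_prop : Continuous fun g : J → ℝ => ((‖wlE G D j g‖ + D / u) + (‖wlE G D j g‖ + D / u) ^ 2 / u) ^ 1).measurable
  have h2 := mul_meas_ge_le_lintegral (μ := qfG J) hmeas (ENNReal.ofReal r)
  have hsub : {g : J → ℝ | r ≤ ‖wlE G D j g‖} ⊆ {g | ENNReal.ofReal r ≤ ENNReal.ofReal (wlY u (‖wlE G D j g‖ + D / u) ^ 1)} := by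
    intro g hg
    simp only [Set.mem_ofPred_eq] at hg ⊢
    apply ENNReal.ofReal_le_ofReal
    rw [pow_one]
    unfold wlY
    have : 0 ≤ (‖wlE G D j g‖ + D / u) ^ 2 / u := by positivity
    have : 0 ≤ D / u := by positivity
    linarith
  have h3 : ENNReal.ofReal r * qfG J {g | r ≤ ‖wlE G D j g‖} ≤ ENNReal.ofReal (4 * (288 * ((1 : ℕ) : ℝ) ^ 2 * Real.sqrt D) ^ 1) :=
    le_trans (mul_le_mul_right (measure_mono hsub) _) (h2.trans h1)
  have hr' : ENNReal.ofReal r ≠ 0 := by simpa using hr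
  rw [mul_comm, ← ENNReal.le_div_iff_mul_le (Or.inl hr') (Or.inl ENNReal.ofReal_ne_top)] at h3
  refine h3.trans (le_of_eq ?_)
  rw [← ENNReal.ofReal_div_of_pos hr]
  congr 1
  norm_num
  ring

/-- measurability of the trace of the cut resolvent -/
theorem u3n_meas_tr (x : J → ℝ) (D : ℝ) (j : J) (z : ℂ) : Measurable fun M : Matrix J J ℝ => (wlGh x D j M z).trace := by
  unfold Matrix.trace
  exact Finset.measurable_fun_sum _ fun k _ => wl_meas_gh x D j z k k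

theorem u3n_meas_E (x : J → ℝ) (D : ℝ) (j : J) (z : ℂ) :
    Measurable fun q : (J → ℝ) × Matrix J J ℝ => wlE (wlGh x D j q.2 z) D j q.1 := by
  have hg : ∀ k, Measurable fun q : (J → ℝ) × Matrix J J ℝ => ((q.1 k : ℝ) : ℂ) := fun k =>
    Complex.measurable_ofReal.comp ((measurable_pi_apply k).comp measurable_fst)
  have hG : ∀ k l, Measurable fun q : (J → ℝ) × Matrix J J ℝ => wlGh x D j q.2 z k l := fun k l =>
    (wl_meas_gh x D j z k l).comp measurable_snd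
  unfold wlE qfC Matrix.trace
  refine Measurable.sub ?_ (Measurable.const_mul (Measurable.sub ?_ ?_) _)
  · exact Complex.measurable_ofReal.comp (((measurable_pi_apply j).comp measurable_fst).const_mul _)
  · exact Finset.measurable_fun_sum _ fun k _ => Finset.measurable_fun_sum _ fun l _ => ((hg k).mul (hG k l)).mul (hg l)
  · exact Finset.measurable_fun_sum _ fun k _ => hG k k

/-- Markov for the Schur error on the event where the minor is good -/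
theorem u3n_err_tail (x : J → ℝ) {D u C₀ r : ℝ} (e : ℝ) (hD : 0 < D) (hC : 1 ≤ C₀)
    (hu2 : Real.sqrt D ≤ u) (hu3 : 4 * D * C₀ ≤ u) (hr : 0 < r) (j : J) :
    gArr J J {N | ‖(wlGh x D j N ⟨e, u⟩).trace‖ ≤ 2 * C₀ + 1 ∧ r ≤ ‖wlE (wlGh x D j N ⟨e, u⟩) D j (wlRow j N)‖} ≤
      ENNReal.ofReal (1152 * Real.sqrt D / r) := by
  have hu0 : 0 < u := lt_of_lt_of_le (Real.sqrt_pos.2 hD) hu2
  have hz : 0 < (⟨e, u⟩ : ℂ).im := hu0
  obtain ⟨S, hSdef⟩ : ∃ S : Set ((J → ℝ) × Matrix J J ℝ), S = {q | ‖(wlGh x D j q.2 ⟨e, u⟩).trace‖ ≤ 2 * C₀ + 1 ∧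
      r ≤ ‖wlE (wlGh x D j q.2 ⟨e, u⟩) D j q.1‖} := ⟨_, rfl⟩
  have hS : MeasurableSet S := by
    rw [hSdef]
    exact (measurableSet_le ((u3n_meas_tr x D j ⟨e, u⟩).comp measurable_snd).norm measurable_const).inter
      (measurableSet_le measurable_const (u3n_meas_E x D j ⟨e, u⟩).norm)
  have e1 : {N | ‖(wlGh x D j N ⟨e, u⟩).trace‖ ≤ 2 * C₀ + 1 ∧ r ≤ ‖wlE (wlGh x D j N ⟨e, u⟩) D j (wlRow j N)‖}
      = {N | (wlRow j N, wlCut j N) ∈ S} := by
    ext N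
    rw [hSdef]
    simp only [Set.mem_ofPred_eq, wl_gh_cut]
  rw [e1]
  refine u3n_row_meas j hS fun M => ?_
  by_cases hM : ‖(wlGh x D j M ⟨e, u⟩).trace‖ ≤ 2 * C₀ + 1
  · refine le_trans (measure_mono fun g hg => ?_) (u3n_err_g (wl_gh_symm x D j M ⟨e, u⟩) hD hC hu2 hu3 hr
      (fun v => wl_gh_qf_le x D j M hz v) ((wl_gh_hs x D j M hz).trans (div_le_div_of_nonneg_right hM hu0.le)) j)
    rw [hSdef] at hg
    exact hg.2
  · have : {g : J → ℝ | (g, M) ∈ S} = ∅ := by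
      ext g
      rw [hSdef]
      simp only [Set.mem_ofPred_eq, Set.mem_empty_iff_false, iff_false]
      exact fun h => hM h.1
    rw [this, measure_empty]
    exact zero_le

/-- anti-concentration of the row expansion -/
theorem u3n_anti (x : J → ℝ) (D : ℝ) (j k : J) (z : ℂ) {s : ℝ} (hs : 0 ≤ s) :
    gArr J J {N | ‖∑ l, (wlRow j N l : ℂ) * wlGh x D j N z k l‖ < s * Real.sqrt (rsvSq (fun l => wlGh x D j N z k l) / 2)} ≤
      ENNReal.ofReal s := by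
  obtain ⟨S, hSdef⟩ : ∃ S : Set ((J → ℝ) × Matrix J J ℝ), S = {q | ‖∑ l, (q.1 l : ℂ) * wlGh x D j q.2 z k l‖ <
      s * Real.sqrt (rsvSq (fun l => wlGh x D j q.2 z k l) / 2)} := ⟨_, rfl⟩
  have hg : ∀ l, Measurable fun q : (J → ℝ) × Matrix J J ℝ => ((q.1 l : ℝ) : ℂ) := fun l =>
    Complex.measurable_ofReal.comp ((measurable_pi_apply l).comp measurable_fst)
  have hG : ∀ l, Measurable fun q : (J → ℝ) × Matrix J J ℝ => wlGh x D j q.2 z k l := fun l =>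
    (wl_meas_gh x D j z k l).comp measurable_snd
  have hS : MeasurableSet S := by
    rw [hSdef]
    refine measurableSet_lt (Finset.measurable_fun_sum _ fun l _ => (hg l).mul (hG l)).norm ?_
    unfold rsvSq
    exact ((Finset.measurable_fun_sum _ fun l _ => (hG l).norm.pow_const 2).div_const 2).sqrt.const_mul s
  have e1 : {N | ‖∑ l, (wlRow j N l : ℂ) * wlGh x D j N z k l‖ < s * Real.sqrt (rsvSq (fun l => wlGh x D j N z k l) / 2)}
      = {N | (wlRow j N, wlCut j N) ∈ S} := by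
    ext N
    rw [hSdef]
    simp only [Set.mem_ofPred_eq, wl_gh_cut]
  rw [e1]
  refine u3n_row_meas j hS fun M => ?_
  rw [hSdef]
  exact u3n_clin_anti (fun l => wlGh x D j M z k l) hs


theorem u3n_norm_sub (a e y : ℝ) (hy : 0 ≤ y) : ‖((a : ℝ) : ℂ) - (⟨e, y⟩ : ℂ)‖ ≤ |a - e| + y := by
  have e1 : ((a : ℝ) : ℂ) - (⟨e, y⟩ : ℂ) = ((a - e : ℝ) : ℂ) + ((-y : ℝ) : ℂ) * Complex.I := by
    apply Complex.ext <;> simp
  rw [e1]
  refine (norm_add_le _ _).trans ?_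
  rw [norm_mul, Complex.norm_I, mul_one, Complex.norm_real, Complex.norm_real, Real.norm_eq_abs, Real.norm_eq_abs, abs_neg,
    abs_of_nonneg hy]

/-- **ND, probability form** (Lemma 7 of `U3_295.md`, with ONE level of conditioning: rows `j` and `k` of the FULL matrix + the dichotomy `u3n_det`) -/
theorem u3n_prob {x : J → ℝ} {D e y C₁ A r s : ℝ} (hD : 0 < D) (hC : 0 ≤ C₁) (hy1 : 1 ≤ y) (hy2 : Real.sqrt D ≤ y)
    (hy3 : 4 * D * (C₁ + 1) ≤ y) (hx : WlReg x e y C₁ (2 * D * (C₁ + 1))) {j k : J} (hjk : k ≠ j)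
    (hj : |x j - e| ≤ A) (hk : |x k - e| ≤ A) (hr : 0 < r) (hs : 0 ≤ s) :
    gArr J J {N | ¬ (‖wlT x D N ⟨e, y⟩‖ ≤ C₁ + 1 ∧
        min (y / (2 * (A + y + D * (C₁ + 2) + r) ^ 3)) (D * s ^ 2 / (4 * (A + y + D * (C₁ + 2) + r) ^ 4))
          ≤ ‖rsv (toC (wlM x D N)) ⟨e, y⟩ k j‖ ^ 2)} ≤
      ENNReal.ofReal (16 * (1152 * C₁ * Real.sqrt D) * y ^ (-(1 / 2 : ℝ))) + ENNReal.ofReal (1152 * Real.sqrt D / r)
        + ENNReal.ofReal (1152 * Real.sqrt D / r) + ENNReal.ofReal s := by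
  have hy0 : 0 < y := by linarith
  have hz : 0 < (⟨e, y⟩ : ℂ).im := hy0
  have hA : 0 ≤ A := le_trans (abs_nonneg _) hj
  have hR : 0 < A + y + D * (C₁ + 2) + r := by positivity
  have h0 := wl_main 1 le_rfl hD hC hy1 hy2 hy3 hx
  have h1 := u3n_err_tail x e hD (by linarith : (1 : ℝ) ≤ C₁ + 1) hy2 hy3 hr j
  have h2 := u3n_err_tail x e hD (by linarith : (1 : ℝ) ≤ C₁ + 1) hy2 hy3 hr k
  have h3 := u3n_anti x D j k ⟨e, y⟩ hs
  have e0 : 16 * (1152 * ((1 : ℕ) : ℝ) ^ 2 * C₁ * Real.sqrt D) ^ 1 * y ^ (-((1 : ℕ) : ℝ) / 2)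
      = 16 * (1152 * C₁ * Real.sqrt D) * y ^ (-(1 / 2 : ℝ)) := by
    norm_num
  rw [e0] at h0
  refine le_trans (measure_mono ?_) (le_trans (measure_union_le _ _) (add_le_add (le_trans (measure_union_le _ _)
    (add_le_add (le_trans (measure_union_le _ _) (add_le_add h0 h1)) h2)) h3))
  intro N hN
  by_contra hcon
  simp only [Set.mem_union, not_or] at hcon
  obtain ⟨⟨⟨c0, c1⟩, c2⟩, c3⟩ := hcon
  simp only [Set.mem_ofPred_eq, not_exists, not_not] at c0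
  simp only [Set.mem_ofPred_eq, not_and, not_le] at c1 c2
  simp only [Set.mem_ofPred_eq] at c3
  apply hN
  have hT : ‖wlT x D N ⟨e, y⟩‖ ≤ C₁ + 1 := by
    have := (c0 0).1
    rw [pow_zero, one_mul, ← wl_T_eq] at this
    exact this
  refine ⟨hT, ?_⟩
  have htr : ∀ i : J, ‖(wlGh x D i N ⟨e, y⟩).trace‖ ≤ C₁ + 2 := by
    intro i
    have q1 := wl_trace_gh_le x D i N hz
    have q2 : (1 : ℝ) / (⟨e, y⟩ : ℂ).im ≤ 1 := by
      rw [div_le_one hz]
      exact hy1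
    have q3 := norm_sub_norm_le ((wlGh x D i N ⟨e, y⟩).trace) (wlT x D N ⟨e, y⟩)
    rw [norm_sub_rev] at q3
    linarith
  have hdiag : ∀ i : J, |x i - e| ≤ A → ‖wlE (wlGh x D i N ⟨e, y⟩) D i (wlRow i N)‖ < r →
      1 ≤ (A + y + D * (C₁ + 2) + r) * ‖rsv (toC (wlM x D N)) ⟨e, y⟩ i i‖ := by
    intro i hi hE
    apply u3n_diag_lower x hD.le i N hz.ne'
    have q1 := u3n_norm_sub (x i) e y hy0.le
    have q2 := mul_le_mul_of_nonneg_left (htr i) hD.le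
    linarith
  exact u3n_det x hD.le N hz hjk hR hs (hdiag j hj (c1 (by linarith [htr j]))) (hdiag k hk (c2 (by linarith [htr k]))) c3


/-- **ND, expectation form**, all constants explicit -/
theorem u3n_exp {x : J → ℝ} {D e y C₁ A r s δ b : ℝ} (hD : 0 < D) (hC : 0 ≤ C₁) (hy1 : 1 ≤ y) (hy2 : Real.sqrt D ≤ y)
    (hy3 : 4 * D * (C₁ + 1) ≤ y) (hx : WlReg x e y C₁ (2 * D * (C₁ + 1))) {j k : J} (hjk : j ≠ k)
    (hj : |x j - e| ≤ A) (hk : |x k - e| ≤ A) (hr : 0 < r) (hs : 0 ≤ s) (hb0 : 0 < b)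
    (hb : b ^ 2 ≤ min (y / (2 * (A + y + D * (C₁ + 2) + r) ^ 3)) (D * s ^ 2 / (4 * (A + y + D * (C₁ + 2) + r) ^ 4)))
    (hδ : δ ≤ b / 2)
    (hp : 16 * (1152 * C₁ * Real.sqrt D) * y ^ (-(1 / 2 : ℝ)) + 1152 * Real.sqrt D / r + 1152 * Real.sqrt D / r + s ≤ 1 / 2) :
    ENNReal.ofReal (y / (C₁ + 1) * (b / 2) ^ 2 / 2) ≤
      ∫⁻ N, ENNReal.ofReal (y / (rTr (wlM x D N) ⟨e, y⟩).im * (max 0 (‖rsv (toC (wlM x D N)) ⟨e, y⟩ j k‖ - δ)) ^ 2) ∂gArr J J := by
  have hy0 : 0 < y := by linarith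
  have hz : 0 < (⟨e, y⟩ : ℂ).im := hy0
  obtain ⟨c, hc⟩ : ∃ c : ℝ, c = y / (C₁ + 1) * (b / 2) ^ 2 := ⟨_, rfl⟩
  have hc0 : 0 ≤ c := by rw [hc]; positivity
  obtain ⟨Bad, hBad⟩ : ∃ B : Set (Matrix J J ℝ), B = {N | ¬ (‖wlT x D N ⟨e, y⟩‖ ≤ C₁ + 1 ∧
        min (y / (2 * (A + y + D * (C₁ + 2) + r) ^ 3)) (D * s ^ 2 / (4 * (A + y + D * (C₁ + 2) + r) ^ 4))
          ≤ ‖rsv (toC (wlM x D N)) ⟨e, y⟩ k j‖ ^ 2)} := ⟨_, rfl⟩
  have hP : gArr J J Bad ≤ ENNReal.ofReal (1 / 2) := by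
    rw [hBad]
    refine (u3n_prob hD hC hy1 hy2 hy3 hx (Ne.symm hjk) hj hk hr hs).trans ?_
    rw [← ENNReal.ofReal_add (by positivity) (by positivity), ← ENNReal.ofReal_add (by positivity) (by positivity),
      ← ENNReal.ofReal_add (by positivity) hs]
    exact ENNReal.ofReal_le_ofReal hp
  have hmeas : Measurable fun N : Matrix J J ℝ =>
      ENNReal.ofReal (y / (rTr (wlM x D N) ⟨e, y⟩).im * (max 0 (‖rsv (toC (wlM x D N)) ⟨e, y⟩ j k‖ - δ)) ^ 2) := by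
    apply ENNReal.measurable_ofReal.comp
    have m1 : Measurable fun N : Matrix J J ℝ => (rTr (wlM x D N) ⟨e, y⟩).im := by
      simp only [← wl_T_eq]
      exact Complex.measurable_im.comp (wl_meas_T x D ⟨e, y⟩)
    have m2 : Measurable fun N : Matrix J J ℝ => ‖rsv (toC (wlM x D N)) ⟨e, y⟩ j k‖ :=
      (wl_meas_rsv (wl_meas_M x D) ⟨e, y⟩ j k).norm
    exact (measurable_const.div m1).mul ((measurable_const.max (m2.sub_const δ)).pow_const 2)
  have hsub : Badᶜ ⊆ {N | ENNReal.ofReal c ≤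
      ENNReal.ofReal (y / (rTr (wlM x D N) ⟨e, y⟩).im * (max 0 (‖rsv (toC (wlM x D N)) ⟨e, y⟩ j k‖ - δ)) ^ 2)} := by
    intro N hN
    rw [hBad] at hN
    simp only [Set.mem_compl_iff, Set.mem_ofPred_eq, not_not] at hN
    obtain ⟨hT, hG⟩ := hN
    simp only [Set.mem_ofPred_eq]
    apply ENNReal.ofReal_le_ofReal
    rw [u3n_symm x D N ⟨e, y⟩ j k, ← wl_T_eq]
    have hGb : b ≤ ‖rsv (toC (wlM x D N)) ⟨e, y⟩ k j‖ := (abs_le_of_sq_le_sq' (hb.trans hG) (norm_nonneg _)).2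
    have hIm0 : 0 < (wlT x D N ⟨e, y⟩).im := by
      have h1 := rsv_ward (wl_toC_herm x D N) hz.ne' k
      rw [eq_div_iff hz.ne'] at h1
      have h2 : ‖rsv (toC (wlM x D N)) ⟨e, y⟩ k j‖ ^ 2 ≤ ∑ l, ‖rsv (toC (wlM x D N)) ⟨e, y⟩ k l‖ ^ 2 :=
        Finset.single_le_sum (f := fun l => ‖rsv (toC (wlM x D N)) ⟨e, y⟩ k l‖ ^ 2) (fun l _ => sq_nonneg _) (Finset.mem_univ j)
      have h3 : 0 < (rsv (toC (wlM x D N)) ⟨e, y⟩ k k).im := by
        rw [← h1]
        have : 0 < ‖rsv (toC (wlM x D N)) ⟨e, y⟩ k j‖ ^ 2 := pow_pos (lt_of_lt_of_le hb0 hGb) 2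
        exact mul_pos (lt_of_lt_of_le this h2) hz
      unfold wlT
      rw [Matrix.trace, Complex.im_sum]
      exact lt_of_lt_of_le h3 (Finset.single_le_sum (f := fun l => (rsv (toC (wlM x D N)) ⟨e, y⟩ l l).im)
        (fun l _ => rsv_im_nonneg (wl_toC_herm x D N) hz l) (Finset.mem_univ k))
    have hIm1 : (wlT x D N ⟨e, y⟩).im ≤ C₁ + 1 := (Complex.im_le_norm _).trans hT
    have h4 : y / (C₁ + 1) ≤ y / (wlT x D N ⟨e, y⟩).im := div_le_div_of_nonneg_left hy0.le hIm0 hIm1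
    have h5 : b / 2 ≤ max 0 (‖rsv (toC (wlM x D N)) ⟨e, y⟩ k j‖ - δ) := le_trans (by linarith) (le_max_right _ _)
    rw [hc]
    exact mul_le_mul h4 (pow_le_pow_left₀ (by positivity) h5 2) (by positivity) (by positivity)
  have h1 : (1 : ℝ≥0∞) ≤ gArr J J Bad + gArr J J Badᶜ := by
    have := measure_union_le (μ := gArr J J) Bad Badᶜ
    rwa [Set.union_compl_self, measure_univ] at this
  have h2 : ENNReal.ofReal (1 / 2) ≤ gArr J J Badᶜ := by
    by_contra hcon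
    rw [not_le] at hcon
    have h3 : gArr J J Bad + gArr J J Badᶜ < ENNReal.ofReal (1 / 2) + ENNReal.ofReal (1 / 2) :=
      ENNReal.add_lt_add_of_le_of_lt (measure_ne_top _ _) hP hcon
    rw [← ENNReal.ofReal_add (by norm_num) (by norm_num)] at h3
    norm_num at h3
    exact absurd h1 (not_le.2 h3)
  calc ENNReal.ofReal (y / (C₁ + 1) * (b / 2) ^ 2 / 2) = ENNReal.ofReal c * ENNReal.ofReal (1 / 2) := by
        rw [← ENNReal.ofReal_mul hc0, hc]
        congr 1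
        ring
    _ ≤ ENNReal.ofReal c * gArr J J {N | ENNReal.ofReal c ≤
        ENNReal.ofReal (y / (rTr (wlM x D N) ⟨e, y⟩).im * (max 0 (‖rsv (toC (wlM x D N)) ⟨e, y⟩ j k‖ - δ)) ^ 2)} :=
        mul_le_mul_right (h2.trans (measure_mono hsub)) _
    _ ≤ _ := mul_meas_ge_le_lintegral hmeas _


/-! ## 4. the exit: `y = L^ε`, `C₁ = C₅ log L` -/

/-- pure algebra: the explicit constants of `u3n_exp` for `D = 1`, `A = M y`, `r = 9216`, `s = 1/8`, `b = 1/(16 (M+2)² y²)` -/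
theorem u3n_alg {M C₁ w y Lg : ℝ} (hM : 0 < M) (hC : 0 ≤ C₁) (hyw : y = w ^ 2) (hw1 : 100 ≤ w) (hw2 : 4096 * (M + 2) ^ 4 ≤ w)
    (hCw : 147456 * C₁ ≤ w) (hL : 256 * (M + 2) ^ 2 * y ^ 2 ≤ Lg) :
    1 ≤ y ∧ 4 * 1 * (C₁ + 1) ≤ y ∧
    (1 / (16 * (M + 2) ^ 2 * y ^ 2)) ^ 2 ≤ min (y / (2 * (M * y + y + 1 * (C₁ + 2) + 9216) ^ 3))
      (1 * (1 / 8 : ℝ) ^ 2 / (4 * (M * y + y + 1 * (C₁ + 2) + 9216) ^ 4)) ∧
    8 / Lg ≤ 1 / (16 * (M + 2) ^ 2 * y ^ 2) / 2 ∧
    16 * (1152 * C₁ * 1) * w⁻¹ + 1152 * 1 / 9216 + 1152 * 1 / 9216 + 1 / 8 ≤ 1 / 2 ∧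
    1 / y ^ 4 ≤ y / (C₁ + 1) * (1 / (16 * (M + 2) ^ 2 * y ^ 2) / 2) ^ 2 / 2 := by
  have hw0 : 0 < w := by linarith
  have hy1 : 1 ≤ y := by rw [hyw]; nlinarith
  have hy0 : 0 < y := by linarith
  have hCw' : C₁ ≤ w := by linarith
  have hP : 2 ≤ M + 2 := by linarith
  obtain ⟨P, hPd⟩ : ∃ P : ℝ, P = M + 2 := ⟨_, rfl⟩
  rw [← hPd] at hw2 hL hP ⊢
  have hP0 : 0 < P := by linarith
  obtain ⟨R, hR⟩ : ∃ R : ℝ, R = M * y + y + 1 * (C₁ + 2) + 9216 := ⟨_, rfl⟩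
  rw [← hR]
  have hR0 : 0 < R := by rw [hR]; positivity
  have hRP : R ≤ P * y := by
    rw [hR, hPd, hyw]
    nlinarith
  have hPy0 : 0 < P * y := by positivity
  have hLg0 : 0 < Lg := lt_of_lt_of_le (by positivity) hL
  refine ⟨hy1, by rw [hyw]; nlinarith, le_min ?_ ?_, ?_, ?_, ?_⟩
  · have h1 : y / (2 * (P * y) ^ 3) ≤ y / (2 * R ^ 3) :=
      div_le_div_of_nonneg_left hy0.le (by positivity) (by gcongr)
    refine le_trans ?_ h1
    rw [div_pow, one_pow, div_le_div_iff₀ (by positivity) (by positivity)]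
    have h2 : 1 ≤ P * y ^ 2 := by nlinarith [pow_le_pow_left₀ (by norm_num : (0 : ℝ) ≤ 1) hy1 2]
    have h3 : 0 < P ^ 3 * y ^ 3 := by positivity
    nlinarith [mul_le_mul_of_nonneg_left h2 h3.le]
  · have h1 : 1 * (1 / 8 : ℝ) ^ 2 / (4 * (P * y) ^ 4) ≤ 1 * (1 / 8 : ℝ) ^ 2 / (4 * R ^ 4) :=
      div_le_div_of_nonneg_left (by norm_num) (by positivity) (by gcongr)
    refine le_trans (le_of_eq ?_) h1
    field_simp
    ring
  · rw [div_div, div_le_div_iff₀ hLg0 (by positivity)]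
    nlinarith
  · have h1 : 16 * (1152 * C₁ * 1) * w⁻¹ ≤ 1 / 8 := by
      rw [← div_eq_mul_inv, div_le_iff₀ hw0]
      linarith
    norm_num at h1 ⊢
    linarith
  · have h1 : 2048 * P ^ 4 * (C₁ + 1) ≤ y := by
      rw [hyw]
      have h2 : C₁ + 1 ≤ 2 * w := by linarith
      have h3 : 0 ≤ 2048 * P ^ 4 := by positivity
      nlinarith [mul_le_mul_of_nonneg_left h2 h3, mul_le_mul_of_nonneg_right hw2 hw0.le]
    have e1 : y / (C₁ + 1) * (1 / (16 * P ^ 2 * y ^ 2) / 2) ^ 2 / 2 = 1 / (2048 * P ^ 4 * (C₁ + 1) * y ^ 3) := by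
      field_simp
      ring
    rw [e1]
    apply one_div_le_one_div_of_le (by positivity)
    have : 0 ≤ y ^ 3 := by positivity
    nlinarith [mul_le_mul_of_nonneg_right h1 this]

/-- the scales: eventually in `L` -/
theorem u3n_par (ε : ℝ) (hε : 0 < ε) (hε1 : ε < 1 / 15) (M C₅ : ℝ) :
    ∀ᶠ L : ℝ in Filter.atTop, 1 ≤ L ∧ 100 ≤ L ^ (ε / 2) ∧ 4096 * (M + 2) ^ 4 ≤ L ^ (ε / 2) ∧
      147456 * (C₅ * Real.log L) ≤ L ^ (ε / 2) ∧ 256 * (M + 2) ^ 2 * (L ^ ε) ^ 2 ≤ L := by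
  have he2 : 0 < ε / 2 := by positivity
  have t1 := tendsto_rpow_atTop he2
  have t2 : Filter.Tendsto (fun L : ℝ => L ^ (1 - 2 * ε)) Filter.atTop Filter.atTop := tendsto_rpow_atTop (by linarith)
  have o1 := (isLittleO_log_rpow_atTop he2).def (c := 1 / (147456 * (|C₅| + 1))) (by positivity)
  filter_upwards [Filter.eventually_ge_atTop 1, t1.eventually_ge_atTop 100, t1.eventually_ge_atTop (4096 * (M + 2) ^ 4),
    o1, t2.eventually_ge_atTop (256 * (M + 2) ^ 2)] with L h1 h2 h3 h4 h5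
  have hL0 : 0 < L := by linarith
  refine ⟨h1, h2, h3, ?_, ?_⟩
  · rw [Real.norm_eq_abs, Real.norm_eq_abs, abs_of_nonneg (Real.log_nonneg h1), abs_of_nonneg (Real.rpow_nonneg hL0.le _)] at h4
    have hl := Real.log_nonneg h1
    have h6 : C₅ * Real.log L ≤ (|C₅| + 1) * Real.log L :=
      mul_le_mul_of_nonneg_right (by linarith [le_abs_self C₅]) hl
    have h7 : (147456 * (|C₅| + 1)) * Real.log L ≤ L ^ (ε / 2) := by
      have h8 := mul_le_mul_of_nonneg_left h4 (by positivity : 0 ≤ 147456 * (|C₅| + 1))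
      refine h8.trans (le_of_eq ?_)
      field_simp
    linarith
  · have e1 : (L ^ ε) ^ 2 = L ^ (2 * ε) := by
      rw [← Real.rpow_natCast, ← Real.rpow_mul hL0.le]
      congr 1
      push_cast
      ring
    have e2 : L = L ^ (1 - 2 * ε) * L ^ (2 * ε) := by
      rw [← Real.rpow_add hL0]
      norm_num
    rw [e1]
    calc 256 * (M + 2) ^ 2 * L ^ (2 * ε) ≤ L ^ (1 - 2 * ε) * L ^ (2 * ε) :=
          mul_le_mul_of_nonneg_right h5 (Real.rpow_nonneg hL0.le _)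
      _ = L := e2.symm

/-- **EXIT D4 = Lemma 7 (ND)** = text of `u3t_nd` (`U3Top.lean`) -/
theorem u3n_nd (ε : ℝ) (hε : 0 < ε) (hε1 : ε < 1 / 15) (M C₅ : ℝ) (hM : 0 < M) (hC₅ : 0 < C₅) : ∃ L₀ : ℝ, ∀ L : ℝ, L₀ ≤ L →
    ∀ (J : Type) [Fintype J] [DecidableEq J] (v : J → ℝ) (j k : J), j ≠ k → |v j| ≤ 7 * L / 8 → |v k - v j| ≤ M * L ^ ε →
      WlReg v (v j) (L ^ ε) (C₅ * Real.log L) (2 * 1 * (C₅ * Real.log L + 1)) →
      ENNReal.ofReal (L ^ (-(4 * ε))) ≤ ∫⁻ N, ENNReal.ofReal (uwQ L (L ^ ε) (wlM v 1 N) j k (v j)) ∂(gArr J J) := by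
  obtain ⟨L₀, hL₀⟩ := Filter.eventually_atTop.1 (u3n_par ε hε hε1 M C₅)
  refine ⟨L₀, fun L hL J _ _ v j k hjk _ hvk hx => ?_⟩
  obtain ⟨h1, h2, h3, h4, h5⟩ := hL₀ L hL
  have hL0 : 0 < L := by linarith
  have hC : 0 ≤ C₅ * Real.log L := mul_nonneg hC₅.le (Real.log_nonneg h1)
  have hyw : L ^ ε = (L ^ (ε / 2)) ^ 2 := by
    rw [← Real.rpow_natCast, ← Real.rpow_mul hL0.le]
    congr 1
    push_cast
    ring
  obtain ⟨a1, a2, a3, a4, a5, a6⟩ := u3n_alg hM hC hyw h2 h3 h4 h5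
  have e1 : (L ^ ε) ^ (-(1 / 2 : ℝ)) = (L ^ (ε / 2))⁻¹ := by
    rw [← Real.rpow_mul hL0.le, ← Real.rpow_neg hL0.le]
    congr 1
    ring
  have e2 : L ^ (-(4 * ε)) = 1 / (L ^ ε) ^ 4 := by
    rw [← Real.rpow_natCast, ← Real.rpow_mul hL0.le, Real.rpow_neg hL0.le, one_div]
    congr 2
    push_cast
    ring
  have hmain := u3n_exp (x := v) (D := 1) (e := v j) (y := L ^ ε) (C₁ := C₅ * Real.log L) (A := M * L ^ ε) (r := 9216) (s := 1 / 8)
    (δ := 8 / L) (b := 1 / (16 * (M + 2) ^ 2 * (L ^ ε) ^ 2)) one_pos hC a1 (by rw [Real.sqrt_one]; exact a1) a2 hx hjk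
    (by rw [sub_self, abs_zero]; positivity) hvk (by norm_num) (by norm_num) (by positivity) a3 a4
    (by rw [Real.sqrt_one, e1]; exact a5)
  refine le_trans (ENNReal.ofReal_le_ofReal ?_) hmain
  rw [e2]
  exact a6

end Claimed.Agent.R287
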