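-- KEEP
import Claimed.Agent.R287.U0
import Claimed.Agent.R287.WL
import Claimed.Agent.R287.ResC
import Claimed.Agent.R287.Defs.U3

/-!
# Row 287 (S0534), unit U3, sub-unit D2 = Lemmas 3, 4 of `U3_295.md`: THE WEIGHT IS A SUPERSOLUTION      (helper170, prefix `u3s_`)

`Z = diag(x) + √D W`, `W = goeOf N`, any finite index set, general energy `e`, height `η ≥ L`.
VARIANCE-ONLY route (helper155): given the minor, `G_jj = 1/(a - ξ)`, `a = x_j - z - D T'`, `E ξ = 0`,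
`1/(a - ξ) = 1/a + ξ/a² + ξ²/(a²(a - ξ))`, `|1/(a - ξ)| ≤ 1/η`  ⟹  `E[η Im G_jj | minor] ≤ (1+t)³ (1 + 4D/η²) η²/((x_j-e)²+η²)`, `t = D|T'|/η`.
`E (1+t)³` by the ladder: `A_k = {|T(e + i 2^k η)| ≤ C₂+1}` is sure for `2^k η ≥ |J|`, `P(A_kᶜ)` from `wl_main` (`p = 8`), on `A_k`: `|T(e+iη)| ≤ 2^k (C₂+1)`.

* `u3s_abs`, `u3s_two_step`   scalar facts;      * `u3s_cond`   the conditional bound;      * `u3s_row`, `u3s_mid`   Schur + row law, no event;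
* `u3s_ladder_pt`, `u3s_height`, `u3s_tail`, `u3s_moment`   moments of the trace, uniform in the size;
* **`u3s_site`**  (W) at one height;   **`u3s_mix`**  mixtures of heights;   **`u3s_min`**  flat core;   **`u3s_W`** = exit `u3t_W` of `U3Top.lean`.
-/

set_option autoImplicit false
set_option linter.unusedSectionVars false
set_option linter.unusedSimpArgs false

namespace Claimed.Agent.R287

open Matrix Finset MeasureTheory ProbabilityTheory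

noncomputable section

/-! ## 1. scalar facts -/

/-- Lemma 3 (modulus part): a shift `τ` of the self energy with `Im τ ≥ 0` costs a factor `(1 + |τ|/η)²` -/
theorem u3s_abs {x : ℝ} {z τ : ℂ} (hz : 0 < z.im) (hτ : 0 ≤ τ.im) :
    1 / ‖(x : ℂ) - (z + τ)‖ ^ 2 ≤ (1 + ‖τ‖ / z.im) ^ 2 / ((x - z.re) ^ 2 + z.im ^ 2) := by
  have h1 : z.im ≤ ‖(x : ℂ) - (z + τ)‖ := by
    have := Complex.abs_im_le_norm ((x : ℂ) - (z + τ))
    simp only [Complex.sub_im, Complex.ofReal_im, Complex.add_im, zero_sub, abs_neg] at this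
    have h2 : z.im + τ.im ≤ |z.im + τ.im| := le_abs_self _
    linarith
  have hpos : 0 < ‖(x : ℂ) - (z + τ)‖ := lt_of_lt_of_le hz h1
  have h2 : ‖(x : ℂ) - z‖ ≤ ‖(x : ℂ) - (z + τ)‖ * (1 + ‖τ‖ / z.im) := by
    have e : (x : ℂ) - z = ((x : ℂ) - (z + τ)) + τ := by ring
    have h3 : ‖τ‖ ≤ ‖(x : ℂ) - (z + τ)‖ * (‖τ‖ / z.im) := by
      rw [mul_div_assoc', le_div_iff₀ hz, mul_comm]
      exact mul_le_mul_of_nonneg_right h1 (norm_nonneg _)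
    calc ‖(x : ℂ) - z‖ = ‖((x : ℂ) - (z + τ)) + τ‖ := by rw [← e]
      _ ≤ ‖(x : ℂ) - (z + τ)‖ + ‖τ‖ := norm_add_le _ _
      _ ≤ _ := by linarith
  have h4 : (x - z.re) ^ 2 + z.im ^ 2 = ‖(x : ℂ) - z‖ ^ 2 := by
    rw [← Complex.normSq_eq_norm_sq, Complex.normSq_apply]
    simp
    ring
  have h5 : 0 < (x - z.re) ^ 2 + z.im ^ 2 := by positivity
  rw [div_le_div_iff₀ (by positivity) h5, one_mul, h4]
  calc ‖(x : ℂ) - z‖ ^ 2 ≤ (‖(x : ℂ) - (z + τ)‖ * (1 + ‖τ‖ / z.im)) ^ 2 := pow_le_pow_left₀ (norm_nonneg _) h2 2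
    _ = _ := by ring

/-- twice the resolvent identity, imaginary part -/
theorem u3s_two_step {a ξ : ℂ} {η : ℝ} (hη : 0 < η) (ha : a ≠ 0) (haξ : a - ξ ≠ 0) (hb : ‖(a - ξ)⁻¹‖ ≤ 1 / η) :
    ((a - ξ)⁻¹).im ≤ (a⁻¹).im + (ξ * (a⁻¹) ^ 2).im + ‖ξ‖ ^ 2 / (‖a‖ ^ 2 * η) := by
  have e : (a - ξ)⁻¹ = a⁻¹ + ξ * (a⁻¹) ^ 2 + ξ ^ 2 * (a⁻¹) ^ 2 * (a - ξ)⁻¹ := by
    field_simp
    ring
  have h1 : (ξ ^ 2 * (a⁻¹) ^ 2 * (a - ξ)⁻¹).im ≤ ‖ξ‖ ^ 2 / (‖a‖ ^ 2 * η) := by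
    refine (Complex.im_le_norm _).trans ?_
    rw [norm_mul, norm_mul, norm_pow, norm_pow, norm_inv]
    have hpos : 0 < ‖a‖ := norm_pos_iff.2 ha
    calc ‖ξ‖ ^ 2 * ‖a‖⁻¹ ^ 2 * ‖(a - ξ)⁻¹‖ ≤ ‖ξ‖ ^ 2 * ‖a‖⁻¹ ^ 2 * (1 / η) := by gcongr
      _ = _ := by field_simp
  calc ((a - ξ)⁻¹).im = (a⁻¹ + ξ * (a⁻¹) ^ 2 + ξ ^ 2 * (a⁻¹) ^ 2 * (a - ξ)⁻¹).im := by rw [← e]
    _ = (a⁻¹).im + (ξ * (a⁻¹) ^ 2).im + (ξ ^ 2 * (a⁻¹) ^ 2 * (a - ξ)⁻¹).im := by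
        rw [Complex.add_im, Complex.add_im]
    _ ≤ _ := by linarith

/-! ## 2. the conditional bound (minor frozen) -/

variable {ι : Type} [Fintype ι] [DecidableEq ι]

theorem u3s_Xi_re (j : ι) (Δ : ℝ) (B : Matrix ι ι ℂ) (g : ι → ℝ) :
    (u0Xi j Δ B g).re = -(Real.sqrt Δ * (Real.sqrt 2 * g j)) + Δ * (qfQ (B.map Complex.re) g - (B.map Complex.re).trace) := by
  unfold u0Xi
  simp only [Complex.add_re, Complex.neg_re, Complex.ofReal_re, Complex.mul_re, Complex.sub_re, Complex.ofReal_im, zero_mul,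
    sub_zero, qf_C_re, qf_trace_re]

theorem u3s_Xi_im (j : ι) (Δ : ℝ) (B : Matrix ι ι ℂ) (g : ι → ℝ) :
    (u0Xi j Δ B g).im = Δ * (qfQ (B.map Complex.im) g - (B.map Complex.im).trace) := by
  unfold u0Xi
  simp only [Complex.add_im, Complex.neg_im, Complex.ofReal_im, Complex.mul_im, Complex.sub_im, Complex.ofReal_re, zero_mul,
    add_zero, neg_zero, zero_add, qf_C_im, qf_trace_im]

theorem u3s_coord_mean (j : ι) : Integrable (fun g : ι → ℝ => g j) (qfG ι) ∧ ∫ g : ι → ℝ, g j ∂qfG ι = 0 := by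
  have h1 : Integrable (fun t : ℝ => t) (gaussianReal 0 1) := by
    have := qf_g1_pow_integrable 1
    simpa using this
  refine ⟨qf_coord_integrable h1 j, ?_⟩
  rw [qf_coord_integral (f := fun t => t) (by fun_prop)]
  simp

/-- the fluctuation is centred -/
theorem u3s_Xi_mean {B : Matrix ι ι ℂ} (hB : Bᵀ = B) (j : ι) (Δ : ℝ) :
    (Integrable (fun g => (u0Xi j Δ B g).re) (qfG ι) ∧ ∫ g, (u0Xi j Δ B g).re ∂qfG ι = 0) ∧
      (Integrable (fun g => (u0Xi j Δ B g).im) (qfG ι) ∧ ∫ g, (u0Xi j Δ B g).im ∂qfG ι = 0) := by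
  obtain ⟨i1, m1⟩ := u3s_coord_mean (ι := ι) j
  have i2 := qf_Q_integrable (qf_re_herm hB)
  have i3 := qf_Q_integrable (qf_im_herm hB)
  have a1 : Integrable (fun g : ι → ℝ => -(Real.sqrt Δ * (Real.sqrt 2 * g j))) (qfG ι) := ((i1.const_mul _).const_mul _).neg
  have a2 : Integrable (fun g : ι → ℝ => Δ * (qfQ (B.map Complex.re) g - (B.map Complex.re).trace)) (qfG ι) :=
    (i2.sub (integrable_const _)).const_mul _
  have a3 : Integrable (fun g : ι → ℝ => Δ * (qfQ (B.map Complex.im) g - (B.map Complex.im).trace)) (qfG ι) :=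
    (i3.sub (integrable_const _)).const_mul _
  refine ⟨⟨?_, ?_⟩, ⟨?_, ?_⟩⟩
  · simp only [u3s_Xi_re]; exact a1.add a2
  · simp only [u3s_Xi_re]
    rw [integral_add a1 a2, integral_neg, integral_const_mul, integral_const_mul, m1, integral_const_mul,
      integral_sub i2 (integrable_const _), qf_mean (qf_re_herm hB)]
    simp
  · simp only [u3s_Xi_im]; exact a3
  · simp only [u3s_Xi_im]
    rw [integral_const_mul, integral_sub i3 (integrable_const _), qf_mean (qf_im_herm hB)]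
    simp

/-- **Lemma 4, conditional form** (variance only): `E[Im 1/(x - ζ) | minor] ≤ (1 + ΔC/η)³ (1 + 4Δ/η²) η/((x-e)²+η²)` -/
theorem u3s_cond {C Δ x : ℝ} {z : ℂ} {B : Matrix ι ι ℂ} (hB : U0B z.im C B) (hz : 0 < z.im) (hΔ : 0 ≤ Δ) (j : ι) :
    ∫ g, (((x : ℂ) - u0Z j Δ z B g)⁻¹).im ∂qfG ι
      ≤ (1 + Δ * C / z.im) ^ 3 * (1 + 4 * Δ / z.im ^ 2) * (z.im / ((x - z.re) ^ 2 + z.im ^ 2)) := by
  have hC : 0 ≤ C := (norm_nonneg _).trans hB.tr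
  set τ : ℂ := (Δ : ℂ) * B.trace with hτ
  set a : ℂ := (x : ℂ) - (z + τ) with ha
  have htr_im : 0 ≤ (B.trace).im := by
    -- `Im Tr B = E Im gᵀ B g ≥ 0`
    rw [qf_trace_im, ← qf_mean (qf_im_herm hB.sym)]
    refine integral_nonneg fun g => ?_
    rw [← qf_C_im]
    exact hB.im g
  have hτim : 0 ≤ τ.im := by
    rw [hτ]
    simp only [Complex.mul_im, Complex.ofReal_re, Complex.ofReal_im, zero_mul, add_zero]
    exact mul_nonneg hΔ htr_im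
  have hτn : ‖τ‖ ≤ Δ * C := by
    rw [hτ, norm_mul, Complex.norm_real, Real.norm_eq_abs, abs_of_nonneg hΔ]
    exact mul_le_mul_of_nonneg_left hB.tr hΔ
  have haim : a.im = -(z.im + τ.im) := by
    rw [ha]; simp
  have ha0 : a ≠ 0 := by
    intro h
    rw [h] at haim
    simp at haim
    linarith
  have hZ : ∀ g, (x : ℂ) - u0Z j Δ z B g = a - u0Xi j Δ B g := by
    intro g
    rw [u0_Z_eq, ha, hτ]; ring
  have hZim : ∀ g, z.im ≤ (u0Z j Δ z B g).im := by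
    intro g
    rw [u0_Z_im]
    have := mul_nonneg hΔ (hB.im g)
    linarith
  have hne : ∀ g, a - u0Xi j Δ B g ≠ 0 := by
    intro g h
    rw [← hZ] at h
    have := congrArg Complex.im h
    simp at this
    have := hZim g
    linarith
  have hinv : ∀ g, ‖(a - u0Xi j Δ B g)⁻¹‖ ≤ 1 / z.im := by
    intro g
    rw [norm_inv, ← one_div]
    refine one_div_le_one_div_of_le hz ?_
    rw [← hZ]
    have := Complex.abs_im_le_norm ((x : ℂ) - u0Z j Δ z B g)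
    simp only [Complex.sub_im, Complex.ofReal_im, zero_sub, abs_neg] at this
    exact (hZim g).trans ((le_abs_self _).trans this)
  have hpt : ∀ g, (((x : ℂ) - u0Z j Δ z B g)⁻¹).im
      ≤ (a⁻¹).im + ((u0Xi j Δ B g).re * ((a⁻¹) ^ 2).im + (u0Xi j Δ B g).im * ((a⁻¹) ^ 2).re)
        + ‖u0Xi j Δ B g‖ ^ 2 / (‖a‖ ^ 2 * z.im) := by
    intro g
    rw [hZ]
    have := u3s_two_step hz ha0 (hne g) (hinv g)
    rwa [Complex.mul_im] at this
  obtain ⟨⟨ir, mr⟩, ⟨ii, mi⟩⟩ := u3s_Xi_mean hB.sym j Δ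
  obtain ⟨is, ms⟩ := u0_Xi_sq hB hΔ j
  have iL : Integrable (fun g => (((x : ℂ) - u0Z j Δ z B g)⁻¹).im) (qfG ι) := by
    refine Integrable.of_bound (C := 1 / z.im) ?_ (Filter.Eventually.of_forall fun g => ?_)
    · exact (Complex.measurable_im.comp (measurable_const.sub (u0_Z_continuous j Δ z B).measurable).inv).aestronglyMeasurable
    · rw [hZ]
      exact (Complex.abs_im_le_norm _).trans (hinv g)
  have i1 : Integrable (fun g => (u0Xi j Δ B g).re * ((a⁻¹) ^ 2).im + (u0Xi j Δ B g).im * ((a⁻¹) ^ 2).re) (qfG ι) :=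
    (ir.mul_const _).add (ii.mul_const _)
  have i2 : Integrable (fun g => ‖u0Xi j Δ B g‖ ^ 2 / (‖a‖ ^ 2 * z.im)) (qfG ι) := is.div_const _
  have hint : ∫ g, (((x : ℂ) - u0Z j Δ z B g)⁻¹).im ∂qfG ι
      ≤ (a⁻¹).im + (∫ g, ‖u0Xi j Δ B g‖ ^ 2 ∂qfG ι) / (‖a‖ ^ 2 * z.im) := by
    calc _ ≤ ∫ g, ((a⁻¹).im + ((u0Xi j Δ B g).re * ((a⁻¹) ^ 2).im + (u0Xi j Δ B g).im * ((a⁻¹) ^ 2).re)
        + ‖u0Xi j Δ B g‖ ^ 2 / (‖a‖ ^ 2 * z.im)) ∂qfG ι := integral_mono iL (((integrable_const _).add i1).add i2) hpt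
      _ = _ := by
        have i0 : Integrable (fun g : ι → ℝ => (a⁻¹).im + ((u0Xi j Δ B g).re * ((a⁻¹) ^ 2).im
            + (u0Xi j Δ B g).im * ((a⁻¹) ^ 2).re)) (qfG ι) := (integrable_const _).add i1
        rw [integral_add i0 i2, integral_add (integrable_const _) i1,
          integral_add (ir.mul_const _) (ii.mul_const _), integral_mul_const, integral_mul_const, mr, mi, integral_div]
        simp
  have hapos : 0 < ‖a‖ := norm_pos_iff.2 ha0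
  have e1 : (a⁻¹).im = (z.im + τ.im) / ‖a‖ ^ 2 := by
    rw [Complex.inv_im, haim, neg_neg, Complex.normSq_eq_norm_sq]
  have hτim' : τ.im ≤ Δ * C := ((le_abs_self _).trans (Complex.abs_im_le_norm _)).trans hτn
  have h6 : (a⁻¹).im + (∫ g, ‖u0Xi j Δ B g‖ ^ 2 ∂qfG ι) / (‖a‖ ^ 2 * z.im)
      ≤ (z.im + Δ * C + 4 * (Δ + Δ ^ 2 * C / z.im) / z.im) * (1 / ‖a‖ ^ 2) := by
    rw [e1]
    have : (∫ g, ‖u0Xi j Δ B g‖ ^ 2 ∂qfG ι) / (‖a‖ ^ 2 * z.im) ≤ 4 * (Δ + Δ ^ 2 * C / z.im) / (‖a‖ ^ 2 * z.im) :=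
      div_le_div_of_nonneg_right ms (by positivity)
    have h7 : (z.im + τ.im) / ‖a‖ ^ 2 ≤ (z.im + Δ * C) / ‖a‖ ^ 2 := div_le_div_of_nonneg_right (by linarith) (by positivity)
    calc _ ≤ (z.im + Δ * C) / ‖a‖ ^ 2 + 4 * (Δ + Δ ^ 2 * C / z.im) / (‖a‖ ^ 2 * z.im) := add_le_add h7 this
      _ = _ := by field_simp
  have h8 := u3s_abs (x := x) hz hτim
  rw [← ha] at h8
  have h9 : (1 + ‖τ‖ / z.im) ^ 2 ≤ (1 + Δ * C / z.im) ^ 2 := by
    have : ‖τ‖ / z.im ≤ Δ * C / z.im := div_le_div_of_nonneg_right hτn hz.le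
    exact pow_le_pow_left₀ (by positivity) (by linarith) 2
  have hden : 0 < (x - z.re) ^ 2 + z.im ^ 2 := by positivity
  have h10 : 1 / ‖a‖ ^ 2 ≤ (1 + Δ * C / z.im) ^ 2 / ((x - z.re) ^ 2 + z.im ^ 2) :=
    h8.trans (div_le_div_of_nonneg_right h9 hden.le)
  have h11 : 0 ≤ z.im + Δ * C + 4 * (Δ + Δ ^ 2 * C / z.im) / z.im := by positivity
  calc _ ≤ _ := hint
    _ ≤ _ := h6
    _ ≤ (z.im + Δ * C + 4 * (Δ + Δ ^ 2 * C / z.im) / z.im) * ((1 + Δ * C / z.im) ^ 2 / ((x - z.re) ^ 2 + z.im ^ 2)) :=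
        mul_le_mul_of_nonneg_left h10 h11
    _ = _ := by field_simp

/-! ## 3. the row law: from the conditional bound to `E Im G_jj` -/

theorem u3s_Zr_measurable (x : ι → ℝ) (Δ : ℝ) (z : ℂ) (j : ι) :
    Measurable fun p : (ι → ℝ) × Matrix ι ι ℝ => u0Zr x Δ z j p.1 p.2 := by
  have hB : ∀ u v, Measurable fun p : (ι → ℝ) × Matrix ι ι ℝ => u0B (u0Mj x Δ j p.2) j z u v := fun u v =>
    (u0_B_measurable j z u v).comp ((u0_Mj_measurable x Δ j).comp measurable_snd)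
  have hρ : ∀ u, Measurable fun p : (ι → ℝ) × Matrix ι ι ℝ => ((p.1 u : ℝ) : ℂ) := fun u =>
    Complex.measurable_ofReal.comp ((measurable_pi_apply u).comp measurable_fst)
  have hq : Measurable fun p : (ι → ℝ) × Matrix ι ι ℝ => qfC (u0B (u0Mj x Δ j p.2) j z) p.1 := by
    unfold qfC
    exact Finset.measurable_fun_sum _ fun a _ => Finset.measurable_fun_sum _ fun b _ => ((hρ a).mul (hB a b)).mul (hρ b)
  unfold u0Zr
  have h1 : Measurable fun p : (ι → ℝ) × Matrix ι ι ℝ => ((Real.sqrt Δ * p.1 j : ℝ) : ℂ) :=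
    Complex.measurable_ofReal.comp (((measurable_pi_apply j).comp measurable_fst).const_mul _)
  exact (measurable_const.sub h1).add (hq.const_mul _)

theorem u3s_G_im_integrable (x : ι → ℝ) (Δ : ℝ) {z : ℂ} (hz : 0 < z.im) (j : ι) :
    Integrable (fun N => (rsG (u0M x Δ N) z j j).im) (gArr ι ι) := by
  refine Integrable.of_bound (C := 1 / z.im)
    (Complex.measurable_im.comp ((u0_G_measurable z j j).comp (u0_M_measurable x Δ))).aestronglyMeasurable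
    (Filter.Eventually.of_forall fun N => ?_)
  rw [Real.norm_eq_abs, abs_of_pos (rs_G_im_pos (u0_M_herm x Δ N) hz j)]
  exact rs_G_im_le (u0_M_herm x Δ N) hz j

/-- Schur + row law, no event -/
theorem u3s_row (x : ι → ℝ) {Δ : ℝ} (hΔ : 0 ≤ Δ) {z : ℂ} (hz : 0 < z.im) (j : ι) :
    ∫ N, (rsG (u0M x Δ N) z j j).im ∂gArr ι ι
      = ∫ N, ∫ g, (((x j : ℂ) - u0Z j Δ z (u0B (u0Mj x Δ j (rsDel (goeOf N) {j})) j z) g)⁻¹).im ∂qfG ι ∂gArr ι ι := by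
  have hFm : Measurable (Function.uncurry fun (ρ : ι → ℝ) (M : Matrix ι ι ℝ) => (((x j : ℂ) - u0Zr x Δ z j ρ M)⁻¹).im) :=
    Complex.measurable_im.comp (measurable_const.sub (u3s_Zr_measurable x Δ z j)).inv
  have e1 : ∀ N : Matrix ι ι ℝ, (rsG (u0M x Δ N) z j j).im
      = (((x j : ℂ) - u0Zr x Δ z j (goeOf N j) (rsDel (goeOf N) {j}))⁻¹).im := by
    intro N
    rw [u0_schur_M x hΔ N hz.ne' j]
    rfl
  have hi := u3s_G_im_integrable x Δ hz j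
  simp only [e1] at hi ⊢
  rw [u0_row_integral j _ hFm hi]
  simp only [u0_Zr_D]

/-- `E Im G_jj ≤ κ E (1 + Δ (|T| + 1/η)/η)³` -/
theorem u3s_mid (x : ι → ℝ) {Δ : ℝ} (hΔ : 0 ≤ Δ) {z : ℂ} (hz : 0 < z.im) (j : ι) :
    ∫ N, (rsG (u0M x Δ N) z j j).im ∂gArr ι ι
      ≤ (1 + 4 * Δ / z.im ^ 2) * (z.im / ((x j - z.re) ^ 2 + z.im ^ 2))
        * ∫ N, (1 + Δ * (‖(rsG (u0M x Δ N) z).trace‖ + 1 / z.im) / z.im) ^ 3 ∂gArr ι ι := by
  rw [u3s_row x hΔ hz j, ← integral_const_mul]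
  have hmin : ∀ N : Matrix ι ι ℝ, (rsDel (goeOf N) {j}).IsHermitian := fun N => rs_del_herm (u0_goe_herm N) _
  have hT : Measurable fun N : Matrix ι ι ℝ => (rsG (u0M x Δ N) z).trace := by
    unfold Matrix.trace
    exact Finset.measurable_fun_sum _ fun a _ => (u0_G_measurable z a a).comp (u0_M_measurable x Δ)
  have hTb : ∀ N : Matrix ι ι ℝ, ‖(rsG (u0M x Δ N) z).trace‖ ≤ Fintype.card ι / z.im := by
    intro N
    unfold Matrix.trace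
    refine (norm_sum_le _ _).trans ?_
    refine (Finset.sum_le_sum fun a _ => rs_G_le (u0_M_herm x Δ N) hz a a).trans (le_of_eq ?_)
    rw [Finset.sum_const, Finset.card_univ, nsmul_eq_mul]
    ring
  have hκ : 0 ≤ (1 + 4 * Δ / z.im ^ 2) * (z.im / ((x j - z.re) ^ 2 + z.im ^ 2)) := by positivity
  have hR : Integrable (fun N : Matrix ι ι ℝ => (1 + 4 * Δ / z.im ^ 2) * (z.im / ((x j - z.re) ^ 2 + z.im ^ 2))
      * (1 + Δ * (‖(rsG (u0M x Δ N) z).trace‖ + 1 / z.im) / z.im) ^ 3) (gArr ι ι) := by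
    refine Integrable.const_mul ?_ _
    refine Integrable.of_bound (C := (1 + Δ * (Fintype.card ι / z.im + 1 / z.im) / z.im) ^ 3) ?_
      (Filter.Eventually.of_forall fun N => ?_)
    · exact ((((hT.norm.add_const _).const_mul _).div_const _).const_add _).pow_const 3 |>.aestronglyMeasurable
    · rw [Real.norm_eq_abs, abs_of_nonneg (by positivity)]
      have := hTb N
      gcongr
  refine integral_mono_of_nonneg (Filter.Eventually.of_forall fun N => ?_) hR (Filter.Eventually.of_forall fun N => ?_)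
  · refine integral_nonneg fun g => ?_
    refine u0_inv_im_nonneg _ ?_
    rw [u0_Z_im, u0_B_qf]
    have := mul_nonneg hΔ (rs_quad_im_nonneg (u0_Mj_herm x Δ j (hmin N)) hz (u0K j g))
    linarith
  · have hB := u0_B_ok (u0_Mj_herm x Δ j (hmin N)) hz j (le_refl ‖(u0B (u0Mj x Δ j (rsDel (goeOf N) {j})) j z).trace‖)
    have h1 := u3s_cond (x := x j) hB hz hΔ j
    have h2 : ‖(u0B (u0Mj x Δ j (rsDel (goeOf N) {j})) j z).trace‖ ≤ ‖(rsG (u0M x Δ N) z).trace‖ + 1 / z.im := by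
      have h3 := u0_B_trace (u0_M_herm x Δ N) hz j
      rw [u0_Mj_eq] at h3
      have := norm_sub_norm_le (u0B (u0Mj x Δ j (rsDel (goeOf N) {j})) j z).trace (rsG (u0M x Δ N) z).trace
      rw [norm_sub_rev] at this
      linarith
    refine h1.trans ?_
    have h4 : (1 + Δ * ‖(u0B (u0Mj x Δ j (rsDel (goeOf N) {j})) j z).trace‖ / z.im) ^ 3
        ≤ (1 + Δ * (‖(rsG (u0M x Δ N) z).trace‖ + 1 / z.im) / z.im) ^ 3 := by
      gcongr
    calc _ = (1 + 4 * Δ / z.im ^ 2) * (z.im / ((x j - z.re) ^ 2 + z.im ^ 2))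
          * (1 + Δ * ‖(u0B (u0Mj x Δ j (rsDel (goeOf N) {j})) j z).trace‖ / z.im) ^ 3 := by ring
      _ ≤ _ := mul_le_mul_of_nonneg_left h4 hκ

/-! ## 4. moments of the trace, uniformly in the size: the ladder -/

/-- deterministic: a sequence `τ_k` (`= |T(e + i 2^k η)|`) with `τ_0 ≤ 2^k τ_k`, small at the top -/
theorem u3s_ladder_pt {τ : ℕ → ℝ} {c Δ η : ℝ} (k0 : ℕ) (hΔ : 0 ≤ Δ) (hη : 1 ≤ η) (hc : 0 ≤ c)
    (h2 : ∀ k, τ 0 ≤ 2 ^ k * τ k) (htop : τ k0 ≤ c) :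
    (1 + Δ * (τ 0 + 1 / η) / η) ^ 3
      ≤ (1 + Δ * (c + 1) / η) ^ 3 * (1 + ∑ m ∈ range k0, 8 ^ (m + 1) * (if c < τ m then (1 : ℝ) else 0)) := by
  classical
  have hη0 : 0 < η := by linarith
  have hex : ∃ k, τ k ≤ c := ⟨k0, htop⟩
  set k := Nat.find hex with hk
  have hkc : τ k ≤ c := Nat.find_spec hex
  have hk0 : k ≤ k0 := Nat.find_min' hex htop
  have h1η : 1 / η ≤ 1 := by rw [div_le_one hη0]; exact hη
  have hpow : (1 : ℝ) ≤ 2 ^ k := one_le_pow₀ (by norm_num)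
  have hb : 1 + Δ * (τ 0 + 1 / η) / η ≤ 2 ^ k * (1 + Δ * (c + 1) / η) := by
    have h3 : τ 0 + 1 / η ≤ 2 ^ k * (c + 1) := by
      have := (h2 k).trans (mul_le_mul_of_nonneg_left hkc (by positivity))
      nlinarith
    have h4 : Δ * (τ 0 + 1 / η) / η ≤ 2 ^ k * (Δ * (c + 1) / η) := by
      rw [div_le_iff₀ hη0]
      calc Δ * (τ 0 + 1 / η) ≤ Δ * (2 ^ k * (c + 1)) := mul_le_mul_of_nonneg_left h3 hΔ
        _ = 2 ^ k * (Δ * (c + 1) / η) * η := by field_simp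
    nlinarith
  have hsum0 : ∀ m ∈ range k0, 0 ≤ (8 : ℝ) ^ (m + 1) * (if c < τ m then (1 : ℝ) else 0) := by
    intro m _
    split_ifs <;> positivity
  have hA : 0 ≤ (1 + Δ * (c + 1) / η) ^ 3 := by positivity
  by_cases hlow : 0 ≤ 1 + Δ * (τ 0 + 1 / η) / η
  · have h5 : (1 + Δ * (τ 0 + 1 / η) / η) ^ 3 ≤ (2 ^ k * (1 + Δ * (c + 1) / η)) ^ 3 := pow_le_pow_left₀ hlow hb 3
    have h6 : (2 ^ k * (1 + Δ * (c + 1) / η)) ^ 3 = (1 + Δ * (c + 1) / η) ^ 3 * 8 ^ k := by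
      rw [mul_pow, ← pow_mul, mul_comm k 3, pow_mul]
      norm_num
      ring
    rw [h6] at h5
    refine h5.trans (mul_le_mul_of_nonneg_left ?_ hA)
    rcases Nat.eq_zero_or_pos k with hz | hpos
    · rw [hz, pow_zero]
      have := Finset.sum_nonneg hsum0
      linarith
    · have hm : ¬ τ (k - 1) ≤ c := Nat.find_min hex (by omega)
      have hmem : k - 1 ∈ range k0 := Finset.mem_range.2 (by omega)
      have h7 := Finset.single_le_sum hsum0 hmem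
      rw [if_pos (not_le.1 hm), mul_one, show k - 1 + 1 = k by omega] at h7
      linarith
  · push Not at hlow
    have h8 : (1 + Δ * (τ 0 + 1 / η) / η) ^ 3 ≤ 0 := by
      have : (1 + Δ * (τ 0 + 1 / η) / η) ^ 3 = (1 + Δ * (τ 0 + 1 / η) / η) ^ 2 * (1 + Δ * (τ 0 + 1 / η) / η) := by ring
      rw [this]
      exact mul_nonpos_of_nonneg_of_nonpos (sq_nonneg _) hlow.le
    have := Finset.sum_nonneg hsum0
    exact h8.trans (mul_nonneg hA (by linarith))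

theorem u3s_height (x : ι → ℝ) (D : ℝ) (N : Matrix ι ι ℝ) (e : ℝ) {η : ℝ} (hη : 0 < η) (k : ℕ) :
    ‖wlT x D N ⟨e, η⟩‖ ≤ 2 ^ k * ‖wlT x D N ⟨e, 2 ^ k * η⟩‖ := by
  have hpow : (1 : ℝ) ≤ 2 ^ k := one_le_pow₀ (by norm_num)
  have h1 := wl_height_cont (wl_toC_herm x D N) e hη (le_mul_of_one_le_left hη.le hpow)
  have e1 : (2 ^ k * η - η) / η = 2 ^ k - 1 := by field_simp
  rw [e1] at h1
  have h2 := Complex.im_le_norm ((rsv (toC (wlM x D N)) ⟨e, 2 ^ k * η⟩).trace)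
  have h3 := norm_sub_norm_le ((rsv (toC (wlM x D N)) ⟨e, η⟩).trace) ((rsv (toC (wlM x D N)) ⟨e, 2 ^ k * η⟩).trace)
  unfold wlT
  have h4 : (2 ^ k - 1) * ((rsv (toC (wlM x D N)) ⟨e, 2 ^ k * η⟩).trace).im
      ≤ (2 ^ k - 1) * ‖(rsv (toC (wlM x D N)) ⟨e, 2 ^ k * η⟩).trace‖ := mul_le_mul_of_nonneg_left h2 (by linarith)
  linarith

theorem u3s_reg_mono {x : ι → ℝ} {e L y C R : ℝ} (h : WlReg x e L C R) (hy : L ≤ y) : WlReg x e y C R :=
  fun ζ h1 h2 => h ζ (hy.trans h1) h2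

/-- the tail of one rung, from `wl_main` with `p = 8` -/
theorem u3s_tail {x : ι → ℝ} {D e L C₂ η : ℝ} (hD : 0 < D) (hC : 0 ≤ C₂) (hL1 : 1 ≤ L) (hL2 : Real.sqrt D ≤ L)
    (hL3 : 4 * D * (C₂ + 1) ≤ L) (hx : WlReg x e L C₂ (2 * D * (C₂ + 1))) (hη : L ≤ η) (m : ℕ) :
    (gArr ι ι).real {N | C₂ + 1 < ‖wlT x D N ⟨e, 2 ^ m * η⟩‖}
      ≤ 16 * (73728 * C₂ * Real.sqrt D) ^ 8 / η ^ 4 * (1 / 16) ^ m := by
  have hη0 : 0 < η := by linarith
  have hge : η ≤ 2 ^ m * η := le_mul_of_one_le_left hη0.le (one_le_pow₀ (by norm_num))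
  have hy : L ≤ 2 ^ m * η := hη.trans hge
  have h := wl_main (x := x) (D := D) (e := e) (y := 2 ^ m * η) (C₁ := C₂) 8 (by norm_num) hD hC (hL1.trans hy) (hL2.trans hy)
    (hL3.trans hy) (u3s_reg_mono hx hy)
  have hsub : {N : Matrix ι ι ℝ | C₂ + 1 < ‖wlT x D N ⟨e, 2 ^ m * η⟩‖} ⊆ {N | ∃ k : ℕ, ¬ (‖rTr (wlM x D N) ⟨e, 2 ^ k * (2 ^ m * η)⟩‖ ≤ C₂ + 1 ∧
        ‖rTr (wlM x D N) ⟨e, 2 ^ k * (2 ^ m * η)⟩ - wlS x ((⟨e, 2 ^ k * (2 ^ m * η)⟩ : ℂ) + D * rTr (wlM x D N) ⟨e, 2 ^ k * (2 ^ m * η)⟩)‖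
          ≤ (2 ^ k * (2 ^ m * η)) ^ (-(1 / 2 : ℝ)))} := by
    intro N hN
    refine ⟨0, fun hcon => ?_⟩
    have h1 := hcon.1
    rw [pow_zero, one_mul, ← wl_T_eq] at h1
    exact absurd h1 (not_le.2 hN)
  have h2 := (measure_mono hsub).trans h
  have hpos : 0 < (2 : ℝ) ^ m * η := by positivity
  have e1 : ((2 : ℝ) ^ m * η) ^ (-((8 : ℕ) : ℝ) / 2) = 1 / η ^ 4 * (1 / 16) ^ m := by
    have : (-((8 : ℕ) : ℝ) / 2) = -((4 : ℕ) : ℝ) := by norm_num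
    rw [this, Real.rpow_neg hpos.le, Real.rpow_natCast, mul_pow, ← pow_mul, mul_comm m 4, pow_mul, _root_.one_div_pow, mul_inv]
    norm_num
    ring
  have e2 : (1152 * ((8 : ℕ) : ℝ) ^ 2 * C₂ * Real.sqrt D) = 73728 * C₂ * Real.sqrt D := by norm_num
  rw [e1, e2] at h2
  have h3 : 0 ≤ 16 * (73728 * C₂ * Real.sqrt D) ^ 8 * (1 / η ^ 4 * (1 / 16) ^ m) := by positivity
  have h4 := ENNReal.toReal_le_of_le_ofReal h3 h2
  refine h4.trans (le_of_eq ?_)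
  ring

/-- **moment of the trace**, uniform in the size of the matrix -/
theorem u3s_moment {x : ι → ℝ} {D e L C₂ η : ℝ} (hD : 0 < D) (hC : 0 ≤ C₂) (hL1 : 1 ≤ L) (hL2 : Real.sqrt D ≤ L)
    (hL3 : 4 * D * (C₂ + 1) ≤ L) (hx : WlReg x e L C₂ (2 * D * (C₂ + 1))) (hη : L ≤ η) :
    ∫ N, (1 + D * (‖wlT x D N ⟨e, η⟩‖ + 1 / η) / η) ^ 3 ∂gArr ι ι
      ≤ (1 + D * (C₂ + 2) / η) ^ 3 * (1 + 256 * (73728 * C₂ * Real.sqrt D) ^ 8 / η ^ 4) := by
  have hη1 : 1 ≤ η := hL1.trans hη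
  have hη0 : 0 < η := by linarith
  set k0 := Fintype.card ι with hk0
  obtain ⟨q, hq⟩ : ∃ q : ℝ, q = 16 * (73728 * C₂ * Real.sqrt D) ^ 8 / η ^ 4 := ⟨_, rfl⟩
  have hq0 : 0 ≤ q := by rw [hq]; positivity
  have hpt : ∀ N : Matrix ι ι ℝ, (1 + D * (‖wlT x D N ⟨e, η⟩‖ + 1 / η) / η) ^ 3
      ≤ (1 + D * (C₂ + 1 + 1) / η) ^ 3 * (1 + ∑ m ∈ range k0, 8 ^ (m + 1) *
          Set.indicator {N | C₂ + 1 < ‖wlT x D N ⟨e, 2 ^ m * η⟩‖} (fun _ => (1 : ℝ)) N) := by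
    intro N
    have h := u3s_ladder_pt (τ := fun k => ‖wlT x D N ⟨e, 2 ^ k * η⟩‖) (c := C₂ + 1) (Δ := D) (η := η) k0 hD.le hη1 (by linarith)
      (fun k => by simpa using u3s_height x D N e hη0 k)
      (by
        have hpos : 0 < (2 : ℝ) ^ k0 * η := by positivity
        have h1 := wl_trace_le (wl_toC_herm x D N) (z := ⟨e, 2 ^ k0 * η⟩) hpos
        have h2 : (Fintype.card ι : ℝ) ≤ 2 ^ k0 * η := by
          have h3 : (Fintype.card ι : ℝ) ≤ 2 ^ k0 := by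
            have : Fintype.card ι ≤ 2 ^ k0 := (Nat.lt_two_pow_self).le
            exact_mod_cast this
          have h4 : (2 : ℝ) ^ k0 ≤ 2 ^ k0 * η := le_mul_of_one_le_right (by positivity) hη1
          linarith
        have h5 : (Fintype.card ι : ℝ) / (2 ^ k0 * η) ≤ 1 := (div_le_one hpos).2 h2
        show ‖wlT x D N ⟨e, 2 ^ k0 * η⟩‖ ≤ C₂ + 1
        unfold wlT
        exact h1.trans (h5.trans (by linarith)))
    simp only [pow_zero, one_mul] at h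
    refine h.trans (le_of_eq ?_)
    congr 2
  have hTm : ∀ u : ℝ, Measurable fun N : Matrix ι ι ℝ => wlT x D N ⟨e, u⟩ := fun u => wl_meas_T x D _
  have hSm : ∀ m : ℕ, MeasurableSet {N : Matrix ι ι ℝ | C₂ + 1 < ‖wlT x D N ⟨e, 2 ^ m * η⟩‖} := fun m =>
    measurableSet_lt measurable_const (hTm _).norm
  have hind : ∀ m : ℕ, Integrable (Set.indicator {N : Matrix ι ι ℝ | C₂ + 1 < ‖wlT x D N ⟨e, 2 ^ m * η⟩‖} (fun _ => (1 : ℝ)))
      (gArr ι ι) := fun m => (integrable_const (1 : ℝ)).indicator (hSm m)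
  have hR : Integrable (fun N : Matrix ι ι ℝ => (1 + D * (C₂ + 1 + 1) / η) ^ 3 * (1 + ∑ m ∈ range k0, 8 ^ (m + 1) *
          Set.indicator {N | C₂ + 1 < ‖wlT x D N ⟨e, 2 ^ m * η⟩‖} (fun _ => (1 : ℝ)) N)) (gArr ι ι) :=
    ((integrable_const _).add (integrable_finsetSum _ fun m _ => (hind m).const_mul _)).const_mul _
  have hnn : ∀ N : Matrix ι ι ℝ, 0 ≤ (1 + D * (‖wlT x D N ⟨e, η⟩‖ + 1 / η) / η) ^ 3 := fun N => by positivity
  have h1 := integral_mono_of_nonneg (Filter.Eventually.of_forall hnn) hR (Filter.Eventually.of_forall hpt)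
  refine h1.trans ?_
  rw [integral_const_mul, integral_add (integrable_const _) (integrable_finsetSum _ fun m _ => (hind m).const_mul _),
    integral_finsetSum _ fun m _ => (hind m).const_mul _]
  have e3 : C₂ + 1 + 1 = C₂ + 2 := by ring
  rw [e3]
  refine mul_le_mul_of_nonneg_left ?_ (by positivity)
  simp only [integral_const, probReal_univ, smul_eq_mul, one_mul]
  have h2 : ∑ m ∈ range k0, ∫ N, 8 ^ (m + 1) * Set.indicator {N : Matrix ι ι ℝ | C₂ + 1 < ‖wlT x D N ⟨e, 2 ^ m * η⟩‖}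
      (fun _ => (1 : ℝ)) N ∂gArr ι ι ≤ ∑ m ∈ range k0, 8 * q * (1 / 2) ^ m := by
    refine Finset.sum_le_sum fun m _ => ?_
    rw [integral_const_mul, integral_indicator (hSm m), setIntegral_const, smul_eq_mul, mul_one]
    have h3 := u3s_tail hD hC hL1 hL2 hL3 hx hη m
    rw [← hq] at h3
    calc (8 : ℝ) ^ (m + 1) * (gArr ι ι).real {N | C₂ + 1 < ‖wlT x D N ⟨e, 2 ^ m * η⟩‖}
        ≤ 8 ^ (m + 1) * (q * (1 / 16) ^ m) := mul_le_mul_of_nonneg_left h3 (by positivity)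
      _ = 8 * q * (8 * (1 / 16)) ^ m := by rw [pow_succ, mul_pow]; ring
      _ = 8 * q * (1 / 2) ^ m := by norm_num
  have h4 : ∑ m ∈ range k0, 8 * q * (1 / 2 : ℝ) ^ m ≤ 16 * q := by
    rw [← Finset.mul_sum]
    have h5 : ∑ m ∈ range k0, (1 / 2 : ℝ) ^ m ≤ 2 := by
      have := Summable.sum_le_tsum (range k0) (fun m _ => by positivity) (summable_geometric_two)
      rw [tsum_geometric_two] at this
      exact this
    nlinarith
  have e4 : 256 * (73728 * C₂ * Real.sqrt D) ^ 8 / η ^ 4 = 16 * q := by rw [hq]; ring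
  rw [e4]
  linarith

/-! ## 5. the site bound at one height -/

/-- the constant of (W) -/
def u3sC3 (D C₂ : ℝ) : ℝ := 7 * D * (C₂ + 2) + 18 * D + 5760 * (73728 * C₂ * Real.sqrt D) ^ 8

theorem u3s_eqns_cite : True := by
  have := @u3sC3.eq_1
  trivial

theorem u3s_C3_nonneg {D C₂ : ℝ} (hD : 0 ≤ D) (hC : 0 ≤ C₂) : 0 ≤ u3sC3 D C₂ := by
  unfold u3sC3
  positivity

theorem u3s_num {a b c : ℝ} (ha0 : 0 ≤ a) (ha : a ≤ 1 / 2) (hb0 : 0 ≤ b) (hb : b ≤ 4) (hc0 : 0 ≤ c) :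
    (1 + b) * ((1 + a) ^ 3 * (1 + c)) ≤ 1 + 7 * a + 9 / 2 * b + 45 / 2 * c := by
  have h1 : (1 + a) ^ 3 ≤ 1 + 7 * a := by nlinarith [mul_nonneg ha0 ha0, mul_nonneg (mul_nonneg ha0 ha0) ha0]
  have h2 : (1 + b) * (1 + 7 * a) ≤ 1 + 7 * a + 9 / 2 * b := by nlinarith [mul_nonneg hb0 (sub_nonneg.2 ha)]
  have h3 : (1 + 7 * a + 9 / 2 * b) * (1 + c) ≤ 1 + 7 * a + 9 / 2 * b + 45 / 2 * c := by
    nlinarith [mul_nonneg hc0 (sub_nonneg.2 ha), mul_nonneg hc0 (sub_nonneg.2 hb)]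
  calc (1 + b) * ((1 + a) ^ 3 * (1 + c)) = ((1 + b) * (1 + a) ^ 3) * (1 + c) := by ring
    _ ≤ ((1 + b) * (1 + 7 * a)) * (1 + c) := by gcongr
    _ ≤ (1 + 7 * a + 9 / 2 * b) * (1 + c) := by gcongr
    _ ≤ _ := h3

/-- **(W) at one height** (U3_295.md Lemma 4, core): UNCONDITIONAL expectation, uniform in the site, in the size of the matrix and in `x` -/
theorem u3s_site {x : ι → ℝ} {D e L C₂ η : ℝ} (hD : 0 < D) (hC : 0 ≤ C₂) (hL1 : 1 ≤ L) (hL2 : Real.sqrt D ≤ L)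
    (hL3 : 4 * D * (C₂ + 1) ≤ L) (hx : WlReg x e L C₂ (2 * D * (C₂ + 1))) (hη : L ≤ η) (j : ι) :
    ∫ N, η * (rsG (Matrix.diagonal x + Real.sqrt D • goeOf N) ⟨e, η⟩ j j).im ∂gArr ι ι
      ≤ (1 + u3sC3 D C₂ / η) * (η ^ 2 / ((x j - e) ^ 2 + η ^ 2)) := by
  have hη1 : 1 ≤ η := hL1.trans hη
  have hη0 : 0 < η := by linarith
  have h1 := u3s_mid x hD.le (z := ⟨e, η⟩) hη0 j
  have h2 := u3s_moment hD hC hL1 hL2 hL3 hx hη
  have e1 : ∀ N : Matrix ι ι ℝ, (rsG (u0M x D N) ⟨e, η⟩).trace = wlT x D N ⟨e, η⟩ := fun N => (wl_T_eq x D N _).symm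
  simp only [e1] at h1
  rw [integral_const_mul]
  obtain ⟨K, hK⟩ : ∃ K : ℝ, K = (73728 * C₂ * Real.sqrt D) ^ 8 := ⟨_, rfl⟩
  have hK0 : 0 ≤ K := by rw [hK]; positivity
  rw [← hK] at h2
  have hκ : 0 ≤ (1 + 4 * D / η ^ 2) * (η / ((x j - e) ^ 2 + η ^ 2)) := by positivity
  have h3 : ∫ N, (rsG (u0M x D N) ⟨e, η⟩ j j).im ∂gArr ι ι
      ≤ (1 + 4 * D / η ^ 2) * (η / ((x j - e) ^ 2 + η ^ 2)) * ((1 + D * (C₂ + 2) / η) ^ 3 * (1 + 256 * K / η ^ 4)) :=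
    h1.trans (mul_le_mul_of_nonneg_left h2 hκ)
  have ha : D * (C₂ + 2) / η ≤ 1 / 2 := by
    rw [div_le_iff₀ hη0]
    nlinarith
  have hDη : D ≤ η ^ 2 := by
    have := pow_le_pow_left₀ (Real.sqrt_nonneg D) (hL2.trans hη) 2
    rwa [Real.sq_sqrt hD.le] at this
  have hb : 4 * D / η ^ 2 ≤ 4 := by
    rw [div_le_iff₀ (by positivity)]
    linarith
  have h4 := u3s_num (a := D * (C₂ + 2) / η) (b := 4 * D / η ^ 2) (c := 256 * K / η ^ 4) (by positivity) ha (by positivity) hb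
    (by positivity)
  have hb' : 4 * D / η ^ 2 ≤ 4 * D / η := by
    apply div_le_div_of_nonneg_left (by positivity) hη0
    nlinarith
  have hc' : 256 * K / η ^ 4 ≤ 256 * K / η := by
    apply div_le_div_of_nonneg_left (by positivity) hη0
    have : η ^ 1 ≤ η ^ 4 := pow_le_pow_right₀ hη1 (by norm_num)
    simpa using this
  have h5 : 1 + 7 * (D * (C₂ + 2) / η) + 9 / 2 * (4 * D / η ^ 2) + 45 / 2 * (256 * K / η ^ 4) ≤ 1 + u3sC3 D C₂ / η := by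
    unfold u3sC3
    rw [← hK]
    have : (7 * D * (C₂ + 2) + 18 * D + 5760 * K) / η = 7 * (D * (C₂ + 2) / η) + 9 / 2 * (4 * D / η) + 45 / 2 * (256 * K / η) := by
      ring
    rw [this]
    linarith
  have hφ : 0 ≤ η ^ 2 / ((x j - e) ^ 2 + η ^ 2) := by positivity
  calc η * ∫ N, (rsG (Matrix.diagonal x + Real.sqrt D • goeOf N) ⟨e, η⟩ j j).im ∂gArr ι ι
      ≤ η * ((1 + 4 * D / η ^ 2) * (η / ((x j - e) ^ 2 + η ^ 2)) * ((1 + D * (C₂ + 2) / η) ^ 3 * (1 + 256 * K / η ^ 4))) :=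
        mul_le_mul_of_nonneg_left h3 hη0.le
    _ = ((1 + 4 * D / η ^ 2) * ((1 + D * (C₂ + 2) / η) ^ 3 * (1 + 256 * K / η ^ 4))) * (η ^ 2 / ((x j - e) ^ 2 + η ^ 2)) := by ring
    _ ≤ _ := mul_le_mul_of_nonneg_right (h4.trans h5) hφ

/-! ## 6. mixtures of heights, the flat core -/

theorem u3s_term_bounds (x : ι → ℝ) (D e : ℝ) {η : ℝ} (hη : 0 < η) (j : ι) (N : Matrix ι ι ℝ) :
    0 ≤ η * (rsG (Matrix.diagonal x + Real.sqrt D • goeOf N) ⟨e, η⟩ j j).im ∧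
      η * (rsG (Matrix.diagonal x + Real.sqrt D • goeOf N) ⟨e, η⟩ j j).im ≤ 1 := by
  have h1 := rs_G_im_pos (u0_M_herm x D N) (z := ⟨e, η⟩) hη j
  have h2 := rs_G_im_le (u0_M_herm x D N) (z := ⟨e, η⟩) hη j
  constructor
  · exact mul_nonneg hη.le h1.le
  · calc η * (rsG (u0M x D N) ⟨e, η⟩ j j).im ≤ η * (1 / η) := mul_le_mul_of_nonneg_left h2 hη.le
      _ = 1 := by field_simp

/-- **(W) for a mixture of Cauchy kernels** at the heights `η_m ≥ L` -/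
theorem u3s_mix {x : ι → ℝ} {D e L C₂ : ℝ} (hD : 0 < D) (hC : 0 ≤ C₂) (hL1 : 1 ≤ L) (hL2 : Real.sqrt D ≤ L)
    (hL3 : 4 * D * (C₂ + 1) ≤ L) (hx : WlReg x e L C₂ (2 * D * (C₂ + 1))) (c η : ℕ → ℝ) (hc : ∀ m, 0 ≤ c m) (hs : Summable c)
    (hη : ∀ m, L ≤ η m) (j : ι) :
    Integrable (fun N => ∑' m, c m * (η m * (rsG (Matrix.diagonal x + Real.sqrt D • goeOf N) ⟨e, η m⟩ j j).im)) (gArr ι ι) ∧
    ∫ N, ∑' m, c m * (η m * (rsG (Matrix.diagonal x + Real.sqrt D • goeOf N) ⟨e, η m⟩ j j).im) ∂gArr ι ι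
      ≤ (1 + u3sC3 D C₂ / L) * ∑' m, c m * (η m ^ 2 / ((x j - e) ^ 2 + η m ^ 2)) := by
  have hL0 : 0 < L := by linarith
  have hη0 : ∀ m, 0 < η m := fun m => hL0.trans_le (hη m)
  have hC3 := u3s_C3_nonneg hD.le hC
  have hmeas : ∀ m, Measurable fun N : Matrix ι ι ℝ => c m * (η m * (rsG (Matrix.diagonal x + Real.sqrt D • goeOf N) ⟨e, η m⟩ j j).im) :=
    fun m => ((Complex.measurable_im.comp ((u0_G_measurable _ j j).comp (u0_M_measurable x D))).const_mul _).const_mul _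
  have hb : ∀ m N, ‖c m * (η m * (rsG (Matrix.diagonal x + Real.sqrt D • goeOf N) ⟨e, η m⟩ j j).im)‖ ≤ c m := by
    intro m N
    obtain ⟨h1, h2⟩ := u3s_term_bounds x D e (hη0 m) j N
    rw [Real.norm_eq_abs, abs_of_nonneg (mul_nonneg (hc m) h1)]
    calc _ ≤ c m * 1 := mul_le_mul_of_nonneg_left h2 (hc m)
      _ = c m := mul_one _
  have hint : ∀ m, Integrable (fun N : Matrix ι ι ℝ => c m * (η m * (rsG (Matrix.diagonal x + Real.sqrt D • goeOf N) ⟨e, η m⟩ j j).im))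
      (gArr ι ι) := fun m =>
    Integrable.of_bound (C := c m) (hmeas m).aestronglyMeasurable (Filter.Eventually.of_forall (hb m))
  have hsum : Summable fun m => ∫ N, ‖c m * (η m * (rsG (Matrix.diagonal x + Real.sqrt D • goeOf N) ⟨e, η m⟩ j j).im)‖ ∂gArr ι ι := by
    refine Summable.of_nonneg_of_le (fun m => integral_nonneg fun N => norm_nonneg _) (fun m => ?_) hs
    calc _ ≤ ∫ _N : Matrix ι ι ℝ, c m ∂gArr ι ι := integral_mono (hint m).norm (integrable_const _) (hb m)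
      _ = c m := by simp
  have hI : Integrable (fun N => ∑' m, c m * (η m * (rsG (Matrix.diagonal x + Real.sqrt D • goeOf N) ⟨e, η m⟩ j j).im)) (gArr ι ι) := by
    refine Integrable.of_bound (C := ∑' m, c m) (Measurable.tsum hmeas).aestronglyMeasurable
      (Filter.Eventually.of_forall fun N => ?_)
    have hsN : Summable fun m => ‖c m * (η m * (rsG (Matrix.diagonal x + Real.sqrt D • goeOf N) ⟨e, η m⟩ j j).im)‖ :=
      Summable.of_nonneg_of_le (fun m => norm_nonneg _) (fun m => hb m N) hs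
    exact (norm_tsum_le_tsum_norm hsN).trans (hsN.tsum_le_tsum (fun m => hb m N) hs)
  refine ⟨hI, ?_⟩
  rw [← integral_tsum_of_summable_integral_norm hint hsum, ← tsum_mul_left]
  have hφ : ∀ m, 0 ≤ η m ^ 2 / ((x j - e) ^ 2 + η m ^ 2) ∧ η m ^ 2 / ((x j - e) ^ 2 + η m ^ 2) ≤ 1 := by
    intro m
    have := hη0 m
    refine ⟨by positivity, ?_⟩
    rw [div_le_one (by positivity)]
    nlinarith [sq_nonneg (x j - e)]
  have hterm : ∀ m, ∫ N, c m * (η m * (rsG (Matrix.diagonal x + Real.sqrt D • goeOf N) ⟨e, η m⟩ j j).im) ∂gArr ι ι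
      ≤ (1 + u3sC3 D C₂ / L) * (c m * (η m ^ 2 / ((x j - e) ^ 2 + η m ^ 2))) := by
    intro m
    rw [integral_const_mul]
    have h1 := u3s_site hD hC hL1 hL2 hL3 hx (hη m) j
    have h2 : 1 + u3sC3 D C₂ / η m ≤ 1 + u3sC3 D C₂ / L := by
      have := div_le_div_of_nonneg_left hC3 hL0 (hη m)
      linarith
    calc c m * ∫ N, η m * (rsG (Matrix.diagonal x + Real.sqrt D • goeOf N) ⟨e, η m⟩ j j).im ∂gArr ι ι
        ≤ c m * ((1 + u3sC3 D C₂ / L) * (η m ^ 2 / ((x j - e) ^ 2 + η m ^ 2))) :=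
          mul_le_mul_of_nonneg_left (h1.trans (mul_le_mul_of_nonneg_right h2 (hφ m).1)) (hc m)
      _ = _ := by ring
  have hs1 : Summable fun m => ∫ N, c m * (η m * (rsG (Matrix.diagonal x + Real.sqrt D • goeOf N) ⟨e, η m⟩ j j).im) ∂gArr ι ι := by
    refine Summable.of_norm_bounded hsum fun m => ?_
    exact norm_integral_le_integral_norm _
  have hs2 : Summable fun m => (1 + u3sC3 D C₂ / L) * (c m * (η m ^ 2 / ((x j - e) ^ 2 + η m ^ 2))) := by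
    refine Summable.mul_left _ (Summable.of_nonneg_of_le (fun m => mul_nonneg (hc m) (hφ m).1) (fun m => ?_) hs)
    calc _ ≤ c m * 1 := mul_le_mul_of_nonneg_left (hφ m).2 (hc m)
      _ = c m := mul_one _
  exact hs1.tsum_le_tsum hterm hs2

/-- **(W) with the flat core**: `E min(1, X/c₀) ≤ (1 + C₃/L) min(1, φ₀(x_j)/c₀)` -/
theorem u3s_min {x : ι → ℝ} {D e L C₂ c₀ : ℝ} (hD : 0 < D) (hC : 0 ≤ C₂) (hL1 : 1 ≤ L) (hL2 : Real.sqrt D ≤ L)
    (hL3 : 4 * D * (C₂ + 1) ≤ L) (hx : WlReg x e L C₂ (2 * D * (C₂ + 1))) (c η : ℕ → ℝ) (hc : ∀ m, 0 ≤ c m) (hs : Summable c)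
    (hη : ∀ m, L ≤ η m) (hc₀ : 0 < c₀) (j : ι) :
    ∫ N, min 1 ((∑' m, c m * (η m * (rsG (Matrix.diagonal x + Real.sqrt D • goeOf N) ⟨e, η m⟩ j j).im)) / c₀) ∂gArr ι ι
      ≤ (1 + u3sC3 D C₂ / L) * min 1 ((∑' m, c m * (η m ^ 2 / ((x j - e) ^ 2 + η m ^ 2))) / c₀) := by
  have hL0 : 0 < L := by linarith
  have hC3 := u3s_C3_nonneg hD.le hC
  obtain ⟨hI, hle⟩ := u3s_mix hD hC hL1 hL2 hL3 hx c η hc hs hη j
  have hε : 1 ≤ 1 + u3sC3 D C₂ / L := by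
    have : 0 ≤ u3sC3 D C₂ / L := by positivity
    linarith
  have hmin : Integrable (fun N => min 1 ((∑' m, c m * (η m * (rsG (Matrix.diagonal x + Real.sqrt D • goeOf N) ⟨e, η m⟩ j j).im)) / c₀))
      (gArr ι ι) := (integrable_const (1 : ℝ)).inf (hI.div_const c₀)
  have h1 : ∫ N, min 1 ((∑' m, c m * (η m * (rsG (Matrix.diagonal x + Real.sqrt D • goeOf N) ⟨e, η m⟩ j j).im)) / c₀) ∂gArr ι ι ≤ 1 := by
    calc _ ≤ ∫ _N : Matrix ι ι ℝ, (1 : ℝ) ∂gArr ι ι := integral_mono hmin (integrable_const _) fun N => min_le_left _ _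
      _ = 1 := by simp
  have h2 : ∫ N, min 1 ((∑' m, c m * (η m * (rsG (Matrix.diagonal x + Real.sqrt D • goeOf N) ⟨e, η m⟩ j j).im)) / c₀) ∂gArr ι ι
      ≤ (1 + u3sC3 D C₂ / L) * ((∑' m, c m * (η m ^ 2 / ((x j - e) ^ 2 + η m ^ 2))) / c₀) := by
    calc _ ≤ ∫ N, (∑' m, c m * (η m * (rsG (Matrix.diagonal x + Real.sqrt D • goeOf N) ⟨e, η m⟩ j j).im)) / c₀ ∂gArr ι ι :=
          integral_mono hmin (hI.div_const c₀) fun N => min_le_right _ _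
      _ = (∫ N, ∑' m, c m * (η m * (rsG (Matrix.diagonal x + Real.sqrt D • goeOf N) ⟨e, η m⟩ j j).im) ∂gArr ι ι) / c₀ :=
          integral_div _ _
      _ ≤ ((1 + u3sC3 D C₂ / L) * ∑' m, c m * (η m ^ 2 / ((x j - e) ^ 2 + η m ^ 2))) / c₀ :=
          div_le_div_of_nonneg_right hle hc₀.le
      _ = _ := by ring
  rcases le_total 1 ((∑' m, c m * (η m ^ 2 / ((x j - e) ^ 2 + η m ^ 2))) / c₀) with h | h
  · rw [min_eq_left h]
    linarith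
  · rw [min_eq_right h]
    exact h2

/-! ## 7. the exit `u3t_W` -/

theorem u3s_c_summable {α : ℝ} (hα : 0 < α) : Summable fun m : ℕ => (4 : ℝ) ^ (-(α * m)) := by
  have e : ∀ m : ℕ, (4 : ℝ) ^ (-(α * m)) = ((4 : ℝ) ^ (-α)) ^ m := by
    intro m
    rw [← Real.rpow_natCast, ← Real.rpow_mul (by norm_num)]
    congr 1
    ring
  simp only [e]
  refine summable_geometric_of_lt_one (Real.rpow_nonneg (by norm_num) _) ?_
  exact Real.rpow_lt_one_of_one_lt_of_neg (by norm_num) (by linarith)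

theorem u3s_Phi0_pos {L α : ℝ} (hL : 0 < L) (hα : 0 < α) (s : ℝ) : 0 < uwPhi0 L α s := by
  unfold uwPhi0
  have hnn : ∀ m : ℕ, 0 ≤ (4 : ℝ) ^ (-(α * m)) * ((2 ^ m * L) ^ 2 / (s ^ 2 + (2 ^ m * L) ^ 2)) := fun m =>
    mul_nonneg (Real.rpow_nonneg (by norm_num) _) (by positivity)
  have hs : Summable fun m : ℕ => (4 : ℝ) ^ (-(α * m)) * ((2 ^ m * L) ^ 2 / (s ^ 2 + (2 ^ m * L) ^ 2)) := by
    refine Summable.of_nonneg_of_le hnn (fun m => ?_) (u3s_c_summable hα)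
    have h1 : (2 ^ m * L) ^ 2 / (s ^ 2 + (2 ^ m * L) ^ 2) ≤ 1 := by
      rw [div_le_one (by positivity)]
      nlinarith [sq_nonneg s]
    calc _ ≤ (4 : ℝ) ^ (-(α * m)) * 1 := mul_le_mul_of_nonneg_left h1 (Real.rpow_nonneg (by norm_num) _)
      _ = _ := mul_one _
  refine hs.tsum_pos hnn 0 ?_
  have : (0 : ℝ) < (4 : ℝ) ^ (-(α * ((0 : ℕ) : ℝ))) := Real.rpow_pos_of_pos (by norm_num) _
  positivity

theorem u3s_Hat0_eq (L α : ℝ) (x : ι → ℝ) (D : ℝ) (N : Matrix ι ι ℝ) (j : ι) :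
    uwHat0 L α (wlM x D N) j
      = ∑' m : ℕ, (4 : ℝ) ^ (-(α * m)) * ((2 ^ m * L) * (rsG (Matrix.diagonal x + Real.sqrt D • goeOf N) ⟨0, 2 ^ m * L⟩ j j).im) := by
  unfold uwHat0
  refine tsum_congr fun m => ?_
  rw [rs_G_eq_rsv]
  rfl

/-- **EXIT D2 = Lemma 4 (W)**: UNCONDITIONAL expectation, all sites, any finite index set (statement of `u3t_W`) -/
theorem u3s_W (C₂ : ℝ) (hC₂ : 1 ≤ C₂) : ∃ C₃ L₀ : ℝ, 0 ≤ C₃ ∧ ∀ L : ℝ, L₀ ≤ L → ∀ α : ℝ, 0 < α → α < 1 →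
    ∀ (J : Type) [Fintype J] [DecidableEq J] (v : J → ℝ), WlReg v 0 L C₂ (2 * 1 * (C₂ + 1)) → ∀ j : J,
      ∫⁻ N, ENNReal.ofReal (uwHat L α (wlM v 1 N) j) ∂(gArr J J) ≤ ENNReal.ofReal ((1 + C₃ / L) * uwPhi L α (v j)) := by
  have hC0 : 0 ≤ C₂ := by linarith
  refine ⟨u3sC3 1 C₂, 4 * 1 * (C₂ + 1), u3s_C3_nonneg (by norm_num) hC0, ?_⟩
  intro L hL α hα _ J _ _ v hv j
  have hL1 : 1 ≤ L := by linarith
  have hL0 : 0 < L := by linarith
  have hL2 : Real.sqrt 1 ≤ L := by rw [Real.sqrt_one]; exact hL1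
  have hc : ∀ m : ℕ, 0 ≤ (4 : ℝ) ^ (-(α * m)) := fun m => Real.rpow_nonneg (by norm_num) _
  have hη : ∀ m : ℕ, L ≤ 2 ^ m * L := fun m => le_mul_of_one_le_left hL0.le (one_le_pow₀ (by norm_num))
  have hc₀ := u3s_Phi0_pos hL0 hα L
  have h := u3s_min (x := v) (D := 1) (e := 0) (L := L) (C₂ := C₂) (c₀ := uwPhi0 L α L) (by norm_num) hC0 hL1 hL2 hL hv
    (fun m : ℕ => (4 : ℝ) ^ (-(α * m))) (fun m : ℕ => 2 ^ m * L) hc (u3s_c_summable hα) hη hc₀ j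
  obtain ⟨hI, -⟩ := u3s_mix (x := v) (D := 1) (e := 0) (L := L) (C₂ := C₂) (by norm_num) hC0 hL1 hL2 hL hv
    (fun m : ℕ => (4 : ℝ) ^ (-(α * m))) (fun m : ℕ => 2 ^ m * L) hc (u3s_c_summable hα) hη j
  have e1 : ∀ N : Matrix J J ℝ, uwHat L α (wlM v 1 N) j
      = min 1 ((∑' m : ℕ, (4 : ℝ) ^ (-(α * m)) * ((2 ^ m * L) * (rsG (Matrix.diagonal v + Real.sqrt 1 • goeOf N) ⟨0, 2 ^ m * L⟩ j j).im))
          / uwPhi0 L α L) := by
    intro N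
    unfold uwHat
    rw [u3s_Hat0_eq]
  have e2 : uwPhi L α (v j) = min 1 ((∑' m : ℕ, (4 : ℝ) ^ (-(α * m)) * ((2 ^ m * L) ^ 2 / ((v j - 0) ^ 2 + (2 ^ m * L) ^ 2))) / uwPhi0 L α L) := by
    unfold uwPhi
    rw [sub_zero]
    rfl
  simp only [e1]
  rw [e2]
  have hnn : ∀ N : Matrix J J ℝ, 0 ≤ min 1 ((∑' m : ℕ, (4 : ℝ) ^ (-(α * m)) * ((2 ^ m * L)
      * (rsG (Matrix.diagonal v + Real.sqrt 1 • goeOf N) ⟨0, 2 ^ m * L⟩ j j).im)) / uwPhi0 L α L) := by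
    intro N
    refine le_min zero_le_one (div_nonneg (tsum_nonneg fun m => mul_nonneg (hc m) ?_) hc₀.le)
    exact (u3s_term_bounds v 1 0 (hL0.trans_le (hη m)) j N).1
  have hmin : Integrable (fun N : Matrix J J ℝ => min 1 ((∑' m : ℕ, (4 : ℝ) ^ (-(α * m)) * ((2 ^ m * L)
      * (rsG (Matrix.diagonal v + Real.sqrt 1 • goeOf N) ⟨0, 2 ^ m * L⟩ j j).im)) / uwPhi0 L α L)) (gArr J J) :=
    (integrable_const (1 : ℝ)).inf (hI.div_const _)
  rw [← ofReal_integral_eq_lintegral_ofReal hmin (Filter.Eventually.of_forall hnn)]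
  exact ENNReal.ofReal_le_ofReal h

end

end Claimed.Agent.R287
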