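import Claimed.Agent.R287.ResC

/-!
# Row 287 (S0534): RESOLVENT KIT, part 4      (helper240; prefix `rs`)

* `rs_two_*`: explicit `2 × 2` Schur block;   `rs_G_diagonal`, `rs_cSK`;   orthogonal conjugation, shift, scaling;
* `rs_trace_block`: `Tr G = Tr' G^{(T)} + ∑_{s,t ∈ T} G_st (δ_ts + (A G^{(T)2} A)_ts)`;
* `rs_del_submatrix`: the zeroed minor restricted to `Tᶜ` is the resolvent of the genuine principal submatrix;
* `rs_G_lip`, `rs_G_cont`, `rs_G_measurable` (jointly in the matrix and in `z`), `rs_G_deriv` (`d/dt G(A + tB) = - G B G`).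
-/

set_option autoImplicit false
set_option linter.unusedSectionVars false

namespace Claimed.Agent.R287

open Matrix Complex ComplexConjugate Filter Topology

variable {V : Type} [Fintype V] [DecidableEq V]

/-! ### the `2 × 2` block -/

section two

variable {A : Matrix V V ℝ} (hA : A.IsHermitian) {z : ℂ} (hz : z.im ≠ 0) {j k : V} (hjk : j ≠ k)

include hA hz hjk

theorem rs_two_eqs :
    rsS A {j, k} z j j * rsG A z j j + rsS A {j, k} z j k * rsG A z j k = 1 ∧
    rsS A {j, k} z j k * rsG A z j j + rsS A {j, k} z k k * rsG A z j k = 0 ∧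
    rsS A {j, k} z j j * rsG A z j k + rsS A {j, k} z j k * rsG A z k k = 0 ∧
    rsS A {j, k} z j k * rsG A z j k + rsS A {j, k} z k k * rsG A z k k = 1 := by
  have hj : j ∈ ({j, k} : Finset V) := by simp
  have hk : k ∈ ({j, k} : Finset V) := by simp
  have h1 := rs_schur_TT hA hz hj hj
  have h2 := rs_schur_TT hA hz hk hj
  have h3 := rs_schur_TT hA hz hj hk
  have h4 := rs_schur_TT hA hz hk hk
  rw [Finset.sum_pair hjk] at h1 h2 h3 h4
  rw [if_pos rfl] at h1 h4
  rw [if_neg (Ne.symm hjk)] at h2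
  rw [if_neg hjk] at h3
  rw [rs_G_symm hA hz k j] at h1 h2
  rw [rs_S_symm hA hz _ k j] at h2 h4
  exact ⟨h1, h2, h3, h4⟩

/-- the determinant of the `2 × 2` Schur block does not vanish -/
theorem rs_two_det_ne : rsS A {j, k} z j j * rsS A {j, k} z k k - rsS A {j, k} z j k ^ 2 ≠ 0 := by
  obtain ⟨h1, h2, h3, h4⟩ := rs_two_eqs hA hz hjk
  intro hD
  have e1 : (rsS A {j, k} z j j * rsS A {j, k} z k k - rsS A {j, k} z j k ^ 2) * rsG A z j j = rsS A {j, k} z k k := by
    linear_combination rsS A {j, k} z k k * h1 - rsS A {j, k} z j k * h2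
  have e2 : (rsS A {j, k} z j j * rsS A {j, k} z k k - rsS A {j, k} z j k ^ 2) * rsG A z j k = - rsS A {j, k} z j k := by
    linear_combination rsS A {j, k} z j j * h2 - rsS A {j, k} z j k * h1
  rw [hD, zero_mul] at e1 e2
  rw [← e1, zero_mul, add_zero] at h4
  have : rsS A {j, k} z j k = 0 := by linear_combination e2
  rw [this, zero_mul] at h4
  exact zero_ne_one h4

/-- `G_jj = S_kk / (S_jj S_kk - S_jk²)` -/
theorem rs_two_jj : rsG A z j j = rsS A {j, k} z k k / (rsS A {j, k} z j j * rsS A {j, k} z k k - rsS A {j, k} z j k ^ 2) := by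
  obtain ⟨h1, h2, -, -⟩ := rs_two_eqs hA hz hjk
  rw [eq_div_iff (rs_two_det_ne hA hz hjk)]
  linear_combination rsS A {j, k} z k k * h1 - rsS A {j, k} z j k * h2

/-- `G_kk = S_jj / (S_jj S_kk - S_jk²)` -/
theorem rs_two_kk : rsG A z k k = rsS A {j, k} z j j / (rsS A {j, k} z j j * rsS A {j, k} z k k - rsS A {j, k} z j k ^ 2) := by
  obtain ⟨-, -, h3, h4⟩ := rs_two_eqs hA hz hjk
  rw [eq_div_iff (rs_two_det_ne hA hz hjk)]
  linear_combination rsS A {j, k} z j j * h4 - rsS A {j, k} z j k * h3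

/-- `G_jk = - S_jk / (S_jj S_kk - S_jk²)` -/
theorem rs_two_jk : rsG A z j k = - rsS A {j, k} z j k / (rsS A {j, k} z j j * rsS A {j, k} z k k - rsS A {j, k} z j k ^ 2) := by
  obtain ⟨h1, h2, -, -⟩ := rs_two_eqs hA hz hjk
  rw [eq_div_iff (rs_two_det_ne hA hz hjk)]
  linear_combination rsS A {j, k} z j j * h2 - rsS A {j, k} z j k * h1

end two

/-! ### diagonal matrices, conjugation, shift, scaling -/

theorem rs_diag_herm (x : V → ℝ) : (diagonal x).IsHermitian := by
  refine rs_herm ?_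
  exact Matrix.isSymm_diagonal x

theorem rs_G_diagonal (x : V → ℝ) {z : ℂ} (hz : z.im ≠ 0) : rsG (diagonal x) z = diagonal fun i => ((x i : ℂ) - z)⁻¹ := by
  rw [rsG]
  apply Matrix.inv_eq_right_inv
  have e : rsC (diagonal x) - z • (1 : Matrix V V ℂ) = diagonal fun i => (x i : ℂ) - z := by
    rw [rs_C_diagonal]
    ext a b
    by_cases h : a = b
    · subst h; simp
    · simp [h]
  rw [e, diagonal_mul_diagonal]
  have : (fun i => ((x i : ℂ) - z) * ((x i : ℂ) - z)⁻¹) = fun _ => (1 : ℂ) := by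
    funext i; exact mul_inv_cancel₀ (rs_ne hz)
  rw [this, diagonal_one]

/-- the truncated Stieltjes sums of `Defs` are resolvent traces of diagonal matrices -/
theorem rs_cSK (K : ℕ) (x : Conf) {z : ℂ} (hz : z.im ≠ 0) : cSK K x z = (rsG (diagonal (cPos K x)) z).trace := by
  rw [rs_G_diagonal _ hz, Matrix.trace_diagonal, cSK]

theorem rs_cSK_rTr (K : ℕ) (x : Conf) {z : ℂ} (hz : z.im ≠ 0) : cSK K x z = rTr (diagonal (cPos K x)) z := by
  rw [rs_rTr, rs_cSK K x hz]

/-- orthogonal conjugation -/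
theorem rs_G_orth {A : Matrix V V ℝ} (hA : A.IsHermitian) {z : ℂ} (hz : z.im ≠ 0) {O : Matrix V V ℝ} (hO : O * Oᵀ = 1) :
    rsG (O * A * Oᵀ) z = rsC O * rsG A z * rsC Oᵀ := by
  have hO' : Oᵀ * O = 1 := mul_eq_one_comm.1 hO
  have h1 : rsC O * rsC Oᵀ = 1 := by rw [← rs_C_mul, hO, rs_C_one]
  have h2 : rsC Oᵀ * rsC O = 1 := by rw [← rs_C_mul, hO', rs_C_one]
  rw [rsG]
  apply Matrix.inv_eq_right_inv
  have e : rsC (O * A * Oᵀ) - z • (1 : Matrix V V ℂ) = rsC O * (rsC A - z • (1 : Matrix V V ℂ)) * rsC Oᵀ := by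
    rw [mul_sub, sub_mul, mul_smul_comm, smul_mul_assoc, mul_one, h1, rs_C_mul, rs_C_mul]
  rw [e]
  calc rsC O * (rsC A - z • (1 : Matrix V V ℂ)) * rsC Oᵀ * (rsC O * rsG A z * rsC Oᵀ)
      = rsC O * ((rsC A - z • (1 : Matrix V V ℂ)) * (rsC Oᵀ * rsC O) * rsG A z) * rsC Oᵀ := by simp only [Matrix.mul_assoc]
    _ = 1 := by rw [h2, mul_one, rs_mul_G hA hz, mul_one, h1]

theorem rs_trace_orth {A : Matrix V V ℝ} (hA : A.IsHermitian) {z : ℂ} (hz : z.im ≠ 0) {O : Matrix V V ℝ} (hO : O * Oᵀ = 1) :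
    (rsG (O * A * Oᵀ) z).trace = (rsG A z).trace := by
  have hO' : Oᵀ * O = 1 := mul_eq_one_comm.1 hO
  rw [rs_G_orth hA hz hO, Matrix.trace_mul_comm, ← Matrix.mul_assoc, ← rs_C_mul, hO', rs_C_one, one_mul]

theorem rs_orth_herm {A : Matrix V V ℝ} (hA : A.IsHermitian) (O : Matrix V V ℝ) : (O * A * Oᵀ).IsHermitian := by
  have := Matrix.isHermitian_mul_mul_conjTranspose O hA
  rwa [conjTranspose_eq_transpose_of_trivial] at this

/-- shift of the matrix = shift of the spectral parameter -/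
theorem rs_G_shift (A : Matrix V V ℝ) (s : ℝ) (z : ℂ) : rsG (A + s • (1 : Matrix V V ℝ)) z = rsG A (z - s) := by
  rw [rsG, rsG]
  congr 1
  ext a b
  by_cases h : a = b
  · subst h; simp; ring
  · simp [h]

/-- scaling -/
theorem rs_G_smul {A : Matrix V V ℝ} (hA : A.IsHermitian) {z : ℂ} (hz : z.im ≠ 0) {c : ℝ} (hc : c ≠ 0) :
    rsG (c • A) z = (c : ℂ)⁻¹ • rsG A (z / c) := by
  have hc' : (c : ℂ) ≠ 0 := by exact_mod_cast hc
  have hz' : (z / c).im ≠ 0 := by
    rw [Complex.div_ofReal_im]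
    exact div_ne_zero hz hc
  rw [rsG]
  apply Matrix.inv_eq_right_inv
  have e : rsC (c • A) - z • (1 : Matrix V V ℂ) = (c : ℂ) • (rsC A - (z / c) • (1 : Matrix V V ℂ)) := by
    ext a b
    by_cases h : a = b
    · subst h; simp; field_simp
    · simp [h]
  rw [e, smul_mul_smul_comm, mul_inv_cancel₀ hc', one_smul, rs_mul_G hA hz']

/-! ### the trace through a block -/

/-- for `x ∉ T`: `G_xx = G^{(T)}_xx + ∑_{v,v' ∈ T} K_xv K_xv' G_v'v`, `K_xv = ∑_{u ∉ T} G^{(T)}_xu A_uv` -/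
theorem rs_diag_out {A : Matrix V V ℝ} (hA : A.IsHermitian) {z : ℂ} (hz : z.im ≠ 0) {T : Finset V} {x : V} (hx : x ∉ T) :
    rsG A z x x = rsG (rsDel A T) z x x
      + ∑ v ∈ T, ∑ v' ∈ T, (∑ u ∈ Tᶜ, rsG (rsDel A T) z x u * (A u v : ℂ)) * (∑ u ∈ Tᶜ, rsG (rsDel A T) z x u * (A u v' : ℂ)) * rsG A z v' v := by
  rw [rs_minor_exp hA hz hx x, sub_eq_add_neg, ← Finset.sum_neg_distrib]
  congr 1
  refine Finset.sum_congr rfl fun v hv => ?_
  rw [rs_G_symm hA hz v x, rs_minor_exp hA hz hx v, rs_del_G_out_in hA hz hx hv, zero_sub, mul_neg, neg_neg, Finset.mul_sum]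
  exact Finset.sum_congr rfl fun v' _ => by ring

/-- **trace through a block**:
`Tr G = ∑_{x ∉ T} G^{(T)}_xx + ∑_{s,t ∈ T} G_st (δ_st + ∑_{u,u' ∉ T} A_us (∑_{x ∉ T} G^{(T)}_xu G^{(T)}_xu') A_u't)` -/
theorem rs_trace_block {A : Matrix V V ℝ} (hA : A.IsHermitian) {z : ℂ} (hz : z.im ≠ 0) (T : Finset V) :
    (rsG A z).trace = ∑ x ∈ Tᶜ, rsG (rsDel A T) z x x
      + ∑ s ∈ T, ∑ t ∈ T, rsG A z t s * ((if s = t then 1 else 0)
          + ∑ x ∈ Tᶜ, (∑ u ∈ Tᶜ, rsG (rsDel A T) z x u * (A u s : ℂ)) * (∑ u ∈ Tᶜ, rsG (rsDel A T) z x u * (A u t : ℂ))) := by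
  rw [Matrix.trace, ← Finset.sum_add_sum_compl T]
  simp only [Matrix.diag_apply]
  rw [Finset.sum_congr rfl (fun x hx => rs_diag_out hA hz (Finset.mem_compl.1 hx)), Finset.sum_add_distrib]
  have e1 : ∑ s ∈ T, ∑ t ∈ T, rsG A z t s * ((if s = t then 1 else 0)
          + ∑ x ∈ Tᶜ, (∑ u ∈ Tᶜ, rsG (rsDel A T) z x u * (A u s : ℂ)) * (∑ u ∈ Tᶜ, rsG (rsDel A T) z x u * (A u t : ℂ)))
      = ∑ s ∈ T, rsG A z s s + ∑ s ∈ T, ∑ t ∈ T, ∑ x ∈ Tᶜ,
          (∑ u ∈ Tᶜ, rsG (rsDel A T) z x u * (A u s : ℂ)) * (∑ u ∈ Tᶜ, rsG (rsDel A T) z x u * (A u t : ℂ)) * rsG A z t s := by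
    rw [← Finset.sum_add_distrib]
    refine Finset.sum_congr rfl fun s hs => ?_
    simp only [mul_add, Finset.sum_add_distrib]
    congr 1
    · rw [Finset.sum_eq_single s]
      · rw [if_pos rfl, mul_one]
      · intro t _ ht; rw [if_neg (Ne.symm ht), mul_zero]
      · intro h; exact absurd hs h
    · refine Finset.sum_congr rfl fun t _ => ?_
      rw [Finset.mul_sum]
      exact Finset.sum_congr rfl fun x _ => by ring
  rw [e1]
  have e2 : ∑ x ∈ Tᶜ, ∑ v ∈ T, ∑ v' ∈ T, (∑ u ∈ Tᶜ, rsG (rsDel A T) z x u * (A u v : ℂ)) * (∑ u ∈ Tᶜ, rsG (rsDel A T) z x u * (A u v' : ℂ)) * rsG A z v' v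
      = ∑ s ∈ T, ∑ t ∈ T, ∑ x ∈ Tᶜ,
          (∑ u ∈ Tᶜ, rsG (rsDel A T) z x u * (A u s : ℂ)) * (∑ u ∈ Tᶜ, rsG (rsDel A T) z x u * (A u t : ℂ)) * rsG A z t s := by
    rw [Finset.sum_comm]
    refine Finset.sum_congr rfl fun s _ => ?_
    rw [Finset.sum_comm]
  rw [e2]
  ring

/-! ### the zeroed minor and the genuine principal submatrix -/

theorem rs_sub_herm {ι : Type} {A : Matrix V V ℝ} (hA : A.IsHermitian) (e : ι → V) : (A.submatrix e e).IsHermitian := hA.submatrix e

/-- if `e : ι → V` is injective with range `Tᶜ`, then `G^{(T)}` restricted along `e` is the resolvent of `A.submatrix e e` -/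
theorem rs_del_submatrix {ι : Type} [Fintype ι] [DecidableEq ι] {A : Matrix V V ℝ} (hA : A.IsHermitian) {z : ℂ} (hz : z.im ≠ 0)
    (T : Finset V) (e : ι → V) (he : Function.Injective e) (hr : ∀ x, x ∉ T ↔ ∃ i, e i = x) :
    rsG (A.submatrix e e) z = (rsG (rsDel A T) z).submatrix e e := by
  rw [rsG]
  apply Matrix.inv_eq_right_inv
  ext i k
  rw [sub_mul, smul_mul_assoc, one_mul, Matrix.sub_apply, Matrix.smul_apply, smul_eq_mul, Matrix.mul_apply, Matrix.one_apply]
  simp only [rs_C_apply, Matrix.submatrix_apply]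
  have hi : e i ∉ T := (hr _).2 ⟨i, rfl⟩
  have h := rs_eq_left (rs_del_herm hA T) hz (e i) (e k)
  have h1 : ∑ y, (rsDel A T (e i) y : ℂ) * rsG (rsDel A T) z y (e k) = ∑ l, (A (e i) (e l) : ℂ) * rsG (rsDel A T) z (e l) (e k) := by
    rw [← Finset.sum_add_sum_compl T]
    have h0 : ∑ y ∈ T, (rsDel A T (e i) y : ℂ) * rsG (rsDel A T) z y (e k) = 0 :=
      Finset.sum_eq_zero fun y hy => by rw [rs_del_right A _ hy]; simp
    rw [h0, zero_add]
    symm
    refine Finset.sum_bij (fun l _ => e l) (fun l _ => Finset.mem_compl.2 ((hr _).2 ⟨l, rfl⟩)) (fun a _ b _ hab => he hab) ?_ ?_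
    · intro y hy
      obtain ⟨l, hl⟩ := (hr y).1 (Finset.mem_compl.1 hy)
      exact ⟨l, Finset.mem_univ _, hl⟩
    · intro l _
      rw [rs_del_out A hi ((hr _).2 ⟨l, rfl⟩)]
  rw [h1] at h
  rw [h]
  by_cases hik : i = k
  · subst hik; simp
  · rw [if_neg hik, if_neg (fun h' => hik (he h'))]; ring



/-! ### dependence on the matrix: Lipschitz, continuity, measurability, derivative -/

/-- `|G_A - G_B|_xy ≤ η⁻² ∑_{ab} |B_ab - A_ab|` -/
theorem rs_G_lip {A B : Matrix V V ℝ} (hA : A.IsHermitian) (hB : B.IsHermitian) {z : ℂ} (hz : 0 < z.im) (x y : V) :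
    ‖rsG A z x y - rsG B z x y‖ ≤ (∑ a, ∑ b, |B a b - A a b|) / z.im ^ 2 := by
  have h := congrFun (congrFun (rs_res_A hA hB hz.ne') x) y
  rw [Matrix.sub_apply, Matrix.mul_assoc, Matrix.mul_apply] at h
  rw [h, Finset.sum_div]
  refine (norm_sum_le _ _).trans (Finset.sum_le_sum fun a _ => ?_)
  rw [Matrix.mul_apply, Finset.mul_sum, Finset.sum_div]
  refine (norm_sum_le _ _).trans (Finset.sum_le_sum fun b _ => ?_)
  rw [norm_mul, norm_mul, rs_C_apply, Matrix.sub_apply, Complex.norm_real, Real.norm_eq_abs]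
  have h1 := rs_G_le hA hz x a
  have h2 := rs_G_le hB hz b y
  calc ‖rsG A z x a‖ * (|B a b - A a b| * ‖rsG B z b y‖) ≤ (1 / z.im) * (|B a b - A a b| * (1 / z.im)) :=
        mul_le_mul h1 (mul_le_mul_of_nonneg_left h2 (abs_nonneg _)) (by positivity) (by positivity)
    _ = |B a b - A a b| / z.im ^ 2 := by field_simp

/-- the entries of the resolvent as `det⁻¹ * adjugate` -/
theorem rs_G_adj (A : Matrix V V ℝ) (z : ℂ) (x y : V) :
    rsG A z x y = ((rsC A - z • (1 : Matrix V V ℂ)).det)⁻¹ * (rsC A - z • (1 : Matrix V V ℂ)).adjugate x y := by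
  rw [rsG, Matrix.inv_def, Matrix.smul_apply, Ring.inverse_eq_inv', smul_eq_mul]

theorem rs_shift_cont : Continuous fun p : Matrix V V ℝ × ℂ => rsC p.1 - p.2 • (1 : Matrix V V ℂ) := by
  refine Continuous.sub ?_ (continuous_snd.smul continuous_const)
  refine continuous_matrix fun a b => ?_
  exact Complex.continuous_ofReal.comp ((continuous_apply_apply a b).comp continuous_fst)

/-- **joint measurability** of the resolvent entries in the matrix (ALL real matrices) and in `z` -/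
theorem rs_G_measurable₂ (x y : V) : Measurable fun p : Matrix V V ℝ × ℂ => rsG p.1 p.2 x y := by
  simp only [rs_G_adj]
  refine Measurable.mul (Measurable.inv ?_) ?_
  · exact (rs_shift_cont.matrix_det).measurable
  · exact ((continuous_apply_apply x y).comp rs_shift_cont.matrix_adjugate).measurable

theorem rs_G_measurable (z : ℂ) (x y : V) : Measurable fun A : Matrix V V ℝ => rsG A z x y := by
  simp only [rs_G_adj]
  have hc : Continuous fun A : Matrix V V ℝ => rsC A - z • (1 : Matrix V V ℂ) :=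
    rs_shift_cont.comp (continuous_id.prodMk continuous_const)
  exact Measurable.mul (Measurable.inv hc.matrix_det.measurable) ((continuous_apply_apply x y).comp hc.matrix_adjugate).measurable

theorem rs_trace_measurable (z : ℂ) : Measurable fun A : Matrix V V ℝ => (rsG A z).trace := by
  unfold Matrix.trace
  exact Finset.measurable_sum _ fun x _ => rs_G_measurable z x x

theorem rs_rTr_measurable (z : ℂ) : Measurable fun A : Matrix V V ℝ => rTr A z := rs_trace_measurable z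

/-- **continuity** along a continuous family of symmetric matrices and spectral parameters off the real axis -/
theorem rs_G_cont {X : Type} [TopologicalSpace X] {f : X → Matrix V V ℝ} {g : X → ℂ} (hf : Continuous f) (hg : Continuous g)
    (hH : ∀ t, (f t).IsHermitian) (hz : ∀ t, (g t).im ≠ 0) (x y : V) : Continuous fun t => rsG (f t) (g t) x y := by
  simp only [rs_G_adj]
  have hc : Continuous fun t => rsC (f t) - g t • (1 : Matrix V V ℂ) := rs_shift_cont.comp (hf.prodMk hg)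
  refine Continuous.mul (Continuous.inv₀ hc.matrix_det fun t => (rs_isUnit (hH t) (hz t)).ne_zero) ?_
  exact (continuous_apply_apply x y).comp hc.matrix_adjugate

theorem rs_trace_cont {X : Type} [TopologicalSpace X] {f : X → Matrix V V ℝ} {g : X → ℂ} (hf : Continuous f) (hg : Continuous g)
    (hH : ∀ t, (f t).IsHermitian) (hz : ∀ t, (g t).im ≠ 0) : Continuous fun t => (rsG (f t) (g t)).trace := by
  unfold Matrix.trace
  exact continuous_finsetSum _ fun x _ => rs_G_cont hf hg hH hz x x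

/-- **derivative in the matrix**: `d/dt G(A + tB) = - G B G` -/
theorem rs_G_deriv {A B : Matrix V V ℝ} (hA : A.IsHermitian) (hB : B.IsHermitian) {z : ℂ} (hz : z.im ≠ 0) (x y : V) :
    HasDerivAt (fun t : ℝ => rsG (A + t • B) z x y) (-(rsG A z * rsC B * rsG A z) x y) 0 := by
  have hH : ∀ t : ℝ, (A + t • B).IsHermitian := fun t => by
    refine hA.add ?_
    refine rs_herm ?_
    ext a b
    rw [Matrix.transpose_apply, Matrix.smul_apply, Matrix.smul_apply, rs_A_symm hB b a]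
  have hfc : Continuous fun t : ℝ => A + t • B := continuous_const.add (continuous_id.smul continuous_const)
  -- the difference quotient
  have hq : ∀ t : ℝ, rsG (A + t • B) z x y - rsG A z x y = (t : ℂ) * (-(rsG (A + t • B) z * rsC B * rsG A z) x y) := by
    intro t
    have h := congrFun (congrFun (rs_res_A (hH t) hA hz) x) y
    rw [Matrix.sub_apply] at h
    rw [h]
    have e : rsC (A - (A + t • B)) = (-(t : ℂ)) • rsC B := by
      ext a b
      simp
    rw [e, mul_smul_comm, smul_mul_assoc, Matrix.smul_apply, smul_eq_mul]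
    ring
  have hcont : Continuous fun t : ℝ => -(rsG (A + t • B) z * rsC B * rsG A z) x y := by
    refine Continuous.neg ?_
    simp only [Matrix.mul_apply]
    refine continuous_finsetSum _ fun b _ => Continuous.mul ?_ continuous_const
    refine continuous_finsetSum _ fun a _ => Continuous.mul ?_ continuous_const
    exact rs_G_cont hfc continuous_const hH (fun _ => hz) x a
  rw [hasDerivAt_iff_tendsto_slope]
  have h0 : Tendsto (fun t : ℝ => -(rsG (A + t • B) z * rsC B * rsG A z) x y) (𝓝[≠] 0) (𝓝 (-(rsG A z * rsC B * rsG A z) x y)) := by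
    have := (hcont.tendsto 0).mono_left (nhdsWithin_le_nhds (s := {0}ᶜ))
    simpa using this
  refine h0.congr' ?_
  filter_upwards [self_mem_nhdsWithin] with t ht
  have ht' : (t : ℂ) ≠ 0 := by exact_mod_cast ht
  rw [slope_def_module, sub_zero, zero_smul, add_zero, hq t, Complex.real_smul]
  push_cast
  field_simp

/-- the same at any time -/
theorem rs_G_deriv_at {A B : Matrix V V ℝ} (hA : A.IsHermitian) (hB : B.IsHermitian) {z : ℂ} (hz : z.im ≠ 0) (x y : V) (s : ℝ) :
    HasDerivAt (fun t : ℝ => rsG (A + t • B) z x y) (-(rsG (A + s • B) z * rsC B * rsG (A + s • B) z) x y) s := by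
  have hH : (A + s • B).IsHermitian := by
    refine hA.add ?_
    refine rs_herm ?_
    ext a b
    rw [Matrix.transpose_apply, Matrix.smul_apply, Matrix.smul_apply, rs_A_symm hB b a]
  have h := rs_G_deriv hH hB hz x y
  have h2 : HasDerivAt (fun t : ℝ => t - s) 1 s := (hasDerivAt_id s).sub_const s
  have h3 := HasDerivAt.scomp s (by simpa using h) h2
  simp only [one_smul] at h3
  refine h3.congr_of_eventuallyEq (Filter.Eventually.of_forall fun t => ?_)
  simp only [Function.comp]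
  have : A + s • B + (t - s) • B = A + t • B := by
    rw [add_assoc, ← add_smul]; congr 2; ring
  rw [this]

/-- derivative of the trace: `d/dt Tr G(A + tB) = - Tr (G B G)` -/
theorem rs_trace_deriv {A B : Matrix V V ℝ} (hA : A.IsHermitian) (hB : B.IsHermitian) {z : ℂ} (hz : z.im ≠ 0) :
    HasDerivAt (fun t : ℝ => (rsG (A + t • B) z).trace) (-(rsG A z * rsC B * rsG A z).trace) 0 := by
  unfold Matrix.trace
  rw [← Finset.sum_neg_distrib]
  exact HasDerivAt.fun_sum fun x _ => rs_G_deriv hA hB hz x x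

/-- derivative in `z`: `d/dz G = G²` -/
theorem rs_G_deriv_z {A : Matrix V V ℝ} (hA : A.IsHermitian) {z : ℂ} (hz : z.im ≠ 0) (x y : V) :
    HasDerivAt (fun w : ℂ => rsG A w x y) ((rsG A z * rsG A z) x y) z := by
  rw [hasDerivAt_iff_tendsto_slope]
  -- near `z` the imaginary part does not vanish
  have hU : ∀ᶠ w in 𝓝 z, w.im ≠ 0 := (Complex.continuous_im.continuousAt.eventually_ne hz)
  have hspec : ∀ w : ℂ, w.im ≠ 0 → (rsG A w * rsG A z) x y = ∑ v, (∑ i, (rsU hA x i : ℂ) * (rsU hA v i : ℂ) / ((hA.eigenvalues i : ℂ) - w)) * rsG A z v y := by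
    intro w hw
    rw [Matrix.mul_apply]
    exact Finset.sum_congr rfl fun v _ => by rw [rs_G_apply hA hw]
  have hc : ContinuousAt (fun w : ℂ => ∑ v, (∑ i, (rsU hA x i : ℂ) * (rsU hA v i : ℂ) / ((hA.eigenvalues i : ℂ) - w)) * rsG A z v y) z := by
    refine tendsto_finsetSum _ fun v _ => Tendsto.mul ?_ tendsto_const_nhds
    refine tendsto_finsetSum _ fun i _ => ?_
    exact Tendsto.div tendsto_const_nhds (tendsto_const_nhds.sub tendsto_id) (rs_ne hz)
  have h0 : Tendsto (fun w : ℂ => (rsG A w * rsG A z) x y) (𝓝[≠] z) (𝓝 ((rsG A z * rsG A z) x y)) := by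
    rw [hspec z hz]
    refine (hc.tendsto.mono_left nhdsWithin_le_nhds).congr' ?_
    filter_upwards [nhdsWithin_le_nhds hU] with w hw
    rw [hspec w hw]
  refine h0.congr' ?_
  filter_upwards [self_mem_nhdsWithin, nhdsWithin_le_nhds hU] with w hw hw2
  have hwz : w - z ≠ 0 := sub_ne_zero.2 hw
  have h := congrFun (congrFun (rs_res_z hA hw2 hz) x) y
  rw [Matrix.sub_apply, Matrix.smul_apply, smul_eq_mul] at h
  rw [slope_def_field, h]
  field_simp

end Claimed.Agent.R287
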