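-- KEEP
import Claimed.Agent.R287.Defs
import Claimed.Agent.R287.Eig
import Claimed.Agent.R287.EigHF
import Claimed.Agent.R287.Res

/-!
# Row 287 (S0534), unit B2, block U3: THE ONE-STEP INEQUALITY (deterministic part + expectation form)      helper297      prefix `u3_`, defs `u3…`, `U3W`, `U3P`

Source: `origin/helper102:notes/R287/U3_idea_102.md` sec.1 (cost in `Ψ`-coordinates, geodesic interpolation, weights by functional calculus: NO labels).
Index type `ι` = any `Fintype`;  `x y : ι → ℝ` need NOT be sorted;  `N` real symmetric;  `eigD` = sorted eigenvalues, `eigS` = canonical squared overlaps (kit 251).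

* `U3W φ Ψ`     : `φ` continuous with values in `(0,1]`, `Ψ' = √φ`.
* `U3P X V`     : `a ↦ X a` is a `C¹` path of diagonals with velocity `V a`.
* `u3Cost Ψ x y = ∑_j (Ψ y_j - Ψ x_j)²`,   `u3CostE Ψ A B` = the same for the sorted spectra of `A`, `B`.
* `u3Fc φ Z j = ∑_k φ(λ_k) S_kj`  (`= ⟨e_j, φ(Z) e_j⟩` when `Z` has simple spectrum; Borel in continuous families).
* `u3Var s v = ½ ∑_{j,l} s_j s_l (v_j - v_l)²`,   `u3Dis φ Z v = ∑_k φ(λ_k) Var_{S_k}(v)`.

MAIN STATEMENTS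
* `u3_hf_path`  : Hellmann-Feynman along a differentiable path of symmetric matrices, at a point of simple spectrum.
* `u3_step`     : `CostE(Z⁰, Z¹) + ∫₀¹ Dis(Z^a, V^a) da ≤ ∫₀¹ ∑_j (V^a_j)² Fc(Z^a)_j da`        (`Z^a = diag X^a + N`, simple for a.e. `a`).
* `u3_geo_*`    : the geodesic `X^a_j = Ψ⁻¹((1-a) Ψ x_j + a Ψ y_j)`:  `(V^a_j)² φ(X^a_j) = (Ψ y_j - Ψ x_j)²` EXACTLY.
* `u3_step_geo` : `CostE + ∫ Dis ≤ ∑_j (Ψ y_j - Ψ x_j)² ∫₀¹ Fc(Z^a)_j / φ(X^a_j) da`.
* `u3_simple_ae`: for a.e. `N` (iid Gaussian array), for a.e. `a`: `diag X^a + c·goeOf N` is simple      (Fubini).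
* `u3_step_E`, `u3_step_W` : the expectation forms;  `(W)` enters as a hypothesis.
* `u3_fc_cauchy`: `u3Fc (s ↦ u²/(s²+u²)) Z j = u Im G_jj(iu)`      (link with the resolvent kit `rsG`).
-/

set_option autoImplicit false
open MeasureTheory Matrix Finset

namespace Claimed.Agent.R287

section u3

variable {ι : Type} [Fintype ι] [DecidableEq ι]

/-! ## 0. Definitions -/

/-- cost of a pair of data in `Ψ`-coordinates -/
noncomputable def u3Cost (Ψ : ℝ → ℝ) (x y : ι → ℝ) : ℝ := ∑ j, (Ψ (y j) - Ψ (x j)) ^ 2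

/-- cost of the pair of sorted spectra -/
noncomputable def u3CostE (Ψ : ℝ → ℝ) (A B : Matrix ι ι ℝ) : ℝ :=
  ∑ k ∈ range (Fintype.card ι), (Ψ (eigD B k) - Ψ (eigD A k)) ^ 2

/-- the diagonal of the functional calculus, `⟨e_j, φ(Z) e_j⟩ = ∑_k φ(λ_k) |ψ_k(j)|²` -/
noncomputable def u3Fc (φ : ℝ → ℝ) (Z : Matrix ι ι ℝ) (j : ι) : ℝ :=
  ∑ k ∈ range (Fintype.card ι), φ (eigD Z k) * eigS Z k j

/-- variance of `v` under the weights `s`, in symmetric form -/
noncomputable def u3Var (s v : ι → ℝ) : ℝ := 2⁻¹ * ∑ j, ∑ l, s j * s l * (v j - v l) ^ 2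

/-- density of the dissipation -/
noncomputable def u3Dis (φ : ℝ → ℝ) (Z : Matrix ι ι ℝ) (v : ι → ℝ) : ℝ :=
  ∑ k ∈ range (Fintype.card ι), φ (eigD Z k) * u3Var (eigS Z k) v

/-- weight data: `φ` continuous with values in `(0,1]`, `Ψ' = √φ` -/
structure U3W (φ Ψ : ℝ → ℝ) : Prop where
  cont : Continuous φ
  pos : ∀ s, 0 < φ s
  le1 : ∀ s, φ s ≤ 1
  der : ∀ s, HasDerivAt Ψ (Real.sqrt (φ s)) s

/-- a `C¹` path of diagonals with its velocity -/
structure U3P (X V : ℝ → ι → ℝ) : Prop where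
  der : ∀ a j, HasDerivAt (fun s => X s j) (V a j) a
  cont : ∀ j, Continuous fun a => V a j

/-- the geodesic of the metric `φ(s) ds²` from `x_j` to `y_j` -/
noncomputable def u3Geo (Ψ : ℝ → ℝ) (x y : ι → ℝ) (a : ℝ) (j : ι) : ℝ :=
  Function.invFun Ψ ((1 - a) * Ψ (x j) + a * Ψ (y j))

/-- its velocity -/
noncomputable def u3GeoV (φ Ψ : ℝ → ℝ) (x y : ι → ℝ) (a : ℝ) (j : ι) : ℝ :=
  (Ψ (y j) - Ψ (x j)) / Real.sqrt (φ (u3Geo Ψ x y a j))

theorem u3_eqns_cite : True := by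
  have := @u3Cost.eq_1
  have := @u3CostE.eq_1
  have := @u3Fc.eq_1
  have := @u3Var.eq_1
  have := @u3Dis.eq_1
  have := @u3Geo.eq_1
  have := @u3GeoV.eq_1
  trivial

/-! ## 1. Hellmann-Feynman along a differentiable path -/

omit [DecidableEq ι] in
theorem u3_sqrt_hs_le (M : Matrix ι ι ℝ) : Real.sqrt (eigHS M) ≤ ∑ i, ∑ j, |M i j| := by
  rw [Real.sqrt_le_iff]
  refine ⟨Finset.sum_nonneg fun i _ => Finset.sum_nonneg fun j _ => abs_nonneg _, ?_⟩
  unfold eigHS
  calc ∑ i, ∑ j, M i j ^ 2 ≤ ∑ i, (∑ j, |M i j|) ^ 2 := by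
        refine Finset.sum_le_sum fun i _ => ?_
        have := Finset.sum_sq_le_sq_sum_of_nonneg (s := Finset.univ) (f := fun j => |M i j|) (fun j _ => abs_nonneg _)
        simpa [sq_abs] using this
    _ ≤ (∑ i, ∑ j, |M i j|) ^ 2 :=
        Finset.sum_sq_le_sq_sum_of_nonneg (fun i _ => Finset.sum_nonneg fun j _ => abs_nonneg _)

/-- **HF along a path**.  Plan: `eigD (F s) k - eigD (F a + (s-a) P) k = o(s-a)` by `eig_D_lip` (the HS norm of `F s - F a - (s-a) P` is `o(s-a)` entrywise),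
and `eig_hf_simple` on the line `F a + t P` at `t = 0`. -/
theorem u3_hf_path {F : ℝ → Matrix ι ι ℝ} {P : Matrix ι ι ℝ} {a : ℝ} (hF : ∀ s, (F s).IsHermitian) (hP : P.IsHermitian)
    (hd : ∀ i j, HasDerivAt (fun s => F s i j) (P i j) a) (hs : EigSimple (F a)) {k : ℕ} (hk : k < Fintype.card ι) :
    HasDerivAt (fun s => eigD (F s) k) (eigV (F a) k ⬝ᵥ P *ᵥ eigV (F a) k) a := by
  obtain ⟨g, hg, hgap⟩ := eig_simple_gap hs hk
  have h0 := eig_hf_zero (hF a) hP hk hg hgap (eig_V_norm (hF a) hk) (eig_V_mul (hF a) hk)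
  have h1 : HasDerivAt (fun s : ℝ => eigD (F a + (s - a) • P) k) (eigV (F a) k ⬝ᵥ P *ᵥ eigV (F a) k) a := by
    have := HasDerivAt.comp_sub_const a a (f := fun s : ℝ => eigD (F a + s • P) k) (f' := eigV (F a) k ⬝ᵥ P *ᵥ eigV (F a) k)
      (by simpa using h0)
    exact this
  have h2 : HasDerivAt (fun s : ℝ => eigD (F s) k - eigD (F a + (s - a) • P) k) 0 a := by
    rw [hasDerivAt_iff_isLittleO]
    have hsum : (fun s : ℝ => ∑ i, ∑ j, |F s i j - F a i j - (s - a) • P i j|) =o[nhds a] fun s => s - a := by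
      have hij : ∀ i j, (fun s : ℝ => |F s i j - F a i j - (s - a) • P i j|) =o[nhds a] fun s => s - a := fun i j =>
        (hasDerivAt_iff_isLittleO.1 (hd i j)).abs_left
      have hi : ∀ i, (fun s : ℝ => ∑ j, |F s i j - F a i j - (s - a) • P i j|) =o[nhds a] fun s => s - a := fun i =>
        Asymptotics.IsLittleO.fun_sum fun j _ => hij i j
      exact Asymptotics.IsLittleO.fun_sum fun i _ => hi i
    refine Asymptotics.IsBigO.trans_isLittleO ?_ hsum
    refine Asymptotics.IsBigO.of_bound 1 (Filter.Eventually.of_forall fun s => ?_)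
    have hb := eig_D_lip (hF s) (eig_herm_path (hF a) hP (s - a)) k
    have hc := u3_sqrt_hs_le (F s - (F a + (s - a) • P))
    have e : ∑ i, ∑ j, |(F s - (F a + (s - a) • P)) i j| = ∑ i, ∑ j, |F s i j - F a i j - (s - a) • P i j| := by
      refine Finset.sum_congr rfl fun i _ => Finset.sum_congr rfl fun j _ => ?_
      simp only [Matrix.sub_apply, Matrix.add_apply, Matrix.smul_apply]
      congr 1; ring
    rw [e] at hc
    have hnn : 0 ≤ ∑ i, ∑ j, |F s i j - F a i j - (s - a) • P i j| :=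
      Finset.sum_nonneg fun i _ => Finset.sum_nonneg fun j _ => abs_nonneg _
    simp only [sub_self, zero_smul, add_zero, smul_zero, sub_zero, Real.norm_eq_abs, one_mul, abs_of_nonneg hnn]
    exact hb.trans hc
  have h3 := h1.add h2
  simp only [add_zero] at h3
  refine h3.congr_of_eventuallyEq (Filter.Eventually.of_forall fun s => ?_)
  simp

theorem u3_Z_herm (x : ι → ℝ) {N : Matrix ι ι ℝ} (hN : N.IsHermitian) : (diagonal x + N).IsHermitian :=
  (eig_diag_herm x).add hN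

/-- HF along a path of diagonals -/
theorem u3_hf_diag {X V : ℝ → ι → ℝ} (hP : U3P X V) {N : Matrix ι ι ℝ} (hN : N.IsHermitian) {a : ℝ}
    (hs : EigSimple (diagonal (X a) + N)) {k : ℕ} (hk : k < Fintype.card ι) :
    HasDerivAt (fun s => eigD (diagonal (X s) + N) k) (∑ j, eigS (diagonal (X a) + N) k j * V a j) a := by
  have h := u3_hf_path (F := fun s => diagonal (X s) + N) (P := diagonal (V a)) (a := a) (fun s => u3_Z_herm (X s) hN)
    (eig_diag_herm (V a)) (fun i j => by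
      by_cases hij : i = j
      · subst hij
        simp only [Matrix.add_apply, Matrix.diagonal_apply_eq]
        exact (hP.der a i).add_const _
      · simp only [Matrix.add_apply, Matrix.diagonal_apply_ne _ hij, zero_add]
        exact hasDerivAt_const _ _) hs hk
  rw [eig_diag_quad] at h
  have e : ∑ j, eigS (diagonal (X a) + N) k j * V a j = ∑ j, eigV (diagonal (X a) + N) k j ^ 2 * V a j :=
    Finset.sum_congr rfl fun j _ => by rw [eig_S_eq (u3_Z_herm (X a) hN) hs hk]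
  rw [e]
  exact h

/-! ## 2. Lipschitz bound and the fundamental theorem of calculus -/

theorem u3_diag_abs (v : ι → ℝ) : ∑ i, ∑ j, |(diagonal v : Matrix ι ι ℝ) i j| = ∑ j, |v j| := by
  refine Finset.sum_congr rfl fun i _ => ?_
  rw [Finset.sum_eq_single i]
  · simp
  · intro j _ hj
    simp [Matrix.diagonal_apply_ne' _ hj]
  · simp

/-- Weyl in `ℓ¹` form for diagonal perturbations -/
theorem u3_D_diag_lip (x y : ι → ℝ) {N : Matrix ι ι ℝ} (hN : N.IsHermitian) (k : ℕ) :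
    |eigD (diagonal x + N) k - eigD (diagonal y + N) k| ≤ ∑ j, |x j - y j| := by
  have h1 := eig_D_lip (u3_Z_herm x hN) (u3_Z_herm y hN) k
  have e : diagonal x + N - (diagonal y + N) = diagonal (fun j => x j - y j) := by
    rw [add_sub_add_right_eq_sub, Matrix.diagonal_sub]
  rw [e] at h1
  exact h1.trans ((u3_sqrt_hs_le _).trans (le_of_eq (u3_diag_abs _)))

/-- the eigenvalues are Lipschitz along the path on `[0,1]`.  Plan: `eig_D_lip`, `eigHS (diag (X s - X t)) = ∑_j (X s j - X t j)²`, mean value inequality with `M = max_j sup_[0,1] |V j|`. -/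
theorem u3_lip {X V : ℝ → ι → ℝ} (hP : U3P X V) {N : Matrix ι ι ℝ} (hN : N.IsHermitian) (k : ℕ) :
    ∃ M : NNReal, LipschitzOnWith M (fun s => eigD (diagonal (X s) + N) k) (Set.uIcc 0 1) := by
  have hb : ∀ j, ∃ M : ℝ, ∀ a ∈ Set.uIcc (0:ℝ) 1, ‖V a j‖ ≤ M := fun j =>
    isCompact_uIcc.exists_bound_of_continuousOn (hP.cont j).continuousOn
  choose M hM using hb
  have hM0 : ∀ j, 0 ≤ M j := fun j => (norm_nonneg _).trans (hM j 0 (by simp))
  have hX : ∀ j, ∀ s ∈ Set.uIcc (0:ℝ) 1, ∀ t ∈ Set.uIcc (0:ℝ) 1, |X s j - X t j| ≤ M j * |s - t| := by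
    intro j s hs t ht
    have := Convex.norm_image_sub_le_of_norm_hasDerivWithin_le (f := fun a => X a j) (f' := fun a => V a j) (C := M j)
      (s := Set.uIcc (0:ℝ) 1) (fun a _ => (hP.der a j).hasDerivWithinAt) (fun a ha => hM j a ha) (convex_uIcc 0 1) ht hs
    simpa using this
  refine ⟨Real.toNNReal (∑ j, M j), LipschitzOnWith.of_dist_le_mul fun s hs t ht => ?_⟩
  rw [Real.dist_eq, Real.dist_eq, Real.coe_toNNReal _ (Finset.sum_nonneg fun j _ => hM0 j), Finset.sum_mul]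
  exact (u3_D_diag_lip (X s) (X t) hN k).trans (Finset.sum_le_sum fun j _ => hX j s hs t ht)

/-- `Ψ` is `1`-Lipschitz -/
theorem u3_Psi_lip {φ Ψ : ℝ → ℝ} (hW : U3W φ Ψ) : LipschitzWith 1 Ψ := by
  refine lipschitzWith_of_nnnorm_deriv_le (fun s => (hW.der s).differentiableAt) fun s => ?_
  rw [(hW.der s).deriv]
  rw [← NNReal.coe_le_coe, coe_nnnorm, Real.norm_eq_abs, abs_of_nonneg (Real.sqrt_nonneg _), NNReal.coe_one]
  exact Real.sqrt_le_one.2 (hW.le1 s) 

/-- **FTC for `Ψ(λ_k)`**.  Plan: `Ψ ∘ λ_k` is Lipschitz on `[0,1]`, hence absolutely continuous (`LipschitzOnWith.absolutelyContinuousOnInterval`),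
`AbsolutelyContinuousOnInterval.integral_deriv_eq_sub`, and the derivative is computed a.e. by `u3_hf_diag` + chain rule. -/
theorem u3_ftc {φ Ψ : ℝ → ℝ} (hW : U3W φ Ψ) {X V : ℝ → ι → ℝ} (hP : U3P X V) {N : Matrix ι ι ℝ} (hN : N.IsHermitian)
    (hs : ∀ᵐ a : ℝ, EigSimple (diagonal (X a) + N)) {k : ℕ} (hk : k < Fintype.card ι) :
    ∫ a in (0 : ℝ)..1, Real.sqrt (φ (eigD (diagonal (X a) + N) k)) * ∑ j, eigS (diagonal (X a) + N) k j * V a j
      = Ψ (eigD (diagonal (X 1) + N) k) - Ψ (eigD (diagonal (X 0) + N) k) := by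
  obtain ⟨M, hM⟩ := u3_lip hP hN k
  have hl : LipschitzOnWith (1 * M) (fun a => Ψ (eigD (diagonal (X a) + N) k)) (Set.uIcc 0 1) :=
    (u3_Psi_lip hW).comp_lipschitzOnWith hM
  have h1 := hl.absolutelyContinuousOnInterval.integral_deriv_eq_sub
  rw [← h1]
  refine intervalIntegral.integral_congr_ae (hs.mono fun a ha _ => ?_)
  have h2 := (hW.der (eigD (diagonal (X a) + N) k)).comp a (u3_hf_diag hP hN ha hk)
  exact h2.deriv.symm

/-! ## 3. Algebra: variance identity, exchange of sums -/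

omit [DecidableEq ι] in
theorem u3_var_nonneg {s : ι → ℝ} (hs : ∀ j, 0 ≤ s j) (v : ι → ℝ) : 0 ≤ u3Var s v := by
  unfold u3Var
  exact mul_nonneg (by norm_num) (Finset.sum_nonneg fun j _ => Finset.sum_nonneg fun l _ =>
    mul_nonneg (mul_nonneg (hs j) (hs l)) (sq_nonneg _))

omit [DecidableEq ι] in
/-- `(∑ s v)² = ∑ s v² - Var` for a probability vector -/
theorem u3_var_id {s : ι → ℝ} (hs : ∑ j, s j = 1) (v : ι → ℝ) :
    (∑ j, s j * v j) ^ 2 = ∑ j, s j * v j ^ 2 - u3Var s v := by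
  unfold u3Var
  have h1 : ∑ j, ∑ l, s j * s l * (v j - v l) ^ 2
      = 2 * ((∑ j, s j * v j ^ 2) * ∑ l, s l) - 2 * ((∑ j, s j * v j) * ∑ l, s l * v l) := by
    have h2 : ∑ j, ∑ l, s j * s l * (v j - v l) ^ 2
        = ∑ j, ∑ l, (s j * v j ^ 2 * s l + s j * (s l * v l ^ 2) - 2 * (s j * v j * (s l * v l))) :=
      Finset.sum_congr rfl fun j _ => Finset.sum_congr rfl fun l _ => by ring
    rw [h2]
    simp only [Finset.sum_sub_distrib, Finset.sum_add_distrib, ← Finset.mul_sum, ← Finset.sum_mul]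
    ring
  rw [h1, hs]
  ring

/-- `∑_k φ(λ_k) ∑_j S_kj v_j² = ∑_j v_j² Fc_j` -/
theorem u3_fc_swap (φ : ℝ → ℝ) (Z : Matrix ι ι ℝ) (v : ι → ℝ) :
    ∑ k ∈ range (Fintype.card ι), φ (eigD Z k) * ∑ j, eigS Z k j * v j ^ 2 = ∑ j, v j ^ 2 * u3Fc φ Z j := by
  unfold u3Fc
  simp only [Finset.mul_sum]
  rw [Finset.sum_comm]
  exact Finset.sum_congr rfl fun j _ => Finset.sum_congr rfl fun k _ => by ring

/-- `(∫₀¹ f)² ≤ ∫₀¹ f²` -/
theorem u3_cs {f : ℝ → ℝ} (hf : IntervalIntegrable f volume 0 1) (hf2 : IntervalIntegrable (fun a => f a ^ 2) volume 0 1) :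
    (∫ a in (0 : ℝ)..1, f a) ^ 2 ≤ ∫ a in (0 : ℝ)..1, f a ^ 2 := by
  set m := ∫ a in (0 : ℝ)..1, f a with hm
  have h0 : 0 ≤ ∫ a in (0 : ℝ)..1, (f a - m) ^ 2 := intervalIntegral.integral_nonneg zero_le_one fun a _ => sq_nonneg _
  have e : ∫ a in (0 : ℝ)..1, (f a - m) ^ 2 = (∫ a in (0 : ℝ)..1, f a ^ 2) - 2 * m * m + m ^ 2 := by
    have e1 : (fun a => (f a - m) ^ 2) = fun a => f a ^ 2 - 2 * m * f a + m ^ 2 := by funext a; ring
    rw [e1, intervalIntegral.integral_add (hf2.sub (hf.const_mul _)) intervalIntegrable_const,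
      intervalIntegral.integral_sub hf2 (hf.const_mul _), intervalIntegral.integral_const_mul, ← hm]
    simp
  rw [e] at h0
  nlinarith

omit [Fintype ι] [DecidableEq ι] in
theorem u3_X_cont {X V : ℝ → ι → ℝ} (hP : U3P X V) (j : ι) : Continuous fun a => X a j :=
  continuous_iff_continuousAt.2 fun a => (hP.der a j).continuousAt

/-! ## 4. Measurability and integrability along the path -/

omit [Fintype ι] in
theorem u3_Z_cont {X V : ℝ → ι → ℝ} (hP : U3P X V) (N : Matrix ι ι ℝ) (i j : ι) :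
    Continuous fun a => (diagonal (X a) + N) i j := by
  by_cases hij : i = j
  · subst hij
    simp only [Matrix.add_apply, Matrix.diagonal_apply_eq]
    exact (u3_X_cont hP i).add continuous_const
  · simp only [Matrix.add_apply, Matrix.diagonal_apply_ne _ hij, zero_add]
    exact continuous_const

theorem u3_bdd_intble {f : ℝ → ℝ} (hm : Measurable f) {C : ℝ} (hb : ∀ s, |f s| ≤ C) (a b : ℝ) : IntervalIntegrable f volume a b := by
  rw [intervalIntegrable_iff]
  exact Measure.integrableOn_of_bounded (M := C) (by simp) hm.aestronglyMeasurable (Filter.Eventually.of_forall fun s => hb s)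

/-- every integrand of the form `g(a) · S_kj(a)`, `g` continuous, is interval integrable -/
theorem u3_S_intble {X V : ℝ → ι → ℝ} (hP : U3P X V) {N : Matrix ι ι ℝ} (hN : N.IsHermitian) (k : ℕ) (j : ι)
    {g : ℝ → ℝ} (hg : Continuous g) (a b : ℝ) :
    IntervalIntegrable (fun s => g s * eigS (diagonal (X s) + N) k j) volume a b := by
  have hm : Measurable fun s : ℝ => eigS (diagonal (X s) + N) k j :=
    eig_S_meas (u3_Z_cont hP N) (fun s => u3_Z_herm (X s) hN) k j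
  have h1 : IntervalIntegrable (fun s : ℝ => eigS (diagonal (X s) + N) k j) volume a b :=
    u3_bdd_intble hm (C := 1) (fun s => by
      rw [abs_of_nonneg (eig_S_nonneg (u3_Z_herm (X s) hN) k j)]
      exact eig_S_le_one (u3_Z_herm (X s) hN) k j) a b
  exact h1.continuousOn_mul hg.continuousOn

/-- same with a product of two overlaps -/
theorem u3_SS_intble {X V : ℝ → ι → ℝ} (hP : U3P X V) {N : Matrix ι ι ℝ} (hN : N.IsHermitian) (k : ℕ) (j l : ι)
    {g : ℝ → ℝ} (hg : Continuous g) (a b : ℝ) :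
    IntervalIntegrable (fun s => g s * (eigS (diagonal (X s) + N) k j * eigS (diagonal (X s) + N) k l)) volume a b := by
  have hm : ∀ j, Measurable fun s : ℝ => eigS (diagonal (X s) + N) k j := fun j =>
    eig_S_meas (u3_Z_cont hP N) (fun s => u3_Z_herm (X s) hN) k j
  have h1 : IntervalIntegrable (fun s : ℝ => eigS (diagonal (X s) + N) k j * eigS (diagonal (X s) + N) k l) volume a b :=
    u3_bdd_intble ((hm j).mul (hm l)) (C := 1) (fun s => by
      have h0 := eig_S_nonneg (u3_Z_herm (X s) hN) k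
      have h1 := eig_S_le_one (u3_Z_herm (X s) hN) k
      simp only [Pi.mul_apply]
      rw [abs_of_nonneg (mul_nonneg (h0 j) (h0 l))]
      exact mul_le_one₀ (h1 j) (h0 l) (h1 l)) a b
  exact h1.continuousOn_mul hg.continuousOn

/-! ## 5. The one-step inequality -/

theorem u3_lam_cont {X V : ℝ → ι → ℝ} (hP : U3P X V) {N : Matrix ι ι ℝ} (hN : N.IsHermitian) (k : ℕ) :
    Continuous fun a => eigD (diagonal (X a) + N) k :=
  eig_D_cont (u3_Z_cont hP N) (fun s => u3_Z_herm (X s) hN) k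

theorem u3_intble_sum {κ : Type} (s : Finset κ) {f : κ → ℝ → ℝ} {a b : ℝ} (h : ∀ i ∈ s, IntervalIntegrable (f i) volume a b) :
    IntervalIntegrable (fun t => ∑ i ∈ s, f i t) volume a b := by
  have := IntervalIntegrable.sum s h
  have e : (∑ i ∈ s, f i) = fun t => ∑ i ∈ s, f i t := by funext t; simp
  rwa [e] at this

/-- integrability of `φ(λ_k) ∑_j S_kj V_j²` -/
theorem u3_int_A {φ : ℝ → ℝ} (hφ : Continuous φ) {X V : ℝ → ι → ℝ} (hP : U3P X V) {N : Matrix ι ι ℝ} (hN : N.IsHermitian) (k : ℕ) :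
    IntervalIntegrable (fun a => φ (eigD (diagonal (X a) + N) k) * ∑ j, eigS (diagonal (X a) + N) k j * V a j ^ 2) volume 0 1 := by
  have e : (fun a => φ (eigD (diagonal (X a) + N) k) * ∑ j, eigS (diagonal (X a) + N) k j * V a j ^ 2)
      = fun a => ∑ j, (φ (eigD (diagonal (X a) + N) k) * V a j ^ 2) * eigS (diagonal (X a) + N) k j := by
    funext a
    rw [Finset.mul_sum]
    exact Finset.sum_congr rfl fun j _ => by ring
  rw [e]
  exact u3_intble_sum _ fun j _ =>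
    u3_S_intble hP hN k j (g := fun a => φ (eigD (diagonal (X a) + N) k) * V a j ^ 2)
      ((hφ.comp (u3_lam_cont hP hN k)).mul ((hP.cont j).pow 2)) 0 1

/-- integrability of `φ(λ_k) Var_{S_k}(V)` -/
theorem u3_int_B {φ : ℝ → ℝ} (hφ : Continuous φ) {X V : ℝ → ι → ℝ} (hP : U3P X V) {N : Matrix ι ι ℝ} (hN : N.IsHermitian) (k : ℕ) :
    IntervalIntegrable (fun a => φ (eigD (diagonal (X a) + N) k) * u3Var (eigS (diagonal (X a) + N) k) (V a)) volume 0 1 := by
  have e : (fun a => φ (eigD (diagonal (X a) + N) k) * u3Var (eigS (diagonal (X a) + N) k) (V a))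
      = fun a => ∑ j, ∑ l, (φ (eigD (diagonal (X a) + N) k) * (2⁻¹ * (V a j - V a l) ^ 2)) *
          (eigS (diagonal (X a) + N) k j * eigS (diagonal (X a) + N) k l) := by
    funext a
    unfold u3Var
    rw [Finset.mul_sum, Finset.mul_sum]
    refine Finset.sum_congr rfl fun j _ => ?_
    rw [Finset.mul_sum, Finset.mul_sum]
    exact Finset.sum_congr rfl fun l _ => by ring
  rw [e]
  exact u3_intble_sum _ fun j _ => u3_intble_sum _ fun l _ =>
    u3_SS_intble hP hN k j l (g := fun a => φ (eigD (diagonal (X a) + N) k) * (2⁻¹ * (V a j - V a l) ^ 2))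
      ((hφ.comp (u3_lam_cont hP hN k)).mul (continuous_const.mul (((hP.cont j).sub (hP.cont l)).pow 2))) 0 1

/-- **one eigenvalue**:  `(Ψ λ_k¹ - Ψ λ_k⁰)² ≤ ∫₀¹ φ(λ_k) [∑_j S_kj V_j² - Var_{S_k}(V)] da`.
Plan: `u3_ftc`, `u3_cs`, `(√φ)² = φ`, `u3_var_id` at the a.e. simple points (`eig_S_eq`, `eig_V_row`). -/
theorem u3_step_one {φ Ψ : ℝ → ℝ} (hW : U3W φ Ψ) {X V : ℝ → ι → ℝ} (hP : U3P X V) {N : Matrix ι ι ℝ} (hN : N.IsHermitian)
    (hs : ∀ᵐ a : ℝ, EigSimple (diagonal (X a) + N)) {k : ℕ} (hk : k < Fintype.card ι) :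
    (Ψ (eigD (diagonal (X 1) + N) k) - Ψ (eigD (diagonal (X 0) + N) k)) ^ 2
      ≤ ∫ a in (0 : ℝ)..1, φ (eigD (diagonal (X a) + N) k) *
          (∑ j, eigS (diagonal (X a) + N) k j * V a j ^ 2 - u3Var (eigS (diagonal (X a) + N) k) (V a)) := by
  rw [← u3_ftc hW hP hN hs hk]
  have hsq : Continuous fun a => Real.sqrt (φ (eigD (diagonal (X a) + N) k)) :=
    Real.continuous_sqrt.comp (hW.cont.comp (u3_lam_cont hP hN k))
  have hf : IntervalIntegrable (fun a => Real.sqrt (φ (eigD (diagonal (X a) + N) k)) * ∑ j, eigS (diagonal (X a) + N) k j * V a j)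
      volume 0 1 := by
    have e : (fun a => Real.sqrt (φ (eigD (diagonal (X a) + N) k)) * ∑ j, eigS (diagonal (X a) + N) k j * V a j)
        = fun a => ∑ j, (Real.sqrt (φ (eigD (diagonal (X a) + N) k)) * V a j) * eigS (diagonal (X a) + N) k j := by
      funext a
      rw [Finset.mul_sum]
      exact Finset.sum_congr rfl fun j _ => by ring
    rw [e]
    exact u3_intble_sum _ fun j _ => u3_S_intble hP hN k j
      (g := fun a => Real.sqrt (φ (eigD (diagonal (X a) + N) k)) * V a j) (hsq.mul (hP.cont j)) 0 1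
  have hae : ∀ᵐ a : ℝ, (Real.sqrt (φ (eigD (diagonal (X a) + N) k)) * ∑ j, eigS (diagonal (X a) + N) k j * V a j) ^ 2
      = φ (eigD (diagonal (X a) + N) k) *
          (∑ j, eigS (diagonal (X a) + N) k j * V a j ^ 2 - u3Var (eigS (diagonal (X a) + N) k) (V a)) := by
    refine hs.mono fun a ha => ?_
    have hrow : ∑ j, eigS (diagonal (X a) + N) k j = 1 := by
      simp only [eig_S_eq (u3_Z_herm (X a) hN) ha hk]
      exact eig_V_row (u3_Z_herm (X a) hN) hk
    rw [mul_pow, Real.sq_sqrt (hW.pos _).le, u3_var_id hrow]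
  have hint : IntervalIntegrable (fun a => φ (eigD (diagonal (X a) + N) k) *
          (∑ j, eigS (diagonal (X a) + N) k j * V a j ^ 2 - u3Var (eigS (diagonal (X a) + N) k) (V a))) volume 0 1 := by
    simp only [mul_sub]
    exact (u3_int_A hW.cont hP hN k).sub (u3_int_B hW.cont hP hN k)
  have hf2 : IntervalIntegrable (fun a => (Real.sqrt (φ (eigD (diagonal (X a) + N) k)) * ∑ j, eigS (diagonal (X a) + N) k j * V a j) ^ 2)
      volume 0 1 :=
    hint.congr_ae ((ae_restrict_of_ae hae).mono fun a ha => ha.symm)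
  refine (u3_cs hf hf2).trans (le_of_eq ?_)
  exact intervalIntegral.integral_congr_ae (hae.mono fun a ha _ => ha)

/-- **THE ONE-STEP INEQUALITY** (U3_idea_102 sec.1) -/
theorem u3_step {φ Ψ : ℝ → ℝ} (hW : U3W φ Ψ) {X V : ℝ → ι → ℝ} (hP : U3P X V) {N : Matrix ι ι ℝ} (hN : N.IsHermitian)
    (hs : ∀ᵐ a : ℝ, EigSimple (diagonal (X a) + N)) :
    u3CostE Ψ (diagonal (X 0) + N) (diagonal (X 1) + N) + ∫ a in (0 : ℝ)..1, u3Dis φ (diagonal (X a) + N) (V a)
      ≤ ∫ a in (0 : ℝ)..1, ∑ j, V a j ^ 2 * u3Fc φ (diagonal (X a) + N) j := by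
  have h1 : u3CostE Ψ (diagonal (X 0) + N) (diagonal (X 1) + N)
      ≤ ∑ k ∈ range (Fintype.card ι), ((∫ a in (0 : ℝ)..1, φ (eigD (diagonal (X a) + N) k) * ∑ j, eigS (diagonal (X a) + N) k j * V a j ^ 2)
          - ∫ a in (0 : ℝ)..1, φ (eigD (diagonal (X a) + N) k) * u3Var (eigS (diagonal (X a) + N) k) (V a)) := by
    unfold u3CostE
    refine Finset.sum_le_sum fun k hk => ?_
    rw [← intervalIntegral.integral_sub (u3_int_A hW.cont hP hN k) (u3_int_B hW.cont hP hN k)]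
    simp only [← mul_sub]
    exact u3_step_one hW hP hN hs (Finset.mem_range.1 hk)
  rw [Finset.sum_sub_distrib, ← intervalIntegral.integral_finsetSum fun k _ => u3_int_A hW.cont hP hN k,
    ← intervalIntegral.integral_finsetSum fun k _ => u3_int_B hW.cont hP hN k] at h1
  simp only [u3_fc_swap] at h1
  unfold u3Dis
  linarith

/-! ## 6. The geodesic path -/

theorem u3_Psi_mono {φ Ψ : ℝ → ℝ} (hW : U3W φ Ψ) : StrictMono Ψ := by
  apply strictMono_of_deriv_pos
  intro s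
  rw [(hW.der s).deriv]
  exact Real.sqrt_pos.2 (hW.pos s)

theorem u3_inv_left {φ Ψ : ℝ → ℝ} (hW : U3W φ Ψ) (s : ℝ) : Function.invFun Ψ (Ψ s) = s := by
  exact Function.leftInverse_invFun (u3_Psi_mono hW).injective s

theorem u3_inv_right {Ψ : ℝ → ℝ} (hsj : Function.Surjective Ψ) (t : ℝ) : Ψ (Function.invFun Ψ t) = t := by
  exact Function.rightInverse_invFun hsj t

theorem u3_inv_cont_aux {φ Ψ : ℝ → ℝ} (hW : U3W φ Ψ) (hsj : Function.Surjective Ψ) : Continuous (Function.invFun Ψ) := by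
  have e : Function.invFun Ψ = ((u3_Psi_mono hW).orderIsoOfSurjective Ψ hsj).symm := by
    funext t
    apply (u3_Psi_mono hW).injective
    rw [u3_inv_right hsj]
    exact (((u3_Psi_mono hW).orderIsoOfSurjective Ψ hsj).apply_symm_apply t).symm
  rw [e]
  exact ((u3_Psi_mono hW).orderIsoOfSurjective Ψ hsj).symm.continuous

/-- the inverse of `Ψ` is differentiable with derivative `1/√φ`.  Plan: `StrictMono.orderIsoOfSurjective` gives a homeomorphism, so the inverse is continuous; `HasDerivAt.of_local_left_inverse`. -/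
theorem u3_inv_deriv {φ Ψ : ℝ → ℝ} (hW : U3W φ Ψ) (hsj : Function.Surjective Ψ) (t : ℝ) :
    HasDerivAt (Function.invFun Ψ) (Real.sqrt (φ (Function.invFun Ψ t)))⁻¹ t := by
  refine HasDerivAt.of_local_left_inverse (u3_inv_cont_aux hW hsj).continuousAt (hW.der _) (Real.sqrt_pos.2 (hW.pos _)).ne' ?_
  exact Filter.Eventually.of_forall fun y => u3_inv_right hsj y

theorem u3_inv_cont {φ Ψ : ℝ → ℝ} (hW : U3W φ Ψ) (hsj : Function.Surjective Ψ) : Continuous (Function.invFun Ψ) := by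
  exact u3_inv_cont_aux hW hsj

omit [Fintype ι] [DecidableEq ι] in
theorem u3_geo_zero {φ Ψ : ℝ → ℝ} (hW : U3W φ Ψ) (x y : ι → ℝ) : u3Geo Ψ x y 0 = x := by
  funext j
  unfold u3Geo
  simp [u3_inv_left hW]

omit [Fintype ι] [DecidableEq ι] in
theorem u3_geo_one {φ Ψ : ℝ → ℝ} (hW : U3W φ Ψ) (x y : ι → ℝ) : u3Geo Ψ x y 1 = y := by
  funext j
  unfold u3Geo
  simp [u3_inv_left hW]

omit [Fintype ι] [DecidableEq ι] in
/-- the geodesic is a `C¹` path -/
theorem u3_geo_path {φ Ψ : ℝ → ℝ} (hW : U3W φ Ψ) (hsj : Function.Surjective Ψ) (x y : ι → ℝ) :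
    U3P (u3Geo Ψ x y) (u3GeoV φ Ψ x y) := by
  have hlin : ∀ (j : ι) (a : ℝ), HasDerivAt (fun s : ℝ => (1 - s) * Ψ (x j) + s * Ψ (y j)) (Ψ (y j) - Ψ (x j)) a := by
    intro j a
    have h1 : HasDerivAt (fun s : ℝ => (1 - s) * Ψ (x j)) (-1 * Ψ (x j)) a :=
      ((hasDerivAt_id a).const_sub 1).mul_const _
    have h2 : HasDerivAt (fun s : ℝ => s * Ψ (y j)) (1 * Ψ (y j)) a := (hasDerivAt_id a).mul_const _
    have h3 := h1.add h2
    have e : -1 * Ψ (x j) + 1 * Ψ (y j) = Ψ (y j) - Ψ (x j) := by ring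
    rw [e] at h3
    exact h3
  have hcont : ∀ j, Continuous fun a => u3Geo Ψ x y a j := by
    intro j
    unfold u3Geo
    exact (u3_inv_cont hW hsj).comp (by fun_prop)
  refine ⟨fun a j => ?_, fun j => ?_⟩
  · have h := (u3_inv_deriv hW hsj ((1 - a) * Ψ (x j) + a * Ψ (y j))).comp a (hlin j a)
    have e : u3GeoV φ Ψ x y a j = (Real.sqrt (φ (Function.invFun Ψ ((1 - a) * Ψ (x j) + a * Ψ (y j)))))⁻¹ * (Ψ (y j) - Ψ (x j)) := by
      unfold u3GeoV u3Geo
      rw [div_eq_mul_inv, mul_comm]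
    rw [e]
    exact h
  · unfold u3GeoV
    refine Continuous.div continuous_const ?_ fun a => (Real.sqrt_pos.2 (hW.pos _)).ne'
    exact Real.continuous_sqrt.comp (hW.cont.comp (hcont j))

omit [Fintype ι] [DecidableEq ι] in
/-- constant speed in the metric `φ ds²`: EXACT -/
theorem u3_geo_speed {φ Ψ : ℝ → ℝ} (hW : U3W φ Ψ) (x y : ι → ℝ) (a : ℝ) (j : ι) :
    u3GeoV φ Ψ x y a j ^ 2 = (Ψ (y j) - Ψ (x j)) ^ 2 / φ (u3Geo Ψ x y a j) := by
  unfold u3GeoV
  rw [div_pow, Real.sq_sqrt (hW.pos _).le]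

omit [Fintype ι] [DecidableEq ι] in
/-- the geodesic stays between its end points -/
theorem u3_geo_mem {φ Ψ : ℝ → ℝ} (hW : U3W φ Ψ) (hsj : Function.Surjective Ψ) (x y : ι → ℝ) {a : ℝ} (ha : a ∈ Set.Icc (0 : ℝ) 1) (j : ι) :
    u3Geo Ψ x y a j ∈ Set.uIcc (x j) (y j) := by
  have hm := u3_Psi_mono hW
  have e : Ψ (u3Geo Ψ x y a j) = (1 - a) * Ψ (x j) + a * Ψ (y j) := u3_inv_right hsj _
  have h0 := ha.1
  have h1 : 0 ≤ 1 - a := by linarith [ha.2]
  rcases le_total (x j) (y j) with h | h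
  · have hΨ := hm.monotone h
    rw [Set.uIcc_of_le h]
    constructor
    · rw [← hm.le_iff_le, e]; nlinarith
    · rw [← hm.le_iff_le, e]; nlinarith
  · have hΨ := hm.monotone h
    rw [Set.uIcc_of_ge h]
    constructor
    · rw [← hm.le_iff_le, e]; nlinarith
    · rw [← hm.le_iff_le, e]; nlinarith

omit [Fintype ι] [DecidableEq ι] in
/-- the geodesic keeps the order of the sites -/
theorem u3_geo_mono {φ Ψ : ℝ → ℝ} (hW : U3W φ Ψ) (hsj : Function.Surjective Ψ) (x y : ι → ℝ) {a : ℝ} (ha : a ∈ Set.Icc (0 : ℝ) 1) {i j : ι}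
    (hx : x i ≤ x j) (hy : y i ≤ y j) : u3Geo Ψ x y a i ≤ u3Geo Ψ x y a j := by
  have hm := u3_Psi_mono hW
  have ei : Ψ (u3Geo Ψ x y a i) = (1 - a) * Ψ (x i) + a * Ψ (y i) := u3_inv_right hsj _
  have ej : Ψ (u3Geo Ψ x y a j) = (1 - a) * Ψ (x j) + a * Ψ (y j) := u3_inv_right hsj _
  have h0 := ha.1
  have h1 : 0 ≤ 1 - a := by linarith [ha.2]
  rw [← hm.le_iff_le, ei, ej]
  exact add_le_add (mul_le_mul_of_nonneg_left (hm.monotone hx) h1) (mul_le_mul_of_nonneg_left (hm.monotone hy) h0)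

omit [Fintype ι] [DecidableEq ι] in
theorem u3_geo_cont {φ Ψ : ℝ → ℝ} (hW : U3W φ Ψ) (hsj : Function.Surjective Ψ) (x y : ι → ℝ) (j : ι) :
    Continuous fun a => u3Geo Ψ x y a j := by
  unfold u3Geo
  exact (u3_inv_cont hW hsj).comp (by fun_prop)

omit [Fintype ι] [DecidableEq ι] in
theorem u3_geo_Psi {Ψ : ℝ → ℝ} (hsj : Function.Surjective Ψ) (x y : ι → ℝ) (a : ℝ) (j : ι) :
    Ψ (u3Geo Ψ x y a j) = (1 - a) * Ψ (x j) + a * Ψ (y j) := by
  unfold u3Geo
  exact u3_inv_right hsj _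

/-- integrability of `Fc_j / φ(X_j)` along a path -/
theorem u3_int_C {φ : ℝ → ℝ} (hφ : Continuous φ) (hpos : ∀ s, 0 < φ s) {X V : ℝ → ι → ℝ} (hP : U3P X V) {N : Matrix ι ι ℝ}
    (hN : N.IsHermitian) (j : ι) :
    IntervalIntegrable (fun a => u3Fc φ (diagonal (X a) + N) j / φ (X a j)) volume 0 1 := by
  have e : (fun a => u3Fc φ (diagonal (X a) + N) j / φ (X a j))
      = fun a => ∑ k ∈ range (Fintype.card ι), (φ (eigD (diagonal (X a) + N) k) / φ (X a j)) * eigS (diagonal (X a) + N) k j := by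
    funext a
    unfold u3Fc
    rw [Finset.sum_div]
    exact Finset.sum_congr rfl fun k _ => by ring
  rw [e]
  exact u3_intble_sum _ fun k _ => u3_S_intble hP hN k j (g := fun a => φ (eigD (diagonal (X a) + N) k) / φ (X a j))
    ((hφ.comp (u3_lam_cont hP hN k)).div (hφ.comp (u3_X_cont hP j)) fun a => (hpos _).ne') 0 1

/-- **THE ONE-STEP INEQUALITY ALONG THE GEODESIC**:  `CostE + ∫ Dis ≤ ∑_j (Ψ y_j - Ψ x_j)² ∫₀¹ Fc(Z^a)_j / φ(X^a_j) da`.
Plan: `u3_step` with `u3_geo_path`, `u3_geo_zero/one`, `u3_geo_speed`; pull the constant out of the integral (`u3_S_intble` with `g = φ(λ_k)/φ(X_j)`). -/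
theorem u3_step_geo {φ Ψ : ℝ → ℝ} (hW : U3W φ Ψ) (hsj : Function.Surjective Ψ) (x y : ι → ℝ) {N : Matrix ι ι ℝ} (hN : N.IsHermitian)
    (hs : ∀ᵐ a : ℝ, EigSimple (diagonal (u3Geo Ψ x y a) + N)) :
    u3CostE Ψ (diagonal x + N) (diagonal y + N)
        + ∫ a in (0 : ℝ)..1, u3Dis φ (diagonal (u3Geo Ψ x y a) + N) (u3GeoV φ Ψ x y a)
      ≤ ∑ j, (Ψ (y j) - Ψ (x j)) ^ 2 * ∫ a in (0 : ℝ)..1, u3Fc φ (diagonal (u3Geo Ψ x y a) + N) j / φ (u3Geo Ψ x y a j) := by
  have hP := u3_geo_path hW hsj x y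
  have h := u3_step hW hP hN hs
  rw [u3_geo_zero hW, u3_geo_one hW] at h
  refine h.trans (le_of_eq ?_)
  simp only [← intervalIntegral.integral_const_mul]
  rw [← intervalIntegral.integral_finsetSum fun j _ => (u3_int_C hW.cont hW.pos hP hN j).const_mul _]
  refine intervalIntegral.integral_congr fun a _ => ?_
  refine Finset.sum_congr rfl fun j _ => ?_
  simp only [u3_geo_speed hW]
  ring

/-! ## 7. Almost sure simplicity along the path, expectation forms -/

theorem u3_H_herm (x : ι → ℝ) (c : ℝ) (N : Matrix ι ι ℝ) : (diagonal x + c • goeOf N).IsHermitian :=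
  eig_herm_path (eig_diag_herm x) (eig_goeOf_herm N) c

theorem u3_H_cont {X : ℝ → ι → ℝ} (hX : ∀ j, Continuous fun a => X a j) (c : ℝ) (i l : ι) :
    Continuous fun p : Matrix ι ι ℝ × ℝ => (diagonal (X p.2) + c • goeOf p.1) i l := by
  have h1 : ∀ a b : ι, Continuous fun p : Matrix ι ι ℝ × ℝ => p.1 a b := fun a b => continuous_fst.matrix_elem a b
  have h2 : Continuous fun p : Matrix ι ι ℝ × ℝ => (c • goeOf p.1) i l := by
    simp only [eig_goeOf_apply, Matrix.smul_apply, smul_eq_mul]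
    exact continuous_const.mul (continuous_const.mul ((h1 i l).add (h1 l i)))
  by_cases hil : i = l
  · subst hil
    simp only [Matrix.add_apply, Matrix.diagonal_apply_eq]
    exact ((hX i).comp continuous_snd).add h2
  · simp only [Matrix.add_apply, Matrix.diagonal_apply_ne _ hil, zero_add]
    exact h2

theorem u3_gArr_prob (ι : Type) [Fintype ι] : IsProbabilityMeasure (gArr ι ι) :=
  inferInstanceAs (IsProbabilityMeasure (Measure.pi fun _ : ι => Measure.pi fun _ : ι => ProbabilityTheory.gaussianReal 0 1))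

/-- **Fubini**: for a.e. noise, the spectrum is simple for a.e. `a`.
Plan: the set `{(N, a) | eigDisc (diag X^a + c goeOf N) = 0}` is closed (`eig_disc_cont`), hence measurable; each `a`-section is null (`eig_goe_simple_ae`, `eig_disc_ne_zero`);
`Measure.ae_ae_comm` / `measure_prod_null`. -/
theorem u3_simple_ae {X : ℝ → ι → ℝ} (hX : ∀ j, Continuous fun a => X a j) {c : ℝ} (hc : c ≠ 0) :
    ∀ᵐ N ∂(gArr ι ι), ∀ᵐ a : ℝ, EigSimple (diagonal (X a) + c • goeOf N) := by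
  have := u3_gArr_prob ι
  have hcont : Continuous fun p : Matrix ι ι ℝ × ℝ => eigDisc (diagonal (X p.2) + c • goeOf p.1) :=
    eig_disc_cont.comp (continuous_matrix fun i l => u3_H_cont hX c i l)
  have hm : MeasurableSet {p : Matrix ι ι ℝ × ℝ | EigSimple (diagonal (X p.2) + c • goeOf p.1)} := by
    have e : {p : Matrix ι ι ℝ × ℝ | EigSimple (diagonal (X p.2) + c • goeOf p.1)}
        = {p : Matrix ι ι ℝ × ℝ | eigDisc (diagonal (X p.2) + c • goeOf p.1) ≠ 0} := by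
      ext p
      exact (eig_disc_ne_zero (u3_H_herm (X p.2) c p.1)).symm
    rw [e]
    exact (isOpen_ne_fun hcont continuous_const).measurableSet
  rw [Measure.ae_ae_comm hm]
  exact Filter.Eventually.of_forall fun a => eig_goe_simple_ae (eig_diag_herm (X a)) hc

/-- bounds used for integrability in `N`: `0 ≤ Fc ≤ card` for `0 ≤ φ ≤ 1` -/
theorem u3_fc_nonneg {φ : ℝ → ℝ} (hφ : ∀ s, 0 ≤ φ s) {Z : Matrix ι ι ℝ} (hZ : Z.IsHermitian) (j : ι) : 0 ≤ u3Fc φ Z j := by
  exact Finset.sum_nonneg fun k _ => mul_nonneg (hφ _) (eig_S_nonneg hZ k j)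

/-- at a simple point `Fc ≤ sup φ` -/
theorem u3_fc_le_one {φ : ℝ → ℝ} (hφ : ∀ s, φ s ≤ 1) {Z : Matrix ι ι ℝ} (hZ : Z.IsHermitian) (hs : EigSimple Z) (j : ι) : u3Fc φ Z j ≤ 1 := by
  rw [← eig_V_col hZ j]
  refine Finset.sum_le_sum fun k hk => ?_
  rw [eig_S_eq hZ hs (Finset.mem_range.1 hk)]
  exact mul_le_of_le_one_left (sq_nonneg _) (hφ _)

theorem u3_dis_nonneg {φ : ℝ → ℝ} (hφ : ∀ s, 0 ≤ φ s) {Z : Matrix ι ι ℝ} (hZ : Z.IsHermitian) (v : ι → ℝ) : 0 ≤ u3Dis φ Z v := by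
  exact Finset.sum_nonneg fun k _ => mul_nonneg (hφ _) (u3_var_nonneg (eig_S_nonneg hZ k) v)

/-- the cost of the spectra is bounded by the euclidean distance of the data (Hoffman-Wielandt, `Ψ` is `1`-Lipschitz) -/
theorem u3_costE_le {φ Ψ : ℝ → ℝ} (hW : U3W φ Ψ) (x y : ι → ℝ) {N : Matrix ι ι ℝ} (hN : N.IsHermitian) :
    u3CostE Ψ (diagonal x + N) (diagonal y + N) ≤ ∑ j, (y j - x j) ^ 2 := by
  have h1 : u3CostE Ψ (diagonal x + N) (diagonal y + N)
      ≤ ∑ k ∈ range (Fintype.card ι), (eigD (diagonal y + N) k - eigD (diagonal x + N) k) ^ 2 := by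
    refine Finset.sum_le_sum fun k _ => ?_
    have := (u3_Psi_lip hW).dist_le_mul (eigD (diagonal y + N) k) (eigD (diagonal x + N) k)
    rw [Real.dist_eq, Real.dist_eq, NNReal.coe_one, one_mul] at this
    exact sq_le_sq.2 this
  refine h1.trans ((eig_hw (u3_Z_herm y hN) (u3_Z_herm x hN)).trans (le_of_eq ?_))
  unfold eigHS
  refine Finset.sum_congr rfl fun i _ => ?_
  rw [Finset.sum_eq_single i]
  · simp
  · intro j _ hj
    simp [Matrix.diagonal_apply_ne' _ hj]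
  · simp

/-- joint measurability of `Fc` in (noise, parameter) -/
theorem u3_fc_meas {φ : ℝ → ℝ} (hφ : Continuous φ) {X : ℝ → ι → ℝ} (hX : ∀ j, Continuous fun a => X a j) (c : ℝ) (j : ι) :
    Measurable fun p : Matrix ι ι ℝ × ℝ => u3Fc φ (diagonal (X p.2) + c • goeOf p.1) j := by
  unfold u3Fc
  refine Finset.measurable_sum _ fun k _ => ?_
  exact ((hφ.comp (eig_D_cont (u3_H_cont hX c) (fun p => u3_H_herm (X p.2) c p.1) k)).measurable).mul
    (eig_S_meas (u3_H_cont hX c) (fun p => u3_H_herm (X p.2) c p.1) k j)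

/-- joint measurability of the dissipation -/
theorem u3_dis_meas {φ : ℝ → ℝ} (hφ : Continuous φ) {X V : ℝ → ι → ℝ} (hX : ∀ j, Continuous fun a => X a j)
    (hV : ∀ j, Continuous fun a => V a j) (c : ℝ) :
    Measurable fun p : Matrix ι ι ℝ × ℝ => u3Dis φ (diagonal (X p.2) + c • goeOf p.1) (V p.2) := by
  unfold u3Dis u3Var
  have hS : ∀ k j, Measurable fun p : Matrix ι ι ℝ × ℝ => eigS (diagonal (X p.2) + c • goeOf p.1) k j := fun k j =>
    eig_S_meas (u3_H_cont hX c) (fun p => u3_H_herm (X p.2) c p.1) k j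
  have hVm : ∀ j, Measurable fun p : Matrix ι ι ℝ × ℝ => V p.2 j := fun j => ((hV j).comp continuous_snd).measurable
  refine Finset.measurable_sum _ fun k _ => ?_
  refine ((hφ.comp (eig_D_cont (u3_H_cont hX c) (fun p => u3_H_herm (X p.2) c p.1) k)).measurable).mul ?_
  refine measurable_const.mul (Finset.measurable_sum _ fun j _ => Finset.measurable_sum _ fun l _ => ?_)
  exact ((hS k j).mul (hS k l)).mul (((hVm j).sub (hVm l)).pow_const 2)

theorem u3_fc_le_card {φ : ℝ → ℝ} (hφ : ∀ s, φ s ≤ 1) {Z : Matrix ι ι ℝ} (hZ : Z.IsHermitian) (j : ι) :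
    u3Fc φ Z j ≤ Fintype.card ι := by
  unfold u3Fc
  calc ∑ k ∈ range (Fintype.card ι), φ (eigD Z k) * eigS Z k j ≤ ∑ _k ∈ range (Fintype.card ι), (1 : ℝ) :=
        Finset.sum_le_sum fun k _ => mul_le_one₀ (hφ _) (eig_S_nonneg hZ k j) (eig_S_le_one hZ k j)
    _ = Fintype.card ι := by simp

/-- joint integrability of `Fc_j / φ(X_j)` in (noise, parameter) -/
theorem u3_G_int {φ : ℝ → ℝ} (hφ : Continuous φ) (hpos : ∀ s, 0 < φ s) (hle : ∀ s, φ s ≤ 1) {X : ℝ → ι → ℝ}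
    (hX : ∀ j, Continuous fun a => X a j) (c : ℝ) (j : ι) :
    Integrable (fun p : Matrix ι ι ℝ × ℝ => u3Fc φ (diagonal (X p.2) + c • goeOf p.1) j / φ (X p.2 j))
      ((gArr ι ι).prod (volume.restrict (Set.Ioc (0 : ℝ) 1))) := by
  have := u3_gArr_prob ι
  have hc : Continuous fun a => (Fintype.card ι : ℝ) * (φ (X a j))⁻¹ :=
    continuous_const.mul ((hφ.comp (hX j)).inv₀ fun a => (hpos _).ne')
  have hi : Integrable (fun a => (Fintype.card ι : ℝ) * (φ (X a j))⁻¹) (volume.restrict (Set.Ioc (0 : ℝ) 1)) :=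
    hc.integrableOn_Ioc
  refine Integrable.mono' (hi.comp_snd (gArr ι ι)) ?_ (Filter.Eventually.of_forall fun p => ?_)
  · exact ((u3_fc_meas hφ hX c j).div ((hφ.comp ((hX j).comp continuous_snd)).measurable)).aestronglyMeasurable
  · have h0 := u3_fc_nonneg (fun s => (hpos s).le) (u3_H_herm (X p.2) c p.1) j
    have h1 := u3_fc_le_card hle (u3_H_herm (X p.2) c p.1) j
    rw [Real.norm_eq_abs, abs_of_nonneg (div_nonneg h0 (hpos _).le), div_eq_mul_inv]
    exact mul_le_mul_of_nonneg_right h1 (inv_nonneg.2 (hpos _).le)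

theorem u3_cW_herm (c : ℝ) (N : Matrix ι ι ℝ) : (c • goeOf N).IsHermitian := by
  have := eig_herm_path (Matrix.isHermitian_zero (n := ι) (α := ℝ)) (eig_goeOf_herm N) c
  simpa using this

theorem u3_costE_cont {Ψ : ℝ → ℝ} (hΨ : Continuous Ψ) (x y : ι → ℝ) (c : ℝ) :
    Continuous fun N : Matrix ι ι ℝ => u3CostE Ψ (diagonal x + c • goeOf N) (diagonal y + c • goeOf N) := by
  have h : ∀ (w : ι → ℝ) (k : ℕ), Continuous fun N : Matrix ι ι ℝ => eigD (diagonal w + c • goeOf N) k := fun w k =>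
    eig_D_cont (fun i l => (u3_H_cont (X := fun _ => w) (fun _ => continuous_const) c i l).comp
      (Continuous.prodMk continuous_id (continuous_const (y := (0 : ℝ))))) (fun N => u3_H_herm w c N) k
  unfold u3CostE
  exact continuous_finsetSum _ fun k _ => ((hΨ.comp (h y k)).sub (hΨ.comp (h x k))).pow 2

/-- **EXPECTATION FORM**.  Plan: integrate `u3_step_geo` (valid for a.e. `N` by `u3_simple_ae`) over `gArr`; all terms are bounded and measurable; Fubini on the right side. -/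
theorem u3_step_E {φ Ψ : ℝ → ℝ} (hW : U3W φ Ψ) (hsj : Function.Surjective Ψ) (x y : ι → ℝ) {c : ℝ} (hc : c ≠ 0) :
    (∫ N, u3CostE Ψ (diagonal x + c • goeOf N) (diagonal y + c • goeOf N) ∂(gArr ι ι))
        + ∫ N, (∫ a in (0 : ℝ)..1, u3Dis φ (diagonal (u3Geo Ψ x y a) + c • goeOf N) (u3GeoV φ Ψ x y a)) ∂(gArr ι ι)
      ≤ ∑ j, (Ψ (y j) - Ψ (x j)) ^ 2 *
          ∫ a in (0 : ℝ)..1, (∫ N, u3Fc φ (diagonal (u3Geo Ψ x y a) + c • goeOf N) j ∂(gArr ι ι)) / φ (u3Geo Ψ x y a j) := by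
  have := u3_gArr_prob ι
  have hP := u3_geo_path hW hsj x y
  have hXc := u3_geo_cont hW hsj x y
  have hG := fun j => u3_G_int hW.cont hW.pos hW.le1 hXc c j
  have hφ0 : ∀ s, 0 ≤ φ s := fun s => (hW.pos s).le
  -- the right side before Fubini
  have hRi : ∀ j, Integrable (fun N : Matrix ι ι ℝ => (Ψ (y j) - Ψ (x j)) ^ 2 *
      ∫ a in (0 : ℝ)..1, u3Fc φ (diagonal (u3Geo Ψ x y a) + c • goeOf N) j / φ (u3Geo Ψ x y a j)) (gArr ι ι) := fun j => by
    simp only [intervalIntegral.integral_of_le zero_le_one]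
    exact (hG j).integral_prod_left.const_mul _
  have hR : Integrable (fun N : Matrix ι ι ℝ => ∑ j, (Ψ (y j) - Ψ (x j)) ^ 2 *
      ∫ a in (0 : ℝ)..1, u3Fc φ (diagonal (u3Geo Ψ x y a) + c • goeOf N) j / φ (u3Geo Ψ x y a j)) (gArr ι ι) :=
    integrable_finsetSum _ fun j _ => hRi j
  have hae : ∀ᵐ N ∂(gArr ι ι), u3CostE Ψ (diagonal x + c • goeOf N) (diagonal y + c • goeOf N)
        + ∫ a in (0 : ℝ)..1, u3Dis φ (diagonal (u3Geo Ψ x y a) + c • goeOf N) (u3GeoV φ Ψ x y a)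
      ≤ ∑ j, (Ψ (y j) - Ψ (x j)) ^ 2 *
        ∫ a in (0 : ℝ)..1, u3Fc φ (diagonal (u3Geo Ψ x y a) + c • goeOf N) j / φ (u3Geo Ψ x y a j) :=
    (u3_simple_ae hXc hc).mono fun N hN => u3_step_geo hW hsj x y (u3_cW_herm c N) hN
  have hL1nn : ∀ N : Matrix ι ι ℝ, 0 ≤ u3CostE Ψ (diagonal x + c • goeOf N) (diagonal y + c • goeOf N) := fun N =>
    Finset.sum_nonneg fun _ _ => sq_nonneg _
  have hΨc : Continuous Ψ := (u3_Psi_lip hW).continuous
  have hL1 : Integrable (fun N : Matrix ι ι ℝ => u3CostE Ψ (diagonal x + c • goeOf N) (diagonal y + c • goeOf N)) (gArr ι ι) := by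
    refine Integrable.of_bound (u3_costE_cont hΨc x y c).aestronglyMeasurable (∑ j, (y j - x j) ^ 2)
      (Filter.Eventually.of_forall fun N => ?_)
    rw [Real.norm_eq_abs, abs_of_nonneg (hL1nn N)]
    exact u3_costE_le hW x y (u3_cW_herm c N)
  have hL2nn : ∀ N : Matrix ι ι ℝ,
      0 ≤ ∫ a in (0 : ℝ)..1, u3Dis φ (diagonal (u3Geo Ψ x y a) + c • goeOf N) (u3GeoV φ Ψ x y a) := fun N =>
    intervalIntegral.integral_nonneg zero_le_one fun a _ => u3_dis_nonneg hφ0 (u3_H_herm _ c N) _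
  have hL2 : Integrable (fun N : Matrix ι ι ℝ =>
      ∫ a in (0 : ℝ)..1, u3Dis φ (diagonal (u3Geo Ψ x y a) + c • goeOf N) (u3GeoV φ Ψ x y a)) (gArr ι ι) := by
    refine Integrable.mono' hR ?_ (hae.mono fun N hN => ?_)
    · simp only [intervalIntegral.integral_of_le zero_le_one]
      have hm := (u3_dis_meas hW.cont hXc hP.cont c).stronglyMeasurable
      exact (StronglyMeasurable.integral_prod_right (ν := volume.restrict (Set.Ioc (0 : ℝ) 1))
        (f := fun (N : Matrix ι ι ℝ) (a : ℝ) => u3Dis φ (diagonal (u3Geo Ψ x y a) + c • goeOf N) (u3GeoV φ Ψ x y a)) hm).aestronglyMeasurable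
    · rw [Real.norm_eq_abs, abs_of_nonneg (hL2nn N)]
      linarith [hL1nn N]
  rw [← integral_add hL1 hL2]
  refine (integral_mono_ae (hL1.add hL2) hR hae).trans (le_of_eq ?_)
  rw [integral_finsetSum _ fun j _ => hRi j]
  refine Finset.sum_congr rfl fun j _ => ?_
  rw [integral_const_mul]
  congr 1
  simp only [intervalIntegral.integral_of_le zero_le_one]
  rw [integral_integral_swap (f := fun (N : Matrix ι ι ℝ) (a : ℝ) =>
    u3Fc φ (diagonal (u3Geo Ψ x y a) + c • goeOf N) j / φ (u3Geo Ψ x y a j)) (hG j)]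
  refine integral_congr_ae (Filter.Eventually.of_forall fun a => ?_)
  exact integral_div _ _

/-- **ONE STEP UNDER (W)**:  if `E_N Fc(Z^a)_j ≤ (1+ε) φ(X^a_j) + r_j φ(X^a_j)` along the geodesic then `E CostE + E ∫ Dis ≤ ∑_j (1 + ε + r_j) (Ψ y_j - Ψ x_j)²`.
(the error is written RELATIVE to `φ(X^a_j)`: this is the form in which (W) is proved.) -/
theorem u3_step_W {φ Ψ : ℝ → ℝ} (hW : U3W φ Ψ) (hsj : Function.Surjective Ψ) (x y : ι → ℝ) {c : ℝ} (hc : c ≠ 0) (r : ι → ℝ)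
    (hWb : ∀ a ∈ Set.Icc (0 : ℝ) 1, ∀ j, ∫ N, u3Fc φ (diagonal (u3Geo Ψ x y a) + c • goeOf N) j ∂(gArr ι ι) ≤ (1 + r j) * φ (u3Geo Ψ x y a j)) :
    (∫ N, u3CostE Ψ (diagonal x + c • goeOf N) (diagonal y + c • goeOf N) ∂(gArr ι ι))
        + ∫ N, (∫ a in (0 : ℝ)..1, u3Dis φ (diagonal (u3Geo Ψ x y a) + c • goeOf N) (u3GeoV φ Ψ x y a)) ∂(gArr ι ι)
      ≤ ∑ j, (1 + r j) * (Ψ (y j) - Ψ (x j)) ^ 2 := by
  have := u3_gArr_prob ι
  refine (u3_step_E hW hsj x y hc).trans (Finset.sum_le_sum fun j _ => ?_)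
  rw [mul_comm]
  refine mul_le_mul_of_nonneg_right ?_ (sq_nonneg _)
  have hG := u3_G_int hW.cont hW.pos hW.le1 (u3_geo_cont hW hsj x y) c j
  have hi : IntervalIntegrable
      (fun a => (∫ N, u3Fc φ (diagonal (u3Geo Ψ x y a) + c • goeOf N) j ∂(gArr ι ι)) / φ (u3Geo Ψ x y a j)) volume 0 1 := by
    rw [intervalIntegrable_iff_integrableOn_Ioc_of_le zero_le_one]
    have := hG.integral_prod_right
    refine this.congr (Filter.Eventually.of_forall fun a => ?_)
    exact integral_div (φ (u3Geo Ψ x y a j)) (fun N : Matrix ι ι ℝ => u3Fc φ (diagonal (u3Geo Ψ x y a) + c • goeOf N) j)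
  calc ∫ a in (0 : ℝ)..1, (∫ N, u3Fc φ (diagonal (u3Geo Ψ x y a) + c • goeOf N) j ∂(gArr ι ι)) / φ (u3Geo Ψ x y a j)
      ≤ ∫ _a in (0 : ℝ)..1, (1 + r j) := by
        refine intervalIntegral.integral_mono_on zero_le_one hi intervalIntegrable_const fun a ha => ?_
        rw [div_le_iff₀ (hW.pos _)]
        exact hWb a ha j
    _ = 1 + r j := by simp

/-! ## 8. Link with the resolvent -/

/-- at a simple point `Fc` is the true functional calculus -/
theorem u3_fc_eq (φ : ℝ → ℝ) {Z : Matrix ι ι ℝ} (hZ : Z.IsHermitian) (hs : EigSimple Z) (j : ι) :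
    u3Fc φ Z j = ∑ i, φ (hZ.eigenvalues i) * (hZ.eigenvectorUnitary : Matrix ι ι ℝ) j i ^ 2 := by
  rw [eig_ix_sum]
  unfold u3Fc
  rw [← Fin.sum_univ_eq_sum_range (fun k => φ (eigD Z k) * eigS Z k j)]
  refine Finset.sum_congr rfl fun k _ => ?_
  rw [eig_S_eq hZ hs k.2, eig_V_eq hZ k.2, eig_ix_val hZ k]

/-- **Cauchy weights**: `Fc (s ↦ u²/(s²+u²)) Z j = u Im G_jj(iu)`.  Plan: `u3_fc_eq`, `rs_G_apply`, `Im 1/(λ - iu) = u/(λ²+u²)`. -/
theorem u3_fc_cauchy {Z : Matrix ι ι ℝ} (hZ : Z.IsHermitian) (hs : EigSimple Z) (j : ι) {u : ℝ} (hu : 0 < u) :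
    u3Fc (fun s => u ^ 2 / (s ^ 2 + u ^ 2)) Z j = u * (rsG Z ((u : ℂ) * Complex.I) j j).im := by
  have hz : ((u : ℂ) * Complex.I).im ≠ 0 := by simpa using hu.ne'
  rw [u3_fc_eq _ hZ hs, rs_G_im hZ hz, Finset.mul_sum]
  refine Finset.sum_congr rfl fun i _ => ?_
  have h1 : ((u : ℂ) * Complex.I).im = u := by simp
  have h2 : ((u : ℂ) * Complex.I).re = 0 := by simp
  rw [h1, h2]
  unfold rsU
  ring

/-- `Fc` is linear in the weight: mixtures.  Plan: finite sum of integrals. -/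
theorem u3_fc_mix {α : Type} [MeasurableSpace α] (ν : Measure α) (κ : α → ℝ → ℝ) (hκ : ∀ s, Integrable (fun u => κ u s) ν)
    (Z : Matrix ι ι ℝ) (j : ι) :
    u3Fc (fun s => ∫ u, κ u s ∂ν) Z j = ∫ u, u3Fc (κ u) Z j ∂ν := by
  unfold u3Fc
  rw [integral_finsetSum _ fun k _ => (hκ _).mul_const _]
  exact Finset.sum_congr rfl fun k _ => (integral_mul_const _ _).symm

end u3

end Claimed.Agent.R287
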