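-- KEEP
import Claimed.Agent.R287.Defs.U3
import Claimed.Agent.R287.Ct

/-!
# Row 287 (S0534), unit U3, block D3r: REGULARITY (Lemmas 5 and 6 of `origin/helper295:notes/R287/U3_295.md` sec. 4)      owner + prover helper186, prefix `u3r_`

All deterministic, `J` any `Fintype` (sorted data: `J` a linear order), `s_x = wlS x`.

* sec. 1  tools: bridge `wlS = ctS`, counting functions `u3rI` (closed interval), `u3rN` (centred), `count ≤ 2 R Im s(e+iR)`, the SHELL lemma (counts at the scales `2^k u` ⟹ `Im s(e+iu) ≤ 8A`),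
          EMPTY CORE (`Im s(e+iy) ≤ (2y/R) Im s(e+iR)`), HALVING (`|s(e+iu) - s(e+2iu)| ≤ Im s(e+2iu)`).
* sec. 2  Lemma 5: `ugFar`, `ugLoc` ⟹ (u0) `u3r_u0`, (u1) `u3r_u1`, (u2) `u3r_u2`, centred counts `u3r_cnt`, `Im s ≤ 96 C₁` at all heights `≥ y` (`u3r_im_le`), (u3) `u3r_u3`, gaps `u3r_gap`.
* sec. 3  Lemma 6 for an ABSTRACT change of variables `Ψ` (`U3rW`) and an abstract interpolation `v` (`Ψ v_j = (1-a) Ψ x_j + a Ψ y_j`): (r0) .. (r5).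
* sec. 4  the forms consumed by the glue (`uwGeo`, `ugGood`, `uwCore`, `WlReg`).
-/

set_option autoImplicit false
set_option linter.unusedSectionVars false

namespace Claimed.Agent.R287

open Finset

noncomputable section

/-! ## 1. Tools -/

section tools

variable {J : Type} [Fintype J]

open Classical in
/-- number of points in the closed interval `[a, b]` -/
def u3rI (x : J → ℝ) (a b : ℝ) : ℕ := (univ.filter fun j => a ≤ x j ∧ x j ≤ b).card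

open Classical in
/-- number of points at distance `≤ R` of `e` -/
def u3rN (x : J → ℝ) (e R : ℝ) : ℕ := (univ.filter fun j => |x j - e| ≤ R).card

theorem u3r_eqns_cite : True := by
  have := @u3rI.eq_1
  have := @u3rN.eq_1
  trivial

theorem u3r_Z (e u : ℝ) : (⟨e, u⟩ : ℂ) = ctZ e u := by
  apply Complex.ext <;> simp [ctZ]

theorem u3r_S (x : J → ℝ) (ζ : ℂ) : wlS x ζ = ctS x univ ζ := rfl

theorem u3r_im (x : J → ℝ) (e u : ℝ) : (wlS x ⟨e, u⟩).im = ∑ j, ctP (x j - e) u := by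
  rw [u3r_Z, u3r_S, ct_S_im]

theorem u3r_im_nonneg (x : J → ℝ) (e : ℝ) {u : ℝ} (hu : 0 < u) : 0 ≤ (wlS x ⟨e, u⟩).im := by
  rw [u3r_im]
  exact Finset.sum_nonneg fun j _ => (ct_P_pos _ hu).le

theorem u3r_im_le_norm (x : J → ℝ) (ζ : ℂ) : (wlS x ζ).im ≤ ‖wlS x ζ‖ :=
  (le_abs_self _).trans (Complex.abs_im_le_norm _)

/-- a cardinality is bounded by the sum of a nonnegative function which is `≥ 1` on the set -/
theorem u3r_card_le (p : J → Prop) [DecidablePred p] (f : J → ℝ) (hf : ∀ j, 0 ≤ f j) (h : ∀ j, p j → 1 ≤ f j) :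
    (((univ.filter p).card : ℕ) : ℝ) ≤ ∑ j, f j := by
  rw [Finset.card_filter, Nat.cast_sum]
  apply Finset.sum_le_sum
  intro j _
  by_cases hj : p j
  · simp only [hj, if_true, Nat.cast_one]; exact h j hj
  · simp only [hj, if_false, Nat.cast_zero]; exact hf j

theorem u3r_card_mono {p q : J → Prop} [DecidablePred p] [DecidablePred q] (h : ∀ j, p j → q j) : (univ.filter p).card ≤ (univ.filter q).card := by
  apply Finset.card_le_card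
  intro j hj
  simp only [Finset.mem_filter, Finset.mem_univ, true_and] at hj ⊢
  exact h j hj

theorem u3r_N_eq_I (x : J → ℝ) (e R : ℝ) : u3rN x e R = u3rI x (e - R) (e + R) := by
  unfold u3rN u3rI
  congr 1
  ext j
  simp only [Finset.mem_filter, Finset.mem_univ, true_and, abs_le]
  constructor
  · rintro ⟨h1, h2⟩; constructor <;> linarith
  · rintro ⟨h1, h2⟩; constructor <;> linarith

theorem u3r_I_mono (x : J → ℝ) {a b a' b' : ℝ} (ha : a' ≤ a) (hb : b ≤ b') : u3rI x a b ≤ u3rI x a' b' := by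
  unfold u3rI
  exact u3r_card_mono (p := fun j => a ≤ x j ∧ x j ≤ b) (q := fun j => a' ≤ x j ∧ x j ≤ b') fun _ h => ⟨ha.trans h.1, h.2.trans hb⟩

theorem u3r_N_mono (x : J → ℝ) (e : ℝ) {R R' : ℝ} (h : R ≤ R') : u3rN x e R ≤ u3rN x e R' := by
  unfold u3rN
  exact u3r_card_mono fun _ hj => hj.trans h

/-- `1 ≤ 2R · R/(r²+R²)` for `|r| ≤ R` -/
theorem u3r_P_ge {r R : ℝ} (hR : 0 < R) (h : |r| ≤ R) : 1 ≤ 2 * R * ctP r R := by
  unfold ctP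
  have h2 : r ^ 2 ≤ R ^ 2 := by
    rw [← sq_abs r]
    exact pow_le_pow_left₀ (abs_nonneg _) h 2
  rw [← mul_div_assoc, le_div_iff₀ (ct_den_pos r hR)]
  nlinarith

/-- (h5) `#{|x_i - e| ≤ R} ≤ 2 R Im s(e+iR)` -/
theorem u3r_N_le (x : J → ℝ) (e : ℝ) {R : ℝ} (hR : 0 < R) : (u3rN x e R : ℝ) ≤ 2 * R * (wlS x ⟨e, R⟩).im := by
  rw [u3r_im, Finset.mul_sum]
  exact u3r_card_le _ _ (fun j => mul_nonneg (by positivity) (ct_P_pos _ hR).le) fun j hj => u3r_P_ge hR hj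

/-- one shell: `u/(r²+u²) ≤ 4·4^{-k}/u` if `r > 2^{k-1} u` -/
theorem u3r_P_shell {r u : ℝ} (hu : 0 < u) (k : ℕ) (h : 2 ^ k * u ≤ 2 * |r|) : ctP r u ≤ 4 * (1 / 4) ^ k / u := by
  unfold ctP
  have h4 : (0 : ℝ) < 4 ^ k := by positivity
  have e4 : ((1 : ℝ) / 4) ^ k = 1 / 4 ^ k := by rw [one_div, one_div, inv_pow]
  have e2 : ((2 : ℝ) ^ k) ^ 2 = 4 ^ k := by rw [← pow_mul, mul_comm, pow_mul]; norm_num
  have h2 : (2 ^ k * u) ^ 2 ≤ (2 * |r|) ^ 2 := pow_le_pow_left₀ (by positivity) h 2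
  rw [mul_pow, mul_pow, sq_abs, e2] at h2
  rw [e4, div_le_div_iff₀ (ct_den_pos r hu) hu, mul_one_div, div_mul_eq_mul_div, le_div_iff₀ h4]
  nlinarith

theorem u3r_P_le_inv (r : ℝ) {u : ℝ} (hu : 0 < u) : ctP r u ≤ 1 / u := by
  unfold ctP
  rw [div_le_div_iff₀ (ct_den_pos r hu) hu]
  nlinarith [sq_nonneg r]

open Classical in
theorem u3r_N_sum (x : J → ℝ) (e R : ℝ) : (u3rN x e R : ℝ) = ∑ j, if |x j - e| ≤ R then (1 : ℝ) else 0 := by
  unfold u3rN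
  rw [Finset.card_filter, Nat.cast_sum]
  apply Finset.sum_congr rfl
  intro j _
  split_ifs <;> simp

open Classical in
/-- pointwise form of the shell decomposition -/
theorem u3r_P_shells {r u : ℝ} (hu : 0 < u) {n : ℕ} (hn : |r| ≤ 2 ^ n * u) :
    ctP r u ≤ ∑ k ∈ range (n + 1), 4 * (1 / 4) ^ k / u * (if |r| ≤ 2 ^ k * u then (1 : ℝ) else 0) := by
  have ex : ∃ k : ℕ, |r| ≤ 2 ^ k * u := ⟨n, hn⟩
  set m := Nat.find ex with hm
  have m1 : |r| ≤ 2 ^ m * u := Nat.find_spec ex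
  have m2 : m ≤ n := Nat.find_min' ex hn
  have nn : ∀ k ∈ range (n + 1), 0 ≤ 4 * ((1 : ℝ) / 4) ^ k / u * (if |r| ≤ 2 ^ k * u then (1 : ℝ) else 0) := by
    intro k _
    split_ifs <;> positivity
  refine le_trans ?_ (Finset.single_le_sum nn (Finset.mem_range.2 (Nat.lt_succ_of_le m2)))
  rw [if_pos m1, mul_one]
  rcases Nat.eq_zero_or_pos m with h0 | h0
  · rw [h0, pow_zero, mul_one]
    refine (u3r_P_le_inv r hu).trans ?_
    exact div_le_div_of_nonneg_right (by norm_num) hu.le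
  · apply u3r_P_shell hu
    have h3 : ¬ |r| ≤ 2 ^ (m - 1) * u := Nat.find_min ex (Nat.sub_lt h0 one_pos)
    have e : (2 : ℝ) ^ m = 2 * 2 ^ (m - 1) := by
      rw [← pow_succ']
      congr 1
      omega
    rw [e]
    rw [not_le] at h3
    nlinarith

/-- **SHELL LEMMA**: counts `≤ A R` at the scales `R = 2^k u` around `e` give `Im s(e+iu) ≤ 8 A` -/
theorem u3r_shell (x : J → ℝ) (e : ℝ) {u A : ℝ} (hu : 0 < u) (hA : 0 ≤ A)
    (h : ∀ k : ℕ, (u3rN x e (2 ^ k * u) : ℝ) ≤ A * (2 ^ k * u)) : (wlS x ⟨e, u⟩).im ≤ 8 * A := by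
  classical
  obtain ⟨n, hn⟩ : ∃ n : ℕ, ∀ j, |x j - e| ≤ 2 ^ n * u := by
    obtain ⟨n, hn⟩ := pow_unbounded_of_one_lt ((∑ j, |x j - e|) / u) (one_lt_two : (1 : ℝ) < 2)
    refine ⟨n, fun j => ?_⟩
    rw [div_lt_iff₀ hu] at hn
    exact (Finset.single_le_sum (f := fun j => |x j - e|) (fun i _ => abs_nonneg _) (Finset.mem_univ j)).trans hn.le
  rw [u3r_im]
  calc ∑ j, ctP (x j - e) u
      ≤ ∑ j, ∑ k ∈ range (n + 1), 4 * (1 / 4) ^ k / u * (if |x j - e| ≤ 2 ^ k * u then (1 : ℝ) else 0) :=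
        Finset.sum_le_sum fun j _ => u3r_P_shells hu (hn j)
    _ = ∑ k ∈ range (n + 1), 4 * (1 / 4) ^ k / u * (u3rN x e (2 ^ k * u) : ℝ) := by
        rw [Finset.sum_comm]
        apply Finset.sum_congr rfl
        intro k _
        rw [u3r_N_sum, Finset.mul_sum]
    _ ≤ ∑ k ∈ range (n + 1), 4 * A * (1 / 2) ^ k := by
        apply Finset.sum_le_sum
        intro k _
        have e1 : 4 * A * ((1 : ℝ) / 2) ^ k = 4 * (1 / 4) ^ k / u * (A * (2 ^ k * u)) := by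
          have : ((1 : ℝ) / 2) ^ k = (1 / 4) ^ k * 2 ^ k := by
            rw [← mul_pow]; norm_num
          rw [this]
          field_simp
        rw [e1]
        exact mul_le_mul_of_nonneg_left (h k) (by positivity)
    _ = 4 * A * ∑ k ∈ range (n + 1), ((1 : ℝ) / 2) ^ k := by rw [Finset.mul_sum]
    _ ≤ 4 * A * 2 := mul_le_mul_of_nonneg_left (sum_geometric_two_le _) (by positivity)
    _ = 8 * A := by ring

/-- EMPTY CORE: no point at distance `< R` of `e` ⟹ `Im s(e+iy) ≤ (2y/R) Im s(e+iR)` -/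
theorem u3r_core (x : J → ℝ) (e : ℝ) {y R : ℝ} (hy : 0 < y) (hR : 0 < R) (h : ∀ j, R ≤ |x j - e|) :
    (wlS x ⟨e, y⟩).im ≤ 2 * y / R * (wlS x ⟨e, R⟩).im := by
  rw [u3r_im, u3r_im, Finset.mul_sum]
  apply Finset.sum_le_sum
  intro j _
  unfold ctP
  have h2 : R ^ 2 ≤ (x j - e) ^ 2 := by
    rw [← sq_abs (x j - e)]
    exact pow_le_pow_left₀ hR.le (h j) 2
  rw [div_mul_div_comm, div_le_div_iff₀ (ct_den_pos _ hy) (mul_pos hR (ct_den_pos _ hR))]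
  have : 0 ≤ y * R * ((x j - e) ^ 2 - R ^ 2) := mul_nonneg (by positivity) (by linarith)
  nlinarith [mul_pos (mul_pos hy hR) (pow_pos hy 2)]

/-- HALVING: `|s(e+iu) - s(e+2iu)| ≤ Im s(e+2iu)` -/
theorem u3r_halve (x : J → ℝ) (e : ℝ) {u : ℝ} (hu : 0 < u) :
    ‖wlS x ⟨e, u⟩ - wlS x ⟨e, 2 * u⟩‖ ≤ (wlS x ⟨e, 2 * u⟩).im := by
  have h := ct_S_lip x univ (z := ⟨e, 2 * u⟩) (z' := ⟨e, u⟩) (by simpa using hu) (by simpa using hu)
  have n1 : ‖(⟨e, u⟩ : ℂ) - ⟨e, 2 * u⟩‖ = u := by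
    have : (⟨e, u⟩ : ℂ) - ⟨e, 2 * u⟩ = ((-u : ℝ) : ℂ) * Complex.I := by
      apply Complex.ext <;> simp
      ring
    rw [this, norm_mul, Complex.norm_I, mul_one, Complex.norm_real, Real.norm_eq_abs, abs_neg, abs_of_pos hu]
  rw [n1] at h
  simp only at h
  rw [u3r_S, u3r_S]
  refine h.trans (le_of_eq ?_)
  field_simp
  ring

end tools

/-! ## 2. Lemma 5 -/

section lem5

variable {J : Type} [Fintype J] {x : J → ℝ} {L y c₁ C₁ : ℝ}

theorem u3r_C_nonneg (hF : ugFar L C₁ x) : 0 ≤ C₁ :=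
  (norm_nonneg _).trans (hF 0 (by norm_num) 0)

theorem u3r_c_le (hL : 0 ≤ L) (hLoc : ugLoc L y c₁ C₁ x) : c₁ ≤ C₁ := by
  have := hLoc 0 (by simpa using hL)
  exact this.1.trans this.2

/-- (u0) `|s_x| ≤ 3 C₁` on `{Im ζ ≥ L, |Re ζ| ≤ 4L}` -/
theorem u3r_u0 (hL : 0 < L) (hF : ugFar L C₁ x) {ζ : ℂ} (h1 : L ≤ ζ.im) (h2 : |ζ.re| ≤ 4 * L) : ‖wlS x ζ‖ ≤ 3 * C₁ := by
  have hC := u3r_C_nonneg hF
  obtain ⟨k, k1, k2⟩ := exists_nat_pow_near (x := ζ.im / L) (y := 2) (by rw [le_div_iff₀ hL]; linarith) one_lt_two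
  rw [le_div_iff₀ hL] at k1
  rw [div_lt_iff₀ hL] at k2
  set U : ℝ := 2 ^ (k + 1) * L with hU
  have U2 : U = 2 * (2 ^ k * L) := by rw [hU, pow_succ]; ring
  have kL : L ≤ 2 ^ k * L := le_mul_of_one_le_left hL.le (one_le_pow₀ one_le_two)
  have U0 : 0 < U := by positivity
  set i : ℤ := round (ζ.re / (L / 4)) with hi
  have i1 : |ζ.re / (L / 4) - i| ≤ 1 / 2 := abs_sub_round _
  have L4 : 0 < L / 4 := by positivity
  have i2 : |ζ.re - i * (L / 4)| ≤ L / 8 := by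
    have e : ζ.re - i * (L / 4) = (ζ.re / (L / 4) - i) * (L / 4) := by field_simp
    rw [e, abs_mul, abs_of_pos L4]
    nlinarith
  have i3 : |i| ≤ 16 := by
    have t : |ζ.re / (L / 4)| ≤ 16 := by
      rw [abs_div, abs_of_pos L4, div_le_iff₀ L4]
      linarith
    rw [abs_le] at t i1 ⊢
    constructor
    · have : (-17 : ℝ) < i := by linarith [t.1, i1.2]
      have : (-17 : ℤ) < i := by exact_mod_cast this
      omega
    · have : (i : ℝ) < 17 := by linarith [t.2, i1.1]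
      have : i < (17 : ℤ) := by exact_mod_cast this
      omega
  set z : ℂ := ⟨i * (L / 4), U⟩ with hz
  have hFz : ‖wlS x z‖ ≤ C₁ := hF i i3 (k + 1)
  have im0 : 0 < ζ.im := hL.trans_le h1
  have lip := ct_S_lip x univ (z := z) (z' := ζ) U0 im0
  set d : ℝ := ‖ζ - z‖ with hd
  have d0 : 0 ≤ d := norm_nonneg _
  have d1 : d ≤ 9 / 16 * U := by
    have t := Complex.norm_le_abs_re_add_abs_im (ζ - z)
    have t1 : |(ζ - z).re| ≤ L / 8 := by simpa [hz] using i2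
    have t2 : |(ζ - z).im| ≤ U / 2 := by
      have : (ζ - z).im = ζ.im - U := by simp [hz]
      rw [this, abs_le]
      constructor <;> linarith
    linarith
  have d2 : d / ζ.im ≤ 9 / 8 := by
    rw [div_le_iff₀ im0]
    linarith
  have I1 : (ctS x univ z).im ≤ C₁ := (u3r_im_le_norm x z).trans hFz
  have I0 : 0 ≤ (ctS x univ z).im := by
    have := u3r_im_nonneg x (i * (L / 4)) U0
    exact this
  have zim : z.im = U := rfl
  rw [zim] at lip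
  have b1 : d * (1 + d / ζ.im) * ((ctS x univ z).im / U) ≤ 9 / 16 * U * (1 + 9 / 8) * (C₁ / U) := by
    have q0 : 0 ≤ d / ζ.im := div_nonneg d0 im0.le
    gcongr
  have b2 : 9 / 16 * U * (1 + 9 / 8) * (C₁ / U) = 153 / 128 * C₁ := by
    field_simp
    ring
  have t3 : ‖wlS x ζ‖ ≤ ‖wlS x z‖ + ‖wlS x ζ - wlS x z‖ := by
    have : wlS x ζ = wlS x z + (wlS x ζ - wlS x z) := by ring
    calc ‖wlS x ζ‖ = ‖wlS x z + (wlS x ζ - wlS x z)‖ := by rw [← this]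
      _ ≤ _ := norm_add_le _ _
  have t4 : ‖wlS x ζ - wlS x z‖ ≤ 153 / 128 * C₁ := by
    rw [← b2]
    exact lip.trans b1
  linarith

/-- (u1) an interval `[a,b] ⊆ [-4L,4L]` of length `≥ y` has at most `4 C₁ (b-a)` points -/
theorem u3r_u1 (hy : 0 < y) (hC : 0 ≤ C₁) (hLoc : ugLoc L y c₁ C₁ x) {a b : ℝ} (ha : -(4 * L) ≤ a) (hb : b ≤ 4 * L) (hab : y ≤ b - a) :
    (u3rI x a b : ℝ) ≤ 4 * C₁ * (b - a) := by
  set i0 : ℤ := ⌈a / y⌉ with hi0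
  set i1 : ℤ := ⌊b / y⌋ with hi1
  have a0 : a / y ≤ i0 := Int.le_ceil _
  have a1 : (i0 : ℝ) < a / y + 1 := Int.ceil_lt_add_one _
  have b0 : (i1 : ℝ) ≤ b / y := Int.floor_le _
  have ab : a / y + 1 ≤ b / y := by
    rw [← sub_nonneg]
    have : b / y - (a / y + 1) = (b - a - y) / y := by field_simp; ring
    rw [this]
    exact div_nonneg (by linarith) hy.le
  have i01 : i0 ≤ i1 := Int.le_floor.2 (by linarith)
  have key : ∀ j, (a ≤ x j ∧ x j ≤ b) → 1 ≤ ∑ i ∈ Finset.Icc i0 i1, 2 * y * ctP (x j - i * y) y := by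
    rintro j ⟨j1, j2⟩
    set t := x j with ht
    set i : ℤ := max i0 ⌊t / y⌋ with hi
    have ty1 : a / y ≤ t / y := div_le_div_of_nonneg_right j1 hy.le
    have ty2 : t / y ≤ b / y := div_le_div_of_nonneg_right j2 hy.le
    have m1 : i ∈ Finset.Icc i0 i1 := by
      rw [Finset.mem_Icc]
      exact ⟨le_max_left _ _, max_le i01 (Int.floor_mono ty2)⟩
    have m2 : |t / y - i| ≤ 1 := by
      rcases le_total i0 ⌊t / y⌋ with h | h
      · rw [hi, max_eq_right h, abs_le]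
        constructor
        · linarith [Int.floor_le (t / y)]
        · linarith [Int.lt_floor_add_one (t / y)]
      · rw [hi, max_eq_left h, abs_le]
        have : t / y < i0 + 1 := by
          have := Int.lt_floor_add_one (t / y)
          have h' : ((⌊t / y⌋ : ℤ) : ℝ) ≤ i0 := by exact_mod_cast h
          linarith
        constructor <;> linarith
    have m3 : |t - i * y| ≤ y := by
      have e : t - i * y = (t / y - i) * y := by field_simp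
      rw [e, abs_mul, abs_of_pos hy]
      nlinarith
    refine (u3r_P_ge hy m3).trans ?_
    exact Finset.single_le_sum (f := fun i : ℤ => 2 * y * ctP (t - i * y) y)
      (fun i _ => mul_nonneg (by positivity) (ct_P_pos _ hy).le) m1
  have c1 : (u3rI x a b : ℝ) ≤ ∑ j, ∑ i ∈ Finset.Icc i0 i1, 2 * y * ctP (x j - i * y) y := by
    unfold u3rI
    exact u3r_card_le _ _ (fun j => Finset.sum_nonneg fun i _ => mul_nonneg (by positivity) (ct_P_pos _ hy).le) key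
  refine c1.trans ?_
  rw [Finset.sum_comm]
  have c2 : ∀ i ∈ Finset.Icc i0 i1, ∑ j, 2 * y * ctP (x j - i * y) y ≤ 2 * y * C₁ := by
    intro i hi
    rw [Finset.mem_Icc] at hi
    rw [← Finset.mul_sum, ← u3r_im]
    apply mul_le_mul_of_nonneg_left _ (by positivity)
    apply (hLoc i _).2
    have h1 : (i0 : ℝ) ≤ i := by exact_mod_cast hi.1
    have h2 : (i : ℝ) ≤ i1 := by exact_mod_cast hi.2
    have h3 : a ≤ i * y := by
      have : a / y ≤ i := a0.trans h1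
      rwa [div_le_iff₀ hy] at this
    have h4 : i * y ≤ b := by
      have : (i : ℝ) ≤ b / y := h2.trans b0
      rwa [le_div_iff₀ hy] at this
    rw [abs_le]
    constructor <;> linarith
  refine (Finset.sum_le_sum c2).trans ?_
  rw [Finset.sum_const, Int.card_Icc, nsmul_eq_mul]
  have c3 : (((i1 + 1 - i0).toNat : ℕ) : ℝ) = i1 + 1 - i0 := by
    have : (((i1 + 1 - i0).toNat : ℕ) : ℤ) = i1 + 1 - i0 := Int.toNat_of_nonneg (by omega)
    have h : ((((i1 + 1 - i0).toNat : ℕ) : ℤ) : ℝ) = ((i1 + 1 - i0 : ℤ) : ℝ) := by rw [this]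
    rw [Int.cast_natCast] at h
    rw [h]
    push_cast
    ring
  rw [c3]
  have c4 : (i1 : ℝ) + 1 - i0 ≤ (b - a) / y + 1 := by
    have : (b - a) / y = b / y - a / y := by ring
    linarith
  have c5 : ((b - a) / y + 1) * (2 * y * C₁) = 2 * C₁ * (b - a) + 2 * y * C₁ := by
    field_simp
  calc ((i1 : ℝ) + 1 - i0) * (2 * y * C₁) ≤ ((b - a) / y + 1) * (2 * y * C₁) :=
        mul_le_mul_of_nonneg_right c4 (by positivity)
    _ = 2 * C₁ * (b - a) + 2 * y * C₁ := c5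
    _ ≤ 4 * C₁ * (b - a) := by nlinarith

/-- (u2) `#{|x_i - e| ≤ R} ≤ 6 C₁ R` for `R ≥ L`, `|e| ≤ 4L` -/
theorem u3r_u2 (hL : 0 < L) (hF : ugFar L C₁ x) {e R : ℝ} (he : |e| ≤ 4 * L) (hR : L ≤ R) : (u3rN x e R : ℝ) ≤ 6 * C₁ * R := by
  have R0 : 0 < R := hL.trans_le hR
  have h1 := u3r_N_le x e R0
  have h2 : (wlS x ⟨e, R⟩).im ≤ 3 * C₁ := (u3r_im_le_norm x _).trans (u3r_u0 hL hF hR he)
  nlinarith

/-- centred counts at all scales `≥ y/2`, centres `|e| ≤ 7L/2` -/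
theorem u3r_cnt (hy : 0 < y) (hL : 0 < L) (hF : ugFar L C₁ x) (hLoc : ugLoc L y c₁ C₁ x) {e R : ℝ} (he : |e| ≤ 7 * L / 2)
    (hR : y ≤ 2 * R) : (u3rN x e R : ℝ) ≤ 12 * C₁ * R := by
  have hC := u3r_C_nonneg hF
  have R0 : 0 < R := by linarith
  have he' : |e| ≤ 4 * L := by linarith
  rw [abs_le] at he
  rcases le_total R (L / 2) with h | h
  · rw [u3r_N_eq_I]
    have := u3r_u1 hy hC hLoc (a := e - R) (b := e + R) (by linarith [he.1]) (by linarith [he.2]) (by linarith)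
    nlinarith
  · rcases le_total R L with h' | h'
    · have h1 : (u3rN x e R : ℝ) ≤ u3rN x e L := by exact_mod_cast u3r_N_mono x e h'
      have h2 := u3r_u2 hL hF he' le_rfl
      nlinarith
    · have h2 := u3r_u2 hL hF he' h'
      nlinarith

/-- `Im s_x ≤ 96 C₁` at all heights `≥ y`, `|e| ≤ 7L/2` -/
theorem u3r_im_le (hy : 0 < y) (hL : 0 < L) (hF : ugFar L C₁ x) (hLoc : ugLoc L y c₁ C₁ x) {e u : ℝ} (he : |e| ≤ 7 * L / 2)
    (hu : y ≤ u) : (wlS x ⟨e, u⟩).im ≤ 96 * C₁ := by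
  have hC := u3r_C_nonneg hF
  have u0 : 0 < u := hy.trans_le hu
  have := u3r_shell x e (A := 12 * C₁) u0 (by positivity) fun k => by
    apply u3r_cnt hy hL hF hLoc he
    have : u ≤ 2 ^ k * u := le_mul_of_one_le_left u0.le (one_le_pow₀ one_le_two)
    linarith
  linarith

/-- the constant `M` of (u3) -/
def u3rM (c₁ C₁ : ℝ) : ℝ := 384 * C₁ / c₁ + 2

/-- (u3) every interval `[a,b] ⊆ [-3L,3L]` of length `≥ M y` contains a point -/
theorem u3r_u3 (hy : 0 < y) (hyL : y ≤ L) (hc : 0 < c₁) (hF : ugFar L C₁ x) (hLoc : ugLoc L y c₁ C₁ x) {a b : ℝ}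
    (ha : -(3 * L) ≤ a) (hb : b ≤ 3 * L) (hab : u3rM c₁ C₁ * y ≤ b - a) : ∃ j, a ≤ x j ∧ x j ≤ b := by
  by_contra hne
  have hne' : ∀ j, x j < a ∨ b < x j := by
    intro j
    by_contra h
    rw [not_or, not_lt, not_lt] at h
    exact hne ⟨j, h⟩
  have hL : 0 < L := hy.trans_le hyL
  have hC := u3r_C_nonneg hF
  have hcC := u3r_c_le hL.le hLoc
  have q1 : 1 ≤ C₁ / c₁ := by rwa [le_div_iff₀ hc, one_mul]
  set c : ℝ := (a + b) / 2 with hcdef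
  set i : ℤ := round (c / y) with hi
  have i1 : |c / y - i| ≤ 1 / 2 := abs_sub_round _
  have i2 : |c - i * y| ≤ y / 2 := by
    have e : c - i * y = (c / y - i) * y := by field_simp
    rw [e, abs_mul, abs_of_pos hy]
    nlinarith
  set e : ℝ := i * y with he
  set R : ℝ := (b - a) / 2 - y / 2 with hR
  have M1 : (192 * (C₁ / c₁) + 1 / 2) * y ≤ R := by
    have : u3rM c₁ C₁ = 384 * (C₁ / c₁) + 2 := by unfold u3rM; ring
    rw [this] at hab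
    rw [hR]
    nlinarith
  have R1 : y ≤ R := by nlinarith
  have R0 : 0 < R := hy.trans_le R1
  rw [abs_le] at i2
  have e1 : |e| ≤ 7 * L / 2 := by
    rw [abs_le]
    constructor
    · have : -(3 * L) ≤ c := by rw [hcdef]; linarith
      linarith [i2.2]
    · have : c ≤ 3 * L := by rw [hcdef]; linarith
      linarith [i2.1]
  have far : ∀ j, R ≤ |x j - e| := by
    intro j
    rcases hne' j with h | h
    · have : R ≤ -(x j - e) := by rw [hR]; linarith [i2.2]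
      exact this.trans (neg_le_abs _)
    · have : R ≤ x j - e := by rw [hR]; linarith [i2.1]
      exact this.trans (le_abs_self _)
  have s1 := u3r_core x e hy R0 far
  have s2 := u3r_im_le hy hL hF hLoc e1 R1
  have s3 : c₁ ≤ (wlS x ⟨e, y⟩).im := (hLoc i (by rw [← he]; linarith)).1
  have s4 : 2 * y / R * (wlS x ⟨e, R⟩).im ≤ 2 * y / R * (96 * C₁) := mul_le_mul_of_nonneg_left s2 (by positivity)
  have s5 : c₁ ≤ 2 * y / R * (96 * C₁) := s3.trans (s1.trans s4)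
  have s6 : c₁ * R ≤ 192 * C₁ * y := by
    have : 2 * y / R * (96 * C₁) = 192 * C₁ * y / R := by ring
    rw [this, le_div_iff₀ R0] at s5
    exact s5
  have s7 : c₁ * ((192 * (C₁ / c₁) + 1 / 2) * y) ≤ c₁ * R := mul_le_mul_of_nonneg_left M1 hc.le
  have s8 : c₁ * ((192 * (C₁ / c₁) + 1 / 2) * y) = 192 * C₁ * y + c₁ * y / 2 := by
    field_simp
  have : 0 < c₁ * y := mul_pos hc hy
  linarith

/-- gaps: consecutive points in `[-3L,3L]` are at distance `≤ M y` -/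
theorem u3r_gap [LinearOrder J] (hx : Monotone x) (hy : 0 < y) (hyL : y ≤ L) (hc : 0 < c₁) (hF : ugFar L C₁ x)
    (hLoc : ugLoc L y c₁ C₁ x) {j k : J} (hjk : ∀ i, i ≤ j ∨ k ≤ i) (h1 : -(3 * L) ≤ x j) (h2 : x k ≤ 3 * L) :
    x k - x j ≤ u3rM c₁ C₁ * y := by
  by_contra h
  rw [not_le] at h
  set ε : ℝ := (x k - x j - u3rM c₁ C₁ * y) / 2 with hε
  have ε0 : 0 < ε := by rw [hε]; linarith
  obtain ⟨i, i1, i2⟩ := u3r_u3 hy hyL hc hF hLoc (a := x j + ε) (b := x k - ε) (by linarith) (by linarith)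
    (by rw [hε]; linarith)
  rcases hjk i with h' | h'
  · have := hx h'
    linarith
  · have := hx h'
    linarith

end lem5

/-! ## 3. Lemma 6 (REG), abstract change of variables -/

/-- what Lemma 6 asks from the change of variables `Ψ` (sec. 1 of the note: (w3), (w4), flat core) -/
structure U3rW (L α cs cφ : ℝ) (Ψ : ℝ → ℝ) : Prop where
  α0 : 0 ≤ α
  α1 : α ≤ 1
  cs0 : 0 < cs
  cφ0 : 0 < cφ
  cφ1 : cφ ≤ 1
  mono : Monotone Ψ
  lip : ∀ s s', s ≤ s' → Ψ s' - Ψ s ≤ s' - s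
  low : ∀ s s', -(3 * L) ≤ s → s ≤ s' → s' ≤ 3 * L → cφ * (s' - s) ≤ Ψ s' - Ψ s
  dist : ∀ s s' lam, |Ψ s' - Ψ s| ≤ lam → lam ≤ cs * L → |s' - s| ≤ lam / cs * ((L + |s|) / L) ^ α
  flat : ∀ s, |s| ≤ L → Ψ s = s
  surj : Function.Surjective Ψ

/-- `v` is the point at time `a` of the `Ψ`-geodesic from `x` to `x'` -/
structure U3rV {J : Type} (Ψ : ℝ → ℝ) (x x' v : J → ℝ) (a : ℝ) : Prop where
  a0 : 0 ≤ a
  a1 : a ≤ 1
  eq : ∀ j, Ψ (v j) = (1 - a) * Ψ (x j) + a * Ψ (x' j)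

/-- the numerical hypotheses and the good pair -/
structure U3rG {J : Type} [Fintype J] (L y c₁ C₁ Lam cs : ℝ) (Ψ : ℝ → ℝ) (x x' : J → ℝ) : Prop where
  y0 : 0 < y
  yL : y ≤ L
  c0 : 0 < c₁
  Lam0 : 0 ≤ Lam
  Lam1 : Lam ≤ cs * L / 64
  Lam3 : 900 * C₁ * Lam ^ 2 ≤ cs ^ 2 * L ^ 3
  far : ugFar L C₁ x
  loc : ugLoc L y c₁ C₁ x
  far' : ugFar L C₁ x'
  loc' : ugLoc L y c₁ C₁ x'
  cost : ∑ j, (Ψ (x' j) - Ψ (x j)) ^ 2 ≤ Lam ^ 2

section lem6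

variable {J : Type} [Fintype J] {x x' v : J → ℝ} {L α cs cφ y c₁ C₁ Lam a : ℝ} {Ψ : ℝ → ℝ}

theorem U3rG.L0 (hG : U3rG L y c₁ C₁ Lam cs Ψ x x') : 0 < L := hG.y0.trans_le hG.yL

theorem U3rG.C0 (hG : U3rG L y c₁ C₁ Lam cs Ψ x x') : 0 ≤ C₁ := u3r_C_nonneg hG.far

/-- `|D_j| ≤ Λ` -/
theorem U3rG.D_le (hG : U3rG L y c₁ C₁ Lam cs Ψ x x') (j : J) : |Ψ (x' j) - Ψ (x j)| ≤ Lam := by
  apply abs_le_of_sq_le_sq _ hG.Lam0
  exact (Finset.single_le_sum (f := fun j => (Ψ (x' j) - Ψ (x j)) ^ 2) (fun i _ => sq_nonneg _) (Finset.mem_univ j)).trans hG.cost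

theorem U3rV.D_eq (hV : U3rV Ψ x x' v a) (j : J) : Ψ (v j) - Ψ (x j) = a * (Ψ (x' j) - Ψ (x j)) := by
  rw [hV.eq]; ring

theorem U3rV.D_le (hV : U3rV Ψ x x' v a) (j : J) : |Ψ (v j) - Ψ (x j)| ≤ |Ψ (x' j) - Ψ (x j)| := by
  rw [hV.D_eq, abs_mul, abs_of_nonneg hV.a0]
  exact mul_le_of_le_one_left (abs_nonneg _) hV.a1

/-- `((L+|s|)/L)^α ≤ (L+|s|)/L` -/
theorem U3rW.pow_le (hW : U3rW L α cs cφ Ψ) (hL : 0 < L) (s : ℝ) : ((L + |s|) / L) ^ α ≤ (L + |s|) / L := by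
  have h1 : 1 ≤ (L + |s|) / L := by
    rw [le_div_iff₀ hL]
    linarith [abs_nonneg s]
  calc ((L + |s|) / L) ^ α ≤ ((L + |s|) / L) ^ (1 : ℝ) := Real.rpow_le_rpow_of_exponent_le h1 hW.α1
    _ = _ := Real.rpow_one _

/-- (w4), linear form -/
theorem U3rW.dist1 (hW : U3rW L α cs cφ Ψ) (hL : 0 < L) {s s' lam : ℝ} (h : |Ψ s' - Ψ s| ≤ lam) (h2 : lam ≤ cs * L) :
    |s' - s| ≤ lam / cs * ((L + |s|) / L) := by
  have l0 : 0 ≤ lam := (abs_nonneg _).trans h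
  exact (hW.dist s s' lam h h2).trans (mul_le_mul_of_nonneg_left (hW.pow_le hL s) (div_nonneg l0 hW.cs0.le))

/-- (w4), `1/64` form -/
theorem U3rW.dist64 (hW : U3rW L α cs cφ Ψ) (hL : 0 < L) {s s' lam : ℝ} (h : |Ψ s' - Ψ s| ≤ lam) (h2 : lam ≤ cs * L / 64) :
    |s' - s| ≤ (L + |s|) / 64 := by
  have l0 : 0 ≤ lam := (abs_nonneg _).trans h
  have cL : 0 < cs * L := mul_pos hW.cs0 hL
  refine (hW.dist1 hL h (by linarith)).trans ?_
  have h3 : lam / cs ≤ L / 64 := by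
    rw [div_le_iff₀ hW.cs0]
    linarith
  have h4 : 0 ≤ (L + |s|) / L := div_nonneg (by linarith [abs_nonneg s]) hL.le
  calc lam / cs * ((L + |s|) / L) ≤ L / 64 * ((L + |s|) / L) := mul_le_mul_of_nonneg_right h3 h4
    _ = (L + |s|) / 64 := by field_simp

/-- (r0) for `δ` -/
theorem u3r_r0 (hW : U3rW L α cs cφ Ψ) (hG : U3rG L y c₁ C₁ Lam cs Ψ x x') (j : J) :
    |x' j - x j| ≤ Lam / cs * ((L + |x j|) / L) ^ α ∧ |x' j - x j| ≤ (L + |x j|) / 64 := by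
  have cL : 0 < cs * L := mul_pos hW.cs0 hG.L0
  exact ⟨hW.dist _ _ _ (hG.D_le j) (by linarith [hG.Lam1]), hW.dist64 hG.L0 (hG.D_le j) hG.Lam1⟩

/-- (r0) for `v` -/
theorem u3r_r0v (hW : U3rW L α cs cφ Ψ) (hG : U3rG L y c₁ C₁ Lam cs Ψ x x') (hV : U3rV Ψ x x' v a) (j : J) :
    |v j - x j| ≤ Lam / cs * ((L + |x j|) / L) ^ α ∧ |v j - x j| ≤ (L + |x j|) / 64 := by
  have cL : 0 < cs * L := mul_pos hW.cs0 hG.L0
  have h := (hV.D_le j).trans (hG.D_le j)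
  exact ⟨hW.dist _ _ _ h (by linarith [hG.Lam1]), hW.dist64 hG.L0 h hG.Lam1⟩

/-- `|v_j - x_j| ≤ (|D_j|/c*) (L+|x_j|)/L` -/
theorem u3r_r0D (hW : U3rW L α cs cφ Ψ) (hG : U3rG L y c₁ C₁ Lam cs Ψ x x') (hV : U3rV Ψ x x' v a) (j : J) :
    |v j - x j| ≤ |Ψ (x' j) - Ψ (x j)| / cs * ((L + |x j|) / L) := by
  have cL : 0 < cs * L := mul_pos hW.cs0 hG.L0
  exact hW.dist1 hG.L0 (hV.D_le j) (by linarith [hG.Lam1, hG.D_le j])

/-- one point: `|1/(v-ζ) - 1/(x-ζ)| ≤ 30 |v-x|/(L+|x|)²` for `Im ζ ≥ L`, `|Re ζ| ≤ 2L`, `|v-x| ≤ (L+|x|)/64` -/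
theorem u3r_pt_diff {p q : ℝ} {ζ : ℂ} (hL : 0 < L) (h1 : L ≤ ζ.im) (h2 : |ζ.re| ≤ 2 * L) (hq : |q - p| ≤ (L + |p|) / 64) :
    ‖((q : ℂ) - ζ)⁻¹ - ((p : ℂ) - ζ)⁻¹‖ ≤ 30 * |q - p| / (L + |p|) ^ 2 := by
  set P : ℂ := (p : ℂ) - ζ with hP
  set Q : ℂ := (q : ℂ) - ζ with hQ
  set m : ℝ := L + |p| with hm
  have m0 : 0 < m := by rw [hm]; linarith [abs_nonneg p]
  have n1 : L ≤ ‖P‖ := by
    have := Complex.abs_im_le_norm P
    have e : P.im = -ζ.im := by simp [hP]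
    rw [e, abs_neg] at this
    exact h1.trans ((le_abs_self _).trans this)
  have n2 : |p| - 2 * L ≤ ‖P‖ := by
    have := Complex.abs_re_le_norm P
    have e : P.re = p - ζ.re := by simp [hP]
    rw [e] at this
    have t : |p| ≤ |p - ζ.re| + |ζ.re| := by
      have := abs_add_le (p - ζ.re) ζ.re
      simpa using this
    linarith
  have n3 : m / 5 ≤ ‖P‖ := by rw [hm]; linarith
  have n4 : ‖P‖ ≤ ‖Q‖ + |q - p| := by
    have e : P = Q - ((q - p : ℝ) : ℂ) := by rw [hP, hQ]; push_cast; ring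
    calc ‖P‖ = ‖Q - ((q - p : ℝ) : ℂ)‖ := by rw [← e]
      _ ≤ ‖Q‖ + ‖((q - p : ℝ) : ℂ)‖ := norm_sub_le _ _
      _ = _ := by rw [Complex.norm_real, Real.norm_eq_abs]
  have n5 : m / 6 ≤ ‖Q‖ := by linarith
  have P0 : P ≠ 0 := norm_pos_iff.1 (by linarith)
  have Q0 : Q ≠ 0 := norm_pos_iff.1 (by linarith)
  have e : Q⁻¹ - P⁻¹ = ((p - q : ℝ) : ℂ) * (Q⁻¹ * P⁻¹) := by
    have : ((p - q : ℝ) : ℂ) = P - Q := by rw [hP, hQ]; push_cast; ring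
    rw [this]
    field_simp
  rw [e, norm_mul, norm_mul, norm_inv, norm_inv, Complex.norm_real, Real.norm_eq_abs, abs_sub_comm p q]
  have i1 : ‖Q‖⁻¹ ≤ 6 / m := by
    rw [inv_le_comm₀ (by linarith) (by positivity), inv_div]
    exact n5
  have i2 : ‖P‖⁻¹ ≤ 5 / m := by
    rw [inv_le_comm₀ (by linarith) (by positivity), inv_div]
    exact n3
  calc |q - p| * (‖Q‖⁻¹ * ‖P‖⁻¹) ≤ |q - p| * (6 / m * (5 / m)) := by
        apply mul_le_mul_of_nonneg_left _ (abs_nonneg _)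
        exact mul_le_mul i1 i2 (by positivity) (by positivity)
    _ = 30 * |q - p| / m ^ 2 := by field_simp; ring

/-- `∑ 1/(L+|x_j|)² ≤ C₁/L` -/
theorem u3r_sum_w (hL : 0 < L) (hF : ugFar L C₁ x) : ∑ j, (1 / (L + |x j|)) ^ 2 ≤ C₁ / L := by
  have h0 : ‖wlS x ⟨0, L⟩‖ ≤ C₁ := by
    have := hF 0 (by norm_num) 0
    simpa using this
  have h1 : (wlS x ⟨0, L⟩).im ≤ C₁ := (u3r_im_le_norm x _).trans h0
  rw [u3r_im] at h1
  rw [le_div_iff₀ hL, Finset.sum_mul]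
  refine le_trans (Finset.sum_le_sum fun j _ => ?_) h1
  unfold ctP
  have a0 := abs_nonneg (x j)
  have m0 : 0 < L + |x j| := by linarith
  rw [sub_zero, one_div, inv_pow, inv_mul_eq_div]
  apply div_le_div_of_nonneg_left hL.le (ct_den_pos _ hL)
  nlinarith [sq_abs (x j)]

/-- (r1) `|s_v - s_x| ≤ 1` on `{Im ζ ≥ L, |Re ζ| ≤ 2L}` -/
theorem u3r_r1_diff (hW : U3rW L α cs cφ Ψ) (hG : U3rG L y c₁ C₁ Lam cs Ψ x x') (hV : U3rV Ψ x x' v a) {ζ : ℂ}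
    (h1 : L ≤ ζ.im) (h2 : |ζ.re| ≤ 2 * L) : ‖wlS v ζ - wlS x ζ‖ ≤ 1 := by
  have hL := hG.L0
  have hcs := hW.cs0
  set D : J → ℝ := fun j => |Ψ (x' j) - Ψ (x j)| with hD
  set w : J → ℝ := fun j => 1 / (L + |x j|) with hw
  set T : ℝ := ∑ j, D j * w j with hT
  have T0 : 0 ≤ T := Finset.sum_nonneg fun j _ => mul_nonneg (abs_nonneg _) (by
    have := abs_nonneg (x j)
    rw [hw]; positivity)
  have s1 : ‖wlS v ζ - wlS x ζ‖ ≤ 30 / (cs * L) * T := by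
    unfold wlS
    rw [← Finset.sum_sub_distrib, hT, Finset.mul_sum]
    refine (norm_sum_le _ _).trans (Finset.sum_le_sum fun j _ => ?_)
    have m0 : 0 < L + |x j| := by linarith [abs_nonneg (x j)]
    refine (u3r_pt_diff hL h1 h2 (u3r_r0v hW hG hV j).2).trans ?_
    have := u3r_r0D hW hG hV j
    calc 30 * |v j - x j| / (L + |x j|) ^ 2 ≤ 30 * (|Ψ (x' j) - Ψ (x j)| / cs * ((L + |x j|) / L)) / (L + |x j|) ^ 2 := by
          gcongr
      _ = 30 / (cs * L) * (D j * w j) := by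
          rw [hD, hw]; field_simp
  have s2 : T ^ 2 ≤ Lam ^ 2 * (C₁ / L) := by
    have cs1 := Finset.sum_mul_sq_le_sq_mul_sq univ D w
    have c1 : ∑ j, D j ^ 2 ≤ Lam ^ 2 := by
      refine le_trans (le_of_eq ?_) hG.cost
      apply Finset.sum_congr rfl
      intro j _
      rw [hD]; exact sq_abs _
    have c2 : ∑ j, w j ^ 2 ≤ C₁ / L := u3r_sum_w hL hG.far
    have c3 : 0 ≤ ∑ j, w j ^ 2 := Finset.sum_nonneg fun j _ => sq_nonneg _
    exact cs1.trans (mul_le_mul c1 c2 c3 (sq_nonneg _))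
  have s3 : T ≤ cs * L / 30 := by
    have : |T| ≤ cs * L / 30 := by
      apply abs_le_of_sq_le_sq _ (by positivity)
      refine s2.trans ?_
      rw [← mul_div_assoc, div_le_iff₀ hL]
      have := hG.Lam3
      nlinarith
    exact (le_abs_self _).trans this
  calc ‖wlS v ζ - wlS x ζ‖ ≤ 30 / (cs * L) * T := s1
    _ ≤ 30 / (cs * L) * (cs * L / 30) := mul_le_mul_of_nonneg_left s3 (by positivity)
    _ = 1 := by field_simp

/-- (r1) `|s_v| ≤ 3 C₁ + 1` on `{Im ζ ≥ L, |Re ζ| ≤ 2L}` -/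
theorem u3r_r1 (hW : U3rW L α cs cφ Ψ) (hG : U3rG L y c₁ C₁ Lam cs Ψ x x') (hV : U3rV Ψ x x' v a) {ζ : ℂ}
    (h1 : L ≤ ζ.im) (h2 : |ζ.re| ≤ 2 * L) : ‖wlS v ζ‖ ≤ 3 * C₁ + 1 := by
  have d := u3r_r1_diff hW hG hV h1 h2
  have u := u3r_u0 hG.L0 hG.far h1 (by linarith [hG.L0])
  have : wlS v ζ = wlS x ζ + (wlS v ζ - wlS x ζ) := by ring
  calc ‖wlS v ζ‖ = ‖wlS x ζ + (wlS v ζ - wlS x ζ)‖ := by rw [← this]
    _ ≤ ‖wlS x ζ‖ + ‖wlS v ζ - wlS x ζ‖ := norm_add_le _ _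
    _ ≤ _ := by linarith

/-- `|v_j| ≤ R`, `R ≥ L` ⟹ `|x_j| ≤ 3R/2` and `|x'_j| ≤ 3R/2` -/
theorem u3r_back (hW : U3rW L α cs cφ Ψ) (hG : U3rG L y c₁ C₁ Lam cs Ψ x x') (hV : U3rV Ψ x x' v a) {j : J} {R : ℝ}
    (hR : L ≤ R) (h : |v j| ≤ R) : |x j| ≤ 3 * R / 2 ∧ |x' j| ≤ 3 * R / 2 := by
  have h1 := (u3r_r0v hW hG hV j).2
  have h2 := (u3r_r0 hW hG j).2
  have hL := hG.L0
  have t1 : |x j| ≤ |v j| + |v j - x j| := by
    have := abs_sub_abs_le_abs_sub (x j) (v j)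
    rw [abs_sub_comm] at this
    linarith
  have t2 : |x' j| ≤ |x j| + |x' j - x j| := by
    have := abs_sub_abs_le_abs_sub (x' j) (x j)
    linarith
  constructor <;> linarith

section order

variable [LinearOrder J]

open Classical in
/-- the monotonicity argument of (r2), for one of the two configurations -/
theorem u3r_r2_aux (hW : U3rW L α cs cφ Ψ) {z : J → ℝ} (hz : Monotone z) (hy : 0 < y) (hyL : y ≤ L) (hF : ugFar L C₁ z)
    (hLoc : ugLoc L y c₁ C₁ z) {T : Finset J} {i1 i2 : J} (hT : ∀ j ∈ T, i1 ≤ j ∧ j ≤ i2) (h12 : i1 ≤ i2) {w : ℝ} (hw : y ≤ w)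
    (b1 : |z i1| ≤ 3 * L) (b2 : |z i2| ≤ 3 * L) (hΨ : Ψ (z i2) - Ψ (z i1) ≤ w) : (T.card : ℝ) ≤ 4 * C₁ / cφ * w := by
  have hC := u3r_C_nonneg hF
  have hφ := hW.cφ0
  rw [abs_le] at b1 b2
  have z12 : z i1 ≤ z i2 := hz h12
  have l1 : cφ * (z i2 - z i1) ≤ w := (hW.low _ _ b1.1 z12 b2.2).trans hΨ
  have l2 : z i2 - z i1 ≤ w / cφ := by
    rw [le_div_iff₀ hφ]; linarith
  have w0 : 0 < w := hy.trans_le hw
  have l3 : y ≤ w / cφ := by
    rw [le_div_iff₀ hφ]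
    have : y * cφ ≤ y * 1 := mul_le_mul_of_nonneg_left hW.cφ1 hy.le
    linarith
  set B : ℝ := max (z i2) (z i1 + y) with hB
  have c1 : T.card ≤ u3rI z (z i1) B := by
    unfold u3rI
    apply Finset.card_le_card
    intro j hj
    simp only [Finset.mem_filter, Finset.mem_univ, true_and]
    exact ⟨hz (hT j hj).1, (hz (hT j hj).2).trans (le_max_left _ _)⟩
  have c2 : (u3rI z (z i1) B : ℝ) ≤ 4 * C₁ * (B - z i1) :=
    u3r_u1 hy hC hLoc (by linarith [b1.1]) (max_le (by linarith [b2.2]) (by linarith [b1.2]))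
      (by have := le_max_right (z i2) (z i1 + y); linarith)
  have c3 : B - z i1 ≤ w / cφ := by
    have : B ≤ z i1 + w / cφ := max_le (by linarith) (by linarith)
    linarith
  have c4 : (T.card : ℝ) ≤ u3rI z (z i1) B := by exact_mod_cast c1
  calc (T.card : ℝ) ≤ 4 * C₁ * (B - z i1) := c4.trans c2
    _ ≤ 4 * C₁ * (w / cφ) := mul_le_mul_of_nonneg_left c3 (by positivity)
    _ = 4 * C₁ / cφ * w := by ring

/-- (r2) an interval `[p,q] ⊆ [-2L,2L]` of length `≥ y` has at most `(4 C₁/c_φ)(q-p)` points of `v` -/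
theorem u3r_r2 (hW : U3rW L α cs cφ Ψ) (hG : U3rG L y c₁ C₁ Lam cs Ψ x x') (hV : U3rV Ψ x x' v a) (hx : Monotone x)
    (hx' : Monotone x') {p q : ℝ} (hp : -(2 * L) ≤ p) (hq : q ≤ 2 * L) (hpq : y ≤ q - p) :
    (u3rI v p q : ℝ) ≤ 4 * C₁ / cφ * (q - p) := by
  classical
  have hL := hG.L0
  have hC := hG.C0
  have hφ := hW.cφ0
  have pq0 : 0 < q - p := hG.y0.trans_le hpq
  unfold u3rI
  set T : Finset J := univ.filter fun j => p ≤ v j ∧ v j ≤ q with hT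
  rcases T.eq_empty_or_nonempty with h0 | hne
  · rw [h0]
    simp only [Finset.card_empty, Nat.cast_zero]
    positivity
  set i1 := T.min' hne with hi1
  set i2 := T.max' hne with hi2
  have m1 : i1 ∈ T := T.min'_mem hne
  have m2 : i2 ∈ T := T.max'_mem hne
  have hTb : ∀ j ∈ T, i1 ≤ j ∧ j ≤ i2 := fun j hj => ⟨T.min'_le j hj, T.le_max' j hj⟩
  have h12 : i1 ≤ i2 := (hTb i1 m1).2
  have v1 : p ≤ v i1 ∧ v i1 ≤ q := by simpa [hT] using m1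
  have v2 : p ≤ v i2 ∧ v i2 ≤ q := by simpa [hT] using m2
  have av1 : |v i1| ≤ 2 * L := abs_le.2 ⟨by linarith [v1.1], by linarith [v1.2]⟩
  have av2 : |v i2| ≤ 2 * L := abs_le.2 ⟨by linarith [v2.1], by linarith [v2.2]⟩
  have k1 := u3r_back hW hG hV (by linarith) av1
  have k2 := u3r_back hW hG hV (by linarith) av2
  have Ψv : Ψ (v i2) - Ψ (v i1) ≤ q - p := by
    rcases le_total (v i1) (v i2) with h | h
    · have := hW.lip _ _ h
      linarith [v1.1, v2.2]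
    · have := hW.mono h
      linarith
  rw [hV.eq, hV.eq] at Ψv
  have alt : Ψ (x i2) - Ψ (x i1) ≤ q - p ∨ Ψ (x' i2) - Ψ (x' i1) ≤ q - p := by
    by_contra hcon
    rw [not_or, not_le, not_le] at hcon
    have a0 := hV.a0
    have a1 := hV.a1
    have t1 : (1 - a) * (q - p) ≤ (1 - a) * (Ψ (x i2) - Ψ (x i1)) := mul_le_mul_of_nonneg_left hcon.1.le (by linarith)
    have t2 : a * (q - p) ≤ a * (Ψ (x' i2) - Ψ (x' i1)) := mul_le_mul_of_nonneg_left hcon.2.le a0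
    rcases eq_or_lt_of_le a0 with h | h
    · rw [← h] at Ψv
      linarith [hcon.1]
    · have t3 : a * (q - p) < a * (Ψ (x' i2) - Ψ (x' i1)) := mul_lt_mul_of_pos_left hcon.2 h
      linarith
  rcases alt with h | h
  · exact u3r_r2_aux hW hx hG.y0 hG.yL hG.far hG.loc hTb h12 hpq (by linarith [k1.1]) (by linarith [k2.1]) h
  · exact u3r_r2_aux hW hx' hG.y0 hG.yL hG.far' hG.loc' hTb h12 hpq (by linarith [k1.2]) (by linarith [k2.2]) h

/-- centred counts of `v`: `#{|v_j - e| ≤ R} ≤ (18 C₁/c_φ) R` for `|e| ≤ L`, `2R ≥ y` -/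
theorem u3r_cnt_v (hW : U3rW L α cs cφ Ψ) (hG : U3rG L y c₁ C₁ Lam cs Ψ x x') (hV : U3rV Ψ x x' v a) (hx : Monotone x)
    (hx' : Monotone x') {e R : ℝ} (he : |e| ≤ L) (hR : y ≤ 2 * R) : (u3rN v e R : ℝ) ≤ 18 * C₁ / cφ * R := by
  have hL := hG.L0
  have hC := hG.C0
  have hφ := hW.cφ0
  have R0 : 0 < R := by linarith [hG.y0]
  have q0 : 0 ≤ C₁ / cφ := div_nonneg hC hφ.le
  rcases le_total R L with h | h
  · rw [abs_le] at he
    rw [u3r_N_eq_I]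
    have := u3r_r2 hW hG hV hx hx' (p := e - R) (q := e + R) (by linarith [he.1]) (by linarith [he.2]) (by linarith)
    have e1 : 4 * C₁ / cφ * (e + R - (e - R)) = 8 * (C₁ / cφ) * R := by ring
    have e2 : 18 * C₁ / cφ * R = 18 * (C₁ / cφ) * R := by ring
    rw [e1] at this
    rw [e2]
    nlinarith
  · have c1 : u3rN v e R ≤ u3rN x 0 (3 * R) := by
      unfold u3rN
      apply u3r_card_mono
      intro j hj
      have : |v j| ≤ 2 * R := by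
        have := abs_sub_abs_le_abs_sub (v j) e
        linarith
      have := (u3r_back hW hG hV (by linarith) this).1
      rw [sub_zero]
      linarith
    have c2 := u3r_u2 hL hG.far (e := 0) (R := 3 * R) (by simpa using hL.le) (by linarith)
    have c3 : (u3rN v e R : ℝ) ≤ u3rN x 0 (3 * R) := by exact_mod_cast c1
    have c4 : C₁ ≤ C₁ / cφ := by
      rw [le_div_iff₀ hφ]
      exact mul_le_of_le_one_right hC hW.cφ1
    have e2 : 18 * C₁ / cφ * R = 18 * (C₁ / cφ) * R := by ring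
    rw [e2]
    nlinarith

/-- the constant `C₅` of (r3) -/
def u3rC5 (C₁ cφ : ℝ) : ℝ := 144 * C₁ / cφ

/-- (r3) `Im s_v ≤ C₅` for `Im ζ ≥ y`, `|Re ζ| ≤ L` -/
theorem u3r_r3 (hW : U3rW L α cs cφ Ψ) (hG : U3rG L y c₁ C₁ Lam cs Ψ x x') (hV : U3rV Ψ x x' v a) (hx : Monotone x)
    (hx' : Monotone x') {e u : ℝ} (he : |e| ≤ L) (hu : y ≤ u) : (wlS v ⟨e, u⟩).im ≤ u3rC5 C₁ cφ := by
  have u0 : 0 < u := hG.y0.trans_le hu
  have := u3r_shell v e (A := 18 * C₁ / cφ) u0 (div_nonneg (mul_nonneg (by norm_num) hG.C0) hW.cφ0.le) fun k => by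
    apply u3r_cnt_v hW hG hV hx hx' he
    have : u ≤ 2 ^ k * u := le_mul_of_one_le_left u0.le (one_le_pow₀ one_le_two)
    linarith
  unfold u3rC5
  have e : 144 * C₁ / cφ = 8 * (18 * C₁ / cφ) := by ring
  rw [e]
  exact this

/-- (r4), ladder form: `|s_v(e+iu)| ≤ 3 C₁ + 1 + n C₅` if `u ≥ y`, `2^n u ≥ L`, `|e| ≤ L` -/
theorem u3r_r4_n (hW : U3rW L α cs cφ Ψ) (hG : U3rG L y c₁ C₁ Lam cs Ψ x x') (hV : U3rV Ψ x x' v a) (hx : Monotone x)
    (hx' : Monotone x') {e : ℝ} (he : |e| ≤ L) (n : ℕ) :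
    ∀ u : ℝ, y ≤ u → L ≤ 2 ^ n * u → ‖wlS v ⟨e, u⟩‖ ≤ 3 * C₁ + 1 + n * u3rC5 C₁ cφ := by
  induction n with
  | zero =>
    intro u _ h2
    have := u3r_r1 hW hG hV (ζ := ⟨e, u⟩) (by simpa using h2) (by simpa using he.trans (by linarith [hG.L0]))
    simpa using this
  | succ n ih =>
    intro u h1 h2
    have u0 : 0 < u := hG.y0.trans_le h1
    have i1 := ih (2 * u) (by linarith) (by rw [pow_succ] at h2; linarith)
    have i2 := u3r_halve v e u0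
    have i3 := u3r_r3 hW hG hV hx hx' he (u := 2 * u) (by linarith)
    have : wlS v ⟨e, u⟩ = wlS v ⟨e, 2 * u⟩ + (wlS v ⟨e, u⟩ - wlS v ⟨e, 2 * u⟩) := by ring
    calc ‖wlS v ⟨e, u⟩‖ = ‖wlS v ⟨e, 2 * u⟩ + (wlS v ⟨e, u⟩ - wlS v ⟨e, 2 * u⟩)‖ := by rw [← this]
      _ ≤ ‖wlS v ⟨e, 2 * u⟩‖ + ‖wlS v ⟨e, u⟩ - wlS v ⟨e, 2 * u⟩‖ := norm_add_le _ _
      _ ≤ 3 * C₁ + 1 + n * u3rC5 C₁ cφ + u3rC5 C₁ cφ := by linarith
      _ = _ := by push_cast; ring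

/-- the constant `C_L = 3 C₁ + 1 + C₅ (2 log L + 1)` of (r4) -/
def u3rCL (C₁ cφ L : ℝ) : ℝ := 3 * C₁ + 1 + u3rC5 C₁ cφ * (2 * Real.log L + 1)

theorem u3r_eqns_cite2 : True := by
  have := @u3rM.eq_1
  have := @u3rC5.eq_1
  have := @u3rCL.eq_1
  trivial

/-- a number of halvings: `L ≤ 2^n`, `n ≤ 2 log L + 1` -/
theorem u3r_nlog (hL : 1 ≤ L) : ∃ n : ℕ, L ≤ 2 ^ n ∧ (n : ℝ) ≤ 2 * Real.log L + 1 := by
  have L0 : 0 < L := by linarith
  have l0 : 0 ≤ Real.log L := Real.log_nonneg hL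
  have l2 : (1 : ℝ) / 2 ≤ Real.log 2 := by
    have := Real.log_two_gt_d9
    linarith
  have l2' : 0 < Real.log 2 := by linarith
  have b0 : 0 ≤ Real.logb 2 L := div_nonneg l0 l2'.le
  refine ⟨⌈Real.logb 2 L⌉₊, ?_, ?_⟩
  · have h1 : Real.logb 2 L ≤ (⌈Real.logb 2 L⌉₊ : ℝ) := Nat.le_ceil _
    calc L = (2 : ℝ) ^ Real.logb 2 L := (Real.rpow_logb (by norm_num) (by norm_num) L0).symm
      _ ≤ (2 : ℝ) ^ ((⌈Real.logb 2 L⌉₊ : ℝ)) := Real.rpow_le_rpow_of_exponent_le one_le_two h1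
      _ = 2 ^ ⌈Real.logb 2 L⌉₊ := Real.rpow_natCast _ _
  · have h1 := (Nat.ceil_lt_add_one b0).le
    have h2 : Real.logb 2 L ≤ 2 * Real.log L := by
      unfold Real.logb
      rw [div_le_iff₀ l2']
      nlinarith
    linarith

/-- (r4) `|s_v| ≤ C_L` for `Im ζ ≥ y ≥ 1`, `|Re ζ| ≤ L` -/
theorem u3r_r4 (hW : U3rW L α cs cφ Ψ) (hG : U3rG L y c₁ C₁ Lam cs Ψ x x') (hV : U3rV Ψ x x' v a) (hx : Monotone x)
    (hx' : Monotone x') (hy1 : 1 ≤ y) {ζ : ℂ} (h1 : y ≤ ζ.im) (h2 : |ζ.re| ≤ L) : ‖wlS v ζ‖ ≤ u3rCL C₁ cφ L := by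
  obtain ⟨n, n1, n2⟩ := u3r_nlog (hy1.trans hG.yL)
  have c5 : 0 ≤ u3rC5 C₁ cφ := by
    unfold u3rC5
    exact div_nonneg (mul_nonneg (by norm_num) hG.C0) hW.cφ0.le
  have u1 : 1 ≤ ζ.im := hy1.trans h1
  have p0 : (0 : ℝ) < 2 ^ n := by positivity
  have h := u3r_r4_n hW hG hV hx hx' h2 n ζ.im h1 (by nlinarith)
  rw [Complex.eta] at h
  unfold u3rCL
  nlinarith

/-- the regularity asked by (W) (Lemma 4) -/
theorem u3r_wlreg_far (hW : U3rW L α cs cφ Ψ) (hG : U3rG L y c₁ C₁ Lam cs Ψ x x') (hV : U3rV Ψ x x' v a) {R : ℝ}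
    (hR : R ≤ 2 * L) : WlReg v 0 L (3 * C₁ + 1) R := by
  intro ζ h1 h2
  rw [sub_zero] at h2
  exact u3r_r1 hW hG hV h1 (h2.trans hR)

/-- the regularity asked by ND (Lemma 7) -/
theorem u3r_wlreg_loc (hW : U3rW L α cs cφ Ψ) (hG : U3rG L y c₁ C₁ Lam cs Ψ x x') (hV : U3rV Ψ x x' v a) (hx : Monotone x)
    (hx' : Monotone x') (hy1 : 1 ≤ y) {e R : ℝ} (hR : |e| + R ≤ L) : WlReg v e y (u3rCL C₁ cφ L) R := by
  intro ζ h1 h2
  apply u3r_r4 hW hG hV hx hx' hy1 h1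
  have := abs_sub_abs_le_abs_sub ζ.re e
  linarith

end order

/-- (r5), one site of the core: `|x'_j| ≤ 7L/8`, `|v_j| ≤ 7L/8`, and the geodesic is the segment -/
theorem u3r_r5_pt (hW : U3rW L α cs cφ Ψ) (hG : U3rG L y c₁ C₁ Lam cs Ψ x x') (hV : U3rV Ψ x x' v a) {j : J}
    (h : |x j| ≤ 3 * L / 4) : |x' j| ≤ 7 * L / 8 ∧ |v j| ≤ 7 * L / 8 ∧ v j = x j + a * (x' j - x j) := by
  have hL := hG.L0
  have h1 := (u3r_r0v hW hG hV j).2
  have h2 := (u3r_r0 hW hG j).2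
  have t1 : |v j| ≤ |x j| + |v j - x j| := by
    have := abs_sub_abs_le_abs_sub (v j) (x j)
    linarith
  have t2 : |x' j| ≤ |x j| + |x' j - x j| := by
    have := abs_sub_abs_le_abs_sub (x' j) (x j)
    linarith
  have b1 : |x' j| ≤ 7 * L / 8 := by linarith
  have b2 : |v j| ≤ 7 * L / 8 := by linarith
  refine ⟨b1, b2, ?_⟩
  have e := hV.eq j
  rw [hW.flat _ (by linarith), hW.flat _ (by linarith), hW.flat _ (by linarith)] at e
  rw [e]; ring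

/-- (r5), one pair of consecutive sites of the core: `0 ≤ v_k - v_j ≤ M y` -/
theorem u3r_r5_gap [LinearOrder J] (hW : U3rW L α cs cφ Ψ) (hG : U3rG L y c₁ C₁ Lam cs Ψ x x') (hV : U3rV Ψ x x' v a)
    (hx : Monotone x) (hx' : Monotone x') {j k : J} (hjk : j ≤ k) (adj : ∀ i, i ≤ j ∨ k ≤ i) (h1 : |x j| ≤ 3 * L / 4)
    (h2 : |x k| ≤ 3 * L / 4) : 0 ≤ v k - v j ∧ v k - v j ≤ u3rM c₁ C₁ * y := by
  have hL := hG.L0
  obtain ⟨p1, _, p3⟩ := u3r_r5_pt hW hG hV h1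
  obtain ⟨q1, _, q3⟩ := u3r_r5_pt hW hG hV h2
  have a0 := hV.a0
  have a1 := hV.a1
  rw [abs_le] at h1 h2 p1 q1
  have g1 := u3r_gap hx hG.y0 hG.yL hG.c0 hG.far hG.loc adj (by linarith [h1.1]) (by linarith [h2.2])
  have g2 := u3r_gap hx' hG.y0 hG.yL hG.c0 hG.far' hG.loc' adj (by linarith [p1.1]) (by linarith [q1.2])
  have m1 := hx hjk
  have m2 := hx' hjk
  have e : v k - v j = (1 - a) * (x k - x j) + a * (x' k - x' j) := by rw [p3, q3]; ring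
  rw [e]
  constructor
  · exact add_nonneg (mul_nonneg (by linarith) (by linarith)) (mul_nonneg a0 (by linarith))
  · have t1 : (1 - a) * (x k - x j) ≤ (1 - a) * (u3rM c₁ C₁ * y) := mul_le_mul_of_nonneg_left g1 (by linarith)
    have t2 : a * (x' k - x' j) ≤ a * (u3rM c₁ C₁ * y) := mul_le_mul_of_nonneg_left g2 a0
    linarith

end lem6

/-! ## 4. The forms consumed by the glue -/

/-- the numerical hypotheses on the parameters (all true for `L ≥ L₀`) -/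
structure U3rPar (L y c₁ C₁ Lam cs cφ : ℝ) : Prop where
  y1 : 1 ≤ y
  yL : y ≤ L
  c0 : 0 < c₁
  Lam0 : 0 ≤ Lam
  Lam1 : Lam ≤ cs * L / 64
  Lam3 : 900 * C₁ * Lam ^ 2 ≤ cs ^ 2 * L ^ 3
  big1 : 3 * C₁ + 2 ≤ L
  big2 : 2 * 1 * (u3rCL C₁ cφ L + 1) ≤ L / 8

section glue

variable {K : ℕ} {L α cs cφ y c₁ C₁ Lam a : ℝ} {p : Dat K × Dat K}

theorem u3r_G (hP : U3rPar L y c₁ C₁ Lam cs cφ) (hp : p ∈ ugGood L α y c₁ C₁ Lam) :
    U3rG L y c₁ C₁ Lam cs (uwPsi L α) p.1 p.2 where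
  y0 := by linarith [hP.y1]
  yL := hP.yL
  c0 := hP.c0
  Lam0 := hP.Lam0
  Lam1 := hP.Lam1
  Lam3 := hP.Lam3
  far := hp.1.2.1
  loc := hp.1.2.2
  far' := hp.2.1.2.1
  loc' := hp.2.1.2.2
  cost := hp.2.2

theorem u3r_V (hW : U3rW L α cs cφ (uwPsi L α)) (x x' : Dat K) (a0 : 0 ≤ a) (a1 : a ≤ 1) :
    U3rV (uwPsi L α) x x' (uwGeo L α x x' a) a where
  a0 := a0
  a1 := a1
  eq := fun _ => Function.rightInverse_invFun hW.surj _

theorem u3r_adj (j : Fin (2 * K)) (i : Win K) : i ≤ j.castSucc ∨ j.succ ≤ i := by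
  rcases le_or_gt i j.castSucc with h | h
  · exact Or.inl h
  · exact Or.inr (Fin.castSucc_lt_iff_succ_le.1 h)

/-- **REG for (W)**: on a good pair, every point of the geodesic satisfies the hypothesis of Lemma 4 with `C₂ = 3 C₁ + 1`, `Δ = 1` -/
theorem u3r_reg_W (hW : U3rW L α cs cφ (uwPsi L α)) (hP : U3rPar L y c₁ C₁ Lam cs cφ) (hp : p ∈ ugGood L α y c₁ C₁ Lam)
    (a0 : 0 ≤ a) (a1 : a ≤ 1) : WlReg (uwGeo L α p.1 p.2 a) 0 L (3 * C₁ + 1) (2 * 1 * (3 * C₁ + 1 + 1)) :=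
  u3r_wlreg_far hW (u3r_G hP hp) (u3r_V hW p.1 p.2 a0 a1) (by linarith [hP.big1])

/-- **REG for the core pairs** (Lemma 2 and Lemma 7) -/
theorem u3r_reg_core (hW : U3rW L α cs cφ (uwPsi L α)) (hP : U3rPar L y c₁ C₁ Lam cs cφ) (hp : p ∈ ugGood L α y c₁ C₁ Lam)
    (a0 : 0 ≤ a) (a1 : a ≤ 1) {j : Fin (2 * K)} (hj : uwCore L p.1 j) :
    (|p.2 j.castSucc| ≤ 7 * L / 8 ∧ |p.2 j.succ| ≤ 7 * L / 8)
    ∧ (uwGeo L α p.1 p.2 a j.castSucc = p.1 j.castSucc + a * (p.2 j.castSucc - p.1 j.castSucc)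
        ∧ uwGeo L α p.1 p.2 a j.succ = p.1 j.succ + a * (p.2 j.succ - p.1 j.succ))
    ∧ (|uwGeo L α p.1 p.2 a j.castSucc| ≤ 7 * L / 8 ∧ |uwGeo L α p.1 p.2 a j.succ| ≤ 7 * L / 8)
    ∧ (0 ≤ uwGeo L α p.1 p.2 a j.succ - uwGeo L α p.1 p.2 a j.castSucc
        ∧ uwGeo L α p.1 p.2 a j.succ - uwGeo L α p.1 p.2 a j.castSucc ≤ u3rM c₁ C₁ * y)
    ∧ WlReg (uwGeo L α p.1 p.2 a) (uwGeo L α p.1 p.2 a j.castSucc) y (u3rCL C₁ cφ L) (2 * 1 * (u3rCL C₁ cφ L + 1)) := by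
  have hG := u3r_G hP hp
  have hV := u3r_V hW p.1 p.2 a0 a1
  obtain ⟨s1, s2, s3⟩ := u3r_r5_pt hW hG hV hj.1
  obtain ⟨t1, t2, t3⟩ := u3r_r5_pt hW hG hV hj.2
  refine ⟨⟨s1, t1⟩, ⟨s3, t3⟩, ⟨s2, t2⟩, ?_, ?_⟩
  · exact u3r_r5_gap hW hG hV hp.1.1 hp.2.1.1 (Fin.castSucc_lt_succ).le (u3r_adj j) hj.1 hj.2
  · exact u3r_wlreg_loc hW hG hV hp.1.1 hp.2.1.1 hP.y1 (by linarith [hP.big2])

/-! ### the parameters for `L` large -/

open Filter Topology in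
theorem u3r_ev_log (A B : ℝ) : ∀ᶠ L : ℝ in atTop, A + B * Real.log L ≤ L := by
  have h1 := Real.isLittleO_log_id_atTop.def (c := 1 / (2 * (|B| + 1))) (by positivity)
  filter_upwards [h1, eventually_ge_atTop (2 * A), eventually_ge_atTop (0 : ℝ)] with L l1 l2 l3
  simp only [id, Real.norm_eq_abs, abs_of_nonneg l3] at l1
  have b0 := abs_nonneg B
  have t1 : B * Real.log L ≤ |B| * |Real.log L| := by
    rw [← abs_mul]; exact le_abs_self _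
  have t2 : |B| * |Real.log L| ≤ (|B| + 1) * (1 / (2 * (|B| + 1)) * L) :=
    mul_le_mul (by linarith) l1 (abs_nonneg _) (by linarith)
  have t3 : (|B| + 1) * (1 / (2 * (|B| + 1)) * L) = L / 2 := by field_simp
  linarith

open Filter Topology in
theorem u3r_ev_pow {γ c : ℝ} (hγ : 0 < γ) (hc : 0 < c) : ∀ᶠ L : ℝ in atTop, L ^ (-γ) ≤ c :=
  ((tendsto_rpow_neg_atTop hγ).eventually (gt_mem_nhds hc)).mono fun _ h => h.le

theorem U3Exp.ε_lt (P : U3Exp) : P.ε < 1 / 15 := by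
  have := P.hb; have := P.hκ; have := P.hχ1
  linarith

open Filter Topology in
/-- all the numerical hypotheses hold for `L` large -/
theorem u3r_par (P : U3Exp) {c₁ C₁ cs cφ : ℝ} (hc : 0 < c₁) (hC : 0 ≤ C₁) (hcs : 0 < cs) :
    ∀ᶠ L : ℝ in atTop, U3rPar L (u3Y P L) c₁ C₁ (u3Lam P L) cs cφ := by
  have hε := P.hε
  have hε1 := P.ε_lt
  have hb := P.hb
  have hκ := P.hκ
  set β : ℝ := (3 - 2 * P.χ + P.ε) / 2 with hβ
  have β1 : 0 < 1 - β := by rw [hβ]; linarith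
  have β3 : 0 < 3 - 2 * β := by rw [hβ]; linarith [P.hχ]
  have e1 := u3r_ev_pow β1 (c := cs / 64) (by positivity)
  have e2 := u3r_ev_pow β3 (c := cs ^ 2 / (900 * C₁ + 1)) (by positivity)
  have e3 := u3r_ev_log (16 * (3 * C₁ + 1 + u3rC5 C₁ cφ + 1)) (16 * (u3rC5 C₁ cφ * 2))
  filter_upwards [e1, e2, e3, eventually_ge_atTop (1 : ℝ), eventually_ge_atTop (3 * C₁ + 2)] with L l1 l2 l3 l4 l5
  have L0 : 0 < L := by linarith
  refine ⟨?_, ?_, hc, ?_, ?_, ?_, l5, ?_⟩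
  · exact Real.one_le_rpow l4 hε.le
  · unfold u3Y
    calc L ^ P.ε ≤ L ^ (1 : ℝ) := Real.rpow_le_rpow_of_exponent_le l4 (by linarith)
      _ = L := Real.rpow_one L
  · exact Real.rpow_nonneg L0.le _
  · unfold u3Lam
    rw [← hβ]
    have : L ^ β = L ^ (-(1 - β)) * L := by
      nth_rewrite 3 [← Real.rpow_one L]
      rw [← Real.rpow_add L0]
      congr 1; ring
    rw [this]
    nlinarith
  · unfold u3Lam
    rw [← hβ]
    have : (L ^ β) ^ 2 = L ^ (-(3 - 2 * β)) * L ^ 3 := by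
      rw [← Real.rpow_natCast (L ^ β) 2, ← Real.rpow_mul L0.le, ← Real.rpow_natCast L 3, ← Real.rpow_add L0]
      congr 1; push_cast; ring
    rw [this]
    have L3 : 0 < L ^ 3 := by positivity
    have k1 : (900 * C₁ + 1) * L ^ (-(3 - 2 * β)) ≤ cs ^ 2 := by
      rw [le_div_iff₀ (by positivity)] at l2
      linarith
    have k2 : 0 ≤ L ^ (-(3 - 2 * β)) := Real.rpow_nonneg L0.le _
    have k3 : 900 * C₁ * L ^ (-(3 - 2 * β)) ≤ cs ^ 2 := by nlinarith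
    calc 900 * C₁ * (L ^ (-(3 - 2 * β)) * L ^ 3) = 900 * C₁ * L ^ (-(3 - 2 * β)) * L ^ 3 := by ring
      _ ≤ cs ^ 2 * L ^ 3 := mul_le_mul_of_nonneg_right k3 L3.le
  · unfold u3rCL
    linarith

/-! ### the EXITS, as typed in `U3Top.lean` (the concrete weights enter through `hW` = `uw_rW` of helper297) -/

/-- **EXIT D3r = Lemmas 5, 6 (REG)** `= u3t_reg` -/
theorem u3r_exit_reg (ρ : ℝ) (hρ : 0 < ρ) (P : U3Exp) (hW : ∃ cs cφ : ℝ, ∀ L : ℝ, 0 < L → U3rW L P.α cs cφ (uwPsi L P.α))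
    (C₁ : ℝ) (hC₁ : 0 < C₁) : ∃ M C₅ L₀ : ℝ, 0 < M ∧ 0 < C₅ ∧ ∀ L : ℝ, L₀ ≤ L →
    ∀ (K : ℕ) (p : Dat K × Dat K), p ∈ u3S P ρ C₁ L K →
      (∀ j : Fin (2 * K), uwCore L p.1 j → |p.2 j.castSucc| ≤ 7 * L / 8 ∧ |p.2 j.succ| ≤ 7 * L / 8) ∧
      ∀ a : ℝ, 0 ≤ a → a ≤ 1 →
        WlReg (uwGeo L P.α p.1 p.2 a) 0 L (3 * C₁ + 1) (2 * 1 * (3 * C₁ + 1 + 1)) ∧
        ∀ j : Fin (2 * K), uwCore L p.1 j →
          |uwGeo L P.α p.1 p.2 a j.castSucc| ≤ 7 * L / 8 ∧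
          |uwGeo L P.α p.1 p.2 a j.succ - uwGeo L P.α p.1 p.2 a j.castSucc| ≤ M * u3Y P L ∧
          WlReg (uwGeo L P.α p.1 p.2 a) (uwGeo L P.α p.1 p.2 a j.castSucc) (u3Y P L) (C₅ * Real.log L) (2 * 1 * (C₅ * Real.log L + 1)) := by
  obtain ⟨cs, cφ, hW⟩ := hW
  have hc : 0 < Real.pi * ρ / 4 := by positivity
  have hcs : 0 < cs := (hW 1 one_pos).cs0
  have hφ : 0 < cφ := (hW 1 one_pos).cφ0
  have c5 : 0 ≤ u3rC5 C₁ cφ := by unfold u3rC5; positivity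
  set C₅ : ℝ := 3 * C₁ + 1 + 3 * u3rC5 C₁ cφ with hC₅
  have C50 : 0 < C₅ := by rw [hC₅]; positivity
  have M0 : 0 < u3rM (Real.pi * ρ / 4) C₁ := by unfold u3rM; positivity
  have ev := (u3r_par P (cφ := cφ) hc hC₁.le hcs).and
    ((u3r_ev_log 16 (16 * C₅)).and (Filter.eventually_ge_atTop (Real.exp 1)))
  obtain ⟨L₀, hL₀⟩ := Filter.eventually_atTop.1 ev
  refine ⟨u3rM (Real.pi * ρ / 4) C₁, C₅, L₀, M0, C50, ?_⟩
  intro L hL K p hp
  obtain ⟨hP, l1, l2⟩ := hL₀ L hL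
  have L0 : 0 < L := (Real.exp_pos 1).trans_le l2
  have lg : 1 ≤ Real.log L := by
    rw [Real.le_log_iff_exp_le L0]; exact l2
  have hp' : p ∈ ugGood L P.α (u3Y P L) (Real.pi * ρ / 4) C₁ (u3Lam P L) := hp
  have hG := u3r_G hP hp'
  refine ⟨fun j hj => ?_, fun a a0 a1 => ⟨u3r_reg_W (hW L L0) hP hp' a0 a1, fun j hj => ?_⟩⟩
  · have hV := u3r_V (hW L L0) p.1 p.2 (a := 0) le_rfl zero_le_one
    exact ⟨(u3r_r5_pt (hW L L0) hG hV hj.1).1, (u3r_r5_pt (hW L L0) hG hV hj.2).1⟩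
  · have hV := u3r_V (hW L L0) p.1 p.2 a0 a1
    obtain ⟨_, _, ⟨s2, _⟩, ⟨g1, g2⟩, _⟩ := u3r_reg_core (hW L L0) hP hp' a0 a1 hj
    refine ⟨s2, by rw [abs_of_nonneg g1]; exact g2, ?_⟩
    have w := u3r_wlreg_loc (hW L L0) hG hV hp'.1.1 hp'.2.1.1 hP.y1
      (e := uwGeo L P.α p.1 p.2 a j.castSucc) (R := 2 * 1 * (C₅ * Real.log L + 1)) (by linarith)
    intro ζ h1 h2
    refine (w ζ h1 h2).trans ?_
    unfold u3rCL
    rw [hC₅]
    nlinarith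

/-- **EXIT D3r, counting form = Lemma 5 + (r0)** `= u3t_cnt` -/
theorem u3r_exit_cnt (ρ : ℝ) (hρ : 0 < ρ) (P : U3Exp) (hW : ∃ cs cφ : ℝ, ∀ L : ℝ, 0 < L → U3rW L P.α cs cφ (uwPsi L P.α))
    (C₁ : ℝ) (hC₁ : 0 < C₁) : ∃ M C L₀ : ℝ, 0 < M ∧ 0 < C ∧ ∀ L : ℝ, L₀ ≤ L →
    ∀ (K : ℕ) (p : Dat K × Dat K), p ∈ u3S P ρ C₁ L K →
      (∀ x ∈ ({p.1, p.2} : Set (Dat K)), ∀ a b : ℝ, -(4 * L) ≤ a → b ≤ 4 * L → u3Y P L ≤ b - a →
        ((Finset.univ.filter fun i => a ≤ x i ∧ x i ≤ b).card : ℝ) ≤ C * (b - a)) ∧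
      (∀ x ∈ ({p.1, p.2} : Set (Dat K)), ∀ a b : ℝ, -(3 * L) ≤ a → b ≤ 3 * L → M * u3Y P L ≤ b - a → ∃ i, a ≤ x i ∧ x i ≤ b) ∧
      (∀ i, |p.2 i - p.1 i| ≤ (L + |p.1 i|) / 64) ∧
      (∀ i, |p.1 i| ≤ L → |p.2 i - p.1 i| ≤ C * u3Lam P L) := by
  obtain ⟨cs, cφ, hW⟩ := hW
  have hc : 0 < Real.pi * ρ / 4 := by positivity
  have hcs : 0 < cs := (hW 1 one_pos).cs0
  have M0 : 0 < u3rM (Real.pi * ρ / 4) C₁ := by unfold u3rM; positivity
  obtain ⟨L₀, hL₀⟩ := Filter.eventually_atTop.1 (u3r_par P (cφ := cφ) hc hC₁.le hcs)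
  refine ⟨u3rM (Real.pi * ρ / 4) C₁, 4 * C₁ + 2 / cs, L₀, M0, by positivity, ?_⟩
  intro L hL K p hp
  have hP := hL₀ L hL
  have hp' : p ∈ ugGood L P.α (u3Y P L) (Real.pi * ρ / 4) C₁ (u3Lam P L) := hp
  have hG := u3r_G hP hp'
  have L0 := hG.L0
  have both : ∀ x ∈ ({p.1, p.2} : Set (Dat K)), ugFar L C₁ x ∧ ugLoc L (u3Y P L) (Real.pi * ρ / 4) C₁ x := by
    intro x hx
    rcases hx with rfl | hx
    · exact ⟨hG.far, hG.loc⟩
    · rw [Set.mem_singleton_iff] at hx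
      rw [hx]
      exact ⟨hG.far', hG.loc'⟩
  refine ⟨?_, ?_, fun i => (u3r_r0 (hW L L0) hG i).2, ?_⟩
  · intro x hx a b ha hb hab
    have h := u3r_u1 hG.y0 hC₁.le (both x hx).2 ha hb hab
    have ab0 : 0 ≤ b - a := hG.y0.le.trans hab
    have q0 : 0 ≤ 2 / cs := by positivity
    refine le_trans h ?_
    nlinarith
  · intro x hx a b ha hb hab
    exact u3r_u3 hG.y0 hG.yL hc (both x hx).1 (both x hx).2 ha hb hab
  · intro i hi
    have cL : 0 < cs * L := mul_pos hcs L0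
    have h := (hW L L0).dist1 L0 (hG.D_le i) (by linarith [hG.Lam1])
    have q0 : 0 ≤ u3Lam P L / cs := div_nonneg hG.Lam0 hcs.le
    have h2 : (L + |p.1 i|) / L ≤ 2 := by
      rw [div_le_iff₀ L0]; linarith
    have h3 : u3Lam P L / cs * ((L + |p.1 i|) / L) ≤ u3Lam P L / cs * 2 := mul_le_mul_of_nonneg_left h2 q0
    have h4 : (4 * C₁ + 2 / cs) * u3Lam P L = 4 * C₁ * u3Lam P L + u3Lam P L / cs * 2 := by ring
    have h5 : 0 ≤ 4 * C₁ * u3Lam P L := mul_nonneg (by positivity) hG.Lam0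
    linarith

end glue

end

end Claimed.Agent.R287
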