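-- KEEP
import Claimed.Agent.R287.Defs.U3
import Claimed.Agent.R287.U3
import Claimed.Agent.R287.ResD
import Claimed.Agent.R287.U3Geo
import Claimed.Agent.R287.U3Reg

/-!
# Row 287 (S0534), unit U3, sub-unit D0 + Lemmas 9, 10: THE CONCRETE WEIGHTS AND THE INITIAL DATA      helper297      prefix `uw_`, def `uwT`

TEXT: `origin/helper295:notes/R287/U3_295.md` sec.1 (w1)-(w5), sec.6 Lemmas 9, 10.      Definitions: `R287/Defs/U3.lean` (helper295).      Abstract theory (cost, geodesic, one-step inequality): `R287/U3.lean`.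
DICTIONARY (all `rfl`): `uwGeo L α = u3Geo (uwPsi L α)`, `uwVel L α = u3GeoV (uwPhi L α) (uwPsi L α)`, `uwCost L α = u3Cost (uwPsi L α)`.

* sec.1 (w1): the series `uwPhi0`: summable, positive, even, antitone in `|s|`, continuous, `(1/8) t^-α ≤ φ0 ≤ C t^-α`, `t = 1 + s²/L²`.
* sec.2 (w2): `uwPhi`: `= 1` on `[-L, L]`, values in `(0,1]`, continuous, even, antitone in `|s|`, two sided bounds.
* sec.3 (w3): `uwPsi`: `uw_W : U3W (uwPhi L α) (uwPsi L α)`, odd, `= id` on `[-L, L]`, increments, `uw_psi_surj`.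
* sec.4 (w4): distortion `uw_dist`.
* sec.5 (w5): the geodesic; EXIT `uw_geo_vel` (= `u3t_geo_vel`).
* sec.6: joint continuity; EXIT `uw_geo_cont` (= `u3t_geo_cont`).
* sec.7: regular configurations, uniform versions.      sec.8: Lemma 10, EXIT `uw_init` (= `u3t_init`).      sec.9: Lemma 9, EXIT `uw_far0` (= `u3t_far0`).
-/

set_option autoImplicit false
open MeasureTheory Matrix Filter Topology

namespace Claimed.Agent.R287

/-! ## 1. (w1) the series `phi0` -/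

/-- the `m`-th term of `uwPhi0` -/
noncomputable def uwT (L α : ℝ) (m : ℕ) (s : ℝ) : ℝ :=
  (4 : ℝ) ^ (-(α * m)) * ((2 ^ m * L) ^ 2 / (s ^ 2 + (2 ^ m * L) ^ 2))

theorem uw_eqns_cite : True := by
  have := @uwT.eq_1
  trivial

theorem uw_phi0_def (L α s : ℝ) : uwPhi0 L α s = ∑' m : ℕ, uwT L α m s := rfl

theorem uw_q_pos (α : ℝ) : 0 < (4 : ℝ) ^ (-α) := Real.rpow_pos_of_pos (by norm_num) _

/-- the weights are a geometric sequence -/
theorem uw_w_eq (α : ℝ) (m : ℕ) : (4 : ℝ) ^ (-(α * m)) = ((4 : ℝ) ^ (-α)) ^ m := by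
  rw [← Real.rpow_natCast, ← Real.rpow_mul (by norm_num)]
  congr 1; ring

/-- the kernel in the variable `σ = s²/L²` -/
theorem uw_ker_eq {L : ℝ} (hL : 0 < L) (m : ℕ) (s : ℝ) :
    (2 ^ m * L) ^ 2 / (s ^ 2 + (2 ^ m * L) ^ 2) = (4 : ℝ) ^ m / (s ^ 2 / L ^ 2 + 4 ^ m) := by
  have h4 : (4 : ℝ) ^ m = (2 ^ m) ^ 2 := by rw [← pow_mul, mul_comm, pow_mul]; norm_num
  have h1 : (0 : ℝ) < (2 ^ m) ^ 2 := by positivity
  have h2 : 0 < s ^ 2 + (2 ^ m * L) ^ 2 := by positivity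
  have h3 : 0 < s ^ 2 / L ^ 2 + (2 ^ m) ^ 2 := by positivity
  rw [h4, div_eq_div_iff h2.ne' h3.ne']
  field_simp

theorem uw_T_eq {L : ℝ} (hL : 0 < L) (α : ℝ) (m : ℕ) (s : ℝ) :
    uwT L α m s = ((4 : ℝ) ^ (-α)) ^ m * ((4 : ℝ) ^ m / (s ^ 2 / L ^ 2 + 4 ^ m)) := by
  unfold uwT
  rw [uw_w_eq, uw_ker_eq hL]

theorem uw_q_lt_one {α : ℝ} (hα : 0 < α) : (4 : ℝ) ^ (-α) < 1 := by
  exact Real.rpow_lt_one_of_one_lt_of_neg (by norm_num) (by linarith)

theorem uw_T_nonneg (L α : ℝ) (m : ℕ) (s : ℝ) : 0 ≤ uwT L α m s := by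
  unfold uwT
  positivity

theorem uw_T_le (L α : ℝ) (m : ℕ) (s : ℝ) : uwT L α m s ≤ ((4 : ℝ) ^ (-α)) ^ m := by
  unfold uwT
  rw [uw_w_eq]
  have h : (2 ^ m * L) ^ 2 / (s ^ 2 + (2 ^ m * L) ^ 2) ≤ 1 :=
    div_le_one_of_le₀ (by nlinarith [sq_nonneg s]) (by positivity)
  have h0 : 0 ≤ ((4 : ℝ) ^ (-α)) ^ m := by positivity
  nlinarith

theorem uw_T_summable {α : ℝ} (hα : 0 < α) (L s : ℝ) : Summable fun m : ℕ => uwT L α m s := by
  exact Summable.of_nonneg_of_le (fun m => uw_T_nonneg L α m s) (fun m => uw_T_le L α m s)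
    (summable_geometric_of_lt_one (uw_q_pos α).le (uw_q_lt_one hα))

/-- `phi0 ≤ 1/(1 - 4^-α)` -/
theorem uw_phi0_le_geom {α : ℝ} (hα : 0 < α) (L s : ℝ) : uwPhi0 L α s ≤ (1 - (4 : ℝ) ^ (-α))⁻¹ := by
  rw [uw_phi0_def, ← tsum_geometric_of_lt_one (uw_q_pos α).le (uw_q_lt_one hα)]
  exact Summable.tsum_le_tsum (fun m => uw_T_le L α m s) (uw_T_summable hα L s)
    (summable_geometric_of_lt_one (uw_q_pos α).le (uw_q_lt_one hα))

theorem uw_phi0_pos {L α : ℝ} (hL : 0 < L) (hα : 0 < α) (s : ℝ) : 0 < uwPhi0 L α s := by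
  exact u3c_phi0_pos hL hα s

theorem uw_phi0_even (L α s : ℝ) : uwPhi0 L α (-s) = uwPhi0 L α s := by
  unfold uwPhi0
  simp only [neg_sq]

/-- `phi0` is antitone in `|s|` (termwise) -/
theorem uw_phi0_anti {L α : ℝ} (hL : 0 < L) (hα : 0 < α) {s s' : ℝ} (h : |s| ≤ |s'|) : uwPhi0 L α s' ≤ uwPhi0 L α s := by
  exact u3c_phi0_anti hL hα h

/-- continuity: `continuous_tsum` with the geometric majorant -/
theorem uw_phi0_cont {L α : ℝ} (hL : 0 < L) (hα : 0 < α) : Continuous (uwPhi0 L α) := by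
  exact u3g_phi0_cont hL hα

/-- `q^m = (4^m)^-α` -/
theorem uw_q_pow (α : ℝ) (m : ℕ) : ((4 : ℝ) ^ (-α)) ^ m = ((4 : ℝ) ^ m) ^ (-α) := by
  rw [← Real.rpow_natCast, ← Real.rpow_mul (by norm_num), ← Real.rpow_natCast, ← Real.rpow_mul (by norm_num)]
  congr 1; ring

/-- **lower bound**.  Plan: `t = 1 + s²/L² ≥ 1`; `exists_nat_pow_near`: `4^n ≤ t < 4^(n+1)`; the single term `m = n+1` is `≥ 4^(-α(n+1))/2 ≥ 4^-α t^-α/2 ≥ t^-α/8`. -/
theorem uw_phi0_ge {L α : ℝ} (hL : 0 < L) (hα0 : 0 < α) (hα1 : α ≤ 1) (s : ℝ) :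
    1 / 8 * (1 + s ^ 2 / L ^ 2) ^ (-α) ≤ uwPhi0 L α s := by
  set σ := s ^ 2 / L ^ 2 with hσ
  have hσ0 : 0 ≤ σ := by positivity
  have ht1 : (1 : ℝ) ≤ 1 + σ := by linarith
  obtain ⟨n, hn1, hn2⟩ := exists_nat_pow_near ht1 (by norm_num : (1 : ℝ) < 4)
  have h1 : uwT L α (n + 1) s ≤ uwPhi0 L α s := (uw_T_summable hα0 L s).le_tsum (n + 1) fun m _ => uw_T_nonneg L α m s
  refine le_trans ?_ h1
  rw [uw_T_eq hL, ← hσ, uw_q_pow]
  have h4 : (0 : ℝ) < 4 ^ (n + 1) := by positivity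
  have hk : (1 : ℝ) / 2 ≤ (4 : ℝ) ^ (n + 1) / (σ + 4 ^ (n + 1)) := by
    rw [div_le_div_iff₀ (by norm_num) (by positivity)]
    linarith
  have hq : 1 / 4 * (1 + σ) ^ (-α) ≤ ((4 : ℝ) ^ (n + 1)) ^ (-α) := by
    have e1 : (4 : ℝ) ^ (n + 1) ≤ 4 * (1 + σ) := by rw [pow_succ]; linarith
    have e2 : (4 * (1 + σ)) ^ (-α) ≤ ((4 : ℝ) ^ (n + 1)) ^ (-α) :=
      Real.rpow_le_rpow_of_nonpos h4 e1 (by linarith)
    rw [Real.mul_rpow (by norm_num) (by linarith)] at e2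
    have e3 : (1 : ℝ) / 4 ≤ (4 : ℝ) ^ (-α) := by
      have : (4 : ℝ) ^ (-(1 : ℝ)) ≤ (4 : ℝ) ^ (-α) := Real.rpow_le_rpow_of_exponent_le (by norm_num) (by linarith)
      rw [Real.rpow_neg_one] at this
      linarith
    have e4 : 0 ≤ (1 + σ) ^ (-α) := Real.rpow_nonneg (by linarith) _
    nlinarith
  have hp : 0 ≤ (1 + σ) ^ (-α) := Real.rpow_nonneg (by linarith) _
  calc 1 / 8 * (1 + σ) ^ (-α) = (1 / 4 * (1 + σ) ^ (-α)) * (1 / 2) := by ring
    _ ≤ ((4 : ℝ) ^ (n + 1)) ^ (-α) * ((4 : ℝ) ^ (n + 1) / (σ + 4 ^ (n + 1))) :=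
        mul_le_mul hq hk (by norm_num) (Real.rpow_nonneg h4.le _)

/-- **upper bound**.  Plan: `uwT m s ≤ 4^(-αm) min(1, 4^m/t)`; `4^n ≤ t < 4^(n+1)`; split the series at `n+1` (`Summable.sum_add_tsum_nat_add`):
`∑_{m ≤ n} r^m/t ≤ r^(n+1)/((r-1) t) ≤ r t^-α/(r-1)`, `r = 4^(1-α) > 1`;   `∑_{m > n} q^m = q^(n+1)/(1-q) ≤ t^-α/(1-q)`, `q = 4^-α`. -/
theorem uw_phi0_le {α : ℝ} (hα0 : 0 < α) (hα1 : α < 1) :
    ∃ C : ℝ, 0 < C ∧ ∀ L : ℝ, 0 < L → ∀ s : ℝ, uwPhi0 L α s ≤ C * (1 + s ^ 2 / L ^ 2) ^ (-α) := by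
  set q : ℝ := (4 : ℝ) ^ (-α) with hq
  set r : ℝ := (4 : ℝ) ^ (1 - α) with hr
  have hq0 : 0 < q := uw_q_pos α
  have hq1 : q < 1 := uw_q_lt_one hα0
  have hr1 : 1 < r := Real.one_lt_rpow (by norm_num) (by linarith)
  have hqr : q * 4 = r := by
    rw [hq, hr, sub_eq_neg_add, Real.rpow_add (by norm_num), Real.rpow_one]
  refine ⟨r / (r - 1) + (1 - q)⁻¹, by
    have h1 : 0 < r / (r - 1) := div_pos (by linarith) (by linarith)
    have h2 : 0 < (1 - q)⁻¹ := inv_pos.2 (by linarith)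
    linarith, fun L hL s => ?_⟩
  set σ := s ^ 2 / L ^ 2 with hσ
  have hσ0 : 0 ≤ σ := by positivity
  have ht1 : (1 : ℝ) ≤ 1 + σ := by linarith
  have ht0 : (0 : ℝ) < 1 + σ := by linarith
  obtain ⟨n, hn1, hn2⟩ := exists_nat_pow_near ht1 (by norm_num : (1 : ℝ) < 4)
  have hsum := uw_T_summable hα0 L s
  rw [uw_phi0_def, ← hsum.sum_add_tsum_nat_add (n + 1), add_mul]
  have hp : 0 < (1 + σ) ^ (-α) := Real.rpow_pos_of_pos ht0 _
  refine add_le_add ?_ ?_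
  · -- the low terms
    have h1 : ∀ m ∈ Finset.range (n + 1), uwT L α m s ≤ r ^ m / (1 + σ) := by
      intro m _
      rw [uw_T_eq hL, ← hσ, ← hq, ← hqr, mul_pow, mul_div_assoc]
      refine mul_le_mul_of_nonneg_left ?_ (by positivity)
      have h4 : (1 : ℝ) ≤ 4 ^ m := one_le_pow₀ (by norm_num)
      exact div_le_div_of_nonneg_left (by positivity) ht0 (by linarith)
    refine (Finset.sum_le_sum h1).trans ?_
    rw [← Finset.sum_div, geom_sum_eq hr1.ne']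
    have h2 : r ^ (n + 1) ≤ r * (1 + σ) ^ (1 - α) := by
      rw [pow_succ, mul_comm]
      refine mul_le_mul_of_nonneg_left ?_ (by linarith)
      have : r ^ n = ((4 : ℝ) ^ n) ^ (1 - α) := by
        rw [hr, ← Real.rpow_natCast, ← Real.rpow_mul (by norm_num), ← Real.rpow_natCast, ← Real.rpow_mul (by norm_num)]
        congr 1; ring
      rw [this]
      exact Real.rpow_le_rpow (by positivity) hn1 (by linarith)
    have h3 : (1 + σ) ^ (1 - α) = (1 + σ) * (1 + σ) ^ (-α) := by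
      rw [sub_eq_add_neg, Real.rpow_add ht0, Real.rpow_one]
    rw [h3] at h2
    have hr0 : 0 < r - 1 := by linarith
    rw [div_div, div_le_iff₀ (by positivity)]
    have e : r / (r - 1) * (1 + σ) ^ (-α) * ((r - 1) * (1 + σ)) = r * ((1 + σ) * (1 + σ) ^ (-α)) := by
      field_simp
    rw [e]
    linarith
  · -- the tail
    have h1 : ∑' i : ℕ, uwT L α (i + (n + 1)) s ≤ ∑' i : ℕ, q ^ (n + 1) * q ^ i := by
      have hs1 : Summable fun i : ℕ => uwT L α (i + (n + 1)) s :=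
        (summable_nat_add_iff (f := fun m : ℕ => uwT L α m s) (n + 1)).2 hsum
      have hs2 : Summable fun i : ℕ => q ^ (n + 1) * q ^ i := (summable_geometric_of_lt_one hq0.le hq1).mul_left _
      refine Summable.tsum_le_tsum (fun i => ?_) hs1 hs2
      have := uw_T_le L α (i + (n + 1)) s
      rw [← hq, pow_add, mul_comm] at this
      exact this
    refine h1.trans ?_
    rw [tsum_mul_left, tsum_geometric_of_lt_one hq0.le hq1, mul_comm]
    refine mul_le_mul_of_nonneg_left ?_ (inv_nonneg.2 (by linarith))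
    rw [hq, uw_q_pow]
    exact Real.rpow_le_rpow_of_nonpos ht0 hn2.le (by linarith)

/-! ## 2. (w2) the weight `phi` -/

theorem uw_phi_pos {L α : ℝ} (hL : 0 < L) (hα : 0 < α) (s : ℝ) : 0 < uwPhi L α s := by
  exact u3g_phi_pos hL hα s

theorem uw_phi_le_one (L α s : ℝ) : uwPhi L α s ≤ 1 := min_le_left _ _

/-- used in (w6) -/
theorem uw_phi_le_phi0 (L α s : ℝ) : uwPhi L α s ≤ uwPhi0 L α s / uwPhi0 L α L := min_le_right _ _

/-- FLAT CORE -/
theorem uw_phi_core {L α : ℝ} (hL : 0 < L) (hα : 0 < α) {s : ℝ} (h : |s| ≤ L) : uwPhi L α s = 1 := by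
  exact u3c_phi_flat hL hα h

theorem uw_phi_cont {L α : ℝ} (hL : 0 < L) (hα : 0 < α) : Continuous (uwPhi L α) := by
  exact u3g_phi_cont hL hα

theorem uw_phi_even (L α s : ℝ) : uwPhi L α (-s) = uwPhi L α s := by
  exact u3g_phi_neg L α s

theorem uw_phi_anti {L α : ℝ} (hL : 0 < L) (hα : 0 < α) {s s' : ℝ} (h : |s| ≤ |s'|) : uwPhi L α s' ≤ uwPhi L α s := by
  exact u3g_phi_anti hL hα h

/-- **two sided bounds**, constants depending on `α` only.  Plan: `uw_phi0_ge`, `uw_phi0_le`, `uw_phi0_le_geom` at `s = L`;  `c = (1 - 4^-α)/8`, `C = 16 C'`. -/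
theorem uw_phi_bds {α : ℝ} (hα0 : 0 < α) (hα1 : α < 1) :
    ∃ c C : ℝ, 0 < c ∧ 0 < C ∧ ∀ L : ℝ, 0 < L → ∀ s : ℝ,
      c * (1 + s ^ 2 / L ^ 2) ^ (-α) ≤ uwPhi L α s ∧ uwPhi L α s ≤ C * (1 + s ^ 2 / L ^ 2) ^ (-α) := by
  obtain ⟨C', hC', hle⟩ := uw_phi0_le hα0 hα1
  have hq0 := uw_q_pos α
  have hq1 := uw_q_lt_one hα0
  refine ⟨(1 - (4 : ℝ) ^ (-α)) / 8, 16 * C', by linarith, by linarith, fun L hL s => ?_⟩
  set t := 1 + s ^ 2 / L ^ 2 with ht
  have ht1 : 1 ≤ t := by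
    have : 0 ≤ s ^ 2 / L ^ 2 := by positivity
    linarith
  have hp0 : 0 < t ^ (-α) := Real.rpow_pos_of_pos (by linarith) _
  have hp1 : t ^ (-α) ≤ 1 := Real.rpow_le_one_of_one_le_of_nonpos ht1 (by linarith)
  have hL0 := u3c_phi0_pos hL hα0 L
  have hLle := uw_phi0_le_geom hα0 L L
  have hLge : 1 / 16 ≤ uwPhi0 L α L := by
    have h := uw_phi0_ge hL hα0 hα1.le L
    have e : 1 + L ^ 2 / L ^ 2 = 2 := by
      rw [div_self (by positivity)]; norm_num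
    rw [e] at h
    have h2 : (1 : ℝ) / 2 ≤ (2 : ℝ) ^ (-α) := by
      have : (2 : ℝ) ^ (-(1 : ℝ)) ≤ (2 : ℝ) ^ (-α) := Real.rpow_le_rpow_of_exponent_le (by norm_num) (by linarith)
      rw [Real.rpow_neg_one] at this
      linarith
    linarith
  constructor
  · unfold uwPhi
    refine le_min ?_ ?_
    · nlinarith
    · rw [le_div_iff₀ hL0]
      have h := uw_phi0_ge hL hα0 hα1.le s
      rw [← ht] at h
      have h1 : (1 - (4 : ℝ) ^ (-α)) * uwPhi0 L α L ≤ 1 := by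
        have h3 : 0 < 1 - (4 : ℝ) ^ (-α) := by linarith
        calc (1 - (4 : ℝ) ^ (-α)) * uwPhi0 L α L ≤ (1 - (4 : ℝ) ^ (-α)) * (1 - (4 : ℝ) ^ (-α))⁻¹ :=
              mul_le_mul_of_nonneg_left hLle h3.le
          _ = 1 := mul_inv_cancel₀ h3.ne'
      calc (1 - (4 : ℝ) ^ (-α)) / 8 * t ^ (-α) * uwPhi0 L α L
          = ((1 - (4 : ℝ) ^ (-α)) * uwPhi0 L α L) * (1 / 8 * t ^ (-α)) := by ring
        _ ≤ 1 * (1 / 8 * t ^ (-α)) := mul_le_mul_of_nonneg_right h1 (by positivity)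
        _ ≤ uwPhi0 L α s := by linarith
  · refine (min_le_right _ _).trans ?_
    rw [div_le_iff₀ hL0]
    have h := hle L hL s
    rw [← ht] at h
    have : 0 ≤ C' * t ^ (-α) := by positivity
    nlinarith

/-! ## 3. (w3) the coordinate `Psi` -/

theorem uw_sqrt_cont {L α : ℝ} (hL : 0 < L) (hα : 0 < α) : Continuous fun r => Real.sqrt (uwPhi L α r) :=
  (uw_phi_cont hL hα).sqrt

/-- **the concrete weights are weight data** in the sense of `R287/U3.lean` -/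
theorem uw_W {L α : ℝ} (hL : 0 < L) (hα : 0 < α) : U3W (uwPhi L α) (uwPsi L α) := by
  refine ⟨uw_phi_cont hL hα, uw_phi_pos hL hα, uw_phi_le_one L α, fun s => ?_⟩
  have hc := uw_sqrt_cont hL hα
  exact intervalIntegral.integral_hasDerivAt_right (hc.intervalIntegrable _ _) (hc.stronglyMeasurableAtFilter _ _) hc.continuousAt

theorem uw_psi_sub {L α : ℝ} (hL : 0 < L) (hα : 0 < α) (s s' : ℝ) :
    uwPsi L α s' - uwPsi L α s = ∫ r in s..s', Real.sqrt (uwPhi L α r) := by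
  have hc := uw_sqrt_cont hL hα
  unfold uwPsi
  exact intervalIntegral.integral_interval_sub_left (hc.intervalIntegrable _ _) (hc.intervalIntegrable _ _)

theorem uw_psi_zero (L α : ℝ) : uwPsi L α 0 = 0 := by
  unfold uwPsi
  exact intervalIntegral.integral_same

theorem uw_psi_odd (L α s : ℝ) : uwPsi L α (-s) = -uwPsi L α s := by
  unfold uwPsi
  have h := intervalIntegral.integral_comp_neg (a := 0) (b := s) (fun r => Real.sqrt (uwPhi L α r))
  simp only [uw_phi_even, neg_zero] at h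
  rw [h, intervalIntegral.integral_symm]

/-- `Psi = id` on the core -/
theorem uw_psi_core {L α : ℝ} (hL : 0 < L) (hα : 0 < α) {s : ℝ} (h : |s| ≤ L) : uwPsi L α s = s := by
  unfold uwPsi
  have h1 : ∀ r ∈ Set.uIcc (0 : ℝ) s, Real.sqrt (uwPhi L α r) = 1 := by
    intro r hr
    have hr' : |r| ≤ |s| := by
      have := Set.abs_sub_left_of_mem_uIcc hr
      simpa using this
    rw [uw_phi_core hL hα (hr'.trans h), Real.sqrt_one]
  rw [intervalIntegral.integral_congr h1]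
  simp

/-- increments from below -/
theorem uw_psi_lower {L α : ℝ} (hL : 0 < L) (hα : 0 < α) {s s' m : ℝ} (hs : s ≤ s') (hm : ∀ r ∈ Set.Icc s s', m ≤ Real.sqrt (uwPhi L α r)) :
    m * (s' - s) ≤ uwPsi L α s' - uwPsi L α s := by
  have hc := uw_sqrt_cont hL hα
  rw [uw_psi_sub hL hα]
  have h := intervalIntegral.integral_mono_on (μ := volume) hs (intervalIntegrable_const (c := m)) (hc.intervalIntegrable _ _) hm
  simpa [mul_comm] using h

/-- increments from above -/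
theorem uw_psi_upper {L α : ℝ} (hL : 0 < L) (hα : 0 < α) {s s' M : ℝ} (hs : s ≤ s') (hM : ∀ r ∈ Set.Icc s s', Real.sqrt (uwPhi L α r) ≤ M) :
    uwPsi L α s' - uwPsi L α s ≤ M * (s' - s) := by
  have hc := uw_sqrt_cont hL hα
  rw [uw_psi_sub hL hα]
  have h := intervalIntegral.integral_mono_on (μ := volume) hs (hc.intervalIntegrable _ _) (intervalIntegrable_const (c := M)) hM
  simpa [mul_comm] using h

/-- lower bound of `√phi` on a ball (stated again as `uw_sqrt_phi_ge` in sec.4) -/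
theorem uw_sqrt_phi_ge_aux {α : ℝ} (hα0 : 0 < α) (hα1 : α < 1) :
    ∃ c₁ : ℝ, 0 < c₁ ∧ ∀ L : ℝ, 0 < L → ∀ R : ℝ, L ≤ R → ∀ r : ℝ, |r| ≤ 3 * R / 2 → c₁ * (L / R) ^ α ≤ Real.sqrt (uwPhi L α r) := by
  obtain ⟨c, C, hc, hC, hb⟩ := uw_phi_bds hα0 hα1
  refine ⟨Real.sqrt (c * (4 : ℝ) ^ (-α)), Real.sqrt_pos.2 (by positivity), fun L hL R hR r hr => ?_⟩
  have hR0 : 0 < R := hL.trans_le hR
  have h1 := (hb L hL r).1
  have hr2 : r ^ 2 ≤ (3 * R / 2) ^ 2 := sq_le_sq' (by linarith [(abs_le.1 hr).1]) (abs_le.1 hr).2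
  have h2 : 1 + r ^ 2 / L ^ 2 ≤ 4 * (R / L) ^ 2 := by
    have e1 : 1 + r ^ 2 / L ^ 2 = (L ^ 2 + r ^ 2) / L ^ 2 := by field_simp
    have e2 : 4 * (R / L) ^ 2 = (4 * R ^ 2) / L ^ 2 := by ring
    rw [e1, e2]
    refine div_le_div_of_nonneg_right ?_ (by positivity)
    nlinarith
  have h3 : (4 * (R / L) ^ 2) ^ (-α) ≤ (1 + r ^ 2 / L ^ 2) ^ (-α) :=
    Real.rpow_le_rpow_of_nonpos (by positivity) h2 (by linarith)
  have h4 : (4 * (R / L) ^ 2) ^ (-α) = (4 : ℝ) ^ (-α) * ((L / R) ^ α) ^ 2 := by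
    have hRL : 0 < R / L := by positivity
    rw [Real.mul_rpow (by norm_num) (by positivity)]
    congr 1
    have e3 : L / R = (R / L)⁻¹ := by rw [inv_div]
    rw [e3, Real.inv_rpow hRL.le, ← Real.rpow_natCast ((R / L)) 2, ← Real.rpow_mul hRL.le, ← Real.rpow_neg hRL.le,
      ← Real.rpow_natCast _ 2, ← Real.rpow_mul hRL.le]
    congr 1
    push_cast
    ring
  refine Real.le_sqrt_of_sq_le ?_
  rw [mul_pow, Real.sq_sqrt (by positivity), mul_assoc, ← h4]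
  exact (mul_le_mul_of_nonneg_left h3 hc.le).trans h1

/-- `Psi` is onto (`α < 1`).  Plan: `Continuous.surjective`; for `s ≥ L`: `Psi s ≥ s √(c (1 + s²/L²)^-α) ≥ c' L^α s^(1-α) → ∞` (`uw_psi_lower` on `[0,s]`, `uw_phi_anti`, `uw_phi_bds`); `atBot` by oddness. -/
theorem uw_psi_surj {L α : ℝ} (hL : 0 < L) (hα0 : 0 < α) (hα1 : α < 1) : Function.Surjective (uwPsi L α) := by
  obtain ⟨c₁, hc₁, hge⟩ := uw_sqrt_phi_ge_aux hα0 hα1
  have hW := uw_W hL hα0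
  have hcont : Continuous (uwPsi L α) := continuous_iff_continuousAt.2 fun s => (hW.der s).continuousAt
  have htop : Tendsto (uwPsi L α) atTop atTop := by
    have h1 : Tendsto (fun s : ℝ => (c₁ * L ^ α) * s ^ (1 - α)) atTop atTop :=
      (tendsto_rpow_atTop (by linarith)).const_mul_atTop (by positivity)
    refine tendsto_atTop_mono' _ ?_ h1
    filter_upwards [eventually_ge_atTop L] with s hs
    have hs0 : 0 < s := hL.trans_le hs
    have h2 := uw_psi_lower hL hα0 (s := 0) (s' := s) (m := c₁ * (L / s) ^ α) hs0.le (fun r hr =>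
      hge L hL s hs r (by rw [abs_of_nonneg hr.1]; linarith [hr.2]))
    rw [uw_psi_zero, sub_zero, sub_zero] at h2
    refine le_trans (le_of_eq ?_) h2
    rw [Real.div_rpow hL.le hs0.le, Real.rpow_sub hs0, Real.rpow_one]
    field_simp
  have hbot : Tendsto (uwPsi L α) atBot atBot := by
    have h1 : Tendsto (fun s : ℝ => -uwPsi L α (-s)) atBot atBot :=
      tendsto_neg_atTop_atBot.comp (htop.comp tendsto_neg_atBot_atTop)
    refine h1.congr fun s => ?_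
    rw [uw_psi_odd, neg_neg]
  exact hcont.surjective htop hbot

/-! ## 4. (w4) distortion -/

/-- lower bound of `√phi` on a ball: `|r| ≤ 3R/2`, `R ≥ L`  ⟹  `√phi(r) ≥ c₁ (L/R)^α`. -/
theorem uw_sqrt_phi_ge {α : ℝ} (hα0 : 0 < α) (hα1 : α < 1) :
    ∃ c₁ : ℝ, 0 < c₁ ∧ ∀ L : ℝ, 0 < L → ∀ R : ℝ, L ≤ R → ∀ r : ℝ, |r| ≤ 3 * R / 2 → c₁ * (L / R) ^ α ≤ Real.sqrt (uwPhi L α r) := by
  exact uw_sqrt_phi_ge_aux hα0 hα1

/-- **(w4) DISTORTION**.  Plan: `R = L + |s|`, `d = |s' - s|`.  If `d ≤ R/2` the segment lies in `|r| ≤ 3R/2`: `lam ≥ d c₁ (L/R)^α` (`uw_psi_lower`, `uw_sqrt_phi_ge`).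
If `d > R/2` the piece of length `R/2` starting at `s` gives `lam ≥ (R/2) c₁ (L/R)^α ≥ c₁ L/2` (`α < 1`, `R ≥ L`, monotonicity of `Psi`): contradiction with `lam ≤ c₁ L/64`.   `cs = c₁`.
Second inequality: `lam/cs ≤ L/64` and `(R/L)^α ≤ R/L`. -/
theorem uw_dist {α : ℝ} (hα0 : 0 < α) (hα1 : α < 1) :
    ∃ cs : ℝ, 0 < cs ∧ ∀ L : ℝ, 0 < L → ∀ s s' lam : ℝ, |uwPsi L α s' - uwPsi L α s| ≤ lam → lam ≤ cs * L / 64 →
      |s' - s| ≤ lam / cs * ((L + |s|) / L) ^ α ∧ lam / cs * ((L + |s|) / L) ^ α ≤ (L + |s|) / 64 := by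
  obtain ⟨c₁, hc₁, hge⟩ := uw_sqrt_phi_ge hα0 hα1
  refine ⟨c₁, hc₁, fun L hL s s' lam hlam hsm => ?_⟩
  have hW := uw_W hL hα0
  have hmono := (u3_Psi_mono hW).monotone
  set R := L + |s| with hR
  have hLR : L ≤ R := by have := abs_nonneg s; linarith
  have hR0 : 0 < R := hL.trans_le hLR
  have hsR : |s| ≤ R := by linarith
  have hlam0 : 0 ≤ lam := (abs_nonneg _).trans hlam
  set m := c₁ * (L / R) ^ α with hm
  have hm0 : 0 < m := by positivity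
  -- increments on a segment inside the ball
  have aux : ∀ u v : ℝ, u ≤ v → |u| ≤ 3 * R / 2 → |v| ≤ 3 * R / 2 → m * (v - u) ≤ uwPsi L α v - uwPsi L α u := by
    intro u v huv hu hv
    refine uw_psi_lower hL hα0 huv fun r hr => hge L hL R hLR r ?_
    exact (abs_le_max_abs_abs hr.1 hr.2).trans (max_le hu hv)
  -- `m R / 2 > lam`
  have hbig : lam < m * (R / 2) := by
    have h1 : L / R ≤ (L / R) ^ α := by
      have := Real.rpow_le_rpow_of_exponent_ge (x := L / R) (by positivity) ((div_le_one hR0).2 hLR) hα1.le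
      rwa [Real.rpow_one] at this
    have h2 : c₁ * (L / R) * (R / 2) ≤ m * (R / 2) :=
      mul_le_mul_of_nonneg_right (mul_le_mul_of_nonneg_left h1 hc₁.le) (by positivity)
    have h3 : c₁ * (L / R) * (R / 2) = c₁ * L / 2 := by field_simp
    have h4 : 0 < c₁ * L := by positivity
    linarith
  have hinv : lam / c₁ * (R / L) ^ α = lam / m := by
    have e3 : L / R = (R / L)⁻¹ := by rw [inv_div]
    rw [hm, e3, Real.inv_rpow (by positivity)]
    have : (R / L) ^ α ≠ 0 := (by positivity : 0 < (R / L) ^ α).ne'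
    field_simp
  have hs_abs := abs_le.1 hsR
  constructor
  · rw [hinv, le_div_iff₀ hm0]
    rcases le_total s s' with hss | hss
    · rw [abs_of_nonneg (sub_nonneg.2 hss)]
      have hΨ : uwPsi L α s' - uwPsi L α s ≤ lam := (le_abs_self _).trans hlam
      by_cases hd : s' - s ≤ R / 2
      · have := aux s s' hss (by linarith) (by rw [abs_le]; constructor <;> linarith)
        linarith
      · exfalso
        have h1 := aux s (s + R / 2) (by linarith) (by linarith) (by rw [abs_le]; constructor <;> linarith)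
        have h2 := hmono (show s + R / 2 ≤ s' by linarith)
        have h3 : m * (s + R / 2 - s) = m * (R / 2) := by ring
        linarith
    · rw [abs_of_nonpos (sub_nonpos.2 hss)]
      have hΨ : uwPsi L α s - uwPsi L α s' ≤ lam := by
        have := (neg_abs_le (uwPsi L α s' - uwPsi L α s))
        linarith
      by_cases hd : s - s' ≤ R / 2
      · have := aux s' s hss (by rw [abs_le]; constructor <;> linarith) (by linarith)
        linarith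
      · exfalso
        have h1 := aux (s - R / 2) s (by linarith) (by rw [abs_le]; constructor <;> linarith) (by linarith)
        have h2 := hmono (show s' ≤ s - R / 2 by linarith)
        have h3 : m * (s - (s - R / 2)) = m * (R / 2) := by ring
        linarith
  · have h1 : (R / L) ^ α ≤ R / L := by
      have := Real.rpow_le_rpow_of_exponent_le (x := R / L) ((one_le_div hL).2 hLR) hα1.le
      rwa [Real.rpow_one] at this
    have h2 : lam / c₁ ≤ L / 64 := by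
      rw [div_le_iff₀ hc₁]
      linarith
    calc lam / c₁ * (R / L) ^ α ≤ L / 64 * (R / L) := mul_le_mul h2 h1 (by positivity) (by positivity)
      _ = R / 64 := by field_simp

/-- `Psi` is `1`-Lipschitz, ordered form -/
theorem uw_psi_lip {L α : ℝ} (hL : 0 < L) (hα : 0 < α) {s s' : ℝ} (hs : s ≤ s') : uwPsi L α s' - uwPsi L α s ≤ s' - s := by
  have := uw_psi_upper hL hα (M := 1) hs fun r _ => Real.sqrt_le_one.2 (u3c_phi_le_one L α r)
  linarith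

/-- one sided form of the distortion: `s ≤ s'` or `s' ≤ s`, increments measured from `s` -/
theorem uw_dist_aux {L α c₁ : ℝ} (hL : 0 < L) (hα0 : 0 < α) (hα1 : α < 1) (hc₁ : 0 < c₁)
    (hge : ∀ R : ℝ, L ≤ R → ∀ r : ℝ, |r| ≤ 3 * R / 2 → c₁ * (L / R) ^ α ≤ Real.sqrt (uwPhi L α r))
    {s s' lam : ℝ} (h : |uwPsi L α s' - uwPsi L α s| ≤ lam) (hlam : lam < c₁ * L / 2) :
    |s' - s| ≤ lam / c₁ * ((L + |s|) / L) ^ α := by
  set R := L + |s| with hR
  have hRL : L ≤ R := by have := abs_nonneg s; linarith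
  have hR0 : 0 < R := hL.trans_le hRL
  set m := c₁ * (L / R) ^ α with hm
  have hLR : 0 < L / R := by positivity
  have hm0 : 0 < m := mul_pos hc₁ (Real.rpow_pos_of_pos hLR _)
  have hmono := (u3g_psi_mono hL hα0).monotone
  -- on the ball of radius `R/2` around `s` the density is at least `m`
  have hball : ∀ r : ℝ, |r - s| ≤ R / 2 → m ≤ Real.sqrt (uwPhi L α r) := by
    intro r hr
    refine hge R hRL r ?_
    have : |r| ≤ |r - s| + |s| := by
      have := abs_add_le (r - s) s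
      simpa using this
    have h2 : |s| ≤ R := by linarith
    linarith
  -- a long segment costs at least `c₁ L / 2`
  have hbig : c₁ * L / 2 ≤ m * (R / 2) := by
    have e : m * (R / 2) = c₁ / 2 * ((L / R) ^ α * R) := by rw [hm]; ring
    rw [e]
    have h1 : L / R ≤ (L / R) ^ α := by
      have := Real.rpow_le_rpow_of_exponent_ge hLR ((div_le_one hR0).2 hRL) hα1.le
      rwa [Real.rpow_one] at this
    have h2 : L ≤ (L / R) ^ α * R := by
      calc L = L / R * R := by field_simp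
        _ ≤ (L / R) ^ α * R := mul_le_mul_of_nonneg_right h1 hR0.le
    nlinarith
  have hd : |s' - s| ≤ R / 2 := by
    by_contra hcon
    have hcon : R / 2 < |s' - s| := not_le.1 hcon
    rcases le_total s s' with hss | hss
    · rw [abs_of_nonneg (by linarith)] at hcon
      have h1 := uw_psi_lower hL hα0 (s := s) (s' := s + R / 2) (m := m) (by linarith) fun r hr => hball r (by
        rw [abs_of_nonneg (by linarith [hr.1])]; linarith [hr.2])
      have h2 := hmono (by linarith : s + R / 2 ≤ s')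
      have h3 := le_abs_self (uwPsi L α s' - uwPsi L α s)
      have e : s + R / 2 - s = R / 2 := by ring
      rw [e] at h1
      linarith
    · rw [abs_of_nonpos (by linarith)] at hcon
      have h1 := uw_psi_lower hL hα0 (s := s - R / 2) (s' := s) (m := m) (by linarith) fun r hr => hball r (by
        rw [abs_of_nonpos (by linarith [hr.2])]; linarith [hr.1])
      have h2 := hmono (by linarith : s' ≤ s - R / 2)
      have h3 := neg_abs_le (uwPsi L α s' - uwPsi L α s)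
      have e : s - (s - R / 2) = R / 2 := by ring
      rw [e] at h1
      linarith
  have hkey : m * |s' - s| ≤ lam := by
    rcases le_total s s' with hss | hss
    · have h1 := uw_psi_lower hL hα0 (m := m) hss fun r hr => hball r (by
        rw [abs_of_nonneg (by linarith [hr.1])]
        rw [abs_of_nonneg (by linarith)] at hd
        linarith [hr.2])
      rw [abs_of_nonneg (by linarith)]
      exact h1.trans ((le_abs_self _).trans h)
    · have h1 := uw_psi_lower hL hα0 (m := m) hss fun r hr => hball r (by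
        rw [abs_of_nonpos (by linarith [hr.2])]
        rw [abs_of_nonpos (by linarith)] at hd
        linarith [hr.1])
      rw [abs_of_nonpos (by linarith)]
      have h3 := neg_abs_le (uwPsi L α s' - uwPsi L α s)
      have e : -(s' - s) = s - s' := by ring
      rw [e]
      linarith
  have e2 : lam / c₁ * (R / L) ^ α = lam / m := by
    rw [hm, ← inv_div L R, Real.inv_rpow hLR.le]
    field_simp
  rw [e2, le_div_iff₀ hm0, mul_comm]
  exact hkey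

/-- **(w4) DISTORTION**, in the shape of `U3rW.dist` (helper186), plus the bound used with `lam ≤ cs L/64`. -/
theorem uw_dist_r {α : ℝ} (hα0 : 0 < α) (hα1 : α < 1) :
    ∃ cs : ℝ, 0 < cs ∧ ∀ L : ℝ, 0 < L → ∀ s s' lam : ℝ, |uwPsi L α s' - uwPsi L α s| ≤ lam → lam ≤ cs * L →
      |s' - s| ≤ lam / cs * ((L + |s|) / L) ^ α ∧ (lam ≤ cs * L / 64 → lam / cs * ((L + |s|) / L) ^ α ≤ (L + |s|) / 64) := by
  obtain ⟨c₁, hc₁, hge⟩ := uw_sqrt_phi_ge hα0 hα1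
  refine ⟨c₁ / 4, by positivity, fun L hL s s' lam h hlam => ?_⟩
  have hlam0 : 0 ≤ lam := (abs_nonneg _).trans h
  have hs0 := abs_nonneg s
  have hb1 : (1 : ℝ) ≤ (L + |s|) / L := (one_le_div hL).2 (by linarith)
  have hp0 : 0 ≤ ((L + |s|) / L) ^ α := Real.rpow_nonneg (by linarith) _
  constructor
  · have h1 := uw_dist_aux hL hα0 hα1 hc₁ (hge L hL) h (by nlinarith)
    refine h1.trans (mul_le_mul_of_nonneg_right ?_ hp0)
    exact div_le_div_of_nonneg_left hlam0 (by positivity) (by linarith)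
  · intro h64
    have h2 : ((L + |s|) / L) ^ α ≤ (L + |s|) / L := by
      have := Real.rpow_le_rpow_of_exponent_le hb1 hα1.le
      rwa [Real.rpow_one] at this
    have h3 : lam / (c₁ / 4) ≤ L / 64 := by
      rw [div_le_iff₀ (by positivity)]
      linarith
    calc lam / (c₁ / 4) * ((L + |s|) / L) ^ α ≤ L / 64 * ((L + |s|) / L) :=
          mul_le_mul h3 h2 hp0 (by positivity)
      _ = (L + |s|) / 64 := by field_simp

/-- **EXIT**: the hypothesis `hW` of `R287/U3Reg.lean` (Lemma 6), constants depending on `α` only. -/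
theorem uw_rW {α : ℝ} (hα0 : 0 < α) (hα1 : α < 1) :
    ∃ cs cφ : ℝ, 0 < cs ∧ 0 < cφ ∧ ∀ L : ℝ, 0 < L → U3rW L α cs cφ (uwPsi L α) := by
  obtain ⟨cs, hcs, hd⟩ := uw_dist_r hα0 hα1
  obtain ⟨c₁, hc₁, hge⟩ := uw_sqrt_phi_ge hα0 hα1
  refine ⟨cs, min 1 (c₁ / 2), hcs, lt_min one_pos (by positivity), fun L hL => ?_⟩
  refine ⟨hα0.le, hα1.le, hcs, lt_min one_pos (by positivity), min_le_left _ _, (u3g_psi_mono hL hα0).monotone,
    fun s s' h => uw_psi_lip hL hα0 h, fun s s' h1 h2 h3 => ?_, fun s s' lam h1 h2 => (hd L hL s s' lam h1 h2).1,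
    fun s h => u3g_psi_id hL hα0 h, u3g_psi_surj hL hα0 hα1.le⟩
  refine uw_psi_lower hL hα0 h2 fun r hr => ?_
  have h4 := hge L hL (2 * L) (by linarith) r (by rw [abs_le]; constructor <;> linarith [hr.1, hr.2])
  refine le_trans ((min_le_right _ _).trans ?_) h4
  have e : L / (2 * L) = 1 / 2 := by field_simp
  rw [e]
  have h5 : (1 : ℝ) / 2 ≤ (1 / 2 : ℝ) ^ α := by
    have := Real.rpow_le_rpow_of_exponent_ge (by norm_num : (0 : ℝ) < 1 / 2) (by norm_num) hα1.le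
    rwa [Real.rpow_one] at this
  nlinarith

/-! ## 5. (w5) the geodesic -/

theorem uw_geo_eq {J : Type} (L α : ℝ) (x y : J → ℝ) : uwGeo L α x y = u3Geo (uwPsi L α) x y := rfl

theorem uw_vel_eq {J : Type} (L α : ℝ) (x y : J → ℝ) : uwVel L α x y = u3GeoV (uwPhi L α) (uwPsi L α) x y := rfl

theorem uw_cost_eq {J : Type} [Fintype J] (L α : ℝ) (x y : J → ℝ) : uwCost L α x y = u3Cost (uwPsi L α) x y := rfl

theorem uw_geo_zero {L α : ℝ} (hL : 0 < L) (hα : 0 < α) {J : Type} (x y : J → ℝ) : uwGeo L α x y 0 = x :=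
  u3_geo_zero (uw_W hL hα) x y

theorem uw_geo_one {L α : ℝ} (hL : 0 < L) (hα : 0 < α) {J : Type} (x y : J → ℝ) : uwGeo L α x y 1 = y :=
  u3_geo_one (uw_W hL hα) x y

/-- the geodesic is a `C¹` path with velocity `uwVel` -/
theorem uw_geo_path {L α : ℝ} (hL : 0 < L) (hα0 : 0 < α) (hα1 : α < 1) {J : Type} (x y : J → ℝ) : U3P (uwGeo L α x y) (uwVel L α x y) :=
  u3_geo_path (uw_W hL hα0) (uw_psi_surj hL hα0 hα1) x y

/-- the geodesic stays between its end points -/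
theorem uw_geo_mem {L α : ℝ} (hL : 0 < L) (hα0 : 0 < α) (hα1 : α < 1) {J : Type} (x y : J → ℝ) {a : ℝ} (ha : a ∈ Set.Icc (0 : ℝ) 1) (j : J) :
    uwGeo L α x y a j ∈ Set.uIcc (x j) (y j) :=
  u3_geo_mem (uw_W hL hα0) (uw_psi_surj hL hα0 hα1) x y ha j

/-- the geodesic keeps the order of the sites -/
theorem uw_geo_mono {L α : ℝ} (hL : 0 < L) (hα0 : 0 < α) (hα1 : α < 1) {J : Type} (x y : J → ℝ) {a : ℝ} (ha : a ∈ Set.Icc (0 : ℝ) 1) {i j : J}
    (hx : x i ≤ x j) (hy : y i ≤ y j) : uwGeo L α x y a i ≤ uwGeo L α x y a j :=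
  u3_geo_mono (uw_W hL hα0) (uw_psi_surj hL hα0 hα1) x y ha hx hy

/-- `Psi` of the geodesic is the affine interpolation -/
theorem uw_geo_psi {L α : ℝ} (hL : 0 < L) (hα0 : 0 < α) (hα1 : α < 1) {J : Type} (x y : J → ℝ) (a : ℝ) (j : J) :
    uwPsi L α (uwGeo L α x y a j) = (1 - a) * uwPsi L α (x j) + a * uwPsi L α (y j) :=
  u3_geo_Psi (uw_psi_surj hL hα0 hα1) x y a j

/-- in the core the geodesic IS the segment and the velocity is `delta` -/
theorem uw_geo_core {L α : ℝ} (hL : 0 < L) (hα : 0 < α) {J : Type} (x y : J → ℝ) {a : ℝ} (ha : a ∈ Set.Icc (0 : ℝ) 1) {j : J}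
    (hx : |x j| ≤ L) (hy : |y j| ≤ L) :
    uwGeo L α x y a j = x j + a * (y j - x j) ∧ uwVel L α x y a j = y j - x j := by
  have hW := uw_W hL hα
  have hp : |x j + a * (y j - x j)| ≤ L := by
    rw [abs_le] at hx hy ⊢
    obtain ⟨a0, a1⟩ := ha
    constructor <;> nlinarith
  have hg : uwGeo L α x y a j = x j + a * (y j - x j) := by
    show Function.invFun (uwPsi L α) ((1 - a) * uwPsi L α (x j) + a * uwPsi L α (y j)) = _
    rw [uw_psi_core hL hα hx, uw_psi_core hL hα hy]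
    have e : (1 - a) * x j + a * y j = uwPsi L α (x j + a * (y j - x j)) := by
      rw [uw_psi_core hL hα hp]; ring
    rw [e, u3_inv_left hW]
  refine ⟨hg, ?_⟩
  show (uwPsi L α (y j) - uwPsi L α (x j)) / Real.sqrt (uwPhi L α (uwGeo L α x y a j)) = _
  rw [hg, uw_phi_core hL hα hp, uw_psi_core hL hα hx, uw_psi_core hL hα hy, Real.sqrt_one, div_one]

/-- **EXIT (w5)** `= u3t_geo_vel` -/
theorem uw_geo_vel (L α : ℝ) (hL : 0 < L) (hα0 : 0 < α) {J : Type} (x y' : J → ℝ) (a : ℝ) (j : J) :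
    uwVel L α x y' a j ^ 2 * uwPhi L α (uwGeo L α x y' a j) = (uwPsi L α (y' j) - uwPsi L α (x j)) ^ 2 := by
  have h := u3_geo_speed (uw_W hL hα0) x y' a j
  have hp : uwPhi L α (uwGeo L α x y' a j) ≠ 0 := (uw_phi_pos hL hα0 _).ne'
  rw [uw_vel_eq, h, ← uw_geo_eq, div_mul_cancel₀ _ hp]

/-! ## 6. Joint continuity of the integrands of Lemma 2 -/

theorem uw_geo_cont1 {L α : ℝ} (hL : 0 < L) (hα0 : 0 < α) (hα1 : α < 1) {J : Type} (x y : J → ℝ) (j : J) :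
    Continuous fun a : ℝ => uwGeo L α x y a j := by
  exact u3_geo_cont (uw_W hL hα0) (uw_psi_surj hL hα0 hα1) x y j

theorem uw_vel_cont {L α : ℝ} (hL : 0 < L) (hα0 : 0 < α) (hα1 : α < 1) {J : Type} (x y : J → ℝ) (j : J) :
    Continuous fun a : ℝ => uwVel L α x y a j := by
  exact (uw_geo_path hL hα0 hα1 x y).cont j

/-- the matrix `wlM (x^a) 1 N` is continuous in `(a, N)` -/
theorem uw_M_cont {L α : ℝ} (hL : 0 < L) (hα0 : 0 < α) (hα1 : α < 1) {J : Type} [Fintype J] [DecidableEq J] (x y : J → ℝ) :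
    Continuous fun q : ℝ × Matrix J J ℝ => wlM (uwGeo L α x y q.1) 1 q.2 := by
  unfold wlM goeOf
  have h1 : Continuous fun q : ℝ × Matrix J J ℝ => uwGeo L α x y q.1 :=
    continuous_pi fun j => (uw_geo_cont1 hL hα0 hα1 x y j).comp continuous_fst
  have h2 : Continuous fun q : ℝ × Matrix J J ℝ => q.2 + q.2ᵀ := continuous_snd.add continuous_snd.matrix_transpose
  have h3 : Continuous fun q : ℝ × Matrix J J ℝ => Real.sqrt 1 • (Real.sqrt 2)⁻¹ • (q.2 + q.2ᵀ) :=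
    by fun_prop
  exact h1.matrix_diagonal.add h3

theorem uw_toC_eq {J : Type} [Fintype J] [DecidableEq J] (A : Matrix J J ℝ) : toC A = rsC A := rfl

/-- `wlM` is symmetric -/
theorem uw_M_herm {J : Type} [Fintype J] [DecidableEq J] (x : J → ℝ) (D : ℝ) (N : Matrix J J ℝ) : (wlM x D N).IsHermitian := by
  unfold wlM goeOf
  ext i j
  by_cases h : i = j
  · subst h
    simp
  · simp [Matrix.diagonal_apply_ne _ h, Matrix.diagonal_apply_ne _ (Ne.symm h), add_comm]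

/-- resolvent entries along a continuous family (bridge `rs_G_eq_rsv`, `rs_G_cont`) -/
theorem uw_rsv_cont {X J : Type} [TopologicalSpace X] [Fintype J] [DecidableEq J] {f : X → Matrix J J ℝ} {g : X → ℂ} (hf : Continuous f)
    (hg : Continuous g) (hH : ∀ t, (f t).IsHermitian) (hz : ∀ t, (g t).im ≠ 0) (j k : J) :
    Continuous fun t => rsv (toC (f t)) (g t) j k := by
  have := rs_G_cont hf hg hH hz j k
  simpa only [rs_G_eq_rsv, uw_toC_eq] using this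

/-- `0 ≤ η Im G_jj(iη) ≤ 1` -/
theorem uw_hat_term_mem {J : Type} [Fintype J] [DecidableEq J] {Z : Matrix J J ℝ} (hZ : Z.IsHermitian) {η : ℝ} (hη : 0 < η) (j : J) :
    0 ≤ η * (rsv (toC Z) ⟨0, η⟩ j j).im ∧ η * (rsv (toC Z) ⟨0, η⟩ j j).im ≤ 1 := by
  rw [uw_toC_eq, ← rs_G_eq_rsv]
  have hz : 0 < (⟨0, η⟩ : ℂ).im := hη
  have h1 := rs_G_im_pos hZ hz j
  have h2 := rs_G_im_le hZ hz j
  refine ⟨mul_nonneg hη.le h1.le, ?_⟩
  calc η * (rsG Z ⟨0, η⟩ j j).im ≤ η * (1 / η) := mul_le_mul_of_nonneg_left h2 hη.le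
    _ = 1 := by field_simp

/-- continuity of `uwHat0` along a continuous symmetric family: `continuous_tsum` with the geometric majorant -/
theorem uw_hat0_cont {L α : ℝ} (hL : 0 < L) (hα : 0 < α) {X J : Type} [TopologicalSpace X] [Fintype J] [DecidableEq J] {f : X → Matrix J J ℝ}
    (hf : Continuous f) (hH : ∀ t, (f t).IsHermitian) (j : J) : Continuous fun t => uwHat0 L α (f t) j := by
  unfold uwHat0
  have hη : ∀ m : ℕ, 0 < (2 : ℝ) ^ m * L := fun m => by positivity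
  have hq0 : 0 ≤ (4 : ℝ) ^ (-α) := Real.rpow_nonneg (by norm_num) _
  refine continuous_tsum (u := fun m : ℕ => ((4 : ℝ) ^ (-α)) ^ m) (fun m => ?_) (summable_geometric_of_lt_one hq0 (uw_q_lt_one hα)) fun m t => ?_
  · refine continuous_const.mul (continuous_const.mul (Complex.continuous_im.comp ?_))
    exact uw_rsv_cont hf continuous_const hH (fun _ => (hη m).ne') j j
  · obtain ⟨a, b⟩ := uw_hat_term_mem (hH t) (hη m) j
    rw [Real.norm_eq_abs, abs_of_nonneg (mul_nonneg (Real.rpow_nonneg (by norm_num) _) a), ← uw_w_eq]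
    calc (4 : ℝ) ^ (-(α * m)) * ((2 ^ m * L) * (rsv (toC (f t)) ⟨0, 2 ^ m * L⟩ j j).im) ≤ (4 : ℝ) ^ (-(α * m)) * 1 :=
          mul_le_mul_of_nonneg_left b (Real.rpow_nonneg (by norm_num) _)
      _ = _ := mul_one _

/-- continuity of `uwQ` along a continuous symmetric family (`Im Tr G > 0`: the index set is nonempty) -/
theorem uw_Q_cont {L y : ℝ} (hy : 0 < y) {X J : Type} [TopologicalSpace X] [Fintype J] [DecidableEq J] [Nonempty J] {f : X → Matrix J J ℝ} {e : X → ℝ}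
    (hf : Continuous f) (he : Continuous e) (hH : ∀ t, (f t).IsHermitian) (j k : J) : Continuous fun t => uwQ L y (f t) j k (e t) := by
  unfold uwQ
  have hg : Continuous fun t => (⟨e t, y⟩ : ℂ) := by
    have : (fun t => (⟨e t, y⟩ : ℂ)) = fun t => ((e t : ℝ) : ℂ) + ((y : ℝ) : ℂ) * Complex.I := by
      funext t
      apply Complex.ext <;> simp
    rw [this]
    exact (Complex.continuous_ofReal.comp he).add continuous_const
  have hz : ∀ t, (⟨e t, y⟩ : ℂ).im ≠ 0 := fun _ => hy.ne'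
  have hT : Continuous fun t => (rTr (f t) ⟨e t, y⟩).im := by
    simp only [rs_rTr, Matrix.trace, Matrix.diag_apply]
    exact Complex.continuous_im.comp (continuous_finsetSum _ fun i _ => rs_G_cont hf hg hH hz i i)
  have hT0 : ∀ t, (rTr (f t) ⟨e t, y⟩).im ≠ 0 := by
    intro t
    rw [rs_rTr, Matrix.trace, Complex.im_sum]
    have hp : ∀ i ∈ (Finset.univ : Finset J), 0 < ((rsG (f t) ⟨e t, y⟩).diag i).im := fun i _ => rs_G_im_pos (hH t) (z := ⟨e t, y⟩) hy i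
    exact (Finset.sum_pos hp Finset.univ_nonempty).ne'
  refine (continuous_const.div hT hT0).mul (Continuous.pow ?_ 2)
  exact continuous_const.max ((continuous_norm.comp (uw_rsv_cont hf hg hH hz j k)).sub continuous_const)

/-- **EXIT, continuity** `= u3t_geo_cont` -/
theorem uw_geo_cont (L α y : ℝ) (hL : 0 < L) (hα0 : 0 < α) (hα1 : α < 1) (hy0 : 0 < y) {K : ℕ} (x y' : Dat K) :
    (Continuous fun q : ℝ × Matrix (Win K) (Win K) ℝ => uwDD L α y x y' q.1 q.2) ∧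
    (∀ j, Continuous fun q : ℝ × Matrix (Win K) (Win K) ℝ => uwHat L α (wlM (uwGeo L α x y' q.1) 1 q.2) j) ∧
    (∀ j, Continuous fun a : ℝ => uwVel L α x y' a j) := by
  have hM := uw_M_cont hL hα0 hα1 x y'
  have hH : ∀ q : ℝ × Matrix (Win K) (Win K) ℝ, (wlM (uwGeo L α x y' q.1) 1 q.2).IsHermitian := fun q => uw_M_herm _ _ _
  refine ⟨?_, fun j => ?_, fun j => uw_vel_cont hL hα0 hα1 x y' j⟩
  · unfold uwDD
    refine continuous_finsetSum _ fun j _ => ?_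
    by_cases hc : uwCore L x j
    · simp only [if_pos hc]
      exact continuous_const.mul (uw_Q_cont hy0 hM ((uw_geo_cont1 hL hα0 hα1 x y' j.castSucc).comp continuous_fst) hH _ _)
    · simp only [if_neg hc]
      exact continuous_const
  · unfold uwHat
    exact continuous_const.min ((uw_hat0_cont hL hα0 hM hH j).div_const _)

/-! ## 7. Regular configurations: uniform versions -/

/-- far labels, with a threshold depending on the constants only (= `k9_creg_far` with `N` uniform in `x`, plus the signs). -/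
theorem uw_creg_far {ρ χ : ℝ} (hρ : 0 < ρ) (hχ : 0 < χ) (C₀ : ℝ) (J₀ : ℕ) :
    ∃ N : ℕ, 1 ≤ N ∧ J₀ ≤ N ∧ ∀ x : Conf, CReg ρ χ C₀ J₀ x → ∀ j : ℤ, (N : ℤ) ≤ |j| →
      |x j - j / ρ| ≤ C₀ * |(j : ℝ)| ^ (1 - χ) ∧ C₀ * |(j : ℝ)| ^ (1 - χ) ≤ |(j : ℝ)| / (2 * ρ) ∧ |(j : ℝ)| / (2 * ρ) ≤ |x j| ∧
      (0 < j → (j : ℝ) / (2 * ρ) ≤ x j) ∧ (j < 0 → x j ≤ (j : ℝ) / (2 * ρ)) := by
  obtain ⟨N₁, hN₁⟩ := eventually_atTop.1 ((tendsto_rpow_atTop hχ).eventually_ge_atTop (2 * ρ * C₀))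
  refine ⟨max J₀ (max 1 ⌈N₁⌉₊), (le_max_left 1 _).trans (le_max_right _ _), le_max_left _ _,
    fun x hx j hj => ?_⟩
  have hj' : ((max J₀ (max 1 ⌈N₁⌉₊) : ℕ) : ℝ) ≤ |(j : ℝ)| := by
    have : (((max J₀ (max 1 ⌈N₁⌉₊) : ℕ) : ℤ) : ℝ) ≤ ((|j| : ℤ) : ℝ) := by exact_mod_cast hj
    simpa using this
  set t : ℝ := |(j : ℝ)| with ht
  have h1 : (1 : ℝ) ≤ t := by
    refine le_trans ?_ hj'
    exact_mod_cast (le_max_left 1 ⌈N₁⌉₊).trans (le_max_right _ _)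
  have h2 : N₁ ≤ t := by
    refine le_trans (Nat.le_ceil N₁) (le_trans ?_ hj')
    exact_mod_cast (le_max_right 1 ⌈N₁⌉₊).trans (le_max_right _ _)
  have h3 : (J₀ : ℤ) ≤ |j| := le_trans (by exact_mod_cast le_max_left _ _) hj
  have ht0 : 0 < t := by linarith
  have a1 : |x j - j / ρ| ≤ C₀ * t ^ (1 - χ) := hx.2 j h3
  have a2 : C₀ * t ^ (1 - χ) ≤ t / (2 * ρ) := by
    have h4 : 2 * ρ * C₀ ≤ t ^ χ := hN₁ t h2
    have h5 : t ^ (1 - χ) = t / t ^ χ := by rw [Real.rpow_sub ht0, Real.rpow_one]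
    have h6 : 0 < t ^ χ := Real.rpow_pos_of_pos ht0 _
    rw [h5, mul_div_assoc', div_le_div_iff₀ h6 (by positivity)]
    nlinarith
  have a3 := abs_le.mp (a1.trans a2)
  have e1 : (j : ℝ) / ρ = 2 * ((j : ℝ) / (2 * ρ)) := by field_simp
  have p4 : 0 < j → (j : ℝ) / (2 * ρ) ≤ x j := by
    intro hj0
    have : t = (j : ℝ) := abs_of_pos (by exact_mod_cast hj0)
    rw [this] at a3
    linarith [a3.1]
  have p5 : j < 0 → x j ≤ (j : ℝ) / (2 * ρ) := by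
    intro hj0
    have : t = -(j : ℝ) := abs_of_neg (by exact_mod_cast hj0)
    rw [this, neg_div] at a3
    linarith [a3.2]
  refine ⟨a1, a2, ?_, p4, p5⟩
  rcases lt_trichotomy j 0 with hj0 | hj0 | hj0
  · have : t = -(j : ℝ) := abs_of_neg (by exact_mod_cast hj0)
    have h7 := p5 hj0
    rw [this, neg_div]
    exact le_trans (by linarith) (neg_le_abs _)
  · exfalso
    rw [hj0] at ht
    simp at ht
    linarith
  · have : t = (j : ℝ) := abs_of_pos (by exact_mod_cast hj0)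
    rw [this]
    exact (p4 hj0).trans (le_abs_self _)

/-- near labels are bounded (monotonicity + the bound at the labels `±N`) -/
theorem uw_creg_near {ρ χ : ℝ} (C₀ : ℝ) (J₀ N : ℕ) (hN : J₀ ≤ N) :
    ∃ B : ℝ, 0 ≤ B ∧ ∀ x : Conf, CReg ρ χ C₀ J₀ x → ∀ j : ℤ, |j| ≤ (N : ℤ) → |x j| ≤ B := by
  refine ⟨|(N : ℝ) / ρ| + |C₀ * (N : ℝ) ^ (1 - χ)|, by positivity, fun x hx j hj => ?_⟩
  have hj2 := abs_le.mp hj
  have u1 : x j ≤ x N := hx.1 hj2.2
  have u2 : x (-(N : ℤ)) ≤ x j := hx.1 hj2.1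
  have b1 := hx.2 (N : ℤ) (by rw [abs_of_nonneg (by positivity)]; exact_mod_cast hN)
  have b2 := hx.2 (-(N : ℤ)) (by rw [abs_neg, abs_of_nonneg (by positivity)]; exact_mod_cast hN)
  have c1 : |(((N : ℤ) : ℝ))| = (N : ℝ) := by simp
  have c2 : |(((-(N : ℤ) : ℤ)) : ℝ)| = (N : ℝ) := by simp
  rw [c1] at b1
  rw [c2] at b2
  push_cast at b1 b2
  have b1' := abs_le.mp b1
  have b2' := abs_le.mp b2
  have d1 := le_abs_self ((N : ℝ) / ρ)
  have d2 := neg_abs_le ((N : ℝ) / ρ)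
  have d3 := le_abs_self (C₀ * (N : ℝ) ^ (1 - χ))
  rw [neg_div] at b2'
  rw [abs_le]
  constructor
  · linarith [b2'.1]
  · linarith [b1'.2]

/-- symmetric sums over the window: `∑_{i : Win K} F (wIdx i) = F 0 + ∑_{k < K} (F (k+1) + F (-(k+1)))` -/
theorem uw_sum_win {M : Type} [AddCommMonoid M] (K : ℕ) (F : ℤ → M) :
    ∑ i : Win K, F (wIdx i) = F 0 + ∑ k ∈ Finset.range K, (F ((k : ℤ) + 1) + F (-((k : ℤ) + 1))) := by
  have e0 : ∑ i : Win K, F (wIdx i) = ∑ n ∈ Finset.range (2 * K + 1), F ((n : ℤ) - K) :=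
    Fin.sum_univ_eq_sum_range (fun n => F ((n : ℤ) - K)) (2 * K + 1)
  rw [e0]
  clear e0
  induction K with
  | zero => simp
  | succ K ih =>
    rw [show 2 * (K + 1) + 1 = (2 * K + 1) + 1 + 1 by ring, Finset.sum_range_succ,
      Finset.sum_range_succ', Finset.sum_range_succ _ K]
    have e1 : ∀ n : ℕ, (((n + 1 : ℕ) : ℤ) - ((K + 1 : ℕ) : ℤ)) = (n : ℤ) - K := by
      intro n; push_cast; ring
    have e2 : (((0 : ℕ) : ℤ) - ((K + 1 : ℕ) : ℤ)) = -((K : ℤ) + 1) := by push_cast; ring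
    have e3 : (((2 * K + 1 + 1 : ℕ) : ℤ) - ((K + 1 : ℕ) : ℤ)) = (K : ℤ) + 1 := by push_cast; ring
    rw [e2, e3]
    simp only [e1]
    rw [ih]
    abel

/-! ## 8. Lemma 10: the initial cost -/

/-- `|Psi y - Psi x| ≤ |y - x| √phi(R)` when `x, y ≥ R ≥ 0` or `x, y ≤ -R ≤ 0` -/
theorem uw_D_le {L α : ℝ} (hL : 0 < L) (hα : 0 < α) {x y R : ℝ} (hR : 0 ≤ R) (h : (R ≤ x ∧ R ≤ y) ∨ (x ≤ -R ∧ y ≤ -R)) :
    |uwPsi L α y - uwPsi L α x| ≤ |y - x| * Real.sqrt (uwPhi L α R) := by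
  have key : ∀ a b : ℝ, a ≤ b → ((R ≤ a ∧ R ≤ b) ∨ (a ≤ -R ∧ b ≤ -R)) →
      0 ≤ uwPsi L α b - uwPsi L α a ∧
        uwPsi L α b - uwPsi L α a ≤ Real.sqrt (uwPhi L α R) * (b - a) := by
    intro a b hab hc
    constructor
    · have := uw_psi_lower hL hα (m := 0) hab fun r _ => Real.sqrt_nonneg _
      simpa using this
    · refine uw_psi_upper hL hα hab fun r hr => Real.sqrt_le_sqrt (uw_phi_anti hL hα ?_)
      rw [abs_of_nonneg hR]
      rcases hc with hc | hc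
      · exact le_trans (hc.1.trans hr.1) (le_abs_self _)
      · exact le_trans (by linarith [hr.2, hc.2]) (neg_le_abs _)
  rcases le_total x y with hxy | hxy
  · obtain ⟨k1, k2⟩ := key x y hxy h
    rw [abs_of_nonneg k1, abs_of_nonneg (by linarith), mul_comm]
    exact k2
  · obtain ⟨k1, k2⟩ := key y x hxy (h.imp And.symm And.symm)
    rw [abs_sub_comm, abs_of_nonneg k1, abs_sub_comm, abs_of_nonneg (by linarith), mul_comm]
    exact k2

/-- pointwise bound of Lemma 10 in the scale free variable `t = n/(bL)` -/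
theorem uw_pow_pt {α e t : ℝ} (he0 : 0 ≤ e) (he : e ≤ 2 * α) (ht : 0 < t) : t ^ e ≤ (1 + t ^ 2) ^ α := by
  have hα : 0 ≤ α := by linarith
  rcases le_total t 1 with h | h
  · calc t ^ e ≤ 1 := Real.rpow_le_one ht.le h he0
      _ ≤ (1 + t ^ 2) ^ α := Real.one_le_rpow (by nlinarith) hα
  · calc t ^ e ≤ t ^ (2 * α) := Real.rpow_le_rpow_of_exponent_le h he
      _ = (t ^ 2) ^ α := by
          rw [Real.rpow_mul ht.le]
          norm_num
      _ ≤ (1 + t ^ 2) ^ α := Real.rpow_le_rpow (by positivity) (by linarith) hα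

/-- **the sum of Lemma 10** (with an arbitrarily small loss `σ`: the exit has room):  `∑_{n=1}^K n^p (1 + n²/(bL)²)^-α ≤ C L^(1+p+σ)` for `0 ≤ p`, `1 + p < 2α`, uniformly in `K`.
Plan: NO splitting of the sum.  `σ' = min σ (2α - 1 - p) > 0`.  POINTWISE for every `n ≥ 1`:  `n^p (1 + n²/(bL)²)^-α ≤ (bL)^(1+p+σ') n^(-1-σ')`
[`n ≤ bL`: the bracket is `≤ 1` and `n^(1+p+σ') ≤ (bL)^(1+p+σ')`;   `n > bL`: the bracket is `≤ (bL)^(2α) n^(-2α)` and `n^-(2α-1-p-σ') ≤ (bL)^-(2α-1-p-σ')`].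
Then `∑ n^(-1-σ') ≤ tsum` (`Real.summable_nat_rpow_inv`), `(bL)^(1+p+σ') ≤ max(1,b)^(..) L^(1+p+σ)`. -/
theorem uw_sum_pow {p α b σ : ℝ} (hp : 0 ≤ p) (hα : 1 + p < 2 * α) (hb : 0 < b) (hσ : 0 < σ) :
    ∃ C : ℝ, 0 < C ∧ ∀ L : ℝ, 1 ≤ L → ∀ K : ℕ,
      ∑ k ∈ Finset.range K, ((k : ℝ) + 1) ^ p * (1 + ((k : ℝ) + 1) ^ 2 / (b * L) ^ 2) ^ (-α) ≤ C * L ^ (1 + p + σ) := by
  set σ' : ℝ := min σ (2 * α - 1 - p) with hσ'
  have hs0 : 0 < σ' := lt_min hσ (by linarith)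
  have hs1 : σ' ≤ σ := min_le_left _ _
  have hs2 : 1 + p + σ' ≤ 2 * α := by
    have := min_le_right σ (2 * α - 1 - p)
    linarith
  have hsum : Summable fun k : ℕ => ((k : ℝ) + 1) ^ (-(1 + σ')) := by
    have h := (Real.summable_nat_rpow (p := -(1 + σ'))).mpr (by linarith)
    have h2 := (summable_nat_add_iff 1).mpr h
    refine h2.congr fun k => ?_
    push_cast
    rfl
  set S : ℝ := ∑' k : ℕ, ((k : ℝ) + 1) ^ (-(1 + σ')) with hS
  have hS0 : 0 ≤ S := tsum_nonneg fun k => by positivity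
  refine ⟨b ^ (1 + p + σ') * S + 1, by positivity, fun L hL K => ?_⟩
  have hL0 : 0 < L := by linarith
  have hB : 0 < b * L := by positivity
  have hpt : ∀ k : ℕ, ((k : ℝ) + 1) ^ p * (1 + ((k : ℝ) + 1) ^ 2 / (b * L) ^ 2) ^ (-α)
      ≤ (b * L) ^ (1 + p + σ') * ((k : ℝ) + 1) ^ (-(1 + σ')) := by
    intro k
    have hn : (0 : ℝ) < (k : ℝ) + 1 := by positivity
    set n : ℝ := (k : ℝ) + 1 with hn'
    set t : ℝ := n / (b * L) with ht
    have ht0 : 0 < t := by positivity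
    have h1 := uw_pow_pt (α := α) (e := 1 + p + σ') (by linarith) hs2 ht0
    have e1 : n ^ 2 / (b * L) ^ 2 = t ^ 2 := by rw [ht, div_pow]
    rw [e1, Real.rpow_neg (by positivity)]
    have h2 : 0 < (1 + t ^ 2) ^ α := by positivity
    rw [← div_eq_mul_inv, div_le_iff₀ h2]
    have e2 : n ^ p = (b * L) ^ (1 + p + σ') * n ^ (-(1 + σ')) * t ^ (1 + p + σ') := by
      rw [ht, Real.div_rpow hn.le hB.le]
      have h3 : 0 < (b * L) ^ (1 + p + σ') := by positivity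
      field_simp
      rw [← Real.rpow_add hn]
      congr 1
      ring
    rw [e2]
    exact mul_le_mul_of_nonneg_left h1 (by positivity)
  calc ∑ k ∈ Finset.range K, ((k : ℝ) + 1) ^ p * (1 + ((k : ℝ) + 1) ^ 2 / (b * L) ^ 2) ^ (-α)
      ≤ ∑ k ∈ Finset.range K, (b * L) ^ (1 + p + σ') * ((k : ℝ) + 1) ^ (-(1 + σ')) :=
        Finset.sum_le_sum fun k _ => hpt k
    _ = (b * L) ^ (1 + p + σ') * ∑ k ∈ Finset.range K, ((k : ℝ) + 1) ^ (-(1 + σ')) := by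
        rw [Finset.mul_sum]
    _ ≤ (b * L) ^ (1 + p + σ') * S :=
        mul_le_mul_of_nonneg_left (hsum.sum_le_tsum _ fun k _ => by positivity) (by positivity)
    _ = b ^ (1 + p + σ') * S * L ^ (1 + p + σ') := by
        rw [Real.mul_rpow hb.le hL0.le]; ring
    _ ≤ b ^ (1 + p + σ') * S * L ^ (1 + p + σ) :=
        mul_le_mul_of_nonneg_left (Real.rpow_le_rpow_of_exponent_le hL (by linarith)) (by positivity)
    _ ≤ (b ^ (1 + p + σ') * S + 1) * L ^ (1 + p + σ) := by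
        have : 0 ≤ L ^ (1 + p + σ) := by positivity
        nlinarith

/-- a sum of at most `N` equal terms -/
theorem uw_sum_ite_le (K N : ℕ) {c : ℝ} (hc : 0 ≤ c) :
    ∑ k ∈ Finset.range K, (if k + 1 < N then c else 0) ≤ N * c := by
  rw [← Finset.sum_filter, Finset.sum_const, nsmul_eq_mul]
  refine mul_le_mul_of_nonneg_right ?_ hc
  have : ((Finset.range K).filter fun k => k + 1 < N) ⊆ Finset.range N := by
    intro k hk
    rw [Finset.mem_filter] at hk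
    rw [Finset.mem_range]
    omega
  have h2 := Finset.card_le_card this
  rw [Finset.card_range] at h2
  exact_mod_cast h2

/-- Lemma 10 with a constant.  Plan: `uw_sum_win`;  labels `|j| < N`: `|D_j| ≤ |y_j - x_j| ≤ 2B` (`u3_Psi_lip`, `uw_creg_near`);  labels `|j| ≥ N`: `uw_D_le` with `R = |j|/(2ρ)`, `|y_j - x_j| ≤ 2 C₀ |j|^(1-χ)`,
`phi(R) ≤ C (1 + j²/(2ρL)²)^-α` (`uw_phi_bds`);  `uw_sum_pow` with `p = 2 - 2χ`, `b = 2ρ`. -/
theorem uw_init_C {ρ χ α σ : ℝ} (hρ : 0 < ρ) (hχ0 : 0 < χ) (hχ1 : χ < 1) (hα : 3 / 2 - χ < α) (hα1 : α < 1) (hσ : 0 < σ) (C₀ : ℝ) (J₀ : ℕ) :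
    ∃ C : ℝ, 0 < C ∧ ∀ L : ℝ, 1 ≤ L → ∀ (K : ℕ) (x y : Conf), CReg ρ χ C₀ J₀ x → CReg ρ χ C₀ J₀ y →
      uwCost L α (cPos K x) (cPos K y) ≤ C * L ^ (3 - 2 * χ + σ) := by
  obtain ⟨N, hN1, hNJ, hfar⟩ := uw_creg_far hρ hχ0 C₀ J₀
  obtain ⟨B, hB0, hnear⟩ := uw_creg_near (ρ := ρ) (χ := χ) C₀ J₀ N hNJ
  have hα0 : 0 < α := by linarith
  obtain ⟨c, Cφ, hc, hCφ, hφ⟩ := uw_phi_bds hα0 hα1
  obtain ⟨Cs, hCs, hsum⟩ := uw_sum_pow (p := 2 - 2 * χ) (α := α) (b := 2 * ρ) (σ := σ)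
    (by linarith) (by linarith) (by positivity) hσ
  refine ⟨4 * B ^ 2 + N * (8 * B ^ 2) + 8 * C₀ ^ 2 * Cφ * Cs + 1, by positivity,
    fun L hL K x y hx hy => ?_⟩
  have hL0 : 0 < L := by linarith
  set F : ℤ → ℝ := fun j => (uwPsi L α (y j) - uwPsi L α (x j)) ^ 2 with hF
  have hcost : uwCost L α (cPos K x) (cPos K y) = ∑ i : Win K, F (wIdx i) := rfl
  have hlip := u3_Psi_lip (uw_W hL0 hα0)
  -- near labels
  have hnr : ∀ j : ℤ, |j| ≤ (N : ℤ) → F j ≤ 4 * B ^ 2 := by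
    intro j hj
    have h1 := hlip.dist_le_mul (y j) (x j)
    rw [Real.dist_eq, Real.dist_eq, NNReal.coe_one, one_mul] at h1
    have h2 := hnear x hx j hj
    have h3 := hnear y hy j hj
    have h4 : |y j - x j| ≤ 2 * B := (abs_sub _ _).trans (by linarith)
    have h5 : |uwPsi L α (y j) - uwPsi L α (x j)| ≤ 2 * B := h1.trans h4
    have h6 := sq_le_sq' (by linarith [(abs_le.mp h5).1]) (abs_le.mp h5).2
    simp only [hF]
    nlinarith
  -- far labels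
  have hfr : ∀ j : ℤ, (N : ℤ) ≤ |j| → F j ≤ 4 * C₀ ^ 2 * Cφ *
      (|(j : ℝ)| ^ (2 - 2 * χ) * (1 + |(j : ℝ)| ^ 2 / (2 * ρ * L) ^ 2) ^ (-α)) := by
    intro j hj
    obtain ⟨x1, x2, x3, x4, x5⟩ := hfar x hx j hj
    obtain ⟨y1, y2, y3, y4, y5⟩ := hfar y hy j hj
    set t : ℝ := |(j : ℝ)| with ht
    have ht0 : 0 ≤ t := abs_nonneg _
    have hR : 0 ≤ t / (2 * ρ) := by positivity
    have hcase : (t / (2 * ρ) ≤ x j ∧ t / (2 * ρ) ≤ y j) ∨ (x j ≤ -(t / (2 * ρ)) ∧ y j ≤ -(t / (2 * ρ))) := by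
      rcases lt_trichotomy j 0 with hj0 | hj0 | hj0
      · right
        have : t = -(j : ℝ) := abs_of_neg (by exact_mod_cast hj0)
        rw [this, neg_div, neg_neg]
        exact ⟨x5 hj0, y5 hj0⟩
      · exfalso
        rw [hj0] at hj
        simp at hj
        omega
      · left
        have : t = (j : ℝ) := abs_of_pos (by exact_mod_cast hj0)
        rw [this]
        exact ⟨x4 hj0, y4 hj0⟩
    have h1 := uw_D_le hL0 hα0 hR hcase
    have h2 : |y j - x j| ≤ 2 * (C₀ * t ^ (1 - χ)) := by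
      have : y j - x j = (y j - j / ρ) - (x j - j / ρ) := by ring
      rw [this]
      exact (abs_sub _ _).trans (by linarith)
    have h3 := (hφ L hL0 (t / (2 * ρ))).2
    have hφ0 : 0 ≤ uwPhi L α (t / (2 * ρ)) := (uw_phi_pos hL0 hα0 _).le
    have h4 : F j ≤ (|y j - x j| * Real.sqrt (uwPhi L α (t / (2 * ρ)))) ^ 2 := by
      simp only [hF]
      rw [← sq_abs]
      exact pow_le_pow_left₀ (abs_nonneg _) h1 2
    rw [mul_pow, Real.sq_sqrt hφ0] at h4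
    have h5 : |y j - x j| ^ 2 ≤ 4 * C₀ ^ 2 * t ^ (2 - 2 * χ) := by
      have h6 := pow_le_pow_left₀ (abs_nonneg _) h2 2
      have h7 : (t ^ (1 - χ)) ^ 2 = t ^ (2 - 2 * χ) := by
        rw [← Real.rpow_natCast, ← Real.rpow_mul ht0]
        congr 1
        push_cast
        ring
      calc |y j - x j| ^ 2 ≤ (2 * (C₀ * t ^ (1 - χ))) ^ 2 := h6
        _ = 4 * C₀ ^ 2 * (t ^ (1 - χ)) ^ 2 := by ring
        _ = _ := by rw [h7]
    have e1 : (t / (2 * ρ)) ^ 2 / L ^ 2 = t ^ 2 / (2 * ρ * L) ^ 2 := by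
      rw [div_pow, div_div, ← mul_pow]
    rw [e1] at h3
    calc F j ≤ |y j - x j| ^ 2 * uwPhi L α (t / (2 * ρ)) := h4
      _ ≤ (4 * C₀ ^ 2 * t ^ (2 - 2 * χ)) * (Cφ * (1 + t ^ 2 / (2 * ρ * L) ^ 2) ^ (-α)) :=
          mul_le_mul h5 h3 hφ0 (by positivity)
      _ = _ := by ring
  -- the terms of the symmetric sum
  have hterm : ∀ k : ℕ, F ((k : ℤ) + 1) + F (-((k : ℤ) + 1)) ≤ (if k + 1 < N then 8 * B ^ 2 else 0)
      + 8 * C₀ ^ 2 * Cφ * (((k : ℝ) + 1) ^ (2 - 2 * χ) * (1 + ((k : ℝ) + 1) ^ 2 / (2 * ρ * L) ^ 2) ^ (-α)) := by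
    intro k
    have a1 : |((k : ℤ) + 1)| = (k : ℤ) + 1 := abs_of_nonneg (by positivity)
    have a2 : |(-((k : ℤ) + 1))| = (k : ℤ) + 1 := by rw [abs_neg, a1]
    have b1 : |((((k : ℤ) + 1 : ℤ)) : ℝ)| = (k : ℝ) + 1 := by
      push_cast
      exact abs_of_nonneg (by positivity)
    have b2 : |(((-((k : ℤ) + 1) : ℤ)) : ℝ)| = (k : ℝ) + 1 := by
      push_cast
      rw [abs_neg]
      exact abs_of_nonneg (by positivity)
    have hnn : 0 ≤ 8 * C₀ ^ 2 * Cφ * (((k : ℝ) + 1) ^ (2 - 2 * χ) * (1 + ((k : ℝ) + 1) ^ 2 / (2 * ρ * L) ^ 2) ^ (-α)) := by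
      positivity
    by_cases hk : k + 1 < N
    · rw [if_pos hk]
      have h1 := hnr ((k : ℤ) + 1) (by rw [a1]; exact_mod_cast hk.le)
      have h2 := hnr (-((k : ℤ) + 1)) (by rw [a2]; exact_mod_cast hk.le)
      linarith
    · rw [if_neg hk]
      have hk' : (N : ℤ) ≤ (k : ℤ) + 1 := by exact_mod_cast not_lt.mp hk
      have h1 := hfr ((k : ℤ) + 1) (by rw [a1]; exact hk')
      have h2 := hfr (-((k : ℤ) + 1)) (by rw [a2]; exact hk')
      rw [b1] at h1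
      rw [b2] at h2
      linarith
  have hpow : (1 : ℝ) ≤ L ^ (3 - 2 * χ + σ) := Real.one_le_rpow hL (by linarith)
  have hs := hsum L hL K
  have e3 : (1 : ℝ) + (2 - 2 * χ) + σ = 3 - 2 * χ + σ := by ring
  rw [e3] at hs
  rw [hcost, uw_sum_win]
  calc F 0 + ∑ k ∈ Finset.range K, (F ((k : ℤ) + 1) + F (-((k : ℤ) + 1)))
      ≤ 4 * B ^ 2 + ∑ k ∈ Finset.range K, ((if k + 1 < N then 8 * B ^ 2 else 0)
          + 8 * C₀ ^ 2 * Cφ * (((k : ℝ) + 1) ^ (2 - 2 * χ) * (1 + ((k : ℝ) + 1) ^ 2 / (2 * ρ * L) ^ 2) ^ (-α))) :=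
        add_le_add (hnr 0 (by simp)) (Finset.sum_le_sum fun k _ => hterm k)
    _ ≤ 4 * B ^ 2 + (N * (8 * B ^ 2) + 8 * C₀ ^ 2 * Cφ * (Cs * L ^ (3 - 2 * χ + σ))) := by
        rw [Finset.sum_add_distrib, ← Finset.mul_sum]
        refine add_le_add le_rfl (add_le_add (uw_sum_ite_le K N (by positivity)) ?_)
        exact mul_le_mul_of_nonneg_left hs (by positivity)
    _ ≤ (4 * B ^ 2 + N * (8 * B ^ 2) + 8 * C₀ ^ 2 * Cφ * Cs + 1) * L ^ (3 - 2 * χ + σ) := by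
        have h0 : 0 ≤ 4 * B ^ 2 + N * (8 * B ^ 2) := by positivity
        nlinarith

/-- **EXIT Lemma 10** `= u3t_init`.  Plan: `uw_init_C` with `σ = ε/4`;  `C ≤ L^(ε/4)` for `L` large (`tendsto_rpow_atTop`). -/
theorem uw_init (ρ : ℝ) (hρ : 0 < ρ) (P : U3Exp) (C₀ : ℝ) (J₀ : ℕ) :
    ∃ L₀ : ℝ, ∀ L : ℝ, L₀ ≤ L → ∀ (K : ℕ) (x y : Conf), CReg ρ P.χ C₀ J₀ x → CReg ρ P.χ C₀ J₀ y →
      uwCost L P.α (cPos K x) (cPos K y) ≤ L ^ (3 - 2 * P.χ + P.ε / 2) := by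
  have hε := P.hε
  obtain ⟨C, hC, h⟩ := uw_init_C hρ (by linarith [P.hχ]) P.hχ1 P.hα P.hα1
    (show 0 < P.ε / 4 by linarith) C₀ J₀
  obtain ⟨L₁, hL₁⟩ := eventually_atTop.1
    ((tendsto_rpow_atTop (show 0 < P.ε / 4 by linarith)).eventually_ge_atTop C)
  refine ⟨max 1 L₁, fun L hL K x y hx hy => ?_⟩
  have hL1 : 1 ≤ L := (le_max_left _ _).trans hL
  have hL0 : 0 < L := by linarith
  have h1 := h L hL1 K x y hx hy
  have h2 : C ≤ L ^ (P.ε / 4) := hL₁ L ((le_max_right _ _).trans hL)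
  calc uwCost L P.α (cPos K x) (cPos K y) ≤ C * L ^ (3 - 2 * P.χ + P.ε / 4) := h1
    _ ≤ L ^ (P.ε / 4) * L ^ (3 - 2 * P.χ + P.ε / 4) :=
        mul_le_mul_of_nonneg_right h2 (by positivity)
    _ = L ^ (3 - 2 * P.χ + P.ε / 2) := by
        rw [← Real.rpow_add hL0]
        congr 1
        ring

/-! ## 9. Lemma 9: the Stieltjes sums of the initial data above the height `L` -/

/-- the paired term: `1/(a - ζ) + 1/(b - ζ) = (a + b - 2ζ)/((a - ζ)(b - ζ))`, so its norm is `≤ (|a + b| + 2|ζ|)/(|a - ζ||b - ζ|)` -/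
theorem uw_pair_le (a b : ℝ) {ζ : ℂ} (hζ : 0 < ζ.im) :
    ‖((a : ℂ) - ζ)⁻¹ + ((b : ℂ) - ζ)⁻¹‖ ≤ (|a + b| + 2 * ‖ζ‖) / (‖(a : ℂ) - ζ‖ * ‖(b : ℂ) - ζ‖) := by
  have ha : (a : ℂ) - ζ ≠ 0 := by
    intro h
    have := congrArg Complex.im h
    simp at this
    linarith
  have hb : (b : ℂ) - ζ ≠ 0 := by
    intro h
    have := congrArg Complex.im h
    simp at this
    linarith
  have e : ((a : ℂ) - ζ)⁻¹ + ((b : ℂ) - ζ)⁻¹ = (((a + b : ℝ) : ℂ) - 2 * ζ) / (((a : ℂ) - ζ) * ((b : ℂ) - ζ)) := by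
    field_simp
    push_cast
    ring
  rw [e, norm_div, norm_mul]
  refine div_le_div_of_nonneg_right ?_ (by positivity)
  refine (norm_sub_le _ _).trans ?_
  rw [Complex.norm_real, Real.norm_eq_abs, norm_mul]
  simp

/-- the three regimes of a paired term, `n = k+1`, `u = Im ζ`, `‖ζ‖ ≤ 6u`:   always `≤ 2/u`;   `n ≥ N`: `≤ (2 C₀ n^(1-χ) + 12 u)/u²`;   `n ≥ N`, `n ≥ 24 ρ u`: `≤ 16 ρ² (2 C₀ n^(1-χ) + 12 u)/n²`. -/
theorem uw_pair_reg {ρ χ C₀ : ℝ} {N : ℕ} {x : Conf} (hρ : 0 < ρ)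
    (hN : ∀ j : ℤ, (N : ℤ) ≤ |j| → |x j - j / ρ| ≤ C₀ * |(j : ℝ)| ^ (1 - χ) ∧ |(j : ℝ)| / (2 * ρ) ≤ |x j|)
    {ζ : ℂ} (hζ : 0 < ζ.im) (hζ6 : ‖ζ‖ ≤ 6 * ζ.im) (k : ℕ) :
    ‖((x ((k : ℤ) + 1) : ℂ) - ζ)⁻¹ + ((x (-((k : ℤ) + 1)) : ℂ) - ζ)⁻¹‖ ≤ 2 / ζ.im ∧
    (N ≤ k + 1 → ‖((x ((k : ℤ) + 1) : ℂ) - ζ)⁻¹ + ((x (-((k : ℤ) + 1)) : ℂ) - ζ)⁻¹‖
        ≤ (2 * C₀ * ((k : ℝ) + 1) ^ (1 - χ) + 12 * ζ.im) / ζ.im ^ 2) ∧
    (N ≤ k + 1 → 24 * ρ * ζ.im ≤ (k : ℝ) + 1 → ‖((x ((k : ℤ) + 1) : ℂ) - ζ)⁻¹ + ((x (-((k : ℤ) + 1)) : ℂ) - ζ)⁻¹‖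
        ≤ 16 * ρ ^ 2 * (2 * C₀ * ((k : ℝ) + 1) ^ (1 - χ) + 12 * ζ.im) / ((k : ℝ) + 1) ^ 2) := by
  set a : ℝ := x ((k : ℤ) + 1) with ha
  set b : ℝ := x (-((k : ℤ) + 1)) with hb
  set u : ℝ := ζ.im with hu
  set n : ℝ := (k : ℝ) + 1 with hn
  have hn0 : 0 < n := by positivity
  have hlow : ∀ c : ℝ, u ≤ ‖(c : ℂ) - ζ‖ := by
    intro c
    have h := Complex.abs_im_le_norm ((c : ℂ) - ζ)
    simp only [Complex.sub_im, Complex.ofReal_im, zero_sub, abs_neg] at h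
    exact (le_abs_self _).trans h
  have hnum : N ≤ k + 1 → |a + b| ≤ 2 * C₀ * n ^ (1 - χ) ∧ n / (2 * ρ) ≤ |a| ∧ n / (2 * ρ) ≤ |b| := by
    intro hk
    have hk' : (N : ℤ) ≤ (k : ℤ) + 1 := by exact_mod_cast hk
    have a1 : |((k : ℤ) + 1)| = (k : ℤ) + 1 := abs_of_nonneg (by positivity)
    have a2 : |(-((k : ℤ) + 1))| = (k : ℤ) + 1 := by rw [abs_neg, a1]
    have b1 : |((((k : ℤ) + 1 : ℤ)) : ℝ)| = n := by
      push_cast
      exact abs_of_nonneg (by positivity)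
    have b2 : |(((-((k : ℤ) + 1) : ℤ)) : ℝ)| = n := by
      push_cast
      rw [abs_neg]
      exact abs_of_nonneg (by positivity)
    obtain ⟨p1, p2⟩ := hN ((k : ℤ) + 1) (by rw [a1]; exact hk')
    obtain ⟨q1, q2⟩ := hN (-((k : ℤ) + 1)) (by rw [a2]; exact hk')
    rw [b1] at p1 p2
    rw [b2] at q1 q2
    refine ⟨?_, p2, q2⟩
    push_cast at p1 q1
    have e : a + b = (a - ((k : ℝ) + 1) / ρ) + (b - -((k : ℝ) + 1) / ρ) := by ring
    rw [e]
    exact (abs_add_le _ _).trans (by linarith)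
  refine ⟨?_, ?_, ?_⟩
  · refine (norm_add_le _ _).trans ?_
    rw [norm_inv, norm_inv]
    have h1 : ‖(a : ℂ) - ζ‖⁻¹ ≤ u⁻¹ := inv_anti₀ hζ (hlow a)
    have h2 : ‖(b : ℂ) - ζ‖⁻¹ ≤ u⁻¹ := inv_anti₀ hζ (hlow b)
    have : 2 / u = u⁻¹ + u⁻¹ := by ring
    rw [this]
    exact add_le_add h1 h2
  · intro hk
    obtain ⟨h1, -, -⟩ := hnum hk
    refine (uw_pair_le a b hζ).trans ?_
    have h0 : 0 ≤ |a + b| := abs_nonneg _
    refine div_le_div₀ (by linarith [norm_nonneg ζ]) (by linarith) (by positivity) ?_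
    rw [sq]
    exact mul_le_mul (hlow a) (hlow b) hζ.le (norm_nonneg _)
  · intro hk hbig
    obtain ⟨h1, h2, h3⟩ := hnum hk
    refine (uw_pair_le a b hζ).trans ?_
    have h0 : 0 ≤ |a + b| := abs_nonneg _
    have hq : n / (4 * ρ) ≤ n / (2 * ρ) - 6 * u := by
      have e1 : n / (2 * ρ) = 2 * (n / (4 * ρ)) := by field_simp; ring
      have e2 : 6 * u ≤ n / (4 * ρ) := by
        rw [le_div_iff₀ (by positivity)]
        linarith
      linarith
    have hfar : ∀ c : ℝ, n / (2 * ρ) ≤ |c| → n / (4 * ρ) ≤ ‖(c : ℂ) - ζ‖ := by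
      intro c hc
      have h4 := norm_sub_norm_le (c : ℂ) ζ
      rw [Complex.norm_real, Real.norm_eq_abs] at h4
      linarith
    have e3 : 16 * ρ ^ 2 * (2 * C₀ * n ^ (1 - χ) + 12 * u) / n ^ 2
        = (2 * C₀ * n ^ (1 - χ) + 12 * u) / (n / (4 * ρ) * (n / (4 * ρ))) := by
      field_simp
      ring
    rw [e3]
    refine div_le_div₀ (by linarith [norm_nonneg ζ]) (by linarith) (by positivity) ?_
    exact mul_le_mul (hfar a h2) (hfar b h3) (by positivity) (norm_nonneg _)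

/-- at most `m` labels below `m` -/
theorem uw_sum_lt_le (K : ℕ) {m c : ℝ} (hm : 0 ≤ m) (hc : 0 ≤ c) :
    ∑ k ∈ Finset.range K, (if (k : ℝ) + 1 < m then c else 0) ≤ m * c := by
  rw [← Finset.sum_filter, Finset.sum_const, nsmul_eq_mul]
  refine mul_le_mul_of_nonneg_right ?_ hc
  have : ((Finset.range K).filter fun k : ℕ => (k : ℝ) + 1 < m) ⊆ Finset.range ⌊m⌋₊ := by
    intro k hk
    rw [Finset.mem_filter] at hk
    rw [Finset.mem_range]
    have h1 : k + 1 ≤ ⌊m⌋₊ := Nat.le_floor (by push_cast; exact hk.2.le)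
    omega
  have h2 := Finset.card_le_card this
  rw [Finset.card_range] at h2
  calc ((((Finset.range K).filter fun k : ℕ => (k : ℝ) + 1 < m).card : ℕ) : ℝ) ≤ (⌊m⌋₊ : ℝ) := by
        exact_mod_cast h2
    _ ≤ m := Nat.floor_le hm

/-- tail of `∑ 1/n²` -/
theorem uw_sum_tail_le (K : ℕ) {m : ℝ} (hm : 0 < m) :
    ∑ k ∈ Finset.range K, (if m ≤ (k : ℝ) + 1 then (((k : ℝ) + 1) ^ 2)⁻¹ else 0) ≤ 2 / m := by
  rw [← Finset.sum_filter]
  set M : ℕ := ⌈m⌉₊ with hM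
  have hM1 : 1 ≤ M := Nat.one_le_ceil_iff.mpr hm
  have e1 : ∑ k ∈ (Finset.range K).filter (fun k : ℕ => m ≤ (k : ℝ) + 1), (((k : ℝ) + 1) ^ 2)⁻¹
      = ∑ i ∈ ((Finset.range K).filter (fun k : ℕ => m ≤ (k : ℝ) + 1)).image (fun k => k + 1),
          (((i : ℕ) : ℝ) ^ 2)⁻¹ := by
    rw [Finset.sum_image (fun a _ b _ h => by simpa using h)]
    refine Finset.sum_congr rfl fun k _ => ?_
    push_cast
    rfl
  rw [e1]
  have hsub : ((Finset.range K).filter (fun k : ℕ => m ≤ (k : ℝ) + 1)).image (fun k => k + 1)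
      ⊆ Finset.Ioo (M - 1) (K + 1) := by
    intro i hi
    rw [Finset.mem_image] at hi
    obtain ⟨k, hk, rfl⟩ := hi
    rw [Finset.mem_filter, Finset.mem_range] at hk
    rw [Finset.mem_Ioo]
    have h1 : M ≤ k + 1 := Nat.ceil_le.mpr (by push_cast; exact hk.2)
    omega
  refine (Finset.sum_le_sum_of_subset_of_nonneg hsub fun i _ _ => by positivity).trans ?_
  refine (sum_Ioo_inv_sq_le (α := ℝ) (M - 1) (K + 1)).trans ?_
  have e2 : (((M - 1 : ℕ) : ℝ) + 1) = (M : ℝ) := by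
    have : M - 1 + 1 = M := Nat.sub_add_cancel hM1
    exact_mod_cast this
  rw [e2]
  exact div_le_div_of_nonneg_left (by norm_num) hm (Nat.le_ceil m)

/-- **the sum of Lemma 9** (real numbers only).  `g k` = the minimum of the three bounds.  Plan: `k+1 < N`: `≤ 2N/u`;   `N ≤ k+1 < 24ρu`: at most `24ρu` terms, each `≤ (2 C₀ (24ρu)^(1-χ) + 12u)/u²`: total `288ρ + C u^-χ`;
`k+1 ≥ 24ρu`: `192 ρ² u ∑ 1/n² ≤ 192 ρ² u · 2/(24ρu) = 16ρ` (`sum_Ioo_inv_sq_le` or `1/n² ≤ 1/(n-1) - 1/n`).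
The `C₀`-part needs no splitting: POINTWISE `|C₀| n^(1-χ) min(1/u², 16ρ²/n²) ≤ C u^(-χ/2) n^(-1-χ/2)`, then `Real.summable_nat_rpow_inv`. -/
theorem uw_far_sum {ρ χ : ℝ} (hρ : 0 < ρ) (hχ0 : 0 < χ) (hχ1 : χ < 1) (C₀ : ℝ) (N : ℕ) :
    ∃ u₀ : ℝ, 1 ≤ u₀ ∧ ∀ u : ℝ, u₀ ≤ u → ∀ (K : ℕ) (g : ℕ → ℝ), (∀ k, g k ≤ 2 / u) →
      (∀ k, N ≤ k + 1 → g k ≤ (2 * C₀ * ((k : ℝ) + 1) ^ (1 - χ) + 12 * u) / u ^ 2) →
      (∀ k, N ≤ k + 1 → 24 * ρ * u ≤ (k : ℝ) + 1 → g k ≤ 16 * ρ ^ 2 * (2 * C₀ * ((k : ℝ) + 1) ^ (1 - χ) + 12 * u) / ((k : ℝ) + 1) ^ 2) →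
      ∑ k ∈ Finset.range K, g k ≤ 304 * ρ + 2 := by
  have hsum : Summable fun k : ℕ => ((k : ℝ) + 1) ^ (-(1 + χ / 2)) := by
    have h := (Real.summable_nat_rpow (p := -(1 + χ / 2))).mpr (by linarith)
    have h2 := (summable_nat_add_iff 1).mpr h
    refine h2.congr fun k => ?_
    push_cast
    rfl
  set S : ℝ := ∑' k : ℕ, ((k : ℝ) + 1) ^ (-(1 + χ / 2)) with hS
  have hS0 : 0 ≤ S := tsum_nonneg fun k => by positivity
  set c1 : ℝ := (24 * ρ) ^ (2 - χ / 2) with hc1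
  set c2 : ℝ := 16 * ρ ^ 2 * (24 * ρ) ^ (-(χ / 2)) with hc2
  have hc1p : 0 ≤ c1 := by positivity
  have hc2p : 0 ≤ c2 := by positivity
  set Cc : ℝ := 2 * |C₀| * (c1 + c2) with hCc
  have hCc0 : 0 ≤ Cc := by positivity
  obtain ⟨u₁, hu₁⟩ := eventually_atTop.1
    ((tendsto_rpow_atTop (show 0 < χ / 2 by linarith)).eventually_ge_atTop (Cc * S))
  refine ⟨max 1 (max (2 * N) u₁), le_max_left _ _, fun u hu K g g1 g2 g3 => ?_⟩
  have hu1 : 1 ≤ u := (le_max_left _ _).trans hu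
  have hu0 : 0 < u := by linarith
  have huN : 2 * (N : ℝ) ≤ u := ((le_max_left _ _).trans (le_max_right _ _)).trans hu
  have huS : Cc * S ≤ u ^ (χ / 2) := hu₁ u (((le_max_right _ _).trans (le_max_right _ _)).trans hu)
  set m : ℝ := 24 * ρ * u with hm
  have hm0 : 0 < m := by positivity
  have hC : ∀ t : ℝ, 0 ≤ t → C₀ * t ≤ |C₀| * t := fun t ht =>
    mul_le_mul_of_nonneg_right (le_abs_self _) ht
  -- pointwise
  have hpt : ∀ k : ℕ, g k ≤ (if k + 1 < N then 2 / u else 0) + (if (k : ℝ) + 1 < m then 12 / u else 0)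
      + 192 * ρ ^ 2 * u * (if m ≤ (k : ℝ) + 1 then (((k : ℝ) + 1) ^ 2)⁻¹ else 0)
      + Cc * u ^ (-(χ / 2)) * ((k : ℝ) + 1) ^ (-(1 + χ / 2)) := by
    intro k
    set n : ℝ := (k : ℝ) + 1 with hn
    have hn0 : 0 < n := by positivity
    have hE0 : 0 ≤ Cc * u ^ (-(χ / 2)) * n ^ (-(1 + χ / 2)) := by positivity
    have hB0 : 0 ≤ (if n < m then 12 / u else 0) := by split_ifs <;> positivity
    have hD0 : 0 ≤ 192 * ρ ^ 2 * u * (if m ≤ n then (n ^ 2)⁻¹ else 0) := by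
      split_ifs <;> positivity
    by_cases hk : k + 1 < N
    · rw [if_pos hk]
      linarith [g1 k]
    · rw [if_neg hk]
      have hk' : N ≤ k + 1 := not_lt.mp hk
      by_cases hnm : n < m
      · rw [if_pos hnm, if_neg (not_le.mpr hnm)]
        have h1 := g2 k hk'
        have h2 : n ^ (1 - χ) / u ^ 2 ≤ c1 * u ^ (-(χ / 2)) * n ^ (-(1 + χ / 2)) := by
          have e1 : n ^ (1 - χ) = n ^ (-(1 + χ / 2)) * n ^ (2 - χ / 2) := by
            rw [← Real.rpow_add hn0]; congr 1; ring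
          have e2 : n ^ (2 - χ / 2) ≤ m ^ (2 - χ / 2) :=
            Real.rpow_le_rpow hn0.le hnm.le (by linarith)
          have e3 : m ^ (2 - χ / 2) = c1 * (u ^ (-(χ / 2)) * u ^ 2) := by
            rw [hm, Real.mul_rpow (by positivity) hu0.le, hc1]
            congr 1
            rw [← Real.rpow_natCast u 2, ← Real.rpow_add hu0]
            congr 1
            push_cast
            ring
          rw [div_le_iff₀ (by positivity), e1]
          calc n ^ (-(1 + χ / 2)) * n ^ (2 - χ / 2) ≤ n ^ (-(1 + χ / 2)) * m ^ (2 - χ / 2) :=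
                mul_le_mul_of_nonneg_left e2 (by positivity)
            _ = c1 * u ^ (-(χ / 2)) * n ^ (-(1 + χ / 2)) * u ^ 2 := by rw [e3]; ring
        have h3 : (2 * C₀ * n ^ (1 - χ) + 12 * u) / u ^ 2
            = 2 * (C₀ * (n ^ (1 - χ) / u ^ 2)) + 12 / u := by
          field_simp
        have h4 := hC (n ^ (1 - χ) / u ^ 2) (by positivity)
        have h5 : |C₀| * (n ^ (1 - χ) / u ^ 2) ≤ |C₀| * (c1 * u ^ (-(χ / 2)) * n ^ (-(1 + χ / 2))) :=
          mul_le_mul_of_nonneg_left h2 (abs_nonneg _)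
        have h6 : 2 * (|C₀| * (c1 * u ^ (-(χ / 2)) * n ^ (-(1 + χ / 2))))
            ≤ Cc * u ^ (-(χ / 2)) * n ^ (-(1 + χ / 2)) := by
          have : 0 ≤ 2 * |C₀| * c2 * (u ^ (-(χ / 2)) * n ^ (-(1 + χ / 2))) := by positivity
          rw [hCc]
          nlinarith
        rw [h3] at h1
        linarith
      · have hmn : m ≤ n := not_lt.mp hnm
        rw [if_neg hnm, if_pos hmn]
        have h1 := g3 k hk' hmn
        have h2 : 16 * ρ ^ 2 * (n ^ (1 - χ) / n ^ 2) ≤ c2 * u ^ (-(χ / 2)) * n ^ (-(1 + χ / 2)) := by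
          have e1 : n ^ (1 - χ) / n ^ 2 = n ^ (-(1 + χ / 2)) * n ^ (-(χ / 2)) := by
            rw [← Real.rpow_natCast n 2, ← Real.rpow_sub hn0, ← Real.rpow_add hn0]
            congr 1
            push_cast
            ring
          have e2 : n ^ (-(χ / 2)) ≤ m ^ (-(χ / 2)) :=
            Real.rpow_le_rpow_of_nonpos hm0 hmn (by linarith)
          have e3 : m ^ (-(χ / 2)) = (24 * ρ) ^ (-(χ / 2)) * u ^ (-(χ / 2)) := by
            rw [hm, Real.mul_rpow (by positivity) hu0.le]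
          rw [e1]
          calc 16 * ρ ^ 2 * (n ^ (-(1 + χ / 2)) * n ^ (-(χ / 2)))
              ≤ 16 * ρ ^ 2 * (n ^ (-(1 + χ / 2)) * m ^ (-(χ / 2))) := by
                refine mul_le_mul_of_nonneg_left ?_ (by positivity)
                exact mul_le_mul_of_nonneg_left e2 (by positivity)
            _ = c2 * u ^ (-(χ / 2)) * n ^ (-(1 + χ / 2)) := by rw [e3, hc2]; ring
        have h3 : 16 * ρ ^ 2 * (2 * C₀ * n ^ (1 - χ) + 12 * u) / n ^ 2
            = 2 * (C₀ * (16 * ρ ^ 2 * (n ^ (1 - χ) / n ^ 2))) + 192 * ρ ^ 2 * u * (n ^ 2)⁻¹ := by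
          field_simp
          ring
        have h4 := hC (16 * ρ ^ 2 * (n ^ (1 - χ) / n ^ 2)) (by positivity)
        have h5 : |C₀| * (16 * ρ ^ 2 * (n ^ (1 - χ) / n ^ 2))
            ≤ |C₀| * (c2 * u ^ (-(χ / 2)) * n ^ (-(1 + χ / 2))) :=
          mul_le_mul_of_nonneg_left h2 (abs_nonneg _)
        have h6 : 2 * (|C₀| * (c2 * u ^ (-(χ / 2)) * n ^ (-(1 + χ / 2))))
            ≤ Cc * u ^ (-(χ / 2)) * n ^ (-(1 + χ / 2)) := by
          have : 0 ≤ 2 * |C₀| * c1 * (u ^ (-(χ / 2)) * n ^ (-(1 + χ / 2))) := by positivity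
          rw [hCc]
          nlinarith
        rw [h3] at h1
        linarith
  -- the four sums
  have sA : ∑ k ∈ Finset.range K, (if k + 1 < N then 2 / u else 0) ≤ 1 := by
    refine (uw_sum_ite_le K N (by positivity)).trans ?_
    rw [mul_div_assoc', div_le_one hu0]
    linarith
  have sB : ∑ k ∈ Finset.range K, (if (k : ℝ) + 1 < m then 12 / u else 0) ≤ 288 * ρ := by
    refine (uw_sum_lt_le K hm0.le (by positivity)).trans (le_of_eq ?_)
    rw [hm]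
    field_simp
    ring
  have sD : ∑ k ∈ Finset.range K, 192 * ρ ^ 2 * u * (if m ≤ (k : ℝ) + 1 then (((k : ℝ) + 1) ^ 2)⁻¹ else 0)
      ≤ 16 * ρ := by
    rw [← Finset.mul_sum]
    refine (mul_le_mul_of_nonneg_left (uw_sum_tail_le K hm0) (by positivity)).trans (le_of_eq ?_)
    rw [hm]
    field_simp
    ring
  have sE : ∑ k ∈ Finset.range K, Cc * u ^ (-(χ / 2)) * ((k : ℝ) + 1) ^ (-(1 + χ / 2)) ≤ 1 := by
    rw [← Finset.mul_sum]
    have h1 : ∑ k ∈ Finset.range K, ((k : ℝ) + 1) ^ (-(1 + χ / 2)) ≤ S :=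
      hsum.sum_le_tsum _ fun k _ => by positivity
    refine (mul_le_mul_of_nonneg_left h1 (by positivity)).trans ?_
    rw [Real.rpow_neg hu0.le]
    have h2 : 0 < u ^ (χ / 2) := by positivity
    calc Cc * (u ^ (χ / 2))⁻¹ * S = Cc * S / u ^ (χ / 2) := by ring
      _ ≤ 1 := (div_le_one h2).mpr huS
  calc ∑ k ∈ Finset.range K, g k ≤ ∑ k ∈ Finset.range K,
        ((if k + 1 < N then 2 / u else 0) + (if (k : ℝ) + 1 < m then 12 / u else 0)
      + 192 * ρ ^ 2 * u * (if m ≤ (k : ℝ) + 1 then (((k : ℝ) + 1) ^ 2)⁻¹ else 0)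
      + Cc * u ^ (-(χ / 2)) * ((k : ℝ) + 1) ^ (-(1 + χ / 2))) := Finset.sum_le_sum fun k _ => hpt k
    _ ≤ 304 * ρ + 2 := by
      rw [Finset.sum_add_distrib, Finset.sum_add_distrib, Finset.sum_add_distrib]
      linarith

/-- **EXIT Lemma 9** `= u3t_far0`, `C = 304ρ + 3`.  Plan: `uw_sum_win` for `F j = 1/(x_j - ζ)`, `‖F 0‖ ≤ 1/u ≤ 1`, `uw_creg_far`, `uw_pair_reg`, `uw_far_sum` with `u = Im ζ ≥ L`;  `‖ζ‖ ≤ |Re ζ| + Im ζ ≤ 6 Im ζ`. -/
theorem uw_far0 (ρ : ℝ) (hρ : 0 < ρ) : ∃ C : ℝ, 0 < C ∧ ∀ (χ : ℝ), 0 < χ → χ < 1 → ∀ (C₀ : ℝ) (J₀ : ℕ),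
    ∃ L₀ : ℝ, ∀ L : ℝ, L₀ ≤ L → ∀ (K : ℕ) (x : Conf), CReg ρ χ C₀ J₀ x → ∀ ζ : ℂ, L ≤ ζ.im → |ζ.re| ≤ 5 * L → ‖cSK K x ζ‖ ≤ C := by
  refine ⟨304 * ρ + 3, by positivity, fun χ hχ0 hχ1 C₀ J₀ => ?_⟩
  obtain ⟨N, hN1, hNJ, hfar⟩ := uw_creg_far hρ hχ0 C₀ J₀
  obtain ⟨u₀, hu₀, hs⟩ := uw_far_sum hρ hχ0 hχ1 C₀ N
  refine ⟨u₀, fun L hL K x hx ζ hζL hζr => ?_⟩
  have hu : u₀ ≤ ζ.im := hL.trans hζL
  have hζ : 0 < ζ.im := by linarith
  have hζ6 : ‖ζ‖ ≤ 6 * ζ.im := by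
    have h1 := Complex.norm_le_abs_re_add_abs_im ζ
    rw [abs_of_pos hζ] at h1
    linarith
  set F : ℤ → ℂ := fun j => (((x j : ℝ) : ℂ) - ζ)⁻¹ with hF
  have e0 : cSK K x ζ = ∑ i : Win K, F (wIdx i) := rfl
  rw [e0, uw_sum_win]
  have hreg := uw_pair_reg (χ := χ) (C₀ := C₀) (N := N) (x := x) hρ
    (fun j hj => ⟨(hfar x hx j hj).1, (hfar x hx j hj).2.2.1⟩) hζ hζ6
  have h0 : ‖F 0‖ ≤ 1 := by
    simp only [hF]
    rw [norm_inv]
    have h := Complex.abs_im_le_norm (((x 0 : ℝ) : ℂ) - ζ)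
    simp only [Complex.sub_im, Complex.ofReal_im, zero_sub, abs_neg] at h
    have h2 : 1 ≤ ‖((x 0 : ℝ) : ℂ) - ζ‖ := by
      have := le_abs_self ζ.im
      linarith
    exact inv_le_one_of_one_le₀ h2
  have h1 := hs ζ.im hu K (fun k => ‖F ((k : ℤ) + 1) + F (-((k : ℤ) + 1))‖)
    (fun k => (hreg k).1) (fun k => (hreg k).2.1) (fun k => (hreg k).2.2)
  calc ‖F 0 + ∑ k ∈ Finset.range K, (F ((k : ℤ) + 1) + F (-((k : ℤ) + 1)))‖
      ≤ ‖F 0‖ + ∑ k ∈ Finset.range K, ‖F ((k : ℤ) + 1) + F (-((k : ℤ) + 1))‖ :=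
        (norm_add_le _ _).trans (add_le_add le_rfl (norm_sum_le _ _))
    _ ≤ 304 * ρ + 3 := by linarith

end Claimed.Agent.R287
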