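-- KEEP
import Claimed.Agent.R287.Defs.U3
import Claimed.Agent.R287.B2Lim
import Claimed.Agent.R287.U3ND
import Claimed.Agent.R287.U3Good
import Claimed.Agent.R287.U3Site
import Claimed.Agent.R287.CtP
import Claimed.Agent.R287.U3Geo
import Claimed.Agent.R287.U3Init
import Claimed.Agent.R287.U3Core
import Claimed.Agent.R287.U3Wt
import Claimed.Agent.R287.U3Cmp

/-!
# Row 287 (S0534), unit U3 = node `b2_pair` of B2: INTERFACES OF THE SUB-UNITS + GLUE      (helper295; prefix `u3t_`, `ug_`)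

TEXT (complete written proof, all quantifiers): `git show origin/helper295:notes/R287/U3_295.md`.   Definitions: `R287/Defs/U3.lean`.
Exponents `P : U3Exp` (`chi > 1/2` rigidity, `alpha` tail of the weight, `kap`: `n = L^(1-kap)` steps, `eps`: lowest height `y = L^eps`).

SUB-UNITS (one owner each; the statements below are their EXITS; an owner replaces the `sorry` of his exit by a call to his own file, or tells helper295):
* `u3t_pos`            S2' (helper186): a.s. rigidity with every exponent `chi < min xi 1`;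
* `u3t_step_det`       D1 = Lemma 2 (helper251, `U3Core.lean`): the deterministic one-step inequality, for EVERY `N`;
* `u3t_geo_*`, `u3t_init`, `u3t_far0`   D0 + Lemmas 9, 10 (helper297, `U3Wt.lean`): concrete weights, geodesic, initial data;
* `u3t_W`              D2 = Lemmas 3, 4 (helper155, `U3Site.lean`): the weight is a supersolution, UNCONDITIONAL expectation;
* `u3t_reg`, `u3t_cnt` D3r = Lemmas 5, 6 (helper186, `U3Reg.lean`): regularity of the interpolated configuration;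
* `u3t_nd`             D4 = Lemma 7 (`U3ND.lean`): non-degeneracy;
* `u3t_cmp`            D7 = Lemma 11 in `b2Obs` form (helper197, `U3Cmp.lean`);
* `u3t_mar`            D6 = sec. 7 (g-far), (g-loc) (`U3Good.lean`);
* `ug_*`               D5 = killed chain bookkeeping (`U3Chain.lean`).
GLUE (helper295): `u3t_one_step` (from D0-D4), `u3t_pair` (= `b2_pair`).
-/

set_option autoImplicit false
open MeasureTheory ProbabilityTheory Matrix Filter Topology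
open scoped ENNReal

namespace Claimed.Agent.R287

/-! ## 0. Exponents and scales: `U3Exp`, `u3Y`, `u3Lam`, `u3N`, `u3S`, `u3A` are in `R287/Defs/U3.lean` sec. 5 (so that the files of the sub-units import `Defs/U3` only, and this file imports them) -/

/-! ## 1. EXITS of the sub-units -/

/-- **EXIT S2'** (helper186).  `LReg.tr` with exponent `xi` gives a.s. rigidity of the canonical labels with every exponent `chi < min xi 1`.
Plan: `ct_lreg_gap` (`CtP.lean`) at `j0 = 0` and `j0 + m = 0`, dyadic `L`, Borel-Cantelli;  `|x 0|, |x (-1)|` are finite and absorbed (`LReg.lab`, `LReg.pos`);  `Monotone x` from `LReg.pos`. -/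
theorem u3t_pos (ρ ξ χ : ℝ) (hρ : 0 < ρ) (hχ0 : 0 < χ) (hχξ : χ < ξ) (hχ1 : χ < 1) (μ : Measure Conf) [IsProbabilityMeasure μ]
    (hR : LReg ρ ξ μ) : ∀ᵐ x ∂μ, ∃ (C₀ : ℝ) (J₀ : ℕ), CReg ρ χ C₀ J₀ x := by
  have hR' : LReg ρ χ μ := by
    refine ⟨hR.pos, hR.lab, fun D => ?_⟩
    obtain ⟨C, u0, h⟩ := hR.tr D
    refine ⟨C, max u0 1, fun e u hu => le_trans (measure_mono ?_) (h e u ((le_max_left _ _).trans hu))⟩
    intro x hx
    have hu1 : 1 ≤ u := (le_max_right _ _).trans hu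
    exact lt_of_le_of_lt (Real.rpow_le_rpow_of_exponent_le hu1 (by linarith)) hx
  exact ct_lreg_creg hρ hχ0 hχ1 hR'

/-- LEAF.  `CReg` is a countable intersection of closed conditions on coordinates. -/
theorem u3t_A_meas (ρ χ C₀ : ℝ) (J₀ : ℕ) : MeasurableSet (u3A ρ χ C₀ J₀) := by
  have h1 : MeasurableSet {x : Conf | Monotone x} := by
    have : {x : Conf | Monotone x} = ⋂ (i : ℤ) (j : ℤ) (_ : i ≤ j), {x : Conf | x i ≤ x j} := by
      ext x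
      simp only [Set.mem_ofPred_eq, Set.mem_iInter]
      exact ⟨fun h i j hij => h hij, fun h i j hij => h i j hij⟩
    rw [this]
    exact MeasurableSet.iInter fun i => MeasurableSet.iInter fun j => MeasurableSet.iInter fun _ =>
      measurableSet_le (measurable_pi_apply i) (measurable_pi_apply j)
  have h2 : MeasurableSet {x : Conf | ∀ j : ℤ, (J₀ : ℤ) ≤ |j| → |x j - j / ρ| ≤ C₀ * |(j : ℝ)| ^ (1 - χ)} := by
    have : {x : Conf | ∀ j : ℤ, (J₀ : ℤ) ≤ |j| → |x j - j / ρ| ≤ C₀ * |(j : ℝ)| ^ (1 - χ)}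
        = ⋂ (j : ℤ) (_ : (J₀ : ℤ) ≤ |j|), {x : Conf | |x j - j / ρ| ≤ C₀ * |(j : ℝ)| ^ (1 - χ)} := by
      ext x
      simp only [Set.mem_ofPred_eq, Set.mem_iInter]
    rw [this]
    exact MeasurableSet.iInter fun j => MeasurableSet.iInter fun _ =>
      measurableSet_le (continuous_abs.measurable.comp ((measurable_pi_apply j).sub_const _)) measurable_const
  exact h1.inter h2

/-- LEAF.  `u3A` increases with `C0` and `J0`; continuity of the measure from below along `C0 = J0 = m`. -/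
theorem u3t_A_mass (ρ χ : ℝ) (μ₁ μ₂ : Measure Conf) [IsProbabilityMeasure μ₁] [IsProbabilityMeasure μ₂]
    (h₁ : ∀ᵐ x ∂μ₁, ∃ (C₀ : ℝ) (J₀ : ℕ), CReg ρ χ C₀ J₀ x) (h₂ : ∀ᵐ x ∂μ₂, ∃ (C₀ : ℝ) (J₀ : ℕ), CReg ρ χ C₀ J₀ x)
    (ε₀ : ℝ) (hε₀ : 0 < ε₀) :
    ∃ (C₀ : ℝ) (J₀ : ℕ), μ₁ (u3A ρ χ C₀ J₀)ᶜ ≤ ENNReal.ofReal ε₀ ∧ μ₂ (u3A ρ χ C₀ J₀)ᶜ ≤ ENNReal.ofReal ε₀ := by
  have hmono : ∀ {C C' : ℝ} {J J' : ℕ}, C ≤ C' → J ≤ J' → u3A ρ χ C J ⊆ u3A ρ χ C' J' := by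
    intro C C' J J' hC hJ x hx
    refine ⟨hx.1, fun j hj => (hx.2 j (le_trans (by exact_mod_cast hJ) hj)).trans ?_⟩
    exact mul_le_mul_of_nonneg_right hC (Real.rpow_nonneg (abs_nonneg _) _)
  have key : ∀ (μ : Measure Conf) [IsProbabilityMeasure μ], (∀ᵐ x ∂μ, ∃ (C₀ : ℝ) (J₀ : ℕ), CReg ρ χ C₀ J₀ x) →
      Tendsto (fun m : ℕ => μ (u3A ρ χ m m)ᶜ) atTop (𝓝 0) := by
    intro μ _ h
    have hanti : Antitone fun m : ℕ => (u3A ρ χ m m)ᶜ :=
      fun a b hab => Set.compl_subset_compl.2 (hmono (by exact_mod_cast hab) hab)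
    have h0 : μ (⋂ m : ℕ, (u3A ρ χ m m)ᶜ) = 0 := by
      refine measure_mono_null ?_ (ae_iff.1 h)
      intro x hx hcon
      obtain ⟨C₀, J₀, hC⟩ := hcon
      obtain ⟨m, hm⟩ := exists_nat_ge (max C₀ J₀)
      have hx' := Set.mem_iInter.1 hx m
      exact hx' (hmono ((le_max_left _ _).trans hm) (by exact_mod_cast (le_max_right _ _).trans hm) hC)
    have := tendsto_measure_iInter_atTop (μ := μ) (fun m : ℕ => (u3t_A_meas ρ χ (m : ℝ) m).compl.nullMeasurableSet) hanti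
      ⟨0, measure_ne_top _ _⟩
    rwa [h0] at this
  have e1 := ENNReal.tendsto_nhds_zero.1 (key μ₁ h₁) (ENNReal.ofReal ε₀) (ENNReal.ofReal_pos.2 hε₀)
  have e2 := ENNReal.tendsto_nhds_zero.1 (key μ₂ h₂) (ENNReal.ofReal ε₀) (ENNReal.ofReal_pos.2 hε₀)
  obtain ⟨m, hm1, hm2⟩ := (e1.and e2).exists
  exact ⟨m, m, hm1, hm2⟩

/-- **EXIT D1 = Lemma 2** (helper251).  Deterministic, for EVERY array `N`.  `hy`: on the core pairs both ends of `y'` are in `[-7L/8, 7L/8]`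
(so the geodesic is the segment there, `v = delta`, and the spectral parameter `x^a_j + i y` has `|Re| <= 7L/8`). -/
theorem u3t_step_det (L α y : ℝ) (hL : 0 < L) (hα0 : 0 < α) (hα1 : α < 1) (hy0 : 0 < y) {K : ℕ} (x y' : Dat K)
    (hy : ∀ j : Fin (2 * K), uwCore L x j → |y' j.castSucc| ≤ 7 * L / 8 ∧ |y' j.succ| ≤ 7 * L / 8)
    (N : Matrix (Win K) (Win K) ℝ) :
    uwCost L α (b2Step 1 x N) (b2Step 1 y' N) + ∫ a in (0 : ℝ)..1, uwDD L α y x y' a N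
      ≤ ∫ a in (0 : ℝ)..1, ∑ j, uwVel L α x y' a j ^ 2 * uwHat L α (wlM (uwGeo L α x y' a) 1 N) j :=
  u3g_step_det L α y hL hα0 hα1 hy0 x y' hy N

/-- **EXIT D0 (w5)** (helper297): `phi(x^a_j) (v^a_j)^2 = D_j^2`. -/
theorem u3t_geo_vel (L α : ℝ) (hL : 0 < L) (hα0 : 0 < α) (hα1 : α < 1) {J : Type} (x y' : J → ℝ) (a : ℝ) (j : J) :
    uwVel L α x y' a j ^ 2 * uwPhi L α (uwGeo L α x y' a j) = (uwPsi L α (y' j) - uwPsi L α (x j)) ^ 2 :=
  u3g_geo_vel L α hL hα0 hα1 x y' a j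

/-- **EXIT D0, continuity** (helper297): the three integrands of Lemma 2 are jointly continuous in `(a, N)` (resolvents at non-real spectral parameters, uniformly convergent series, `Psi^-1` continuous). -/
theorem u3t_geo_cont (L α y : ℝ) (hL : 0 < L) (hα0 : 0 < α) (hα1 : α < 1) (hy0 : 0 < y) {K : ℕ} (x y' : Dat K) :
    (Continuous fun q : ℝ × Matrix (Win K) (Win K) ℝ => uwDD L α y x y' q.1 q.2) ∧
    (∀ j, Continuous fun q : ℝ × Matrix (Win K) (Win K) ℝ => uwHat L α (wlM (uwGeo L α x y' q.1) 1 q.2) j) ∧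
    (∀ j, Continuous fun a : ℝ => uwVel L α x y' a j) :=
  u3g_geo_cont L α y hL hα0 hα1 hy0 x y'

/-- **EXIT Lemma 10** (helper297): initial cost, uniformly in `K`. -/
theorem u3t_init (ρ : ℝ) (hρ : 0 < ρ) (P : U3Exp) (C₀ : ℝ) (J₀ : ℕ) :
    ∃ L₀ : ℝ, ∀ L : ℝ, L₀ ≤ L → ∀ (K : ℕ) (x y : Conf), CReg ρ P.χ C₀ J₀ x → CReg ρ P.χ C₀ J₀ y →
      uwCost L P.α (cPos K x) (cPos K y) ≤ L ^ (3 - 2 * P.χ + P.ε / 2) :=
  u3i_init ρ hρ P C₀ J₀

/-- **EXIT Lemma 9** (helper297): the Stieltjes sums of the cut initial data are bounded above the height `L`, uniformly in `K`; the constant depends on `rho` only. -/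
theorem u3t_far0 (ρ : ℝ) (hρ : 0 < ρ) : ∃ C : ℝ, 0 < C ∧ ∀ (χ : ℝ), 0 < χ → χ < 1 → ∀ (C₀ : ℝ) (J₀ : ℕ),
    ∃ L₀ : ℝ, ∀ L : ℝ, L₀ ≤ L → ∀ (K : ℕ) (x : Conf), CReg ρ χ C₀ J₀ x → ∀ ζ : ℂ, L ≤ ζ.im → |ζ.re| ≤ 5 * L → ‖cSK K x ζ‖ ≤ C :=
  u3i_far0 ρ hρ

/-- **EXIT D2 = Lemma 4 (W)** (helper155): UNCONDITIONAL expectation, all sites, any finite index set. -/
theorem u3t_W (C₂ : ℝ) (hC₂ : 1 ≤ C₂) : ∃ C₃ L₀ : ℝ, 0 ≤ C₃ ∧ ∀ L : ℝ, L₀ ≤ L → ∀ α : ℝ, 0 < α → α < 1 →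
    ∀ (J : Type) [Fintype J] [DecidableEq J] (v : J → ℝ), WlReg v 0 L C₂ (2 * 1 * (C₂ + 1)) → ∀ j : J,
      ∫⁻ N, ENNReal.ofReal (uwHat L α (wlM v 1 N) j) ∂(gArr J J) ≤ ENNReal.ofReal ((1 + C₃ / L) * uwPhi L α (v j)) :=
  u3s_W C₂ hC₂

/-- **EXIT D3r = Lemmas 5, 6 (REG)** (helper186): what a good pair gives for the interpolated configuration `v = x^a`. -/
theorem u3t_reg (ρ : ℝ) (hρ : 0 < ρ) (P : U3Exp) (C₁ : ℝ) (hC₁ : 0 < C₁) : ∃ M C₅ L₀ : ℝ, 0 < M ∧ 0 < C₅ ∧ ∀ L : ℝ, L₀ ≤ L →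
    ∀ (K : ℕ) (p : Dat K × Dat K), p ∈ u3S P ρ C₁ L K →
      (∀ j : Fin (2 * K), uwCore L p.1 j → |p.2 j.castSucc| ≤ 7 * L / 8 ∧ |p.2 j.succ| ≤ 7 * L / 8) ∧
      ∀ a : ℝ, 0 ≤ a → a ≤ 1 →
        WlReg (uwGeo L P.α p.1 p.2 a) 0 L (3 * C₁ + 1) (2 * 1 * (3 * C₁ + 1 + 1)) ∧
        ∀ j : Fin (2 * K), uwCore L p.1 j →
          |uwGeo L P.α p.1 p.2 a j.castSucc| ≤ 7 * L / 8 ∧
          |uwGeo L P.α p.1 p.2 a j.succ - uwGeo L P.α p.1 p.2 a j.castSucc| ≤ M * u3Y P L ∧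
          WlReg (uwGeo L P.α p.1 p.2 a) (uwGeo L P.α p.1 p.2 a j.castSucc) (u3Y P L) (C₅ * Real.log L) (2 * 1 * (C₅ * Real.log L + 1)) := by
  have hα0 : 0 < P.α := by have := P.hα; have := P.hχ1; linarith
  obtain ⟨cs, cφ, -, -, hW⟩ := uw_rW hα0 P.hα1
  exact u3r_exit_reg ρ hρ P ⟨cs, cφ, hW⟩ C₁ hC₁

/-- **EXIT D4 = Lemma 7 (ND)**: non-degeneracy at the height `y = L^eps`; one-row Schur twice, `wl_main` with `C1 = C5 log L`, Chebyshev, anti-concentration of a Gaussian linear form. -/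
theorem u3t_nd (ε : ℝ) (hε : 0 < ε) (hε1 : ε < 1 / 15) (M C₅ : ℝ) (hM : 0 < M) (hC₅ : 0 < C₅) : ∃ L₀ : ℝ, ∀ L : ℝ, L₀ ≤ L →
    ∀ (J : Type) [Fintype J] [DecidableEq J] (v : J → ℝ) (j k : J), j ≠ k → |v j| ≤ 7 * L / 8 → |v k - v j| ≤ M * L ^ ε →
      WlReg v (v j) (L ^ ε) (C₅ * Real.log L) (2 * 1 * (C₅ * Real.log L + 1)) →
      ENNReal.ofReal (L ^ (-(4 * ε))) ≤ ∫⁻ N, ENNReal.ofReal (uwQ L (L ^ ε) (wlM v 1 N) j k (v j)) ∂(gArr J J) :=
  u3n_nd ε hε hε1 M C₅ hM hC₅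

/-- **EXIT D3r, counting form = Lemma 5 + (r0)** (helper186; consumer helper197): upper counting at scales `>= y`, no gap longer than `M y`, alignment of the two coordinates. -/
theorem u3t_cnt (ρ : ℝ) (hρ : 0 < ρ) (P : U3Exp) (C₁ : ℝ) (hC₁ : 0 < C₁) : ∃ M C L₀ : ℝ, 0 < M ∧ 0 < C ∧ ∀ L : ℝ, L₀ ≤ L →
    ∀ (K : ℕ) (p : Dat K × Dat K), p ∈ u3S P ρ C₁ L K →
      (∀ x ∈ ({p.1, p.2} : Set (Dat K)), ∀ a b : ℝ, -(4 * L) ≤ a → b ≤ 4 * L → u3Y P L ≤ b - a →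
        ((Finset.univ.filter fun i => a ≤ x i ∧ x i ≤ b).card : ℝ) ≤ C * (b - a)) ∧
      (∀ x ∈ ({p.1, p.2} : Set (Dat K)), ∀ a b : ℝ, -(3 * L) ≤ a → b ≤ 3 * L → M * u3Y P L ≤ b - a → ∃ i, a ≤ x i ∧ x i ≤ b) ∧
      (∀ i, |p.2 i - p.1 i| ≤ (L + |p.1 i|) / 64) ∧
      (∀ i, |p.1 i| ≤ L → |p.2 i - p.1 i| ≤ C * u3Lam P L) := by
  have hα0 : 0 < P.α := by have := P.hα; have := P.hχ1; linarith
  obtain ⟨cs, cφ, -, -, hW⟩ := uw_rW hα0 P.hα1
  exact u3r_exit_cnt ρ hρ P ⟨cs, cφ, hW⟩ C₁ hC₁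

/-- **EXIT D7 = Lemma 11** in `b2Obs` form (helper197): pathwise comparison of the window averaged Laplace observables on a good pair. -/
theorem u3t_cmp (ρ : ℝ) (hρ : 0 < ρ) (P : U3Exp) (C₁ : ℝ) (hC₁ : 0 < C₁) (h : ℝ → ℝ) (hc : Continuous h) (hs : HasCompactSupport h)
    (hn : ∀ t, 0 ≤ h t) (ε₁ : ℝ) (hε₁ : 0 < ε₁) : ∃ L₀ : ℝ, ∀ L : ℝ, L₀ ≤ L → ∀ (K : ℕ) (p : Dat K × Dat K), p ∈ u3S P ρ C₁ L K →
      |b2Obs h (L / 2) p.1 - b2Obs h (L / 2) p.2| ≤ ε₁ + L ^ (-1 + 9 * P.ε) * uwDis L p.1 p.2 :=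
  u3c_main ρ P C₁ h hc hs hn ε₁ hε₁ (u3t_cnt ρ hρ P C₁ hC₁)

/-- **EXIT D6**: the marginal part of goodness fails with probability `<= L^-3` at every time `t <= n`, for `K` large, when the start is regular.
`C1` depends on `rho` only.   (g-far): `u3t_far0` + `wl_main` with `D = t`, base height `L`, `p = ceil(8/kap)`, chain law (`b2l_Q_iter_fst`, `b2l_Q1_iter`);   (g-loc): `LStat` at `Delta = t` with a Lipschitz cutoff + `LReg.tr` at the height `y`, `D = ceil(5/eps)`;   sortedness: `b2Eig` is monotone, `CReg` at `t = 0`. -/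
theorem u3t_mar (ρ : ℝ) (hρ : 0 < ρ) : ∃ C₁ : ℝ, 0 < C₁ ∧ ∀ (ξ : ℝ), 0 < ξ → ∀ (P : U3Exp) (C₀ : ℝ) (J₀ : ℕ) (μ₁ μ₂ : Measure Conf)
    [IsProbabilityMeasure μ₁] [IsProbabilityMeasure μ₂], LReg ρ ξ μ₁ → LStat μ₁ → LReg ρ ξ μ₂ → LStat μ₂ →
    ∃ L₀ : ℝ, ∀ L : ℝ, L₀ ≤ L → ∀ᶠ K : ℕ in atTop, ∀ t : ℕ, t ≤ u3N P L →
      ugE (μ₁.restrict (u3A ρ P.χ C₀ J₀)) (μ₂.restrict (u3A ρ P.χ C₀ J₀)) K Set.univ t
        (Set.indicator {p | ¬ ugMar L (u3Y P L) (Real.pi * ρ / 4) C₁ p.1} 1) ≤ ENNReal.ofReal (L ^ (-3 : ℝ)) ∧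
      ugE (μ₁.restrict (u3A ρ P.χ C₀ J₀)) (μ₂.restrict (u3A ρ P.χ C₀ J₀)) K Set.univ t
        (Set.indicator {p | ¬ ugMar L (u3Y P L) (Real.pi * ρ / 4) C₁ p.2} 1) ≤ ENNReal.ofReal (L ^ (-3 : ℝ)) := by
  obtain ⟨C₁, hC₁, h⟩ := ugd_mar ρ hρ (u3t_far0 ρ hρ)
  refine ⟨C₁, hC₁, fun ξ hξ P C₀ J₀ μ₁ μ₂ _ _ hR₁ hI₁ hR₂ hI₂ => ?_⟩
  exact h ξ hξ P.χ P.κ P.ε (by linarith [P.hχ]) P.hχ1 P.hκ (by linarith [P.hb, P.hε, P.hχ1]) P.hε C₀ J₀ μ₁ μ₂ hR₁ hI₁ hR₂ hI₂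

/-! ## 2. The killed chain: bookkeeping (D5) -/

theorem ug_phi0_summable {α : ℝ} (hα : 0 < α) (L s : ℝ) :
    Summable fun m : ℕ => (4 : ℝ) ^ (-(α * m)) * ((2 ^ m * L) ^ 2 / (s ^ 2 + (2 ^ m * L) ^ 2)) := by
  have h1 : (4 : ℝ) ^ (-α) < 1 := Real.rpow_lt_one_of_one_lt_of_neg (by norm_num) (neg_lt_zero.2 hα)
  have h0 : (0 : ℝ) ≤ (4 : ℝ) ^ (-α) := by positivity
  refine Summable.of_nonneg_of_le (fun m => by positivity) (fun m => ?_) (summable_geometric_of_lt_one h0 h1)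
  have e : (4 : ℝ) ^ (-(α * m)) = ((4 : ℝ) ^ (-α)) ^ m := by
    rw [← Real.rpow_natCast, ← Real.rpow_mul (by norm_num)]
    congr 1
    ring
  rw [e]
  refine mul_le_of_le_one_right (by positivity) ?_
  exact div_le_one_of_le₀ (by nlinarith [sq_nonneg s]) (by positivity)

theorem ug_phi0_meas {α : ℝ} (hα : 0 < α) (L : ℝ) : Measurable (uwPhi0 L α) := by
  refine measurable_of_tendsto_metrizable
    (f := fun (n : ℕ) (s : ℝ) => ∑ m ∈ Finset.range n, (4 : ℝ) ^ (-(α * m)) * ((2 ^ m * L) ^ 2 / (s ^ 2 + (2 ^ m * L) ^ 2)))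
    (fun n => Finset.measurable_sum _ fun m _ => ?_) ?_
  · exact measurable_const.mul (measurable_const.div ((measurable_id.pow_const 2).add measurable_const))
  · rw [tendsto_pi_nhds]
    intro s
    exact (ug_phi0_summable hα L s).hasSum.tendsto_sum_nat

theorem ug_psi_cont {α : ℝ} (hα : 0 < α) (L : ℝ) : Continuous (uwPsi L α) := by
  have hm : Measurable fun r => Real.sqrt (uwPhi L α r) :=
    (measurable_const.min ((ug_phi0_meas hα L).div_const _)).sqrt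
  have hb : ∀ r, ‖Real.sqrt (uwPhi L α r)‖ ≤ 1 := fun r => by
    rw [Real.norm_eq_abs, abs_of_nonneg (Real.sqrt_nonneg _)]
    exact Real.sqrt_le_one.2 (min_le_left _ _)
  refine intervalIntegral.continuous_primitive (fun a b => ?_) 0
  rw [intervalIntegrable_iff]
  exact Measure.integrableOn_of_bounded (by simp) hm.aestronglyMeasurable (M := 1) (Filter.Eventually.of_forall hb)

theorem ug_cost_meas {α : ℝ} (hα : 0 < α) (L : ℝ) (K : ℕ) : Measurable fun p : Dat K × Dat K => uwCost L α p.1 p.2 := by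
  have hψ := (ug_psi_cont hα L).measurable
  unfold uwCost
  refine Finset.measurable_sum _ fun j _ => ?_
  exact ((hψ.comp ((measurable_pi_apply j).comp measurable_snd)).sub (hψ.comp ((measurable_pi_apply j).comp measurable_fst))).pow_const 2

theorem ug_dis_meas (L : ℝ) (K : ℕ) : Measurable fun p : Dat K × Dat K => uwDis L p.1 p.2 := by
  classical
  unfold uwDis
  refine Finset.measurable_sum _ fun j _ => ?_
  have hx : ∀ i : Win K, Measurable fun p : Dat K × Dat K => p.1 i := fun i => (measurable_pi_apply i).comp measurable_fst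
  have hy : ∀ i : Win K, Measurable fun p : Dat K × Dat K => p.2 i := fun i => (measurable_pi_apply i).comp measurable_snd
  refine Measurable.ite ?_ ?_ measurable_const
  · exact (measurableSet_le (hx _).abs measurable_const).inter (measurableSet_le (hx _).abs measurable_const)
  · unfold uwGapD
    exact (((hy _).sub (hx _)).sub ((hy _).sub (hx _))).pow_const 2

theorem ug_wlS_meas {K : ℕ} (ζ : ℂ) : Measurable fun x : Dat K => wlS x ζ := by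
  unfold wlS
  refine Finset.measurable_sum _ fun i _ => ?_
  exact ((Complex.measurable_ofReal.comp (measurable_pi_apply _)).sub_const ζ).inv

theorem ug_mar_meas (L y c₁ C₁ : ℝ) (K : ℕ) : MeasurableSet {x : Dat K | ugMar L y c₁ C₁ x} := by
  have h1 : MeasurableSet {x : Dat K | Monotone x} := by
    have e : {x : Dat K | Monotone x} = ⋂ (i : Win K) (j : Win K) (_ : i ≤ j), {x | x i ≤ x j} := by
      ext x
      simp only [Set.mem_ofPred_eq, Set.mem_iInter]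
      exact ⟨fun h i j hij => h hij, fun h i j hij => h i j hij⟩
    rw [e]
    exact MeasurableSet.iInter fun i => MeasurableSet.iInter fun j => MeasurableSet.iInter fun _ =>
      measurableSet_le (measurable_pi_apply i) (measurable_pi_apply j)
  have h2 : MeasurableSet {x : Dat K | ugFar L C₁ x} := by
    have e : {x : Dat K | ugFar L C₁ x} = ⋂ (i : ℤ) (_ : |i| ≤ 16) (k : ℕ), {x | ‖wlS x ⟨i * (L / 4), 2 ^ k * L⟩‖ ≤ C₁} := by
      ext x
      simp only [Set.mem_ofPred_eq, Set.mem_iInter, ugFar]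
    rw [e]
    exact MeasurableSet.iInter fun i => MeasurableSet.iInter fun _ => MeasurableSet.iInter fun k =>
      measurableSet_le (ug_wlS_meas _).norm measurable_const
  have h3 : MeasurableSet {x : Dat K | ugLoc L y c₁ C₁ x} := by
    have e : {x : Dat K | ugLoc L y c₁ C₁ x} = ⋂ (i : ℤ) (_ : |(i : ℝ) * y| ≤ 4 * L),
        ({x | c₁ ≤ (wlS x ⟨i * y, y⟩).im} ∩ {x | (wlS x ⟨i * y, y⟩).im ≤ C₁}) := by
      ext x
      simp only [Set.mem_ofPred_eq, Set.mem_iInter, ugLoc, Set.mem_inter_iff]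
    rw [e]
    exact MeasurableSet.iInter fun i => MeasurableSet.iInter fun _ =>
      (measurableSet_le measurable_const (Complex.measurable_im.comp (ug_wlS_meas _))).inter
        (measurableSet_le (Complex.measurable_im.comp (ug_wlS_meas _)) measurable_const)
  exact h1.inter (h2.inter h3)

/-- LEAF.  The cost, the dissipation and the good set are measurable. -/
theorem ug_meas (P : U3Exp) (ρ C₁ L : ℝ) (K : ℕ) :
    MeasurableSet (u3S P ρ C₁ L K) ∧ (Measurable fun p : Dat K × Dat K => uwCost L P.α p.1 p.2) ∧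
      (Measurable fun p : Dat K × Dat K => uwDis L p.1 p.2) ∧
      MeasurableSet {p : Dat K × Dat K | ¬ ugMar L (u3Y P L) (Real.pi * ρ / 4) C₁ p.1} ∧
      MeasurableSet {p : Dat K × Dat K | ¬ ugMar L (u3Y P L) (Real.pi * ρ / 4) C₁ p.2} := by
  have hα : 0 < P.α := by have := P.hα; have := P.hχ1; linarith
  have hc := ug_cost_meas hα L K
  have hm := ug_mar_meas L (u3Y P L) (Real.pi * ρ / 4) C₁ K
  have m1 : MeasurableSet {p : Dat K × Dat K | ugMar L (u3Y P L) (Real.pi * ρ / 4) C₁ p.1} := measurable_fst hm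
  have m2 : MeasurableSet {p : Dat K × Dat K | ugMar L (u3Y P L) (Real.pi * ρ / 4) C₁ p.2} := measurable_snd hm
  refine ⟨?_, hc, ug_dis_meas L K, m1.compl, m2.compl⟩
  exact m1.inter (m2.inter (measurableSet_le hc measurable_const))

theorem ug_step_meas (K : ℕ) : Measurable fun q : (Dat K × Dat K) × Matrix (Win K) (Win K) ℝ => ugStep q.1 q.2 :=
  (b2l_step_meas_comp 1 (measurable_fst.comp measurable_fst) measurable_snd).prodMk
    (b2l_step_meas_comp 1 (measurable_snd.comp measurable_fst) measurable_snd)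

theorem ug_step_meas' {K : ℕ} (p : Dat K × Dat K) : Measurable fun N : Matrix (Win K) (Win K) ℝ => ugStep p N :=
  (b2l_step_meas_comp 1 measurable_const measurable_id).prodMk (b2l_step_meas_comp 1 measurable_const measurable_id)

theorem ug_Q_meas1 {K : ℕ} {S : Set (Dat K × Dat K)} (hS : MeasurableSet S) {F : Dat K × Dat K → ℝ≥0∞} (hF : Measurable F) :
    Measurable (ugQ S F) :=
  (Measurable.lintegral_prod_right' (f := fun q : (Dat K × Dat K) × Matrix (Win K) (Win K) ℝ => F (ugStep q.1 q.2))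
    (hF.comp (ug_step_meas K))).indicator hS

/-- LEAF.  `ugQ S` preserves measurability (`b2l_step_meas`, `Measurable.lintegral_prod_right`). -/
theorem ug_Q_meas {K : ℕ} {S : Set (Dat K × Dat K)} (hS : MeasurableSet S) {F : Dat K × Dat K → ℝ≥0∞} (hF : Measurable F) (t : ℕ) :
    Measurable ((ugQ S)^[t] F) := by
  induction t generalizing F with
  | zero => exact hF
  | succ t ih => rw [Function.iterate_succ_apply]; exact ih (ug_Q_meas1 hS hF)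

theorem ug_Q_mono1 {K : ℕ} (S : Set (Dat K × Dat K)) {F G : Dat K × Dat K → ℝ≥0∞} (h : ∀ p, F p ≤ G p) (p : Dat K × Dat K) :
    ugQ S F p ≤ ugQ S G p :=
  Set.indicator_le_indicator (lintegral_mono fun _ => h _)

theorem ug_iter_mono {K : ℕ} (S : Set (Dat K × Dat K)) (t : ℕ) {F G : Dat K × Dat K → ℝ≥0∞} (h : ∀ p, F p ≤ G p) (p : Dat K × Dat K) :
    (ugQ S)^[t] F p ≤ (ugQ S)^[t] G p := by
  induction t generalizing F G p with
  | zero => exact h p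
  | succ t ih => rw [Function.iterate_succ_apply, Function.iterate_succ_apply]; exact ih (ug_Q_mono1 S h) p

theorem ug_E_le_of (ν₁ ν₂ : Measure Conf) (K : ℕ) {A B : Dat K × Dat K → ℝ≥0∞} (h : ∀ p, A p ≤ B p) :
    ∫⁻ x, ∫⁻ y, A (cPos K x, cPos K y) ∂ν₂ ∂ν₁ ≤ ∫⁻ x, ∫⁻ y, B (cPos K x, cPos K y) ∂ν₂ ∂ν₁ :=
  lintegral_mono fun _ => lintegral_mono fun _ => h _

/-- LEAF.  Monotonicity in the function. -/
theorem ug_mono (ν₁ ν₂ : Measure Conf) (K : ℕ) (S : Set (Dat K × Dat K)) (t : ℕ) {F G : Dat K × Dat K → ℝ≥0∞} (h : ∀ p, F p ≤ G p) :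
    ugE ν₁ ν₂ K S t F ≤ ugE ν₁ ν₂ K S t G :=
  ug_E_le_of ν₁ ν₂ K (ug_iter_mono S t h)

theorem ug_Q_univ {K : ℕ} (F : Dat K × Dat K → ℝ≥0∞) (p : Dat K × Dat K) :
    ugQ Set.univ F p = ∫⁻ N, F (ugStep p N) ∂(gArr (Win K) (Win K)) := by
  simp [ugQ]

theorem ug_Q_eq_ind {K : ℕ} (S : Set (Dat K × Dat K)) (F : Dat K × Dat K → ℝ≥0∞) : ugQ S F = S.indicator (ugQ Set.univ F) := by
  funext p
  simp only [ugQ, Set.indicator_univ]

/-- LEAF.  Killing decreases. -/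
theorem ug_mono_set (ν₁ ν₂ : Measure Conf) (K : ℕ) (S : Set (Dat K × Dat K)) (t : ℕ) (F : Dat K × Dat K → ℝ≥0∞) :
    ugE ν₁ ν₂ K S t F ≤ ugE ν₁ ν₂ K Set.univ t F := by
  refine ug_E_le_of ν₁ ν₂ K fun p => ?_
  induction t generalizing F p with
  | zero => exact le_rfl
  | succ t ih =>
    rw [Function.iterate_succ_apply, Function.iterate_succ_apply]
    refine (ih (ugQ S F) p).trans (ug_iter_mono _ t (fun q => ?_) p)
    rw [ug_Q_eq_ind S F]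
    exact Set.indicator_le_self _ _ _

theorem ug_Q_add {K : ℕ} (S : Set (Dat K × Dat K)) {F G : Dat K × Dat K → ℝ≥0∞} (hF : Measurable F) :
    ugQ S (fun p => F p + G p) = fun p => ugQ S F p + ugQ S G p := by
  funext p
  simp only [ugQ]
  by_cases hp : p ∈ S
  · simp only [Set.indicator_of_mem hp]
    exact lintegral_add_left (hF.comp (ug_step_meas' p)) _
  · simp only [Set.indicator_of_notMem hp, add_zero]

theorem ug_iter_add {K : ℕ} {S : Set (Dat K × Dat K)} (hS : MeasurableSet S) (t : ℕ) {F G : Dat K × Dat K → ℝ≥0∞} (hF : Measurable F) :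
    (ugQ S)^[t] (fun p => F p + G p) = fun p => (ugQ S)^[t] F p + (ugQ S)^[t] G p := by
  induction t generalizing F G with
  | zero => rfl
  | succ t ih =>
    simp only [Function.iterate_succ_apply]
    rw [ug_Q_add S hF, ih (ug_Q_meas1 hS hF)]

theorem ug_pair_meas (K : ℕ) : Measurable fun q : Conf × Conf => (cPos K q.1, cPos K q.2) :=
  ((b2l_cPos_meas K).comp measurable_fst).prodMk ((b2l_cPos_meas K).comp measurable_snd)

theorem ug_in_meas {K : ℕ} {A : Dat K × Dat K → ℝ≥0∞} (hA : Measurable A) (x : Conf) : Measurable fun y : Conf => A (cPos K x, cPos K y) :=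
  hA.comp (measurable_const.prodMk (b2l_cPos_meas K))

theorem ug_out_meas (ν₂ : Measure Conf) [SFinite ν₂] {K : ℕ} {A : Dat K × Dat K → ℝ≥0∞} (hA : Measurable A) :
    Measurable fun x : Conf => ∫⁻ y, A (cPos K x, cPos K y) ∂ν₂ :=
  Measurable.lintegral_prod_right' (f := fun q : Conf × Conf => A (cPos K q.1, cPos K q.2)) (hA.comp (ug_pair_meas K))

/-- LEAF.  Additivity. -/
theorem ug_add (ν₁ ν₂ : Measure Conf) [SFinite ν₂] (K : ℕ) {S : Set (Dat K × Dat K)} (hS : MeasurableSet S) (t : ℕ) {F G : Dat K × Dat K → ℝ≥0∞}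
    (hF : Measurable F) (hG : Measurable G) : ugE ν₁ ν₂ K S t (fun p => F p + G p) = ugE ν₁ ν₂ K S t F + ugE ν₁ ν₂ K S t G := by
  unfold ugE
  rw [ug_iter_add hS t hF]
  have hA := ug_Q_meas hS hF t
  rw [← lintegral_add_left (ug_out_meas ν₂ hA)]
  exact lintegral_congr fun x => lintegral_add_left (ug_in_meas hA x) _

theorem ug_Q_cmul {K : ℕ} (S : Set (Dat K × Dat K)) (c : ℝ≥0∞) {F : Dat K × Dat K → ℝ≥0∞} (hF : Measurable F) :
    ugQ S (fun p => c * F p) = fun p => c * ugQ S F p := by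
  funext p
  simp only [ugQ]
  by_cases hp : p ∈ S
  · simp only [Set.indicator_of_mem hp]
    exact lintegral_const_mul c (hF.comp (ug_step_meas' p))
  · simp only [Set.indicator_of_notMem hp, mul_zero]

theorem ug_iter_cmul {K : ℕ} {S : Set (Dat K × Dat K)} (hS : MeasurableSet S) (t : ℕ) (c : ℝ≥0∞) {F : Dat K × Dat K → ℝ≥0∞} (hF : Measurable F) :
    (ugQ S)^[t] (fun p => c * F p) = fun p => c * (ugQ S)^[t] F p := by
  induction t generalizing F with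
  | zero => rfl
  | succ t ih =>
    simp only [Function.iterate_succ_apply]
    rw [ug_Q_cmul S c hF, ih (ug_Q_meas1 hS hF)]

/-- LEAF.  Homogeneity. -/
theorem ug_const_mul (ν₁ ν₂ : Measure Conf) [SFinite ν₂] (K : ℕ) {S : Set (Dat K × Dat K)} (hS : MeasurableSet S) (t : ℕ) (c : ℝ≥0∞) {F : Dat K × Dat K → ℝ≥0∞}
    (hF : Measurable F) : ugE ν₁ ν₂ K S t (fun p => c * F p) = c * ugE ν₁ ν₂ K S t F := by
  unfold ugE
  rw [ug_iter_cmul hS t c hF]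
  have hA := ug_Q_meas hS hF t
  rw [← lintegral_const_mul c (ug_out_meas ν₂ hA)]
  exact lintegral_congr fun x => lintegral_const_mul c (ug_in_meas hA x)

theorem ug_iter_le_one {K : ℕ} (S : Set (Dat K × Dat K)) (t : ℕ) {F : Dat K × Dat K → ℝ≥0∞} (h1 : ∀ p, F p ≤ 1) (p : Dat K × Dat K) :
    (ugQ S)^[t] F p ≤ 1 := by
  induction t generalizing F p with
  | zero => exact h1 p
  | succ t ih =>
    rw [Function.iterate_succ_apply]
    refine ih (fun q => ?_) p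
    rw [ug_Q_eq_ind S F]
    refine (Set.indicator_le_self _ _ _).trans ?_
    rw [ug_Q_univ]
    calc ∫⁻ N, F (ugStep q N) ∂(gArr (Win K) (Win K)) ≤ ∫⁻ _N, 1 ∂(gArr (Win K) (Win K)) := lintegral_mono fun _ => h1 _
      _ = 1 := by simp

/-- LEAF.  Total mass. -/
theorem ug_one_le (ν₁ ν₂ : Measure Conf) (K : ℕ) (S : Set (Dat K × Dat K)) (t : ℕ) :
    ugE ν₁ ν₂ K S t (fun _ => 1) ≤ ν₁ Set.univ * ν₂ Set.univ := by
  unfold ugE
  calc ∫⁻ x, ∫⁻ y, ((ugQ S)^[t] fun _ => 1) (cPos K x, cPos K y) ∂ν₂ ∂ν₁ ≤ ∫⁻ _x, ∫⁻ _y, 1 ∂ν₂ ∂ν₁ :=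
        lintegral_mono fun _ => lintegral_mono fun _ => ug_iter_le_one S t (fun _ => le_rfl) _
    _ = ν₁ Set.univ * ν₂ Set.univ := by simp [mul_comm]

/-- LEAF.  Markov property: `(ugQ S)^[t+1] F = (ugQ S)^[t] (ugQ S F)` (`Function.iterate_succ_apply`). -/
theorem ug_succ (ν₁ ν₂ : Measure Conf) (K : ℕ) (S : Set (Dat K × Dat K)) (t : ℕ) (F : Dat K × Dat K → ℝ≥0∞) :
    ugE ν₁ ν₂ K S (t + 1) F = ugE ν₁ ν₂ K S t (ugQ S F) := by
  simp only [ugE, Function.iterate_succ_apply]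

theorem ug_iter_nonneg {K : ℕ} (t : ℕ) {F : Dat K × Dat K → ℝ} (h0 : ∀ p, 0 ≤ F p) (p : Dat K × Dat K) : 0 ≤ (b2Q 1)^[t] F p := by
  induction t generalizing F p with
  | zero => exact h0 p
  | succ t ih => rw [Function.iterate_succ_apply]; exact ih (fun q => integral_nonneg fun _ => h0 _) p

theorem ug_iter_bridge {K : ℕ} (t : ℕ) {F : Dat K × Dat K → ℝ} (hF : B2Bm F) (h0 : ∀ p, 0 ≤ F p) (p : Dat K × Dat K) :
    ENNReal.ofReal ((b2Q 1)^[t] F p) = (ugQ Set.univ)^[t] (fun p => ENNReal.ofReal (F p)) p := by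
  induction t generalizing F p with
  | zero => rfl
  | succ t ih =>
    rw [Function.iterate_succ_apply, Function.iterate_succ_apply, ih (b2l_Q_bm 1 hF) (fun q => integral_nonneg fun _ => h0 _) p]
    have e : (fun p => ENNReal.ofReal (b2Q 1 F p)) = ugQ Set.univ fun p => ENNReal.ofReal (F p) := by
      funext q
      rw [ug_Q_univ]
      exact ofReal_integral_eq_lintegral_ofReal (b2l_Q_int 1 hF q) (Filter.Eventually.of_forall fun _ => h0 _)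
    rw [e]

/-- LEAF.  Bridge to the Bochner form `b2E` of helper275 (induction on `t`: `ofReal_integral_eq_lintegral_ofReal`, `b2l_iter_bm`, `b2l_Q_int`, `b2l_E_int`). -/
theorem ug_bridge (μ₁ μ₂ : Measure Conf) [IsProbabilityMeasure μ₁] [IsProbabilityMeasure μ₂] (K t : ℕ) {F : Dat K × Dat K → ℝ} (hF : B2Bm F)
    (h0 : ∀ p, 0 ≤ F p) : ENNReal.ofReal (b2E μ₁ μ₂ K 1 t F) = ugE μ₁ μ₂ K Set.univ t fun p => ENNReal.ofReal (F p) := by
  unfold b2E ugE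
  have hA0 := ug_iter_nonneg t h0
  obtain ⟨i1, i2⟩ := b2l_E_int μ₁ μ₂ K (b2l_iter_bm 1 t hF)
  rw [ofReal_integral_eq_lintegral_ofReal i2 (Filter.Eventually.of_forall fun x => integral_nonneg fun y => hA0 _)]
  refine lintegral_congr fun x => ?_
  rw [ofReal_integral_eq_lintegral_ofReal (i1 x) (Filter.Eventually.of_forall fun y => hA0 _)]
  exact lintegral_congr fun y => ug_iter_bridge t hF h0 _

/-- LEAF.  Restriction of the initial laws: `F <= 1`, the free chain is Markov. -/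
theorem ug_restrict (μ₁ μ₂ : Measure Conf) [IsProbabilityMeasure μ₁] [IsProbabilityMeasure μ₂] (K t : ℕ) {A₁ A₂ : Set Conf}
    (hA₁ : MeasurableSet A₁) (hA₂ : MeasurableSet A₂) {F : Dat K × Dat K → ℝ≥0∞} (hF : Measurable F) (h1 : ∀ p, F p ≤ 1) :
    ugE μ₁ μ₂ K Set.univ t F ≤ ugE (μ₁.restrict A₁) (μ₂.restrict A₂) K Set.univ t F + μ₁ A₁ᶜ + μ₂ A₂ᶜ := by
  unfold ugE
  set H : Dat K × Dat K → ℝ≥0∞ := (ugQ Set.univ)^[t] F with hH
  have hH1 : ∀ p, H p ≤ 1 := ug_iter_le_one _ t h1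
  have hg : ∀ x, ∫⁻ y, H (cPos K x, cPos K y) ∂μ₂ ≤ ∫⁻ y in A₂, H (cPos K x, cPos K y) ∂μ₂ + μ₂ A₂ᶜ := by
    intro x
    rw [← lintegral_add_compl (fun y => H (cPos K x, cPos K y)) hA₂]
    refine add_le_add le_rfl ?_
    calc ∫⁻ y in A₂ᶜ, H (cPos K x, cPos K y) ∂μ₂ ≤ ∫⁻ _y in A₂ᶜ, 1 ∂μ₂ := lintegral_mono fun _ => hH1 _
      _ = μ₂ A₂ᶜ := by simp
  have hg1 : ∀ x, ∫⁻ y, H (cPos K x, cPos K y) ∂μ₂ ≤ 1 := by
    intro x
    calc ∫⁻ y, H (cPos K x, cPos K y) ∂μ₂ ≤ ∫⁻ _y, 1 ∂μ₂ := lintegral_mono fun _ => hH1 _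
      _ = 1 := by simp
  rw [← lintegral_add_compl (fun x => ∫⁻ y, H (cPos K x, cPos K y) ∂μ₂) hA₁]
  have e1 : ∫⁻ x in A₁, ∫⁻ y, H (cPos K x, cPos K y) ∂μ₂ ∂μ₁ ≤ ∫⁻ x in A₁, ∫⁻ y in A₂, H (cPos K x, cPos K y) ∂μ₂ ∂μ₁ + μ₂ A₂ᶜ := by
    calc ∫⁻ x in A₁, ∫⁻ y, H (cPos K x, cPos K y) ∂μ₂ ∂μ₁
        ≤ ∫⁻ x in A₁, (∫⁻ y in A₂, H (cPos K x, cPos K y) ∂μ₂ + μ₂ A₂ᶜ) ∂μ₁ := lintegral_mono fun x => hg x
      _ = ∫⁻ x in A₁, ∫⁻ y in A₂, H (cPos K x, cPos K y) ∂μ₂ ∂μ₁ + μ₂ A₂ᶜ * μ₁ A₁ := by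
          rw [lintegral_add_right _ measurable_const]
          simp
      _ ≤ ∫⁻ x in A₁, ∫⁻ y in A₂, H (cPos K x, cPos K y) ∂μ₂ ∂μ₁ + μ₂ A₂ᶜ := by
          refine add_le_add le_rfl ?_
          calc μ₂ A₂ᶜ * μ₁ A₁ ≤ μ₂ A₂ᶜ * 1 := mul_le_mul_right prob_le_one _
            _ = μ₂ A₂ᶜ := mul_one _
  have e2 : ∫⁻ x in A₁ᶜ, ∫⁻ y, H (cPos K x, cPos K y) ∂μ₂ ∂μ₁ ≤ μ₁ A₁ᶜ := by
    calc ∫⁻ x in A₁ᶜ, ∫⁻ y, H (cPos K x, cPos K y) ∂μ₂ ∂μ₁ ≤ ∫⁻ _x in A₁ᶜ, 1 ∂μ₁ := lintegral_mono fun x => hg1 x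
      _ = μ₁ A₁ᶜ := by simp
  calc _ ≤ (∫⁻ x in A₁, ∫⁻ y in A₂, H (cPos K x, cPos K y) ∂μ₂ ∂μ₁ + μ₂ A₂ᶜ) + μ₁ A₁ᶜ := add_le_add e1 e2
    _ = _ := by rw [add_right_comm]

theorem ug_split_le {K : ℕ} (S : Set (Dat K × Dat K)) {F : Dat K × Dat K → ℝ≥0∞} (h1 : ∀ p, F p ≤ 1) (p : Dat K × Dat K) :
    F p ≤ S.indicator F p + Sᶜ.indicator 1 p := by
  by_cases hp : p ∈ S
  · simp [hp]
  · simp [hp, h1 p]

/-- LEAF.  First exit decomposition (induction on `t`, pointwise in the starting point: `Q^[t] F <= Q_S^[t] (1_S F) + sum_{s <= t} Q_S^[s] 1_{S^c}`). -/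
theorem ug_exit (ν₁ ν₂ : Measure Conf) [SFinite ν₂] (K : ℕ) {S : Set (Dat K × Dat K)} (hS : MeasurableSet S) (t : ℕ) {F : Dat K × Dat K → ℝ≥0∞}
    (hF : Measurable F) (h1 : ∀ p, F p ≤ 1) :
    ugE ν₁ ν₂ K Set.univ t F ≤ ugE ν₁ ν₂ K S t (S.indicator F) + ∑ s ∈ Finset.range (t + 1), ugE ν₁ ν₂ K S s (Sᶜ.indicator 1) := by
  have hc : Measurable (Sᶜ.indicator (1 : Dat K × Dat K → ℝ≥0∞)) := measurable_one.indicator hS.compl
  induction t generalizing F with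
  | zero =>
    rw [zero_add, Finset.sum_range_one, ← ug_add ν₁ ν₂ K hS 0 (hF.indicator hS) hc]
    exact ug_E_le_of ν₁ ν₂ K (ug_split_le S h1)
  | succ t ih =>
    rw [ug_succ]
    have hQ1 : ∀ p, ugQ Set.univ F p ≤ 1 := fun p => ug_iter_le_one Set.univ 1 h1 p
    refine (ih (ug_Q_meas1 MeasurableSet.univ hF) hQ1).trans ?_
    rw [← ug_Q_eq_ind S F, ← ug_succ, Finset.sum_range_succ _ (t + 1)]
    have h2 : ugE ν₁ ν₂ K S (t + 1) F ≤ ugE ν₁ ν₂ K S (t + 1) (S.indicator F) + ugE ν₁ ν₂ K S (t + 1) (Sᶜ.indicator 1) := by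
      rw [← ug_add ν₁ ν₂ K hS (t + 1) (hF.indicator hS) hc]
      exact ug_mono ν₁ ν₂ K S (t + 1) (ug_split_le S h1)
    calc _ ≤ (ugE ν₁ ν₂ K S (t + 1) (S.indicator F) + ugE ν₁ ν₂ K S (t + 1) (Sᶜ.indicator 1))
          + ∑ s ∈ Finset.range (t + 1), ugE ν₁ ν₂ K S s (Sᶜ.indicator 1) := add_le_add h2 le_rfl
      _ = _ := by rw [add_assoc, add_comm (ugE ν₁ ν₂ K S (t + 1) (Sᶜ.indicator 1))]

/-- **TELESCOPING** (sec. 8 of the note; maximal inequality included). -/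
theorem ug_tele (ν₁ ν₂ : Measure Conf) [SFinite ν₂] (K : ℕ) {S : Set (Dat K × Dat K)} (hS : MeasurableSet S) {cost dis : Dat K × Dat K → ℝ≥0∞}
    (hc : Measurable cost) (hd : Measurable dis) (q c₀ Λ2 : ℝ≥0∞) (hq : 1 ≤ q) (hS2 : ∀ p ∈ S, cost p ≤ Λ2)
    (hstep : ∀ p ∈ S, ∫⁻ N, cost (ugStep p N) ∂(gArr (Win K) (Win K)) + c₀ * dis p ≤ q * cost p) (n : ℕ) :
    ∑ t ∈ Finset.range n, (c₀ * ugE ν₁ ν₂ K S t (S.indicator dis) + Λ2 * ugE ν₁ ν₂ K S (t + 1) (Set.indicator {p | Λ2 < cost p} 1))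
      ≤ q ^ n * ugE ν₁ ν₂ K S 0 (S.indicator cost) := by
  have hB : MeasurableSet {p : Dat K × Dat K | Λ2 < cost p} := measurableSet_lt measurable_const hc
  have hBi : Measurable (Set.indicator {p : Dat K × Dat K | Λ2 < cost p} (1 : Dat K × Dat K → ℝ≥0∞)) := measurable_one.indicator hB
  have hci := hc.indicator hS
  have hdi := hd.indicator hS
  -- one step
  have one : ∀ t, ugE ν₁ ν₂ K S (t + 1) (S.indicator cost)
      + (c₀ * ugE ν₁ ν₂ K S t (S.indicator dis) + Λ2 * ugE ν₁ ν₂ K S (t + 1) (Set.indicator {p | Λ2 < cost p} 1))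
      ≤ q * ugE ν₁ ν₂ K S t (S.indicator cost) := by
    intro t
    have a1 : ugE ν₁ ν₂ K S (t + 1) (S.indicator cost) + Λ2 * ugE ν₁ ν₂ K S (t + 1) (Set.indicator {p | Λ2 < cost p} 1)
        ≤ ugE ν₁ ν₂ K S (t + 1) cost := by
      rw [← ug_const_mul ν₁ ν₂ K hS (t + 1) Λ2 hBi, ← ug_add ν₁ ν₂ K hS (t + 1) hci (hBi.const_mul Λ2)]
      refine ug_mono ν₁ ν₂ K S (t + 1) fun p => ?_
      by_cases hp : p ∈ S
      · have : p ∉ {p : Dat K × Dat K | Λ2 < cost p} := fun hh => absurd (hS2 p hp) (not_le.2 hh)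
        simp [hp, this]
      · by_cases hp2 : p ∈ {p : Dat K × Dat K | Λ2 < cost p}
        · have h3 : Λ2 < cost p := hp2
          simp [hp, hp2, h3.le]
        · simp [hp, hp2]
    have a2 : ugE ν₁ ν₂ K S (t + 1) cost + c₀ * ugE ν₁ ν₂ K S t (S.indicator dis) ≤ q * ugE ν₁ ν₂ K S t (S.indicator cost) := by
      rw [ug_succ, ← ug_const_mul ν₁ ν₂ K hS t c₀ hdi, ← ug_const_mul ν₁ ν₂ K hS t q hci,
        ← ug_add ν₁ ν₂ K hS t (ug_Q_meas1 hS hc) (hdi.const_mul c₀)]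
      refine ug_mono ν₁ ν₂ K S t fun p => ?_
      by_cases hp : p ∈ S
      · simp only [ugQ, Set.indicator_of_mem hp]
        exact hstep p hp
      · simp [ugQ, hp]
    calc _ = (ugE ν₁ ν₂ K S (t + 1) (S.indicator cost) + Λ2 * ugE ν₁ ν₂ K S (t + 1) (Set.indicator {p | Λ2 < cost p} 1))
          + c₀ * ugE ν₁ ν₂ K S t (S.indicator dis) := by rw [add_comm (c₀ * _), add_assoc]
      _ ≤ ugE ν₁ ν₂ K S (t + 1) cost + c₀ * ugE ν₁ ν₂ K S t (S.indicator dis) := add_le_add a1 le_rfl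
      _ ≤ _ := a2
  have key : ∀ n, ugE ν₁ ν₂ K S n (S.indicator cost)
      + ∑ t ∈ Finset.range n, (c₀ * ugE ν₁ ν₂ K S t (S.indicator dis) + Λ2 * ugE ν₁ ν₂ K S (t + 1) (Set.indicator {p | Λ2 < cost p} 1))
      ≤ q ^ n * ugE ν₁ ν₂ K S 0 (S.indicator cost) := by
    intro n
    induction n with
    | zero => simp
    | succ n ih =>
      rw [Finset.sum_range_succ, add_comm (∑ t ∈ Finset.range n, _), ← add_assoc]
      set Sg := ∑ t ∈ Finset.range n, (c₀ * ugE ν₁ ν₂ K S t (S.indicator dis) + Λ2 * ugE ν₁ ν₂ K S (t + 1) (Set.indicator {p | Λ2 < cost p} 1))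
      calc _ ≤ q * ugE ν₁ ν₂ K S n (S.indicator cost) + Sg := add_le_add (one n) le_rfl
        _ ≤ q * ugE ν₁ ν₂ K S n (S.indicator cost) + q * Sg := add_le_add le_rfl (le_mul_of_one_le_left zero_le hq)
        _ = q * (ugE ν₁ ν₂ K S n (S.indicator cost) + Sg) := (mul_add _ _ _).symm
        _ ≤ q * (q ^ n * ugE ν₁ ν₂ K S 0 (S.indicator cost)) := mul_le_mul_right ih _
        _ = _ := by rw [pow_succ, ← mul_assoc, mul_comm q]
  exact le_trans le_add_self (key n)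

/-! ## 3. GLUE -/

theorem u3t_uwQ_nonneg {J : Type} [Fintype J] [DecidableEq J] (L : ℝ) {y : ℝ} (hy : 0 < y) (v : J → ℝ) (N : Matrix J J ℝ) (j k : J) (e : ℝ) :
    0 ≤ uwQ L y (wlM v 1 N) j k e := by
  rw [u3c_uwQ_eq]
  exact u3c_q_nonneg (u3c_wlM_herm v 1 N) hy _ _ _

theorem u3t_hat_nonneg {J : Type} [Fintype J] [DecidableEq J] {L α : ℝ} (hL : 0 < L) (hα : 0 < α) (v : J → ℝ) (N : Matrix J J ℝ) (j : J) :
    0 ≤ uwHat L α (wlM v 1 N) j :=
  le_trans (Finset.sum_nonneg fun _ _ => mul_nonneg (u3c_phi_nonneg hL α _) (sq_nonneg _)) (u3c_w6_uw hL hα (u3c_wlM_herm v 1 N) j)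

/-- interval integral of a continuous nonnegative function as a lintegral -/
theorem u3t_ofReal_int {f : ℝ → ℝ} (hf : Continuous f) (h0 : ∀ a, 0 ≤ f a) :
    ENNReal.ofReal (∫ a in (0 : ℝ)..1, f a) = ∫⁻ a in Set.Ioc (0 : ℝ) 1, ENNReal.ofReal (f a) := by
  rw [intervalIntegral.integral_of_le zero_le_one]
  exact ofReal_integral_eq_lintegral_ofReal (hf.integrableOn_Ioc) (Eventually.of_forall h0)

theorem u3t_sum_lintegral_le {X ι : Type} [MeasurableSpace X] (μ : Measure X) (s : Finset ι) (f : ι → X → ℝ≥0∞) :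
    ∑ i ∈ s, ∫⁻ a, f i a ∂μ ≤ ∫⁻ a, ∑ i ∈ s, f i a ∂μ := by
  classical
  induction s using Finset.induction_on with
  | empty => simp
  | insert i s hi ih =>
    simp only [Finset.sum_insert hi]
    exact le_trans (add_le_add le_rfl ih) (le_lintegral_add _ _)

/-- abstract Tonelli step -/
theorem u3t_abs_step {X : Type} [MeasurableSpace X] [TopologicalSpace X] [OpensMeasurableSpace X] [SecondCountableTopology X] (γ : Measure X) [SFinite γ]
    (c : X → ℝ) (DD R : ℝ × X → ℝ) (hc0 : ∀ N, 0 ≤ c N) (hcm : Measurable c) (hDDc : Continuous DD) (hRc : Continuous R)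
    (hDD0 : ∀ q, 0 ≤ DD q) (hR0 : ∀ q, 0 ≤ R q) (hpt : ∀ N, c N + ∫ a in (0 : ℝ)..1, DD (a, N) ≤ ∫ a in (0 : ℝ)..1, R (a, N))
    (lo up : ℝ≥0∞) (hlo : ∀ a ∈ Set.Ioc (0 : ℝ) 1, lo ≤ ∫⁻ N, ENNReal.ofReal (DD (a, N)) ∂γ)
    (hup : ∀ a ∈ Set.Ioc (0 : ℝ) 1, ∫⁻ N, ENNReal.ofReal (R (a, N)) ∂γ ≤ up) :
    ∫⁻ N, ENNReal.ofReal (c N) ∂γ + lo ≤ up := by
  have hpt' : ∀ N, ENNReal.ofReal (c N) + ∫⁻ a in Set.Ioc (0 : ℝ) 1, ENNReal.ofReal (DD (a, N))
      ≤ ∫⁻ a in Set.Ioc (0 : ℝ) 1, ENNReal.ofReal (R (a, N)) := by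
    intro N
    have c1 : Continuous fun a => DD (a, N) := hDDc.comp (continuous_id.prodMk continuous_const)
    have c2 : Continuous fun a => R (a, N) := hRc.comp (continuous_id.prodMk continuous_const)
    rw [← u3t_ofReal_int c1 (fun a => hDD0 _), ← u3t_ofReal_int c2 (fun a => hR0 _),
      ← ENNReal.ofReal_add (hc0 _) (intervalIntegral.integral_nonneg zero_le_one fun a _ => hDD0 _)]
    exact ENNReal.ofReal_le_ofReal (hpt N)
  have hint : ∫⁻ N, ENNReal.ofReal (c N) ∂γ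
      + ∫⁻ N, (∫⁻ a in Set.Ioc (0 : ℝ) 1, ENNReal.ofReal (DD (a, N))) ∂γ ≤ ∫⁻ N, (∫⁻ a in Set.Ioc (0 : ℝ) 1, ENNReal.ofReal (R (a, N))) ∂γ := by
    rw [← lintegral_add_left hcm.ennreal_ofReal]
    exact lintegral_mono hpt'
  have hsw1 : ∫⁻ N, (∫⁻ a in Set.Ioc (0 : ℝ) 1, ENNReal.ofReal (DD (a, N))) ∂γ = ∫⁻ a in Set.Ioc (0 : ℝ) 1, ∫⁻ N, ENNReal.ofReal (DD (a, N)) ∂γ := by
    refine lintegral_lintegral_swap ?_
    exact ((hDDc.comp continuous_swap).measurable.ennreal_ofReal).aemeasurable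
  have hsw2 : ∫⁻ N, (∫⁻ a in Set.Ioc (0 : ℝ) 1, ENNReal.ofReal (R (a, N))) ∂γ = ∫⁻ a in Set.Ioc (0 : ℝ) 1, ∫⁻ N, ENNReal.ofReal (R (a, N)) ∂γ := by
    refine lintegral_lintegral_swap ?_
    exact ((hRc.comp continuous_swap).measurable.ennreal_ofReal).aemeasurable
  rw [hsw1, hsw2] at hint
  have hvol : (volume : Measure ℝ) (Set.Ioc (0 : ℝ) 1) = 1 := by simp
  have h1 : lo ≤ ∫⁻ a in Set.Ioc (0 : ℝ) 1, ∫⁻ N, ENNReal.ofReal (DD (a, N)) ∂γ := by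
    calc lo = ∫⁻ _a in Set.Ioc (0 : ℝ) 1, lo := by rw [setLIntegral_const, hvol, mul_one]
      _ ≤ _ := setLIntegral_mono' measurableSet_Ioc hlo
  have h2 : ∫⁻ a in Set.Ioc (0 : ℝ) 1, ∫⁻ N, ENNReal.ofReal (R (a, N)) ∂γ ≤ up := by
    calc _ ≤ ∫⁻ _a in Set.Ioc (0 : ℝ) 1, up := setLIntegral_mono' measurableSet_Ioc hup
      _ = up := by rw [setLIntegral_const, hvol, mul_one]
  exact le_trans (add_le_add le_rfl h1) (le_trans hint h2)

theorem u3t_DD_nonneg {K : ℕ} (L α : ℝ) {y : ℝ} (hy : 0 < y) (x y' : Dat K) (a : ℝ) (N : Matrix (Win K) (Win K) ℝ) : 0 ≤ uwDD L α y x y' a N := by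
  classical
  unfold uwDD
  refine Finset.sum_nonneg fun j _ => ?_
  split_ifs
  · exact mul_nonneg (sq_nonneg _) (u3t_uwQ_nonneg L hy _ N _ _ _)
  · exact le_rfl

/-- lower bound of the expected dissipation at fixed `a` -/
theorem u3t_DD_low {K : ℕ} (L α : ℝ) {y : ℝ} (hy : 0 < y) (x y' : Dat K) (a : ℝ) (c₀ : ℝ≥0∞)
    (h : ∀ j : Fin (2 * K), uwCore L x j → c₀ ≤ ∫⁻ N, ENNReal.ofReal (uwQ L y (wlM (uwGeo L α x y' a) 1 N) j.castSucc j.succ (uwGeo L α x y' a j.castSucc)) ∂(gArr (Win K) (Win K))) :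
    c₀ * ENNReal.ofReal (uwDis L x y') ≤ ∫⁻ N, ENNReal.ofReal (uwDD L α y x y' a N) ∂(gArr (Win K) (Win K)) := by
  classical
  have e1 : ∀ N, ENNReal.ofReal (uwDD L α y x y' a N) = ∑ j : Fin (2 * K), (if uwCore L x j then
      ENNReal.ofReal (uwGapD x y' j ^ 2) * ENNReal.ofReal (uwQ L y (wlM (uwGeo L α x y' a) 1 N) j.castSucc j.succ (uwGeo L α x y' a j.castSucc)) else 0) := by
    intro N
    unfold uwDD
    rw [ENNReal.ofReal_sum_of_nonneg]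
    · refine Finset.sum_congr rfl fun j _ => ?_
      split_ifs
      · rw [ENNReal.ofReal_mul (sq_nonneg _)]
      · simp
    · intro j _
      split_ifs
      · exact mul_nonneg (sq_nonneg _) (u3t_uwQ_nonneg L hy _ N _ _ _)
      · exact le_rfl
  simp only [e1]
  refine le_trans ?_ (u3t_sum_lintegral_le _ Finset.univ _)
  have e2 : ENNReal.ofReal (uwDis L x y') = ∑ j : Fin (2 * K), (if uwCore L x j then ENNReal.ofReal (uwGapD x y' j ^ 2) else 0) := by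
    unfold uwDis
    rw [ENNReal.ofReal_sum_of_nonneg]
    · refine Finset.sum_congr rfl fun j _ => ?_
      split_ifs <;> simp
    · intro j _
      split_ifs <;> positivity
  rw [e2, Finset.mul_sum]
  refine Finset.sum_le_sum fun j _ => ?_
  by_cases hj : uwCore L x j
  · simp only [if_pos hj]
    rw [lintegral_const_mul' _ _ ENNReal.ofReal_ne_top, mul_comm]
    exact mul_le_mul_right (h j hj) _
  · simp [if_neg hj]

/-- upper bound of the expected right side at fixed `a` -/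
theorem u3t_R_up {K : ℕ} {L α : ℝ} (hL : 0 < L) (hα0 : 0 < α) (hα1 : α < 1) (x y' : Dat K) (a q : ℝ) (hq : 0 ≤ q)
    (hm : ∀ j, Measurable fun N : Matrix (Win K) (Win K) ℝ => uwHat L α (wlM (uwGeo L α x y' a) 1 N) j)
    (h : ∀ j, ∫⁻ N, ENNReal.ofReal (uwHat L α (wlM (uwGeo L α x y' a) 1 N) j) ∂(gArr (Win K) (Win K)) ≤ ENNReal.ofReal (q * uwPhi L α (uwGeo L α x y' a j))) :
    ∫⁻ N, ENNReal.ofReal (∑ j, uwVel L α x y' a j ^ 2 * uwHat L α (wlM (uwGeo L α x y' a) 1 N) j) ∂(gArr (Win K) (Win K))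
      ≤ ENNReal.ofReal q * ENNReal.ofReal (uwCost L α x y') := by
  have e1 : ∀ N, ENNReal.ofReal (∑ j, uwVel L α x y' a j ^ 2 * uwHat L α (wlM (uwGeo L α x y' a) 1 N) j)
      = ∑ j, ENNReal.ofReal (uwVel L α x y' a j ^ 2) * ENNReal.ofReal (uwHat L α (wlM (uwGeo L α x y' a) 1 N) j) := by
    intro N
    rw [ENNReal.ofReal_sum_of_nonneg fun j _ => mul_nonneg (sq_nonneg _) (u3t_hat_nonneg hL hα0 _ N j)]
    exact Finset.sum_congr rfl fun j _ => ENNReal.ofReal_mul (sq_nonneg _)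
  simp only [e1]
  rw [lintegral_finsetSum _ fun j _ => ((hm j).ennreal_ofReal).const_mul _]
  have e2 : ENNReal.ofReal q * ENNReal.ofReal (uwCost L α x y')
      = ∑ j, ENNReal.ofReal (uwVel L α x y' a j ^ 2) * ENNReal.ofReal (q * uwPhi L α (uwGeo L α x y' a j)) := by
    rw [← ENNReal.ofReal_mul hq]
    unfold uwCost
    rw [Finset.mul_sum, ENNReal.ofReal_sum_of_nonneg fun j _ => mul_nonneg hq (sq_nonneg _)]
    refine Finset.sum_congr rfl fun j _ => ?_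
    rw [← ENNReal.ofReal_mul (sq_nonneg _), ← u3t_geo_vel L α hL hα0 hα1 x y' a j]
    congr 1
    ring
  rw [e2]
  refine Finset.sum_le_sum fun j _ => ?_
  rw [lintegral_const_mul' _ _ ENNReal.ofReal_ne_top]
  exact mul_le_mul_right (h j) _

/-- **GLUE (helper295), PROVED**: the one-step inequality in expectation on a good pair.
From `u3t_reg` (hypotheses of the other exits), `u3t_step_det` integrated in `N`, Tonelli (`u3t_geo_cont`), `u3t_W` + `u3t_geo_vel` (right side `= (1 + C3/L) cost`), `u3t_nd` (left side `>= L^(-4 eps) Dis`). -/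
theorem u3t_one_step (ρ : ℝ) (hρ : 0 < ρ) (P : U3Exp) (C₁ : ℝ) (hC₁ : 0 < C₁) : ∃ C₃ L₀ : ℝ, 0 ≤ C₃ ∧ ∀ L : ℝ, L₀ ≤ L →
    ∀ (K : ℕ) (p : Dat K × Dat K), p ∈ u3S P ρ C₁ L K →
      ∫⁻ N, ENNReal.ofReal (uwCost L P.α (ugStep p N).1 (ugStep p N).2) ∂(gArr (Win K) (Win K))
        + ENNReal.ofReal (L ^ (-(4 * P.ε))) * ENNReal.ofReal (uwDis L p.1 p.2) ≤ ENNReal.ofReal (1 + C₃ / L) * ENNReal.ofReal (uwCost L P.α p.1 p.2) := by
  obtain ⟨M, C₅, La, hM, hC₅, hreg⟩ := u3t_reg ρ hρ P C₁ hC₁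
  obtain ⟨C₃, Lb, hC₃, hW⟩ := u3t_W (3 * C₁ + 1) (by linarith)
  have hε15 : P.ε < 1 / 15 := by
    have h1 := P.hb; have h2 := P.hκ; have h3 := P.hχ1
    linarith
  obtain ⟨Lc, hnd⟩ := u3t_nd P.ε P.hε hε15 M C₅ hM hC₅
  refine ⟨C₃, max (max La Lb) (max Lc 1), hC₃, fun L hL K p hp => ?_⟩
  have hL1 : La ≤ L := le_trans (le_trans (le_max_left _ _) (le_max_left _ _)) hL
  have hL2 : Lb ≤ L := le_trans (le_trans (le_max_right _ _) (le_max_left _ _)) hL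
  have hL3 : Lc ≤ L := le_trans (le_trans (le_max_left _ _) (le_max_right _ _)) hL
  have hL4 : 1 ≤ L := le_trans (le_trans (le_max_right _ _) (le_max_right _ _)) hL
  have hLpos : 0 < L := by linarith
  have hα0 : 0 < P.α := by
    have h1 := P.hα; have h3 := P.hχ1
    linarith
  have hy0 : 0 < u3Y P L := by unfold u3Y; positivity
  obtain ⟨hcore, hA⟩ := hreg L hL1 K p hp
  obtain ⟨hcDD, hcHat, hcVel⟩ := u3t_geo_cont L P.α (u3Y P L) hLpos hα0 P.hα1 hy0 p.1 p.2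
  have hq0 : 0 ≤ 1 + C₃ / L := by
    have : 0 ≤ C₃ / L := div_nonneg hC₃ hLpos.le
    linarith
  have hmc : Measurable fun N => uwCost L P.α (ugStep p N).1 (ugStep p N).2 := by
    have h1 := (ug_meas P ρ C₁ L K).2.1
    have h2 : Measurable fun N : Matrix (Win K) (Win K) ℝ => ugStep p N :=
      (b2l_step_meas_comp 1 measurable_const measurable_id).prodMk (b2l_step_meas_comp 1 measurable_const measurable_id)
    exact h1.comp h2
  have : SecondCountableTopology (Matrix (Win K) (Win K) ℝ) := inferInstanceAs (SecondCountableTopology (Win K → Win K → ℝ))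
  refine u3t_abs_step (gArr (Win K) (Win K)) (fun N => uwCost L P.α (ugStep p N).1 (ugStep p N).2)
    (fun q => uwDD L P.α (u3Y P L) p.1 p.2 q.1 q.2)
    (fun q => ∑ j, uwVel L P.α p.1 p.2 q.1 j ^ 2 * uwHat L P.α (wlM (uwGeo L P.α p.1 p.2 q.1) 1 q.2) j)
    (fun N => Finset.sum_nonneg fun j _ => sq_nonneg _) hmc hcDD
    (continuous_finsetSum _ fun j _ => (((hcVel j).comp continuous_fst).pow 2).mul (hcHat j))
    (fun q => u3t_DD_nonneg L P.α hy0 p.1 p.2 q.1 q.2)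
    (fun q => Finset.sum_nonneg fun j _ => mul_nonneg (sq_nonneg _) (u3t_hat_nonneg hLpos hα0 _ q.2 j))
    (fun N => u3t_step_det L P.α (u3Y P L) hLpos hα0 P.hα1 hy0 p.1 p.2 hcore N) _ _ ?_ ?_
  · intro a ha
    obtain ⟨_, hB⟩ := hA a ha.1.le ha.2
    refine u3t_DD_low L P.α hy0 p.1 p.2 a _ fun j hj => ?_
    obtain ⟨b1, b2, b3⟩ := hB j hj
    exact hnd L hL3 (Win K) _ j.castSucc j.succ (Fin.castSucc_lt_succ).ne b1 b2 b3
  · intro a ha
    obtain ⟨hB, _⟩ := hA a ha.1.le ha.2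
    exact u3t_R_up hLpos hα0 P.hα1 p.1 p.2 a _ hq0
      (fun j => ((hcHat j).comp (continuous_const.prodMk continuous_id)).measurable)
      (fun j => hW L hL2 P.α hα0 P.hα1 (Win K) _ hB j)

/-- LEAF (pure `ENNReal` bookkeeping, no probability).  From (h4): `sum D <= Qa/c0`, `sum_{t<n} Cs (t+1) <= Qa/Lam2` (`ENNReal.le_div_iff_mul_le`, all constants positive reals);
`sum_{s <= t} B s <= sum_{s < n} Cs s + n m3 <= Cs 0 + sum_{t<n} Cs (t+1) + n m3`. -/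
theorem u3t_final (n : ℕ) (b D Cs B : ℕ → ℝ≥0∞) (e0 e1 c m3 Qa c0 Lam2 : ℝ) (he0 : 0 ≤ e0) (he1 : 0 ≤ e1) (hc : 0 ≤ c) (hm3 : 0 ≤ m3)
    (hQa : 0 ≤ Qa) (hc0 : 0 < c0) (hLam2 : 0 < Lam2)
    (h1 : ∀ t, t < n → b t ≤ ENNReal.ofReal e0 + ENNReal.ofReal e1 + ENNReal.ofReal c * D t + ∑ s ∈ Finset.range (t + 1), B s)
    (h2 : ∀ s, s ≤ n → B s ≤ Cs s + ENNReal.ofReal m3) (h3 : Cs 0 = 0)
    (h4 : ∑ t ∈ Finset.range n, (ENNReal.ofReal c0 * D t + ENNReal.ofReal Lam2 * Cs (t + 1)) ≤ ENNReal.ofReal Qa) :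
    ∑ t ∈ Finset.range n, b t ≤ ENNReal.ofReal (n * (e0 + e1) + c * (Qa / c0) + n * (Qa / Lam2 + n * m3)) := by
  rw [Finset.sum_add_distrib, ← Finset.mul_sum, ← Finset.mul_sum] at h4
  have hD : ∑ t ∈ Finset.range n, D t ≤ ENNReal.ofReal (Qa / c0) := by
    rw [ENNReal.ofReal_div_of_pos hc0, ENNReal.le_div_iff_mul_le (Or.inl (ENNReal.ofReal_pos.2 hc0).ne') (Or.inl ENNReal.ofReal_ne_top), mul_comm]
    exact le_trans le_self_add h4
  have hC : ∑ t ∈ Finset.range n, Cs (t + 1) ≤ ENNReal.ofReal (Qa / Lam2) := by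
    rw [ENNReal.ofReal_div_of_pos hLam2, ENNReal.le_div_iff_mul_le (Or.inl (ENNReal.ofReal_pos.2 hLam2).ne') (Or.inl ENNReal.ofReal_ne_top), mul_comm]
    exact le_trans le_add_self h4
  have hB : ∀ t, t < n → ∑ s ∈ Finset.range (t + 1), B s ≤ ENNReal.ofReal (Qa / Lam2) + n * ENNReal.ofReal m3 := by
    intro t ht
    calc ∑ s ∈ Finset.range (t + 1), B s ≤ ∑ s ∈ Finset.range n, B s :=
          Finset.sum_le_sum_of_subset (Finset.range_subset_range.2 ht)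
      _ ≤ ∑ s ∈ Finset.range n, (Cs s + ENNReal.ofReal m3) :=
          Finset.sum_le_sum fun s hs => h2 s (Finset.mem_range.1 hs).le
      _ = ∑ s ∈ Finset.range n, Cs s + n * ENNReal.ofReal m3 := by
          rw [Finset.sum_add_distrib, Finset.sum_const, Finset.card_range, nsmul_eq_mul]
      _ ≤ ENNReal.ofReal (Qa / Lam2) + n * ENNReal.ofReal m3 := by
          gcongr
          calc ∑ s ∈ Finset.range n, Cs s ≤ ∑ s ∈ Finset.range (n + 1), Cs s :=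
                Finset.sum_le_sum_of_subset (Finset.range_subset_range.2 (Nat.le_succ n))
            _ = ∑ t ∈ Finset.range n, Cs (t + 1) := by rw [Finset.sum_range_succ', h3, add_zero]
            _ ≤ _ := hC
  have hn0 : (0 : ℝ) ≤ n := Nat.cast_nonneg n
  have e : ENNReal.ofReal (n * (e0 + e1) + c * (Qa / c0) + n * (Qa / Lam2 + n * m3))
      = n * (ENNReal.ofReal e0 + ENNReal.ofReal e1) + ENNReal.ofReal c * ENNReal.ofReal (Qa / c0)
        + n * (ENNReal.ofReal (Qa / Lam2) + n * ENNReal.ofReal m3) := by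
    have q1 : 0 ≤ Qa / c0 := by positivity
    have q2 : 0 ≤ Qa / Lam2 := by positivity
    rw [ENNReal.ofReal_add (by positivity) (by positivity), ENNReal.ofReal_add (by positivity) (by positivity),
      ENNReal.ofReal_mul hn0, ENNReal.ofReal_mul hc, ENNReal.ofReal_mul hn0, ENNReal.ofReal_add he0 he1,
      ENNReal.ofReal_add q2 (by positivity), ENNReal.ofReal_mul hn0, ENNReal.ofReal_natCast]
  rw [e]
  calc ∑ t ∈ Finset.range n, b t
      ≤ ∑ t ∈ Finset.range n, (ENNReal.ofReal e0 + ENNReal.ofReal e1 + ENNReal.ofReal c * D t + (ENNReal.ofReal (Qa / Lam2) + n * ENNReal.ofReal m3)) :=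
        Finset.sum_le_sum fun t ht => (h1 t (Finset.mem_range.1 ht)).trans (by gcongr; exact hB t (Finset.mem_range.1 ht))
    _ = n * (ENNReal.ofReal e0 + ENNReal.ofReal e1) + ENNReal.ofReal c * ∑ t ∈ Finset.range n, D t
        + n * (ENNReal.ofReal (Qa / Lam2) + n * ENNReal.ofReal m3) := by
        rw [Finset.sum_add_distrib, Finset.sum_add_distrib, Finset.sum_const, Finset.sum_const, Finset.card_range, nsmul_eq_mul, nsmul_eq_mul,
          ← Finset.mul_sum]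
    _ ≤ _ := by gcongr

/-- LEAF (real analysis of powers).  All the smallness used by the glue.  `n = ceil(L^(1-kap))`, so `L^(1-kap) <= n <= 2 L`;  `(1 + C3/L)^n <= exp(2 C3)`;
the three exponents `-eps/2`, `1 - kap - 3 + ..`, `1 - 2 chi + kap + 13.5 eps` are negative (`P.hb`). -/
theorem u3t_arith (P : U3Exp) (C₃ : ℝ) (hC₃ : 0 ≤ C₃) (ε : ℝ) (hε : 0 < ε) : ∃ L₀ : ℝ, ∀ L : ℝ, L₀ ≤ L →
    1 ≤ L ∧ 0 < u3N P L ∧ L ^ (3 - 2 * P.χ + P.ε / 2) ≤ u3Lam P L ^ 2 ∧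
    (u3N P L : ℝ) * (ε / 4 + ε / 8) + L ^ (-1 + 9 * P.ε) * ((1 + C₃ / L) ^ (u3N P L) * L ^ (3 - 2 * P.χ + P.ε / 2) / L ^ (-(4 * P.ε)))
      + (u3N P L : ℝ) * ((1 + C₃ / L) ^ (u3N P L) * L ^ (3 - 2 * P.χ + P.ε / 2) / u3Lam P L ^ 2 + (u3N P L : ℝ) * (2 * L ^ (-3 : ℝ)))
      ≤ ε * (u3N P L : ℝ) := by
  have hκ := P.hκ
  have hPε := P.hε
  have hb := P.hb
  have hχ1 := P.hχ1
  obtain ⟨Q, hQ⟩ : ∃ Q : ℝ, Q = Real.exp (2 * C₃) := ⟨_, rfl⟩
  have hQ0 : 0 < Q := by rw [hQ]; exact Real.exp_pos _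
  obtain ⟨δ, hδ⟩ : ∃ δ : ℝ, δ = -(1 - 2 * P.χ + P.κ + 13.5 * P.ε) := ⟨_, rfl⟩
  have hδ0 : 0 < δ := by rw [hδ]; linarith
  have e1 : ∀ᶠ L : ℝ in atTop, L ^ (-δ) ≤ ε / (4 * Q) := (tendsto_rpow_neg_atTop hδ0).eventually (Iic_mem_nhds (by positivity))
  have e2 : ∀ᶠ L : ℝ in atTop, L ^ (-(P.ε / 2)) ≤ ε / (8 * Q) :=
    (tendsto_rpow_neg_atTop (half_pos hPε)).eventually (Iic_mem_nhds (by positivity))
  have e3 : ∀ᶠ L : ℝ in atTop, L ^ (-(2 : ℝ)) ≤ ε / 32 := (tendsto_rpow_neg_atTop two_pos).eventually (Iic_mem_nhds (by positivity))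
  obtain ⟨L₀, h⟩ := eventually_atTop.1 (e1.and (e2.and (e3.and (eventually_ge_atTop (1 : ℝ)))))
  refine ⟨L₀, fun L hL => ?_⟩
  obtain ⟨h1, h2, h3, hL1⟩ := h L hL
  have hL0 : 0 < L := by linarith
  obtain ⟨a, ha⟩ : ∃ a : ℝ, a = L ^ (1 - P.κ) := ⟨_, rfl⟩
  have ha0 : 0 < a := by rw [ha]; exact Real.rpow_pos_of_pos hL0 _
  have haL : a ≤ L := by
    rw [ha]
    calc L ^ (1 - P.κ) ≤ L ^ (1 : ℝ) := Real.rpow_le_rpow_of_exponent_le hL1 (by linarith)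
      _ = L := Real.rpow_one L
  have hn1 : a ≤ (u3N P L : ℝ) := by rw [ha]; exact Nat.le_ceil _
  have hn2 : (u3N P L : ℝ) ≤ a + 1 := by rw [ha]; exact (Nat.ceil_lt_add_one (by rw [← ha]; exact ha0.le)).le
  have hnpos : 0 < u3N P L := by unfold u3N; rw [← ha]; exact Nat.ceil_pos.2 ha0
  have hn3 : (u3N P L : ℝ) ≤ 2 * L := by linarith
  have hq : (1 + C₃ / L) ^ (u3N P L) ≤ Q := by
    have hx : 1 + C₃ / L ≤ Real.exp (C₃ / L) := by linarith [Real.add_one_le_exp (C₃ / L)]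
    calc (1 + C₃ / L) ^ (u3N P L) ≤ Real.exp (C₃ / L) ^ (u3N P L) := pow_le_pow_left₀ (by positivity) hx _
      _ = Real.exp (u3N P L * (C₃ / L)) := (Real.exp_nat_mul _ _).symm
      _ ≤ Q := by
          rw [hQ]
          refine Real.exp_le_exp.2 ?_
          calc (u3N P L : ℝ) * (C₃ / L) ≤ 2 * L * (C₃ / L) := mul_le_mul_of_nonneg_right hn3 (by positivity)
            _ = 2 * C₃ := by field_simp
  have hq0 : 0 ≤ (1 + C₃ / L) ^ (u3N P L) := by positivity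
  have hLam : u3Lam P L ^ 2 = L ^ (3 - 2 * P.χ + P.ε) := by
    unfold u3Lam
    rw [← Real.rpow_natCast, ← Real.rpow_mul hL0.le]
    congr 1
    push_cast
    ring
  refine ⟨hL1, hnpos, ?_, ?_⟩
  · rw [hLam]
    exact Real.rpow_le_rpow_of_exponent_le hL1 (by linarith)
  generalize (1 + C₃ / L) ^ (u3N P L) = q at hq hq0
  generalize (u3N P L : ℝ) = n at hn1 hn2 hn3
  have hn0 : 0 < n := lt_of_lt_of_le ha0 hn1
  have eB : L ^ (-1 + 9 * P.ε) * (q * L ^ (3 - 2 * P.χ + P.ε / 2) / L ^ (-(4 * P.ε))) = q * (a * L ^ (-δ)) := by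
    rw [mul_div_assoc, ← Real.rpow_sub hL0, mul_left_comm, ← Real.rpow_add hL0, ha, ← Real.rpow_add hL0]
    congr 2
    rw [hδ]
    ring
  have eC : q * L ^ (3 - 2 * P.χ + P.ε / 2) / u3Lam P L ^ 2 = q * L ^ (-(P.ε / 2)) := by
    rw [hLam, mul_div_assoc, ← Real.rpow_sub hL0]
    congr 2
    ring
  have e3' : n * (2 * L ^ (-3 : ℝ)) ≤ ε / 8 := by
    have : L ^ (-3 : ℝ) = L ^ (-(2 : ℝ)) * L⁻¹ := by
      rw [← Real.rpow_neg_one L, ← Real.rpow_add hL0]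
      norm_num
    rw [this]
    have h5 : n * L⁻¹ ≤ 2 := by
      rw [← div_eq_mul_inv, div_le_iff₀ hL0]
      exact hn3
    have h6 : 0 ≤ L ^ (-(2 : ℝ)) := Real.rpow_nonneg hL0.le _
    calc n * (2 * (L ^ (-(2 : ℝ)) * L⁻¹)) = 2 * L ^ (-(2 : ℝ)) * (n * L⁻¹) := by ring
      _ ≤ 2 * L ^ (-(2 : ℝ)) * 2 := mul_le_mul_of_nonneg_left h5 (by positivity)
      _ ≤ ε / 8 := by linarith
  have b1 : q * (a * L ^ (-δ)) ≤ n * (ε / 4) := by
    calc q * (a * L ^ (-δ)) ≤ Q * (a * (ε / (4 * Q))) :=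
          mul_le_mul hq (mul_le_mul_of_nonneg_left h1 ha0.le) (mul_nonneg ha0.le (Real.rpow_nonneg hL0.le _)) hQ0.le
      _ = a * (ε / 4) := by field_simp
      _ ≤ n * (ε / 4) := mul_le_mul_of_nonneg_right hn1 (by positivity)
  have b2 : q * L ^ (-(P.ε / 2)) ≤ ε / 8 := by
    calc q * L ^ (-(P.ε / 2)) ≤ Q * (ε / (8 * Q)) := mul_le_mul hq h2 (Real.rpow_nonneg hL0.le _) hQ0.le
      _ = ε / 8 := by field_simp
  rw [eB, eC]
  have b3 : n * (q * L ^ (-(P.ε / 2)) + n * (2 * L ^ (-3 : ℝ))) ≤ n * (ε / 8 + ε / 8) :=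
    mul_le_mul_of_nonneg_left (add_le_add b2 e3') hn0.le
  nlinarith [mul_pos hn0 hε]

/-- LEAF.  At time `0` everything is an integral over `A x A`: if `G <= c` at all cut pairs of regular configurations then `ugE <= c` (`ugE .. 0 G = ∫⁻ x in A, ∫⁻ y in A, G (cPos K x, cPos K y)`; `setLIntegral_mono'`-type bound, masses `<= 1`). -/
theorem ug_zero_le (μ₁ μ₂ : Measure Conf) [IsProbabilityMeasure μ₁] [IsProbabilityMeasure μ₂] (K : ℕ) {A : Set Conf} (hA : MeasurableSet A)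
    (S : Set (Dat K × Dat K)) (G : Dat K × Dat K → ℝ≥0∞) (c : ℝ≥0∞) (h : ∀ x ∈ A, ∀ y ∈ A, G (cPos K x, cPos K y) ≤ c) :
    ugE (μ₁.restrict A) (μ₂.restrict A) K S 0 G ≤ c := by
  have a1 : (μ₁.restrict A) Set.univ ≤ 1 := by rw [Measure.restrict_apply_univ]; exact prob_le_one
  have a2 : (μ₂.restrict A) Set.univ ≤ 1 := by rw [Measure.restrict_apply_univ]; exact prob_le_one
  unfold ugE
  simp only [Function.iterate_zero, id]
  calc ∫⁻ x in A, ∫⁻ y in A, G (cPos K x, cPos K y) ∂μ₂ ∂μ₁ ≤ ∫⁻ _x in A, c ∂μ₁ := by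
        refine setLIntegral_mono' hA fun x hx => ?_
        calc ∫⁻ y in A, G (cPos K x, cPos K y) ∂μ₂ ≤ ∫⁻ _y in A, c ∂μ₂ := setLIntegral_mono' hA fun y hy => h x hx y hy
          _ = c * (μ₂.restrict A) Set.univ := lintegral_const c
          _ ≤ c * 1 := by gcongr
          _ = c := mul_one c
    _ = c * (μ₁.restrict A) Set.univ := lintegral_const c
    _ ≤ c * 1 := by gcongr
    _ = c := mul_one c

/-- LEAF.  `0 <= b2Obs <= 1` (`b2l_Lp_mem`), so the difference is bounded measurable with values in `[0, 1]`. -/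
theorem u3t_F_bm {K : ℕ} (h : ℝ → ℝ) (hc : Continuous h) (hn : ∀ t, 0 ≤ h t) (T : ℝ) (hT : 0 < T) :
    B2Bm (fun p : Dat K × Dat K => |b2Obs h T p.1 - b2Obs h T p.2|) ∧ ∀ p : Dat K × Dat K, |b2Obs h T p.1 - b2Obs h T p.2| ≤ 1 := by
  obtain ⟨hcont, hb⟩ := b2c_obs_bc (K := K) hc hn hT
  have h0 : ∀ x : Dat K, 0 ≤ b2Obs h T x := by
    intro x
    unfold b2Obs
    exact mul_nonneg (by positivity) (intervalIntegral.integral_nonneg (by linarith) fun t _ => (Real.exp_pos _).le)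
  have h1 : ∀ p : Dat K × Dat K, |b2Obs h T p.1 - b2Obs h T p.2| ≤ 1 := by
    intro p
    have a1 := (abs_le.1 (hb p.1)).2
    have a2 := (abs_le.1 (hb p.2)).2
    rw [abs_le]
    exact ⟨by linarith [h0 p.1], by linarith [h0 p.2]⟩
  refine ⟨⟨?_, 1, fun p => ?_⟩, h1⟩
  · exact (((hcont.comp continuous_fst).sub (hcont.comp continuous_snd)).abs).measurable
  · rw [abs_abs]
    exact h1 p

theorem ug_b2E_nonneg (μ₁ μ₂ : Measure Conf) (K t : ℕ) {F : Dat K × Dat K → ℝ} (h0 : ∀ p, 0 ≤ F p) : 0 ≤ b2E μ₁ μ₂ K 1 t F := by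
  have key : ∀ (t : ℕ) (G : Dat K × Dat K → ℝ), (∀ p, 0 ≤ G p) → ∀ p, 0 ≤ ((b2Q 1)^[t] G) p := by
    intro t
    induction t with
    | zero => intro G hG p; exact hG p
    | succ k ih =>
      intro G hG p
      rw [Function.iterate_succ_apply]
      exact ih _ (fun q => integral_nonneg fun N => hG _) p
  exact integral_nonneg fun x => integral_nonneg fun y => key t F h0 _

/-- **NODE (glue, helper295) = `b2_pair`**. -/
theorem u3t_pair (ρ ξ : ℝ) (hρ : 0 < ρ) (hξ : 1 / 2 < ξ) (μ₁ μ₂ : Measure Conf) [IsProbabilityMeasure μ₁] [IsProbabilityMeasure μ₂]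
    (hR₁ : LReg ρ ξ μ₁) (hI₁ : LStat μ₁) (hR₂ : LReg ρ ξ μ₂) (hI₂ : LStat μ₂)
    (h : ℝ → ℝ) (hc : Continuous h) (hs : HasCompactSupport h) (hn : ∀ t, 0 ≤ h t) (ε : ℝ) (hε : 0 < ε) :
    ∃ (T : ℝ) (n₀ : ℕ), 0 < T ∧ 0 < n₀ ∧ ∀ᶠ K : ℕ in atTop,
      ∑ n ∈ Finset.range n₀, b2E μ₁ μ₂ K 1 n (fun p => |b2Obs h T p.1 - b2Obs h T p.2|) ≤ ε * n₀ := by
  classical
  -- exponents
  set χ : ℝ := (1 / 2 + min ξ 1) / 2 with hχdef
  have hm : 1 / 2 < min ξ 1 := lt_min hξ (by norm_num)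
  have hχ : 1 / 2 < χ := by rw [hχdef]; linarith
  have hχm : χ < min ξ 1 := by rw [hχdef]; linarith
  have hχξ : χ < ξ := lt_of_lt_of_le hχm (min_le_left _ _)
  have hχ1 : χ < 1 := lt_of_lt_of_le hχm (min_le_right _ _)
  let P : U3Exp := ⟨χ, (5 / 2 - χ) / 2, (2 * χ - 1) / 32, (2 * χ - 1) / 32, hχ, hχ1, by linarith, by linarith, by linarith, by linarith, by linarith⟩
  have hPχ : P.χ = χ := rfl
  have hξ0 : 0 < ξ := by linarith
  -- regular initial configurations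
  have ha₁ := u3t_pos ρ ξ χ hρ (by linarith) hχξ hχ1 μ₁ hR₁
  have ha₂ := u3t_pos ρ ξ χ hρ (by linarith) hχξ hχ1 μ₂ hR₂
  obtain ⟨C₀, J₀, hA₁, hA₂⟩ := u3t_A_mass ρ χ μ₁ μ₂ ha₁ ha₂ (ε / 8) (by linarith)
  obtain ⟨C₁, hC₁, hmar⟩ := u3t_mar ρ hρ
  obtain ⟨La, hLa⟩ := hmar ξ hξ0 P C₀ J₀ μ₁ μ₂ hR₁ hI₁ hR₂ hI₂
  obtain ⟨C₃, Lb, hC₃, hLb⟩ := u3t_one_step ρ hρ P C₁ hC₁
  obtain ⟨Lc, hLc⟩ := u3t_init ρ hρ P C₀ J₀
  obtain ⟨Ld, hLd⟩ := u3t_cmp ρ hρ P C₁ hC₁ h hc hs hn (ε / 8) (by linarith)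
  obtain ⟨Le, hLe⟩ := u3t_arith P C₃ hC₃ ε hε
  set L : ℝ := max La (max Lb (max Lc (max Ld Le))) with hLdef
  have hL1 : La ≤ L := le_max_left _ _
  have hL2 : Lb ≤ L := le_trans (le_max_left _ _) (le_max_right _ _)
  have hL3 : Lc ≤ L := le_trans (le_trans (le_max_left _ _) (le_max_right _ _)) (le_max_right _ _)
  have hL4 : Ld ≤ L := le_trans (le_trans (le_trans (le_max_left _ _) (le_max_right _ _)) (le_max_right _ _)) (le_max_right _ _)
  have hL5 : Le ≤ L := le_trans (le_trans (le_trans (le_max_right _ _) (le_max_right _ _)) (le_max_right _ _)) (le_max_right _ _)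
  obtain ⟨hLone, hnpos, hinitLam, harith⟩ := hLe L hL5
  have hLpos : 0 < L := by linarith
  refine ⟨L / 2, u3N P L, by linarith, hnpos, ?_⟩
  filter_upwards [hLa L hL1] with K hK
  -- objects
  set n : ℕ := u3N P L with hndef
  set A : Set Conf := u3A ρ P.χ C₀ J₀ with hAdef
  have hAm : MeasurableSet A := u3t_A_meas ρ P.χ C₀ J₀
  set S : Set (Dat K × Dat K) := u3S P ρ C₁ L K with hSdef
  obtain ⟨hSm, hcm, hdm, hM1m, hM2m⟩ := ug_meas P ρ C₁ L K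
  set ν₁ : Measure Conf := μ₁.restrict A with hν₁
  set ν₂ : Measure Conf := μ₂.restrict A with hν₂
  set F : Dat K × Dat K → ℝ := fun p => |b2Obs h (L / 2) p.1 - b2Obs h (L / 2) p.2| with hFdef
  obtain ⟨hFbm, hF1⟩ := u3t_F_bm (K := K) h hc hn (L / 2) (by linarith)
  have hF0 : ∀ p, 0 ≤ F p := fun p => abs_nonneg _
  set Ff : Dat K × Dat K → ℝ≥0∞ := fun p => ENNReal.ofReal (F p) with hFfdef
  have hFfm : Measurable Ff := hFbm.1.ennreal_ofReal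
  have hFf1 : ∀ p, Ff p ≤ 1 := fun p => by
    rw [hFfdef]; exact ENNReal.ofReal_le_one.2 (hF1 p)
  set cost : Dat K × Dat K → ℝ≥0∞ := fun p => ENNReal.ofReal (uwCost L P.α p.1 p.2) with hcostdef
  set dis : Dat K × Dat K → ℝ≥0∞ := fun p => ENNReal.ofReal (uwDis L p.1 p.2) with hdisdef
  have hcostm : Measurable cost := hcm.ennreal_ofReal
  have hdism : Measurable dis := hdm.ennreal_ofReal
  set Lam2 : ℝ := u3Lam P L ^ 2 with hLam2def
  have hLam2pos : 0 < Lam2 := by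
    rw [hLam2def, u3Lam]; positivity
  set e1 : ℝ := L ^ (3 - 2 * P.χ + P.ε / 2) with he1def
  have he1pos : 0 < e1 := by rw [he1def]; positivity
  set qq : ℝ := 1 + C₃ / L with hqqdef
  have hqq1 : 1 ≤ qq := by
    rw [hqqdef]; have : 0 ≤ C₃ / L := div_nonneg hC₃ hLpos.le
    linarith
  -- telescoping
  have htele := ug_tele ν₁ ν₂ K hSm hcostm hdism (ENNReal.ofReal qq) (ENNReal.ofReal (L ^ (-(4 * P.ε)))) (ENNReal.ofReal Lam2)
    (by rw [← ENNReal.ofReal_one]; exact ENNReal.ofReal_le_ofReal hqq1)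
    (fun p hp => ENNReal.ofReal_le_ofReal hp.2.2) (fun p hp => hLb L hL2 K p hp) n
  have ha0 : ugE ν₁ ν₂ K S 0 (S.indicator cost) ≤ ENNReal.ofReal e1 := by
    refine ug_zero_le μ₁ μ₂ K hAm S _ _ fun x hx y hy => ?_
    refine le_trans (Set.indicator_le_self _ _ _) ?_
    exact ENNReal.ofReal_le_ofReal (hLc L hL3 K x y hx hy)
  have hCs0 : ugE ν₁ ν₂ K S 0 (Set.indicator {p | ENNReal.ofReal Lam2 < cost p} 1) = 0 := by
    refine le_antisymm ?_ bot_le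
    refine ug_zero_le μ₁ μ₂ K hAm S _ _ fun x hx y hy => ?_
    have h1 : uwCost L P.α (cPos K x) (cPos K y) ≤ Lam2 := le_trans (hLc L hL3 K x y hx hy) hinitLam
    have h2 : (cPos K x, cPos K y) ∉ {p : Dat K × Dat K | ENNReal.ofReal Lam2 < cost p} := by
      intro h3
      exact absurd (ENNReal.ofReal_le_ofReal h1) (not_le.2 h3)
    rw [Set.indicator_of_notMem h2]
  have h4 : ∑ t ∈ Finset.range n, (ENNReal.ofReal (L ^ (-(4 * P.ε))) * ugE ν₁ ν₂ K S t (S.indicator dis)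
      + ENNReal.ofReal Lam2 * ugE ν₁ ν₂ K S (t + 1) (Set.indicator {p | ENNReal.ofReal Lam2 < cost p} 1)) ≤ ENNReal.ofReal (qq ^ n * e1) := by
    refine le_trans htele ?_
    rw [ENNReal.ofReal_mul (by positivity), ENNReal.ofReal_pow (by linarith)]
    exact mul_le_mul_right ha0 _
  -- the bad set
  have h2 : ∀ s, s ≤ n → ugE ν₁ ν₂ K S s (Sᶜ.indicator 1)
      ≤ ugE ν₁ ν₂ K S s (Set.indicator {p | ENNReal.ofReal Lam2 < cost p} 1) + ENNReal.ofReal (2 * L ^ (-3 : ℝ)) := by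
    intro s hs
    obtain ⟨hK1, hK2⟩ := hK s hs
    have hpt : ∀ p : Dat K × Dat K, (Sᶜ.indicator 1 : Dat K × Dat K → ℝ≥0∞) p ≤
        (Set.indicator {p | ENNReal.ofReal Lam2 < cost p} 1 : Dat K × Dat K → ℝ≥0∞) p
          + ((Set.indicator {p | ¬ ugMar L (u3Y P L) (Real.pi * ρ / 4) C₁ p.1} 1 : Dat K × Dat K → ℝ≥0∞) p
            + (Set.indicator {p | ¬ ugMar L (u3Y P L) (Real.pi * ρ / 4) C₁ p.2} 1 : Dat K × Dat K → ℝ≥0∞) p) := by
      intro p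
      by_cases hp : p ∈ S
      · rw [Set.indicator_of_notMem (by simpa using hp)]; exact bot_le
      · rw [Set.indicator_of_mem (by simpa using hp)]
        by_cases h1 : ugMar L (u3Y P L) (Real.pi * ρ / 4) C₁ p.1
        · by_cases h2 : ugMar L (u3Y P L) (Real.pi * ρ / 4) C₁ p.2
          · have h3 : ¬ uwCost L P.α p.1 p.2 ≤ Lam2 := fun h3 => hp ⟨h1, h2, h3⟩
            have h4 : p ∈ {p : Dat K × Dat K | ENNReal.ofReal Lam2 < cost p} :=
              (ENNReal.ofReal_lt_ofReal_iff (lt_trans hLam2pos (not_le.1 h3))).2 (not_le.1 h3)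
            rw [Set.indicator_of_mem h4]; exact le_self_add
          · have h4 : p ∈ {p : Dat K × Dat K | ¬ ugMar L (u3Y P L) (Real.pi * ρ / 4) C₁ p.2} := h2
            rw [Set.indicator_of_mem h4]
            exact le_trans le_add_self (le_trans le_add_self (le_refl _))
        · have h4 : p ∈ {p : Dat K × Dat K | ¬ ugMar L (u3Y P L) (Real.pi * ρ / 4) C₁ p.1} := h1
          rw [Set.indicator_of_mem h4]
          exact le_trans le_self_add le_add_self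
    have hi1 : Measurable (Set.indicator {p | ENNReal.ofReal Lam2 < cost p} 1 : Dat K × Dat K → ℝ≥0∞) :=
      measurable_one.indicator (measurableSet_lt measurable_const hcostm)
    have hi2 : Measurable (Set.indicator {p | ¬ ugMar L (u3Y P L) (Real.pi * ρ / 4) C₁ p.1} 1 : Dat K × Dat K → ℝ≥0∞) :=
      measurable_one.indicator hM1m
    have hi3 : Measurable (Set.indicator {p | ¬ ugMar L (u3Y P L) (Real.pi * ρ / 4) C₁ p.2} 1 : Dat K × Dat K → ℝ≥0∞) :=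
      measurable_one.indicator hM2m
    refine le_trans (ug_mono ν₁ ν₂ K S s hpt) ?_
    rw [ug_add ν₁ ν₂ K hSm s (G := fun p => (Set.indicator {p | ¬ ugMar L (u3Y P L) (Real.pi * ρ / 4) C₁ p.1} 1 : Dat K × Dat K → ℝ≥0∞) p
            + (Set.indicator {p | ¬ ugMar L (u3Y P L) (Real.pi * ρ / 4) C₁ p.2} 1 : Dat K × Dat K → ℝ≥0∞) p) hi1 (hi2.add hi3),
      ug_add ν₁ ν₂ K hSm s hi2 hi3]
    refine add_le_add le_rfl ?_
    have : ENNReal.ofReal (2 * L ^ (-3 : ℝ)) = ENNReal.ofReal (L ^ (-3 : ℝ)) + ENNReal.ofReal (L ^ (-3 : ℝ)) := by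
      rw [← ENNReal.ofReal_add (by positivity) (by positivity)]; ring_nf
    rw [this]
    exact add_le_add (le_trans (ug_mono_set ν₁ ν₂ K S s _) hK1) (le_trans (ug_mono_set ν₁ ν₂ K S s _) hK2)
  -- one time
  have h1 : ∀ t, t < n → ENNReal.ofReal (b2E μ₁ μ₂ K 1 t F) ≤ ENNReal.ofReal (ε / 4) + ENNReal.ofReal (ε / 8)
      + ENNReal.ofReal (L ^ (-1 + 9 * P.ε)) * ugE ν₁ ν₂ K S t (S.indicator dis) + ∑ s ∈ Finset.range (t + 1), ugE ν₁ ν₂ K S s (Sᶜ.indicator 1) := by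
    intro t _
    rw [ug_bridge μ₁ μ₂ K t hFbm hF0]
    have s1 := ug_restrict μ₁ μ₂ K t hAm hAm hFfm hFf1
    have s2 := ug_exit ν₁ ν₂ K hSm t hFfm hFf1
    have hpt : ∀ p, S.indicator Ff p ≤ ENNReal.ofReal (ε / 8) * 1 + ENNReal.ofReal (L ^ (-1 + 9 * P.ε)) * S.indicator dis p := by
      intro p
      by_cases hp : p ∈ S
      · have hD0 : 0 ≤ uwDis L p.1 p.2 := by
          unfold uwDis
          exact Finset.sum_nonneg fun j _ => by split_ifs <;> positivity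
        rw [Set.indicator_of_mem hp, Set.indicator_of_mem hp, mul_one, ← ENNReal.ofReal_mul (by positivity),
          ← ENNReal.ofReal_add (by linarith) (mul_nonneg (by positivity) hD0)]
        exact ENNReal.ofReal_le_ofReal (hLd L hL4 K p hp)
      · rw [Set.indicator_of_notMem hp]; exact bot_le
    have s3 : ugE ν₁ ν₂ K S t (S.indicator Ff) ≤ ENNReal.ofReal (ε / 8) + ENNReal.ofReal (L ^ (-1 + 9 * P.ε)) * ugE ν₁ ν₂ K S t (S.indicator dis) := by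
      refine le_trans (ug_mono ν₁ ν₂ K S t hpt) ?_
      rw [ug_add ν₁ ν₂ K hSm t (measurable_const) ((hdism.indicator hSm).const_mul _),
        ug_const_mul ν₁ ν₂ K hSm t _ (hdism.indicator hSm), ug_const_mul ν₁ ν₂ K hSm t _ measurable_const]
      refine add_le_add ?_ le_rfl
      have hmass : ugE ν₁ ν₂ K S t (fun _ => 1) ≤ 1 := by
        refine le_trans (ug_one_le ν₁ ν₂ K S t) ?_
        have a1 : ν₁ Set.univ ≤ 1 := by rw [hν₁, Measure.restrict_apply_univ]; exact prob_le_one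
        have a2 : ν₂ Set.univ ≤ 1 := by rw [hν₂, Measure.restrict_apply_univ]; exact prob_le_one
        calc ν₁ Set.univ * ν₂ Set.univ ≤ 1 * 1 := mul_le_mul' a1 a2
          _ = 1 := one_mul 1
      calc ENNReal.ofReal (ε / 8) * ugE ν₁ ν₂ K S t (fun _ => 1) ≤ ENNReal.ofReal (ε / 8) * 1 := mul_le_mul_right hmass _
        _ = ENNReal.ofReal (ε / 8) := mul_one _
    have e4 : ENNReal.ofReal (ε / 4) = ENNReal.ofReal (ε / 8) + ENNReal.ofReal (ε / 8) := by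
      rw [← ENNReal.ofReal_add (by linarith) (by linarith)]; ring_nf
    calc ugE μ₁ μ₂ K Set.univ t Ff ≤ ugE ν₁ ν₂ K Set.univ t Ff + μ₁ Aᶜ + μ₂ Aᶜ := s1
      _ ≤ (ugE ν₁ ν₂ K S t (S.indicator Ff) + ∑ s ∈ Finset.range (t + 1), ugE ν₁ ν₂ K S s (Sᶜ.indicator 1))
            + ENNReal.ofReal (ε / 8) + ENNReal.ofReal (ε / 8) := add_le_add (add_le_add s2 hA₁) hA₂
      _ ≤ ((ENNReal.ofReal (ε / 8) + ENNReal.ofReal (L ^ (-1 + 9 * P.ε)) * ugE ν₁ ν₂ K S t (S.indicator dis))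
            + ∑ s ∈ Finset.range (t + 1), ugE ν₁ ν₂ K S s (Sᶜ.indicator 1)) + ENNReal.ofReal (ε / 8) + ENNReal.ofReal (ε / 8) :=
          add_le_add (add_le_add (add_le_add s3 le_rfl) le_rfl) le_rfl
      _ = _ := by rw [e4]; ring
  have hfin := u3t_final n (fun t => ENNReal.ofReal (b2E μ₁ μ₂ K 1 t F)) (fun t => ugE ν₁ ν₂ K S t (S.indicator dis))
    (fun s => ugE ν₁ ν₂ K S s (Set.indicator {p | ENNReal.ofReal Lam2 < cost p} 1)) (fun s => ugE ν₁ ν₂ K S s (Sᶜ.indicator 1))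
    (ε / 4) (ε / 8) (L ^ (-1 + 9 * P.ε)) (2 * L ^ (-3 : ℝ)) (qq ^ n * e1) (L ^ (-(4 * P.ε))) Lam2 (by linarith) (by linarith)
    (by positivity) (by positivity) (by positivity) (by positivity) hLam2pos h1 h2 hCs0 h4
  -- back to real numbers
  have hb0 : ∀ t, 0 ≤ b2E μ₁ μ₂ K 1 t F := fun t => ug_b2E_nonneg μ₁ μ₂ K t hF0
  rw [← ENNReal.ofReal_sum_of_nonneg fun t _ => hb0 t] at hfin
  have hpos : 0 ≤ (n : ℝ) * (ε / 4 + ε / 8) + L ^ (-1 + 9 * P.ε) * (qq ^ n * e1 / L ^ (-(4 * P.ε))) + (n : ℝ) * (qq ^ n * e1 / Lam2 + (n : ℝ) * (2 * L ^ (-3 : ℝ))) := by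
    positivity
  exact le_trans ((ENNReal.ofReal_le_ofReal_iff hpos).1 hfin) harith

end Claimed.Agent.R287
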