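-- KEEP
import Claimed.Agent.R287.Defs
import Claimed.Agent.R287.Eig
import Claimed.Agent.R287.Defs.B2
import Claimed.Agent.R287.B2Lim
import Claimed.Agent.R287.U1
import Claimed.Agent.R287.U3Top

/-!
# Row 287 (S0534), unit B2 = `exit_uniq` (uniqueness of the stationary law)      head helper275      prefix `b2_`, defs `b2…`, `Dat`

PLAN = `origin/helper275:notes/R287/B2_plan_275.md` (math, all constants), referee note `A9_helper275.md`.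
NEW w.r.t. route102 U3/U4: NO infimum over couplings, NO compactness, NO limit laws of pairs.  Everything is done at FINITE `K`:
* the COUPLED CHAIN on pairs of sorted data `(x, y) : Dat K × Dat K`: one step = eigenvalues of `diag x + √Δ W`, `diag y + √Δ W`, SAME `W` (kernel `b2Q`);
  each coordinate alone is the GOE chain (rotation invariance), and `n` steps of size `Δ` = one step of size `nΔ` (additivity), so only `LStat` at `nΔ` is used;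
* start: independent samples of `μ₁`, `μ₂`, canonical labels;  `C_{n+1} ≤ (1 + ε_L) C_n - D_n + r`  ⟹  `∑_{n < n₀} D_n ≤ (1 + e) C_0 + n₀ r`, `n₀ ~ 1/ε_L`  ⟹  the average dissipation is `o(L)`;
* small dissipation ⟹ most gaps of `x` and `y` with the same label agree ⟹ the window averaged Laplace observables `b2Obs` of `x` and `y` agree (pathwise comparison);
* `E b2Obs → cLap μ h` as `K → ∞` by `LStat` (trace form) + Stieltjes approximation (K9) + translation invariance (U1).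
-/

set_option autoImplicit false
open MeasureTheory ProbabilityTheory Matrix Filter Topology

namespace Claimed.Agent.R287

/-! ## 0. Definitions of the top level: moved VERBATIM to `R287/Defs/B2.lean` (import order: `B2.lean` imports the sub-units `B2Lim`, `B2U1`) -/

/-- **U1** (sub-unit U1, head helper67): translation invariance of the Laplace functional = `u1_transl` (`R287/U1.lean`). -/
theorem b2_transl (ρ ξ : ℝ) (hρ : 0 < ρ) (hξ : 0 < ξ) (μ : Measure Conf) [IsProbabilityMeasure μ] (hR : LReg ρ ξ μ) (hI : LStat μ)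
    (h : ℝ → ℝ) (hc : Continuous h) (hs : HasCompactSupport h) (hn : ∀ t, 0 ≤ h t) (s : ℝ) : cLap μ (fun t => h (t - s)) = cLap μ h :=
  u1_transl hρ hξ μ hR hI s h hc hs hn

/-! ## 1. The three nodes of the top level -/

/-- **NODE LIM (first coordinate)**.  `E b2Obs(x^{(n)}) → cLap μ₁ h`.
Plan: (i) `(b2Q Δ)^[n] (F ∘ fst) (x, y) = ` single chain, `= ∫ F (b2Step (nΔ) x N)` for symmetric `F` (rotation invariance + additivity, kit GOE-law);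
(ii) for fixed `t`: `E exp(-∑ h(λ_i - t)) → cLap μ (h(· - t))` (`b2_lap_lim`: K9 + LStat + LReg);  (iii) `= cLap μ h` by U1 (`b2_transl`);  (iv) dominated convergence in `t`. -/
theorem b2_obs_lim_fst (ρ ξ : ℝ) (hρ : 0 < ρ) (hξ : 0 < ξ) (μ₁ μ₂ : Measure Conf) [IsProbabilityMeasure μ₁] [IsProbabilityMeasure μ₂]
    (hR₁ : LReg ρ ξ μ₁) (hI₁ : LStat μ₁) (h : ℝ → ℝ) (hc : Continuous h) (hs : HasCompactSupport h) (hn : ∀ t, 0 ≤ h t)
    (Δ T : ℝ) (hΔ : 0 < Δ) (hT : 0 < T) (n : ℕ) :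
    Tendsto (fun K : ℕ => b2E μ₁ μ₂ K Δ n (fun p => b2Obs h T p.1)) atTop (𝓝 (cLap μ₁ h)) :=
  b2l_obs_lim_fst ρ ξ hρ μ₁ μ₂ hR₁ hI₁ h hc hs hn (b2_transl ρ ξ hρ hξ μ₁ hR₁ hI₁ h hc hs hn) Δ T hΔ hT n

/-- **NODE LIM (second coordinate)** -/
theorem b2_obs_lim_snd (ρ ξ : ℝ) (hρ : 0 < ρ) (hξ : 0 < ξ) (μ₁ μ₂ : Measure Conf) [IsProbabilityMeasure μ₁] [IsProbabilityMeasure μ₂]
    (hR₂ : LReg ρ ξ μ₂) (hI₂ : LStat μ₂) (h : ℝ → ℝ) (hc : Continuous h) (hs : HasCompactSupport h) (hn : ∀ t, 0 ≤ h t)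
    (Δ T : ℝ) (hΔ : 0 < Δ) (hT : 0 < T) (n : ℕ) :
    Tendsto (fun K : ℕ => b2E μ₁ μ₂ K Δ n (fun p => b2Obs h T p.2)) atTop (𝓝 (cLap μ₂ h)) :=
  b2l_obs_lim_snd ρ ξ hρ μ₁ μ₂ hR₂ hI₂ h hc hs hn (b2_transl ρ ξ hρ hξ μ₂ hR₂ hI₂ h hc hs hn) Δ T hΔ hT n

/-- **NODE ABS**.  `b2E` is linear and monotone on bounded continuous functions.
Plan: `b2Step` is continuous in `(x, N)` (`eig_D_cont`), `0 ≤ b2Obs ≤ 1` and continuous; by induction on `n`, `(b2Q Δ)^[n] F` is bounded continuous, linear, monotone in `F`. -/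
theorem b2_E_abs_sub (μ₁ μ₂ : Measure Conf) [IsProbabilityMeasure μ₁] [IsProbabilityMeasure μ₂]
    (h : ℝ → ℝ) (hc : Continuous h) (hn : ∀ t, 0 ≤ h t) (K : ℕ) (Δ T : ℝ) (hΔ : 0 < Δ) (hT : 0 < T) (n : ℕ) :
    |b2E μ₁ μ₂ K Δ n (fun p => b2Obs h T p.1) - b2E μ₁ μ₂ K Δ n (fun p => b2Obs h T p.2)|
      ≤ b2E μ₁ μ₂ K Δ n (fun p => |b2Obs h T p.1 - b2Obs h T p.2|) :=
  b2l_E_abs_sub μ₁ μ₂ h hc hn K Δ T hT n

/-- **PAIR** (U3 at finite `K`) = `u3t_pair` (`R287/U3Top.lean`, helper295): on the average over the first `n₀` steps the two observables are close. -/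
theorem b2_pair (ρ ξ : ℝ) (hρ : 0 < ρ) (hξ : 1 / 2 < ξ) (μ₁ μ₂ : Measure Conf) [IsProbabilityMeasure μ₁] [IsProbabilityMeasure μ₂]
    (hR₁ : LReg ρ ξ μ₁) (hI₁ : LStat μ₁) (hR₂ : LReg ρ ξ μ₂) (hI₂ : LStat μ₂)
    (h : ℝ → ℝ) (hc : Continuous h) (hs : HasCompactSupport h) (hn : ∀ t, 0 ≤ h t) (ε : ℝ) (hε : 0 < ε) :
    ∃ (T : ℝ) (n₀ : ℕ), 0 < T ∧ 0 < n₀ ∧ ∀ᶠ K : ℕ in atTop,
      ∑ n ∈ Finset.range n₀, b2E μ₁ μ₂ K 1 n (fun p => |b2Obs h T p.1 - b2Obs h T p.2|) ≤ ε * n₀ :=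
  u3t_pair ρ ξ hρ hξ μ₁ μ₂ hR₁ hI₁ hR₂ hI₂ h hc hs hn ε hε

/-- **EXIT UNIQ** from the nodes -/
theorem b2_uniq (ρ ξ : ℝ) (hρ : 0 < ρ) (hξ : 1 / 2 < ξ) (μ₁ μ₂ : Measure Conf) [IsProbabilityMeasure μ₁] [IsProbabilityMeasure μ₂]
    (hR₁ : LReg ρ ξ μ₁) (hI₁ : LStat μ₁) (hR₂ : LReg ρ ξ μ₂) (hI₂ : LStat μ₂)
    (h : ℝ → ℝ) (hc : Continuous h) (hs : HasCompactSupport h) (hn : ∀ t, 0 ≤ h t) : cLap μ₁ h = cLap μ₂ h := by
  have hξ0 : 0 < ξ := by linarith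
  have key : ∀ ε : ℝ, 0 < ε → |cLap μ₁ h - cLap μ₂ h| ≤ ε := by
    intro ε hε
    obtain ⟨T, n₀, hT, hn₀, hev⟩ := b2_pair ρ ξ hρ hξ μ₁ μ₂ hR₁ hI₁ hR₂ hI₂ h hc hs hn ε hε
    have hn₀' : (0 : ℝ) < n₀ := by exact_mod_cast hn₀
    have hlim : Tendsto (fun K : ℕ => ∑ n ∈ Finset.range n₀,
        (b2E μ₁ μ₂ K 1 n (fun p => b2Obs h T p.1) - b2E μ₁ μ₂ K 1 n (fun p => b2Obs h T p.2))) atTop
        (𝓝 (∑ _n ∈ Finset.range n₀, (cLap μ₁ h - cLap μ₂ h))) := by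
      refine tendsto_finsetSum _ fun n _ => ?_
      exact (b2_obs_lim_fst ρ ξ hρ hξ0 μ₁ μ₂ hR₁ hI₁ h hc hs hn 1 T one_pos hT n).sub
        (b2_obs_lim_snd ρ ξ hρ hξ0 μ₁ μ₂ hR₂ hI₂ h hc hs hn 1 T one_pos hT n)
    have hb : ∀ᶠ K : ℕ in atTop, |∑ n ∈ Finset.range n₀,
        (b2E μ₁ μ₂ K 1 n (fun p => b2Obs h T p.1) - b2E μ₁ μ₂ K 1 n (fun p => b2Obs h T p.2))| ≤ ε * n₀ := by
      filter_upwards [hev] with K hK
      refine le_trans (Finset.abs_sum_le_sum_abs _ _) (le_trans (Finset.sum_le_sum fun n _ => ?_) hK)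
      exact b2_E_abs_sub μ₁ μ₂ h hc hn K 1 T one_pos hT n
    have h1 := le_of_tendsto hlim.abs hb
    rw [Finset.sum_const, Finset.card_range, nsmul_eq_mul, abs_mul, abs_of_pos hn₀', mul_comm] at h1
    exact le_of_mul_le_mul_right h1 hn₀'
  have h0 : |cLap μ₁ h - cLap μ₂ h| ≤ 0 := le_of_forall_pos_le_add fun ε hε => by simpa using key ε hε
  exact sub_eq_zero.1 (abs_nonpos_iff.1 h0)

end Claimed.Agent.R287
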