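-- KEEP
import Mathlib

/-!
# Row 287 (S0534), BOX[P2C]: from the Poisson transform to counts      (helper289; prefix `pc`)

P1 = GOE-bulk-universality-for-fixed-degree-random-regular-graphs, Sec. 4 (04-limits.tex), paragraph "From the Poisson transform to counts".
DETERMINISTIC, for an arbitrary s-finite measure `ν` on the line (finite `n`: sum of Dirac masses at the microscopic eigenvalues; limit object: the limiting configuration).
`pcK h e x = h / ((x-e)² + h²) = Im 1/(x - e - i h)`;      `∫ pcK h e dν = Im m(e + i h)`.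
-/

set_option autoImplicit false

namespace Claimed.Agent.R287

open MeasureTheory Set Filter Topology Real

noncomputable section

/-- the Poisson kernel `Im 1/(x - e - i h)` -/
def pcK (h e x : ℝ) : ℝ := h / ((x - e) ^ 2 + h ^ 2)

/-- the Poisson kernel integrated over `e ∈ [v,w]` -/
def pcQ (u v w x : ℝ) : ℝ := arctan ((x - v) / u) - arctan ((x - w) / u)

theorem pc_den_pos {h : ℝ} (hh : 0 < h) (e x : ℝ) : 0 < (x - e) ^ 2 + h ^ 2 := by positivity

theorem pcK_nonneg {h : ℝ} (hh : 0 < h) (e x : ℝ) : 0 ≤ pcK h e x :=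
  div_nonneg hh.le (pc_den_pos hh e x).le

theorem pcK_cont2 {h : ℝ} (hh : 0 < h) : Continuous fun p : ℝ × ℝ => pcK h p.1 p.2 := by
  unfold pcK
  exact continuous_const.div (by fun_prop) fun p => (pc_den_pos hh p.1 p.2).ne'

theorem pcK_cont_e {h : ℝ} (hh : 0 < h) (x : ℝ) : Continuous fun e => pcK h e x :=
  (pcK_cont2 hh).comp (by fun_prop : Continuous fun e : ℝ => (e, x))

theorem pcK_cont_x {h : ℝ} (hh : 0 < h) (e : ℝ) : Continuous (pcK h e) :=
  (pcK_cont2 hh).comp (by fun_prop : Continuous fun x : ℝ => (e, x))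

/-- near the centre the kernel is at least `1/(2h)` -/
theorem pcK_near {h e x : ℝ} (hh : 0 < h) (hx : |x - e| ≤ h) : 1 / (2 * h) ≤ pcK h e x := by
  unfold pcK
  rw [div_le_div_iff₀ (by positivity) (pc_den_pos hh e x)]
  have : (x - e) ^ 2 ≤ h ^ 2 := by
    rw [← sq_abs]; exact pow_le_pow_left₀ (abs_nonneg _) hx 2
  nlinarith

/-- far from the centre the kernel is at least `h/(2 (x-e)²)` -/
theorem pcK_far {h e x : ℝ} (hh : 0 < h) (hx : h ≤ |x - e|) : h / (2 * (x - e) ^ 2) ≤ pcK h e x := by
  unfold pcK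
  have h2 : h ^ 2 ≤ (x - e) ^ 2 := by
    rw [← sq_abs (x - e)]; exact pow_le_pow_left₀ hh.le hx 2
  have h3 : 0 < (x - e) ^ 2 := lt_of_lt_of_le (by positivity) h2
  rw [div_le_div_iff₀ (by positivity) (pc_den_pos hh e x)]
  nlinarith

theorem pcK_le {h e x : ℝ} (hh : 0 < h) (hx : x ≠ e) : pcK h e x ≤ h / (x - e) ^ 2 := by
  unfold pcK
  have h3 : 0 < (x - e) ^ 2 := by
    have := sub_ne_zero.2 hx
    positivity
  exact div_le_div_of_nonneg_left hh.le h3 (by nlinarith [sq_nonneg h])

theorem pc_arctan_le {s : ℝ} (hs : 0 ≤ s) : arctan s ≤ s := by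
  have h1 := Real.le_tan (arctan_nonneg.2 hs) (arctan_lt_pi_div_two s)
  rwa [tan_arctan] at h1

theorem pc_arctan_compl {s : ℝ} (hs : 0 < s) : π / 2 - arctan s ≤ 1 / s := by
  rw [← arctan_inv_of_pos hs, one_div]
  exact pc_arctan_le (inv_nonneg.2 hs.le)

/-- the integrated kernel -/
theorem pc_int_kernel {u : ℝ} (hu : 0 < u) (v w x : ℝ) : ∫ e in v..w, pcK u e x = pcQ u v w x := by
  have hd : ∀ e ∈ uIcc v w, HasDerivAt (fun e => -arctan ((x - e) / u)) (pcK u e x) e := by
    intro e _
    have h1 : HasDerivAt (fun e : ℝ => (x - e) / u) (-1 / u) e :=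
      ((hasDerivAt_id e).const_sub x).div_const u
    have h2' : HasDerivAt (fun e => arctan ((x - e) / u)) (1 / (1 + ((x - e) / u) ^ 2) * (-1 / u)) e :=
      h1.arctan
    have h2 : HasDerivAt (fun e => -arctan ((x - e) / u)) (-(1 / (1 + ((x - e) / u) ^ 2) * (-1 / u))) e := h2'.neg
    have e3 : -(1 / (1 + ((x - e) / u) ^ 2) * (-1 / u)) = pcK u e x := by
      unfold pcK
      have := pc_den_pos hu e x
      have h4 : 1 + ((x - e) / u) ^ 2 = ((x - e) ^ 2 + u ^ 2) / u ^ 2 := by field_simp; ring
      rw [h4]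
      field_simp
    rw [← e3]; exact h2
  rw [intervalIntegral.integral_eq_sub_of_hasDerivAt hd ((pcK_cont_e hu x).intervalIntegrable _ _)]
  unfold pcQ
  ring

theorem pcQ_nonneg {u v w : ℝ} (hu : 0 < u) (hvw : v ≤ w) (x : ℝ) : 0 ≤ pcQ u v w x := by
  unfold pcQ
  have : (x - w) / u ≤ (x - v) / u := div_le_div_of_nonneg_right (by linarith) hu.le
  linarith [arctan_mono this]

theorem pcQ_le_pi (u v w x : ℝ) : pcQ u v w x ≤ π := by
  unfold pcQ
  linarith [arctan_lt_pi_div_two ((x - v) / u), neg_pi_div_two_lt_arctan ((x - w) / u)]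

/-- inside, at distance `> t` of both end points -/
theorem pcQ_inside {u t v w x : ℝ} (hu : 0 < u) (ht : 0 < t) (h1 : t ≤ x - v) (h2 : t ≤ w - x) :
    π - pcQ u v w x ≤ 2 * u / t := by
  unfold pcQ
  have a1 := pc_arctan_compl (s := (x - v) / u) (div_pos (by linarith) hu)
  have a2 := pc_arctan_compl (s := (w - x) / u) (div_pos (by linarith) hu)
  have e : arctan ((x - w) / u) = -arctan ((w - x) / u) := by
    rw [← arctan_neg]; congr 1; ring
  have b1 : 1 / ((x - v) / u) ≤ u / t := by
    rw [one_div_div]; exact div_le_div_of_nonneg_left hu.le ht h1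
  have b2 : 1 / ((w - x) / u) ≤ u / t := by
    rw [one_div_div]; exact div_le_div_of_nonneg_left hu.le ht h2
  have : 2 * u / t = u / t + u / t := by ring
  rw [e, this]; linarith

/-- on the left, at distance `> t` -/
theorem pcQ_left {u t v w x : ℝ} (hu : 0 < u) (ht : 0 < t) (h1 : t ≤ v - x) : pcQ u v w x ≤ u / t := by
  unfold pcQ
  have a1 := pc_arctan_compl (s := (v - x) / u) (div_pos (by linarith) hu)
  have e : arctan ((x - v) / u) = -arctan ((v - x) / u) := by
    rw [← arctan_neg]; congr 1; ring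
  have b1 : 1 / ((v - x) / u) ≤ u / t := by
    rw [one_div_div]; exact div_le_div_of_nonneg_left hu.le ht h1
  rw [e]
  linarith [neg_pi_div_two_lt_arctan ((x - w) / u)]

/-- on the right, at distance `> t` -/
theorem pcQ_right {u t v w x : ℝ} (hu : 0 < u) (ht : 0 < t) (h1 : t ≤ x - w) : pcQ u v w x ≤ u / t := by
  unfold pcQ
  have a1 := pc_arctan_compl (s := (x - w) / u) (div_pos (by linarith) hu)
  have b1 : 1 / ((x - w) / u) ≤ u / t := by
    rw [one_div_div]; exact div_le_div_of_nonneg_left hu.le ht h1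
  linarith [arctan_lt_pi_div_two ((x - v) / u)]

/-- far away -/
theorem pcQ_far {u R v w x : ℝ} (hu : 0 < u) (hR : 0 < R) (hv : -R ≤ v) (hvw : v ≤ w) (hw : w ≤ R) (hx : 2 * R < |x|) :
    pcQ u v w x ≤ 8 * R * u / x ^ 2 := by
  rw [← pc_int_kernel hu]
  have hx0 : 0 < x ^ 2 := by
    have : x ≠ 0 := by
      rintro rfl; simp at hx; linarith
    positivity
  have hb : ∀ e ∈ Icc v w, pcK u e x ≤ 4 * u / x ^ 2 := by
    intro e he
    have h1 : |x| / 2 ≤ |x - e| := by
      have : |e| ≤ R := abs_le.2 ⟨by linarith [he.1], by linarith [he.2]⟩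
      have := abs_sub_abs_le_abs_sub x e
      linarith
    have hne : x ≠ e := by
      rintro rfl; simp at h1; linarith [abs_nonneg x]
    refine (pcK_le hu hne).trans ?_
    have h2 : x ^ 2 / 4 ≤ (x - e) ^ 2 := by
      rw [← sq_abs (x - e), ← sq_abs x]
      have := pow_le_pow_left₀ (by positivity) h1 2
      nlinarith
    have h3 : 0 < (x - e) ^ 2 := lt_of_lt_of_le (by positivity) h2
    rw [div_le_div_iff₀ h3 hx0]
    nlinarith
  calc ∫ e in v..w, pcK u e x ≤ ∫ _e in v..w, 4 * u / x ^ 2 :=
        intervalIntegral.integral_mono_on hvw ((pcK_cont_e hu x).intervalIntegrable _ _) intervalIntegrable_const hb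
    _ = (w - v) * (4 * u / x ^ 2) := by rw [intervalIntegral.integral_const, smul_eq_mul]
    _ ≤ (2 * R) * (4 * u / x ^ 2) := mul_le_mul_of_nonneg_right (by linarith) (by positivity)
    _ = 8 * R * u / x ^ 2 := by ring

/-- **the pointwise comparison** of the integrated Poisson kernel with `π 1_{[v,w]}`, dominated by three Poisson kernels -/
theorem pc_pointwise {u t R v w : ℝ} (hu : 0 < u) (ht : 0 < t) (hR : 0 < R) (hv : -R ≤ v) (hvw : v ≤ w) (hw : w ≤ R) (x : ℝ) :
    |pcQ u v w x - π * (Icc v w).indicator (fun _ => (1:ℝ)) x|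
      ≤ 2 * π * t * pcK t v x + 2 * π * t * pcK t w x + (8 * R * u / t + 8 * u) * pcK (2 * R) 0 x := by
  have hQ0 := pcQ_nonneg hu hvw x
  have hQ1 := pcQ_le_pi u v w x
  have k1 := pcK_nonneg ht v x
  have k2 := pcK_nonneg ht w x
  have k3 := pcK_nonneg (by linarith : 0 < 2 * R) 0 x
  have hpi := pi_pos
  have c1 : 0 ≤ 2 * π * t * pcK t v x := by positivity
  have c2 : 0 ≤ 2 * π * t * pcK t w x := by positivity
  have c3 : 0 ≤ 8 * R * u / t * pcK (2 * R) 0 x := by positivity
  have c4 : 0 ≤ 8 * u * pcK (2 * R) 0 x := by positivity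
  have hsplit : (8 * R * u / t + 8 * u) * pcK (2 * R) 0 x = 8 * R * u / t * pcK (2 * R) 0 x + 8 * u * pcK (2 * R) 0 x := by ring
  rw [hsplit]
  have hgen : |pcQ u v w x - π * (Icc v w).indicator (fun _ => (1:ℝ)) x| ≤ π := by
    by_cases hx : x ∈ Icc v w
    · rw [indicator_of_mem hx, abs_le]; constructor <;> linarith
    · rw [indicator_of_notMem hx, abs_le]; constructor <;> linarith
  by_cases hA : |x - v| ≤ t
  · have := pcK_near ht hA
    have h5 : π ≤ 2 * π * t * pcK t v x := by
      calc π = 2 * π * t * (1 / (2 * t)) := by field_simp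
        _ ≤ _ := mul_le_mul_of_nonneg_left this (by positivity)
    linarith
  by_cases hB : |x - w| ≤ t
  · have := pcK_near ht hB
    have h5 : π ≤ 2 * π * t * pcK t w x := by
      calc π = 2 * π * t * (1 / (2 * t)) := by field_simp
        _ ≤ _ := mul_le_mul_of_nonneg_left this (by positivity)
    linarith
  push Not at hA hB
  by_cases hE : |x| ≤ 2 * R
  · have hk := pcK_near (e := 0) (x := x) (by linarith : 0 < 2 * R) (by simpa using hE)
    have h5 : 2 * u / t ≤ 8 * R * u / t * pcK (2 * R) 0 x := by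
      calc 2 * u / t = 8 * R * u / t * (1 / (2 * (2 * R))) := by field_simp; ring
        _ ≤ _ := mul_le_mul_of_nonneg_left hk (by positivity)
    have hut : 0 ≤ u / t := by positivity
    have h2ut : 2 * u / t = u / t + u / t := by ring
    by_cases hx : x ∈ Icc v w
    · rw [indicator_of_mem hx]
      have h1 : t ≤ x - v := by
        rw [abs_of_nonneg (by linarith [hx.1])] at hA; exact hA.le
      have h2 : t ≤ w - x := by
        rw [abs_of_nonpos (by linarith [hx.2])] at hB; linarith
      have := pcQ_inside hu ht h1 h2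
      rw [abs_le]; constructor <;> linarith
    · rw [indicator_of_notMem hx]
      rw [mem_Icc, not_and_or] at hx
      rcases hx with hx | hx
      · push Not at hx
        have h1 : t ≤ v - x := by
          rw [abs_of_neg (by linarith)] at hA; linarith
        have := pcQ_left (w := w) hu ht h1
        rw [abs_le]; constructor <;> linarith
      · push Not at hx
        have h1 : t ≤ x - w := by
          rw [abs_of_pos (by linarith)] at hB; linarith
        have := pcQ_right (v := v) hu ht h1
        rw [abs_le]; constructor <;> linarith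
  · push Not at hE
    have hx : x ∉ Icc v w := by
      intro hx
      have : |x| ≤ R := abs_le.2 ⟨by linarith [hx.1], by linarith [hx.2]⟩
      linarith
    rw [indicator_of_notMem hx]
    have h1 := pcQ_far hu hR hv hvw hw hE
    have hk := pcK_far (e := 0) (x := x) (by linarith : 0 < 2 * R) (by simpa using hE.le)
    have h5 : 8 * R * u / x ^ 2 ≤ 8 * u * pcK (2 * R) 0 x := by
      calc 8 * R * u / x ^ 2 = 8 * u * (2 * R / (2 * (x - 0) ^ 2)) := by
            rw [sub_zero]
            have : x ≠ 0 := by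
              rintro rfl; simp at hE; linarith
            field_simp
        _ ≤ _ := mul_le_mul_of_nonneg_left hk (by positivity)
    rw [abs_le]; constructor <;> linarith

/-- the Poisson transform `Im m(e + i h)` of `ν` -/
def pcP (ν : Measure ℝ) (e h : ℝ) : ℝ := ∫ x, pcK h e x ∂ν

theorem pcP_nonneg (ν : Measure ℝ) (e : ℝ) {h : ℝ} (hh : 0 < h) : 0 ≤ pcP ν e h :=
  integral_nonneg fun x => pcK_nonneg hh e x

theorem pc_fin {ν : Measure ℝ} {e h : ℝ} (hh : 0 < h) (hi : Integrable (pcK h e) ν) :
    ν (Icc (e - h) (e + h)) < ⊤ := by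
  have h1 := hi.measure_norm_ge_lt_top (ε := 1 / (2 * h)) (by positivity)
  refine lt_of_le_of_lt (measure_mono fun x hx => ?_) h1
  have hx' : |x - e| ≤ h := abs_le.2 ⟨by linarith [hx.1], by linarith [hx.2]⟩
  show 1 / (2 * h) ≤ ‖pcK h e x‖
  rw [Real.norm_of_nonneg (pcK_nonneg hh e x)]
  exact pcK_near hh hx'

/-- counts from the Poisson transform -/
theorem pc_card {ν : Measure ℝ} {e h : ℝ} (hh : 0 < h) (hi : Integrable (pcK h e) ν) :
    ν.real (Icc (e - h) (e + h)) ≤ 2 * h * pcP ν e h := by
  have h1 := mul_meas_ge_le_integral_of_nonneg (μ := ν) (f := pcK h e)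
    (Eventually.of_forall fun x => pcK_nonneg hh e x) hi (1 / (2 * h))
  have h2 : ν.real (Icc (e - h) (e + h)) ≤ ν.real {x | 1 / (2 * h) ≤ pcK h e x} := by
    refine measureReal_mono (fun x hx => ?_) ?_
    · exact pcK_near hh (abs_le.2 ⟨by linarith [hx.1], by linarith [hx.2]⟩)
    · have h3 := hi.measure_norm_ge_lt_top (ε := 1 / (2 * h)) (by positivity)
      refine (lt_of_le_of_lt (measure_mono fun x hx => ?_) h3).ne
      show 1 / (2 * h) ≤ ‖pcK h e x‖
      rw [Real.norm_of_nonneg (pcK_nonneg hh e x)]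
      exact hx
  have h4 : ν.real (Icc (e - h) (e + h)) = 2 * h * (1 / (2 * h) * ν.real (Icc (e - h) (e + h))) := by
    field_simp
  rw [h4]
  unfold pcP
  refine mul_le_mul_of_nonneg_left (le_trans ?_ h1) (by positivity)
  exact mul_le_mul_of_nonneg_left h2 (by positivity)

/-- **Poisson transform ⟹ counts.**      `u` = height of the smoothing, `t` = width of the boundary strips, `[-R,R]` = the window. -/
theorem pc_count {ν : Measure ℝ} [SFinite ν] {ρ δ B u t R v w : ℝ} (hu : 0 < u) (ht : 0 < t) (hR : 0 < R)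
    (hv : -R ≤ v) (hvw : v ≤ w) (hw : w ≤ R)
    (hiu : ∀ e ∈ Icc v w, Integrable (pcK u e) ν)
    (hiv : Integrable (pcK t v) ν) (hiw : Integrable (pcK t w) ν) (hi0 : Integrable (pcK (2 * R) 0) ν)
    (h1 : ∀ e ∈ Icc v w, |pcP ν e u - π * ρ| ≤ δ)
    (h2 : pcP ν v t ≤ B) (h3 : pcP ν w t ≤ B) (h4 : pcP ν 0 (2 * R) ≤ B) :
    |π * ν.real (Icc v w) - π * ρ * (w - v)| ≤ δ * (w - v) + B * (4 * π * t + 8 * R * u / t + 8 * u) := by
  have hpi := pi_pos
  -- Fubini
  have hmeas : AEStronglyMeasurable (fun p : ℝ × ℝ => pcK u p.1 p.2) ((volume.restrict (Ioc v w)).prod ν) :=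
    (pcK_cont2 hu).aestronglyMeasurable
  have hprod : Integrable (fun p : ℝ × ℝ => pcK u p.1 p.2) ((volume.restrict (Ioc v w)).prod ν) := by
    rw [integrable_prod_iff hmeas]
    constructor
    · exact ae_restrict_of_forall_mem measurableSet_Ioc fun e he => hiu e (Ioc_subset_Icc_self he)
    · refine Integrable.of_bound hmeas.norm.integral_prod_right' (|π * ρ| + δ) ?_
      refine ae_restrict_of_forall_mem measurableSet_Ioc fun e he => ?_
      have h5 := h1 e (Ioc_subset_Icc_self he)
      have h6 : ∫ x, ‖pcK u e x‖ ∂ν = pcP ν e u := by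
        unfold pcP
        exact integral_congr_ae (Eventually.of_forall fun x => Real.norm_of_nonneg (pcK_nonneg hu e x))
      rw [h6, Real.norm_eq_abs]
      have := abs_sub_abs_le_abs_sub (pcP ν e u) (π * ρ)
      linarith
  have hswap : ∫ e in v..w, pcP ν e u = ∫ x, pcQ u v w x ∂ν := by
    rw [intervalIntegral.integral_of_le hvw]
    unfold pcP
    rw [integral_integral_swap (f := fun e x => pcK u e x) hprod]
    refine integral_congr_ae (Eventually.of_forall fun x => ?_)
    show ∫ e in Ioc v w, pcK u e x = pcQ u v w x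
    rw [← intervalIntegral.integral_of_le hvw, pc_int_kernel hu]
  have hQi : Integrable (pcQ u v w) ν := by
    have := hprod.integral_prod_right
    refine this.congr (Eventually.of_forall fun x => ?_)
    show ∫ e in Ioc v w, pcK u e x = pcQ u v w x
    rw [← intervalIntegral.integral_of_le hvw, pc_int_kernel hu]
  have hPi : IntervalIntegrable (fun e => pcP ν e u) volume v w := by
    rw [intervalIntegrable_iff_integrableOn_Ioc_of_le hvw]
    exact hprod.integral_prod_left
  -- the smoothed count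
  have hA : |(∫ e in v..w, pcP ν e u) - π * ρ * (w - v)| ≤ δ * (w - v) := by
    have e1 : (∫ e in v..w, pcP ν e u) - π * ρ * (w - v) = ∫ e in v..w, (pcP ν e u - π * ρ) := by
      rw [intervalIntegral.integral_sub hPi intervalIntegrable_const, intervalIntegral.integral_const, smul_eq_mul]
      ring
    rw [e1]
    have := intervalIntegral.norm_integral_le_of_norm_le_const (a := v) (b := w) (C := δ)
      (f := fun e => pcP ν e u - π * ρ) (fun e he => by
        rw [uIoc_of_le hvw] at he
        exact h1 e (Ioc_subset_Icc_self he))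
    rwa [Real.norm_eq_abs, abs_of_nonneg (sub_nonneg.2 hvw)] at this
  -- the sharp count
  have hfin : ν (Icc v w) < ⊤ := by
    refine lt_of_le_of_lt (measure_mono ?_) (pc_fin (by linarith : 0 < 2 * R) hi0)
    exact Icc_subset_Icc (by linarith) (by linarith)
  have hIi : Integrable (fun x => π * (Icc v w).indicator (fun _ => (1:ℝ)) x) ν :=
    ((integrable_indicator_iff measurableSet_Icc).2 (integrableOn_const hfin.ne)).const_mul π
  have hIv : ∫ x, π * (Icc v w).indicator (fun _ => (1:ℝ)) x ∂ν = π * ν.real (Icc v w) := by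
    rw [integral_const_mul, integral_indicator measurableSet_Icc, setIntegral_const, smul_eq_mul, mul_one]
  have hGi : Integrable (fun x => 2 * π * t * pcK t v x + 2 * π * t * pcK t w x
      + (8 * R * u / t + 8 * u) * pcK (2 * R) 0 x) ν :=
    ((hiv.const_mul _).add (hiw.const_mul _)).add (hi0.const_mul _)
  have hB : |(∫ x, pcQ u v w x ∂ν) - π * ν.real (Icc v w)|
      ≤ 2 * π * t * pcP ν v t + 2 * π * t * pcP ν w t + (8 * R * u / t + 8 * u) * pcP ν 0 (2 * R) := by
    rw [← hIv, ← integral_sub hQi hIi]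
    calc |∫ x, (pcQ u v w x - π * (Icc v w).indicator (fun _ => (1:ℝ)) x) ∂ν|
        ≤ ∫ x, |pcQ u v w x - π * (Icc v w).indicator (fun _ => (1:ℝ)) x| ∂ν := abs_integral_le_integral_abs
      _ ≤ ∫ x, (2 * π * t * pcK t v x + 2 * π * t * pcK t w x + (8 * R * u / t + 8 * u) * pcK (2 * R) 0 x) ∂ν :=
          integral_mono (hQi.sub hIi).abs hGi fun x => pc_pointwise hu ht hR hv hvw hw x
      _ = _ := by
          have i1 : Integrable (fun x => 2 * π * t * pcK t v x) ν := hiv.const_mul _
          have i2 : Integrable (fun x => 2 * π * t * pcK t w x) ν := hiw.const_mul _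
          have i3 : Integrable (fun x => (8 * R * u / t + 8 * u) * pcK (2 * R) 0 x) ν := hi0.const_mul _
          have i12 : Integrable (fun x => 2 * π * t * pcK t v x + 2 * π * t * pcK t w x) ν := i1.add i2
          rw [integral_add i12 i3, integral_add i1 i2, integral_const_mul, integral_const_mul,
            integral_const_mul]
          rfl
  have c1 : 2 * π * t * pcP ν v t ≤ 2 * π * t * B := mul_le_mul_of_nonneg_left h2 (by positivity)
  have c2 : 2 * π * t * pcP ν w t ≤ 2 * π * t * B := mul_le_mul_of_nonneg_left h3 (by positivity)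
  have c3 : (8 * R * u / t + 8 * u) * pcP ν 0 (2 * R) ≤ (8 * R * u / t + 8 * u) * B :=
    mul_le_mul_of_nonneg_left h4 (by positivity)
  rw [hswap] at hA
  have hfinal : B * (4 * π * t + 8 * R * u / t + 8 * u) = 2 * π * t * B + 2 * π * t * B + (8 * R * u / t + 8 * u) * B := by ring
  rw [hfinal]
  rw [abs_le] at hA hB ⊢
  constructor <;> linarith [hA.1, hA.2, hB.1, hB.2]

end

end Claimed.Agent.R287
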