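import Claimed.Agent.R287.ResD
import Claimed.Agent.R287.DefsB1

/-!
# Row 287 (S0534): RESOLVENT KIT, part 5: complex DIAGONAL POTENTIAL      (helper240; prefix `rd`)

`rdG A ζ = (A - diag ζ)⁻¹`, `A` real symmetric, `ζ : V → ℂ`, `0 < Im ζ_x` for all `x`.   `rsG A z = rdG A (fun _ => z)` (`rd_G_const`);
the model of `DefsB1` is `rgPB d Γ z = rdG (rgA Γ) (fun x => z + g (d - deg x))` (`rd_model`).
* `rd_isUnit`, `rd_mul_G`, `rd_G_mul`, `rd_G_symm`, `rd_eq_left`, `rd_eq_right`, `rd_col_unique`;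
* `rd_res` (resolvent identity in `(A, ζ)`), `rd_ward` (weighted Ward), `rd_G_im_nonneg`, `rd_G_le`;
* minors `rsDel A T`: `rd_del_G_in`, `rd_del_G_out_in`, `rd_minor_exp`, `rdS`, `rd_schur_eq`, `rd_schur_TT`, `rd_minor`, `rd_minor_coef`;
* `rd_res_supp` (update on `S × S`), `rd_woodbury`, `rd_update`;
* BLOCKS: `rd_block_zero`, `rd_block_minor`, `rd_del_pot`, `rd_block_congr`.
-/

set_option autoImplicit false
set_option linter.unusedSectionVars false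

namespace Claimed.Agent.R287

open Matrix Complex ComplexConjugate

variable {V : Type} [Fintype V] [DecidableEq V]

/-- the resolvent with a diagonal potential: `(A - diag ζ)⁻¹` -/
noncomputable def rdG (A : Matrix V V ℝ) (ζ : V → ℂ) : Matrix V V ℂ := (rsC A - diagonal ζ)⁻¹

theorem rd_eqns_cite : True := by
  have := @rdG.eq_1
  trivial

theorem rd_G_const (A : Matrix V V ℝ) (z : ℂ) : rdG A (fun _ => z) = rsG A z := by
  rw [rdG, rsG, Matrix.smul_one_eq_diagonal]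

/-! ### invertibility -/

/-- `Im ⟨v, (diag ζ - A) v⟩ = ∑_x Im ζ_x |v_x|²` -/
theorem rd_im_form {A : Matrix V V ℝ} (hA : A.IsHermitian) (ζ : V → ℂ) (v : V → ℂ) :
    (star v ⬝ᵥ ((diagonal ζ - rsC A) *ᵥ v)).im = ∑ x, (ζ x).im * ‖v x‖ ^ 2 := by
  rw [Matrix.sub_mulVec, dotProduct_sub, Complex.sub_im, rs_herm_im (rs_C_herm hA), sub_zero]
  unfold dotProduct
  rw [Complex.im_sum]
  refine Finset.sum_congr rfl fun x _ => ?_
  rw [Matrix.mulVec_diagonal, Pi.star_apply, Complex.star_def]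
  have : conj (v x) * (ζ x * v x) = ζ x * ((‖v x‖ ^ 2 : ℝ) : ℂ) := by
    rw [← Complex.normSq_eq_norm_sq, Complex.normSq_eq_conj_mul_self]; ring
  rw [this, Complex.mul_im, Complex.ofReal_im, Complex.ofReal_re, mul_zero, zero_add]

theorem rd_dis {A : Matrix V V ℝ} (hA : A.IsHermitian) {ζ : V → ℂ} {c : ℝ} (hc : ∀ x, c ≤ (ζ x).im) : rsDis (diagonal ζ - rsC A) c := by
  intro v
  rw [rd_im_form hA, rsvSq, Finset.mul_sum]
  exact Finset.sum_le_sum fun x _ => mul_le_mul_of_nonneg_right (hc x) (sq_nonneg _)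

theorem rd_det_ne {A : Matrix V V ℝ} (hA : A.IsHermitian) {ζ : V → ℂ} (hζ : ∀ x, 0 < (ζ x).im) : (rsC A - diagonal ζ).det ≠ 0 := by
  intro h0
  obtain ⟨v, hv, hMv⟩ := Matrix.exists_mulVec_eq_zero_iff.2 h0
  have h1 : (diagonal ζ - rsC A) *ᵥ v = 0 := by
    have : diagonal ζ - rsC A = -(rsC A - diagonal ζ) := by abel
    rw [this, Matrix.neg_mulVec, hMv, neg_zero]
  have h2 := rd_im_form hA ζ v
  rw [h1, dotProduct_zero, Complex.zero_im] at h2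
  apply hv
  funext x
  have h3 : (ζ x).im * ‖v x‖ ^ 2 ≤ 0 := by
    rw [h2]
    exact Finset.single_le_sum (f := fun x => (ζ x).im * ‖v x‖ ^ 2) (fun y _ => mul_nonneg (hζ y).le (sq_nonneg _)) (Finset.mem_univ x)
  have h4 : ‖v x‖ ^ 2 = 0 := by
    have := mul_nonneg (hζ x).le (sq_nonneg ‖v x‖)
    have h5 : (ζ x).im * ‖v x‖ ^ 2 = 0 := le_antisymm h3 this
    exact (mul_eq_zero.1 h5).resolve_left (hζ x).ne'
  simpa using h4

theorem rd_isUnit {A : Matrix V V ℝ} (hA : A.IsHermitian) {ζ : V → ℂ} (hζ : ∀ x, 0 < (ζ x).im) : IsUnit (rsC A - diagonal ζ).det :=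
  (rd_det_ne hA hζ).isUnit

theorem rd_mul_G {A : Matrix V V ℝ} (hA : A.IsHermitian) {ζ : V → ℂ} (hζ : ∀ x, 0 < (ζ x).im) :
    (rsC A - diagonal ζ) * rdG A ζ = 1 := Matrix.mul_nonsing_inv _ (rd_isUnit hA hζ)

theorem rd_G_mul {A : Matrix V V ℝ} (hA : A.IsHermitian) {ζ : V → ℂ} (hζ : ∀ x, 0 < (ζ x).im) :
    rdG A ζ * (rsC A - diagonal ζ) = 1 := Matrix.nonsing_inv_mul _ (rd_isUnit hA hζ)

theorem rd_G_symm {A : Matrix V V ℝ} (hA : A.IsHermitian) (ζ : V → ℂ) (x y : V) : rdG A ζ x y = rdG A ζ y x := by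
  have h : (rdG A ζ)ᵀ = rdG A ζ := by
    rw [rdG, Matrix.transpose_nonsing_inv, Matrix.transpose_sub, Matrix.diagonal_transpose, rs_C_transpose]
    congr 3
  have := congrFun (congrFun h y) x
  rwa [Matrix.transpose_apply] at this

/-- `∑_y A_xy G_yw = δ_xw + ζ_x G_xw` -/
theorem rd_eq_left {A : Matrix V V ℝ} (hA : A.IsHermitian) {ζ : V → ℂ} (hζ : ∀ x, 0 < (ζ x).im) (x w : V) :
    ∑ y, (A x y : ℂ) * rdG A ζ y w = (if x = w then 1 else 0) + ζ x * rdG A ζ x w := by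
  have h := congrFun (congrFun (rd_mul_G hA hζ) x) w
  rw [sub_mul, Matrix.sub_apply, Matrix.diagonal_mul, Matrix.mul_apply, Matrix.one_apply] at h
  simp only [rs_C_apply] at h
  linear_combination h

/-- `∑_y G_xy A_yw = δ_xw + ζ_w G_xw` -/
theorem rd_eq_right {A : Matrix V V ℝ} (hA : A.IsHermitian) {ζ : V → ℂ} (hζ : ∀ x, 0 < (ζ x).im) (x w : V) :
    ∑ y, rdG A ζ x y * (A y w : ℂ) = (if x = w then 1 else 0) + ζ w * rdG A ζ x w := by
  have h := congrFun (congrFun (rd_G_mul hA hζ) x) w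
  rw [mul_sub, Matrix.sub_apply, Matrix.mul_diagonal, Matrix.mul_apply, Matrix.one_apply] at h
  simp only [rs_C_apply] at h
  linear_combination h

/-- a solution of the column equation is the column of the resolvent -/
theorem rd_col_unique {A : Matrix V V ℝ} (hA : A.IsHermitian) {ζ : V → ℂ} (hζ : ∀ x, 0 < (ζ x).im) (w : V) (f : V → ℂ)
    (hf : ∀ x, ∑ y, (A x y : ℂ) * f y = (if x = w then 1 else 0) + ζ x * f x) (x : V) : f x = rdG A ζ x w := by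
  have h1 : (rsC A - diagonal ζ) *ᵥ f = Pi.single w 1 := by
    funext x
    rw [Matrix.sub_mulVec, Pi.sub_apply, Matrix.mulVec_diagonal]
    have : (rsC A *ᵥ f) x = ∑ y, (A x y : ℂ) * f y := rfl
    rw [this, hf x, Pi.single_apply]
    ring
  have h2 : f = rdG A ζ *ᵥ Pi.single w 1 := by
    rw [← h1, Matrix.mulVec_mulVec, rd_G_mul hA hζ, Matrix.one_mulVec]
  rw [h2, Matrix.mulVec_single_one]
  rfl

/-- **resolvent identity** in the matrix and in the potential -/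
theorem rd_res {A B : Matrix V V ℝ} (hA : A.IsHermitian) (hB : B.IsHermitian) {ζ ξ : V → ℂ} (hζ : ∀ x, 0 < (ζ x).im) (hξ : ∀ x, 0 < (ξ x).im) :
    rdG A ζ - rdG B ξ = rdG A ζ * (rsC (B - A) - diagonal (ξ - ζ)) * rdG B ξ := by
  have e : rsC (B - A) - diagonal (ξ - ζ) = (rsC B - diagonal ξ) - (rsC A - diagonal ζ) := by
    have : diagonal (ξ - ζ) = diagonal ξ - diagonal ζ := (Matrix.diagonal_sub ξ ζ).symm
    rw [rs_C_sub, this]; abel
  calc rdG A ζ - rdG B ξ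
      = rdG A ζ * ((rsC B - diagonal ξ) * rdG B ξ) - (rdG A ζ * (rsC A - diagonal ζ)) * rdG B ξ := by
        rw [rd_mul_G hB hξ, rd_G_mul hA hζ, mul_one, one_mul]
    _ = rdG A ζ * (rsC (B - A) - diagonal (ξ - ζ)) * rdG B ξ := by
        rw [e]; noncomm_ring

theorem rd_G_eq_neg_inv (A : Matrix V V ℝ) (ζ : V → ℂ) : rdG A ζ = -(diagonal ζ - rsC A)⁻¹ := by
  rw [rdG, ← rs_inv_neg, neg_sub]

/-- **weighted Ward identity**: `∑_y Im ζ_y |G_xy|² = Im G_xx` -/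
theorem rd_ward {A : Matrix V V ℝ} (hA : A.IsHermitian) {ζ : V → ℂ} (hζ : ∀ x, 0 < (ζ x).im) (x : V) :
    ∑ y, (ζ y).im * ‖rdG A ζ x y‖ ^ 2 = (rdG A ζ x x).im := by
  have h := rd_im_form hA ζ (rdG A ζ *ᵥ Pi.single x 1)
  have e1 : (diagonal ζ - rsC A) *ᵥ (rdG A ζ *ᵥ Pi.single x 1) = -Pi.single x 1 := by
    have : diagonal ζ - rsC A = -(rsC A - diagonal ζ) := by abel
    rw [this, Matrix.neg_mulVec, Matrix.mulVec_mulVec, rd_mul_G hA hζ, Matrix.one_mulVec]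
  have e2 : ∀ y, (rdG A ζ *ᵥ Pi.single x 1) y = rdG A ζ x y := by
    intro y
    rw [Matrix.mulVec_single_one, rd_G_symm hA ζ x y]
    rfl
  rw [e1, dotProduct_neg, dotProduct_single_one, Pi.star_apply, e2] at h
  simp only [e2] at h
  rw [← h]
  simp

theorem rd_G_im_nonneg {A : Matrix V V ℝ} (hA : A.IsHermitian) {ζ : V → ℂ} (hζ : ∀ x, 0 < (ζ x).im) (x : V) : 0 ≤ (rdG A ζ x x).im := by
  rw [← rd_ward hA hζ x]
  exact Finset.sum_nonneg fun y _ => mul_nonneg (hζ y).le (sq_nonneg _)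

/-- `|G_xy| ≤ 1/c` if `c ≤ Im ζ` -/
theorem rd_G_le {A : Matrix V V ℝ} (hA : A.IsHermitian) {ζ : V → ℂ} {c : ℝ} (hc : 0 < c) (hζ : ∀ x, c ≤ (ζ x).im) (x y : V) :
    ‖rdG A ζ x y‖ ≤ 1 / c := by
  rw [rd_G_eq_neg_inv, Matrix.neg_apply, norm_neg]
  exact rs_dis_inv_entry hc (rd_dis hA hζ) x y

theorem rd_zeta_ne {ζ : V → ℂ} (hζ : ∀ x, 0 < (ζ x).im) (x : V) : ζ x ≠ 0 := by
  intro h; have := hζ x; rw [h] at this; simp at this

/-! ### minors -/

/-- the trivial block of `G^{(T)}` -/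
theorem rd_del_G_in {A : Matrix V V ℝ} (hA : A.IsHermitian) {ζ : V → ℂ} (hζ : ∀ x, 0 < (ζ x).im) {T : Finset V} {x : V} (hx : x ∈ T) (y : V) :
    rdG (rsDel A T) ζ x y = if x = y then -1 / ζ x else 0 := by
  have h := rd_eq_left (rs_del_herm hA T) hζ x y
  have h0 : ∑ u, (rsDel A T x u : ℂ) * rdG (rsDel A T) ζ u y = 0 :=
    Finset.sum_eq_zero fun u _ => by rw [rs_del_left A hx]; simp
  rw [h0] at h
  have hz0 := rd_zeta_ne hζ x
  by_cases hxy : x = y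
  · rw [if_pos hxy] at h ⊢
    field_simp
    linear_combination -h
  · rw [if_neg hxy] at h ⊢
    have : ζ x * rdG (rsDel A T) ζ x y = 0 := by linear_combination -h
    exact (mul_eq_zero.1 this).resolve_left hz0

theorem rd_del_G_out_in {A : Matrix V V ℝ} (hA : A.IsHermitian) {ζ : V → ℂ} (hζ : ∀ x, 0 < (ζ x).im) {T : Finset V} {x y : V} (hx : x ∉ T) (hy : y ∈ T) :
    rdG (rsDel A T) ζ x y = 0 := by
  rw [rd_G_symm (rs_del_herm hA T), rd_del_G_in hA hζ hy, if_neg]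
  rintro rfl; exact hx hy

/-- **expansion in the minor**: for `x ∉ T`:  `G_xy = G^{(T)}_xy - ∑_{v ∈ T} (∑_{u ∉ T} G^{(T)}_xu A_uv) G_vy` -/
theorem rd_minor_exp {A : Matrix V V ℝ} (hA : A.IsHermitian) {ζ : V → ℂ} (hζ : ∀ x, 0 < (ζ x).im) {T : Finset V} {x : V} (hx : x ∉ T) (y : V) :
    rdG A ζ x y = rdG (rsDel A T) ζ x y - ∑ v ∈ T, (∑ u ∈ Tᶜ, rdG (rsDel A T) ζ x u * (A u v : ℂ)) * rdG A ζ v y := by
  have h := congrFun (congrFun (rd_res (rs_del_herm hA T) hA hζ hζ) x) y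
  have hd0 : diagonal (0 : V → ℂ) = 0 := Matrix.diagonal_zero
  rw [sub_self, hd0, sub_zero, Matrix.sub_apply, Matrix.mul_apply] at h
  have e : ∀ v, (rdG (rsDel A T) ζ * rsC (A - rsDel A T)) x v
      = if v ∈ T then ∑ u ∈ Tᶜ, rdG (rsDel A T) ζ x u * (A u v : ℂ) else 0 := by
    intro v
    rw [Matrix.mul_apply]
    by_cases hv : v ∈ T
    · rw [if_pos hv, ← Finset.sum_add_sum_compl T]
      have : ∑ u ∈ T, rdG (rsDel A T) ζ x u * rsC (A - rsDel A T) u v = 0 :=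
        Finset.sum_eq_zero fun u hu => by rw [rd_del_G_out_in hA hζ hx hu, zero_mul]
      rw [this, zero_add]
      refine Finset.sum_congr rfl fun u _ => ?_
      rw [rs_C_apply, Matrix.sub_apply, rs_del_right A u hv, sub_zero]
    · rw [if_neg hv]
      refine Finset.sum_eq_zero fun u _ => ?_
      by_cases hu : u ∈ T
      · rw [rd_del_G_out_in hA hζ hx hu, zero_mul]
      · rw [rs_C_apply, Matrix.sub_apply, rs_del_out A hu hv, sub_self]; simp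
  simp only [e] at h
  rw [← Finset.sum_add_sum_compl T] at h
  have h2 : ∑ v ∈ Tᶜ, (if v ∈ T then ∑ u ∈ Tᶜ, rdG (rsDel A T) ζ x u * (A u v : ℂ) else 0) * rdG A ζ v y = 0 :=
    Finset.sum_eq_zero fun v hv => by rw [if_neg (Finset.mem_compl.1 hv), zero_mul]
  have h3 : ∑ v ∈ T, (if v ∈ T then ∑ u ∈ Tᶜ, rdG (rsDel A T) ζ x u * (A u v : ℂ) else 0) * rdG A ζ v y
      = ∑ v ∈ T, (∑ u ∈ Tᶜ, rdG (rsDel A T) ζ x u * (A u v : ℂ)) * rdG A ζ v y :=
    Finset.sum_congr rfl fun v hv => by rw [if_pos hv]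
  rw [h2, h3, add_zero] at h
  linear_combination -h

/-- the **Schur complement matrix**: `S_xv = A_xv - ζ_x δ_xv - ∑_{u,u' ∉ T} A_xu G^{(T)}_uu' A_u'v` -/
noncomputable def rdS (A : Matrix V V ℝ) (T : Finset V) (ζ : V → ℂ) : Matrix V V ℂ := Matrix.of fun x v =>
  (A x v : ℂ) - (if x = v then ζ x else 0) - ∑ u ∈ Tᶜ, ∑ u' ∈ Tᶜ, (A x u : ℂ) * rdG (rsDel A T) ζ u u' * (A u' v : ℂ)

theorem rd_S_eqns_cite : True := by
  have := @rdS.eq_1
  trivial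

theorem rd_S_apply (A : Matrix V V ℝ) (T : Finset V) (ζ : V → ℂ) (x v : V) : rdS A T ζ x v =
    (A x v : ℂ) - (if x = v then ζ x else 0) - ∑ u ∈ Tᶜ, ∑ u' ∈ Tᶜ, (A x u : ℂ) * rdG (rsDel A T) ζ u u' * (A u' v : ℂ) := rfl

theorem rd_S_symm {A : Matrix V V ℝ} (hA : A.IsHermitian) (ζ : V → ℂ) (T : Finset V) (x v : V) : rdS A T ζ x v = rdS A T ζ v x := by
  rw [rd_S_apply, rd_S_apply, rs_A_symm hA x v, Finset.sum_comm]
  congr 1
  · congr 1
    by_cases h : x = v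
    · subst h; rfl
    · rw [if_neg h, if_neg (Ne.symm h)]
  · refine Finset.sum_congr rfl fun u _ => Finset.sum_congr rfl fun u' _ => ?_
    rw [rd_G_symm (rs_del_herm hA T) ζ u' u, rs_A_symm hA x u', rs_A_symm hA u v]
    ring

/-- **Schur complement, equation form**: for `x ∈ T` and every `y`:
`∑_{v ∈ T} S_xv G_vy = δ_xy - ∑_{u ∉ T} A_xu G^{(T)}_uy` -/
theorem rd_schur_eq {A : Matrix V V ℝ} (hA : A.IsHermitian) {ζ : V → ℂ} (hζ : ∀ x, 0 < (ζ x).im) {T : Finset V} {x : V} (hx : x ∈ T) (y : V) :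
    ∑ v ∈ T, rdS A T ζ x v * rdG A ζ v y = (if x = y then 1 else 0) - ∑ u ∈ Tᶜ, (A x u : ℂ) * rdG (rsDel A T) ζ u y := by
  have h := rd_eq_left hA hζ x y
  rw [← Finset.sum_add_sum_compl T] at h
  have h1 : ∑ u ∈ Tᶜ, (A x u : ℂ) * rdG A ζ u y
      = ∑ u ∈ Tᶜ, (A x u : ℂ) * rdG (rsDel A T) ζ u y
        - ∑ v ∈ T, (∑ u ∈ Tᶜ, ∑ u' ∈ Tᶜ, (A x u : ℂ) * rdG (rsDel A T) ζ u u' * (A u' v : ℂ)) * rdG A ζ v y := by
    have : ∀ u ∈ Tᶜ, (A x u : ℂ) * rdG A ζ u y = (A x u : ℂ) * rdG (rsDel A T) ζ u y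
        - ∑ v ∈ T, (∑ u' ∈ Tᶜ, (A x u : ℂ) * rdG (rsDel A T) ζ u u' * (A u' v : ℂ)) * rdG A ζ v y := by
      intro u hu
      rw [rd_minor_exp hA hζ (Finset.mem_compl.1 hu) y, mul_sub, Finset.mul_sum]
      congr 1
      refine Finset.sum_congr rfl fun v _ => ?_
      rw [← mul_assoc, Finset.mul_sum]
      congr 1
      exact Finset.sum_congr rfl fun u' _ => by ring
    rw [Finset.sum_congr rfl this, Finset.sum_sub_distrib, Finset.sum_comm]
    congr 1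
    refine Finset.sum_congr rfl fun v _ => ?_
    rw [Finset.sum_mul]
  have h2 : ∑ v ∈ T, rdS A T ζ x v * rdG A ζ v y
      = ∑ v ∈ T, (A x v : ℂ) * rdG A ζ v y - ζ x * rdG A ζ x y
        - ∑ v ∈ T, (∑ u ∈ Tᶜ, ∑ u' ∈ Tᶜ, (A x u : ℂ) * rdG (rsDel A T) ζ u u' * (A u' v : ℂ)) * rdG A ζ v y := by
    have e : ∑ v ∈ T, (if x = v then ζ x else 0) * rdG A ζ v y = ζ x * rdG A ζ x y := by
      rw [Finset.sum_eq_single x]
      · rw [if_pos rfl]
      · intro v _ hv; rw [if_neg (Ne.symm hv), zero_mul]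
      · intro h; exact absurd hx h
    rw [← e, ← Finset.sum_sub_distrib, ← Finset.sum_sub_distrib]
    refine Finset.sum_congr rfl fun v _ => ?_
    rw [rd_S_apply]; ring
  rw [h2]
  rw [h1] at h
  linear_combination h

/-- `S G|_T = 1` -/
theorem rd_schur_TT {A : Matrix V V ℝ} (hA : A.IsHermitian) {ζ : V → ℂ} (hζ : ∀ x, 0 < (ζ x).im) {T : Finset V} {x y : V} (hx : x ∈ T) (hy : y ∈ T) :
    ∑ v ∈ T, rdS A T ζ x v * rdG A ζ v y = if x = y then 1 else 0 := by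
  rw [rd_schur_eq hA hζ hx y]
  have : ∑ u ∈ Tᶜ, (A x u : ℂ) * rdG (rsDel A T) ζ u y = 0 :=
    Finset.sum_eq_zero fun u hu => by rw [rd_del_G_out_in hA hζ (Finset.mem_compl.1 hu) hy, mul_zero]
  rw [this, sub_zero]

/-- `G|_T S = 1` -/
theorem rd_schur_TT' {A : Matrix V V ℝ} (hA : A.IsHermitian) {ζ : V → ℂ} (hζ : ∀ x, 0 < (ζ x).im) {T : Finset V} {x y : V} (hx : x ∈ T) (hy : y ∈ T) :
    ∑ v ∈ T, rdG A ζ x v * rdS A T ζ v y = if x = y then 1 else 0 := by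
  have h := rd_schur_TT hA hζ hy hx
  have e : (if y = x then (1 : ℂ) else 0) = if x = y then 1 else 0 := by
    by_cases hxy : x = y
    · rw [if_pos hxy, if_pos hxy.symm]
    · rw [if_neg hxy, if_neg (Ne.symm hxy)]
  rw [← e, ← h]
  refine Finset.sum_congr rfl fun v _ => ?_
  rw [rd_G_symm hA ζ x v, rd_S_symm hA ζ T v y]; ring

/-- for `x ∉ T`, `w ∈ T`:  `∑_{u ∉ T} G^{(T)}_xu A_uw = - ∑_{t ∈ T} G_xt S_tw` -/
theorem rd_minor_coef {A : Matrix V V ℝ} (hA : A.IsHermitian) {ζ : V → ℂ} (hζ : ∀ x, 0 < (ζ x).im) {T : Finset V} {x w : V} (hx : x ∉ T) (hw : w ∈ T) :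
    ∑ u ∈ Tᶜ, rdG (rsDel A T) ζ x u * (A u w : ℂ) = - ∑ t ∈ T, rdG A ζ x t * rdS A T ζ t w := by
  have h1 : ∀ t ∈ T, rdG A ζ x t * rdS A T ζ t w
      = - ∑ v ∈ T, (∑ u ∈ Tᶜ, rdG (rsDel A T) ζ x u * (A u v : ℂ)) * (rdG A ζ v t * rdS A T ζ t w) := by
    intro t ht
    rw [rd_minor_exp hA hζ hx t, rd_del_G_out_in hA hζ hx ht, zero_sub, neg_mul, Finset.sum_mul]
    congr 1
    exact Finset.sum_congr rfl fun v _ => by ring
  rw [Finset.sum_congr rfl h1, Finset.sum_neg_distrib, neg_neg, Finset.sum_comm]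
  have h2 : ∀ v ∈ T, ∑ t ∈ T, (∑ u ∈ Tᶜ, rdG (rsDel A T) ζ x u * (A u v : ℂ)) * (rdG A ζ v t * rdS A T ζ t w)
      = (∑ u ∈ Tᶜ, rdG (rsDel A T) ζ x u * (A u v : ℂ)) * if v = w then 1 else 0 := by
    intro v hv
    rw [← Finset.mul_sum, rd_schur_TT' hA hζ hv hw]
  rw [Finset.sum_congr rfl h2]
  symm
  rw [Finset.sum_eq_single w]
  · rw [if_pos rfl, mul_one]
  · intro v _ hv; rw [if_neg hv, mul_zero]
  · intro h; exact absurd hw h

/-- **the minor from the full resolvent**: for `x ∉ T`: `G^{(T)}_xy = G_xy - ∑_{s,t ∈ T} G_xs S_st G_ty` -/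
theorem rd_minor {A : Matrix V V ℝ} (hA : A.IsHermitian) {ζ : V → ℂ} (hζ : ∀ x, 0 < (ζ x).im) {T : Finset V} {x : V} (hx : x ∉ T) (y : V) :
    rdG (rsDel A T) ζ x y = rdG A ζ x y - ∑ s ∈ T, ∑ t ∈ T, rdG A ζ x s * rdS A T ζ s t * rdG A ζ t y := by
  have h := rd_minor_exp hA hζ hx y
  have e : ∑ v ∈ T, (∑ u ∈ Tᶜ, rdG (rsDel A T) ζ x u * (A u v : ℂ)) * rdG A ζ v y
      = - ∑ s ∈ T, ∑ t ∈ T, rdG A ζ x s * rdS A T ζ s t * rdG A ζ t y := by
    rw [Finset.sum_comm, ← Finset.sum_neg_distrib]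
    refine Finset.sum_congr rfl fun v hv => ?_
    rw [rd_minor_coef hA hζ hx hv, neg_mul, Finset.sum_mul]
  rw [e] at h
  linear_combination -h



/-! ### perturbations -/

/-- **update on `S × S`**, implicit form: `G'_xy = G_xy - ∑_{s,t ∈ S} G_xs (A' - A)_st G'_ty` (same potential) -/
theorem rd_res_supp {A A' : Matrix V V ℝ} (hA : A.IsHermitian) (hA' : A'.IsHermitian) {ζ : V → ℂ} (hζ : ∀ x, 0 < (ζ x).im) (S : Finset V)
    (hS : ∀ x y, (x ∉ S ∨ y ∉ S) → A' x y = A x y) (x y : V) :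
    rdG A' ζ x y = rdG A ζ x y - ∑ s ∈ S, ∑ t ∈ S, rdG A ζ x s * ((A' s t - A s t : ℝ) : ℂ) * rdG A' ζ t y := by
  have h := congrFun (congrFun (rd_res hA hA' hζ hζ) x) y
  have hd0 : diagonal (0 : V → ℂ) = 0 := Matrix.diagonal_zero
  rw [sub_self, hd0, sub_zero, Matrix.sub_apply, Matrix.mul_assoc, Matrix.mul_apply] at h
  have e : ∑ s, rdG A ζ x s * (rsC (A' - A) * rdG A' ζ) s y
      = ∑ s ∈ S, ∑ t ∈ S, rdG A ζ x s * ((A' s t - A s t : ℝ) : ℂ) * rdG A' ζ t y := by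
    rw [← Finset.sum_add_sum_compl S]
    have h1 : ∑ s ∈ Sᶜ, rdG A ζ x s * (rsC (A' - A) * rdG A' ζ) s y = 0 := by
      refine Finset.sum_eq_zero fun s hs => ?_
      rw [Matrix.mul_apply]
      have : ∑ t, rsC (A' - A) s t * rdG A' ζ t y = 0 :=
        Finset.sum_eq_zero fun t _ => by
          rw [rs_C_apply, Matrix.sub_apply, hS s t (Or.inl (Finset.mem_compl.1 hs)), sub_self]; simp
      rw [this, mul_zero]
    rw [h1, add_zero]
    refine Finset.sum_congr rfl fun s _ => ?_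
    rw [Matrix.mul_apply, ← Finset.sum_add_sum_compl S]
    have h2 : ∑ t ∈ Sᶜ, rsC (A' - A) s t * rdG A' ζ t y = 0 :=
      Finset.sum_eq_zero fun t ht => by
        rw [rs_C_apply, Matrix.sub_apply, hS s t (Or.inr (Finset.mem_compl.1 ht)), sub_self]; simp
    rw [h2, add_zero, Finset.mul_sum]
    refine Finset.sum_congr rfl fun t _ => ?_
    rw [rs_C_apply, Matrix.sub_apply]; ring
  rw [e] at h
  linear_combination -h

/-- change of the potential: `G^ξ_xy = G^ζ_xy + ∑_u G^ζ_xu (ξ_u - ζ_u) G^ξ_uy` -/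
theorem rd_res_pot {A : Matrix V V ℝ} (hA : A.IsHermitian) {ζ ξ : V → ℂ} (hζ : ∀ x, 0 < (ζ x).im) (hξ : ∀ x, 0 < (ξ x).im) (x y : V) :
    rdG A ξ x y = rdG A ζ x y + ∑ u, rdG A ζ x u * (ξ u - ζ u) * rdG A ξ u y := by
  have h := congrFun (congrFun (rd_res hA hA hζ hξ) x) y
  have h0 : rsC (A - A) = 0 := by rw [sub_self]; ext a b; simp
  rw [h0, zero_sub, Matrix.mul_neg, Matrix.neg_mul, Matrix.sub_apply, Matrix.neg_apply, Matrix.mul_apply] at h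
  have e : ∑ u, (rdG A ζ * diagonal (ξ - ζ)) x u * rdG A ξ u y = ∑ u, rdG A ζ x u * (ξ u - ζ u) * rdG A ξ u y :=
    Finset.sum_congr rfl fun u _ => by rw [Matrix.mul_diagonal]; rfl
  rw [e] at h
  linear_combination -h

section woodbury

variable {ι : Type} [Fintype ι] [DecidableEq ι]

/-- the small matrix `1 + B Uᵀ G U` -/
noncomputable def rdW (A : Matrix V V ℝ) (U : Matrix V ι ℝ) (B : Matrix ι ι ℝ) (ζ : V → ℂ) : Matrix ι ι ℂ :=
  1 + rsR B * ((rsR U)ᵀ * rdG A ζ * rsR U)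

theorem rd_W_eqns_cite : True := by
  have := @rdW.eq_1
  trivial

theorem rd_shift_update (A : Matrix V V ℝ) (U : Matrix V ι ℝ) (B : Matrix ι ι ℝ) (ζ : V → ℂ) :
    rsC (A + U * B * Uᵀ) - diagonal ζ = (rsC A - diagonal ζ) + rsR U * rsR B * (rsR U)ᵀ := by
  rw [rs_C_add, ← rs_R_eq_C (U * B * Uᵀ), rs_R_mul, rs_R_mul, rs_R_transpose]
  abel

theorem rd_W_isUnit {A : Matrix V V ℝ} (hA : A.IsHermitian) (U : Matrix V ι ℝ) (B : Matrix ι ι ℝ)
    (hB : (A + U * B * Uᵀ).IsHermitian) {ζ : V → ℂ} (hζ : ∀ x, 0 < (ζ x).im) : IsUnit (rdW A U B ζ).det := by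
  have h1 : (rdW A U B ζ).det = ((rsC (A + U * B * Uᵀ) - diagonal ζ) * rdG A ζ).det := by
    rw [rd_shift_update, add_mul, rd_mul_G hA hζ, rdW]
    have e1 : rsR B * ((rsR U)ᵀ * rdG A ζ * rsR U) = (rsR B * (rsR U)ᵀ * rdG A ζ) * rsR U := by
      simp only [Matrix.mul_assoc]
    have e2 : rsR U * rsR B * (rsR U)ᵀ * rdG A ζ = rsR U * (rsR B * (rsR U)ᵀ * rdG A ζ) := by
      simp only [Matrix.mul_assoc]
    rw [e1, e2, Matrix.det_one_add_mul_comm]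
  rw [h1, Matrix.det_mul]
  refine (rd_isUnit hB hζ).mul ?_
  exact Matrix.isUnit_det_of_left_inverse (rd_mul_G hA hζ)

/-- **Woodbury**: `A' = A + U B Uᵀ`:  `G' = G - G U (1 + B Uᵀ G U)⁻¹ B Uᵀ G` -/
theorem rd_woodbury {A : Matrix V V ℝ} (hA : A.IsHermitian) (U : Matrix V ι ℝ) (B : Matrix ι ι ℝ)
    (hB : (A + U * B * Uᵀ).IsHermitian) {ζ : V → ℂ} (hζ : ∀ x, 0 < (ζ x).im) :
    rdG (A + U * B * Uᵀ) ζ = rdG A ζ - rdG A ζ * rsR U * ((rdW A U B ζ)⁻¹ * rsR B) * ((rsR U)ᵀ * rdG A ζ) := by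
  have hW := rd_W_isUnit hA U B hB hζ
  rw [rdG]
  apply Matrix.inv_eq_right_inv
  rw [rd_shift_update]
  set M := rsC A - diagonal ζ with hM
  set G := rdG A ζ with hG
  set u := rsR U with hu
  set b := rsR B with hb
  set W := rdW A U B ζ with hWd
  have hMG : M * G = 1 := rd_mul_G hA hζ
  have hWW : W * W⁻¹ = 1 := Matrix.mul_nonsing_inv _ hW
  have hWe : u + u * b * (uᵀ * G * u) = u * W := by
    rw [hWd, rdW, Matrix.mul_add, Matrix.mul_one, Matrix.mul_assoc]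
  have e1 : (M + u * b * uᵀ) * G = 1 + u * b * (uᵀ * G) := by
    rw [add_mul, hMG, Matrix.mul_assoc (u * b)]
  have e2 : (M + u * b * uᵀ) * (G * u * (W⁻¹ * b) * (uᵀ * G)) = u * b * (uᵀ * G) := by
    have : (M + u * b * uᵀ) * (G * u) = u * W := by
      rw [← hWe, Matrix.add_mul, ← Matrix.mul_assoc M, hMG, Matrix.one_mul]
      simp only [Matrix.mul_assoc]
    calc (M + u * b * uᵀ) * (G * u * (W⁻¹ * b) * (uᵀ * G))
        = ((M + u * b * uᵀ) * (G * u)) * (W⁻¹ * b) * (uᵀ * G) := by simp only [Matrix.mul_assoc]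
      _ = u * (W * W⁻¹) * b * (uᵀ * G) := by rw [this]; simp only [Matrix.mul_assoc]
      _ = u * b * (uᵀ * G) := by rw [hWW, Matrix.mul_one]
  rw [mul_sub, e1, e2, add_sub_cancel_right]

theorem rd_W_E (A : Matrix V V ℝ) (e : ι → V) (B : Matrix ι ι ℝ) (ζ : V → ℂ) :
    rdW A (rsE e) B ζ = 1 + rsR B * (rdG A ζ).submatrix e e := by
  rw [rdW]
  congr 2
  ext i j
  rw [rs_mul_E, rs_E_mul]
  rfl

/-- **update on finitely many coordinates, solved form** -/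
theorem rd_update {A : Matrix V V ℝ} (hA : A.IsHermitian) (e : ι → V) (B : Matrix ι ι ℝ)
    (hB : (A + rsE e * B * (rsE e)ᵀ).IsHermitian) {ζ : V → ℂ} (hζ : ∀ x, 0 < (ζ x).im) (x y : V) :
    rdG (A + rsE e * B * (rsE e)ᵀ) ζ x y = rdG A ζ x y
      - ∑ i, ∑ j, rdG A ζ x (e i) * ((1 + rsR B * (rdG A ζ).submatrix e e)⁻¹ * rsR B) i j * rdG A ζ (e j) y := by
  rw [rd_woodbury hA (rsE e) B hB hζ, Matrix.sub_apply, Matrix.mul_apply, rd_W_E, Finset.sum_comm]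
  congr 1
  refine Finset.sum_congr rfl fun j _ => ?_
  rw [Matrix.mul_apply, rs_E_mul, Finset.sum_mul]
  refine Finset.sum_congr rfl fun i _ => ?_
  rw [rs_mul_E]

theorem rd_update_isUnit {A : Matrix V V ℝ} (hA : A.IsHermitian) (e : ι → V) (B : Matrix ι ι ℝ)
    (hB : (A + rsE e * B * (rsE e)ᵀ).IsHermitian) {ζ : V → ℂ} (hζ : ∀ x, 0 < (ζ x).im) :
    IsUnit (1 + rsR B * (rdG A ζ).submatrix e e).det := by
  rw [← rd_W_E]; exact rd_W_isUnit hA _ B hB hζ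

end woodbury

/-! ### blocks -/

/-- no entry of `A` between `S` and its complement: on the rows of `S` the resolvent is the minor -/
theorem rd_block_minor {A : Matrix V V ℝ} (hA : A.IsHermitian) {ζ : V → ℂ} (hζ : ∀ x, 0 < (ζ x).im) {S : Finset V}
    (hS : ∀ x ∈ S, ∀ y, y ∉ S → A x y = 0) {x : V} (hx : x ∈ S) (y : V) : rdG A ζ x y = rdG (rsDel A Sᶜ) ζ x y := by
  rw [rd_minor_exp hA hζ (T := Sᶜ) (by simpa using hx) y]
  have : ∑ v ∈ Sᶜ, (∑ u ∈ Sᶜᶜ, rdG (rsDel A Sᶜ) ζ x u * (A u v : ℂ)) * rdG A ζ v y = 0 := by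
    refine Finset.sum_eq_zero fun v hv => ?_
    have : ∑ u ∈ Sᶜᶜ, rdG (rsDel A Sᶜ) ζ x u * (A u v : ℂ) = 0 :=
      Finset.sum_eq_zero fun u hu => by
        rw [hS u (by simpa using hu) v (Finset.mem_compl.1 hv)]; simp
    rw [this, zero_mul]
  rw [this, sub_zero]

/-- **block lemma 1**: no entry of `A` between `S` and its complement ⟹ `G_xy = 0` across -/
theorem rd_block_zero {A : Matrix V V ℝ} (hA : A.IsHermitian) {ζ : V → ℂ} (hζ : ∀ x, 0 < (ζ x).im) {S : Finset V}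
    (hS : ∀ x ∈ S, ∀ y, y ∉ S → A x y = 0) {x y : V} (hx : x ∈ S) (hy : y ∉ S) : rdG A ζ x y = 0 := by
  rw [rd_block_minor hA hζ hS hx y]
  exact rd_del_G_out_in hA hζ (by simpa using hx) (by simpa using hy)

/-- the minor outside `T` does not see the potential on `T` -/
theorem rd_del_pot {A : Matrix V V ℝ} (hA : A.IsHermitian) {ζ ξ : V → ℂ} (hζ : ∀ x, 0 < (ζ x).im) (hξ : ∀ x, 0 < (ξ x).im) {T : Finset V}
    (h : ∀ x, x ∉ T → ζ x = ξ x) {x : V} (hx : x ∉ T) (y : V) : rdG (rsDel A T) ζ x y = rdG (rsDel A T) ξ x y := by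
  rw [rd_res_pot (rs_del_herm hA T) hζ hξ x y]
  have : ∑ u, rdG (rsDel A T) ζ x u * (ξ u - ζ u) * rdG (rsDel A T) ξ u y = 0 := by
    refine Finset.sum_eq_zero fun u _ => ?_
    by_cases hu : u ∈ T
    · rw [rd_del_G_out_in hA hζ hx hu]; ring
    · rw [h u hu]; ring
  rw [this, add_zero]

/-- **block lemma 2**: `G` on `S` depends only on `A` and `ζ` on `S` -/
theorem rd_block_congr {A A' : Matrix V V ℝ} (hA : A.IsHermitian) (hA' : A'.IsHermitian) {ζ ζ' : V → ℂ}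
    (hζ : ∀ x, 0 < (ζ x).im) (hζ' : ∀ x, 0 < (ζ' x).im) {S : Finset V}
    (hS : ∀ x ∈ S, ∀ y, y ∉ S → A x y = 0) (hS' : ∀ x ∈ S, ∀ y, y ∉ S → A' x y = 0)
    (hAA : ∀ x ∈ S, ∀ y ∈ S, A x y = A' x y) (hζζ : ∀ x ∈ S, ζ x = ζ' x) {x : V} (hx : x ∈ S) (y : V) :
    rdG A ζ x y = rdG A' ζ' x y := by
  rw [rd_block_minor hA hζ hS hx y, rd_block_minor hA' hζ' hS' hx y]
  have e : rsDel A Sᶜ = rsDel A' Sᶜ := by
    ext a b
    rw [rs_del_apply, rs_del_apply]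
    by_cases h : a ∈ Sᶜ ∨ b ∈ Sᶜ
    · rw [if_pos h, if_pos h]
    · rw [if_neg h, if_neg h]
      push Not at h
      exact hAA a (by simpa using h.1) b (by simpa using h.2)
  rw [← e]
  exact rd_del_pot hA hζ hζ' (fun u hu => hζζ u (by simpa using hu)) (by simpa using hx) y

/-- an isolated vertex -/
theorem rd_isolated {A : Matrix V V ℝ} (hA : A.IsHermitian) {ζ : V → ℂ} (hζ : ∀ x, 0 < (ζ x).im) {x : V} (hx : ∀ y, A x y = 0) (y : V) :
    rdG A ζ x y = if x = y then -1 / ζ x else 0 := by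
  have h := rd_eq_left hA hζ x y
  have h0 : ∑ u, (A x u : ℂ) * rdG A ζ u y = 0 := Finset.sum_eq_zero fun u _ => by rw [hx u]; simp
  rw [h0] at h
  have hz0 := rd_zeta_ne hζ x
  by_cases hxy : x = y
  · rw [if_pos hxy] at h ⊢
    field_simp
    linear_combination -h
  · rw [if_neg hxy] at h ⊢
    have : ζ x * rdG A ζ x y = 0 := by linear_combination -h
    exact (mul_eq_zero.1 this).resolve_left hz0

/-! ### the model of `DefsB1` -/

/-- the potential of the tree extension -/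
noncomputable def rdPot {n : ℕ} (d : ℕ) (Γ : Gr n) (z : ℂ) : Fin n → ℂ := fun x => z + rgg d z * ((d : ℂ) - rgDeg Γ x)

theorem rd_pot_eqns_cite : True := by
  have := @rdPot.eq_1
  trivial

theorem rd_mod {n : ℕ} (d : ℕ) (Γ : Gr n) (z : ℂ) : rgMod d Γ z = rsC (rgA Γ) - diagonal (rdPot d Γ z) := by
  classical
  ext x y
  rw [Matrix.sub_apply, rs_C_apply, Matrix.diagonal_apply, rgMod, rgA, SimpleGraph.adjMatrix_apply, rdPot]
  by_cases h : Γ.Adj x y <;> simp [h]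

/-- **the model is a resolvent with a diagonal potential** -/
theorem rd_model {n : ℕ} (d : ℕ) (Γ : Gr n) (z : ℂ) : rgPB d Γ z = rdG (rgA Γ) (rdPot d Γ z) := by
  rw [rgPB, rdG, rd_mod]

theorem rd_green {n : ℕ} (H : Gr n) (z : ℂ) : rgG H z = rdG (rgA H) (fun _ => z) := by
  rw [rgG, rd_G_const]

/-- positivity of the potential: `deg ≤ d`, `Im g ≥ 0`, `Im z > 0` -/
theorem rd_pot_im {n : ℕ} (d : ℕ) (Γ : Gr n) {z : ℂ} (hg : 0 ≤ (rgg d z).im) (hdeg : ∀ x, rgDeg Γ x ≤ d) (x : Fin n) :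
    z.im ≤ (rdPot d Γ z x).im := by
  have e : ((d : ℂ) - rgDeg Γ x) = (((d : ℝ) - rgDeg Γ x : ℝ) : ℂ) := by push_cast; ring
  rw [rdPot, Complex.add_im, e, Complex.mul_im, Complex.ofReal_im, Complex.ofReal_re, mul_zero, zero_add]
  have : (0 : ℝ) ≤ (d : ℝ) - rgDeg Γ x := by
    have := hdeg x
    have : (rgDeg Γ x : ℝ) ≤ d := by exact_mod_cast this
    linarith
  nlinarith [mul_nonneg hg this]

end Claimed.Agent.R287
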