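/-
Row 287 (S0534), unit B1, BOX[CUT]: EXACT facts on the model for `t1_det`, `t1_back` (T1) and T2.      helper270.   prefix `tgc`.

* `tg_prune`, `tg_model_prune`   : trees hanging by bridges are pruned exactly;
* `tg_model_comp_tree`           : tree values on a component which is a tree;
* `tg_cut_col`                   : the column of the cut model at the root of a hanging tree (`g (-g)^dist`);
* `tgc_*`                        : the same in the vocabulary of `DefsB1` / `ResE` (`rgPB`, `rdG`, `rsDel`, `rdPot`).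
-/
import Claimed.Agent.R287.B1x270
import Claimed.Agent.R287.ResE

set_option autoImplicit false
set_option linter.unusedSectionVars false

namespace Claimed.Agent.R287

open Finset

section prune
variable {V : Type*} [Fintype V] [DecidableEq V] {F₀ F Γ₀ Γ : SimpleGraph V}

/-- **exact pruning**, explicit form -/
theorem tg_prune (hF₀ : TgSpan F₀ Γ₀) (hF : TgSpan F Γ) (hle : Γ₀ ≤ Γ) (hFF : F₀ ≤ F) (hU : TgOne F Γ) (g : ℂ)
    {x y : V} (hxy : F₀.Reachable x y)
    (hcyc : ∀ p p', TgEx F Γ p p' → F.Reachable x p → TgEx F₀ Γ₀ p p' ∧ F₀.Reachable x p) :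
    tgP F Γ g x y = tgP F₀ Γ₀ g x y := by
  classical
  have hU₀ : TgOne F₀ Γ₀ := hU.mono hF₀ hF.2.1 hle hFF
  by_cases hex : ∃ s q, TgEx F Γ s q ∧ F.Reachable x s
  · obtain ⟨p, p', h, hr⟩ := hex
    obtain ⟨h', hr'⟩ := hcyc p p' h hr
    have hp' : F₀.Reachable x p' := hr'.trans (h'.reach hF₀)
    rw [tg_P_row1 hU g h hr.symm y, tg_P_row1 hU₀ g h' hr'.symm y, tg_Q_eq hF.2.1 hFF g hxy,
      tg_Q_eq hF.2.1 hFF g hr', tg_Q_eq hF.2.1 hFF g hp', tg_Q_eq hF.2.1 hFF g (hp'.symm.trans hxy),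
      tg_Q_eq hF.2.1 hFF g (hr'.symm.trans hxy), tg_K_eq hF₀ hF.2.1 hle hFF g h']
  · have hex' : ∀ s q, TgEx F Γ s q → ¬ F.Reachable x s := fun s q h1 h2 => hex ⟨s, q, h1, h2⟩
    have hex0 : ∀ s q, TgEx F₀ Γ₀ s q → ¬ F₀.Reachable x s := fun s q h1 h2 =>
      hex' s q (h1.mono hF₀ hF.2.1 hle hFF) (h2.mono hFF)
    rw [tg_P_row0 g hex' y, tg_P_row0 g hex0 y, tg_Q_eq hF.2.1 hFF g hxy]

/-- **exact pruning**: every edge of the component of `x` in `Γ` is an edge of the component of `x` in `Γ₀` or a bridge of `Γ` -/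
theorem tg_model_prune (hS : TgSparse Γ) (hle : Γ₀ ≤ Γ) {d : ℕ} {z g : ℂ} (h : TgCav d z g) (hg : ‖g‖ < 1) {x y : V}
    (hxy : Γ₀.Reachable x y)
    (hbr : ∀ u v, Γ.Adj u v → Γ.Reachable x u →
      (Γ₀.Adj u v ∧ Γ₀.Reachable x u) ∨ ¬ (Γ.deleteEdges {s(u, v)}).Reachable u v) :
    (tgM Γ d z g)⁻¹ x y = (tgM Γ₀ d z g)⁻¹ x y := by
  obtain ⟨F₀, hF₀⟩ := tg_exists_span Γ₀
  obtain ⟨F, hFF, h1, h2, h3⟩ :=
    Γ.exists_isAcyclic_reachable_eq_le_of_le_of_isAcyclic (hF₀.1.trans hle) hF₀.2.1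
  have hF : TgSpan F Γ := ⟨h1, h2, h3⟩
  have hU := tg_one_of_sparse hF hS
  have hU₀ : TgOne F₀ Γ₀ := hU.mono hF₀ hF.2.1 hle hFF
  rw [tg_inv_eq hF hU h hg, tg_inv_eq hF₀ hU₀ h hg]
  refine tg_prune hF₀ hF hle hFF hU g (by rw [hF₀.2.2]; exact hxy) ?_
  intro p p' hex hr
  rcases hbr p p' hex.1 (by rw [← hF.2.2]; exact hr) with ⟨a1, a2⟩ | hb
  · exact ⟨⟨a1, fun e => hex.2 (hFF e)⟩, by rw [hF₀.2.2]; exact a2⟩
  · exfalso
    apply hb
    have hle' : F ≤ Γ.deleteEdges {s(p, p')} := by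
      intro a b hab
      rw [SimpleGraph.deleteEdges_adj]
      refine ⟨hF.1 hab, fun hm => ?_⟩
      rw [Set.mem_singleton_iff, Sym2.eq_iff] at hm
      rcases hm with ⟨e1, e2⟩ | ⟨e1, e2⟩
      · subst e1; subst e2; exact hex.2 hab
      · subst e1; subst e2; exact hex.2 hab.symm
    exact (hex.reach hF).mono hle'

/-- reachability inside a component all of whose edges belong to `Γ₀` -/
theorem tg_reach_transfer {x : V} (hall : ∀ u v, Γ.Adj u v → Γ.Reachable x u → Γ₀.Adj u v) {u : V}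
    (hu : Γ.Reachable x u) : Γ₀.Reachable x u := by
  have key : ∀ (a b : V) (p : Γ.Walk a b), Γ.Reachable x a → Γ₀.Reachable x a → Γ₀.Reachable x b := by
    intro a b p
    induction p with
    | nil => exact fun _ h => h
    | cons hadj _ ih =>
      intro h1 h2
      exact ih (h1.trans hadj.reachable) (h2.trans (hall _ _ hadj h1).reachable)
  obtain ⟨p⟩ := hu
  exact key x u p (SimpleGraph.Reachable.refl x) (SimpleGraph.Reachable.refl x)

/-- **tree values on a component which is a tree** -/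
theorem tg_model_comp_tree (hS : TgSparse Γ) (hle : Γ₀ ≤ Γ) (hΓ₀ : Γ₀.IsAcyclic) {d : ℕ} {z g : ℂ}
    (h : TgCav d z g) (hg : ‖g‖ < 1) {x : V} (hall : ∀ u v, Γ.Adj u v → Γ.Reachable x u → Γ₀.Adj u v) (y : V) :
    (tgM Γ d z g)⁻¹ x y = tgQ Γ₀ g x y := by
  classical
  by_cases hxy : Γ₀.Reachable x y
  · rw [tg_model_prune hS hle h hg hxy fun u v huv hu => Or.inl ⟨hall u v huv hu, tg_reach_transfer hall hu⟩,
      tg_model_forest hΓ₀ h hg]
  · have hxy' : ¬ Γ.Reachable x y := fun e => hxy (tg_reach_transfer hall e)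
    rw [tg_model_zero hS h hg hxy', tgQ, if_neg hxy]

/-- `(1 - g²) m = g` -/
theorem tg_m_one_sub {g : ℂ} (hne : g ^ 2 ≠ 1) : (1 - g ^ 2) * tgm g = g := by
  have h1 : (1 : ℂ) - g ^ 2 ≠ 0 := fun e => hne (by linear_combination -e)
  unfold tgm
  field_simp

open Classical in
/-- **the cut model at the root of a hanging tree**: `M` agrees with `tgM Φ + g e_r e_rᵀ` on the rows of the component of `r` in the
forest `Φ` and does not couple this component to the rest -/
theorem tg_cut_col {Φ : SimpleGraph V} (hΦ : Φ.IsAcyclic) {d : ℕ} {z g : ℂ} (h : TgCav d z g) (hne : g ^ 2 ≠ 1) (r : V)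
    (M : Matrix V V ℂ)
    (hrow : ∀ x, Φ.Reachable r x → ∀ w, M x w = tgM Φ d z g x w + (if x = r ∧ w = r then g else 0))
    (hout : ∀ x w, ¬ Φ.Reachable r x → Φ.Reachable r w → M x w = 0) (x : V) :
    ∑ w, M x w * ((1 - g ^ 2) * tgQ Φ g w r) = if x = r then 1 else 0 := by
  have hf := tg_forest hΦ h hne
  by_cases hx : Φ.Reachable r x
  · have e1 : ∑ w, M x w * ((1 - g ^ 2) * tgQ Φ g w r)
        = (1 - g ^ 2) * ∑ w, tgM Φ d z g x w * tgQ Φ g w r
          + ∑ w, (if x = r ∧ w = r then g else 0) * ((1 - g ^ 2) * tgQ Φ g w r) := by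
      rw [mul_sum, ← sum_add_distrib]
      refine sum_congr rfl fun w _ => ?_
      rw [hrow x hx w]; ring
    have e2 : ∑ w, tgM Φ d z g x w * tgQ Φ g w r = if x = r then 1 else 0 := by
      have := congrFun (congrFun hf x) r
      rwa [Matrix.mul_apply, Matrix.one_apply] at this
    rw [e1, e2]
    by_cases hxr : x = r
    · subst hxr
      simp only [true_and, if_true, ite_mul, zero_mul, sum_ite_eq', mem_univ, tg_Q_self, tg_m_one_sub hne]
      ring
    · simp [hxr]
  · have hxr : x ≠ r := by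
      rintro rfl
      exact hx (SimpleGraph.Reachable.refl x)
    rw [if_neg hxr]
    refine sum_eq_zero fun w _ => ?_
    by_cases hw : Φ.Reachable r w
    · rw [hout x w hx hw, zero_mul]
    · rw [tgQ, if_neg (fun e => hw e.symm), mul_zero, mul_zero]

end prune

/-! ### the same in the vocabulary of `DefsB1`, `ResE` -/

section rg
variable {n d : ℕ} {Γ₀ Γ Φ : Gr n} {z : ℂ}

open Classical in
/-- **(P1)** tree values on a component which is a tree -/
theorem tgc_comp_tree (hS : TgSparse Γ) (hle : Γ₀ ≤ Γ) (hΓ₀ : Γ₀.IsAcyclic) (hd : 2 ≤ d) (hz : 0 < z.im) {x : Fin n}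
    (hall : ∀ u v, Γ.Adj u v → Γ.Reachable x u → Γ₀.Adj u v) (y : Fin n) :
    rgPB d Γ z x y = if Γ₀.Reachable x y then rgTv d z (Γ₀.dist x y) else 0 := by
  rw [tgr_PB_eq, tg_model_comp_tree hS hle hΓ₀ (tgr_cav hd z) (tgr_norm_lt_one hd hz) hall y]
  rfl

/-- **(P2)** exact pruning -/
theorem tgc_prune (hS : TgSparse Γ) (hle : Γ₀ ≤ Γ) (hd : 2 ≤ d) (hz : 0 < z.im) {x y : Fin n}
    (hxy : Γ₀.Reachable x y)
    (hbr : ∀ u v, Γ.Adj u v → Γ.Reachable x u →
      (Γ₀.Adj u v ∧ Γ₀.Reachable x u) ∨ ¬ (Γ.deleteEdges {s(u, v)}).Reachable u v) :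
    rgPB d Γ z x y = rgPB d Γ₀ z x y :=
  tg_model_prune hS hle (tgr_cav hd z) (tgr_norm_lt_one hd hz) hxy hbr

theorem tgc_A_apply (Γ : Gr n) (x y : Fin n) [Decidable (Γ.Adj x y)] : rgA Γ x y = if Γ.Adj x y then 1 else 0 := by
  classical
  rw [rgA, SimpleGraph.adjMatrix_apply]
  congr

open Classical in
/-- **(P3)** the cut model at a clean slot: `r ∉ T`, the component of `r` in `Γ` minus `T` is the tree `Φ`, whose only door to `T` is
one edge at `r` -/
theorem tgc_cut (hd : 2 ≤ d) (hz : 0 < z.im) (hdeg : ∀ x, rgDeg Γ x ≤ d) (hΦ : Φ.IsAcyclic) {T : Finset (Fin n)}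
    {r : Fin n} (hrT : r ∉ T) (hΦΓ : ∀ u v, Φ.Adj u v → Γ.Adj u v ∧ v ∉ T)
    (hall : ∀ u v, Γ.Adj u v → Φ.Reachable r u → v ∉ T → Φ.Adj u v)
    (hdoor : (univ.filter fun t => t ∈ T ∧ Γ.Adj r t).card = 1)
    (hnodoor : ∀ u, Φ.Reachable r u → u ≠ r → ∀ t ∈ T, ¬ Γ.Adj u t) (u : Fin n) :
    rdG (rsDel (rgA Γ) T) (rdPot d Γ z) u r
      = if Φ.Reachable r u then rgg d z * (-rgg d z) ^ Φ.dist r u else 0 := by
  set g := rgg d z with hg
  have hcav : TgCav d z g := tgr_cav hd z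
  have hg1 : ‖g‖ < 1 := tgr_norm_lt_one hd hz
  have hne : g ^ 2 ≠ 1 := tg_sq_ne_one' hg1
  have hζ : ∀ x, 0 < (rdPot d Γ z x).im := fun x =>
    lt_of_lt_of_le hz (rd_pot_im d Γ (tgr_im_pos hd hz).le hdeg x)
  -- the component avoids `T`
  have hnotT : ∀ x, Φ.Reachable r x → x ∉ T := by
    have key : ∀ (a b : Fin n) (p : Φ.Walk a b), a ∉ T → b ∉ T := by
      intro a b p
      induction p with
      | nil => exact fun h => h
      | cons hadj _ ih => exact fun _ => ih (hΦΓ _ _ hadj).2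
    rintro x ⟨p⟩
    exact key r x p hrT
  -- adjacency on the component
  have hadj : ∀ x w, Φ.Reachable r x → (Φ.Adj x w ↔ Γ.Adj x w ∧ w ∉ T) := fun x w hx =>
    ⟨fun h => hΦΓ x w h, fun h => hall x w h.1 hx h.2⟩
  -- degrees on the component
  have hdegs : ∀ x, Φ.Reachable r x →
      rgDeg Γ x = tgDeg Φ x + (univ.filter fun t => t ∈ T ∧ Γ.Adj x t).card := by
    intro x hx
    unfold rgDeg tgDeg
    rw [← card_union_of_disjoint]
    · congr 1
      ext w
      simp only [mem_filter, mem_univ, true_and, mem_union]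
      rw [hadj x w hx]
      by_cases hw : w ∈ T <;> simp [hw]
    · rw [disjoint_left]
      intro w h1 h2
      exact ((hadj x w hx).mp (mem_filter.mp h1).2).2 (mem_filter.mp h2).2.1
  set M : Matrix (Fin n) (Fin n) ℂ := fun x w =>
    ((rsDel (rgA Γ) T x w : ℝ) : ℂ) - (if x = w then rdPot d Γ z x else 0) with hM
  have hrow : ∀ x, Φ.Reachable r x → ∀ w, M x w = tgM Φ d z g x w + (if x = r ∧ w = r then g else 0) := by
    intro x hx w
    have hxT := hnotT x hx
    simp only [hM, tgM]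
    by_cases hxw : x = w
    · subst hxw
      rw [rs_del_out _ hxT hxT, tgc_A_apply]
      simp only [SimpleGraph.irrefl, if_false, if_true, and_self, rdPot]
      rw [hdegs x hx, ← hg]
      by_cases hxr : x = r
      · subst hxr
        rw [hdoor, if_pos rfl]
        push_cast
        ring
      · have h0 : (univ.filter fun t => t ∈ T ∧ Γ.Adj x t).card = 0 := by
          rw [card_eq_zero, filter_eq_empty_iff]
          intro t _ ht
          exact hnodoor x hx hxr t ht.1 ht.2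
        rw [h0, if_neg hxr]
        push_cast
        ring
    · have hnr : ¬ (x = r ∧ w = r) := fun e => hxw (e.1.trans e.2.symm)
      simp only [hxw, if_false, hnr, sub_zero, add_zero]
      by_cases hw : w ∈ T
      · rw [rs_del_right _ _ hw]
        have : ¬ Φ.Adj x w := fun e => ((hadj x w hx).mp e).2 hw
        simp [this]
      · rw [rs_del_out _ hxT hw, tgc_A_apply]
        have : Φ.Adj x w ↔ Γ.Adj x w := by rw [hadj x w hx]; simp [hw]
        simp only [this]
        split_ifs <;> simp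
  have hout : ∀ x w, ¬ Φ.Reachable r x → Φ.Reachable r w → M x w = 0 := by
    intro x w hx hw
    have hxw : x ≠ w := fun e => hx (e ▸ hw)
    simp only [hM, hxw, if_false, sub_zero]
    by_cases hxT : x ∈ T
    · rw [rs_del_left _ hxT]; simp
    · rw [rs_del_out _ hxT (hnotT w hw), tgc_A_apply]
      have : ¬ Γ.Adj x w := fun e => hx (hw.trans (hall w x e.symm hw hxT).reachable)
      simp [this]
  have hcol := tg_cut_col hΦ hcav hne r M hrow hout
  set f : Fin n → ℂ := fun w => (1 - g ^ 2) * tgQ Φ g w r with hf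
  have hcol' : ∀ x, ∑ w, M x w * f w = if x = r then 1 else 0 := hcol
  have huniq := rd_col_unique (rs_del_herm (rg_A_herm Γ) T) hζ r f (fun x => by
    have := hcol' x
    simp only [hM, sub_mul, sum_sub_distrib, ite_mul, zero_mul, sum_ite_eq, mem_univ, if_true] at this
    rw [← this]
    ring) u
  rw [← huniq, hf]
  simp only [tgQ]
  by_cases hu : Φ.Reachable r u
  · rw [if_pos hu.symm, if_pos hu, ← mul_assoc, tg_m_one_sub hne, SimpleGraph.dist_comm]
  · rw [if_neg (fun e => hu e.symm), if_neg hu, mul_zero]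

open Classical in
/-- **door lemma**: `Φ` = the tree hanging at `t` by its only door `(t,u)`; `x` outside the tree.   No sparseness is needed. -/
theorem tgc_door_gen (hd : 2 ≤ d) (hz : 0 < z.im) (hdeg : ∀ x, rgDeg Γ x ≤ d) (hΦ : Φ.IsAcyclic) {t u : Fin n}
    (htu : Γ.Adj t u) (hΦΓ : ∀ a b, Φ.Adj a b → Γ.Adj a b ∧ b ≠ t)
    (hall : ∀ a b, Γ.Adj a b → Φ.Reachable u a → b ≠ t → Φ.Adj a b)
    (hnodoor : ∀ a, Φ.Reachable u a → a ≠ u → ¬ Γ.Adj a t) {w x : Fin n} (hw : Φ.Reachable u w)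
    (hx : ¬ Φ.Reachable u x) :
    rgPB d Γ z w x = (-rgg d z) ^ (Φ.dist u w + 1) * rgPB d Γ z t x := by
  have hζ : ∀ x, 0 < (rdPot d Γ z x).im := fun x =>
    lt_of_lt_of_le hz (rd_pot_im d Γ (tgr_im_pos hd hz).le hdeg x)
  have hA := rg_A_herm Γ
  have hcut := tgc_cut (Γ := Γ) (Φ := Φ) (T := {t}) (r := u) hd hz hdeg hΦ
    (by rw [mem_singleton]; exact htu.ne')
    (fun a b hab => ⟨(hΦΓ a b hab).1, by rw [mem_singleton]; exact (hΦΓ a b hab).2⟩)
    (fun a b hab ha hb => hall a b hab ha (by rwa [mem_singleton] at hb))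
    (by
      have : (univ.filter fun s => s ∈ ({t} : Finset (Fin n)) ∧ Γ.Adj u s) = {t} := by
        ext s
        simp only [mem_filter, mem_univ, true_and, mem_singleton]
        exact ⟨fun h => h.1, fun h => ⟨h, h ▸ htu.symm⟩⟩
      rw [this, card_singleton])
    (fun a ha hau s hs => by rw [mem_singleton] at hs; rw [hs]; exact hnodoor a ha hau)
  -- the tree avoids `t`
  have hnt : ∀ a, Φ.Reachable u a → a ≠ t := by
    have key : ∀ (a b : Fin n) (q : Φ.Walk a b), a ≠ t → b ≠ t := by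
      intro a b q
      induction q with
      | nil => exact fun h => h
      | cons hadj _ ih => exact fun _ => ih (hΦΓ _ _ hadj).2
    rintro a ⟨q⟩
    exact key u a q htu.ne'
  have hwt : w ∉ ({t} : Finset (Fin n)) := by rw [mem_singleton]; exact hnt w hw
  set S : Finset (Fin n) := univ.filter fun a => Φ.Reachable u a with hS
  have memS : ∀ a, a ∈ S ↔ Φ.Reachable u a := fun a => by simp [hS]
  have hblock : ∀ a ∈ S, ∀ b, b ∉ S → rsDel (rgA Γ) {t} a b = 0 := by
    intro a ha b hb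
    by_cases hbt : b = t
    · rw [hbt]; exact rs_del_right _ _ (mem_singleton_self t)
    · rw [rs_del_out _ (by rw [mem_singleton]; exact hnt a ((memS a).mp ha)) (by rwa [mem_singleton]),
        tgc_A_apply, if_neg]
      intro hab
      exact hb ((memS b).mpr (((memS a).mp ha).trans (hall a b hab ((memS a).mp ha) hbt).reachable))
  have hz0 : ∀ b, b ∉ S → rdG (rsDel (rgA Γ) {t}) (rdPot d Γ z) w b = 0 := fun b hb =>
    rd_block_zero (rs_del_herm hA {t}) hζ hblock ((memS w).mpr hw) hb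
  rw [rd_model, rd_minor_exp hA hζ hwt x, sum_singleton, hz0 x (fun h => hx ((memS x).mp h)), zero_sub]
  have e2 : ∑ a ∈ ({t} : Finset (Fin n))ᶜ, rdG (rsDel (rgA Γ) {t}) (rdPot d Γ z) w a * ((rgA Γ a t : ℝ) : ℂ)
      = rgg d z * (-rgg d z) ^ Φ.dist u w := by
    rw [sum_eq_single u]
    · rw [hcut w, if_pos hw, tgc_A_apply, if_pos htu.symm]
      simp
    · intro a _ hau
      by_cases ha : a ∈ S
      · rw [tgc_A_apply, if_neg (hnodoor a ((memS a).mp ha) hau)]; simp
      · rw [hz0 a ha, zero_mul]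
    · intro h
      exact absurd (mem_compl.mpr (by rw [mem_singleton]; exact htu.ne')) h
  rw [e2, pow_succ]
  ring

/-- **door lemma** (form of helper271): `P_ux = - g P_tx` -/
theorem tgc_door (hd : 2 ≤ d) (hz : 0 < z.im) (hdeg : ∀ x, rgDeg Γ x ≤ d) (hΦ : Φ.IsAcyclic) {t u : Fin n}
    (htu : Γ.Adj t u) (hΦΓ : ∀ a b, Φ.Adj a b → Γ.Adj a b ∧ b ≠ t)
    (hall : ∀ a b, Γ.Adj a b → Φ.Reachable u a → b ≠ t → Φ.Adj a b)
    (hnodoor : ∀ a, Φ.Reachable u a → a ≠ u → ¬ Γ.Adj a t) {x : Fin n} (hx : ¬ Φ.Reachable u x) :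
    rgPB d Γ z u x = - rgg d z * rgPB d Γ z t x := by
  rw [tgc_door_gen hd hz hdeg hΦ htu hΦΓ hall hnodoor (SimpleGraph.Reachable.refl u) hx,
    SimpleGraph.dist_self, zero_add, pow_one]

/-! ### the outer identity (reference model = the model of `T` alone) -/

open Classical in
/-- **outer identity**: `X` any column whose rows `t ∈ T` satisfy `((A - z) X)_t = b_t` -/
theorem tgc_outer {H : Gr n} (hd : 2 ≤ d) (hz : 0 < z.im) (hreg : ∀ v, tgDeg H v = d) (T : Finset (Fin n))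
    (X b : Fin n → ℂ) (hX : ∀ t ∈ T, ∑ w, ((rgA H t w : ℝ) : ℂ) * X w - z * X t = b t) {o : Fin n} (ho : o ∈ T) :
    X o = ∑ t ∈ T, rgPB d (rgRes H T) z o t * b t
      - ∑ t ∈ T, ∑ w ∈ Tᶜ, (if H.Adj t w then rgPB d (rgRes H T) z o t * (X w + rgg d z * X t) else 0) := by
  set Γ' := rgRes H T with hΓ'
  set g := rgg d z with hg
  have hle : Γ' ≤ H := tgIn_le H T
  have hdeg : ∀ v, rgDeg Γ' v ≤ d := fun v => (b1x_deg_mono hle v).trans (hreg v).le
  have hζ : ∀ v, 0 < (rdPot d Γ' z v).im := fun v =>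
    lt_of_lt_of_le hz (rd_pot_im d Γ' (tgr_im_pos hd hz).le hdeg v)
  have hA := rg_A_herm Γ'
  have hinv : rgPB d Γ' z * rgMod d Γ' z = 1 := by
    rw [rd_model, rd_mod]; exact rd_G_mul hA hζ
  -- `X = P' (M' X)`
  have e1 : X o = ∑ t, rgPB d Γ' z o t * ∑ w, rgMod d Γ' z t w * X w := by
    have h1 : (rgPB d Γ' z * rgMod d Γ' z).mulVec X o = X o := by rw [hinv, Matrix.one_mulVec]
    rw [← h1, ← Matrix.mulVec_mulVec]
    rfl
  -- `P'` vanishes outside `T`
  have hout : ∀ t, t ∉ T → rgPB d Γ' z o t = 0 := by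
    intro t ht
    rw [rd_model]
    refine rd_block_zero hA hζ (S := T) ?_ ho ht
    intro a _ c hc
    rw [tgc_A_apply, if_neg]
    exact fun h => hc h.2.2
  -- the rows of `T`
  have hrow : ∀ t ∈ T, ∑ w, rgMod d Γ' z t w * X w
      = b t - ∑ w ∈ Tᶜ, (if H.Adj t w then X w + g * X t else 0) := by
    intro t ht
    rw [← hX t ht]
    have hdegt : (d : ℂ) - rgDeg Γ' t = ((Tᶜ.filter fun w => H.Adj t w).card : ℂ) := by
      have h1 : tgDeg H t = rgDeg Γ' t + (Tᶜ.filter fun w => H.Adj t w).card := by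
        unfold tgDeg rgDeg
        rw [← card_union_of_disjoint]
        · congr 1
          ext w
          simp only [mem_filter, mem_univ, true_and, mem_union, mem_compl]
          constructor
          · intro h
            by_cases hw : w ∈ T
            · exact Or.inl ⟨h, ht, hw⟩
            · exact Or.inr ⟨hw, h⟩
          · rintro (h | h)
            · exact h.1
            · exact h.2
        · rw [disjoint_left]
          intro w h1 h2
          exact (mem_compl.mp (mem_filter.mp h2).1) (mem_filter.mp h1).2.2.2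
      rw [← hreg t, h1]
      push_cast
      ring
    have e2 : ∑ w, rgMod d Γ' z t w * X w
        = ∑ w, (if Γ'.Adj t w then X w else 0) - (z + g * ((d : ℂ) - rgDeg Γ' t)) * X t := by
      simp only [rgMod, sub_mul, sum_sub_distrib, ite_mul, one_mul, zero_mul, sum_ite_eq, mem_univ, if_true]
      rfl
    have e3 : ∑ w, ((rgA H t w : ℝ) : ℂ) * X w = ∑ w, (if H.Adj t w then X w else 0) := by
      refine sum_congr rfl fun w _ => ?_
      rw [tgc_A_apply]
      split_ifs <;> simp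
    have e4 : ∑ w, (if H.Adj t w then X w else 0)
        = ∑ w, (if Γ'.Adj t w then X w else 0) + ∑ w ∈ Tᶜ, (if H.Adj t w then X w else 0) := by
      rw [← sum_add_sum_compl T]
      congr 1
      rw [← sum_add_sum_compl T (fun w => if Γ'.Adj t w then X w else 0)]
      have z1 : ∑ w ∈ Tᶜ, (if Γ'.Adj t w then X w else 0) = 0 :=
        sum_eq_zero fun w hw => if_neg fun h => (mem_compl.mp hw) h.2.2
      rw [z1, add_zero]
      refine sum_congr rfl fun w hw => ?_
      have : Γ'.Adj t w ↔ H.Adj t w := ⟨fun h => h.1, fun h => ⟨h, ht, hw⟩⟩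
      simp only [this]
    have e5 : ∑ w ∈ Tᶜ, (if H.Adj t w then X w + g * X t else 0)
        = ∑ w ∈ Tᶜ, (if H.Adj t w then X w else 0) + ((Tᶜ.filter fun w => H.Adj t w).card : ℂ) * (g * X t) := by
      rw [← sum_filter, ← sum_filter, sum_add_distrib, sum_const, nsmul_eq_mul]
    rw [e2, e3, e4, e5, hdegt]
    ring
  rw [e1, ← sum_add_sum_compl T]
  have z2 : ∑ t ∈ Tᶜ, rgPB d Γ' z o t * ∑ w, rgMod d Γ' z t w * X w = 0 :=
    sum_eq_zero fun t ht => by rw [hout t (mem_compl.mp ht), zero_mul]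
  rw [z2, add_zero, ← sum_sub_distrib]
  refine sum_congr rfl fun t ht => ?_
  rw [hrow t ht, mul_sub, mul_sum]
  congr 1
  refine sum_congr rfl fun w _ => ?_
  split_ifs <;> simp

end rg
end Claimed.Agent.R287
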