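-- KEEP
import Claimed.Agent.R287.Ent.Tensor
import Claimed.Prelude.Def_0462

/-!
# Row 287 (S0534), unit ENT = P1 Sec. 3, Lemmas 3.2-3.4, in the form "A5-lite"      HEAD helper277.   Prefixes `en`, `En`, `gm`.
Note: `origin/helper277:notes/R287/A5_helper277.md` (sec. 6 = A5-lite).   Consumer: unit GAU (helper283, criterion [G]).   Geometry = `R287/Ent/Tensor.lean` (`etOm`, `etAv`, `etP`).

PART 1  definitions: Gaussian mixtures (`gmStd gmSq gmQ gmDens gmMix gmE gmH`), ratio entropy (`enR enEnt`), Shannon entropy `enHd`, ordered stars `EnLoc`, histograms `enT enQ`, the event `EnTypeOk` of Lemma 3.2, quantiser `enBin`.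
PART 2  THE CHAIN at ONE graph.   `EnData` = (`G`, `ℓ` eigenvectors `V` of the band, noise `Y = L g` of covariance `Γ = L Lᵀ = (η/r) ((A - E)² + η²)⁻¹`, `r = π ρ_d(E)`);
        `EnData.Ok γ α c₂` = what is imported at the size `n` (regime `η = n^-α`, bins of width `b = n^-γ`, `K = 2 ⌈n^{2γ}⌉ + 2` bins): sup norm `n^{α/16}`, band `n^{-1/2}`, typical stars (closeness `n^{-α/2}`, exceptional fraction `n^-c₂`), ONE SIDED log-potential with error `n^{-c₂ α}`, `EnTypeOk` with error `n^{1-c₂}`.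
        NINE leaves `en_i .. en_mom` (in `R287/Ent/{Loc,Cell,Conc,Gibbs}.lean`; `en_det` here), glue `en_exit` PROVED at the end of `R287/Ent/Gibbs.lean`:   `Ent(ε B_V) - (d/2) Ent(ε P_i B_V) ≤ C n^-c`, uniformly in `ε ∈ [0,1]`; `C, c, n₀` depend on `d, E, r, ℓ, γ, α, c₂` only.
PART 3  the other exports (sup norm here; mean, covariance, reversal in `Ent/Loc.lean`) and the EXIT `en_out : EnOut ..` (end of `Ent/Gibbs.lean`) = the hypotheses of the Gaussian criterion [G] for `B = B_V`.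
PART 4  the existence of the noise `en_noise`.      Lemma 3.2 = `en_type'` in `R287/Ent/Cnt.lean` (NO pairing model, NO P(simple)).
Notation of the leaves:  `HS` = differential entropy of the star observation of `F = ε V + Y`,  `HE` = of the edge observation,  `pL` = law of the quantised labelling, `Tb`, `Qb` = expected histograms.
-/

set_option autoImplicit false

namespace Claimed.Agent.R287

open MeasureTheory ProbabilityTheory Matrix

noncomputable section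

/-! ### Gaussian kit -/

/-- standard Gaussian on `ι → ℝ` -/
def gmStd (ι : Type) [Fintype ι] : Measure (ι → ℝ) := Measure.pi fun _ => gaussianReal 0 1

/-- squared Euclidean norm -/
def gmSq {ι : Type} [Fintype ι] (x : ι → ℝ) : ℝ := ∑ i, x i ^ 2

/-- the quadratic form `xᵀ Λ x` -/
def gmQ {ι : Type} [Fintype ι] (Λ : Matrix ι ι ℝ) (x : ι → ℝ) : ℝ := x ⬝ᵥ (Λ *ᵥ x)

/-- density of `N(m, Λ⁻¹)` -/
def gmDens {ι : Type} [Fintype ι] [DecidableEq ι] (Λ : Matrix ι ι ℝ) (m y : ι → ℝ) : ℝ :=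
  Real.sqrt Λ.det * (2 * Real.pi) ^ (-(Fintype.card ι : ℝ) / 2) * Real.exp (-(gmQ Λ (y - m)) / 2)

/-- average over a finite type -/
def enAvg {K : Type} [Fintype K] (f : K → ℝ) : ℝ := (Fintype.card K : ℝ)⁻¹ * ∑ k, f k

/-- density of the mixture `avg_k N(m_k, Λ_k⁻¹)` -/
def gmMix {ι K : Type} [Fintype ι] [DecidableEq ι] [Fintype K] (Λ : K → Matrix ι ι ℝ) (m : K → ι → ℝ) (y : ι → ℝ) : ℝ :=
  enAvg fun k => gmDens (Λ k) (m k) y

/-- expectation under the mixture `avg_k law(m_k + B_k g)` -/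
def gmE {ι κ K : Type} [Fintype κ] [Fintype K] (B : K → Matrix ι κ ℝ) (m : K → ι → ℝ) (φ : (ι → ℝ) → ℝ) : ℝ :=
  enAvg fun k => ∫ g, φ (m k + B k *ᵥ g) ∂(gmStd κ)

/-- differential entropy of the mixture (`B_k B_kᵀ Λ_k = 1`) -/
def gmH {ι κ K : Type} [Fintype ι] [DecidableEq ι] [Fintype κ] [Fintype K] (B : K → Matrix ι κ ℝ) (Λ : K → Matrix ι ι ℝ)
    (m : K → ι → ℝ) : ℝ := gmE B m fun y => - Real.log (gmMix Λ m y)

/-- density ratio of `avg_k law(b_k + g)` with respect to the standard Gaussian -/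
def enR {ι K : Type} [Fintype ι] [Fintype K] (b : K → ι → ℝ) (y : ι → ℝ) : ℝ :=
  enAvg fun k => Real.exp (b k ⬝ᵥ y - gmSq (b k) / 2)

/-- relative entropy of `avg_k law(b_k + g)` with respect to the standard Gaussian -/
def enEnt {ι K : Type} [Fintype ι] [Fintype K] (b : K → ι → ℝ) : ℝ :=
  enAvg fun k => ∫ g, Real.log (enR b (b k + g)) ∂(gmStd ι)

/-! ### discrete entropy -/

/-- Shannon entropy -/
def enHd {α : Type} [Fintype α] (p : α → ℝ) : ℝ := ∑ a, Real.negMulLog (p a)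

/-! ### locations, histograms -/

/-- ordered stars -/
def EnLoc {n : ℕ} (G : SimpleGraph (Fin n)) (d : ℕ) : Type :=
  {s : Fin n × (Fin d → Fin n) // Function.Injective s.2 ∧ ∀ i, G.Adj s.1 (s.2 i)}

instance {n : ℕ} (G : SimpleGraph (Fin n)) (d : ℕ) : Fintype (EnLoc G d) := by
  classical
  unfold EnLoc
  infer_instance

/-- the vertex at the position `x` of the star (`none` = centre) -/
def EnLoc.vx {n : ℕ} {G : SimpleGraph (Fin n)} {d : ℕ} (s : EnLoc G d) : Option (Fin d) → Fin n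
  | none => s.1.1
  | some i => s.1.2 i

/-- the two ends of the `i`-th oriented edge of the star (`false` = centre) -/
def EnLoc.ed {n : ℕ} {G : SimpleGraph (Fin n)} {d : ℕ} (s : EnLoc G d) (i : Fin d) : Bool → Fin n
  | false => s.1.1
  | true => s.1.2 i

open Classical in
/-- star histogram of a labelling -/
def enT {n : ℕ} (G : SimpleGraph (Fin n)) (d : ℕ) {𝒜 : Type} (c : Fin n → 𝒜) (τ : Option (Fin d) → 𝒜) : ℝ :=
  enAvg fun s : EnLoc G d => if (fun x => c (s.vx x)) = τ then 1 else 0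

open Classical in
/-- edge histogram of a labelling (the `i`-th neighbour; independent of `i`) -/
def enQ {n : ℕ} (G : SimpleGraph (Fin n)) (d : ℕ) (i : Fin d) {𝒜 : Type} (c : Fin n → 𝒜) (τ : Bool → 𝒜) : ℝ :=
  enAvg fun s : EnLoc G d => if (fun x => c (s.ed i x)) = τ then 1 else 0

open Classical in
/-- **the event of Lemma 3.2**: every type class of labellings is at most as large as the star-edge entropy allows -/
def EnTypeOk {n : ℕ} (G : SimpleGraph (Fin n)) (d : ℕ) (i : Fin d) (𝒜 : Type) [Fintype 𝒜] (err : ℝ) : Prop :=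
  ∀ c : Fin n → 𝒜, Real.log ((Finset.univ.filter fun c' : Fin n → 𝒜 => enT G d c' = enT G d c).card : ℝ)
    ≤ n * enHd (enT G d c) - (n * d / 2 : ℝ) * enHd (enQ G d i c) + err

/-! ### the quantiser -/

/-- bin of width `b`, clipped: `K` bins, the bins `0` and `K - 1` are unbounded; the bin `k` (`0 < k < K - 1`) is `[(k - K/2) b, (k + 1 - K/2) b)` -/
def enBin (b : ℝ) (K : ℕ) [NeZero K] (t : ℝ) : Fin K :=
  Fin.ofNat K (min (K - 1) (Int.toNat (⌊t / b⌋ + (K / 2 : ℕ))))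


/-! ## PART 2: the chain -/

open Classical in
/-- adjacency matrix (classical decidability, as in the frozen definition) -/
def enA {n : ℕ} (G : SimpleGraph (Fin n)) : Matrix (Fin n) (Fin n) ℝ := G.adjMatrix ℝ

/-- `p = E / d` -/
def enP (d : ℕ) (E : ℝ) : ℝ := E / d
/-- `a = d (1 - p²) / (d - 1)` -/
def enAa (d : ℕ) (E : ℝ) : ℝ := d / ((d : ℝ) - 1) * (1 - enP d E ^ 2)
/-- the logarithmic potential of the Kesten-McKay law at `E`, by the formula (2.4) -/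
def enU (d : ℕ) (E : ℝ) : ℝ := Real.log d / 2 - ((d : ℝ) - 1) / 2 * Real.log (enAa d E) + (d : ℝ) / 4 * Real.log (1 - enP d E ^ 2)

/-- covariance of the Gaussian wave on a star -/
def enSig0 (d : ℕ) (E : ℝ) : Matrix (Option (Fin d)) (Option (Fin d)) ℝ := fun x y =>
  if x = y then 1 else if x = none ∨ y = none then enP d E else (E ^ 2 - d) / (d * ((d : ℝ) - 1))

/-- data at one graph -/
structure EnData (n d ℓ : ℕ) where
  G : SimpleGraph (Fin n)
  E : ℝ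
  η : ℝ
  r : ℝ
  L : Matrix (Fin n) (Fin n) ℝ
  M : Matrix (Fin n) (Fin n) ℝ
  V : Fin n → Fin ℓ → ℝ
  lam : Fin ℓ → ℝ
  b : ℝ
  K : ℕ
  K0 : NeZero K

namespace EnData

variable {n d ℓ : ℕ} (D : EnData n d ℓ)

/-- the covariance of the noise -/
def Γ : Matrix (Fin n) (Fin n) ℝ := D.L * (D.L)ᵀ

/-- rows of the noise at the vertices `x` -/
def obsB {P : Type} (x : P → Fin n) : Matrix (P × Fin ℓ) (Fin n × Fin ℓ) ℝ :=
  Matrix.kroneckerMap (· * ·) (D.L.submatrix x id) (1 : Matrix (Fin ℓ) (Fin ℓ) ℝ)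

/-- precision matrix of the noise at the vertices `x` -/
def obsΛ {P : Type} [Fintype P] [DecidableEq P] (x : P → Fin n) : Matrix (P × Fin ℓ) (P × Fin ℓ) ℝ :=
  Matrix.kroneckerMap (· * ·) ((D.Γ.submatrix x x)⁻¹) (1 : Matrix (Fin ℓ) (Fin ℓ) ℝ)

/-- the signal at the vertices `x` -/
def obsM {P : Type} (ε : ℝ) (x : P → Fin n) : P × Fin ℓ → ℝ := fun q => ε * D.V (x q.1) q.2

/-- differential entropy of the star observation of `ε V + Y` -/
def HS (ε : ℝ) : ℝ := gmH (fun s : EnLoc D.G d => D.obsB s.vx) (fun s => D.obsΛ s.vx) (fun s => D.obsM ε s.vx)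

/-- differential entropy of the edge observation of `ε V + Y` -/
def HE (ε : ℝ) (i : Fin d) : ℝ := gmH (fun s : EnLoc D.G d => D.obsB (s.ed i)) (fun s => D.obsΛ (s.ed i)) (fun s => D.obsM ε (s.ed i))

/-- the field `ε V + L g` -/
def F (ε : ℝ) (g : Fin n × Fin ℓ → ℝ) : Fin n × Fin ℓ → ℝ := D.obsM ε id + D.obsB id *ᵥ g

/-- the quantised labelling -/
def lab (ε : ℝ) (g : Fin n × Fin ℓ → ℝ) : Fin n → Fin ℓ → Fin D.K :=
  haveI := D.K0
  fun v j => enBin D.b D.K (D.F ε g (v, j))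

/-- the law of the labelling -/
def pL (ε : ℝ) (c : Fin n → Fin ℓ → Fin D.K) : ℝ := (gmStd (Fin n × Fin ℓ)).real {g | D.lab ε g = c}

/-- expected star histogram -/
def Tb (ε : ℝ) (τ : Option (Fin d) → Fin ℓ → Fin D.K) : ℝ := ∑ c, D.pL ε c * enT D.G d c τ

/-- expected edge histogram -/
def Qb (ε : ℝ) (i : Fin d) (τ : Bool → Fin ℓ → Fin D.K) : ℝ := ∑ c, D.pL ε c * enQ D.G d i c τ

open Classical in
/-- indicator of the locations where the covariance of the noise is NOT `δ`-close to the Gaussian wave -/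
def bad (δ : ℝ) (s : EnLoc D.G d) : ℝ := if ∀ x y, |D.Γ (s.vx x) (s.vx y) - enSig0 d D.E x y| ≤ δ then 0 else 1

/-- the projected star `B_V = Z ω + P X / sqrt a` at the location `s`   (model of `Ent/Tensor.lean`: spatial space `ℝ^d`, the centre direction is `ω = 1/√d (1..1)`) -/
def BV (s : EnLoc D.G d) : Fin d × Fin ℓ → ℝ := fun q =>
  D.V (s.vx none) q.2 / Real.sqrt d + (D.V (s.vx (some q.1)) q.2 - (d : ℝ)⁻¹ * ∑ k, D.V (s.vx (some k)) q.2) / Real.sqrt (enAa d D.E)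

end EnData

/-- orthogonal projection onto `U_i ⊗ ℝ^ℓ`, `U_i = span(ω, a_i)` -/
def enPi {d ℓ : ℕ} (i : Fin d) (y : Fin d × Fin ℓ → ℝ) : Fin d × Fin ℓ → ℝ := fun q => ∑ k, etP d i q.1 k * y (k, q.2)

/-- `v_i = p ω + √(1 - p²) a_i` -/
def enVi (d : ℕ) (E : ℝ) (i : Fin d) : Fin d → ℝ := fun k => enP d E * etOm d k + Real.sqrt (1 - enP d E ^ 2) * etAv d i k

/-- the two observations in the plane `U_i`: `false ↦ ⟨ω, y⟩` (`= Z` on `B_V`), `true ↦ ⟨v_i, y⟩` (`= X_i - (Σ X - E Z)/d` on `B_V`), colour `c` -/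
def enObs (d : ℕ) {ℓ : ℕ} (E : ℝ) (i : Fin d) (y : Fin d × Fin ℓ → ℝ) (t : Bool) (c : Fin ℓ) : ℝ :=
  ∑ k, (if t then enVi d E i k else etOm d k) * y (k, c)

/-- the exponents -/
structure EnPar (d ℓ : ℕ) (γ α c₂ : ℝ) : Prop where
  α0 : 0 < α
  αγ : 16 * α ≤ γ
  αc : 16 * α ≤ c₂
  c1 : c₂ ≤ 1 / 2
  γ1 : 64 * ((ℓ : ℝ) + 1) * ((d : ℝ) + 1) * γ ≤ 1

/-- **what is imported at the graph** -/
structure EnData.Ok {n d ℓ : ℕ} (D : EnData n d ℓ) (γ α c₂ : ℝ) : Prop where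
  reg : D.G ∈ Claims.C0462.regularGraphs n d
  η_eq : D.η = (n : ℝ) ^ (-α)
  b_eq : D.b = (n : ℝ) ^ (-γ)
  K_eq : D.K = 2 * ⌈(n : ℝ) ^ (2 * γ)⌉₊ + 2
  ML : D.M * D.L = 1
  /-- `Γ⁻¹ = (r/η) ((A - E)² + η²)` -/
  cov : (D.M)ᵀ * D.M = (D.r / D.η) • ((enA D.G - D.E • 1) * (enA D.G - D.E • 1) + D.η ^ 2 • 1)
  eig : ∀ j, enA D.G *ᵥ (fun v => D.V v j) = D.lam j • fun v => D.V v j
  orth : ∀ j j', ∑ v, D.V v j * D.V v j' = if j = j' then (n : ℝ) else 0
  /-- sup norm: exponent `α/16`, MUCH SMALLER than the exponent of the height (the Lipschitz constants `n^{α/16}` have to beat the error `n^{-α/4}` of the coupling) -/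
  sup : ∀ v j, |D.V v j| ≤ (n : ℝ) ^ (α / 16)
  band : ∀ j, |D.lam j - D.E| ≤ (n : ℝ) ^ (-(1 / 2 : ℝ))
  /-- typical stars: `Γ = Im G(E + i η) / r` is `n^{-α/2}`-close to the Gaussian wave covariance (the tree values at the height `η` differ from the boundary values by `O(η) = O(n^-α)`: the closeness CANNOT be better), off a fraction `n^-c₂`, `c₂ ≥ 16 α`, of the locations -/
  typ : enAvg (fun s : EnLoc D.G d => D.bad ((n : ℝ) ^ (-(α / 2))) s) ≤ (n : ℝ) ^ (-c₂)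
  /-- one sided logarithmic potential (the potential at the height `η` is `U(E) + π ρ η + ..`: the error CANNOT be better than `n^-α`; export X3 gives `n^{-cα}`, take `c₂ ≤ c`) -/
  pot : (2 * (n : ℝ))⁻¹ * Real.log ((enA D.G - D.E • 1) * (enA D.G - D.E • 1) + D.η ^ 2 • 1).det ≤ enU d D.E + (n : ℝ) ^ (-(c₂ * α))
  /-- the event of Lemma 3.2 -/
  typeOk : ∀ i : Fin d, EnTypeOk D.G d i (Fin ℓ → Fin D.K) ((n : ℝ) ^ (1 - c₂))

/-- the fixed parameters: degree, energy in the open bulk, `r = π ρ_d(E) > 0` -/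
structure EnFix (d : ℕ) (E r : ℝ) : Prop where
  d3 : 3 ≤ d
  bulk : |E| < 2 * Real.sqrt ((d : ℝ) - 1)
  r0 : 0 < r

/-- the common form of the leaves: `∃ c C n₀`, for all data at the size `n ≥ n₀` in the regime, all `ε ∈ [0,1]`, all `i`:  `lhs ≤ rhs + C n^-c` -/
def EnLeaf (d ℓ : ℕ) (E r γ α c₂ : ℝ) (lhs rhs : ∀ n : ℕ, EnData n d ℓ → ℝ → Fin d → ℝ) : Prop :=
  ∃ c C : ℝ, ∃ n₀ : ℕ, 0 < c ∧ ∀ n : ℕ, n₀ ≤ n → ∀ D : EnData n d ℓ, D.E = E → D.r = r → D.Ok γ α c₂ → ∀ ε ∈ Set.Icc (0 : ℝ) 1, ∀ i : Fin d,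
    lhs n D ε i ≤ rhs n D ε i + C * (n : ℝ) ^ (-c)

/-! ### calculus of `EnLeaf` -/

section calculus

variable {d ℓ : ℕ} {E r γ α c₂ : ℝ} {a a' b b' e : ∀ n : ℕ, EnData n d ℓ → ℝ → Fin d → ℝ}

theorem en_rpow_le {n : ℕ} (hn : 1 ≤ n) {c c' : ℝ} (h : c ≤ c') : (n : ℝ) ^ (-c') ≤ (n : ℝ) ^ (-c) :=
  Real.rpow_le_rpow_of_exponent_le (by exact_mod_cast hn) (by linarith)

theorem EnLeaf.of_le (h : ∀ n D ε i, a n D ε i ≤ b n D ε i) : EnLeaf d ℓ E r γ α c₂ a b :=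
  ⟨1, 0, 0, one_pos, fun n _ D _ _ _ ε _ i => by simpa using h n D ε i⟩

theorem EnLeaf.trans (h1 : EnLeaf d ℓ E r γ α c₂ a b) (h2 : EnLeaf d ℓ E r γ α c₂ b e) : EnLeaf d ℓ E r γ α c₂ a e := by
  obtain ⟨c1, C1, n1, hc1, H1⟩ := h1
  obtain ⟨c2, C2, n2, hc2, H2⟩ := h2
  refine ⟨min c1 c2, |C1| + |C2|, max (max n1 n2) 1, lt_min hc1 hc2, fun n hn D hE hr hD ε hε i => ?_⟩
  have hn1 : n1 ≤ n := (le_max_left _ _).trans ((le_max_left _ _).trans hn)
  have hn2 : n2 ≤ n := (le_max_right _ _).trans ((le_max_left _ _).trans hn)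
  have hn0 : 1 ≤ n := (le_max_right _ _).trans hn
  have q1 := H1 n hn1 D hE hr hD ε hε i
  have q2 := H2 n hn2 D hE hr hD ε hε i
  have p1 := en_rpow_le hn0 (min_le_left c1 c2)
  have p2 := en_rpow_le hn0 (min_le_right c1 c2)
  have z1 : (0 : ℝ) ≤ (n : ℝ) ^ (-c1) := by positivity
  have z2 : (0 : ℝ) ≤ (n : ℝ) ^ (-c2) := by positivity
  have w1 : C1 * (n : ℝ) ^ (-c1) ≤ |C1| * (n : ℝ) ^ (-(min c1 c2)) :=
    (mul_le_mul_of_nonneg_right (le_abs_self C1) z1).trans (mul_le_mul_of_nonneg_left p1 (abs_nonneg _))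
  have w2 : C2 * (n : ℝ) ^ (-c2) ≤ |C2| * (n : ℝ) ^ (-(min c1 c2)) :=
    (mul_le_mul_of_nonneg_right (le_abs_self C2) z2).trans (mul_le_mul_of_nonneg_left p2 (abs_nonneg _))
  rw [add_mul]
  linarith

theorem EnLeaf.add (h1 : EnLeaf d ℓ E r γ α c₂ a b) (h2 : EnLeaf d ℓ E r γ α c₂ a' b') :
    EnLeaf d ℓ E r γ α c₂ (fun n D ε i => a n D ε i + a' n D ε i) (fun n D ε i => b n D ε i + b' n D ε i) := by
  obtain ⟨c1, C1, n1, hc1, H1⟩ := h1
  obtain ⟨c2, C2, n2, hc2, H2⟩ := h2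
  refine ⟨min c1 c2, |C1| + |C2|, max (max n1 n2) 1, lt_min hc1 hc2, fun n hn D hE hr hD ε hε i => ?_⟩
  have hn1 : n1 ≤ n := (le_max_left _ _).trans ((le_max_left _ _).trans hn)
  have hn2 : n2 ≤ n := (le_max_right _ _).trans ((le_max_left _ _).trans hn)
  have hn0 : 1 ≤ n := (le_max_right _ _).trans hn
  have q1 := H1 n hn1 D hE hr hD ε hε i
  have q2 := H2 n hn2 D hE hr hD ε hε i
  have p1 := en_rpow_le hn0 (min_le_left c1 c2)
  have p2 := en_rpow_le hn0 (min_le_right c1 c2)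
  have z1 : (0 : ℝ) ≤ (n : ℝ) ^ (-c1) := by positivity
  have z2 : (0 : ℝ) ≤ (n : ℝ) ^ (-c2) := by positivity
  have w1 : C1 * (n : ℝ) ^ (-c1) ≤ |C1| * (n : ℝ) ^ (-(min c1 c2)) :=
    (mul_le_mul_of_nonneg_right (le_abs_self C1) z1).trans (mul_le_mul_of_nonneg_left p1 (abs_nonneg _))
  have w2 : C2 * (n : ℝ) ^ (-c2) ≤ |C2| * (n : ℝ) ^ (-(min c1 c2)) :=
    (mul_le_mul_of_nonneg_right (le_abs_self C2) z2).trans (mul_le_mul_of_nonneg_left p2 (abs_nonneg _))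
  rw [add_mul]
  linarith

/-- multiplication by a factor `0 ≤ k ε ≤ k₀` -/
theorem EnLeaf.mul (h1 : EnLeaf d ℓ E r γ α c₂ a b) (k : ℝ → ℝ) (k₀ : ℝ) (hk : ∀ ε ∈ Set.Icc (0 : ℝ) 1, 0 ≤ k ε ∧ k ε ≤ k₀) :
    EnLeaf d ℓ E r γ α c₂ (fun n D ε i => k ε * a n D ε i) (fun n D ε i => k ε * b n D ε i) := by
  obtain ⟨c1, C1, n1, hc1, H1⟩ := h1
  refine ⟨c1, k₀ * |C1|, n1, hc1, fun n hn D hE hr hD ε hε i => ?_⟩
  have q1 := H1 n hn D hE hr hD ε hε i
  obtain ⟨k0, k1⟩ := hk ε hε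
  have z1 : (0 : ℝ) ≤ (n : ℝ) ^ (-c1) := by positivity
  have w1 : C1 * (n : ℝ) ^ (-c1) ≤ |C1| * (n : ℝ) ^ (-c1) := mul_le_mul_of_nonneg_right (le_abs_self C1) z1
  have w2 : k ε * (|C1| * (n : ℝ) ^ (-c1)) ≤ k₀ * (|C1| * (n : ℝ) ^ (-c1)) :=
    mul_le_mul_of_nonneg_right k1 (by positivity)
  have w3 := mul_le_mul_of_nonneg_left (q1.trans (add_le_add_right w1 _)) k0
  rw [mul_add] at w3
  linarith

/-- rewriting of the two sides -/
theorem EnLeaf.congr (h1 : EnLeaf d ℓ E r γ α c₂ a b) (ha : ∀ n D ε i, a' n D ε i = a n D ε i) (hb : ∀ n D ε i, b' n D ε i = b n D ε i) :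
    EnLeaf d ℓ E r γ α c₂ a' b' := by
  have e1 : a' = a := by funext n D ε i; exact ha n D ε i
  have e2 : b' = b := by funext n D ε i; exact hb n D ε i
  rw [e1, e2]; exact h1

/-- `a + x ≤ b + x` can be cancelled -/
theorem EnLeaf.sub_right (h1 : EnLeaf d ℓ E r γ α c₂ a b) (x : ∀ n : ℕ, EnData n d ℓ → ℝ → Fin d → ℝ) :
    EnLeaf d ℓ E r γ α c₂ (fun n D ε i => a n D ε i - x n D ε i) (fun n D ε i => b n D ε i - x n D ε i) := by
  obtain ⟨c1, C1, n1, hc1, H1⟩ := h1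
  exact ⟨c1, C1, n1, hc1, fun n hn D hE hr hD ε hε i => by have := H1 n hn D hE hr hD ε hε i; linarith⟩

end calculus

/-- **what the Gaussian criterion [G] consumes** (finite probability space `K` with the uniform weight): sup norm `S`, all errors `δ`, reversal symmetry of the moments of order `≤ q` -/
structure EnOut (d ℓ : ℕ) (E : ℝ) {K : Type} [Fintype K] (B : K → Fin d × Fin ℓ → ℝ) (S δ : ℝ) (q : ℕ) : Prop where
  sup : ∀ k x, |B k x| ≤ S
  mean : ∀ x, enAvg (fun k => B k x) = 0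
  cov : ∀ x y, |enAvg (fun k => B k x * B k y) - (if x = y then 1 else 0)| ≤ δ
  rev : ∀ (i : Fin d) (m : ℕ), m ≤ q → ∀ (t : Fin m → Bool) (c : Fin m → Fin ℓ),
    |enAvg (fun k => ∏ a, enObs d E i (B k) (t a) (c a)) - enAvg (fun k => ∏ a, enObs d E i (B k) (!(t a)) (c a))| ≤ δ
  ent : ∀ ε ∈ Set.Icc (0 : ℝ) 1, ∀ i : Fin d, enEnt (fun k => ε • B k) - (d : ℝ) / 2 * enEnt (fun k => ε • enPi i (B k)) ≤ δ

/-- `X = (A - E)² + η²` is positive definite -/
theorem en_X_posDef {n : ℕ} (G : SimpleGraph (Fin n)) (E : ℝ) {η : ℝ} (hη : 0 < η) :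
    ((enA G - E • 1) * (enA G - E • 1) + η ^ 2 • (1 : Matrix (Fin n) (Fin n) ℝ)).PosDef := by
  classical
  have hs : (enA G - E • (1 : Matrix (Fin n) (Fin n) ℝ))ᴴ = enA G - E • 1 := by
    have h1 : (enA G)ᵀ = enA G := by
      unfold enA
      exact SimpleGraph.transpose_adjMatrix _
    rw [conjTranspose_eq_transpose_of_trivial, transpose_sub, h1, transpose_smul, transpose_one]
  have h1 : ((enA G - E • 1) * (enA G - E • (1 : Matrix (Fin n) (Fin n) ℝ))).PosSemidef := by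
    have := posSemidef_conjTranspose_mul_self (enA G - E • (1 : Matrix (Fin n) (Fin n) ℝ))
    rwa [hs] at this
  have h2 : (η ^ 2 • (1 : Matrix (Fin n) (Fin n) ℝ)).PosDef := PosDef.one.smul (by positivity)
  exact h2.posSemidef_add h1 |> fun h => by simpa [add_comm] using h

section leaves

variable {d ℓ : ℕ} {E r γ α c₂ : ℝ} (hF : EnFix d E r) (hP : EnPar d ℓ γ α c₂)

include hF hP

/-- LEAF (det): `log |det L| = -(1/2) log det Γ⁻¹` and the one sided potential -/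
theorem en_det : EnLeaf d ℓ E r γ α c₂
    (fun _ D _ _ => (ℓ : ℝ) / 2 * Real.log (D.η / r) - ℓ * enU d E)
    (fun n D _ _ => (ℓ : ℝ) / n * Real.log |D.L.det|) := by
  have hc2 : 0 < c₂ * α := by have := hP.α0; have := hP.αc; exact mul_pos (by linarith) hP.α0
  refine ⟨c₂ * α, ℓ, 1, hc2, fun n hn D hE hr hD ε _ i => ?_⟩
  have hn0 : (0 : ℝ) < n := by exact_mod_cast hn
  have hη : 0 < D.η := by rw [hD.η_eq]; positivity
  have hr0 : 0 < D.r := hr ▸ hF.r0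
  have hXd := (en_X_posDef D.G D.E hη).det_pos
  have hpot := hD.pot
  have hcov := congrArg det hD.cov
  set X := (enA D.G - D.E • 1) * (enA D.G - D.E • 1) + D.η ^ 2 • (1 : Matrix (Fin n) (Fin n) ℝ) with hX
  have h1 : D.M.det * D.L.det = 1 := by rw [← det_mul, hD.ML, det_one]
  have hM0 : D.M.det ≠ 0 := fun h => by rw [h, zero_mul] at h1; exact zero_ne_one h1
  have h2 : D.M.det ^ 2 = (D.r / D.η) ^ n * X.det := by
    rw [det_mul, det_transpose, det_smul, Fintype.card_fin] at hcov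
    rw [sq]; exact hcov
  have hL : Real.log |D.L.det| = - Real.log |D.M.det| := by
    have : D.L.det = (D.M.det)⁻¹ := eq_inv_of_mul_eq_one_right h1
    rw [this, abs_inv, Real.log_inv]
  have hq : 0 < D.r / D.η := by positivity
  have h3 : 2 * Real.log |D.M.det| = n * Real.log (D.r / D.η) + Real.log X.det := by
    have := congrArg Real.log h2
    rw [Real.log_mul (pow_pos hq n).ne' hXd.ne', Real.log_pow, Real.log_pow] at this
    rw [Real.log_abs]; push_cast at this; linarith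
  have h4 : Real.log (D.r / D.η) = - Real.log (D.η / D.r) := by rw [← Real.log_inv, inv_div]
  have h5 : Real.log X.det = 2 * n * ((2 * (n : ℝ))⁻¹ * Real.log X.det) := by field_simp
  set t := (2 * (n : ℝ))⁻¹ * Real.log X.det with ht
  have h6 : (ℓ : ℝ) / n * Real.log |D.L.det| = (ℓ : ℝ) / 2 * Real.log (D.η / D.r) - ℓ * t := by
    have : Real.log |D.M.det| = (n * (- Real.log (D.η / D.r)) + 2 * n * t) / 2 := by
      rw [← h4, ← h5]; linarith
    rw [hL, this]; field_simp; ring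
  have h7 : (ℓ : ℝ) * t ≤ ℓ * (enU d D.E + (n : ℝ) ^ (-(c₂ * α))) := mul_le_mul_of_nonneg_left hpot (by positivity)
  simp only
  rw [h6, ← hr, ← hE]
  linarith

/-! ## PART 3: the other exports, the EXIT -/

omit hP in
/-- LEAF (sup): `|B_V| ≤ (1/√d + 2/√a) sup |V|` -/
theorem en_sup : ∃ C : ℝ, ∀ (n : ℕ) (D : EnData n d ℓ), D.E = E → ∀ S : ℝ, (∀ v j, |D.V v j| ≤ S) → ∀ s x, |D.BV s x| ≤ C * S := by
  refine ⟨(Real.sqrt d)⁻¹ + 2 * (Real.sqrt (enAa d E))⁻¹, fun n D hE S hS s x => ?_⟩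
  have hd : (0 : ℝ) < d := by have := hF.d3; positivity
  have hS0 : 0 ≤ S := (abs_nonneg _).trans (hS (s.vx none) x.2)
  unfold EnData.BV
  rw [hE, div_eq_mul_inv, div_eq_mul_inv]
  have a1 : |D.V (s.vx none) x.2 * (Real.sqrt d)⁻¹| ≤ S * (Real.sqrt d)⁻¹ := by
    rw [abs_mul, abs_of_nonneg (inv_nonneg.2 (Real.sqrt_nonneg _))]
    exact mul_le_mul_of_nonneg_right (hS _ _) (inv_nonneg.2 (Real.sqrt_nonneg _))
  have a2 : |∑ k, D.V (s.vx (some k)) x.2| ≤ d * S := by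
    refine (Finset.abs_sum_le_sum_abs _ _).trans ?_
    refine (Finset.sum_le_sum fun k _ => hS (s.vx (some k)) x.2).trans ?_
    simp
  have a3 : |D.V (s.vx (some x.1)) x.2 - (d : ℝ)⁻¹ * ∑ k, D.V (s.vx (some k)) x.2| ≤ 2 * S := by
    have b1 : |(d : ℝ)⁻¹ * ∑ k, D.V (s.vx (some k)) x.2| ≤ S := by
      rw [abs_mul, abs_of_nonneg (inv_nonneg.2 hd.le)]
      calc (d : ℝ)⁻¹ * |∑ k, D.V (s.vx (some k)) x.2| ≤ (d : ℝ)⁻¹ * (d * S) :=
            mul_le_mul_of_nonneg_left a2 (inv_nonneg.2 hd.le)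
        _ = S := by field_simp
    have b2 := hS (s.vx (some x.1)) x.2
    have b3 := abs_sub (D.V (s.vx (some x.1)) x.2) ((d : ℝ)⁻¹ * ∑ k, D.V (s.vx (some k)) x.2)
    linarith
  have a4 : |(D.V (s.vx (some x.1)) x.2 - (d : ℝ)⁻¹ * ∑ k, D.V (s.vx (some k)) x.2) * (Real.sqrt (enAa d E))⁻¹|
      ≤ 2 * S * (Real.sqrt (enAa d E))⁻¹ := by
    rw [abs_mul, abs_of_nonneg (inv_nonneg.2 (Real.sqrt_nonneg _))]
    exact mul_le_mul_of_nonneg_right a3 (inv_nonneg.2 (Real.sqrt_nonneg _))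
  have a5 := abs_add_le (D.V (s.vx none) x.2 * (Real.sqrt d)⁻¹)
    ((D.V (s.vx (some x.1)) x.2 - (d : ℝ)⁻¹ * ∑ k, D.V (s.vx (some k)) x.2) * (Real.sqrt (enAa d E))⁻¹)
  nlinarith

end leaves

/-! ## PART 4: Lemma 3.2 and the existence of the noise -/

/-! Lemma 3.2 = `en_type'` in `R287/Ent/Cnt.lean` (glue proved there). -/

/-- existence of the noise: `T = (r/η) ((A - E)² + η²)` is positive definite; `M` = its square root, `L = M⁻¹` -/
theorem en_noise {n : ℕ} (G : SimpleGraph (Fin n)) (E : ℝ) {η r : ℝ} (hη : 0 < η) (hr : 0 < r) :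
    ∃ L M : Matrix (Fin n) (Fin n) ℝ, M * L = 1 ∧ Mᵀ * M = (r / η) • ((enA G - E • 1) * (enA G - E • 1) + η ^ 2 • 1) := by
  classical
  have hT : ((r / η) • ((enA G - E • 1) * (enA G - E • 1) + η ^ 2 • (1 : Matrix (Fin n) (Fin n) ℝ))).PosDef :=
    (en_X_posDef G E hη).smul (by positivity)
  open scoped MatrixOrder in
  obtain ⟨M, hM⟩ := CStarAlgebra.nonneg_iff_eq_star_mul_self.mp hT.posSemidef.nonneg
  rw [star_eq_conjTranspose, conjTranspose_eq_transpose_of_trivial] at hM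
  have hdet : IsUnit M.det := by
    have h1 := hT.det_pos
    rw [hM, det_mul, det_transpose] at h1
    refine isUnit_iff_ne_zero.2 fun h0 => ?_
    rw [h0] at h1
    simp at h1
  exact ⟨M⁻¹, M, mul_nonsing_inv M hdet, hM.symm⟩

/-- the covariance of the noise is `Im G(E + i η) / r` -/
theorem en_gam {n d ℓ : ℕ} (D : EnData n d ℓ) (hML : D.M * D.L = 1)
    (hcov : (D.M)ᵀ * D.M = (D.r / D.η) • ((enA D.G - D.E • 1) * (enA D.G - D.E • 1) + D.η ^ 2 • 1)) :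
    D.Γ * ((D.r / D.η) • ((enA D.G - D.E • 1) * (enA D.G - D.E • 1) + D.η ^ 2 • 1)) = 1 := by
  rw [← hcov, EnData.Γ]
  have h1 : D.L * D.M = 1 := mul_eq_one_comm.1 hML
  calc D.L * (D.L)ᵀ * ((D.M)ᵀ * D.M) = D.L * ((D.M * D.L)ᵀ) * D.M := by
        rw [transpose_mul]; simp only [Matrix.mul_assoc]
    _ = 1 := by rw [hML, transpose_one, Matrix.mul_one, h1]

theorem en_eqns_cite : True := by
  have := @gmStd.eq_1
  have := @gmSq.eq_1
  have := @gmQ.eq_1
  have := @gmDens.eq_1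
  have := @enAvg.eq_1
  have := @gmMix.eq_1
  have := @gmE.eq_1
  have := @gmH.eq_1
  have := @enR.eq_1
  have := @enEnt.eq_1
  have := @enHd.eq_1
  have := @EnLoc.eq_1
  have := @EnLoc.vx.eq_1
  have := @EnLoc.ed.eq_1
  have := @enT.eq_1
  have := @enQ.eq_1
  have := @EnTypeOk.eq_1
  have := @enBin.eq_1
  have := @enA.eq_1
  have := @enP.eq_1
  have := @enAa.eq_1
  have := @enU.eq_1
  have := @enSig0.eq_1
  have := @EnData.Γ.eq_1
  have := @EnData.obsB.eq_1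
  have := @EnData.obsΛ.eq_1
  have := @EnData.obsM.eq_1
  have := @EnData.HS.eq_1
  have := @EnData.HE.eq_1
  have := @EnData.F.eq_1
  have := @EnData.lab.eq_1
  have := @EnData.pL.eq_1
  have := @EnData.Tb.eq_1
  have := @EnData.Qb.eq_1
  have := @EnData.bad.eq_1
  have := @EnData.BV.eq_1
  have := @enPi.eq_1
  have := @enVi.eq_1
  have := @enObs.eq_1
  have := @EnLeaf.eq_1
  have := @EnLoc.vx.eq_2
  have := @EnLoc.ed.eq_2
  trivial

end

end Claimed.Agent.R287
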