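-- KEEP
import Claimed.Agent.R287.DefsB1
import Claimed.Agent.R287.ResB

/-!
# Row 287 (S0534): the EXPORTS X1, X2, X3 of unit B1 (weak local law), typed by the consumer      helper274, prefix `x7`

Source: `origin/helper274:notes/R287/A4_helper274.md` (table of ALL uses of P1 Prop 2.2; sec. 4 = interface).
P1 uses the spectral input only at three heights and one vertical line, at the energies `E` and `E + s/n`:

* `X1`  (T1)  all diagonal entries `Im G_vv(E + i n^{-1+ε})` are bounded: sup norm of the band eigenvectors, size of the band, `‖Im M_{n,k}(i S²)‖`;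
* `X2`  trace law + mean square star law, error `C (n η)^{-c_B}`, `c_B` INDEPENDENT of `ε` (A4, K2-a), any heights `n^{-1+ε} ≤ η_n ≤ h`, energies `E + s_n/n`, `s_n` bounded;
* `X3`  ONE SIDED logarithmic potential at `η = n^{-α}` (A4, S1, S2): `n⁻¹ ∑ log |λ_i - E - iη| ≤ Φ(E) + n^{-cα}`   (FINAL form 07:00Z, `= b1_X3`; consumer: field `pot` of `EnData.Ok`, error `n^{-c₂α}`, `c₂ ≤ c`).
        WARNING: `Φ(E + iη) = Φ(E) + π ρ η + O(η²)` (`∂_u Φ(E + iu) = Im m_d > 0`), so the error cannot beat `n^{-α}`; v1 of this file (`n^{-c}`, `c` independent of `α`) was false.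

Producer: unit B1 (head helper271).  Consumers: P31 (ENT helper277: fields `sup`, `typ`, `pot` of `EnData.Ok`), S4 (helper289: initial estimates of Prop 4.1).
Part 2 = deterministic ADAPTERS from the exports to the forms used by the consumers.
-/

set_option autoImplicit false

namespace Claimed.Agent.R287

open Claims.C0462 Filter Matrix

/-! ## 1. The exports -/

/-- **X1** -/
def X1 (d : ℕ) (E : ℝ) : Prop :=
  ∀ ε : ℝ, 0 < ε → ε < 1 → ∃ C : ℝ, RgWhp d fun n H => ∀ v : Fin n, (rgG H (rgz E ((n : ℝ) ^ (-1 + ε))) v v).im ≤ C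

/-- **X2**.  Order of the constants: `c_B, h` (depend on `d, E` only), then `ε`, then `C`, then the sequences. -/
def X2 (d : ℕ) (E : ℝ) : Prop :=
  ∃ cB h : ℝ, 0 < cB ∧ 0 < h ∧ ∀ ε : ℝ, 0 < ε → ε < 1 → ∃ C : ℝ, ∀ (S₀ : ℝ) (s η : ℕ → ℝ), (∀ n, |s n| ≤ S₀) →
    (∀ᶠ n : ℕ in atTop, (n : ℝ) ^ (-1 + ε) ≤ η n ∧ η n ≤ h) →
    RgWhp d fun n H =>
      ‖rgTr H (rgz (E + s n / n) (η n)) - rgm d (rgz (E + s n / n) (η n))‖ ≤ C * ((n : ℝ) * η n) ^ (-cB) ∧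
      rgStarF d H (rgz (E + s n / n) (η n)) ≤ C * ((n : ℝ) * η n) ^ (-cB)

/-- normalised logarithmic potential of the spectrum, `n⁻¹ ∑_i log |λ_i - z|` -/
noncomputable def x7Pot {n : ℕ} (H : Gr n) (z : ℂ) : ℝ :=
  (n : ℝ)⁻¹ * ∑ i, Real.log ‖(((rg_A_herm H).eigenvalues i : ℝ) : ℂ) - z‖

/-- **X3** -/
def X3 (d : ℕ) (E : ℝ) : Prop :=
  ∃ c α₀ : ℝ, 0 < c ∧ 0 < α₀ ∧ ∀ α : ℝ, 0 < α → α ≤ α₀ →
    RgWhp d fun n H => x7Pot H (rgz E ((n : ℝ) ^ (-α))) ≤ rgPhi d (E : ℂ) + (n : ℝ) ^ (-(c * α))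

theorem x7_eqns_cite : True := by
  have := @X1.eq_1
  have := @X2.eq_1
  have := @x7Pot.eq_1
  have := @X3.eq_1
  trivial

/-! ## 2. Deterministic adapters -/

/-- **sup norm of a band eigenvector** (A4 sec. 4).  `G V = V/(λ - z)`, Cauchy-Schwarz and Ward:
`|V_v|/|λ - z| = |∑_w G_vw V_w| ≤ (Im G_vv/η)^{1/2} ‖V‖`, and `|λ - z|² ≤ 2 η²`. -/
theorem x7_sup {n : ℕ} (H : Gr n) {E η C lam : ℝ} (hη : 0 < η) (hC : ∀ v, (rgG H (rgz E η) v v).im ≤ C)
    (V : Fin n → ℝ) (hV : rgA H *ᵥ V = lam • V) (hn : ∑ v, V v ^ 2 = n) (hb : |lam - E| ≤ η) (v : Fin n) :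
    V v ^ 2 ≤ 2 * C * n * η := by
  have hA := rg_A_herm H
  have hz : (rgz E η).im ≠ 0 := hη.ne'
  set z := rgz E η with hzdef
  set Vc : Fin n → ℂ := fun w => (V w : ℂ) with hVc
  -- (A - z) Vc = (lam - z) Vc
  have h1 : (rsC (rgA H) - z • (1 : Matrix (Fin n) (Fin n) ℂ)) *ᵥ Vc = ((lam : ℂ) - z) • Vc := by
    funext w
    have hw := congrFun hV w
    simp only [Matrix.mulVec, dotProduct, Pi.smul_apply, smul_eq_mul] at hw
    rw [Matrix.sub_mulVec, Matrix.smul_mulVec, Matrix.one_mulVec]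
    simp only [Pi.sub_apply, Pi.smul_apply, smul_eq_mul, Matrix.mulVec, dotProduct]
    have : ∑ x, rsC (rgA H) w x * Vc x = ((∑ x, rgA H w x * V x : ℝ) : ℂ) := by
      push_cast
      rfl
    rw [this, hw]
    push_cast
    ring
  have h2 : Vc = ((lam : ℂ) - z) • (rgG H z *ᵥ Vc) := by
    have := congrArg (fun u => rgG H z *ᵥ u) h1
    simp only [Matrix.mulVec_mulVec, Matrix.mulVec_smul] at this
    rw [show rgG H z = rsG (rgA H) z from rfl, rs_G_mul hA hz, Matrix.one_mulVec] at this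
    exact this
  have h3 : (V v : ℂ) = ((lam : ℂ) - z) * ∑ w, rgG H z v w * (V w : ℂ) := by
    have := congrFun h2 v
    simpa [Matrix.mulVec, dotProduct, hVc] using this
  have h4 : ‖∑ w, rgG H z v w * (V w : ℂ)‖ ^ 2 ≤ (∑ w, ‖rgG H z v w‖ ^ 2) * ∑ w, V w ^ 2 := by
    have a1 : ‖∑ w, rgG H z v w * (V w : ℂ)‖ ≤ ∑ w, ‖rgG H z v w‖ * |V w| := by
      refine (norm_sum_le _ _).trans (Finset.sum_le_sum fun w _ => ?_)
      rw [norm_mul, Complex.norm_real, Real.norm_eq_abs]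
    have a2 : (∑ w, ‖rgG H z v w‖ * |V w|) ^ 2 ≤ (∑ w, ‖rgG H z v w‖ ^ 2) * ∑ w, |V w| ^ 2 :=
      Finset.sum_mul_sq_le_sq_mul_sq _ _ _
    simp only [sq_abs] at a2
    exact (pow_le_pow_left₀ (norm_nonneg _) a1 2).trans a2
  have h5 : ∑ w, ‖rgG H z v w‖ ^ 2 = (rgG H z v v).im / η := rs_ward hA hz v
  have h6 : ‖(lam : ℂ) - z‖ ^ 2 ≤ 2 * η ^ 2 := by
    rw [← Complex.normSq_eq_norm_sq, rs_normSq]
    have : (lam - E) ^ 2 ≤ η ^ 2 := sq_le_sq' (by linarith [(abs_le.1 hb).1]) (abs_le.1 hb).2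
    show (lam - E) ^ 2 + η ^ 2 ≤ 2 * η ^ 2
    linarith
  have h7 : V v ^ 2 = ‖(lam : ℂ) - z‖ ^ 2 * ‖∑ w, rgG H z v w * (V w : ℂ)‖ ^ 2 := by
    rw [← mul_pow, ← norm_mul, ← h3, Complex.norm_real, Real.norm_eq_abs, sq_abs]
  have hG0 : 0 ≤ (rgG H z v v).im / η := by rw [← h5]; positivity
  have hCn : (rgG H z v v).im / η ≤ C / η := div_le_div_of_nonneg_right (hC v) hη.le
  have hC0 : 0 ≤ C / η := hG0.trans hCn
  rw [h7]
  calc ‖(lam : ℂ) - z‖ ^ 2 * ‖∑ w, rgG H z v w * (V w : ℂ)‖ ^ 2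
      ≤ (2 * η ^ 2) * ((C / η) * n) := by
        refine mul_le_mul h6 ?_ (by positivity) (by positivity)
        refine h4.trans ?_
        rw [h5, hn]
        exact mul_le_mul_of_nonneg_right hCn (Nat.cast_nonneg _)
    _ = 2 * C * n * η := by field_simp

open Classical in
/-- **size of the band**: every eigenvalue with `|λ_i - E| ≤ η` contributes `≥ 1/(2η)` to `Im Tr G(E + iη)`. -/
theorem x7_band {n : ℕ} (H : Gr n) {E η C : ℝ} (hη : 0 < η) (hC : ∀ v, (rgG H (rgz E η) v v).im ≤ C) :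
    ((Finset.univ.filter fun i => |(rg_A_herm H).eigenvalues i - E| ≤ η).card : ℝ) ≤ 2 * C * n * η := by
  have h := rs_count_le (rg_A_herm H) E hη
  have h2 : (rsG (rgA H) (rsZ E η)).trace.im ≤ n * C := by
    rw [Matrix.trace, Complex.im_sum]
    calc ∑ i, ((rsG (rgA H) (rsZ E η)).diag i).im ≤ ∑ _i : Fin n, C := Finset.sum_le_sum fun i _ => hC i
      _ = n * C := by simp
  have h3 : 2 * η * (rsG (rgA H) (rsZ E η)).trace.im ≤ 2 * C * n * η := by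
    have := mul_le_mul_of_nonneg_left h2 (by positivity : (0:ℝ) ≤ 2 * η)
    linarith
  refine le_trans (le_of_eq ?_) (h.trans h3)
  congr 2

/-- **determinant form of the potential** (field `pot` of `EnData.Ok`). -/
theorem x7_det {n : ℕ} (H : Gr n) (E : ℝ) {η : ℝ} (hη : 0 < η) :
    (2 * (n : ℝ))⁻¹ * Real.log ((rgA H - E • 1) * (rgA H - E • 1) + η ^ 2 • 1).det = x7Pot H (rgz E η) := by
  have hA := rg_A_herm H
  set U := rsU hA with hU
  set D := hA.eigenvalues with hD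
  have hUT : U * Uᵀ = 1 := rs_U_mul_T hA
  have hTU : Uᵀ * U = 1 := rs_T_mul_U hA
  have hs : rgA H = U * diagonal D * Uᵀ := rs_spectral hA
  have h1 : rgA H - E • (1 : Matrix (Fin n) (Fin n) ℝ) = U * diagonal (fun i => D i - E) * Uᵀ := by
    have : diagonal (fun i => D i - E) = diagonal D - E • (1 : Matrix (Fin n) (Fin n) ℝ) := by
      ext i j
      by_cases hij : i = j
      · subst hij; simp
      · simp [hij]
    rw [this, Matrix.mul_sub, Matrix.sub_mul, ← hs, Matrix.mul_smul, Matrix.smul_mul, Matrix.mul_one, hUT]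
  have h2 : (rgA H - E • 1) * (rgA H - E • 1) + η ^ 2 • (1 : Matrix (Fin n) (Fin n) ℝ)
      = U * diagonal (fun i => (D i - E) ^ 2 + η ^ 2) * Uᵀ := by
    have e : diagonal (fun i => (D i - E) ^ 2 + η ^ 2)
        = diagonal (fun i => D i - E) * diagonal (fun i => D i - E) + η ^ 2 • (1 : Matrix (Fin n) (Fin n) ℝ) := by
      rw [Matrix.diagonal_mul_diagonal]
      ext i j
      by_cases hij : i = j
      · subst hij; simp [sq]
      · simp [hij]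
    rw [h1, e, Matrix.mul_add, Matrix.add_mul, Matrix.mul_smul, Matrix.smul_mul, Matrix.mul_one, hUT]
    congr 1
    calc U * diagonal (fun i => D i - E) * Uᵀ * (U * diagonal (fun i => D i - E) * Uᵀ)
        = U * diagonal (fun i => D i - E) * (Uᵀ * U) * diagonal (fun i => D i - E) * Uᵀ := by
          simp only [Matrix.mul_assoc]
      _ = U * (diagonal (fun i => D i - E) * diagonal (fun i => D i - E)) * Uᵀ := by
          rw [hTU, Matrix.mul_one]; simp only [Matrix.mul_assoc]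
  have h3 : ((rgA H - E • 1) * (rgA H - E • 1) + η ^ 2 • (1 : Matrix (Fin n) (Fin n) ℝ)).det
      = ∏ i, ((D i - E) ^ 2 + η ^ 2) := by
    rw [h2, Matrix.det_mul, Matrix.det_mul, Matrix.det_diagonal, mul_right_comm, ← Matrix.det_mul, hUT, Matrix.det_one, one_mul]
  rw [h3, Real.log_prod (fun i _ => by positivity)]
  unfold x7Pot
  have h4 : ∀ i, Real.log ((D i - E) ^ 2 + η ^ 2) = 2 * Real.log ‖((D i : ℝ) : ℂ) - rgz E η‖ := by
    intro i
    have : (D i - E) ^ 2 + η ^ 2 = ‖((D i : ℝ) : ℂ) - rgz E η‖ ^ 2 := by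
      rw [← Complex.normSq_eq_norm_sq, rs_normSq]; rfl
    rw [this, Real.log_pow]; norm_num
  simp only [h4]
  rw [← Finset.mul_sum, mul_inv]
  ring

/-- positivity of the discriminant in the bulk -/
theorem x7_disc_pos {d : ℕ} (hd : 3 ≤ d) {E : ℝ} (hE : |E| < 2 * Real.sqrt ((d : ℝ) - 1)) :
    0 < 4 * ((d : ℝ) - 1) - E ^ 2 := by
  have hd' : (3 : ℝ) ≤ d := by exact_mod_cast hd
  have hb : (0 : ℝ) ≤ (d : ℝ) - 1 := by linarith
  have h1 : E ^ 2 < (2 * Real.sqrt ((d : ℝ) - 1)) ^ 2 := by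
    rw [← sq_abs E]
    exact pow_lt_pow_left₀ hE (abs_nonneg _) (by norm_num)
  rw [mul_pow, Real.sq_sqrt hb] at h1
  linarith

/-- `E² < d²` in the bulk -/
theorem x7_sq_lt {d : ℕ} (hd : 3 ≤ d) {E : ℝ} (hE : |E| < 2 * Real.sqrt ((d : ℝ) - 1)) :
    0 < (d : ℝ) ^ 2 - E ^ 2 := by
  have := x7_disc_pos hd hE
  nlinarith [sq_nonneg ((d : ℝ) - 2)]

/-- explicit boundary value of the cavity function -/
theorem x7_g_eq {d : ℕ} (hd : 3 ≤ d) {E : ℝ} (hE : |E| < 2 * Real.sqrt ((d : ℝ) - 1)) :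
    rgg d (E : ℂ) = (-(E : ℂ) + Complex.I * ((Real.sqrt (4 * ((d : ℝ) - 1) - E ^ 2) : ℝ) : ℂ)) / (2 * ((d : ℂ) - 1)) := by
  have h0 := x7_disc_pos hd hE
  unfold rgg
  have h1 : (4 * ((d : ℂ) - 1) - (E : ℂ) ^ 2) = ((4 * ((d : ℝ) - 1) - E ^ 2 : ℝ) : ℂ) := by push_cast; ring
  have h2 : (1 / 2 : ℂ) = ((1 / 2 : ℝ) : ℂ) := by push_cast; ring
  rw [h1, h2, ← Complex.ofReal_cpow h0.le, ← Real.sqrt_eq_rpow]

/-- the quadratic equation at the boundary -/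
theorem x7_g_quad {d : ℕ} (hd : 3 ≤ d) {E : ℝ} (hE : |E| < 2 * Real.sqrt ((d : ℝ) - 1)) :
    ((d : ℂ) - 1) * rgg d (E : ℂ) ^ 2 + (E : ℂ) * rgg d (E : ℂ) + 1 = 0 := by
  have h0 := x7_disc_pos hd hE
  have hd' : (3 : ℝ) ≤ d := by exact_mod_cast hd
  have hb : ((d : ℂ) - 1) ≠ 0 := by
    have : ((d : ℝ) - 1) ≠ 0 := by linarith
    exact_mod_cast this
  rw [x7_g_eq hd hE]
  set s := Real.sqrt (4 * ((d : ℝ) - 1) - E ^ 2) with hs
  have hs2 : (s : ℂ) ^ 2 = 4 * ((d : ℂ) - 1) - (E : ℂ) ^ 2 := by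
    have : s ^ 2 = 4 * ((d : ℝ) - 1) - E ^ 2 := Real.sq_sqrt h0.le
    exact_mod_cast this
  field_simp
  ring_nf
  rw [Complex.I_sq]
  linear_combination (-1 : ℂ) * hs2

theorem x7_g_re_im {d : ℕ} (hd : 3 ≤ d) {E : ℝ} (hE : |E| < 2 * Real.sqrt ((d : ℝ) - 1)) :
    (rgg d (E : ℂ)).re = -E / (2 * ((d : ℝ) - 1)) ∧
    (rgg d (E : ℂ)).im = Real.sqrt (4 * ((d : ℝ) - 1) - E ^ 2) / (2 * ((d : ℝ) - 1)) := by
  rw [x7_g_eq hd hE]
  have h : (2 * ((d : ℂ) - 1)) = ((2 * ((d : ℝ) - 1) : ℝ) : ℂ) := by push_cast; ring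
  rw [h]
  constructor
  · rw [Complex.div_ofReal_re]; simp
  · rw [Complex.div_ofReal_im]; simp

/-- **the boundary value of the cavity function**: `|g|² = 1/(d-1)`. -/
theorem x7_g_abs {d : ℕ} (hd : 3 ≤ d) {E : ℝ} (hE : |E| < 2 * Real.sqrt ((d : ℝ) - 1)) :
    ‖rgg d (E : ℂ)‖ ^ 2 = 1 / ((d : ℝ) - 1) := by
  have h0 := x7_disc_pos hd hE
  have hd' : (3 : ℝ) ≤ d := by exact_mod_cast hd
  have hb : ((d : ℝ) - 1) ≠ 0 := by linarith
  obtain ⟨hr, hi⟩ := x7_g_re_im hd hE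
  rw [← Complex.normSq_eq_norm_sq, Complex.normSq_apply, hr, hi]
  have hs2 : Real.sqrt (4 * ((d : ℝ) - 1) - E ^ 2) * Real.sqrt (4 * ((d : ℝ) - 1) - E ^ 2) = 4 * ((d : ℝ) - 1) - E ^ 2 :=
    Real.mul_self_sqrt h0.le
  rw [div_mul_div_comm, div_mul_div_comm, hs2]
  field_simp
  ring

/-- `|1 - g²|² = (d² - E²)/(d-1)²`. -/
theorem x7_g_abs' {d : ℕ} (hd : 3 ≤ d) {E : ℝ} (hE : |E| < 2 * Real.sqrt ((d : ℝ) - 1)) :
    ‖1 - rgg d (E : ℂ) ^ 2‖ ^ 2 = ((d : ℝ) ^ 2 - E ^ 2) / ((d : ℝ) - 1) ^ 2 := by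
  have h0 := x7_disc_pos hd hE
  have hd' : (3 : ℝ) ≤ d := by exact_mod_cast hd
  have hb : ((d : ℝ) - 1) ≠ 0 := by linarith
  have hbc : ((d : ℂ) - 1) ≠ 0 := by exact_mod_cast hb
  obtain ⟨hr, hi⟩ := x7_g_re_im hd hE
  have hq := x7_g_quad hd hE
  -- 1 - g² = (d + E g)/(d-1)
  have h1 : 1 - rgg d (E : ℂ) ^ 2 = ((d : ℂ) + (E : ℂ) * rgg d (E : ℂ)) / ((d : ℂ) - 1) := by
    field_simp
    linear_combination (-1 : ℂ) * hq
  have h2 : ((d : ℂ) - 1) = (((d : ℝ) - 1 : ℝ) : ℂ) := by push_cast; ring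
  rw [h1, norm_div, div_pow, h2, Complex.norm_real, Real.norm_eq_abs, sq_abs]
  congr 1
  rw [← Complex.normSq_eq_norm_sq, Complex.normSq_apply]
  simp only [Complex.add_re, Complex.add_im, Complex.mul_re, Complex.mul_im, Complex.natCast_re, Complex.natCast_im,
    Complex.ofReal_re, Complex.ofReal_im, zero_mul, sub_zero, add_zero, zero_add, hr, hi]
  have hs2 : Real.sqrt (4 * ((d : ℝ) - 1) - E ^ 2) ^ 2 = 4 * ((d : ℝ) - 1) - E ^ 2 := Real.sq_sqrt h0.le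
  set s := Real.sqrt (4 * ((d : ℝ) - 1) - E ^ 2) with hs
  field_simp
  ring_nf
  rw [hs2]
  ring


/-- **potential identity** (P1 (2.4)): `Φ(E + i0)` is the right side of the entropy normalisation (`enU d E` of unit ENT). -/
theorem x7_phi {d : ℕ} (hd : 3 ≤ d) {E : ℝ} (hE : |E| < 2 * Real.sqrt ((d : ℝ) - 1)) :
    rgPhi d (E : ℂ) = Real.log d / 2 - ((d : ℝ) - 1) / 2 * Real.log (d / ((d : ℝ) - 1) * (1 - (E / d) ^ 2))
      + (d : ℝ) / 4 * Real.log (1 - (E / d) ^ 2) := by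
  have hd' : (3 : ℝ) ≤ d := by exact_mod_cast hd
  have hb : (0 : ℝ) < (d : ℝ) - 1 := by linarith
  have hd0 : (0 : ℝ) < d := by linarith
  have hL := x7_sq_lt hd hE
  have h1 : Real.log ‖rgg d (E : ℂ)‖ = -(Real.log ((d : ℝ) - 1)) / 2 := by
    have := congrArg Real.log (x7_g_abs hd hE)
    rw [Real.log_pow, one_div, Real.log_inv] at this
    push_cast at this
    linarith
  have h2 : Real.log ‖1 - rgg d (E : ℂ) ^ 2‖ = (Real.log ((d : ℝ) ^ 2 - E ^ 2) - 2 * Real.log ((d : ℝ) - 1)) / 2 := by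
    have := congrArg Real.log (x7_g_abs' hd hE)
    rw [Real.log_pow, Real.log_div hL.ne' (by positivity), Real.log_pow] at this
    push_cast at this
    linarith
  have h3 : (1 - (E / d) ^ 2) = ((d : ℝ) ^ 2 - E ^ 2) / (d : ℝ) ^ 2 := by
    field_simp
  have h4 : Real.log (1 - (E / d) ^ 2) = Real.log ((d : ℝ) ^ 2 - E ^ 2) - 2 * Real.log d := by
    rw [h3, Real.log_div hL.ne' (by positivity), Real.log_pow]; push_cast; ring
  have h5 : 0 < 1 - (E / d) ^ 2 := by rw [h3]; positivity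
  have h6 : Real.log (d / ((d : ℝ) - 1) * (1 - (E / d) ^ 2))
      = Real.log d - Real.log ((d : ℝ) - 1) + (Real.log ((d : ℝ) ^ 2 - E ^ 2) - 2 * Real.log d) := by
    rw [Real.log_mul (by positivity) h5.ne', Real.log_div hd0.ne' hb.ne', h4]
  unfold rgPhi
  rw [h1, h2, h6, h4]
  ring

theorem x7_m_eq {d : ℕ} (hd : 3 ≤ d) {E : ℝ} (hE : |E| < 2 * Real.sqrt ((d : ℝ) - 1)) :
    rgm d (E : ℂ) = ((E : ℂ) + ((d : ℂ) - 1) * d * rgg d (E : ℂ)) / ((d : ℂ) ^ 2 - (E : ℂ) ^ 2) := by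
  have hL := x7_sq_lt hd hE
  have hLc : ((d : ℂ) ^ 2 - (E : ℂ) ^ 2) ≠ 0 := by exact_mod_cast hL.ne'
  have hd' : (3 : ℝ) ≤ d := by exact_mod_cast hd
  have hb : ((d : ℝ) - 1) ≠ 0 := by linarith
  have hq := x7_g_quad hd hE
  have hne : 1 - rgg d (E : ℂ) ^ 2 ≠ 0 := by
    intro h
    have := x7_g_abs' hd hE
    rw [h, norm_zero] at this
    have h2 : 0 < ((d : ℝ) ^ 2 - E ^ 2) / ((d : ℝ) - 1) ^ 2 := by positivity
    rw [← this] at h2
    norm_num at h2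
  unfold rgm
  rw [div_eq_div_iff hne hLc]
  linear_combination ((d : ℂ) * rgg d (E : ℂ) - (E : ℂ)) * hq


/-- **boundary value of `m_d`**: `Im m_d(E + i0) = π ρ_d(E)`, `Re m_d(E + i0) = -(d-2)E/(2(d²-E²))` (the only link with the frozen `kestenMcKay`). -/
theorem x7_m_bdry {d : ℕ} (hd : 3 ≤ d) {E : ℝ} (hE : |E| < 2 * Real.sqrt ((d : ℝ) - 1)) :
    (rgm d (E : ℂ)).im = Real.pi * kestenMcKay d E ∧ (rgm d (E : ℂ)).re = -(((d : ℝ) - 2) * E) / (2 * ((d : ℝ) ^ 2 - E ^ 2)) := by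
  have hL := x7_sq_lt hd hE
  have hd' : (3 : ℝ) ≤ d := by exact_mod_cast hd
  have hb : ((d : ℝ) - 1) ≠ 0 := by linarith
  obtain ⟨hr, hi⟩ := x7_g_re_im hd hE
  have h : ((d : ℂ) ^ 2 - (E : ℂ) ^ 2) = (((d : ℝ) ^ 2 - E ^ 2 : ℝ) : ℂ) := by push_cast; ring
  have h' : ((d : ℂ) - 1) * d = ((((d : ℝ) - 1) * d : ℝ) : ℂ) := by push_cast; ring
  rw [x7_m_eq hd hE, h, h']
  constructor
  · rw [Complex.div_ofReal_im, Complex.add_im, Complex.ofReal_im, Complex.im_ofReal_mul, hi]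
    unfold kestenMcKay
    have hpi := Real.pi_pos.ne'
    field_simp
    ring
  · rw [Complex.div_ofReal_re, Complex.add_re, Complex.ofReal_re, Complex.re_ofReal_mul, hr]
    field_simp
    ring

open Classical in
/-- **typical stars** from the mean square star law (Markov): fraction of the centres with `rgStD > t`. -/
theorem x7_star_markov {n : ℕ} (d : ℕ) (H : Gr n) (z : ℂ) {t : ℝ} (ht : 0 < t) :
    ((Finset.univ.filter fun o : Fin n => t < rgStD d H z o).card : ℝ) / n ≤ rgStarF d H z / t := by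
  have h0 : ∀ o, 0 ≤ rgStD d H z o := fun o => by
    unfold rgStD
    exact Finset.sum_nonneg fun x _ => Finset.sum_nonneg fun y _ => by positivity
  have h1 : ((Finset.univ.filter fun o : Fin n => t < rgStD d H z o).card : ℝ) * t ≤ ∑ o, rgStD d H z o := by
    calc ((Finset.univ.filter fun o : Fin n => t < rgStD d H z o).card : ℝ) * t
        = ∑ _o ∈ Finset.univ.filter (fun o : Fin n => t < rgStD d H z o), t := by simp
      _ ≤ ∑ o ∈ Finset.univ.filter (fun o : Fin n => t < rgStD d H z o), rgStD d H z o :=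
          Finset.sum_le_sum fun o ho => (Finset.mem_filter.1 ho).2.le
      _ ≤ ∑ o, rgStD d H z o := Finset.sum_le_sum_of_subset_of_nonneg (Finset.filter_subset _ _) fun o _ _ => h0 o
  unfold rgStarF
  rw [div_div, mul_comm (n : ℝ) t, ← div_div]
  refine div_le_div_of_nonneg_right ?_ (Nat.cast_nonneg _)
  rw [le_div_iff₀ ht]
  exact h1

/-- an entry of a good star is close to the tree value -/
theorem x7_star_entry {n : ℕ} (d : ℕ) (H : Gr n) (z : ℂ) {t : ℝ} {o x y : Fin n} (ho : rgStD d H z o ≤ t)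
    (hx : x ∈ rgStar H o) (hy : y ∈ rgStar H o) : ‖rgG H z x y - rgTv d z (rgSd o x y)‖ ^ 2 ≤ t := by
  refine le_trans ?_ ho
  unfold rgStD
  have h1 : ‖rgG H z x y - rgTv d z (rgSd o x y)‖ ^ 2 ≤ ∑ y' ∈ rgStar H o, ‖rgG H z x y' - rgTv d z (rgSd o x y')‖ ^ 2 :=
    Finset.single_le_sum (f := fun y' => ‖rgG H z x y' - rgTv d z (rgSd o x y')‖ ^ 2) (fun _ _ => by positivity) hy
  refine h1.trans ?_
  exact Finset.single_le_sum (f := fun x' => ∑ y' ∈ rgStar H o, ‖rgG H z x' y' - rgTv d z (rgSd o x' y')‖ ^ 2)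
    (fun _ _ => Finset.sum_nonneg fun _ _ => by positivity) hx

end Claimed.Agent.R287
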