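-- KEEP
import Claimed.Agent.R287.Ent.Mix

/-!
# Row 287 (S0534), unit GAU, part 1: the Gaussian criterion [G] = P1 Lemma 3.6      HEAD helper283.   Prefix `gau_`, defs `gau*`, `Gau*`.

NEW PROOF (raw moment tensors; no Hermite polynomials, no Mehler kernel, no L^3 norm, no Lebesgue density): `origin/helper283:notes/R287/A6_283.md`, addendum (2), and the docstrings below.
Vocabulary.  `Ω` finite, uniform average `gauAv`;  `b : Ω → κ → ℝ` a finite family of vectors;  `γ = qfG κ` standard Gaussian on `ℝ^κ`;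
`e_c(y) = exp(<c,y> - |c|²/2)` (`gauE`) = density ratio of `N(c,1)` to `γ`;   `f = gauR (ε • b) = avg_ω e_{ε b_ω}` = ratio of the law of `ε B + G`;
`f₀ = gauF0 ε = s^{-r} exp(ε²|y|²/(2s²))`, `s² = 1 + ε²`, `r = card κ` = ratio of `N(0,s²)`;   `gauEnt b = ∫ R log R dγ`;
`M_k = gauM b k` raw moment tensor, `gauM0 κ k` the Gaussian one, `Δ_k = gauDl b k` the difference.
CHAIN:  (a) `gau_ent_split`: `Ent(εb) = KL + explicit`;   (b) `gau_KL_lower/upper`: `KL = (1/2 ± Cθ) A ± tail`, `A = ∫ (f - f₀)² dγ`;   (c) `gau_A_expand`: `A = Σ_{k ≤ j} ε^{2k} |Δ_k|²/k! + O((εK)^{2j+2})`;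
(d) projections: `gau_ent_proj`, `gau_Dl_proj`, `gau_M0_swap` (all three from `gau_rot`);   (e) `gau_step`, `gau_step2` (with [T] = `et_tensor_col`);   (f) `gau_induct`, `gau_G` (exponents).
-/

set_option autoImplicit false
set_option linter.unusedSectionVars false

namespace Claimed.Agent.R287

open MeasureTheory ProbabilityTheory Matrix Finset

/-! ## 0. Vocabulary -/

section voc

variable {Ω κ : Type} [Fintype Ω] [Fintype κ]

/-- uniform average over a finite type -/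
noncomputable def gauAv (F : Ω → ℝ) : ℝ := (∑ ω, F ω) / (Fintype.card Ω : ℝ)

/-- `e_c(y) = exp(<c,y> - |c|²/2)` -/
noncomputable def gauE (c y : κ → ℝ) : ℝ := Real.exp (c ⬝ᵥ y - c ⬝ᵥ c / 2)

/-- density ratio (w.r.t. the standard Gaussian) of the law of `b_ω + G`, `ω` uniform -/
noncomputable def gauR (b : Ω → κ → ℝ) (y : κ → ℝ) : ℝ := gauAv fun ω => gauE (b ω) y

/-- relative entropy of the law of `b_ω + G` w.r.t. the standard Gaussian -/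
noncomputable def gauEnt (b : Ω → κ → ℝ) : ℝ := ∫ y, gauR b y * Real.log (gauR b y) ∂qfG κ

/-- raw moment tensor of order `k` -/
noncomputable def gauM (b : Ω → κ → ℝ) (k : ℕ) : (Fin k → κ) → ℝ := fun x => gauAv fun ω => ∏ a, b ω (x a)

/-- moment tensor of the standard Gaussian -/
noncomputable def gauM0 (κ : Type) [Fintype κ] (k : ℕ) : (Fin k → κ) → ℝ := fun x => ∫ g, ∏ a, g (x a) ∂qfG κ

/-- `Δ_k` -/
noncomputable def gauDl (b : Ω → κ → ℝ) (k : ℕ) : (Fin k → κ) → ℝ := gauM b k - gauM0 κ k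

/-- density ratio of `N(0, 1 + ε²)` -/
noncomputable def gauF0 (ε : ℝ) (y : κ → ℝ) : ℝ :=
  (1 + ε ^ 2) ^ (-(Fintype.card κ : ℝ) / 2) * Real.exp (ε ^ 2 * (y ⬝ᵥ y) / (2 * (1 + ε ^ 2)))

/-- `φ(a,b) = a log(a/b) - a + b` -/
noncomputable def gauPhi (a b : ℝ) : ℝ := a * Real.log (a / b) - a + b

/-- `KL(law(εB+G) | N(0,1+ε²))` -/
noncomputable def gauKL (ε : ℝ) (b : Ω → κ → ℝ) : ℝ := ∫ y, gauPhi (gauR (ε • b) y) (gauF0 ε y) ∂qfG κ

/-- `A = ∫ (f - f₀)² dγ` -/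
noncomputable def gauA (ε : ℝ) (b : Ω → κ → ℝ) : ℝ := ∫ y, (gauR (ε • b) y - gauF0 ε y) ^ 2 ∂qfG κ

/-- the part of `A` outside of the ball of radius `R` -/
noncomputable def gauT (ε R : ℝ) (b : Ω → κ → ℝ) : ℝ :=
  ∫ y in {y : κ → ℝ | R ^ 2 < y ⬝ᵥ y}, (gauR (ε • b) y - gauF0 ε y) ^ 2 ∂qfG κ

/-- the truncated series `Σ_{k ≤ j} ε^{2k} |Δ_k|² / k!` -/
noncomputable def gauS (ε : ℝ) (b : Ω → κ → ℝ) (j : ℕ) : ℝ :=
  ∑ k ∈ range (j + 1), ε ^ (2 * k) / (k.factorial : ℝ) * (gauDl b k ⬝ᵥ gauDl b k)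

/-- the smallness parameter on the ball: `θ = εKR + ε²K²/2 + ε²R²/2 + rε²/2` -/
noncomputable def gauTh (r : ℕ) (ε K R : ℝ) : ℝ := ε * K * R + ε ^ 2 * K ^ 2 / 2 + ε ^ 2 * R ^ 2 / 2 + r * ε ^ 2 / 2

theorem gau_eqns_cite : True := by
  have := @gauAv.eq_1
  have := @gauE.eq_1
  have := @gauR.eq_1
  have := @gauEnt.eq_1
  have := @gauM.eq_1
  have := @gauM0.eq_1
  have := @gauDl.eq_1
  have := @gauF0.eq_1
  have := @gauPhi.eq_1
  have := @gauKL.eq_1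
  have := @gauA.eq_1
  have := @gauT.eq_1
  have := @gauS.eq_1
  have := @gauTh.eq_1
  trivial

end voc

/-! ## 1. Gaussian kit -/

section kit

variable {κ ι : Type} [Fintype κ] [Fintype ι]

/-- completing the square under the Gaussian density -/
theorem gau_pdf_mul_exp (b t : ℝ) (ht : t < 1) (x : ℝ) :
    gaussianPDFReal 0 1 x * Real.exp (b * x + t * x ^ 2 / 2)
      = ((Real.sqrt (2 * Real.pi))⁻¹ * Real.exp (b ^ 2 / (2 * (1 - t)))) * Real.exp (-((1 - t) / 2) * (x - b / (1 - t)) ^ 2) := by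
  simp only [gaussianPDFReal, sub_zero, NNReal.coe_one, mul_one]
  rw [mul_assoc, mul_assoc, ← Real.exp_add, ← Real.exp_add]
  congr 2
  have h : (1 - t) ≠ 0 := by linarith
  field_simp
  ring

/-- **GK1** master formula in one dimension.   PLAN: `gaussianReal 0 1` has density `gaussianPDFReal 0 1` (`qf_g1_integrable_iff`, `integral_gaussianReal_eq_integral_smul`);
complete the square `b x + t x²/2 - x²/2 = -(1-t)/2 (x - b/(1-t))² + b²/(2(1-t))`, translate, `integral_gaussian`, `integrable_exp_neg_mul_sq`. -/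
theorem gau_master1 (b t : ℝ) (ht : t < 1) :
    Integrable (fun x : ℝ => Real.exp (b * x + t * x ^ 2 / 2)) (gaussianReal 0 1) ∧
      ∫ x, Real.exp (b * x + t * x ^ 2 / 2) ∂gaussianReal 0 1 = (1 - t) ^ (-(1 / 2 : ℝ)) * Real.exp (b ^ 2 / (2 * (1 - t))) := by
  have ha : 0 < (1 - t) / 2 := by linarith
  constructor
  · rw [qf_g1_integrable_iff]
    simp only [gau_pdf_mul_exp b t ht]
    exact ((integrable_exp_neg_mul_sq ha).comp_sub_right (b / (1 - t))).const_mul _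
  · rw [integral_gaussianReal_eq_integral_smul one_ne_zero]
    simp only [smul_eq_mul, gau_pdf_mul_exp b t ht]
    rw [integral_const_mul, integral_sub_right_eq_self (fun x => Real.exp (-((1 - t) / 2) * x ^ 2)) (b / (1 - t)), integral_gaussian]
    have h1 : 0 < 1 - t := by linarith
    have e : (Real.sqrt (2 * Real.pi))⁻¹ * Real.sqrt (Real.pi / ((1 - t) / 2)) = (1 - t) ^ (-(1 / 2 : ℝ)) := by
      rw [Real.rpow_neg h1.le, ← Real.sqrt_eq_rpow, ← Real.sqrt_inv, ← Real.sqrt_inv, ← Real.sqrt_mul (by positivity)]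
      congr 1
      field_simp
    rw [← e]
    ring

/-- **GK2** master formula on `ℝ^κ`.   PLAN: the integrand is `∏_a exp(c_a y_a + t y_a²/2)` (`Real.exp_sum`); `integral_fintype_prod_eq_prod`, `Integrable.fintype_prod` (or `integrable_fintype_prod`), `gau_master1`;
`∏ (1-t)^(-1/2) = (1-t)^(-r/2)` (`Finset.prod_const`, `Real.rpow_natCast`, `Real.rpow_mul`). -/
theorem gau_master (c : κ → ℝ) (t : ℝ) (ht : t < 1) :
    Integrable (fun y : κ → ℝ => Real.exp (c ⬝ᵥ y + t * (y ⬝ᵥ y) / 2)) (qfG κ) ∧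
      ∫ y, Real.exp (c ⬝ᵥ y + t * (y ⬝ᵥ y) / 2) ∂qfG κ
        = (1 - t) ^ (-(Fintype.card κ : ℝ) / 2) * Real.exp ((c ⬝ᵥ c) / (2 * (1 - t))) := by
  have e : ∀ y : κ → ℝ, Real.exp (c ⬝ᵥ y + t * (y ⬝ᵥ y) / 2) = ∏ a, Real.exp (c a * y a + t * y a ^ 2 / 2) := by
    intro y
    rw [← Real.exp_sum]
    congr 1
    simp only [dotProduct, Finset.sum_add_distrib, Finset.mul_sum, Finset.sum_div]
    congr 1
    refine Finset.sum_congr rfl fun a _ => ?_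
    ring
  simp only [e]
  constructor
  · exact Integrable.fintype_prod (μ := fun _ : κ => gaussianReal 0 1)
      (f := fun a x => Real.exp (c a * x + t * x ^ 2 / 2)) fun a => (gau_master1 (c a) t ht).1
  · unfold qfG
    rw [integral_fintype_prod_eq_prod (μ := fun _ : κ => gaussianReal 0 1) (fun a x => Real.exp (c a * x + t * x ^ 2 / 2))]
    simp only [(gau_master1 _ t ht).2]
    rw [Finset.prod_mul_distrib, Finset.prod_const, ← Real.exp_sum, Finset.card_univ]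
    have h1 : 0 < 1 - t := by linarith
    congr 1
    · rw [← Real.rpow_natCast, ← Real.rpow_mul h1.le]
      congr 1
      ring
    · congr 1
      simp only [dotProduct, Finset.sum_div]
      refine Finset.sum_congr rfl fun a _ => ?_
      ring

/-- first and second moments of one coordinate -/
theorem gau_coord_moments (a : κ) :
    Integrable (fun g : κ → ℝ => g a) (qfG κ) ∧ Integrable (fun g : κ → ℝ => g a ^ 2) (qfG κ) ∧
      ∫ g : κ → ℝ, g a ∂qfG κ = 0 ∧ ∫ g : κ → ℝ, g a ^ 2 ∂qfG κ = 1 := by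
  classical
  have i1 : Integrable (fun x : ℝ => x) (gaussianReal 0 1) := by simpa using qf_g1_pow_integrable 1
  have i2 := qf_g1_pow_integrable 2
  refine ⟨qf_coord_integrable i1 a, qf_coord_integrable i2 a, ?_, ?_⟩
  · rw [qf_coord_integral (f := fun x => x) i1.aestronglyMeasurable a]
    simp
  · rw [qf_coord_integral (f := fun x => x ^ 2) i2.aestronglyMeasurable a, qf_g1_sq]

/-- **GK3** second moment of the shifted Gaussian.   PLAN: `y ⬝ᵥ y = Σ_a y_a²`; for each `a` the integrand is a product over the coordinates; one dimensional integrals `∫ e^{cx - c²/2} dγ₁ = 1` (`gau_master1`, `t = 0`) and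
`∫ x² e^{cx - c²/2} dγ₁ = 1 + c²`: the measure `e^{cx-c²/2} γ₁` is `gaussianReal c 1` (compare the densities `gaussianPDFReal`), then `variance_id_gaussianReal`, `integral_id_gaussianReal`. -/
theorem gau_E_sq (c : κ → ℝ) :
    Integrable (fun y : κ → ℝ => gauE c y * (y ⬝ᵥ y)) (qfG κ) ∧ ∫ y, gauE c y * (y ⬝ᵥ y) ∂qfG κ = c ⬝ᵥ c + Fintype.card κ := by
  constructor
  · have hm := ((gau_master c (1 / 2) (by norm_num)).1).const_mul (4 * Real.exp (-(c ⬝ᵥ c / 2)))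
    refine hm.mono' ?_ (Filter.Eventually.of_forall fun y => ?_)
    · refine Continuous.aestronglyMeasurable ?_
      unfold gauE
      simp only [dotProduct]
      fun_prop
    · have hyy : 0 ≤ y ⬝ᵥ y := by
        simp only [dotProduct]
        exact Finset.sum_nonneg fun a _ => mul_self_nonneg _
      have h1 : y ⬝ᵥ y ≤ 4 * Real.exp ((y ⬝ᵥ y) / 4) := by
        have := Real.add_one_le_exp ((y ⬝ᵥ y) / 4)
        linarith
      unfold gauE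
      rw [Real.norm_eq_abs, abs_of_nonneg (mul_nonneg (Real.exp_pos _).le hyy)]
      calc Real.exp (c ⬝ᵥ y - c ⬝ᵥ c / 2) * (y ⬝ᵥ y) ≤ Real.exp (c ⬝ᵥ y - c ⬝ᵥ c / 2) * (4 * Real.exp ((y ⬝ᵥ y) / 4)) :=
            mul_le_mul_of_nonneg_left h1 (Real.exp_pos _).le
        _ = 4 * Real.exp (-(c ⬝ᵥ c / 2)) * Real.exp (c ⬝ᵥ y + 1 / 2 * (y ⬝ᵥ y) / 2) := by
            rw [mul_assoc 4, ← Real.exp_add, mul_left_comm, ← Real.exp_add]
            congr 2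
            ring
  · classical
    have h := gm_shift c (fun y : κ → ℝ => y ⬝ᵥ y)
    rw [gm_std_eq, gm_Sq_eq] at h
    have e : ∀ y : κ → ℝ, gauE c y * (y ⬝ᵥ y) = (y ⬝ᵥ y) * Real.exp (c ⬝ᵥ y - c ⬝ᵥ c / 2) := fun y => mul_comm _ _
    simp only [e]
    rw [← h]
    have e2 : ∀ g : κ → ℝ, (c + g) ⬝ᵥ (c + g) = ∑ a, (c a ^ 2 + 2 * c a * g a + g a ^ 2) := by
      intro g
      simp only [dotProduct, Pi.add_apply]
      exact Finset.sum_congr rfl fun a _ => by ring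
    simp only [e2]
    have : IsProbabilityMeasure (qfG κ) := by unfold qfG; infer_instance
    have hi : ∀ a : κ, Integrable (fun g : κ → ℝ => c a ^ 2 + 2 * c a * g a + g a ^ 2) (qfG κ) := fun a =>
      ((integrable_const _).add ((gau_coord_moments a).1.const_mul _)).add (gau_coord_moments a).2.1
    rw [integral_finsetSum _ fun a _ => hi a]
    have e3 : ∀ a : κ, ∫ g : κ → ℝ, (c a ^ 2 + 2 * c a * g a + g a ^ 2) ∂qfG κ = c a ^ 2 + 1 := by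
      intro a
      have j1 : Integrable (fun _ : κ → ℝ => c a ^ 2) (qfG κ) := integrable_const _
      have j2 : Integrable (fun g : κ → ℝ => 2 * c a * g a) (qfG κ) := (gau_coord_moments a).1.const_mul _
      have j3 := (gau_coord_moments a).2.1
      have k1 : ∫ g : κ → ℝ, (c a ^ 2 + 2 * c a * g a + g a ^ 2) ∂qfG κ
          = (∫ g : κ → ℝ, (c a ^ 2 + 2 * c a * g a) ∂qfG κ) + ∫ g : κ → ℝ, g a ^ 2 ∂qfG κ := integral_add (j1.add j2) j3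
      have k2 : ∫ g : κ → ℝ, (c a ^ 2 + 2 * c a * g a) ∂qfG κ
          = (∫ _g : κ → ℝ, c a ^ 2 ∂qfG κ) + ∫ g : κ → ℝ, 2 * c a * g a ∂qfG κ := integral_add j1 j2
      rw [k1, k2, integral_const_mul, (gau_coord_moments a).2.2.1, (gau_coord_moments a).2.2.2]
      simp
    simp only [e3]
    rw [Finset.sum_add_distrib]
    simp only [dotProduct, Finset.sum_const, Finset.card_univ, nsmul_eq_mul, mul_one]
    congr 1
    exact Finset.sum_congr rfl fun a _ => by ring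

/-- **GK4** monomials are integrable.   PLAN: `|∏_a g (x a)| ≤ ∏_a (1 + ...)`; simplest: `MemLp` of the coordinates for every exponent (`qf_g1_pow_integrable`, `qf_coord_integrable`) and generalized Hölder `MemLp.prod`;
or: `|∏_{a : Fin k} t_a| ≤ Σ_a |t_a|^k` (AM-GM, `inner_le_nnorm_mul_nnorm`-free: `Finset.prod_le_pow_card` with the max) and each `|g_x|^k` integrable. -/
theorem gau_mono_integrable {k : ℕ} (x : Fin k → κ) : Integrable (fun g : κ → ℝ => ∏ a, g (x a)) (qfG κ) := by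
  rw [← gm_std_eq]
  refine gm_int_poly (by fun_prop) 1 k fun g => ?_
  rw [one_mul, Finset.abs_prod]
  calc ∏ a, |g (x a)| ≤ ∏ _a : Fin k, (1 + gmSq g) := by
        refine Finset.prod_le_prod (fun a _ => abs_nonneg _) fun a _ => ?_
        have h1 : g (x a) ^ 2 ≤ gmSq g := by
          unfold gmSq
          exact Finset.single_le_sum (f := fun i => g i ^ 2) (fun i _ => sq_nonneg _) (Finset.mem_univ (x a))
        have h2 : |g (x a)| ≤ 1 + g (x a) ^ 2 := by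
          rw [← sq_abs]
          nlinarith [sq_nonneg (|g (x a)| - 1), abs_nonneg (g (x a))]
        linarith
    _ = (1 + gmSq g) ^ k := by simp

/-- **GK5** rotation invariance, rectangular form (from `gm_map_cov` of the kit MIX) -/
theorem gau_rot [DecidableEq κ] (V : Matrix κ ι ℝ) (hV : V * Vᵀ = 1) : (qfG ι).map (fun y => V *ᵥ y) = qfG κ := by
  have h := gm_map_cov V (1 : Matrix κ κ ℝ) (by rw [hV, Matrix.transpose_one, Matrix.one_mul])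
  simp only [Matrix.one_mulVec, Measure.map_id'] at h
  exact h

/-- consequence of `gau_rot` in the form used below (EVERY function: both sides are `0` if not integrable) -/
theorem gau_rot_integral [DecidableEq κ] (V : Matrix κ ι ℝ) (hV : V * Vᵀ = 1) (F : (κ → ℝ) → ℝ) (hF : AEStronglyMeasurable F (qfG κ)) :
    ∫ y, F (V *ᵥ y) ∂qfG ι = ∫ z, F z ∂qfG κ := by
  rw [← gau_rot V hV] at hF ⊢
  have hm : Measurable fun y : ι → ℝ => V *ᵥ y := by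
    refine measurable_pi_lambda _ fun a => ?_
    simp only [Matrix.mulVec, dotProduct]
    fun_prop
  exact (integral_map hm.aemeasurable hF).symm

end kit

/-! ## 2. Pointwise bounds -/

section pw

/-- PLAN: `φ(a,b) = b g(a/b - 1)`, `g(r) = (1+r) log(1+r) - r ≥ 0`:  `log x ≥ 1 - 1/x` (`Real.one_sub_inv_le_log_of_pos`) with `x = a/b`. -/
theorem gauPhi_nonneg {a b : ℝ} (ha : 0 < a) (hb : 0 < b) : 0 ≤ gauPhi a b := by
  unfold gauPhi
  have h := Real.one_sub_inv_le_log_of_pos (div_pos ha hb)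
  have h2 : a * (1 - (a / b)⁻¹) ≤ a * Real.log (a / b) := mul_le_mul_of_nonneg_left h ha.le
  have e : a * (1 - (a / b)⁻¹) = a - b := by field_simp
  linarith

/-- PLAN: `log x ≤ x - 1` (`Real.log_le_sub_one_of_pos`) with `x = a/b`: `φ ≤ a (a/b - 1) - a + b = (a-b)²/b`. -/
theorem gauPhi_le {a b : ℝ} (ha : 0 < a) (hb : 0 < b) : gauPhi a b ≤ (a - b) ^ 2 / b := by
  unfold gauPhi
  have h := Real.log_le_sub_one_of_pos (div_pos ha hb)
  have h2 : a * Real.log (a / b) ≤ a * (a / b - 1) := mul_le_mul_of_nonneg_left h ha.le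
  have e : (a - b) ^ 2 / b = a * (a / b - 1) - a + b := by field_simp; ring
  linarith

/-- monotonicity from the sign of an explicit derivative -/
theorem gau_mono_of_hasDeriv {f f' : ℝ → ℝ} {s : Set ℝ} (hs : Convex ℝ s) (hd : ∀ r ∈ s, HasDerivAt f (f' r) r)
    (hf' : ∀ r ∈ s, 0 ≤ f' r) : MonotoneOn f s :=
  monotoneOn_of_deriv_nonneg hs (fun r hr => (hd r hr).continuousAt.continuousWithinAt)
    (fun r hr => (hd r (interior_subset hr)).differentiableAt.differentiableWithinAt)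
    (fun r hr => by rw [(hd r (interior_subset hr)).deriv]; exact hf' r (interior_subset hr))

theorem gau_anti_of_hasDeriv {f f' : ℝ → ℝ} {s : Set ℝ} (hs : Convex ℝ s) (hd : ∀ r ∈ s, HasDerivAt f (f' r) r)
    (hf' : ∀ r ∈ s, f' r ≤ 0) : AntitoneOn f s :=
  antitoneOn_of_deriv_nonpos hs (fun r hr => (hd r hr).continuousAt.continuousWithinAt)
    (fun r hr => (hd r (interior_subset hr)).differentiableAt.differentiableWithinAt)
    (fun r hr => by rw [(hd r (interior_subset hr)).deriv]; exact hf' r (interior_subset hr))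

/-- derivative of `log (1 + r)` -/
theorem gau_hasDeriv_log {r : ℝ} (hr : -1 < r) : HasDerivAt (fun r : ℝ => Real.log (1 + r)) (1 / (1 + r)) r := by
  have h1 : HasDerivAt (fun r : ℝ => 1 + r) 1 r := by simpa using (hasDerivAt_id r).const_add 1
  have := h1.log (by linarith : (1 + r) ≠ 0)
  simpa using this

/-- derivative of `g(r) = (1+r) log (1+r) - r` -/
theorem gau_hasDeriv_g {r : ℝ} (hr : -1 < r) :
    HasDerivAt (fun r : ℝ => (1 + r) * Real.log (1 + r) - r) (Real.log (1 + r)) r := by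
  have h1 : HasDerivAt (fun r : ℝ => 1 + r) 1 r := by simpa using (hasDerivAt_id r).const_add 1
  have h2 := (h1.mul (gau_hasDeriv_log hr)).sub (hasDerivAt_id r)
  have hne : (1 + r) ≠ 0 := by linarith
  have e : 1 * Real.log (1 + r) + (1 + r) * (1 / (1 + r)) - 1 = Real.log (1 + r) := by field_simp; ring
  rw [e] at h2
  exact h2

/-- `g(r) ≥ r²/2 - r³/6` for `r > -1`.   PLAN: `h(r) = g(r) - r²/2 + r³/6`, `h(0) = h'(0) = 0`, `h''(r) = 1/(1+r) - 1 + r = r²/(1+r) ≥ 0`: convex with a critical point at `0`; or two applications of monotonicity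
(`h'(r) = log(1+r) - r + r²/2` has the sign of `r`: its derivative is `r²/(1+r) ≥ 0`). -/
theorem gau_g_lower {r : ℝ} (hr : -1 < r) : r ^ 2 / 2 - r ^ 3 / 6 ≤ (1 + r) * Real.log (1 + r) - r := by
  -- `h1 = log (1+r) - r + r²/2` is nondecreasing
  have d1 : ∀ r ∈ Set.Ioi (-1 : ℝ), HasDerivAt (fun r : ℝ => Real.log (1 + r) - r + r ^ 2 / 2) (r ^ 2 / (1 + r)) r := by
    intro r hr
    have hr' : -1 < r := hr
    have h := ((gau_hasDeriv_log hr').sub (hasDerivAt_id r)).add ((hasDerivAt_pow 2 r).div_const 2)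
    have hne : (1 + r) ≠ 0 := by linarith
    have e : 1 / (1 + r) - 1 + (2 : ℕ) * r ^ (2 - 1) / 2 = r ^ 2 / (1 + r) := by
      field_simp; ring
    rw [e] at h
    exact h
  have m1 := gau_mono_of_hasDeriv (convex_Ioi (-1 : ℝ)) d1 (fun r hr => by
    have hr' : -1 < r := hr
    have : 0 < 1 + r := by linarith
    positivity)
  have z1 : (fun r : ℝ => Real.log (1 + r) - r + r ^ 2 / 2) 0 = 0 := by simp
  have d2 : ∀ r ∈ Set.Ioi (-1 : ℝ), HasDerivAt (fun r : ℝ => (1 + r) * Real.log (1 + r) - r - r ^ 2 / 2 + r ^ 3 / 6)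
      (Real.log (1 + r) - r + r ^ 2 / 2) r := by
    intro r hr
    have hr' : -1 < r := hr
    have h := ((gau_hasDeriv_g hr').sub ((hasDerivAt_pow 2 r).div_const 2)).add ((hasDerivAt_pow 3 r).div_const 6)
    have e : Real.log (1 + r) - (2 : ℕ) * r ^ (2 - 1) / 2 + (3 : ℕ) * r ^ (3 - 1) / 6 = Real.log (1 + r) - r + r ^ 2 / 2 := by
      norm_num; ring
    rw [e] at h
    exact h
  have z2 : (fun r : ℝ => (1 + r) * Real.log (1 + r) - r - r ^ 2 / 2 + r ^ 3 / 6) 0 = 0 := by simp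
  have h0 : (0 : ℝ) ∈ Set.Ioi (-1 : ℝ) := by simp
  rcases le_total 0 r with h | h
  · have m2 := gau_mono_of_hasDeriv (convex_Ici (0 : ℝ)) (fun r hr => d2 r (lt_of_lt_of_le (by norm_num : (-1 : ℝ) < 0) hr)) (fun r hr => by
      have := m1 h0 (lt_of_lt_of_le (by norm_num : (-1 : ℝ) < 0) hr : (-1 : ℝ) < r) hr
      rw [z1] at this
      exact this)
    have := m2 (Set.mem_Ici.2 le_rfl) (Set.mem_Ici.2 h) h
    rw [z2] at this
    simp only at this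
    linarith
  · have m2 := gau_anti_of_hasDeriv (convex_Ioc (-1 : ℝ) 0) (fun r hr => d2 r hr.1) (fun r hr => by
      have := m1 (show r ∈ Set.Ioi (-1 : ℝ) from hr.1) h0 hr.2
      rw [z1] at this
      exact this)
    have := m2 (⟨hr, h⟩ : r ∈ Set.Ioc (-1 : ℝ) 0) (⟨by norm_num, le_rfl⟩ : (0 : ℝ) ∈ Set.Ioc (-1 : ℝ) 0) h
    rw [z2] at this
    simp only at this
    linarith

/-- `g(r) ≤ r²/2 + |r|³/2` for `r > -1`.   PLAN: for `r ≥ 0`: `g'' = 1/(1+r) ≤ 1` so `g ≤ r²/2`.   For `-1 < r < 0`, `u = -r`: `k(u) = u²/2 + u³/2 - (1-u) log(1-u) - u`, `k(0) = 0`, `k'(u) = u + 3u²/2 + log(1-u)`,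
`k'(0) = 0`, `k''(u) = 1 + 3u - 1/(1-u) = u(2 - 3u)/(1-u)`: `k'` increases on `[0,2/3]`, then decreases: NOT monotone.   SAFER: prove it only for `|r| ≤ 1/2` if this is simpler: the only use is `gauPhi_two_sided` with `η ≤ 1/2`
(change the statement accordingly: add `(h : |r| ≤ 1/2)`); on `[0,1/2]`: `k'' ≥ 0`. -/
theorem gau_g_upper {r : ℝ} (hr : |r| ≤ 1 / 2) : (1 + r) * Real.log (1 + r) - r ≤ r ^ 2 / 2 + |r| ^ 3 / 2 := by
  obtain ⟨hr1, hr2⟩ := abs_le.1 hr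
  rcases le_total 0 r with h | h
  · -- `r²/2 - g` is nondecreasing on `[0,∞)`
    have d : ∀ r ∈ Set.Ici (0 : ℝ), HasDerivAt (fun r : ℝ => r ^ 2 / 2 - ((1 + r) * Real.log (1 + r) - r)) (r - Real.log (1 + r)) r := by
      intro r hr
      have hr' : -1 < r := lt_of_lt_of_le (by norm_num) hr
      have h := ((hasDerivAt_pow 2 r).div_const 2).sub (gau_hasDeriv_g hr')
      have e : (2 : ℕ) * r ^ (2 - 1) / 2 - Real.log (1 + r) = r - Real.log (1 + r) := by norm_num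
      rw [e] at h
      exact h
    have m := gau_mono_of_hasDeriv (convex_Ici (0 : ℝ)) d (fun r hr => by
      have hr' : (0 : ℝ) ≤ r := hr
      have := Real.log_le_sub_one_of_pos (by linarith : (0 : ℝ) < 1 + r)
      linarith)
    have := m (Set.mem_Ici.2 le_rfl) (Set.mem_Ici.2 h) h
    simp only at this
    have h3 : 0 ≤ |r| ^ 3 / 2 := by positivity
    norm_num at this
    linarith
  · rw [abs_of_nonpos h]
    -- `k1 = r - 3 r²/2 - log (1+r)` is nondecreasing on `[-1/2, 0]`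
    have d1 : ∀ r ∈ Set.Icc (-(1 / 2) : ℝ) 0, HasDerivAt (fun r : ℝ => r - 3 * r ^ 2 / 2 - Real.log (1 + r)) (-r * (2 + 3 * r) / (1 + r)) r := by
      intro r hr
      have hr' : -1 < r := lt_of_lt_of_le (by norm_num) hr.1
      have h := ((hasDerivAt_id r).sub (((hasDerivAt_pow 2 r).const_mul 3).div_const 2)).sub (gau_hasDeriv_log hr')
      have hne : (1 + r) ≠ 0 := by linarith
      have e : 1 - 3 * ((2 : ℕ) * r ^ (2 - 1)) / 2 - 1 / (1 + r) = -r * (2 + 3 * r) / (1 + r) := by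
        field_simp; ring
      rw [e] at h
      exact h
    have m1 := gau_mono_of_hasDeriv (convex_Icc (-(1 / 2) : ℝ) 0) d1 (fun r hr => by
      have h1 : 0 < 1 + r := by linarith [hr.1]
      have h2 : 0 ≤ -r := by linarith [hr.2]
      have h3 : 0 ≤ 2 + 3 * r := by linarith [hr.1]
      positivity)
    have d2 : ∀ r ∈ Set.Icc (-(1 / 2) : ℝ) 0, HasDerivAt (fun r : ℝ => r ^ 2 / 2 - r ^ 3 / 2 - ((1 + r) * Real.log (1 + r) - r))
        (r - 3 * r ^ 2 / 2 - Real.log (1 + r)) r := by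
      intro r hr
      have hr' : -1 < r := lt_of_lt_of_le (by norm_num) hr.1
      have h := (((hasDerivAt_pow 2 r).div_const 2).sub ((hasDerivAt_pow 3 r).div_const 2)).sub (gau_hasDeriv_g hr')
      have e : (2 : ℕ) * r ^ (2 - 1) / 2 - (3 : ℕ) * r ^ (3 - 1) / 2 - Real.log (1 + r) = r - 3 * r ^ 2 / 2 - Real.log (1 + r) := by
        norm_num
      rw [e] at h
      exact h
    have h0 : (0 : ℝ) ∈ Set.Icc (-(1 / 2) : ℝ) 0 := ⟨by norm_num, le_rfl⟩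
    have m2 := gau_anti_of_hasDeriv (convex_Icc (-(1 / 2) : ℝ) 0) d2 (fun r hr => by
      have := m1 hr h0 hr.2
      simp only at this
      norm_num at this
      linarith)
    have := m2 (⟨hr1, h⟩ : r ∈ Set.Icc (-(1 / 2) : ℝ) 0) h0 h
    simp only at this
    norm_num at this
    have e : (-r) ^ 3 = - r ^ 3 := by ring
    rw [e]
    linarith

/-- two sided quadratic bounds of `φ` when `a/b` is close to `1`.   PLAN: `r = a/b - 1`, `φ(a,b) = b g(r)`, `(a-b)²/b = b r²`; `gau_g_lower`, `gau_g_upper`, `|r|³ ≤ η r²`. -/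
theorem gauPhi_two_sided {a b η : ℝ} (ha : 0 < a) (hb : 0 < b) (hη : η ≤ 1 / 2) (h : |a / b - 1| ≤ η) :
    (1 / 2 - η / 6) * ((a - b) ^ 2 / b) ≤ gauPhi a b ∧ gauPhi a b ≤ (1 / 2 + η / 2) * ((a - b) ^ 2 / b) := by
  set r : ℝ := a / b - 1 with hr
  have e1 : gauPhi a b = b * ((1 + r) * Real.log (1 + r) - r) := by
    unfold gauPhi
    have : 1 + r = a / b := by rw [hr]; ring
    rw [this, hr]
    field_simp
    ring
  have e2 : (a - b) ^ 2 / b = b * r ^ 2 := by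
    rw [hr]; field_simp
  have hr1 : -1 < r := by
    have := (abs_le.1 (h.trans hη)).1
    linarith
  have h3 : |r| ^ 3 ≤ η * r ^ 2 := by
    calc |r| ^ 3 = |r| * r ^ 2 := by rw [← sq_abs r]; ring
      _ ≤ η * r ^ 2 := mul_le_mul_of_nonneg_right h (sq_nonneg r)
  have h4 : r ^ 3 ≤ |r| ^ 3 := by
    rw [← abs_pow]; exact le_abs_self _
  rw [e1, e2]
  constructor
  · have := gau_g_lower hr1
    calc (1 / 2 - η / 6) * (b * r ^ 2) = b * (r ^ 2 / 2 - η * r ^ 2 / 6) := by ring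
      _ ≤ b * ((1 + r) * Real.log (1 + r) - r) := mul_le_mul_of_nonneg_left (by linarith) hb.le
  · have := gau_g_upper (h.trans hη)
    calc b * ((1 + r) * Real.log (1 + r) - r) ≤ b * (r ^ 2 / 2 + η * r ^ 2 / 2) := mul_le_mul_of_nonneg_left (by linarith) hb.le
      _ = _ := by ring

variable {Ω κ : Type} [Fintype Ω] [Fintype κ]

theorem gauE_pos (c y : κ → ℝ) : 0 < gauE c y := Real.exp_pos _

/-- PLAN: average of positive numbers over a nonempty finite type. -/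
theorem gauR_pos [Nonempty Ω] (b : Ω → κ → ℝ) (y : κ → ℝ) : 0 < gauR b y := by
  unfold gauR gauAv
  exact div_pos (Finset.sum_pos (fun ω _ => gauE_pos _ _) Finset.univ_nonempty) (by exact_mod_cast Fintype.card_pos)

theorem gauF0_pos (ε : ℝ) (y : κ → ℝ) : 0 < gauF0 ε y := by
  unfold gauF0
  have : 0 < 1 + ε ^ 2 := by positivity
  positivity

/-- monotonicity of the average -/
theorem gauAv_le_of_le [Nonempty Ω] {F : Ω → ℝ} {c : ℝ} (h : ∀ ω, F ω ≤ c) : gauAv F ≤ c := by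
  unfold gauAv
  have hc : (0 : ℝ) < Fintype.card Ω := by exact_mod_cast Fintype.card_pos
  rw [div_le_iff₀ hc]
  calc ∑ ω, F ω ≤ ∑ _ω : Ω, c := Finset.sum_le_sum fun ω _ => h ω
    _ = c * Fintype.card Ω := by simp [mul_comm]

theorem gauAv_ge_of_ge [Nonempty Ω] {F : Ω → ℝ} {c : ℝ} (h : ∀ ω, c ≤ F ω) : c ≤ gauAv F := by
  unfold gauAv
  have hc : (0 : ℝ) < Fintype.card Ω := by exact_mod_cast Fintype.card_pos
  rw [le_div_iff₀ hc]
  calc c * Fintype.card Ω = ∑ _ω : Ω, c := by simp [mul_comm]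
    _ ≤ ∑ ω, F ω := Finset.sum_le_sum fun ω _ => h ω

/-- Cauchy-Schwarz for `⬝ᵥ` -/
theorem gau_cs {κ : Type} [Fintype κ] (u v : κ → ℝ) {K R : ℝ} (hK : 0 ≤ K) (hR : 0 ≤ R) (hu : u ⬝ᵥ u ≤ K ^ 2) (hv : v ⬝ᵥ v ≤ R ^ 2) :
    |u ⬝ᵥ v| ≤ K * R := by
  apply abs_le_of_sq_le_sq _ (by positivity)
  have h1 : (u ⬝ᵥ v) ^ 2 ≤ (u ⬝ᵥ u) * (v ⬝ᵥ v) := by
    have := Finset.sum_mul_sq_le_sq_mul_sq Finset.univ u v
    simpa only [dotProduct, pow_two] using this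
  have h2 : 0 ≤ v ⬝ᵥ v := by
    simp only [dotProduct]
    exact Finset.sum_nonneg fun i _ => mul_self_nonneg _
  calc (u ⬝ᵥ v) ^ 2 ≤ (u ⬝ᵥ u) * (v ⬝ᵥ v) := h1
    _ ≤ K ^ 2 * R ^ 2 := mul_le_mul hu hv h2 (by positivity)
    _ = (K * R) ^ 2 := by ring

theorem gau_dot_self_nonneg {κ : Type} [Fintype κ] (v : κ → ℝ) : 0 ≤ v ⬝ᵥ v := by
  simp only [dotProduct]
  exact Finset.sum_nonneg fun i _ => mul_self_nonneg _

/-- bounds of `f` on the ball.   PLAN: Cauchy-Schwarz `|<c,y>| ≤ |c||y| ≤ εKR` (`Matrix.dotProduct` version: `(c ⬝ᵥ y)² ≤ (c ⬝ᵥ c)(y ⬝ᵥ y)` = `Finset.sum_mul_sq_le_sq_mul_sq`; then `abs_le_of_sq_le_sq`), `0 ≤ |c|²/2 ≤ ε²K²/2`;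
`gauAv_le_of_le`, `gauAv_ge_of_ge`, monotonicity of `exp`. -/
theorem gau_ball_R [Nonempty Ω] {b : Ω → κ → ℝ} {ε K R : ℝ} (hε : 0 ≤ ε) (hK : 0 ≤ K) (hR : 0 ≤ R) (hb : ∀ ω, b ω ⬝ᵥ b ω ≤ K ^ 2)
    {y : κ → ℝ} (hy : y ⬝ᵥ y ≤ R ^ 2) :
    Real.exp (-(ε * K * R + ε ^ 2 * K ^ 2 / 2)) ≤ gauR (ε • b) y ∧ gauR (ε • b) y ≤ Real.exp (ε * K * R) := by
  have hE : ∀ ω, Real.exp (-(ε * K * R + ε ^ 2 * K ^ 2 / 2)) ≤ gauE ((ε • b) ω) y ∧ gauE ((ε • b) ω) y ≤ Real.exp (ε * K * R) := by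
    intro ω
    have h1 := abs_le.1 (gau_cs (b ω) y hK hR (hb ω) hy)
    have h2 := gau_dot_self_nonneg (b ω)
    have e1 : (ε • b) ω ⬝ᵥ y = ε * (b ω ⬝ᵥ y) := by rw [Pi.smul_apply, smul_dotProduct, smul_eq_mul]
    have e2 : (ε • b) ω ⬝ᵥ (ε • b) ω = ε ^ 2 * (b ω ⬝ᵥ b ω) := by
      rw [Pi.smul_apply, smul_dotProduct, dotProduct_smul, smul_eq_mul, smul_eq_mul]; ring
    unfold gauE
    rw [e1, e2]
    have h3 : ε * (b ω ⬝ᵥ y) ≤ ε * (K * R) := mul_le_mul_of_nonneg_left h1.2 hε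
    have h4 : ε * (-(K * R)) ≤ ε * (b ω ⬝ᵥ y) := mul_le_mul_of_nonneg_left h1.1 hε
    have h5 : ε ^ 2 * (b ω ⬝ᵥ b ω) ≤ ε ^ 2 * K ^ 2 := mul_le_mul_of_nonneg_left (hb ω) (by positivity)
    have h6 : 0 ≤ ε ^ 2 * (b ω ⬝ᵥ b ω) := by positivity
    constructor
    · apply Real.exp_le_exp.2; linarith
    · apply Real.exp_le_exp.2; linarith
  exact ⟨gauAv_ge_of_ge fun ω => (hE ω).1, gauAv_le_of_le fun ω => (hE ω).2⟩

/-- bounds of `f₀`.   PLAN: `(1+ε²)^(-r/2) = exp(-(r/2) log(1+ε²)) ≥ exp(-rε²/2)` (`Real.log_le_sub_one_of_pos`), `≤ 1`;  `0 ≤ ε²|y|²/(2(1+ε²)) ≤ ε²R²/2`. -/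
theorem gau_ball_F0 {ε R : ℝ} {y : κ → ℝ} (hy : y ⬝ᵥ y ≤ R ^ 2) :
    Real.exp (-((Fintype.card κ : ℝ) * ε ^ 2 / 2)) ≤ gauF0 ε y ∧ gauF0 ε y ≤ Real.exp (ε ^ 2 * R ^ 2 / 2) := by
  have h1 : (0 : ℝ) < 1 + ε ^ 2 := by positivity
  have hyy := gau_dot_self_nonneg y
  have hr : (0 : ℝ) ≤ Fintype.card κ := Nat.cast_nonneg _
  unfold gauF0
  constructor
  · have h2 : Real.exp (-((Fintype.card κ : ℝ) * ε ^ 2 / 2)) ≤ (1 + ε ^ 2) ^ (-(Fintype.card κ : ℝ) / 2) := by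
      rw [Real.rpow_def_of_pos h1]
      apply Real.exp_le_exp.2
      have h3 : Real.log (1 + ε ^ 2) ≤ ε ^ 2 := by
        have := Real.log_le_sub_one_of_pos h1
        linarith
      nlinarith
    have h4 : 1 ≤ Real.exp (ε ^ 2 * (y ⬝ᵥ y) / (2 * (1 + ε ^ 2))) := Real.one_le_exp (by positivity)
    calc Real.exp (-((Fintype.card κ : ℝ) * ε ^ 2 / 2)) ≤ (1 + ε ^ 2) ^ (-(Fintype.card κ : ℝ) / 2) * 1 := by rw [mul_one]; exact h2
      _ ≤ _ := mul_le_mul_of_nonneg_left h4 (by positivity)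
  · have h2 : (1 + ε ^ 2) ^ (-(Fintype.card κ : ℝ) / 2) ≤ 1 :=
      Real.rpow_le_one_of_one_le_of_nonpos (by nlinarith [sq_nonneg ε]) (by linarith)
    have h3 : ε ^ 2 * (y ⬝ᵥ y) / (2 * (1 + ε ^ 2)) ≤ ε ^ 2 * R ^ 2 / 2 := by
      rw [div_le_div_iff₀ (by positivity) (by norm_num)]
      have h5 : ε ^ 2 * (y ⬝ᵥ y) ≤ ε ^ 2 * R ^ 2 := mul_le_mul_of_nonneg_left hy (by positivity)
      have h6 : 0 ≤ ε ^ 2 * R ^ 2 * ε ^ 2 := by positivity
      nlinarith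
    calc (1 + ε ^ 2) ^ (-(Fintype.card κ : ℝ) / 2) * Real.exp (ε ^ 2 * (y ⬝ᵥ y) / (2 * (1 + ε ^ 2)))
        ≤ 1 * Real.exp (ε ^ 2 * R ^ 2 / 2) := mul_le_mul h2 (Real.exp_le_exp.2 h3) (Real.exp_pos _).le zero_le_one
      _ = _ := one_mul _

/-- lower bound of `f₀` everywhere (`ε ≤ 1`): `1/f₀ ≤ 2^{r/2}`.   PLAN: `exp(..) ≥ 1`, `(1+ε²)^(-r/2) ≥ 2^(-r/2)` (`Real.rpow_le_rpow_of_nonpos`). -/
theorem gau_F0_lower {ε : ℝ} (hε : ε ^ 2 ≤ 1) (y : κ → ℝ) : (2 : ℝ) ^ (-(Fintype.card κ : ℝ) / 2) ≤ gauF0 ε y := by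
  have h1 : (0 : ℝ) < 1 + ε ^ 2 := by positivity
  have hyy := gau_dot_self_nonneg y
  have hr : (0 : ℝ) ≤ Fintype.card κ := Nat.cast_nonneg _
  unfold gauF0
  have h2 : (2 : ℝ) ^ (-(Fintype.card κ : ℝ) / 2) ≤ (1 + ε ^ 2) ^ (-(Fintype.card κ : ℝ) / 2) :=
    Real.rpow_le_rpow_of_nonpos h1 (by linarith) (by linarith)
  have h4 : 1 ≤ Real.exp (ε ^ 2 * (y ⬝ᵥ y) / (2 * (1 + ε ^ 2))) := Real.one_le_exp (by positivity)
  calc (2 : ℝ) ^ (-(Fintype.card κ : ℝ) / 2) ≤ (1 + ε ^ 2) ^ (-(Fintype.card κ : ℝ) / 2) * 1 := by rw [mul_one]; exact h2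
    _ ≤ _ := mul_le_mul_of_nonneg_left h4 (by positivity)

/-- `e^θ ≤ 1 + 2θ` for `0 ≤ θ ≤ 1/2` -/
theorem gau_exp_le {θ : ℝ} (h0 : 0 ≤ θ) (h1 : θ ≤ 1 / 2) : Real.exp θ ≤ 1 + 2 * θ := by
  have h2 : 1 - θ ≤ Real.exp (-θ) := by
    have := Real.add_one_le_exp (-θ)
    linarith
  have h3 : Real.exp θ * Real.exp (-θ) = 1 := by rw [← Real.exp_add]; simp
  have h4 := Real.exp_pos θ
  have h5 : Real.exp θ * (1 - θ) ≤ 1 := by
    calc Real.exp θ * (1 - θ) ≤ Real.exp θ * Real.exp (-θ) := mul_le_mul_of_nonneg_left h2 h4.le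
      _ = 1 := h3
  nlinarith

/-- the integrand of `KL` on the ball.   PLAN: `θ = gauTh r ε K R ≤ 1/8`.   By `gau_ball_R`, `gau_ball_F0`: `e^{-θ} ≤ f, f₀ ≤ e^{θ}`, so `|f/f₀ - 1| ≤ e^{2θ} - 1 ≤ 4θ =: η ≤ 1/2` and `1 - θ ≤ 1/f₀ ≤ 1 + 2θ`;
`gauPhi_two_sided`:  `(1/2 - 2θ/3)(1 - θ) ≥ 1/2 - 2θ`,  `(1/2 + 2θ)(1 + 2θ) ≤ 1/2 + 4θ`  (`θ ≤ 1/8`). -/
theorem gau_phi_ball [Nonempty Ω] {b : Ω → κ → ℝ} {ε K R : ℝ} (hε : 0 ≤ ε) (hK : 0 ≤ K) (hR : 0 ≤ R) (hb : ∀ ω, b ω ⬝ᵥ b ω ≤ K ^ 2)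
    (hθ : gauTh (Fintype.card κ) ε K R ≤ 1 / 8) {y : κ → ℝ} (hy : y ⬝ᵥ y ≤ R ^ 2) :
    (1 / 2 - 2 * gauTh (Fintype.card κ) ε K R) * (gauR (ε • b) y - gauF0 ε y) ^ 2 ≤ gauPhi (gauR (ε • b) y) (gauF0 ε y) ∧
      gauPhi (gauR (ε • b) y) (gauF0 ε y) ≤ (1 / 2 + 4 * gauTh (Fintype.card κ) ε K R) * (gauR (ε • b) y - gauF0 ε y) ^ 2 := by
  obtain ⟨θ, hθdef⟩ : ∃ θ, θ = gauTh (Fintype.card κ) ε K R := ⟨_, rfl⟩
  rw [← hθdef] at hθ ⊢
  obtain ⟨f, hf⟩ : ∃ f, f = gauR (ε • b) y := ⟨_, rfl⟩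
  obtain ⟨f₀, hf₀⟩ : ∃ f₀, f₀ = gauF0 ε y := ⟨_, rfl⟩
  obtain ⟨a1, a2⟩ := gau_ball_R hε hK hR hb hy
  obtain ⟨b1, b2⟩ := gau_ball_F0 (ε := ε) hy
  rw [← hf] at a1 a2 ⊢
  rw [← hf₀] at b1 b2 ⊢
  have hfp : 0 < f := by rw [hf]; exact gauR_pos _ _
  have hf₀p : 0 < f₀ := by rw [hf₀]; exact gauF0_pos _ _
  have t1 : 0 ≤ ε * K * R := by positivity
  have t2 : 0 ≤ ε ^ 2 * K ^ 2 / 2 := by positivity
  have t3 : 0 ≤ ε ^ 2 * R ^ 2 / 2 := by positivity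
  have t4 : 0 ≤ (Fintype.card κ : ℝ) * ε ^ 2 / 2 := by positivity
  have hθe : θ = ε * K * R + ε ^ 2 * K ^ 2 / 2 + ε ^ 2 * R ^ 2 / 2 + (Fintype.card κ : ℝ) * ε ^ 2 / 2 := by rw [hθdef]; rfl
  have hθ0 : 0 ≤ θ := by rw [hθe]; positivity
  -- all four quantities between `e^{-θ}` and `e^{θ}`
  have hem : 1 - θ ≤ Real.exp (-θ) := by
    have := Real.add_one_le_exp (-θ)
    linarith
  have hep : Real.exp θ ≤ 1 + 2 * θ := gau_exp_le hθ0 (by linarith)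
  have c1 : 1 - θ ≤ f := hem.trans ((Real.exp_le_exp.2 (by linarith)).trans a1)
  have c2 : f ≤ 1 + 2 * θ := a2.trans ((Real.exp_le_exp.2 (by linarith)).trans hep)
  have c3 : 1 - θ ≤ f₀ := hem.trans ((Real.exp_le_exp.2 (by linarith)).trans b1)
  have c4 : f₀ ≤ 1 + 2 * θ := b2.trans ((Real.exp_le_exp.2 (by linarith)).trans hep)
  -- the ratio
  have hr : |f / f₀ - 1| ≤ 4 * θ := by
    have q1 : 1 - 4 * θ ≤ f / f₀ := by
      rw [le_div_iff₀ hf₀p]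
      nlinarith
    have q2 : f / f₀ ≤ 1 + 4 * θ := by
      rw [div_le_iff₀ hf₀p]
      nlinarith
    exact abs_le.2 ⟨by linarith, by linarith⟩
  obtain ⟨p1, p2⟩ := gauPhi_two_sided hfp hf₀p (by linarith : 4 * θ ≤ 1 / 2) hr
  have hD : 0 ≤ (f - f₀) ^ 2 := sq_nonneg _
  constructor
  · refine le_trans ?_ p1
    rw [mul_div_assoc', le_div_iff₀ hf₀p]
    have h7 : (1 / 2 - 2 * θ) * f₀ ≤ 1 / 2 - 4 * θ / 6 := by nlinarith
    calc (1 / 2 - 2 * θ) * (f - f₀) ^ 2 * f₀ = ((1 / 2 - 2 * θ) * f₀) * (f - f₀) ^ 2 := by ring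
      _ ≤ (1 / 2 - 4 * θ / 6) * (f - f₀) ^ 2 := mul_le_mul_of_nonneg_right h7 hD
  · refine p2.trans ?_
    rw [mul_div_assoc', div_le_iff₀ hf₀p]
    have h7 : 1 / 2 + 4 * θ / 2 ≤ (1 / 2 + 4 * θ) * f₀ := by nlinarith
    calc (1 / 2 + 4 * θ / 2) * (f - f₀) ^ 2 ≤ ((1 / 2 + 4 * θ) * f₀) * (f - f₀) ^ 2 :=
          mul_le_mul_of_nonneg_right h7 hD
      _ = (1 / 2 + 4 * θ) * (f - f₀) ^ 2 * f₀ := by ring

/-- the integrand of `KL` everywhere.   PLAN: `gauPhi_le`, `gau_F0_lower`. -/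
theorem gau_phi_glob [Nonempty Ω] (b : Ω → κ → ℝ) {ε : ℝ} (hε : ε ^ 2 ≤ 1) (y : κ → ℝ) :
    gauPhi (gauR (ε • b) y) (gauF0 ε y) ≤ (2 : ℝ) ^ ((Fintype.card κ : ℝ) / 2) * (gauR (ε • b) y - gauF0 ε y) ^ 2 := by
  have hfp := gauR_pos (ε • b) y
  have hf₀p := gauF0_pos (κ := κ) ε y
  refine (gauPhi_le hfp hf₀p).trans ?_
  have h1 := gau_F0_lower hε y
  have h2 : (0 : ℝ) < (2 : ℝ) ^ (-(Fintype.card κ : ℝ) / 2) := by positivity
  have h3 : (2 : ℝ) ^ ((Fintype.card κ : ℝ) / 2) * (2 : ℝ) ^ (-(Fintype.card κ : ℝ) / 2) = 1 := by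
    rw [← Real.rpow_add (by norm_num)]
    have : (Fintype.card κ : ℝ) / 2 + -(Fintype.card κ : ℝ) / 2 = 0 := by ring
    rw [this, Real.rpow_zero]
  have h4 : (0 : ℝ) < (2 : ℝ) ^ ((Fintype.card κ : ℝ) / 2) := by positivity
  rw [div_le_iff₀ hf₀p]
  have h5 : 1 ≤ (2 : ℝ) ^ ((Fintype.card κ : ℝ) / 2) * gauF0 ε y := by
    rw [← h3]; exact mul_le_mul_of_nonneg_left h1 h4.le
  have hD : 0 ≤ (gauR (ε • b) y - gauF0 ε y) ^ 2 := sq_nonneg _
  nlinarith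

end pw

/-! ## 3. The entropy: splitting, comparison with `A`, tail -/

section ent

variable {Ω κ : Type} [Fintype Ω] [Fintype κ]

/-- continuity (hence measurability) of the two ratios -/
theorem gauR_continuous (b : Ω → κ → ℝ) : Continuous (gauR b) := by
  unfold gauR gauAv gauE
  simp only [dotProduct]
  fun_prop

theorem gauF0_continuous (ε : ℝ) : Continuous (gauF0 (κ := κ) ε) := by
  unfold gauF0
  simp only [dotProduct]
  fun_prop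

/-- Jensen for the uniform average -/
theorem gauAv_sq_le [Nonempty Ω] (F : Ω → ℝ) : (gauAv F) ^ 2 ≤ gauAv fun ω => F ω ^ 2 := by
  unfold gauAv
  have hn : (0 : ℝ) < Fintype.card Ω := by exact_mod_cast Fintype.card_pos
  rw [div_pow, div_le_div_iff₀ (by positivity) hn]
  have h := sq_sum_le_card_mul_sum_sq (s := Finset.univ) (f := F)
  simp only [Finset.card_univ] at h
  calc (∑ ω, F ω) ^ 2 * (Fintype.card Ω : ℝ) ≤ ((Fintype.card Ω : ℝ) * ∑ ω, F ω ^ 2) * (Fintype.card Ω : ℝ) :=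
        mul_le_mul_of_nonneg_right h hn.le
    _ = (∑ ω, F ω ^ 2) * (Fintype.card Ω : ℝ) ^ 2 := by ring

/-- the average of integrable functions -/
theorem gauAv_integrable {μ : Measure (κ → ℝ)} {G : Ω → (κ → ℝ) → ℝ} (h : ∀ ω, Integrable (G ω) μ) :
    Integrable (fun y => gauAv fun ω => G ω y) μ := by
  unfold gauAv
  exact (integrable_finsetSum _ fun ω _ => h ω).div_const _

theorem gauAv_integral {μ : Measure (κ → ℝ)} {G : Ω → (κ → ℝ) → ℝ} (h : ∀ ω, Integrable (G ω) μ) :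
    ∫ y, (gauAv fun ω => G ω y) ∂μ = gauAv fun ω => ∫ y, G ω y ∂μ := by
  unfold gauAv
  rw [integral_div, integral_finsetSum _ fun ω _ => h ω]

theorem gauAv_mul_const (F : Ω → ℝ) (c : ℝ) : gauAv F * c = gauAv fun ω => F ω * c := by
  unfold gauAv
  rw [div_mul_eq_mul_div, Finset.sum_mul]

/-- `e^{5/3} ≤ 6` -/
theorem gau_exp_five_thirds : Real.exp (5 / 3) ≤ 6 := by
  have h1 : Real.exp (5 / 3) ≤ Real.exp 1 ^ 2 := by
    rw [← Real.exp_nat_mul]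
    exact Real.exp_le_exp.2 (by norm_num)
  have h2 := Real.exp_one_lt_d9
  have h3 : Real.exp (5 / 3) ^ 3 = Real.exp 1 ^ 5 := by
    rw [← Real.exp_nat_mul, ← Real.exp_nat_mul]
    norm_num
  have h4 : Real.exp 1 ^ 5 ≤ 2.7182818286 ^ 5 := pow_le_pow_left₀ (Real.exp_pos 1).le h2.le 5
  by_contra hc
  rw [not_le] at hc
  have h5 : (6 : ℝ) ^ 3 < Real.exp (5 / 3) ^ 3 := pow_lt_pow_left₀ hc (by norm_num) (by norm_num)
  rw [h3] at h5
  have h6 : (2.7182818286 : ℝ) ^ 5 < 6 ^ 3 := by norm_num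
  linarith

/-- the weighted square of one exponential -/
theorem gau_E_sq_weight (c : κ → ℝ) :
    Integrable (fun y : κ → ℝ => gauE c y ^ 2 * Real.exp ((y ⬝ᵥ y) / 8)) (qfG κ) ∧
      ∫ y, gauE c y ^ 2 * Real.exp ((y ⬝ᵥ y) / 8) ∂qfG κ
        = (3 / 4 : ℝ) ^ (-(Fintype.card κ : ℝ) / 2) * Real.exp (5 * (c ⬝ᵥ c) / 3) := by
  obtain ⟨h1, h2⟩ := gau_master ((2 : ℝ) • c) (1 / 4) (by norm_num)
  have e : (fun y : κ → ℝ => gauE c y ^ 2 * Real.exp ((y ⬝ᵥ y) / 8))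
      = fun y => Real.exp (-(c ⬝ᵥ c)) * Real.exp (((2 : ℝ) • c) ⬝ᵥ y + 1 / 4 * (y ⬝ᵥ y) / 2) := by
    funext y
    unfold gauE
    rw [← Real.exp_nat_mul, ← Real.exp_add, ← Real.exp_add, smul_dotProduct, smul_eq_mul]
    congr 1
    push_cast
    ring
  rw [e]
  refine ⟨h1.const_mul _, ?_⟩
  rw [integral_const_mul, h2, smul_dotProduct, dotProduct_smul, smul_eq_mul, smul_eq_mul]
  have : (1 - 1 / 4 : ℝ) = 3 / 4 := by norm_num
  rw [this, mul_left_comm, ← Real.exp_add]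
  congr 2
  ring

/-- the weighted square of `f₀` -/
theorem gau_F0_sq_weight {ε : ℝ} (hε8 : ε ^ 2 ≤ 1 / 8) (y : κ → ℝ) :
    gauF0 ε y ^ 2 * Real.exp ((y ⬝ᵥ y) / 8) ≤ Real.exp ((0 : κ → ℝ) ⬝ᵥ y + 1 / 2 * (y ⬝ᵥ y) / 2) := by
  unfold gauF0
  have hs : (1 : ℝ) ≤ 1 + ε ^ 2 := by nlinarith [sq_nonneg ε]
  have h1 : (1 + ε ^ 2) ^ (-(Fintype.card κ : ℝ) / 2) ≤ 1 :=
    Real.rpow_le_one_of_one_le_of_nonpos hs (by
      have : (0 : ℝ) ≤ Fintype.card κ := Nat.cast_nonneg _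
      linarith)
  have h0 : 0 ≤ (1 + ε ^ 2) ^ (-(Fintype.card κ : ℝ) / 2) := by positivity
  have hy := gau_dot_self_nonneg y
  have h2 : ((1 + ε ^ 2) ^ (-(Fintype.card κ : ℝ) / 2)) ^ 2 ≤ 1 := pow_le_one₀ h0 h1
  rw [mul_pow, ← Real.exp_nat_mul, mul_assoc, ← Real.exp_add, zero_dotProduct]
  have h3 : ε ^ 2 * (y ⬝ᵥ y) / (2 * (1 + ε ^ 2)) ≤ (y ⬝ᵥ y) / 16 := by
    rw [div_le_div_iff₀ (by positivity) (by norm_num)]
    nlinarith [mul_nonneg hy (sq_nonneg ε)]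
  calc ((1 + ε ^ 2) ^ (-(Fintype.card κ : ℝ) / 2)) ^ 2 * Real.exp (((2 : ℕ) : ℝ) * (ε ^ 2 * (y ⬝ᵥ y) / (2 * (1 + ε ^ 2))) + (y ⬝ᵥ y) / 8)
      ≤ 1 * Real.exp (((2 : ℕ) : ℝ) * (ε ^ 2 * (y ⬝ᵥ y) / (2 * (1 + ε ^ 2))) + (y ⬝ᵥ y) / 8) :=
        mul_le_mul_of_nonneg_right h2 (Real.exp_pos _).le
    _ = Real.exp (((2 : ℕ) : ℝ) * (ε ^ 2 * (y ⬝ᵥ y) / (2 * (1 + ε ^ 2))) + (y ⬝ᵥ y) / 8) := one_mul _
    _ ≤ _ := Real.exp_le_exp.2 (by push_cast; linarith)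

/-- `(f - f₀)² e^{|y|²/8}` is integrable, with an explicit bound (`ε K ≤ 1`, `ε² ≤ 1/8`).
PLAN: `(f-f₀)² ≤ 2f² + 2f₀²`;  `f² ≤ avg e_c²` (Cauchy-Schwarz / Jensen for the uniform average: `inner_mul_le_norm_mul_norm`-free: `Finset.sum_mul_sq_le_sq_mul_sq` or `sq_sum_le_card_mul_sum_sq`);
`∫ e_c² e^{|y|²/8} dγ = e^{-|c|²} (3/4)^{-r/2} exp(4|c|²/(2·3/4)) = (4/3)^{r/2} e^{5|c|²/3} ≤ 2^{r/2} e^{5/3}` (`gau_master`, vector `2c`, `t = 1/4`);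
`f₀² e^{|y|²/8} ≤ exp((ε² + 1/8)|y|²) ≤ exp(|y|²/4)`, `∫ = 2^{r/2}` (`gau_master`, `c = 0`, `t = 1/2`).   Total `≤ 2 (e^{5/3} + 1) 2^{r/2} ≤ 14 · 2^{r/2}`. -/
theorem gau_sq_weight [Nonempty Ω] {b : Ω → κ → ℝ} {ε K : ℝ} (hε : 0 ≤ ε) (hε8 : ε ^ 2 ≤ 1 / 8) (hK0 : 0 ≤ K) (hb : ∀ ω, b ω ⬝ᵥ b ω ≤ K ^ 2) (hK : ε * K ≤ 1) :
    Integrable (fun y : κ → ℝ => (gauR (ε • b) y - gauF0 ε y) ^ 2 * Real.exp ((y ⬝ᵥ y) / 8)) (qfG κ) ∧
      ∫ y, (gauR (ε • b) y - gauF0 ε y) ^ 2 * Real.exp ((y ⬝ᵥ y) / 8) ∂qfG κ ≤ 14 * (2 : ℝ) ^ ((Fintype.card κ : ℝ) / 2) := by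
  obtain ⟨r, hr⟩ : ∃ r : ℝ, r = Fintype.card κ := ⟨_, rfl⟩
  have hr0 : 0 ≤ r := by rw [hr]; exact Nat.cast_nonneg _
  rw [← hr]
  -- the dominating function
  obtain ⟨m1, m2⟩ := gau_master (0 : κ → ℝ) (1 / 2) (by norm_num)
  have i1 : Integrable (fun y : κ → ℝ => gauAv fun ω => gauE ((ε • b) ω) y ^ 2 * Real.exp ((y ⬝ᵥ y) / 8)) (qfG κ) :=
    gauAv_integrable fun ω => (gau_E_sq_weight _).1
  have iD : Integrable (fun y : κ → ℝ => 2 * (gauAv fun ω => gauE ((ε • b) ω) y ^ 2 * Real.exp ((y ⬝ᵥ y) / 8))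
      + 2 * Real.exp ((0 : κ → ℝ) ⬝ᵥ y + 1 / 2 * (y ⬝ᵥ y) / 2)) (qfG κ) := (i1.const_mul 2).add (m1.const_mul 2)
  have hpt : ∀ y : κ → ℝ, (gauR (ε • b) y - gauF0 ε y) ^ 2 * Real.exp ((y ⬝ᵥ y) / 8)
      ≤ 2 * (gauAv fun ω => gauE ((ε • b) ω) y ^ 2 * Real.exp ((y ⬝ᵥ y) / 8))
        + 2 * Real.exp ((0 : κ → ℝ) ⬝ᵥ y + 1 / 2 * (y ⬝ᵥ y) / 2) := by
    intro y
    have hW := Real.exp_pos ((y ⬝ᵥ y) / 8)
    have a1 : (gauR (ε • b) y - gauF0 ε y) ^ 2 ≤ 2 * gauR (ε • b) y ^ 2 + 2 * gauF0 ε y ^ 2 := by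
      nlinarith [sq_nonneg (gauR (ε • b) y + gauF0 ε y)]
    have a2 : gauR (ε • b) y ^ 2 ≤ gauAv fun ω => gauE ((ε • b) ω) y ^ 2 := gauAv_sq_le _
    have a3 := gau_F0_sq_weight (κ := κ) hε8 y
    rw [← gauAv_mul_const]
    calc (gauR (ε • b) y - gauF0 ε y) ^ 2 * Real.exp ((y ⬝ᵥ y) / 8)
        ≤ (2 * (gauAv fun ω => gauE ((ε • b) ω) y ^ 2) + 2 * gauF0 ε y ^ 2) * Real.exp ((y ⬝ᵥ y) / 8) :=
          mul_le_mul_of_nonneg_right (by linarith) hW.le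
      _ = 2 * ((gauAv fun ω => gauE ((ε • b) ω) y ^ 2) * Real.exp ((y ⬝ᵥ y) / 8))
          + 2 * (gauF0 ε y ^ 2 * Real.exp ((y ⬝ᵥ y) / 8)) := by ring
      _ ≤ _ := by linarith
  have hcont : Continuous fun y : κ → ℝ => (gauR (ε • b) y - gauF0 ε y) ^ 2 * Real.exp ((y ⬝ᵥ y) / 8) := by
    have c1 := gauR_continuous (ε • b)
    have c2 := gauF0_continuous (κ := κ) ε
    have c3 : Continuous fun y : κ → ℝ => y ⬝ᵥ y := by
      simp only [dotProduct]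
      fun_prop
    fun_prop
  have hint : Integrable (fun y : κ → ℝ => (gauR (ε • b) y - gauF0 ε y) ^ 2 * Real.exp ((y ⬝ᵥ y) / 8)) (qfG κ) := by
    refine iD.mono' hcont.aestronglyMeasurable (Filter.Eventually.of_forall fun y => ?_)
    rw [Real.norm_eq_abs, abs_of_nonneg (by positivity)]
    exact hpt y
  refine ⟨hint, ?_⟩
  refine (integral_mono hint iD hpt).trans ?_
  rw [integral_add (i1.const_mul 2) (m1.const_mul 2), integral_const_mul, integral_const_mul, m2,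
    gauAv_integral fun ω => (gau_E_sq_weight _).1]
  have hP : (0 : ℝ) < 2 ^ (r / 2) := by positivity
  have e1 : (1 - 1 / 2 : ℝ) ^ (-r / 2) = 2 ^ (r / 2) := by
    have : (1 - 1 / 2 : ℝ) = 2⁻¹ := by norm_num
    rw [this, Real.inv_rpow (by norm_num), ← Real.rpow_neg (by norm_num)]
    congr 1
    ring
  have e2 : (3 / 4 : ℝ) ^ (-r / 2) ≤ 2 ^ (r / 2) := by
    have : (3 / 4 : ℝ) = (4 / 3 : ℝ)⁻¹ := by norm_num
    rw [this, Real.inv_rpow (by norm_num), ← Real.rpow_neg (by norm_num)]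
    have : -(-r / 2) = r / 2 := by ring
    rw [this]
    exact Real.rpow_le_rpow (by norm_num) (by norm_num) (by linarith)
  have e3 : (gauAv fun ω => ∫ y, gauE ((ε • b) ω) y ^ 2 * Real.exp ((y ⬝ᵥ y) / 8) ∂qfG κ) ≤ 2 ^ (r / 2) * 6 := by
    refine gauAv_le_of_le fun ω => ?_
    rw [(gau_E_sq_weight _).2, ← hr]
    have hcc : (ε • b) ω ⬝ᵥ (ε • b) ω ≤ 1 := by
      rw [Pi.smul_apply, smul_dotProduct, dotProduct_smul, smul_eq_mul, smul_eq_mul]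
      have := hb ω
      have h1 : (ε * K) ^ 2 ≤ 1 := pow_le_one₀ (by positivity) hK
      nlinarith [mul_le_mul_of_nonneg_left this (sq_nonneg ε)]
    have h6 : Real.exp (5 * ((ε • b) ω ⬝ᵥ (ε • b) ω) / 3) ≤ 6 :=
      (Real.exp_le_exp.2 (by linarith)).trans gau_exp_five_thirds
    exact mul_le_mul e2 h6 (Real.exp_pos _).le hP.le
  rw [← hr, e1, zero_dotProduct, zero_div, Real.exp_zero]
  linarith

/-- PLAN: dominated by the integrand of `gau_sq_weight` (`1 ≤ e^{|y|²/8}`), continuity. -/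
theorem gau_sq_integrable [Nonempty Ω] {b : Ω → κ → ℝ} {ε K : ℝ} (hε : 0 ≤ ε) (hε8 : ε ^ 2 ≤ 1 / 8) (hK0 : 0 ≤ K) (hb : ∀ ω, b ω ⬝ᵥ b ω ≤ K ^ 2) (hK : ε * K ≤ 1) :
    Integrable (fun y : κ → ℝ => (gauR (ε • b) y - gauF0 ε y) ^ 2) (qfG κ) := by
  obtain ⟨h1, -⟩ := gau_sq_weight hε hε8 hK0 hb hK
  have hcont : Continuous fun y : κ → ℝ => (gauR (ε • b) y - gauF0 ε y) ^ 2 := by
    have c1 := gauR_continuous (ε • b)
    have c2 := gauF0_continuous (κ := κ) ε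
    fun_prop
  refine h1.mono' hcont.aestronglyMeasurable (Filter.Eventually.of_forall fun y => ?_)
  rw [Real.norm_eq_abs, abs_of_nonneg (sq_nonneg _)]
  have h2 : 1 ≤ Real.exp ((y ⬝ᵥ y) / 8) := Real.one_le_exp (by have := gau_dot_self_nonneg y; linarith)
  exact le_mul_of_one_le_right (sq_nonneg _) h2

/-- the complement of the ball is measurable -/
theorem gau_out_measurable (R : ℝ) : MeasurableSet {y : κ → ℝ | R ^ 2 < y ⬝ᵥ y} := by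
  have c3 : Continuous fun y : κ → ℝ => y ⬝ᵥ y := by
    simp only [dotProduct]
    fun_prop
  exact (isOpen_lt continuous_const c3).measurableSet

/-- **tail**.   PLAN: on `{R² < |y|²}`: `1 ≤ e^{-R²/8} e^{|y|²/8}`; `setIntegral_mono_on`, `setIntegral_le_integral`, `gau_sq_weight`. -/
theorem gau_tail [Nonempty Ω] {b : Ω → κ → ℝ} {ε K : ℝ} (hε : 0 ≤ ε) (hε8 : ε ^ 2 ≤ 1 / 8) (hK0 : 0 ≤ K) (hb : ∀ ω, b ω ⬝ᵥ b ω ≤ K ^ 2) (hK : ε * K ≤ 1) (R : ℝ) :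
    0 ≤ gauT ε R b ∧ gauT ε R b ≤ 14 * (2 : ℝ) ^ ((Fintype.card κ : ℝ) / 2) * Real.exp (-(R ^ 2) / 8) := by
  obtain ⟨h1, h2⟩ := gau_sq_weight hε hε8 hK0 hb hK
  have h3 := gau_sq_integrable hε hε8 hK0 hb hK
  have hS := gau_out_measurable (κ := κ) R
  unfold gauT
  refine ⟨setIntegral_nonneg hS fun y _ => sq_nonneg _, ?_⟩
  have h4 : Integrable (fun y : κ → ℝ => Real.exp (-(R ^ 2) / 8) * ((gauR (ε • b) y - gauF0 ε y) ^ 2 * Real.exp ((y ⬝ᵥ y) / 8))) (qfG κ) :=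
    h1.const_mul _
  calc ∫ y in {y : κ → ℝ | R ^ 2 < y ⬝ᵥ y}, (gauR (ε • b) y - gauF0 ε y) ^ 2 ∂qfG κ
      ≤ ∫ y in {y : κ → ℝ | R ^ 2 < y ⬝ᵥ y}, Real.exp (-(R ^ 2) / 8) * ((gauR (ε • b) y - gauF0 ε y) ^ 2 * Real.exp ((y ⬝ᵥ y) / 8)) ∂qfG κ := by
        refine setIntegral_mono_on h3.integrableOn h4.integrableOn hS fun y hy => ?_
        have hy' : R ^ 2 < y ⬝ᵥ y := hy
        have h5 : 1 ≤ Real.exp (-(R ^ 2) / 8) * Real.exp ((y ⬝ᵥ y) / 8) := by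
          rw [← Real.exp_add]
          exact Real.one_le_exp (by linarith)
        calc (gauR (ε • b) y - gauF0 ε y) ^ 2 ≤ (gauR (ε • b) y - gauF0 ε y) ^ 2 * (Real.exp (-(R ^ 2) / 8) * Real.exp ((y ⬝ᵥ y) / 8)) :=
              le_mul_of_one_le_right (sq_nonneg _) h5
          _ = _ := by ring
    _ ≤ ∫ y, Real.exp (-(R ^ 2) / 8) * ((gauR (ε • b) y - gauF0 ε y) ^ 2 * Real.exp ((y ⬝ᵥ y) / 8)) ∂qfG κ :=
        setIntegral_le_integral h4 (Filter.Eventually.of_forall fun y => by positivity)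
    _ = Real.exp (-(R ^ 2) / 8) * ∫ y, (gauR (ε • b) y - gauF0 ε y) ^ 2 * Real.exp ((y ⬝ᵥ y) / 8) ∂qfG κ := integral_const_mul _ _
    _ ≤ Real.exp (-(R ^ 2) / 8) * (14 * (2 : ℝ) ^ ((Fintype.card κ : ℝ) / 2)) := mul_le_mul_of_nonneg_left h2 (Real.exp_pos _).le
    _ = _ := by ring

/-- measurability of the integrand of `KL` -/
theorem gau_phi_measurable (b : Ω → κ → ℝ) (ε : ℝ) : Measurable fun y : κ → ℝ => gauPhi (gauR (ε • b) y) (gauF0 ε y) := by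
  have c1 := (gauR_continuous (ε • b)).measurable
  have c2 := (gauF0_continuous (κ := κ) ε).measurable
  unfold gauPhi
  fun_prop

/-- PLAN: `0 ≤ φ ≤ 2^{r/2} (f-f₀)²` (`gauPhi_nonneg`, `gau_phi_glob`), measurability (continuity of `f`, `f₀`, both positive; `Real.log` measurable), `gau_sq_integrable`. -/
theorem gau_phi_integrable [Nonempty Ω] {b : Ω → κ → ℝ} {ε K : ℝ} (hε : 0 ≤ ε) (hε8 : ε ^ 2 ≤ 1 / 8) (hK0 : 0 ≤ K) (hb : ∀ ω, b ω ⬝ᵥ b ω ≤ K ^ 2) (hK : ε * K ≤ 1) :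
    Integrable (fun y : κ → ℝ => gauPhi (gauR (ε • b) y) (gauF0 ε y)) (qfG κ) := by
  have h3 := gau_sq_integrable hε hε8 hK0 hb hK
  refine (h3.const_mul ((2 : ℝ) ^ ((Fintype.card κ : ℝ) / 2))).mono' (gau_phi_measurable b ε).aestronglyMeasurable
    (Filter.Eventually.of_forall fun y => ?_)
  rw [Real.norm_eq_abs, abs_of_nonneg (gauPhi_nonneg (gauR_pos _ _) (gauF0_pos _ _))]
  exact gau_phi_glob b (by linarith) y

/-- `∫ e_c dγ = 1` -/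
theorem gau_E_int (c : κ → ℝ) : Integrable (gauE c) (qfG κ) ∧ ∫ y, gauE c y ∂qfG κ = 1 := by
  obtain ⟨h1, h2⟩ := gau_master c 0 (by norm_num)
  have e : gauE c = fun y => Real.exp (-(c ⬝ᵥ c) / 2) * Real.exp (c ⬝ᵥ y + 0 * (y ⬝ᵥ y) / 2) := by
    funext y
    unfold gauE
    rw [← Real.exp_add]
    congr 1
    ring
  rw [e]
  refine ⟨h1.const_mul _, ?_⟩
  rw [integral_const_mul, h2, sub_zero, Real.one_rpow, one_mul, ← Real.exp_add]
  have : -(c ⬝ᵥ c) / 2 + c ⬝ᵥ c / (2 * 1) = 0 := by ring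
  rw [this, Real.exp_zero]

theorem gauAv_const [Nonempty Ω] (c : ℝ) : (gauAv fun _ : Ω => c) = c := by
  unfold gauAv
  have hn : (Fintype.card Ω : ℝ) ≠ 0 := by exact_mod_cast Fintype.card_ne_zero
  rw [Finset.sum_const, Finset.card_univ, nsmul_eq_mul]
  field_simp

/-- `∫ f dγ = 1` -/
theorem gau_R_int [Nonempty Ω] (b : Ω → κ → ℝ) : Integrable (gauR b) (qfG κ) ∧ ∫ y, gauR b y ∂qfG κ = 1 := by
  unfold gauR
  refine ⟨gauAv_integrable fun ω => (gau_E_int _).1, ?_⟩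
  rw [gauAv_integral fun ω => (gau_E_int _).1]
  simp only [(gau_E_int _).2]
  exact gauAv_const 1

/-- `∫ f |y|² dγ = avg |b|² + r` -/
theorem gau_R_sq_int [Nonempty Ω] (b : Ω → κ → ℝ) :
    Integrable (fun y : κ → ℝ => gauR b y * (y ⬝ᵥ y)) (qfG κ) ∧
      ∫ y, gauR b y * (y ⬝ᵥ y) ∂qfG κ = (gauAv fun ω => b ω ⬝ᵥ b ω) + Fintype.card κ := by
  unfold gauR
  simp only [gauAv_mul_const]
  refine ⟨gauAv_integrable fun ω => (gau_E_sq _).1, ?_⟩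
  rw [gauAv_integral fun ω => (gau_E_sq _).1]
  simp only [(gau_E_sq _).2]
  unfold gauAv
  have hn : (Fintype.card Ω : ℝ) ≠ 0 := by exact_mod_cast Fintype.card_ne_zero
  rw [Finset.sum_add_distrib, Finset.sum_const, Finset.card_univ, nsmul_eq_mul]
  field_simp

/-- `∫ f₀ dγ = 1` -/
theorem gau_F0_int (ε : ℝ) : Integrable (gauF0 (κ := κ) ε) (qfG κ) ∧ ∫ y, gauF0 (κ := κ) ε y ∂qfG κ = 1 := by
  have hs : (0 : ℝ) < 1 + ε ^ 2 := by positivity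
  have ht : ε ^ 2 / (1 + ε ^ 2) < 1 := by
    rw [div_lt_one hs]
    linarith
  obtain ⟨h1, h2⟩ := gau_master (0 : κ → ℝ) (ε ^ 2 / (1 + ε ^ 2)) ht
  have e : gauF0 (κ := κ) ε = fun y => (1 + ε ^ 2) ^ (-(Fintype.card κ : ℝ) / 2)
      * Real.exp ((0 : κ → ℝ) ⬝ᵥ y + ε ^ 2 / (1 + ε ^ 2) * (y ⬝ᵥ y) / 2) := by
    funext y
    unfold gauF0
    rw [zero_dotProduct, zero_add]
    congr 2
    field_simp
  rw [e]
  refine ⟨h1.const_mul _, ?_⟩
  rw [integral_const_mul, h2, zero_dotProduct, zero_div, Real.exp_zero, mul_one]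
  have h3 : 1 - ε ^ 2 / (1 + ε ^ 2) = (1 + ε ^ 2)⁻¹ := by
    field_simp
    ring
  rw [h3, Real.inv_rpow hs.le, mul_inv_cancel₀ (by positivity)]

/-- **(a) splitting of the entropy.**   PLAN: pointwise `f log f = φ(f,f₀) + f log f₀ + f - f₀`, `log f₀ = -(r/2) log(1+ε²) + ε²|y|²/(2(1+ε²))`;
`∫ f = 1` (`gau_master` with `t = 0`, finite average), `∫ f₀ = 1` (`gau_master`, `c = 0`, `t = ε²/(1+ε²)`, `1 - t = 1/(1+ε²)`), `∫ f |y|² = ε² avg|b|² + r` (`gau_E_sq`), `gau_phi_integrable`. -/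
theorem gau_ent_split [Nonempty Ω] {b : Ω → κ → ℝ} {ε K : ℝ} (hε : 0 ≤ ε) (hε8 : ε ^ 2 ≤ 1 / 8) (hK0 : 0 ≤ K) (hb : ∀ ω, b ω ⬝ᵥ b ω ≤ K ^ 2) (hK : ε * K ≤ 1) :
    gauEnt (ε • b) = gauKL ε b - (Fintype.card κ : ℝ) / 2 * Real.log (1 + ε ^ 2)
      + ε ^ 2 * (ε ^ 2 * (gauAv fun ω => b ω ⬝ᵥ b ω) + Fintype.card κ) / (2 * (1 + ε ^ 2)) := by
  have hs : (0 : ℝ) < 1 + ε ^ 2 := by positivity
  have iP := gau_phi_integrable hε hε8 hK0 hb hK
  obtain ⟨iR, eR⟩ := gau_R_int (κ := κ) (ε • b)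
  obtain ⟨iQ, eQ⟩ := gau_R_sq_int (κ := κ) (ε • b)
  obtain ⟨iF, eF⟩ := gau_F0_int (κ := κ) ε
  obtain ⟨L, hL⟩ : ∃ L : ℝ, L = -(Fintype.card κ : ℝ) / 2 * Real.log (1 + ε ^ 2) := ⟨_, rfl⟩
  obtain ⟨q, hq⟩ : ∃ q : ℝ, q = ε ^ 2 / (2 * (1 + ε ^ 2)) := ⟨_, rfl⟩
  have hpt : ∀ y : κ → ℝ, gauR (ε • b) y * Real.log (gauR (ε • b) y)
      = gauPhi (gauR (ε • b) y) (gauF0 ε y) + L * gauR (ε • b) y + q * (gauR (ε • b) y * (y ⬝ᵥ y)) + gauR (ε • b) y - gauF0 ε y := by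
    intro y
    have hf := gauR_pos (ε • b) y
    have hf₀ := gauF0_pos (κ := κ) ε y
    have hlog : Real.log (gauF0 ε y) = L + q * (y ⬝ᵥ y) := by
      unfold gauF0
      rw [Real.log_mul (by positivity) (Real.exp_pos _).ne', Real.log_exp, Real.log_rpow hs, hL, hq]
      ring
    unfold gauPhi
    rw [Real.log_div hf.ne' hf₀.ne', hlog]
    ring
  unfold gauEnt
  simp only [hpt]
  have j1 := iP.add (iR.const_mul L)
  have j2 := j1.add (iQ.const_mul q)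
  have j3 := j2.add iR
  have e4 := integral_sub j3 iF
  have e3 := integral_add j2 iR
  have e2 := integral_add j1 (iQ.const_mul q)
  have e1 := integral_add iP (iR.const_mul L)
  simp only [Pi.add_apply] at e1 e2 e3 e4
  rw [e4, e3, e2, e1, integral_const_mul, integral_const_mul, eR, eQ, eF, hL, hq]
  have e5 : (gauAv fun ω => (ε • b) ω ⬝ᵥ (ε • b) ω) = ε ^ 2 * gauAv fun ω => b ω ⬝ᵥ b ω := by
    rw [mul_comm, gauAv_mul_const]
    congr 1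
    funext ω
    rw [Pi.smul_apply, smul_dotProduct, dotProduct_smul, smul_eq_mul, smul_eq_mul]
    ring
  rw [e5]
  unfold gauKL
  ring

/-- (early copy of `gauTh_small`, needed above it) -/
theorem gauTh_small0 {r : ℕ} {ε K R : ℝ} (hε : 0 ≤ ε) (hK : 1 ≤ K) (hR : 1 ≤ R) (hθ : gauTh r ε K R ≤ 1 / 8) :
    ε * K ≤ 1 ∧ ε ^ 2 ≤ 1 / 8 ∧ 0 ≤ gauTh r ε K R := by
  have h0 : 0 ≤ gauTh r ε K R := by
    unfold gauTh
    have : 0 ≤ K := by linarith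
    have : 0 ≤ R := by linarith
    positivity
  unfold gauTh at hθ
  have h1 : ε * K ≤ ε * K * R := le_mul_of_one_le_right (by positivity) hR
  have h2 : ε ≤ ε * K := le_mul_of_one_le_right hε hK
  have h3 : 0 ≤ ε ^ 2 * K ^ 2 / 2 := by positivity
  have h4 : 0 ≤ ε ^ 2 * R ^ 2 / 2 := by positivity
  have h5 : 0 ≤ (r : ℝ) * ε ^ 2 / 2 := by positivity
  have h6 : ε * K ≤ 1 / 8 := by linarith
  have h7 : ε ≤ 1 / 8 := by linarith
  exact ⟨by linarith, by nlinarith, h0⟩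

/-- **(b) lower bound.**   PLAN: `KL ≥ ∫_{ball} φ ≥ (1/2 - 2θ) ∫_{ball} (f-f₀)² = (1/2 - 2θ)(A - T)` (`gauPhi_nonneg`, `gau_phi_ball`, `integral_add_compl` for the measurable set `{R² < |y|²}`). -/
theorem gau_KL_lower [Nonempty Ω] {b : Ω → κ → ℝ} {ε K R : ℝ} (hε : 0 ≤ ε) (hK : 1 ≤ K) (hR : 1 ≤ R) (hb : ∀ ω, b ω ⬝ᵥ b ω ≤ K ^ 2)
    (hθ : gauTh (Fintype.card κ) ε K R ≤ 1 / 8) :
    (1 / 2 - 2 * gauTh (Fintype.card κ) ε K R) * (gauA ε b - gauT ε R b) ≤ gauKL ε b := by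
  obtain ⟨hK1, s3, -⟩ := gauTh_small0 hε hK hR hθ
  have hK0 : 0 ≤ K := by linarith
  have hR0 : 0 ≤ R := by linarith
  have iD := gau_sq_integrable hε s3 hK0 hb hK1
  have iP := gau_phi_integrable hε s3 hK0 hb hK1
  have hS := gau_out_measurable (κ := κ) R
  have eA : gauA ε b - gauT ε R b = ∫ y in {y : κ → ℝ | R ^ 2 < y ⬝ᵥ y}ᶜ, (gauR (ε • b) y - gauF0 ε y) ^ 2 ∂qfG κ := by
    unfold gauA gauT
    rw [← integral_add_compl hS iD]
    ring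
  have eK : gauKL ε b = (∫ y in {y : κ → ℝ | R ^ 2 < y ⬝ᵥ y}, gauPhi (gauR (ε • b) y) (gauF0 ε y) ∂qfG κ)
      + ∫ y in {y : κ → ℝ | R ^ 2 < y ⬝ᵥ y}ᶜ, gauPhi (gauR (ε • b) y) (gauF0 ε y) ∂qfG κ := by
    unfold gauKL
    rw [integral_add_compl hS iP]
  rw [eA, eK]
  have n1 : 0 ≤ ∫ y in {y : κ → ℝ | R ^ 2 < y ⬝ᵥ y}, gauPhi (gauR (ε • b) y) (gauF0 ε y) ∂qfG κ :=
    setIntegral_nonneg hS fun y _ => gauPhi_nonneg (gauR_pos _ _) (gauF0_pos _ _)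
  have n2 : (1 / 2 - 2 * gauTh (Fintype.card κ) ε K R) * ∫ y in {y : κ → ℝ | R ^ 2 < y ⬝ᵥ y}ᶜ, (gauR (ε • b) y - gauF0 ε y) ^ 2 ∂qfG κ
      ≤ ∫ y in {y : κ → ℝ | R ^ 2 < y ⬝ᵥ y}ᶜ, gauPhi (gauR (ε • b) y) (gauF0 ε y) ∂qfG κ := by
    rw [← integral_const_mul]
    refine setIntegral_mono_on (iD.const_mul _).integrableOn iP.integrableOn hS.compl fun y hy => ?_
    have hy' : y ⬝ᵥ y ≤ R ^ 2 := not_lt.1 hy
    exact (gau_phi_ball hε hK0 hR0 hb hθ hy').1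
  linarith

/-- **(b) upper bound.**   PLAN: split at the ball; `gau_phi_ball` inside (and `∫_{ball} ≤ A`), `gau_phi_glob` outside. -/
theorem gau_KL_upper [Nonempty Ω] {b : Ω → κ → ℝ} {ε K R : ℝ} (hε : 0 ≤ ε) (hK : 1 ≤ K) (hR : 1 ≤ R) (hb : ∀ ω, b ω ⬝ᵥ b ω ≤ K ^ 2)
    (hθ : gauTh (Fintype.card κ) ε K R ≤ 1 / 8) :
    gauKL ε b ≤ (1 / 2 + 4 * gauTh (Fintype.card κ) ε K R) * gauA ε b + (2 : ℝ) ^ ((Fintype.card κ : ℝ) / 2) * gauT ε R b := by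
  obtain ⟨hK1, s3, hθ0⟩ := gauTh_small0 hε hK hR hθ
  have hK0 : 0 ≤ K := by linarith
  have hR0 : 0 ≤ R := by linarith
  have iD := gau_sq_integrable hε s3 hK0 hb hK1
  have iP := gau_phi_integrable hε s3 hK0 hb hK1
  have hS := gau_out_measurable (κ := κ) R
  have eK : gauKL ε b = (∫ y in {y : κ → ℝ | R ^ 2 < y ⬝ᵥ y}, gauPhi (gauR (ε • b) y) (gauF0 ε y) ∂qfG κ)
      + ∫ y in {y : κ → ℝ | R ^ 2 < y ⬝ᵥ y}ᶜ, gauPhi (gauR (ε • b) y) (gauF0 ε y) ∂qfG κ := by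
    unfold gauKL
    rw [integral_add_compl hS iP]
  rw [eK]
  have n1 : ∫ y in {y : κ → ℝ | R ^ 2 < y ⬝ᵥ y}, gauPhi (gauR (ε • b) y) (gauF0 ε y) ∂qfG κ
      ≤ (2 : ℝ) ^ ((Fintype.card κ : ℝ) / 2) * gauT ε R b := by
    unfold gauT
    rw [← integral_const_mul]
    exact setIntegral_mono_on iP.integrableOn (iD.const_mul _).integrableOn hS fun y _ => gau_phi_glob b (by linarith) y
  have n2 : ∫ y in {y : κ → ℝ | R ^ 2 < y ⬝ᵥ y}ᶜ, gauPhi (gauR (ε • b) y) (gauF0 ε y) ∂qfG κ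
      ≤ (1 / 2 + 4 * gauTh (Fintype.card κ) ε K R) * gauA ε b := by
    unfold gauA
    rw [← integral_const_mul]
    refine le_trans (setIntegral_mono_on iP.integrableOn (iD.const_mul _).integrableOn hS.compl fun y hy => ?_)
      (setIntegral_le_integral (iD.const_mul _) (Filter.Eventually.of_forall fun y => ?_))
    · have hy' : y ⬝ᵥ y ≤ R ^ 2 := not_lt.1 hy
      exact (gau_phi_ball hε hK0 hR0 hb hθ hy').2
    · exact mul_nonneg (by linarith) (sq_nonneg _)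
  linarith

/-- `θ ≤ 1/8`, `K, R ≥ 1` force `ε ≤ 1/8`, `εK ≤ 1/8` -/
theorem gauTh_small {r : ℕ} {ε K R : ℝ} (hε : 0 ≤ ε) (hK : 1 ≤ K) (hR : 1 ≤ R) (hθ : gauTh r ε K R ≤ 1 / 8) :
    ε * K ≤ 1 / 8 ∧ ε ≤ 1 / 8 ∧ ε ^ 2 ≤ 1 / 8 := by
  unfold gauTh at hθ
  have h1 : ε * K ≤ ε * K * R := le_mul_of_one_le_right (by positivity) hR
  have h2 : ε ≤ ε * K := le_mul_of_one_le_right hε hK
  have h3 : 0 ≤ ε ^ 2 * K ^ 2 / 2 := by positivity
  have h4 : 0 ≤ ε ^ 2 * R ^ 2 / 2 := by positivity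
  have h5 : 0 ≤ (r : ℝ) * ε ^ 2 / 2 := by positivity
  have h6 : ε * K ≤ 1 / 8 := by linarith
  have h7 : ε ≤ 1 / 8 := by linarith
  exact ⟨h6, h7, by nlinarith⟩

end ent

/-! ## 4. The expansion of `A` -/

section expA

variable {Ω κ : Type} [Fintype Ω] [Fintype κ]

/-- Taylor polynomial of `exp` -/
noncomputable def gauTay (j : ℕ) (t : ℝ) : ℝ := ∑ k ∈ range (j + 1), t ^ k / (k.factorial : ℝ)

theorem gauTay_eqns_cite : True := by
  have := @gauTay.eq_1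
  trivial

/-- PLAN: `Complex.norm_exp_sub_sum_le_norm_mul_exp` at `x = (t : ℂ)`, `n = j + 1`; cast (`Complex.ofReal_exp`, `Complex.norm_real`). -/
theorem gau_tay_rem (j : ℕ) (t : ℝ) : |Real.exp t - gauTay j t| ≤ |t| ^ (j + 1) * Real.exp |t| := by
  have h := Complex.norm_exp_sub_sum_le_norm_mul_exp (t : ℂ) (j + 1)
  have e : Complex.exp (t : ℂ) - ∑ m ∈ range (j + 1), (t : ℂ) ^ m / (m.factorial : ℂ) = ((Real.exp t - gauTay j t : ℝ) : ℂ) := by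
    unfold gauTay
    push_cast
    rfl
  rw [e, Complex.norm_real, Complex.norm_real, Real.norm_eq_abs, Real.norm_eq_abs] at h
  exact h

/-- `∫ e_c e_c' dγ = e^{<c,c'>}`.   PLAN: `e_c e_c' = exp(<c+c',y>) exp(-(|c|²+|c'|²)/2)`, `gau_master` with `t = 0`. -/
theorem gau_EE (c c' : κ → ℝ) :
    Integrable (fun y : κ → ℝ => gauE c y * gauE c' y) (qfG κ) ∧ ∫ y, gauE c y * gauE c' y ∂qfG κ = Real.exp (c ⬝ᵥ c') := by
  obtain ⟨h1, h2⟩ := gau_master (c + c') 0 (by norm_num)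
  have e : (fun y : κ → ℝ => gauE c y * gauE c' y)
      = fun y => Real.exp ((c + c') ⬝ᵥ y + 0 * (y ⬝ᵥ y) / 2) * Real.exp (-(c ⬝ᵥ c + c' ⬝ᵥ c') / 2) := by
    funext y
    unfold gauE
    rw [← Real.exp_add, ← Real.exp_add, add_dotProduct]
    congr 1
    ring
  rw [e]
  refine ⟨h1.mul_const _, ?_⟩
  rw [integral_mul_const, h2, sub_zero, Real.one_rpow, one_mul, ← Real.exp_add]
  congr 1
  rw [add_dotProduct, dotProduct_add, dotProduct_add, dotProduct_comm c' c]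
  ring

/-- `∫ e_c f₀ dγ = exp(ε²|c|²/2)`.   PLAN: `gau_master` with `t = ε²/(1+ε²)`, `1 - t = 1/(1+ε²)`: `(1+ε²)^{-r/2} (1/(1+ε²))^{-r/2} = 1`, exponent `|c|²(1+ε²)/2 - |c|²/2`. -/
theorem gau_EF0 (c : κ → ℝ) (ε : ℝ) :
    Integrable (fun y : κ → ℝ => gauE c y * gauF0 ε y) (qfG κ) ∧ ∫ y, gauE c y * gauF0 ε y ∂qfG κ = Real.exp (ε ^ 2 * (c ⬝ᵥ c) / 2) := by
  have hs : 0 < 1 + ε ^ 2 := by positivity
  have ht : ε ^ 2 / (1 + ε ^ 2) < 1 := by rw [div_lt_one hs]; linarith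
  obtain ⟨h1, h2⟩ := gau_master c (ε ^ 2 / (1 + ε ^ 2)) ht
  have e : (fun y : κ → ℝ => gauE c y * gauF0 ε y)
      = fun y => Real.exp (c ⬝ᵥ y + ε ^ 2 / (1 + ε ^ 2) * (y ⬝ᵥ y) / 2) * (Real.exp (-(c ⬝ᵥ c) / 2) * (1 + ε ^ 2) ^ (-(Fintype.card κ : ℝ) / 2)) := by
    funext y
    unfold gauE gauF0
    have e1 : Real.exp (c ⬝ᵥ y + ε ^ 2 / (1 + ε ^ 2) * (y ⬝ᵥ y) / 2) * Real.exp (-(c ⬝ᵥ c) / 2)
        = Real.exp (c ⬝ᵥ y - c ⬝ᵥ c / 2) * Real.exp (ε ^ 2 * (y ⬝ᵥ y) / (2 * (1 + ε ^ 2))) := by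
      rw [← Real.exp_add, ← Real.exp_add]
      congr 1
      field_simp
      ring
    linear_combination (-((1 + ε ^ 2) ^ (-(Fintype.card κ : ℝ) / 2))) * e1
  rw [e]
  refine ⟨h1.mul_const _, ?_⟩
  have e2 : 1 - ε ^ 2 / (1 + ε ^ 2) = (1 + ε ^ 2)⁻¹ := by field_simp; ring
  rw [integral_mul_const, h2, e2, Real.inv_rpow hs.le, ← Real.rpow_neg hs.le]
  have e3 : (1 + ε ^ 2) ^ (-(-(Fintype.card κ : ℝ) / 2)) * (1 + ε ^ 2) ^ (-(Fintype.card κ : ℝ) / 2) = 1 := by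
    rw [← Real.rpow_add hs]
    simp
  calc _ = ((1 + ε ^ 2) ^ (-(-(Fintype.card κ : ℝ) / 2)) * (1 + ε ^ 2) ^ (-(Fintype.card κ : ℝ) / 2))
        * (Real.exp (c ⬝ᵥ c / (2 * (1 + ε ^ 2)⁻¹)) * Real.exp (-(c ⬝ᵥ c) / 2)) := by ring
    _ = _ := by
      rw [e3, one_mul, ← Real.exp_add]
      congr 1
      field_simp
      ring

/-- `∫ f₀² dγ = (1-ε⁴)^{-r/2}`.   PLAN: `gau_master`, `c = 0`, `t = 2ε²/(1+ε²) < 1`, `1 - t = (1-ε²)/(1+ε²)`; `Real.mul_rpow`, `Real.div_rpow`. -/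
theorem gau_F0F0 {ε : ℝ} (hε : ε ^ 2 < 1) :
    Integrable (fun y : κ → ℝ => gauF0 ε y * gauF0 ε y) (qfG κ) ∧ ∫ y, gauF0 ε y * gauF0 ε y ∂qfG κ = (1 - ε ^ 4) ^ (-(Fintype.card κ : ℝ) / 2) := by
  have hs : 0 < 1 + ε ^ 2 := by positivity
  have hm : 0 < 1 - ε ^ 2 := by linarith
  have ht : 2 * ε ^ 2 / (1 + ε ^ 2) < 1 := by rw [div_lt_one hs]; linarith
  obtain ⟨h1, h2⟩ := gau_master (0 : κ → ℝ) (2 * ε ^ 2 / (1 + ε ^ 2)) ht
  have e : (fun y : κ → ℝ => gauF0 ε y * gauF0 ε y)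
      = fun y => Real.exp ((0 : κ → ℝ) ⬝ᵥ y + 2 * ε ^ 2 / (1 + ε ^ 2) * (y ⬝ᵥ y) / 2)
          * ((1 + ε ^ 2) ^ (-(Fintype.card κ : ℝ) / 2) * (1 + ε ^ 2) ^ (-(Fintype.card κ : ℝ) / 2)) := by
    funext y
    unfold gauF0
    have e1 : Real.exp ((0 : κ → ℝ) ⬝ᵥ y + 2 * ε ^ 2 / (1 + ε ^ 2) * (y ⬝ᵥ y) / 2)
        = Real.exp (ε ^ 2 * (y ⬝ᵥ y) / (2 * (1 + ε ^ 2))) * Real.exp (ε ^ 2 * (y ⬝ᵥ y) / (2 * (1 + ε ^ 2))) := by
      rw [← Real.exp_add, zero_dotProduct]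
      congr 1
      field_simp
      ring
    rw [e1]
    ring
  rw [e]
  refine ⟨h1.mul_const _, ?_⟩
  have e2 : 1 - 2 * ε ^ 2 / (1 + ε ^ 2) = (1 - ε ^ 2) / (1 + ε ^ 2) := by field_simp; ring
  have e4 : 1 - ε ^ 4 = (1 - ε ^ 2) * (1 + ε ^ 2) := by ring
  rw [integral_mul_const, h2, e2, zero_dotProduct, zero_div, Real.exp_zero, mul_one, Real.div_rpow hm.le hs.le, e4, Real.mul_rpow hm.le hs.le]
  have hp : (1 + ε ^ 2) ^ (-(Fintype.card κ : ℝ) / 2) ≠ 0 := (Real.rpow_pos_of_pos hs _).ne'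
  field_simp

theorem gau88_av_mul (F : Ω → ℝ) (c : ℝ) : gauAv F * c = gauAv fun ω => F ω * c := by
  unfold gauAv
  rw [div_mul_eq_mul_div, Finset.sum_mul]

theorem gau88_mul_av (c : ℝ) (F : Ω → ℝ) : c * gauAv F = gauAv fun ω => c * F ω := by
  unfold gauAv
  rw [← mul_div_assoc, Finset.mul_sum]

theorem gau88_av_add (F G : Ω → ℝ) : gauAv F + gauAv G = gauAv fun ω => F ω + G ω := by
  unfold gauAv
  rw [Finset.sum_add_distrib, add_div]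

theorem gau88_av_sub (F G : Ω → ℝ) : gauAv F - gauAv G = gauAv fun ω => F ω - G ω := by
  unfold gauAv
  rw [Finset.sum_sub_distrib, sub_div]

theorem gau88_av_sum {ι : Type} (s : Finset ι) (F : ι → Ω → ℝ) : ∑ i ∈ s, gauAv (F i) = gauAv fun ω => ∑ i ∈ s, F i ω := by
  unfold gauAv
  rw [Finset.sum_comm, Finset.sum_div]

theorem gau88_av_integrable {α : Type} [MeasurableSpace α] {μ : Measure α} {F : Ω → α → ℝ} (h : ∀ ω, Integrable (F ω) μ) :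
    Integrable (fun y => gauAv fun ω => F ω y) μ := by
  unfold gauAv
  exact (integrable_finsetSum _ fun ω _ => h ω).div_const _

theorem gau88_av_integral {α : Type} [MeasurableSpace α] {μ : Measure α} {F : Ω → α → ℝ} (h : ∀ ω, Integrable (F ω) μ) :
    ∫ y, (gauAv fun ω => F ω y) ∂μ = gauAv fun ω => ∫ y, F ω y ∂μ := by
  unfold gauAv
  rw [integral_div, integral_finsetSum _ fun ω _ => h ω]

/-- Laplace transform of the standard Gaussian -/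
theorem gau88_exp_lin (c : κ → ℝ) :
    Integrable (fun x : κ → ℝ => Real.exp (c ⬝ᵥ x)) (qfG κ) ∧ ∫ x, Real.exp (c ⬝ᵥ x) ∂qfG κ = Real.exp (c ⬝ᵥ c / 2) := by
  obtain ⟨h1, h2⟩ := gau_master c 0 (by norm_num)
  simp only [zero_mul, zero_div, add_zero, sub_zero, Real.one_rpow, one_mul, mul_one] at h1 h2
  exact ⟨h1, h2⟩

/-- Gaussian integral of `exp (t |x|² / 2)` -/
theorem gau88_exp_sq {t : ℝ} (ht : t < 1) :
    Integrable (fun x : κ → ℝ => Real.exp (t * (x ⬝ᵥ x) / 2)) (qfG κ) ∧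
      ∫ x, Real.exp (t * (x ⬝ᵥ x) / 2) ∂qfG κ = (1 - t) ^ (-(Fintype.card κ : ℝ) / 2) := by
  obtain ⟨h1, h2⟩ := gau_master (0 : κ → ℝ) t ht
  simp only [zero_dotProduct, zero_add, zero_div, Real.exp_zero, mul_one] at h1 h2
  exact ⟨h1, h2⟩

/-- **closed form of `A`** as a "double integral against `law(B) - γ`".   PLAN: expand the square; `gau_EE`, `gau_EF0`, `gau_F0F0` and finite averages;
`∫ exp(ε²<b,x>) dγ(x) = exp(ε⁴|b|²/2)` (`gau_master`, `t = 0`);   `∫ exp(ε²<x,x'>) dγ(x') = exp(ε⁴|x|²/2)`, `∫ exp(ε⁴|x|²/2) dγ = (1-ε⁴)^{-r/2}` (`gau_master`, `t = ε⁴`). -/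
theorem gau_A_closed [Nonempty Ω] (b : Ω → κ → ℝ) {ε : ℝ} (hε : ε ^ 2 < 1) :
    gauA ε b = (gauAv fun ω => gauAv fun ω' => Real.exp (ε ^ 2 * (b ω ⬝ᵥ b ω')))
      - 2 * (gauAv fun ω => ∫ x, Real.exp (ε ^ 2 * (b ω ⬝ᵥ x)) ∂qfG κ)
      + ∫ x, ∫ x', Real.exp (ε ^ 2 * (x ⬝ᵥ x')) ∂qfG κ ∂qfG κ := by
  have h4 : ε ^ 4 < 1 := by nlinarith [sq_nonneg ε, sq_nonneg (ε ^ 2)]
  -- the three integrals
  have i1 : Integrable (fun y : κ → ℝ => gauAv fun ω => gauAv fun ω' => gauE ((ε • b) ω) y * gauE ((ε • b) ω') y) (qfG κ) :=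
    gau88_av_integrable fun ω => gau88_av_integrable fun ω' => (gau_EE _ _).1
  have v1 : ∫ y : κ → ℝ, (gauAv fun ω => gauAv fun ω' => gauE ((ε • b) ω) y * gauE ((ε • b) ω') y) ∂qfG κ
      = gauAv fun ω => gauAv fun ω' => Real.exp (ε ^ 2 * (b ω ⬝ᵥ b ω')) := by
    rw [gau88_av_integral fun ω => gau88_av_integrable fun ω' => (gau_EE _ _).1]
    congr 1; funext ω
    rw [gau88_av_integral fun ω' => (gau_EE _ _).1]
    congr 1; funext ω'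
    rw [(gau_EE _ _).2, Pi.smul_apply, Pi.smul_apply, smul_dotProduct, dotProduct_smul, smul_eq_mul, smul_eq_mul]
    congr 1; ring
  have i2 : Integrable (fun y : κ → ℝ => gauAv fun ω => gauE ((ε • b) ω) y * gauF0 ε y) (qfG κ) :=
    gau88_av_integrable fun ω => (gau_EF0 _ _).1
  have v2 : ∫ y : κ → ℝ, (gauAv fun ω => gauE ((ε • b) ω) y * gauF0 ε y) ∂qfG κ
      = gauAv fun ω => ∫ x, Real.exp (ε ^ 2 * (b ω ⬝ᵥ x)) ∂qfG κ := by
    rw [gau88_av_integral fun ω => (gau_EF0 _ _).1]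
    congr 1; funext ω
    have e : (fun x : κ → ℝ => Real.exp (ε ^ 2 * (b ω ⬝ᵥ x))) = fun x => Real.exp ((ε ^ 2 • b ω) ⬝ᵥ x) := by
      funext x; rw [smul_dotProduct, smul_eq_mul]
    rw [(gau_EF0 _ _).2, e, (gau88_exp_lin _).2, Pi.smul_apply, smul_dotProduct, dotProduct_smul, smul_dotProduct, dotProduct_smul]
    simp only [smul_eq_mul]
    congr 1; ring
  have v3 : ∫ x : κ → ℝ, ∫ x', Real.exp (ε ^ 2 * (x ⬝ᵥ x')) ∂qfG κ ∂qfG κ = (1 - ε ^ 4) ^ (-(Fintype.card κ : ℝ) / 2) := by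
    rw [← (gau88_exp_sq h4).2]
    congr 1; funext x
    have e : (fun x' : κ → ℝ => Real.exp (ε ^ 2 * (x ⬝ᵥ x'))) = fun x' => Real.exp ((ε ^ 2 • x) ⬝ᵥ x') := by
      funext x'; rw [smul_dotProduct, smul_eq_mul]
    rw [e, (gau88_exp_lin _).2, smul_dotProduct, dotProduct_smul]
    simp only [smul_eq_mul]
    congr 1; ring
  have e : (fun y : κ → ℝ => (gauR (ε • b) y - gauF0 ε y) ^ 2)
      = fun y => (gauAv fun ω => gauAv fun ω' => gauE ((ε • b) ω) y * gauE ((ε • b) ω') y)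
          - 2 * (gauAv fun ω => gauE ((ε • b) ω) y * gauF0 ε y) + gauF0 ε y * gauF0 ε y := by
    funext y
    have e1 : (gauAv fun ω => gauAv fun ω' => gauE ((ε • b) ω) y * gauE ((ε • b) ω') y) = gauR (ε • b) y * gauR (ε • b) y := by
      unfold gauR
      rw [gau88_av_mul]
      congr 1; funext ω
      rw [gau88_mul_av]
    have e2 : (gauAv fun ω => gauE ((ε • b) ω) y * gauF0 ε y) = gauR (ε • b) y * gauF0 ε y := by
      unfold gauR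
      rw [gau88_av_mul]
    rw [e1, e2]
    ring
  have i22 : Integrable (fun y : κ → ℝ => 2 * gauAv fun ω => gauE ((ε • b) ω) y * gauF0 ε y) (qfG κ) := i2.const_mul 2
  have i12 : Integrable (fun y : κ → ℝ => (gauAv fun ω => gauAv fun ω' => gauE ((ε • b) ω) y * gauE ((ε • b) ω') y)
      - 2 * gauAv fun ω => gauE ((ε • b) ω) y * gauF0 ε y) (qfG κ) := i1.sub i22
  unfold gauA
  rw [e, integral_add i12 (gau_F0F0 hε).1, integral_sub i1 i22, integral_const_mul, v1, v2, v3, (gau_F0F0 hε).2]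

/-- `<c,c'>^k` as a sum over tuples -/
theorem gau_dot_pow (c c' : κ → ℝ) (k : ℕ) : (c ⬝ᵥ c') ^ k = ∑ x : Fin k → κ, (∏ a, c (x a)) * ∏ a, c' (x a) := by
  unfold dotProduct
  rw [Fintype.sum_pow]
  exact Finset.sum_congr rfl fun x _ => Finset.prod_mul_distrib

theorem gau88_dot_pow_int (c : κ → ℝ) (k : ℕ) : ∫ x, (c ⬝ᵥ x) ^ k ∂qfG κ = ∑ p : Fin k → κ, (∏ a, c (p a)) * gauM0 κ k p := by
  simp only [gau_dot_pow]
  rw [integral_finsetSum _ fun p _ => (gau_mono_integrable p).const_mul _]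
  refine Finset.sum_congr rfl fun p _ => ?_
  rw [integral_const_mul]
  rfl

/-- one order of the series.   PLAN: `gau_dot_pow`; `|Δ_k|² = Σ_x (M_k x)² - 2 Σ_x M_k x M⁰_k x + Σ_x (M⁰_k x)²`; exchange the finite sums with the averages and the integrals (`integral_finset_sum`, `gau_mono_integrable`, `integral_const_mul`, `integral_mul_const`). -/
theorem gau_S_order (b : Ω → κ → ℝ) (k : ℕ) :
    gauDl b k ⬝ᵥ gauDl b k = (gauAv fun ω => gauAv fun ω' => (b ω ⬝ᵥ b ω') ^ k)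
      - 2 * (gauAv fun ω => ∫ x, (b ω ⬝ᵥ x) ^ k ∂qfG κ) + ∫ x, ∫ x', (x ⬝ᵥ x') ^ k ∂qfG κ ∂qfG κ := by
  have t1 : (gauAv fun ω => gauAv fun ω' => (b ω ⬝ᵥ b ω') ^ k) = ∑ p : Fin k → κ, gauM b k p * gauM b k p := by
    simp only [gau_dot_pow, ← gau88_av_sum]
    refine Finset.sum_congr rfl fun p _ => ?_
    unfold gauM
    rw [gau88_av_mul]
    congr 1; funext ω
    rw [gau88_mul_av]
  have t2 : (gauAv fun ω => ∫ x, (b ω ⬝ᵥ x) ^ k ∂qfG κ) = ∑ p : Fin k → κ, gauM b k p * gauM0 κ k p := by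
    simp only [gau88_dot_pow_int, ← gau88_av_sum]
    refine Finset.sum_congr rfl fun p _ => ?_
    unfold gauM
    rw [gau88_av_mul]
  have t3 : ∫ x, ∫ x', (x ⬝ᵥ x') ^ k ∂qfG κ ∂qfG κ = ∑ p : Fin k → κ, gauM0 κ k p * gauM0 κ k p := by
    simp only [gau88_dot_pow_int]
    rw [integral_finsetSum _ fun p _ => (gau_mono_integrable p).mul_const _]
    refine Finset.sum_congr rfl fun p _ => ?_
    rw [integral_mul_const]
    rfl
  rw [t1, t2, t3, Finset.mul_sum, ← Finset.sum_sub_distrib, ← Finset.sum_add_distrib]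
  unfold dotProduct gauDl
  refine Finset.sum_congr rfl fun p _ => ?_
  rw [Pi.sub_apply]
  ring

/-- powers of a scalar product are integrable.   PLAN: `gau_dot_pow` + `gau_mono_integrable` + `integrable_finset_sum`. -/
theorem gau_dot_pow_integrable (c : κ → ℝ) (k : ℕ) : Integrable (fun x : κ → ℝ => (c ⬝ᵥ x) ^ k) (qfG κ) := by
  simp only [gau_dot_pow]
  exact integrable_finsetSum _ fun p _ => (gau_mono_integrable p).const_mul _

/-- PLAN: `∫ (x ⬝ᵥ x')^k dγ(x') = Σ_p (∏ x (p a)) M⁰_k p` (`gau_dot_pow`), a polynomial in `x`: `gau_mono_integrable`. -/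
theorem gau_dot_pow_integrable2 (k : ℕ) : Integrable (fun x : κ → ℝ => ∫ x', (x ⬝ᵥ x') ^ k ∂qfG κ) (qfG κ) := by
  simp only [gau88_dot_pow_int]
  exact integrable_finsetSum _ fun p _ => (gau_mono_integrable p).mul_const _

theorem gau88_tay_eq (j : ℕ) (ε t : ℝ) : gauTay j (ε ^ 2 * t) = ∑ k ∈ range (j + 1), ε ^ (2 * k) / (k.factorial : ℝ) * t ^ k := by
  unfold gauTay
  refine Finset.sum_congr rfl fun k _ => ?_
  rw [mul_pow, ← pow_mul]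
  ring

/-- **closed form of the truncated series.**   PLAN: sum of `gau_S_order` with the weights `ε^{2k}/k!`; `(ε² t)^k = ε^{2k} t^k`; linearity of `gauAv` and of the integrals (`gau_dot_pow_integrable`, `gau_dot_pow_integrable2`). -/
theorem gau_S_closed (b : Ω → κ → ℝ) (ε : ℝ) (j : ℕ) :
    gauS ε b j = (gauAv fun ω => gauAv fun ω' => gauTay j (ε ^ 2 * (b ω ⬝ᵥ b ω')))
      - 2 * (gauAv fun ω => ∫ x, gauTay j (ε ^ 2 * (b ω ⬝ᵥ x)) ∂qfG κ)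
      + ∫ x, ∫ x', gauTay j (ε ^ 2 * (x ⬝ᵥ x')) ∂qfG κ ∂qfG κ := by
  have t1 : (gauAv fun ω => gauAv fun ω' => gauTay j (ε ^ 2 * (b ω ⬝ᵥ b ω')))
      = ∑ k ∈ range (j + 1), ε ^ (2 * k) / (k.factorial : ℝ) * gauAv fun ω => gauAv fun ω' => (b ω ⬝ᵥ b ω') ^ k := by
    simp only [gau88_tay_eq, ← gau88_av_sum, gau88_mul_av]
  have t0 : ∀ c : κ → ℝ, ∫ x, gauTay j (ε ^ 2 * (c ⬝ᵥ x)) ∂qfG κ
      = ∑ k ∈ range (j + 1), ε ^ (2 * k) / (k.factorial : ℝ) * ∫ x, (c ⬝ᵥ x) ^ k ∂qfG κ := by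
    intro c
    simp only [gau88_tay_eq]
    rw [integral_finsetSum _ fun k _ => (gau_dot_pow_integrable c k).const_mul _]
    exact Finset.sum_congr rfl fun k _ => integral_const_mul _ _
  have t2 : (gauAv fun ω => ∫ x, gauTay j (ε ^ 2 * (b ω ⬝ᵥ x)) ∂qfG κ)
      = ∑ k ∈ range (j + 1), ε ^ (2 * k) / (k.factorial : ℝ) * gauAv fun ω => ∫ x, (b ω ⬝ᵥ x) ^ k ∂qfG κ := by
    simp only [t0, ← gau88_av_sum, gau88_mul_av]
  have t3 : ∫ x, ∫ x', gauTay j (ε ^ 2 * (x ⬝ᵥ x')) ∂qfG κ ∂qfG κ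
      = ∑ k ∈ range (j + 1), ε ^ (2 * k) / (k.factorial : ℝ) * ∫ x, ∫ x', (x ⬝ᵥ x') ^ k ∂qfG κ ∂qfG κ := by
    simp only [t0]
    rw [integral_finsetSum _ fun k _ => (gau_dot_pow_integrable2 k).const_mul _]
    exact Finset.sum_congr rfl fun k _ => integral_const_mul _ _
  rw [t1, t2, t3, Finset.mul_sum, ← Finset.sum_sub_distrib, ← Finset.sum_add_distrib]
  unfold gauS
  refine Finset.sum_congr rfl fun k _ => ?_
  rw [gau_S_order]
  ring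

theorem gau88_pt (j : ℕ) {t w : ℝ} (h : |t| ≤ w) : |Real.exp t - gauTay j t| ≤ w ^ (j + 1) * Real.exp w :=
  (gau_tay_rem j t).trans (mul_le_mul (pow_le_pow_left₀ (abs_nonneg t) h _) (Real.exp_le_exp.2 h) (Real.exp_pos _).le
    (pow_nonneg ((abs_nonneg t).trans h) _))

/-- remainder 1.   PLAN: `|t| = ε²|<b,b'>| ≤ ε²K² ≤ 1` (Cauchy-Schwarz), `gau_tay_rem`, `e ≤ 3`; `|avg| ≤ ` bound (`gauAv_le_of_le`, `gauAv_ge_of_ge`). -/
theorem gau_rem1 [Nonempty Ω] {b : Ω → κ → ℝ} {ε K : ℝ} (hε : 0 ≤ ε) (hK0 : 0 ≤ K) (hb : ∀ ω, b ω ⬝ᵥ b ω ≤ K ^ 2) (hK : ε * K ≤ 1) (j : ℕ) :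
    |(gauAv fun ω => gauAv fun ω' => Real.exp (ε ^ 2 * (b ω ⬝ᵥ b ω'))) - gauAv fun ω => gauAv fun ω' => gauTay j (ε ^ 2 * (b ω ⬝ᵥ b ω'))|
      ≤ 3 * (ε * K) ^ (2 * j + 2) := by
  have hp : ∀ ω ω', |Real.exp (ε ^ 2 * (b ω ⬝ᵥ b ω')) - gauTay j (ε ^ 2 * (b ω ⬝ᵥ b ω'))| ≤ 3 * (ε * K) ^ (2 * j + 2) := by
    intro ω ω'
    have h0 : 0 ≤ ε * K := mul_nonneg hε hK0
    have h1 : |ε ^ 2 * (b ω ⬝ᵥ b ω')| ≤ (ε * K) ^ 2 := by
      rw [abs_mul, abs_of_nonneg (sq_nonneg ε)]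
      calc ε ^ 2 * |b ω ⬝ᵥ b ω'| ≤ ε ^ 2 * (K * K) := mul_le_mul_of_nonneg_left (gau_cs _ _ hK0 hK0 (hb ω) (hb ω')) (sq_nonneg ε)
        _ = (ε * K) ^ 2 := by ring
    have h2 : (ε * K) ^ 2 ≤ 1 := pow_le_one₀ h0 hK
    have h3 : Real.exp ((ε * K) ^ 2) ≤ 3 := (Real.exp_le_exp.2 h2).trans (by linarith [Real.exp_one_lt_d9])
    refine (gau88_pt j h1).trans ?_
    rw [← pow_mul, show 2 * (j + 1) = 2 * j + 2 by ring, mul_comm]
    exact mul_le_mul_of_nonneg_right h3 (pow_nonneg h0 _)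
  rw [gau88_av_sub]
  simp only [gau88_av_sub]
  rw [abs_le]
  exact ⟨gauAv_ge_of_ge fun ω => gauAv_ge_of_ge fun ω' => (abs_le.1 (hp ω ω')).1, gauAv_le_of_le fun ω => gauAv_le_of_le fun ω' => (abs_le.1 (hp ω ω')).2⟩

theorem gau88_tay_integrable (c : κ → ℝ) (j : ℕ) : Integrable (fun x : κ → ℝ => gauTay j (c ⬝ᵥ x)) (qfG κ) := by
  unfold gauTay
  exact integrable_finsetSum _ fun k _ => (gau_dot_pow_integrable c k).div_const _

/-- remainder 2, for one vector `c` with `|c| ≤ a ≤ 1` (apply it with `c = ε² b_ω`, `a = ε² K`).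
PLAN: `|t| = |<c,x>| ≤ a|x|`, `|x| = √(x ⬝ᵥ x)`;  `|t|^{j+1} e^{|t|} ≤ a^{j+1} |x|^{j+1} e^{|x|} ≤ a^{j+1} (j+1)! e^{2|x|} ≤ a^{j+1} (j+1)! e⁴ e^{|x|²/4}` (`Real.pow_div_factorial_le_exp`, `2u ≤ 4 + u²/4`);
`∫ e^{|x|²/4} dγ = 2^{r/2}` (`gau_master`, `c = 0`, `t = 1/2`);  integrability of `exp <c,x>` (`gau_master`) and of the polynomial (`gau_dot_pow_integrable`). -/
theorem gau_rem2 {c : κ → ℝ} {a : ℝ} (ha0 : 0 ≤ a) (ha : a ≤ 1) (hc : c ⬝ᵥ c ≤ a ^ 2) (j : ℕ) :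
    |(∫ x, Real.exp (c ⬝ᵥ x) ∂qfG κ) - ∫ x, gauTay j (c ⬝ᵥ x) ∂qfG κ|
      ≤ ((j + 1).factorial : ℝ) * Real.exp 4 * (2 : ℝ) ^ ((Fintype.card κ : ℝ) / 2) * a ^ (j + 1) := by
  obtain ⟨g1, g2⟩ := gau88_exp_sq (κ := κ) (t := 1 / 2) (by norm_num)
  have hp : ∀ x : κ → ℝ, ‖Real.exp (c ⬝ᵥ x) - gauTay j (c ⬝ᵥ x)‖
      ≤ (((j + 1).factorial : ℝ) * Real.exp 4 * a ^ (j + 1)) * Real.exp (1 / 2 * (x ⬝ᵥ x) / 2) := by
    intro x
    set u := Real.sqrt (x ⬝ᵥ x) with hu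
    have hu0 : 0 ≤ u := Real.sqrt_nonneg _
    have hu2 : u ^ 2 = x ⬝ᵥ x := Real.sq_sqrt (gau_dot_self_nonneg x)
    have h1 : |c ⬝ᵥ x| ≤ a * u := gau_cs c x ha0 hu0 hc hu2.ge
    have h2 : a * u ≤ u := mul_le_of_le_one_left hu0 ha
    have h3 : u ^ (j + 1) ≤ ((j + 1).factorial : ℝ) * Real.exp u := by
      have := Real.pow_div_factorial_le_exp u hu0 (j + 1)
      rwa [div_le_iff₀' (by positivity)] at this
    have h4 : Real.exp u * Real.exp u ≤ Real.exp 4 * Real.exp (1 / 2 * (x ⬝ᵥ x) / 2) := by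
      rw [← Real.exp_add, ← Real.exp_add, ← hu2]
      apply Real.exp_le_exp.2
      nlinarith [sq_nonneg (u / 2 - 2)]
    rw [Real.norm_eq_abs]
    calc |Real.exp (c ⬝ᵥ x) - gauTay j (c ⬝ᵥ x)| ≤ (a * u) ^ (j + 1) * Real.exp (a * u) := gau88_pt j h1
      _ ≤ (a ^ (j + 1) * (((j + 1).factorial : ℝ) * Real.exp u)) * Real.exp u := by
          rw [mul_pow]
          exact mul_le_mul (mul_le_mul_of_nonneg_left h3 (pow_nonneg ha0 _)) (Real.exp_le_exp.2 h2) (Real.exp_pos _).le (by positivity)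
      _ = (a ^ (j + 1) * ((j + 1).factorial : ℝ)) * (Real.exp u * Real.exp u) := by ring
      _ ≤ (a ^ (j + 1) * ((j + 1).factorial : ℝ)) * (Real.exp 4 * Real.exp (1 / 2 * (x ⬝ᵥ x) / 2)) :=
          mul_le_mul_of_nonneg_left h4 (by positivity)
      _ = _ := by ring
  rw [← integral_sub (gau88_exp_lin c).1 (gau88_tay_integrable c j), ← Real.norm_eq_abs]
  refine (norm_integral_le_of_norm_le (g1.const_mul _) (Filter.Eventually.of_forall hp)).trans (le_of_eq ?_)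
  rw [integral_const_mul, g2]
  have e : (1 - 1 / 2 : ℝ) ^ (-(Fintype.card κ : ℝ) / 2) = (2 : ℝ) ^ ((Fintype.card κ : ℝ) / 2) := by
    rw [show (1 - 1 / 2 : ℝ) = 2⁻¹ by norm_num, Real.inv_rpow (by norm_num), ← Real.rpow_neg (by norm_num)]
    congr 1
    ring
  rw [e]
  ring

theorem gau88_dot_le (x x' : κ → ℝ) : |x ⬝ᵥ x'| ≤ (x ⬝ᵥ x + x' ⬝ᵥ x') / 2 := by
  have h1 := gau_dot_self_nonneg (x - x')
  have h2 := gau_dot_self_nonneg (x + x')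
  rw [sub_dotProduct, dotProduct_sub, dotProduct_sub, dotProduct_comm x' x] at h1
  rw [add_dotProduct, dotProduct_add, dotProduct_add, dotProduct_comm x' x] at h2
  rw [abs_le]
  constructor <;> linarith

/-- remainder 3.   PLAN: `t = ε²<x,x'>`, `|<x,x'>| ≤ u := (|x|²+|x'|²)/2`;  `|t|^{j+1} e^{|t|} ≤ ε^{2j+2} u^{j+1} e^{u/8} ≤ ε^{2j+2} 8^{j+1} (j+1)! e^{u/4}`, `e^{u/4} = e^{|x|²/8} e^{|x'|²/8}`,
`∫ e^{|x|²/8} dγ = (4/3)^{r/2}` (`gau_master`, `t = 1/4`), `(4/3)^r ≤ 2^r`.   Inner integrals: for fixed `x` as in `gau_rem2`; the outer integrands are `exp(ε⁴|x|²/2)` and a polynomial (`gau_dot_pow_integrable2`): integrable;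
`|∫∫ F| ≤ ∫∫ |F|` by `norm_integral_le_integral_norm` twice and `integral_mono`. -/
theorem gau_rem3 {ε : ℝ} (hε : ε ^ 2 ≤ 1 / 8) (j : ℕ) :
    |(∫ x, ∫ x', Real.exp (ε ^ 2 * (x ⬝ᵥ x')) ∂qfG κ ∂qfG κ) - ∫ x, ∫ x', gauTay j (ε ^ 2 * (x ⬝ᵥ x')) ∂qfG κ ∂qfG κ|
      ≤ ((j + 1).factorial : ℝ) * 8 ^ (j + 1) * 2 ^ (Fintype.card κ) * ε ^ (2 * j + 2) := by
  obtain ⟨g1, g2⟩ := gau88_exp_sq (κ := κ) (t := 1 / 4) (by norm_num)
  set m : ℝ := (1 - 1 / 4 : ℝ) ^ (-(Fintype.card κ : ℝ) / 2) with hm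
  set A : ℝ := ((j + 1).factorial : ℝ) * 8 ^ (j + 1) * ε ^ (2 * j + 2) with hA
  have hA0 : 0 ≤ A := by
    have : 0 ≤ ε ^ (2 * j + 2) := by rw [show 2 * j + 2 = 2 * (j + 1) by ring, pow_mul]; positivity
    positivity
  have hm0 : 0 ≤ m := Real.rpow_nonneg (by norm_num) _
  have h4 : ε ^ 4 < 1 := by nlinarith [sq_nonneg ε, sq_nonneg (ε ^ 2)]
  have esm : ∀ x x' : κ → ℝ, ε ^ 2 * (x ⬝ᵥ x') = (ε ^ 2 • x) ⬝ᵥ x' := fun x x' => by rw [smul_dotProduct, smul_eq_mul]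
  -- pointwise
  have hp : ∀ x x' : κ → ℝ, ‖Real.exp (ε ^ 2 * (x ⬝ᵥ x')) - gauTay j (ε ^ 2 * (x ⬝ᵥ x'))‖
      ≤ (A * Real.exp (1 / 4 * (x ⬝ᵥ x) / 2)) * Real.exp (1 / 4 * (x' ⬝ᵥ x') / 2) := by
    intro x x'
    set u := (x ⬝ᵥ x + x' ⬝ᵥ x') / 2 with hu
    have hu0 : 0 ≤ u := by have := gau_dot_self_nonneg x; have := gau_dot_self_nonneg x'; positivity
    have h1 : |ε ^ 2 * (x ⬝ᵥ x')| ≤ ε ^ 2 * u := by
      rw [abs_mul, abs_of_nonneg (sq_nonneg ε)]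
      exact mul_le_mul_of_nonneg_left (gau88_dot_le x x') (sq_nonneg ε)
    have h2 : ε ^ 2 * u ≤ u / 8 := by nlinarith
    have h3 : (u / 8) ^ (j + 1) ≤ ((j + 1).factorial : ℝ) * Real.exp (u / 8) := by
      have := Real.pow_div_factorial_le_exp (u / 8) (by positivity) (j + 1)
      rwa [div_le_iff₀' (by positivity)] at this
    have h5 : Real.exp (u / 8) * Real.exp (u / 8) = Real.exp (1 / 4 * (x ⬝ᵥ x) / 2) * Real.exp (1 / 4 * (x' ⬝ᵥ x') / 2) := by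
      rw [← Real.exp_add, ← Real.exp_add, hu]
      congr 1
      ring
    have h6 : 0 ≤ (ε ^ 2) ^ (j + 1) * 8 ^ (j + 1) := by positivity
    rw [Real.norm_eq_abs]
    calc |Real.exp (ε ^ 2 * (x ⬝ᵥ x')) - gauTay j (ε ^ 2 * (x ⬝ᵥ x'))| ≤ (ε ^ 2 * u) ^ (j + 1) * Real.exp (ε ^ 2 * u) := gau88_pt j h1
      _ = ((ε ^ 2) ^ (j + 1) * 8 ^ (j + 1)) * (u / 8) ^ (j + 1) * Real.exp (ε ^ 2 * u) := by
          have e8 : (8 : ℝ) ^ (j + 1) * (u / 8) ^ (j + 1) = u ^ (j + 1) := by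
            rw [← mul_pow]; congr 1; ring
          rw [mul_pow, ← e8]
          ring
      _ ≤ ((ε ^ 2) ^ (j + 1) * 8 ^ (j + 1)) * (((j + 1).factorial : ℝ) * Real.exp (u / 8)) * Real.exp (u / 8) :=
          mul_le_mul (mul_le_mul_of_nonneg_left h3 h6) (Real.exp_le_exp.2 h2) (Real.exp_pos _).le (by positivity)
      _ = A * (Real.exp (u / 8) * Real.exp (u / 8)) := by
          rw [hA, ← pow_mul, show 2 * (j + 1) = 2 * j + 2 by ring]
          ring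
      _ = _ := by rw [h5]; ring
  -- inner integrals
  have i1 : ∀ x : κ → ℝ, Integrable (fun x' : κ → ℝ => Real.exp (ε ^ 2 * (x ⬝ᵥ x'))) (qfG κ) := fun x => by
    simp only [esm]; exact (gau88_exp_lin _).1
  have i2 : ∀ x : κ → ℝ, Integrable (fun x' : κ → ℝ => gauTay j (ε ^ 2 * (x ⬝ᵥ x'))) (qfG κ) := fun x => by
    simp only [esm]; exact gau88_tay_integrable _ j
  have hin : ∀ x : κ → ℝ, ‖(∫ x', Real.exp (ε ^ 2 * (x ⬝ᵥ x')) ∂qfG κ) - ∫ x', gauTay j (ε ^ 2 * (x ⬝ᵥ x')) ∂qfG κ‖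
      ≤ (A * m) * Real.exp (1 / 4 * (x ⬝ᵥ x) / 2) := by
    intro x
    rw [← integral_sub (i1 x) (i2 x)]
    refine (norm_integral_le_of_norm_le (g1.const_mul _) (Filter.Eventually.of_forall (hp x))).trans (le_of_eq ?_)
    rw [integral_const_mul, g2]
    ring
  -- outer integrals
  have o1 : Integrable (fun x : κ → ℝ => ∫ x', Real.exp (ε ^ 2 * (x ⬝ᵥ x')) ∂qfG κ) (qfG κ) := by
    have e : (fun x : κ → ℝ => ∫ x', Real.exp (ε ^ 2 * (x ⬝ᵥ x')) ∂qfG κ) = fun x => Real.exp (ε ^ 4 * (x ⬝ᵥ x) / 2) := by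
      funext x
      simp only [esm]
      rw [(gau88_exp_lin _).2, smul_dotProduct, dotProduct_smul]
      simp only [smul_eq_mul]
      congr 1; ring
    rw [e]
    exact (gau88_exp_sq h4).1
  have o2 : Integrable (fun x : κ → ℝ => ∫ x', gauTay j (ε ^ 2 * (x ⬝ᵥ x')) ∂qfG κ) (qfG κ) := by
    have e : (fun x : κ → ℝ => ∫ x', gauTay j (ε ^ 2 * (x ⬝ᵥ x')) ∂qfG κ)
        = fun x => ∑ k ∈ range (j + 1), ε ^ (2 * k) / (k.factorial : ℝ) * ∫ x', (x ⬝ᵥ x') ^ k ∂qfG κ := by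
      funext x
      simp only [gau88_tay_eq]
      rw [integral_finsetSum _ fun k _ => (gau_dot_pow_integrable x k).const_mul _]
      exact Finset.sum_congr rfl fun k _ => integral_const_mul _ _
    rw [e]
    exact integrable_finsetSum _ fun k _ => (gau_dot_pow_integrable2 k).const_mul _
  rw [← integral_sub o1 o2, ← Real.norm_eq_abs]
  refine (norm_integral_le_of_norm_le (g1.const_mul _) (Filter.Eventually.of_forall hin)).trans ?_
  rw [integral_const_mul, g2]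
  have hmm : m * m ≤ 2 ^ (Fintype.card κ) := by
    rw [hm, ← Real.rpow_add (by norm_num), show -(Fintype.card κ : ℝ) / 2 + -(Fintype.card κ : ℝ) / 2 = -(Fintype.card κ : ℝ) by ring,
      Real.rpow_neg (by norm_num), Real.rpow_natCast, ← inv_pow]
    exact pow_le_pow_left₀ (by norm_num) (by norm_num) _
  calc A * m * m = A * (m * m) := by ring
    _ ≤ A * 2 ^ (Fintype.card κ) := mul_le_mul_of_nonneg_left hmm hA0
    _ = _ := by rw [hA]; ring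

/-- the constant of `gau_A_expand` -/
noncomputable def gauCA (r j : ℕ) : ℝ :=
  3 + 2 * (((j + 1).factorial : ℝ) * Real.exp 4 * (2 : ℝ) ^ ((r : ℝ) / 2)) + ((j + 1).factorial : ℝ) * 8 ^ (j + 1) * 2 ^ r

theorem gauCA_eqns_cite : True := by
  have := @gauCA.eq_1
  trivial

theorem gauAv_sub (F F' : Ω → ℝ) : gauAv (fun ω => F ω - F' ω) = gauAv F - gauAv F' := by
  unfold gauAv
  rw [Finset.sum_sub_distrib, sub_div]

theorem gauAv_abs_le [Nonempty Ω] {F : Ω → ℝ} {c : ℝ} (h : ∀ ω, |F ω| ≤ c) : |gauAv F| ≤ c :=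
  abs_le.2 ⟨gauAv_ge_of_ge fun ω => (abs_le.1 (h ω)).1, gauAv_le_of_le fun ω => (abs_le.1 (h ω)).2⟩

/-- **(c) expansion of `A`.**   PLAN: `gau_A_closed - gau_S_closed`, triangle inequality, `gau_rem1`, `gau_rem2` (with `c = ε² b_ω`, `a = ε² K ≤ εK ≤ 1`, `a^{j+1} ≤ (εK)^{2j+2}` since `K ≥ 1`; `ε² * (b ⬝ᵥ x) = (ε² • b) ⬝ᵥ x`), `gau_rem3` (`ε ≤ εK`). -/
theorem gau_A_expand [Nonempty Ω] {b : Ω → κ → ℝ} {ε K : ℝ} (hε : 0 ≤ ε) (hε8 : ε ^ 2 ≤ 1 / 8) (hK1 : 1 ≤ K) (hb : ∀ ω, b ω ⬝ᵥ b ω ≤ K ^ 2) (hK : ε * K ≤ 1) (j : ℕ) :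
    |gauA ε b - gauS ε b j| ≤ gauCA (Fintype.card κ) j * (ε * K) ^ (2 * j + 2) := by
  have hK0 : 0 ≤ K := by linarith
  have hε1 : ε ≤ 1 := by nlinarith
  rw [gau_A_closed b (by linarith : ε ^ 2 < 1), gau_S_closed b ε j]
  have h1 := gau_rem1 hε hK0 hb hK j
  have h3 := gau_rem3 (κ := κ) hε8 j
  have hεK : 0 ≤ ε * K := by positivity
  -- remainder 2
  have ha0 : 0 ≤ ε ^ 2 * K := by positivity
  have ha1 : ε ^ 2 * K ≤ 1 := by nlinarith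
  have h2 : |(gauAv fun ω => ∫ x, Real.exp (ε ^ 2 * (b ω ⬝ᵥ x)) ∂qfG κ) - gauAv fun ω => ∫ x, gauTay j (ε ^ 2 * (b ω ⬝ᵥ x)) ∂qfG κ|
      ≤ ((j + 1).factorial : ℝ) * Real.exp 4 * (2 : ℝ) ^ ((Fintype.card κ : ℝ) / 2) * (ε * K) ^ (2 * j + 2) := by
    rw [← gauAv_sub]
    refine gauAv_abs_le fun ω => ?_
    have hc : (ε ^ 2 • b ω) ⬝ᵥ (ε ^ 2 • b ω) ≤ (ε ^ 2 * K) ^ 2 := by
      rw [smul_dotProduct, dotProduct_smul, smul_eq_mul, smul_eq_mul, mul_pow]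
      have := hb ω
      have h0 : 0 ≤ ε ^ 2 * ε ^ 2 := by positivity
      nlinarith
    have h := gau_rem2 ha0 ha1 hc j
    simp only [smul_dotProduct, smul_eq_mul] at h
    refine h.trans ?_
    have hpow : (ε ^ 2 * K) ^ (j + 1) ≤ (ε * K) ^ (2 * j + 2) := by
      have e : (ε * K) ^ (2 * j + 2) = (ε ^ 2 * K ^ 2) ^ (j + 1) := by
        rw [show 2 * j + 2 = 2 * (j + 1) by ring, pow_mul, mul_pow]
      rw [e]
      refine pow_le_pow_left₀ ha0 ?_ _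
      have : K ≤ K ^ 2 := by nlinarith
      have h0 : 0 ≤ ε ^ 2 := by positivity
      nlinarith
    gcongr
  have h3' : ((j + 1).factorial : ℝ) * 8 ^ (j + 1) * 2 ^ (Fintype.card κ) * ε ^ (2 * j + 2)
      ≤ ((j + 1).factorial : ℝ) * 8 ^ (j + 1) * 2 ^ (Fintype.card κ) * (ε * K) ^ (2 * j + 2) := by
    have : ε ≤ ε * K := le_mul_of_one_le_right hε hK1
    gcongr
  set a1 := gauAv fun ω => gauAv fun ω' => Real.exp (ε ^ 2 * (b ω ⬝ᵥ b ω'))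
  set a2 := gauAv fun ω => gauAv fun ω' => gauTay j (ε ^ 2 * (b ω ⬝ᵥ b ω'))
  set b1 := gauAv fun ω => ∫ x, Real.exp (ε ^ 2 * (b ω ⬝ᵥ x)) ∂qfG κ
  set b2 := gauAv fun ω => ∫ x, gauTay j (ε ^ 2 * (b ω ⬝ᵥ x)) ∂qfG κ
  set c1 := ∫ x, ∫ x', Real.exp (ε ^ 2 * (x ⬝ᵥ x')) ∂qfG κ ∂qfG κ
  set c2 := ∫ x, ∫ x', gauTay j (ε ^ 2 * (x ⬝ᵥ x')) ∂qfG κ ∂qfG κ
  have e : a1 - 2 * b1 + c1 - (a2 - 2 * b2 + c2) = (a1 - a2) - 2 * (b1 - b2) + (c1 - c2) := by ring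
  rw [e]
  have t1 : |(a1 - a2) - 2 * (b1 - b2) + (c1 - c2)| ≤ |a1 - a2| + 2 * |b1 - b2| + |c1 - c2| := by
    have := abs_add_le ((a1 - a2) - 2 * (b1 - b2)) (c1 - c2)
    have h5 := abs_sub (a1 - a2) (2 * (b1 - b2))
    rw [abs_mul, abs_two] at h5
    linarith
  refine t1.trans ?_
  unfold gauCA
  have := h3.trans h3'
  nlinarith

end expA

/-! ## 5. Projections (three consequences of the rotation invariance) -/

section proj

variable {Ω κ ι : Type} [Fintype Ω] [Fintype κ] [Fintype ι] [DecidableEq κ] [DecidableEq ι]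

/-- dictionary with the unit ENT -/
theorem gauAv_eq_enAvg (F : Ω → ℝ) : gauAv F = enAvg F := by
  unfold gauAv enAvg
  rw [div_eq_inv_mul]

theorem gauR_eq_enR (b : Ω → ι → ℝ) : gauR b = enR b := by
  funext y
  unfold gauR enR gauE
  rw [gauAv_eq_enAvg]
  simp only [gm_Sq_eq]

theorem gauEnt_eq_enEnt [Nonempty Ω] (b : Ω → ι → ℝ) : gauEnt b = enEnt b := by
  rw [en_Ent_eq, ← gauR_eq_enR]
  rfl

/-- entropy of the projected family, computed on the full space = entropy of the coordinates (from `en_Ent_gram` of the kit MIX: the Gram matrices agree, `<VᵀV b, VᵀV b'> = <V b, V Vᵀ V b'> = <V b, V b'>`) -/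
theorem gau_ent_proj [Nonempty Ω] (V : Matrix κ ι ℝ) (hV : V * Vᵀ = 1) (b : Ω → ι → ℝ) :
    gauEnt (fun ω => (Vᵀ * V) *ᵥ b ω) = gauEnt fun ω => V *ᵥ b ω := by
  rw [gauEnt_eq_enEnt, gauEnt_eq_enEnt]
  refine en_Ent_gram _ _ fun k l => ?_
  rw [← Matrix.mulVec_mulVec, ← Matrix.mulVec_mulVec, Matrix.dotProduct_mulVec, Matrix.vecMul_transpose, Matrix.mulVec_mulVec, hV,
    Matrix.one_mulVec]

omit [DecidableEq κ] [DecidableEq ι] [Fintype κ] in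
/-- expansion of a monomial of `V c` -/
theorem gau_prod_mulVec (V : Matrix κ ι ℝ) (c : ι → ℝ) {k : ℕ} (z : Fin k → κ) :
    ∏ a, (V *ᵥ c) (z a) = ∑ x : Fin k → ι, (∏ a, V (z a) (x a)) * ∏ a, c (x a) := by
  simp only [Matrix.mulVec, dotProduct]
  rw [Finset.prod_univ_sum, Fintype.piFinset_univ]
  exact Finset.sum_congr rfl fun x _ => Finset.prod_mul_distrib

omit [DecidableEq κ] [DecidableEq ι] [Fintype κ] [Fintype ι] in
/-- linearity of the average -/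
theorem gauAv_sum_mul {β : Type} [Fintype β] (A : β → ℝ) (F : Ω → β → ℝ) :
    (gauAv fun ω => ∑ x, A x * F ω x) = ∑ x, A x * gauAv fun ω => F ω x := by
  unfold gauAv
  rw [Finset.sum_comm, Finset.sum_div]
  refine Finset.sum_congr rfl fun x _ => ?_
  rw [← Finset.mul_sum, mul_div_assoc]

omit [DecidableEq κ] [DecidableEq ι] [Fintype κ] in
/-- the Gaussian integral of a monomial of `V g` -/
theorem gau_int_prod_mulVec (V : Matrix κ ι ℝ) {k : ℕ} (z : Fin k → κ) :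
    ∫ g, ∏ a, (V *ᵥ g) (z a) ∂qfG ι = ∑ x : Fin k → ι, (∏ a, V (z a) (x a)) * gauM0 ι k x := by
  simp only [gau_prod_mulVec]
  rw [integral_finsetSum _ fun x _ => (gau_mono_integrable x).const_mul _]
  refine Finset.sum_congr rfl fun x _ => ?_
  rw [integral_const_mul]
  rfl

/-- `Δ_k(V b) = V^{⊗k} Δ_k(b)`.   PLAN: `∏_a (V c)(z a) = Σ_x (∏_a V (z a) (x a)) ∏_a c (x a)` (`Finset.prod_univ_sum`, `Fintype.piFinset_univ`); average; for the Gaussian part `gau_rot_integral` with `F(g) = ∏_a g (z a)`,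
then the same expansion under the integral (`integral_finset_sum`, `gau_mono_integrable`). -/
theorem gau_Dl_map (V : Matrix κ ι ℝ) (hV : V * Vᵀ = 1) (b : Ω → ι → ℝ) (k : ℕ) (z : Fin k → κ) :
    gauDl (fun ω => V *ᵥ b ω) k z = ∑ x : Fin k → ι, (∏ a, V (z a) (x a)) * gauDl b k x := by
  have h1 : gauM (fun ω => V *ᵥ b ω) k z = ∑ x : Fin k → ι, (∏ a, V (z a) (x a)) * gauM b k x := by
    unfold gauM
    simp only [gau_prod_mulVec]
    exact gauAv_sum_mul _ _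
  have h2 : gauM0 κ k z = ∑ x : Fin k → ι, (∏ a, V (z a) (x a)) * gauM0 ι k x := by
    rw [← gau_int_prod_mulVec]
    exact (gau_rot_integral V hV (fun g => ∏ a, g (z a)) (by fun_prop : Measurable fun g : κ → ℝ => ∏ a, g (z a)).aestronglyMeasurable).symm
  unfold gauDl
  simp only [Pi.sub_apply, mul_sub, Finset.sum_sub_distrib]
  rw [h1, h2]

/-- `|V^{⊗k} D|² = <D, (VᵀV)^{⊗k} D>`.   PLAN: expand the square, exchange the sums, `Σ_z ∏_a V (z a) (x a) V (z a) (x' a) = ∏_a (VᵀV)(x a)(x' a)` (`Finset.prod_univ_sum` backwards), `etK_apply`. -/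
theorem gau_Dl_proj (V : Matrix κ ι ℝ) (hV : V * Vᵀ = 1) (b : Ω → ι → ℝ) (k : ℕ) :
    gauDl (fun ω => V *ᵥ b ω) k ⬝ᵥ gauDl (fun ω => V *ᵥ b ω) k = gauDl b k ⬝ᵥ (etAll (Vᵀ * V) *ᵥ gauDl b k) := by
  set T : Matrix (Fin k → κ) (Fin k → ι) ℝ := fun z x => ∏ a, V (z a) (x a) with hT
  have h1 : gauDl (fun ω => V *ᵥ b ω) k = T *ᵥ gauDl b k := by
    funext z
    rw [gau_Dl_map V hV b k z]
    rfl
  have h2 : Tᵀ * T = etAll (Vᵀ * V) := by
    ext x x'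
    have e : etAll (Vᵀ * V) x x' = ∏ a : Fin k, ∑ i, V i (x a) * V i (x' a) := rfl
    rw [e, Finset.prod_univ_sum, Fintype.piFinset_univ, Matrix.mul_apply]
    refine Finset.sum_congr rfl fun z _ => ?_
    rw [Finset.prod_mul_distrib]
    rfl
  rw [h1, ← h2, ← Matrix.mulVec_mulVec, Matrix.dotProduct_mulVec (gauDl b k), Matrix.vecMul_transpose]

/-- the Gaussian moment tensors are exactly swap invariant.   PLAN: `(etAll N *ᵥ M⁰_k) x = ∫ ∏_a (N g)(x a) dγ` (finite sums, `gau_mono_integrable`);  for `N = Vᵀ σ V`: `N g = Vᵀ (σ V g)`; `gau_rot_integral` for `σ V`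
(`(σV)(σV)ᵀ = σ V Vᵀ σᵀ = 1`) and for `V`, with `F(z) = ∏_a (Vᵀ z)(x a)` (continuous). -/
theorem gau_M0_swap (V : Matrix κ ι ℝ) (hV : V * Vᵀ = 1) (σ : Matrix κ κ ℝ) (hσ : σ * σᵀ = 1) (k : ℕ) :
    etAll (Vᵀ * σ * V) *ᵥ gauM0 ι k = etAll (Vᵀ * V) *ᵥ gauM0 ι k := by
  have key : ∀ (N : Matrix ι ι ℝ) (x : Fin k → ι), (etAll N *ᵥ gauM0 ι k) x = ∫ g, ∏ a, (N *ᵥ g) (x a) ∂qfG ι := by
    intro N x
    rw [gau_int_prod_mulVec]
    rfl
  funext x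
  rw [key, key]
  have hm : Measurable fun w : κ → ℝ => ∏ a, (Vᵀ *ᵥ w) (x a) := by
    simp only [Matrix.mulVec, dotProduct]
    fun_prop
  have hσV : (σ * V) * (σ * V)ᵀ = 1 := by
    rw [Matrix.transpose_mul, Matrix.mul_assoc, ← Matrix.mul_assoc V, hV, Matrix.one_mul, hσ]
  have a1 := gau_rot_integral (σ * V) hσV (fun w => ∏ a, (Vᵀ *ᵥ w) (x a)) hm.aestronglyMeasurable
  have a2 := gau_rot_integral V hV (fun w => ∏ a, (Vᵀ *ᵥ w) (x a)) hm.aestronglyMeasurable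
  simp only [Matrix.mulVec_mulVec] at a1 a2
  rw [← Matrix.mul_assoc] at a1
  rw [a1, a2]

/-- low orders of the Gaussian tensor.   PLAN: `k = 0`: `∫ 1 = 1`.   `k = 1`: `qf_coord_integral`, `integral_id_gaussianReal`.   `k = 2`: `x 0 = x 1`: `qf_g1_sq`; else product of two different coordinates: independence
(`integral_fintype_prod_eq_prod` with `f_a = id` at the two coordinates and `1` elsewhere) gives `0`. -/
theorem gau_M0_low : (∀ x : Fin 0 → κ, gauM0 κ 0 x = 1) ∧ (∀ x : Fin 1 → κ, gauM0 κ 1 x = 0) ∧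
    ∀ x : Fin 2 → κ, gauM0 κ 2 x = if x 0 = x 1 then 1 else 0 := by
  have : IsProbabilityMeasure (qfG κ) := by unfold qfG; infer_instance
  refine ⟨fun x => ?_, fun x => ?_, fun x => ?_⟩
  · unfold gauM0
    simp
  · unfold gauM0
    simp only [Fin.prod_univ_one]
    exact (gau_coord_moments (x 0)).2.2.1
  · unfold gauM0
    simp only [Fin.prod_univ_two]
    have h := gm_mom2 (1 : Matrix κ κ ℝ) (x 0) (x 1)
    simp only [Matrix.one_mulVec, Matrix.transpose_one, Matrix.mul_one, Matrix.one_apply] at h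
    exact h

end proj

/-! ## 6. The geometry with colours -/

section col

open Kronecker

/-- coordinates on `U_i ⊗ ℝ^l` -/
noncomputable def gauV (d l : ℕ) (i : Fin d) : Matrix (Fin 2 × Fin l) (Fin d × Fin l) ℝ := etV d i ⊗ₖ (1 : Matrix (Fin l) (Fin l) ℝ)

/-- the projection `P_i ⊗ 1` -/
noncomputable def gauPi (d l : ℕ) (i : Fin d) : Matrix (Fin d × Fin l) (Fin d × Fin l) ℝ := etP d i ⊗ₖ (1 : Matrix (Fin l) (Fin l) ℝ)

/-- the swap `S_i ⊗ 1` (`ω ↔ v_i` on `U_i`, zero on the complement) -/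
noncomputable def gauSg (d l : ℕ) (p : ℝ) (i : Fin d) : Matrix (Fin d × Fin l) (Fin d × Fin l) ℝ := etSw d p i ⊗ₖ (1 : Matrix (Fin l) (Fin l) ℝ)

/-- the reflection in coordinates -/
noncomputable def gauSig (l : ℕ) (p : ℝ) : Matrix (Fin 2 × Fin l) (Fin 2 × Fin l) ℝ :=
  !![p, √(1 - p ^ 2); √(1 - p ^ 2), -p] ⊗ₖ (1 : Matrix (Fin l) (Fin l) ℝ)

theorem gauV_eqns_cite : True := by
  have := @gauV.eq_1
  have := @gauPi.eq_1
  have := @gauSg.eq_1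
  have := @gauSig.eq_1
  trivial

variable {d : ℕ}

/-- PLAN: `Matrix.kroneckerMap_transpose`, `Matrix.mul_kronecker_mul`, `etV_mul_transpose`, `Matrix.one_kronecker_one`. -/
theorem gauV_mul_transpose (hd : 1 < d) (l : ℕ) (i : Fin d) : gauV d l i * (gauV d l i)ᵀ = 1 := by
  unfold gauV
  rw [← Matrix.kroneckerMap_transpose, ← Matrix.mul_kronecker_mul, etV_mul_transpose hd, Matrix.transpose_one, Matrix.mul_one,
    Matrix.one_kronecker_one]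

/-- PLAN: `etP d i = etM d i 1 = (etV d i)ᵀ * 1 * etV d i`; `Matrix.mul_kronecker_mul`. -/
theorem gauPi_eq (l : ℕ) (i : Fin d) : gauPi d l i = (gauV d l i)ᵀ * gauV d l i := by
  unfold gauPi gauV etP etM
  rw [← Matrix.kroneckerMap_transpose, ← Matrix.mul_kronecker_mul, Matrix.transpose_one, Matrix.mul_one, Matrix.mul_one]

/-- PLAN: `etSw d p i = etM d i !![..]`; `Matrix.mul_kronecker_mul` twice. -/
theorem gauSg_eq (l : ℕ) (p : ℝ) (i : Fin d) : gauSg d l p i = (gauV d l i)ᵀ * gauSig l p * gauV d l i := by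
  unfold gauSg gauV gauSig etSw etM
  rw [← Matrix.kroneckerMap_transpose, ← Matrix.mul_kronecker_mul, ← Matrix.mul_kronecker_mul, Matrix.transpose_one, Matrix.mul_one,
    Matrix.mul_one]

/-- PLAN: the `2 × 2` reflection squares to `1` (`et_q0`), it is symmetric; `Matrix.mul_kronecker_mul`. -/
theorem gauSig_mul {p : ℝ} (hp : |p| < 1) (l : ℕ) : gauSig l p * (gauSig l p)ᵀ = 1 := by
  unfold gauSig
  rw [← Matrix.kroneckerMap_transpose, ← Matrix.mul_kronecker_mul, Matrix.transpose_one, Matrix.mul_one]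
  have h := et_q0 hp
  have e : !![p, √(1 - p ^ 2); √(1 - p ^ 2), -p] * !![p, √(1 - p ^ 2); √(1 - p ^ 2), -p]ᵀ = 1 := by
    ext a b
    fin_cases a <;> fin_cases b <;> simp [Matrix.mul_apply, Fin.sum_univ_two] <;> nlinarith
  rw [e, Matrix.one_kronecker_one]

/-- `gauPi` is a symmetric idempotent of trace `2l` with entries bounded by `1`.   PLAN: `gauPi_eq`, `gauV_mul_transpose`; trace: `Matrix.trace_mul_comm`, `trace 1 = card (Fin 2 × Fin l)`;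
entries: `|Π x y| ≤ 1` from `Π x y = <Π e_x, Π e_y>` and `et_proj_le` (Cauchy-Schwarz), or from the explicit entries. -/
theorem gauPi_props (hd : 1 < d) (l : ℕ) (i : Fin d) :
    (gauPi d l i)ᵀ = gauPi d l i ∧ gauPi d l i * gauPi d l i = gauPi d l i ∧ (gauPi d l i).trace = 2 * l ∧ ∀ x y, |gauPi d l i x y| ≤ 1 := by
  have hV := gauV_mul_transpose hd l i
  have hs : (gauPi d l i)ᵀ = gauPi d l i := by
    rw [gauPi_eq, Matrix.transpose_mul, Matrix.transpose_transpose]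
  have hi : gauPi d l i * gauPi d l i = gauPi d l i := by
    rw [gauPi_eq]
    calc (gauV d l i)ᵀ * gauV d l i * ((gauV d l i)ᵀ * gauV d l i)
        = (gauV d l i)ᵀ * (gauV d l i * (gauV d l i)ᵀ) * gauV d l i := by simp only [Matrix.mul_assoc]
      _ = (gauV d l i)ᵀ * gauV d l i := by rw [hV, Matrix.mul_one]
  refine ⟨hs, hi, ?_, fun x y => ?_⟩
  · rw [gauPi_eq, Matrix.trace_mul_comm, hV, Matrix.trace_one]
    simp
  · have h1 : gauPi d l i x x ≤ 1 := by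
      have h := et_proj_le hs hi (Pi.single x 1)
      simpa using h
    have h2 : gauPi d l i x x = ∑ z, gauPi d l i x z ^ 2 := by
      conv_lhs => rw [← hi]
      rw [Matrix.mul_apply]
      refine Finset.sum_congr rfl fun z _ => ?_
      have : gauPi d l i z x = gauPi d l i x z := by
        conv_lhs => rw [← hs]
        rfl
      rw [this, sq]
    have h3 : gauPi d l i x y ^ 2 ≤ ∑ z, gauPi d l i x z ^ 2 :=
      Finset.single_le_sum (f := fun z => gauPi d l i x z ^ 2) (fun z _ => sq_nonneg _) (Finset.mem_univ y)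
    exact (sq_le_one_iff_abs_le_one _).1 (by linarith)

/-- sums over tuples of pairs -/
theorem gau_sl_sum {j l : ℕ} (F : (Fin j → Fin d × Fin l) → ℝ) :
    ∑ z, F z = ∑ c : Fin j → Fin l, ∑ x : Fin j → Fin d, F fun a => (x a, c a) := by
  rw [Finset.sum_comm, ← Fintype.sum_prod_type']
  exact Fintype.sum_equiv (Equiv.arrowProdEquivProdArrow (Fin j) (fun _ => Fin d) (fun _ => Fin l)) _ _ fun z => rfl

/-- the colour slices of `(M ⊗ 1)^{⊗j} H` -/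
theorem gau_sl_all {j l : ℕ} (M : Matrix (Fin d) (Fin d) ℝ) (H : (Fin j → Fin d × Fin l) → ℝ) (c : Fin j → Fin l) :
    (fun x : Fin j → Fin d => (etAll (M ⊗ₖ (1 : Matrix (Fin l) (Fin l) ℝ)) *ᵥ H) fun a => (x a, c a))
      = etAll M *ᵥ fun x' => H fun a => (x' a, c a) := by
  funext x
  simp only [Matrix.mulVec, dotProduct]
  rw [gau_sl_sum, Finset.sum_eq_single c]
  · refine Finset.sum_congr rfl fun x' _ => ?_
    congr 1
    simp [etAll, etK_apply, Matrix.kroneckerMap_apply]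
  · intro c' _ hne
    refine Finset.sum_eq_zero fun x' _ => ?_
    obtain ⟨a, ha⟩ : ∃ a, c' a ≠ c a := by
      by_contra hcon
      exact hne (funext fun a => not_not.1 fun h => hcon ⟨a, h⟩)
    have : etAll (M ⊗ₖ (1 : Matrix (Fin l) (Fin l) ℝ)) (fun a => (x a, c a)) (fun a => (x' a, c' a)) = 0 := by
      unfold etAll
      rw [etK_apply]
      refine Finset.prod_eq_zero (Finset.mem_univ a) ?_
      rw [Matrix.kroneckerMap_apply, Matrix.one_apply_ne (Ne.symm ha), mul_zero]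
    rw [this, zero_mul]
  · intro h
    exact absurd (Finset.mem_univ c) h

/-- the scalar product is the sum over the colour slices -/
theorem gau_sl_dot {j l : ℕ} (H G : (Fin j → Fin d × Fin l) → ℝ) :
    H ⬝ᵥ G = ∑ c : Fin j → Fin l, (fun x : Fin j → Fin d => H fun a => (x a, c a)) ⬝ᵥ fun x => G fun a => (x a, c a) := by
  unfold dotProduct
  rw [gau_sl_sum]

/-- **[T] with colours.**   PLAN: `et_tensor_col` with `γ = Fin j → Fin l`; reindex `(Fin j → Fin d × Fin l) ≃ (Fin j → Fin l) × (Fin j → Fin d)` (`Equiv.arrowProdEquivProdArrow`, `Equiv.prodComm`);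
`etAll (M ⊗ₖ 1) (x,c) (x',c') = (∏_a M (x a) (x' a)) [c = c']` (`Finset.prod_mul_distrib`, `Fintype.prod_ite_zero`-like: `∏_a (1 : Matrix _ _ ℝ) (c a) (c' a) = if c = c' then 1 else 0`), so that `etQ`, `etL`, `⬝ᵥ` are sums over the colour tuples `c`. -/
theorem gau_tensor (hd : 3 ≤ d) {p : ℝ} (hp : p ^ 2 < 4 * ((d : ℝ) - 1) / (d : ℝ) ^ 2) (l : ℕ) {j : ℕ} (hj : 3 ≤ j) :
    ∃ C c : ℝ, 0 ≤ C ∧ 0 < c ∧ ∀ H : (Fin j → Fin d × Fin l) → ℝ,
      c * (H ⬝ᵥ H) ≤ etQ (gauPi d l) H + C * etL (gauPi d l) (gauSg d l p) H := by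
  obtain ⟨C, c, hC, hc, h⟩ := et_tensor_col hd hp hj
  refine ⟨C, c, hC, hc, fun H => ?_⟩
  have h1 := h (Fin j → Fin l) (fun g x => H fun a => (x a, g a))
  have e1 := gau_sl_dot H H
  have e2 : etQ (gauPi d l) H = ∑ g : Fin j → Fin l, etQ (etP d) (fun x => H fun a => (x a, g a)) := by
    unfold etQ
    rw [Finset.sum_sub_distrib, ← e1, ← Finset.mul_sum, Finset.sum_comm]
    congr 2
    refine Finset.sum_congr rfl fun i _ => ?_
    rw [gau_sl_dot]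
    refine Finset.sum_congr rfl fun g _ => ?_
    unfold gauPi
    rw [gau_sl_all]
  have e3 : etL (gauPi d l) (gauSg d l p) H = ∑ g : Fin j → Fin l, etL (etP d) (etSw d p) (fun x => H fun a => (x a, g a)) := by
    unfold etL
    rw [Finset.sum_comm]
    refine Finset.sum_congr rfl fun i _ => ?_
    rw [gau_sl_dot]
    refine Finset.sum_congr rfl fun g _ => ?_
    have e4 : (fun x : Fin j → Fin d => (etAll (gauSg d l p i) *ᵥ H - etAll (gauPi d l i) *ᵥ H) fun a => (x a, g a))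
        = etAll (etSw d p i) *ᵥ (fun x => H fun a => (x a, g a)) - etAll (etP d i) *ᵥ (fun x => H fun a => (x a, g a)) := by
      rw [← gau_sl_all, ← gau_sl_all]
      rfl
    rw [e4]
  rw [e1, e2, e3]
  exact h1

/-- `p² < 4(d-1)/d²` and `d ≥ 3` (even `d ≥ 2`) give `|p| < 1` -/
theorem gau_p_lt_one (hd : 3 ≤ d) {p : ℝ} (hp : p ^ 2 < 4 * ((d : ℝ) - 1) / (d : ℝ) ^ 2) : |p| < 1 := by
  have hd3 : (3 : ℝ) ≤ d := by exact_mod_cast hd
  have h1 : 4 * ((d : ℝ) - 1) / (d : ℝ) ^ 2 ≤ 1 := by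
    rw [div_le_one (by positivity)]
    nlinarith [sq_nonneg ((d : ℝ) - 2)]
  have h2 : p ^ 2 < 1 := lt_of_lt_of_le hp h1
  exact (sq_lt_one_iff_abs_lt_one p).1 h2

end col

/-! ## 7. The hypotheses, the one step inequality -/

section step

/-- **the hypotheses of the Gaussian criterion** (P1 Lemma 3.6) for a finite family `B : Ω → ℝ^{d × l}`, with the bound `K` and the defect `δ`. -/
structure GauHyp (d l q : ℕ) (p : ℝ) {Ω : Type} [Fintype Ω] (B : Ω → Fin d × Fin l → ℝ) (K δ : ℝ) : Prop where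
  /-- Euclidean bound -/
  bd : ∀ ω, B ω ⬝ᵥ B ω ≤ K ^ 2
  /-- mean -/
  m1 : ∀ x, |gauAv fun ω => B ω x| ≤ δ
  /-- covariance -/
  m2 : ∀ x y, |(gauAv fun ω => B ω x * B ω y) - if x = y then 1 else 0| ≤ δ
  /-- swap defects of the moment tensors -/
  sw : ∀ j, j ≤ q → ∀ i x, |(etAll (gauSg d l p i) *ᵥ gauM B j - etAll (gauPi d l i) *ᵥ gauM B j) x| ≤ δ
  /-- entropy inequality, ratio form -/
  ent : ∀ ε : ℝ, 0 ≤ ε → ε ≤ 1 → gauEnt (ε • B) - (1 / 2) * ∑ i, gauEnt (ε • fun ω => gauPi d l i *ᵥ B ω) ≤ δ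

variable {d l q : ℕ} {p : ℝ} {Ω : Type} [Fintype Ω] {B : Ω → Fin d × Fin l → ℝ} {K δ : ℝ}

/-- monotonicity in `K` -/
theorem GauHyp.mono (h : GauHyp d l q p B K δ) {K' : ℝ} (hK : 0 ≤ K) (hKK : K ≤ K') : GauHyp d l q p B K' δ :=
  ⟨fun ω => (h.bd ω).trans (by gcongr), h.m1, h.m2, h.sw, h.ent⟩

/-- linearity of the average -/
theorem gauAv_sum {X : Type} (s : Finset X) (F : X → Ω → ℝ) : (gauAv fun ω => ∑ x ∈ s, F x ω) = ∑ x ∈ s, gauAv (F x) := by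
  unfold gauAv
  rw [Finset.sum_comm, Finset.sum_div]

theorem gauAv_const_mul (c : ℝ) (F : Ω → ℝ) : (gauAv fun ω => c * F ω) = c * gauAv F := by
  unfold gauAv
  rw [← Finset.mul_sum, mul_div_assoc]

/-- the explicit terms cancel up to `O(δ)`.   PLAN: `avg |B|² = Σ_x avg B_x² = r + O(rδ)`;  `avg <B,Π_i B> = Σ_{x,y} Π_i x y avg B_x B_y = tr Π_i + O(r² δ)` (`gauPi_props`); `r = d l`, `tr Π_i = 2l`, `d l - (1/2) d (2l) = 0`. -/
theorem GauHyp.second (hd : 1 < d) (h : GauHyp d l q p B K δ) :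
    |(gauAv fun ω => B ω ⬝ᵥ B ω) - (1 / 2) * ∑ i, gauAv fun ω => B ω ⬝ᵥ (gauPi d l i *ᵥ B ω)| ≤ ((d * l : ℕ) + (d : ℝ) * (d * l : ℕ) ^ 2) * δ := by
  obtain ⟨r, hr⟩ : ∃ r : ℝ, r = ((d * l : ℕ) : ℝ) := ⟨_, rfl⟩
  rw [← hr]
  have hcard : (Fintype.card (Fin d × Fin l) : ℝ) = r := by rw [hr]; simp
  have hA : |(gauAv fun ω => B ω ⬝ᵥ B ω) - r| ≤ r * δ := by
    have e : (gauAv fun ω => B ω ⬝ᵥ B ω) - r = ∑ x, ((gauAv fun ω => B ω x * B ω x) - 1) := by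
      rw [Finset.sum_sub_distrib, ← gauAv_sum, Finset.sum_const, Finset.card_univ, nsmul_eq_mul, hcard, mul_one]
      rfl
    rw [e]
    calc |∑ x, ((gauAv fun ω => B ω x * B ω x) - 1)| ≤ ∑ x, |(gauAv fun ω => B ω x * B ω x) - 1| := Finset.abs_sum_le_sum_abs _ _
      _ ≤ ∑ _x : Fin d × Fin l, δ := Finset.sum_le_sum fun x _ => by simpa using h.m2 x x
      _ = r * δ := by rw [Finset.sum_const, Finset.card_univ, nsmul_eq_mul, hcard]
  have hP : ∀ i, |(gauAv fun ω => B ω ⬝ᵥ (gauPi d l i *ᵥ B ω)) - 2 * l| ≤ r ^ 2 * δ := by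
    intro i
    obtain ⟨-, -, htr, hent⟩ := gauPi_props hd l i
    have e : (gauAv fun ω => B ω ⬝ᵥ (gauPi d l i *ᵥ B ω)) - 2 * l
        = ∑ x, ∑ y, gauPi d l i x y * ((gauAv fun ω => B ω x * B ω y) - if x = y then 1 else 0) := by
      rw [← htr]
      simp only [mul_sub, Finset.sum_sub_distrib]
      congr 1
      · simp only [← gauAv_const_mul, ← gauAv_sum]
        congr 1
        funext ω
        simp only [dotProduct, Matrix.mulVec, Finset.mul_sum]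
        exact Finset.sum_congr rfl fun x _ => Finset.sum_congr rfl fun y _ => by ring
      · simp [Matrix.trace]
    rw [e]
    calc |∑ x, ∑ y, gauPi d l i x y * ((gauAv fun ω => B ω x * B ω y) - if x = y then 1 else 0)|
        ≤ ∑ x, ∑ y, |gauPi d l i x y * ((gauAv fun ω => B ω x * B ω y) - if x = y then 1 else 0)| :=
          (Finset.abs_sum_le_sum_abs _ _).trans (Finset.sum_le_sum fun x _ => Finset.abs_sum_le_sum_abs _ _)
      _ ≤ ∑ _x : Fin d × Fin l, ∑ _y : Fin d × Fin l, δ := by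
          refine Finset.sum_le_sum fun x _ => Finset.sum_le_sum fun y _ => ?_
          rw [abs_mul]
          calc |gauPi d l i x y| * |(gauAv fun ω => B ω x * B ω y) - if x = y then 1 else 0| ≤ 1 * δ :=
                mul_le_mul (hent x y) (h.m2 x y) (abs_nonneg _) zero_le_one
            _ = δ := one_mul _
      _ = r ^ 2 * δ := by
          simp only [Finset.sum_const, Finset.card_univ, nsmul_eq_mul, hcard]
          ring
  have h0 : 0 ≤ r ^ 2 * δ := (abs_nonneg _).trans (hP ⟨0, by omega⟩)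
  have hS : |∑ i, ((gauAv fun ω => B ω ⬝ᵥ (gauPi d l i *ᵥ B ω)) - 2 * l)| ≤ d * (r ^ 2 * δ) := by
    calc _ ≤ ∑ i, |(gauAv fun ω => B ω ⬝ᵥ (gauPi d l i *ᵥ B ω)) - 2 * l| := Finset.abs_sum_le_sum_abs _ _
      _ ≤ ∑ _i : Fin d, r ^ 2 * δ := Finset.sum_le_sum fun i _ => hP i
      _ = d * (r ^ 2 * δ) := by rw [Finset.sum_const, Finset.card_univ, nsmul_eq_mul, Fintype.card_fin]
  have e : (gauAv fun ω => B ω ⬝ᵥ B ω) - (1 / 2) * (∑ i, gauAv fun ω => B ω ⬝ᵥ (gauPi d l i *ᵥ B ω))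
      = ((gauAv fun ω => B ω ⬝ᵥ B ω) - r) - (1 / 2) * ∑ i, ((gauAv fun ω => B ω ⬝ᵥ (gauPi d l i *ᵥ B ω)) - 2 * l) := by
    rw [Finset.sum_sub_distrib, Finset.sum_const, Finset.card_univ, Fintype.card_fin, nsmul_eq_mul, hr]
    push_cast
    ring
  rw [e]
  have e2 : (r + d * r ^ 2) * δ = r * δ + d * (r ^ 2 * δ) := by ring
  rw [e2]
  have hd0 : (0 : ℝ) ≤ d * (r ^ 2 * δ) := by positivity
  obtain ⟨a1, a2⟩ := abs_le.1 hA
  obtain ⟨s1, s2⟩ := abs_le.1 hS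
  exact abs_le.2 ⟨by linarith, by linarith⟩

theorem gauV_sq (i : Fin d) (y : Fin d × Fin l → ℝ) : (gauV d l i *ᵥ y) ⬝ᵥ (gauV d l i *ᵥ y) = y ⬝ᵥ (gauPi d l i *ᵥ y) := by
  rw [gauPi_eq, ← Matrix.mulVec_mulVec, Matrix.dotProduct_mulVec y, Matrix.vecMul_transpose]

theorem gauV_sq_le (hd : 1 < d) (i : Fin d) (y : Fin d × Fin l → ℝ) : (gauV d l i *ᵥ y) ⬝ᵥ (gauV d l i *ᵥ y) ≤ y ⬝ᵥ y := by
  rw [gauV_sq]
  obtain ⟨h1, h2, -, -⟩ := gauPi_props hd l i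
  exact et_proj_le h1 h2 y

theorem GauHyp.bdV (hd : 1 < d) (h : GauHyp d l q p B K δ) (i : Fin d) (ω : Ω) : (gauV d l i *ᵥ B ω) ⬝ᵥ (gauV d l i *ᵥ B ω) ≤ K ^ 2 :=
  (gauV_sq_le hd i _).trans (h.bd ω)

theorem gauEnt_proj_smul [Nonempty Ω] (hd : 1 < d) (B : Ω → Fin d × Fin l → ℝ) (ε : ℝ) (i : Fin d) :
    gauEnt (ε • fun ω => gauPi d l i *ᵥ B ω) = gauEnt (ε • fun ω => gauV d l i *ᵥ B ω) := by
  have h := gau_ent_proj (gauV d l i) (gauV_mul_transpose hd l i) (ε • B)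
  rw [← gauPi_eq] at h
  have e1 : (ε • fun ω => gauPi d l i *ᵥ B ω) = fun ω => gauPi d l i *ᵥ (ε • B) ω := by
    funext ω
    simp [Matrix.mulVec_smul]
  have e2 : (ε • fun ω => gauV d l i *ᵥ B ω) = fun ω => gauV d l i *ᵥ (ε • B) ω := by
    funext ω
    simp [Matrix.mulVec_smul]
  rw [e1, e2, h]

theorem GauHyp.delta_nonneg [Nonempty Ω] (h : GauHyp d l q p B K δ) : 0 ≤ δ := by
  have h0 := h.ent 0 le_rfl zero_le_one
  have e : ∀ (κ : Type) [Fintype κ] (b : Ω → κ → ℝ), gauEnt ((0 : ℝ) • b) = 0 := by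
    intro κ _ b
    have hR : ∀ y, gauR ((0 : ℝ) • b) y = 1 := by
      intro y
      unfold gauR gauAv gauE
      simp
    unfold gauEnt
    simp only [hR, Real.log_one, mul_zero, integral_zero]
  rw [e] at h0
  simp only [e] at h0
  simpa using h0

/-- **KL form of the entropy inequality** ((a) of the chain).   PLAN: `gau_ent_split` for `B` (`κ = Fin d × Fin l`, `r = d l`) and for `V_i B` (`κ = Fin 2 × Fin l`, `r = 2l`), `gau_ent_proj` + `gauPi_eq`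
(note `ε • fun ω => Π *ᵥ B ω = fun ω => Π *ᵥ (ε • B) ω`, `Matrix.mulVec_smul`), `|V_i B|² = <B, Π_i B> ≤ |B|² ≤ K²` (`et_proj_le`, `gauPi_props`);  the `log` terms and the `r` terms cancel (`d l = (1/2) d (2l)`), the rest is `GauHyp.second` times `ε⁴/(2(1+ε²)) ≤ 1`. -/
theorem GauHyp.kl [Nonempty Ω] (hd : 1 < d) (h : GauHyp d l q p B K δ) {ε : ℝ} (hε : 0 ≤ ε) (hε8 : ε ^ 2 ≤ 1 / 8) (hK0 : 0 ≤ K) (hK : ε * K ≤ 1) :
    gauKL ε B - (1 / 2) * ∑ i, gauKL ε (fun ω => gauV d l i *ᵥ B ω) ≤ (1 + ((d * l : ℕ) + (d : ℝ) * (d * l : ℕ) ^ 2)) * δ := by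
  have hε1 : ε ≤ 1 := by nlinarith
  have hδ := h.delta_nonneg
  have E1 := gau_ent_split hε hε8 hK0 h.bd hK
  have E2 : ∀ i, gauEnt (ε • fun ω => gauPi d l i *ᵥ B ω) = gauKL ε (fun ω => gauV d l i *ᵥ B ω) - (l : ℝ) * Real.log (1 + ε ^ 2)
      + ε ^ 2 * (ε ^ 2 * (gauAv fun ω => B ω ⬝ᵥ (gauPi d l i *ᵥ B ω)) + 2 * l) / (2 * (1 + ε ^ 2)) := by
    intro i
    rw [gauEnt_proj_smul hd, gau_ent_split hε hε8 hK0 (h.bdV hd i) hK]
    simp only [gauV_sq, Fintype.card_prod, Fintype.card_fin]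
    push_cast
    ring
  have hent := h.ent ε hε hε1
  have hsec := h.second hd
  rw [E1] at hent
  simp only [E2] at hent
  simp only [Fintype.card_prod, Fintype.card_fin] at hent
  rw [Finset.sum_add_distrib, Finset.sum_sub_distrib] at hent
  simp only [Finset.sum_const, Finset.card_univ, Fintype.card_fin, nsmul_eq_mul, ← Finset.sum_div, ← Finset.mul_sum, Finset.sum_add_distrib] at hent
  set a1 := gauAv fun ω => B ω ⬝ᵥ B ω
  set a2 := ∑ i, gauAv fun ω => B ω ⬝ᵥ (gauPi d l i *ᵥ B ω)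
  set k1 := gauKL ε B
  set k2 := ∑ i, gauKL ε (fun ω => gauV d l i *ᵥ B ω)
  set L := Real.log (1 + ε ^ 2)
  set M : ℝ := ((d * l : ℕ) + (d : ℝ) * (d * l : ℕ) ^ 2) with hM
  have hs2 : 0 < 2 * (1 + ε ^ 2) := by positivity
  have hM0 : 0 ≤ M := by positivity
  have key : k1 - 1 / 2 * k2 + ε ^ 4 / (2 * (1 + ε ^ 2)) * (a1 - 1 / 2 * a2) ≤ δ := by
    have e : k1 - 1 / 2 * k2 + ε ^ 4 / (2 * (1 + ε ^ 2)) * (a1 - 1 / 2 * a2)
        = k1 - ((d * l : ℕ) : ℝ) / 2 * L + ε ^ 2 * (ε ^ 2 * a1 + ((d * l : ℕ) : ℝ)) / (2 * (1 + ε ^ 2))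
          - 1 / 2 * (k2 - (d : ℝ) * ((l : ℝ) * L) + ε ^ 2 * (ε ^ 2 * a2 + (d : ℝ) * (2 * l)) / (2 * (1 + ε ^ 2))) := by
      push_cast
      field_simp
      ring
    rw [e]
    exact hent
  have hcoef : ε ^ 4 / (2 * (1 + ε ^ 2)) ≤ 1 := by
    rw [div_le_one hs2]
    nlinarith [sq_nonneg ε, sq_nonneg (ε ^ 2)]
  have hcoef0 : 0 ≤ ε ^ 4 / (2 * (1 + ε ^ 2)) := by positivity
  have h5 : -(M * δ) ≤ a1 - 1 / 2 * a2 := (abs_le.1 hsec).1
  have h6 : -(M * δ) ≤ ε ^ 4 / (2 * (1 + ε ^ 2)) * (a1 - 1 / 2 * a2) := by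
    have hMδ : 0 ≤ M * δ := by positivity
    by_cases hs : 0 ≤ a1 - 1 / 2 * a2
    · have : 0 ≤ ε ^ 4 / (2 * (1 + ε ^ 2)) * (a1 - 1 / 2 * a2) := by positivity
      linarith
    · push Not at hs
      nlinarith
  linarith

theorem gauTh_nonneg (r : ℕ) {ε K R : ℝ} (hε : 0 ≤ ε) (hK : 0 ≤ K) (hR : 0 ≤ R) : 0 ≤ gauTh r ε K R := by
  unfold gauTh
  positivity

theorem gauTh_mono {r r' : ℕ} (h : r ≤ r') (ε K R : ℝ) : gauTh r ε K R ≤ gauTh r' ε K R := by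
  unfold gauTh
  have : (r : ℝ) ≤ r' := by exact_mod_cast h
  have h2 : 0 ≤ ε ^ 2 := by positivity
  nlinarith

theorem gauA_nonneg {κ : Type} [Fintype κ] (ε : ℝ) (b : Ω → κ → ℝ) : 0 ≤ gauA ε b :=
  integral_nonneg fun _ => sq_nonneg _

/-- **the `A` form** ((b) of the chain).   PLAN: `GauHyp.kl`, `gau_KL_lower` for `B`, `gau_KL_upper` for `V_i B` (`gauTh (2l) ≤ gauTh (d l)` as `2 ≤ d`), `gau_tail` (four constants into one), `0 ≤ A`. -/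
theorem GauHyp.aform [Nonempty Ω] (hd : 2 ≤ d) (h : GauHyp d l q p B K δ) {ε R : ℝ} (hε : 0 ≤ ε) (hK : 1 ≤ K) (hR : 1 ≤ R) (hθ : gauTh (d * l) ε K R ≤ 1 / 8) :
    (1 / 2) * (gauA ε B - (1 / 2) * ∑ i, gauA ε (fun ω => gauV d l i *ᵥ B ω))
      ≤ (1 + ((d * l : ℕ) + (d : ℝ) * (d * l : ℕ) ^ 2)) * δ
        + 2 * gauTh (d * l) ε K R * (gauA ε B + ∑ i, gauA ε (fun ω => gauV d l i *ᵥ B ω))
        + 14 * (1 + d) * (2 : ℝ) ^ (d * l) * Real.exp (-(R ^ 2) / 8) := by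
  have hd1 : 1 < d := by omega
  have hK0 : 0 ≤ K := by linarith
  have hR0 : 0 ≤ R := by linarith
  obtain ⟨hεK, -, hε8⟩ := gauTh_small hε hK hR hθ
  have hεK1 : ε * K ≤ 1 := by linarith
  have hkl := h.kl hd1 hε hε8 hK0 hεK1
  have c1 : Fintype.card (Fin d × Fin l) = d * l := by simp
  have c2 : Fintype.card (Fin 2 × Fin l) = 2 * l := by simp
  have hll : 2 * l ≤ d * l := Nat.mul_le_mul_right l hd
  set θ := gauTh (d * l) ε K R with hθdef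
  have hθ0 : 0 ≤ θ := gauTh_nonneg _ hε hK0 hR0
  have hθi : gauTh (2 * l) ε K R ≤ θ := gauTh_mono hll _ _ _
  have hlow := gau_KL_lower hε hK hR h.bd (by rw [c1]; exact hθ)
  rw [c1] at hlow
  have hT1 := gau_tail hε hε8 hK0 h.bd hεK1 R
  rw [c1] at hT1
  set e := Real.exp (-(R ^ 2) / 8) with he
  have he0 : 0 < e := Real.exp_pos _
  set P : ℝ := (2 : ℝ) ^ (d * l) with hP
  have hP1 : (2 : ℝ) ^ (((d * l : ℕ) : ℝ) / 2) ≤ P := by
    rw [hP, ← Real.rpow_natCast]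
    refine Real.rpow_le_rpow_of_exponent_le (by norm_num) ?_
    have : (0 : ℝ) ≤ ((d * l : ℕ) : ℝ) := by positivity
    linarith
  have hP2 : (2 : ℝ) ^ (((2 * l : ℕ) : ℝ) / 2) * (2 : ℝ) ^ (((2 * l : ℕ) : ℝ) / 2) ≤ P := by
    rw [hP, ← Real.rpow_natCast, ← Real.rpow_add (by norm_num)]
    refine Real.rpow_le_rpow_of_exponent_le (by norm_num) ?_
    have : ((2 * l : ℕ) : ℝ) ≤ ((d * l : ℕ) : ℝ) := by exact_mod_cast hll
    linarith
  have hup : ∀ i, gauKL ε (fun ω => gauV d l i *ᵥ B ω) ≤ (1 / 2 + 4 * θ) * gauA ε (fun ω => gauV d l i *ᵥ B ω) + 14 * P * e := by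
    intro i
    have h1 := gau_KL_upper hε hK hR (h.bdV hd1 i) (by rw [c2]; exact hθi.trans hθ)
    have h2 := gau_tail hε hε8 hK0 (h.bdV hd1 i) hεK1 R
    rw [c2] at h1 h2
    have hA := gauA_nonneg ε (fun ω => gauV d l i *ᵥ B ω)
    set w := (2 : ℝ) ^ (((2 * l : ℕ) : ℝ) / 2) with hw
    have hw0 : 0 < w := by positivity
    have h3 : w * gauT ε R (fun ω => gauV d l i *ᵥ B ω) ≤ 14 * P * e := by
      calc w * gauT ε R (fun ω => gauV d l i *ᵥ B ω) ≤ w * (14 * w * e) := by gcongr; exact h2.2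
        _ = 14 * (w * w) * e := by ring
        _ ≤ 14 * P * e := by gcongr
    have h4 : (1 / 2 + 4 * gauTh (2 * l) ε K R) * gauA ε (fun ω => gauV d l i *ᵥ B ω) ≤ (1 / 2 + 4 * θ) * gauA ε (fun ω => gauV d l i *ᵥ B ω) := by
      gcongr
    linarith
  have hsum : ∑ i, gauKL ε (fun ω => gauV d l i *ᵥ B ω) ≤ (1 / 2 + 4 * θ) * ∑ i, gauA ε (fun ω => gauV d l i *ᵥ B ω) + d * (14 * P * e) := by
    calc ∑ i, gauKL ε (fun ω => gauV d l i *ᵥ B ω) ≤ ∑ i : Fin d, ((1 / 2 + 4 * θ) * gauA ε (fun ω => gauV d l i *ᵥ B ω) + 14 * P * e) :=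
          Finset.sum_le_sum fun i _ => hup i
      _ = _ := by rw [Finset.sum_add_distrib, ← Finset.mul_sum]; simp
  have hA1 := gauA_nonneg ε B
  have hT1' : gauT ε R B ≤ 14 * P * e := hT1.2.trans (by gcongr)
  set A1 := gauA ε B
  set A2 := ∑ i, gauA ε (fun ω => gauV d l i *ᵥ B ω)
  set T1 := gauT ε R B
  have hlow' : 1 / 2 * A1 - 2 * θ * A1 - 1 / 2 * T1 ≤ gauKL ε B := by
    have : (1 / 2 - 2 * θ) * (A1 - T1) = 1 / 2 * A1 - 2 * θ * A1 - 1 / 2 * T1 + 2 * θ * T1 := by ring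
    have h0 : 0 ≤ 2 * θ * T1 := by have := hT1.1; positivity
    linarith
  have hPe : 0 ≤ P * e := by positivity
  have hd0 : (0 : ℝ) ≤ d := by positivity
  nlinarith

/-- the series of the projected family.   PLAN: `gau_Dl_proj`, `gauPi_eq`. -/
theorem gau_S_proj (hd : 1 < d) (B : Ω → Fin d × Fin l → ℝ) (ε : ℝ) (j : ℕ) (i : Fin d) :
    gauS ε (fun ω => gauV d l i *ᵥ B ω) j
      = ∑ k ∈ range (j + 1), ε ^ (2 * k) / (k.factorial : ℝ) * (gauDl B k ⬝ᵥ (etAll (gauPi d l i) *ᵥ gauDl B k)) := by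
  unfold gauS
  refine Finset.sum_congr rfl fun k _ => ?_
  rw [gau_Dl_proj _ (gauV_mul_transpose hd l i), ← gauPi_eq]

/-- `0 ≤ <D, Π^{⊗k} D> ≤ |D|²`.   PLAN: `etAll Π` is a symmetric idempotent (`etK_transpose`, `etK_mul`, `gauPi_props`); `et_proj_nonneg`, `et_proj_le`. -/
theorem gau_all_proj (hd : 1 < d) (i : Fin d) {k : ℕ} (D : (Fin k → Fin d × Fin l) → ℝ) :
    0 ≤ D ⬝ᵥ (etAll (gauPi d l i) *ᵥ D) ∧ D ⬝ᵥ (etAll (gauPi d l i) *ᵥ D) ≤ D ⬝ᵥ D := by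
  obtain ⟨hs, hi, -, -⟩ := gauPi_props hd l i
  have hs' : (etAll (α := Fin k) (gauPi d l i))ᵀ = etAll (gauPi d l i) := by
    unfold etAll
    rw [etK_transpose, hs]
  have hi' : etAll (α := Fin k) (gauPi d l i) * etAll (gauPi d l i) = etAll (gauPi d l i) := by
    unfold etAll
    rw [etK_mul, hi]
  exact ⟨et_proj_nonneg hs' hi' D, et_proj_le hs' hi' D⟩

theorem gauCA_nonneg (r j : ℕ) : 0 ≤ gauCA r j := by
  unfold gauCA
  positivity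

theorem gau_step_arith {A1 A2 S1 S2 Sg1 Sg2 wQ wD RQ M δ θ u e P CA1 CA2 dd : ℝ}
    (ha : 1 / 2 * (A1 - 1 / 2 * A2) ≤ M * δ + 2 * θ * (A1 + A2) + 14 * (1 + dd) * P * e)
    (b1 : |A1 - S1| ≤ CA1 * u) (b2 : |A2 - S2| ≤ dd * (CA2 * u)) (hS2le : S2 ≤ dd * S1)
    (hSQ : S1 - 1 / 2 * S2 = RQ + wQ) (hS1 : S1 = Sg1 + wD) (hQlow : -(dd / 2) * Sg1 ≤ RQ) (hSgle : Sg1 ≤ Sg2) (hSg0 : 0 ≤ Sg1)
    (hθ0 : 0 ≤ θ) (hθ : θ ≤ 1 / 8) (hu : 0 ≤ u) (hC1 : 0 ≤ CA1) (hC2 : 0 ≤ CA2) (hd : 0 ≤ dd) :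
    1 / 2 * wQ ≤ M * δ + (1 + dd) * Sg2 + (CA1 + dd * CA2) * u + 14 * (1 + dd) * P * e + 2 * (1 + dd) * θ * wD := by
  obtain ⟨b1l, b1u⟩ := abs_le.1 b1
  obtain ⟨b2l, b2u⟩ := abs_le.1 b2
  have hY : A1 + A2 ≤ ((1 + dd) * Sg1 + (CA1 + dd * CA2) * u) + (1 + dd) * wD := by
    have e1 : ((1 + dd) * Sg1 + (CA1 + dd * CA2) * u) + (1 + dd) * wD = (Sg1 + wD) + dd * (Sg1 + wD) + CA1 * u + dd * (CA2 * u) := by ring
    rw [e1, ← hS1]
    linarith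
  have hZ0 : 0 ≤ (1 + dd) * Sg1 + (CA1 + dd * CA2) * u := by positivity
  have h1 : 2 * θ * (A1 + A2) ≤ 2 * θ * (((1 + dd) * Sg1 + (CA1 + dd * CA2) * u) + (1 + dd) * wD) :=
    mul_le_mul_of_nonneg_left hY (by positivity)
  have h2 : 2 * θ * ((1 + dd) * Sg1 + (CA1 + dd * CA2) * u) ≤ 1 / 4 * ((1 + dd) * Sg1 + (CA1 + dd * CA2) * u) :=
    mul_le_mul_of_nonneg_right (by linarith) hZ0
  have h3 : 2 * θ * (((1 + dd) * Sg1 + (CA1 + dd * CA2) * u) + (1 + dd) * wD)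
      = 2 * θ * ((1 + dd) * Sg1 + (CA1 + dd * CA2) * u) + 2 * (1 + dd) * θ * wD := by ring
  have h4 : 1 / 2 * wQ - dd / 4 * Sg1 - 1 / 2 * (CA1 * u) - 1 / 4 * (dd * (CA2 * u)) ≤ 1 / 2 * (A1 - 1 / 2 * A2) := by
    have : 1 / 2 * (S1 - 1 / 2 * S2) = 1 / 2 * RQ + 1 / 2 * wQ := by rw [hSQ]; ring
    linarith
  have h5 : (1 + dd) * Sg1 ≤ (1 + dd) * Sg2 := mul_le_mul_of_nonneg_left hSgle (by linarith)
  have h6 : 0 ≤ dd * Sg1 := by positivity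
  have h7 : 0 ≤ CA1 * u := by positivity
  have h8 : 0 ≤ dd * (CA2 * u) := by positivity
  have e2 : (1 + dd) * Sg1 = Sg1 + dd * Sg1 := by ring
  have e3 : (CA1 + dd * CA2) * u = CA1 * u + dd * (CA2 * u) := by ring
  have e4 : dd / 4 * Sg1 = 1 / 4 * (dd * Sg1) := by ring
  rw [h3] at h1
  rw [e3] at h2 ⊢
  rw [e2] at h2 h5
  linarith

theorem gau_step_arith2 {F M δ Sg2 u e P CA dd T X wQ : ℝ}
    (h : wQ ≤ 2 * F * (M * δ + (1 + dd) * Sg2 + CA * u + 14 * (1 + dd) * P * e) + 4 * (1 + dd) * T)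
    (hF : 0 ≤ F) (hM : 0 ≤ M) (hδ : 0 ≤ δ) (hS : 0 ≤ Sg2) (hu : 0 ≤ u) (he : 0 ≤ e) (hP : 0 ≤ P) (hCA : 0 ≤ CA) (hd : 0 ≤ dd) (hT : 0 ≤ T)
    (hX : X = M + (1 + dd) + CA + 14 * (1 + dd) * P) :
    wQ ≤ (2 * F * X + 4 * (1 + dd)) * (δ + Sg2 + T + u + e) := by
  have hX0 : 0 ≤ X := by rw [hX]; positivity
  have g1 : M * δ ≤ X * δ := mul_le_mul_of_nonneg_right (by rw [hX]; nlinarith) hδ
  have g2 : (1 + dd) * Sg2 ≤ X * Sg2 := mul_le_mul_of_nonneg_right (by rw [hX]; nlinarith) hS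
  have g3 : CA * u ≤ X * u := mul_le_mul_of_nonneg_right (by rw [hX]; nlinarith) hu
  have g4 : 14 * (1 + dd) * P * e ≤ X * e := mul_le_mul_of_nonneg_right (by rw [hX]; nlinarith) he
  have g5 : 2 * F * (M * δ + (1 + dd) * Sg2 + CA * u + 14 * (1 + dd) * P * e) ≤ 2 * F * (X * (δ + Sg2 + u + e)) :=
    mul_le_mul_of_nonneg_left (by linarith) (by positivity)
  have g6 : 0 ≤ 2 * F * X * T := by positivity
  have g7 : 0 ≤ 4 * (1 + dd) * (δ + Sg2 + u + e) := by positivity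
  have e1 : (2 * F * X + 4 * (1 + dd)) * (δ + Sg2 + T + u + e)
      = 2 * F * (X * (δ + Sg2 + u + e)) + 2 * F * X * T + 4 * (1 + dd) * (δ + Sg2 + u + e) + 4 * (1 + dd) * T := by ring
  rw [e1]
  linarith

/-- **ONE STEP, first form.**   `θ = gauTh (d l) ε K R`.   PLAN (all constants depend on `d, l, j` only): `GauHyp.aform`; `gau_A_expand` for `B` and for the `V_i B`; `gau_S_proj`:
`S(B) - (1/2) Σ_i S(V_i B) = Σ_{k ≤ j} ε^{2k}/k! Q_k`, `Q_k = etQ (gauPi d l) Δ_k ≥ -(d/2)|Δ_k|²`, `S(V_i B) ≤ S(B)` (`gau_all_proj`); isolate the term `k = j` (`Finset.sum_range_succ`); `θ ≤ 1`, `1/k! ≤ 1`. -/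
theorem gau_step (hd : 2 ≤ d) (l j : ℕ) (p : ℝ) :
    ∃ C : ℝ, 0 ≤ C ∧ ∀ (q : ℕ) (Ω : Type) [Fintype Ω] [Nonempty Ω] (B : Ω → Fin d × Fin l → ℝ) (K δ ε R : ℝ), GauHyp d l q p B K δ →
      0 ≤ ε → 1 ≤ K → 1 ≤ R → gauTh (d * l) ε K R ≤ 1 / 8 →
      ε ^ (2 * j) * etQ (gauPi d l) (gauDl B j) ≤ C * (δ + ∑ k ∈ range j, ε ^ (2 * k) * (gauDl B k ⬝ᵥ gauDl B k)
        + gauTh (d * l) ε K R * (ε ^ (2 * j) * (gauDl B j ⬝ᵥ gauDl B j)) + (ε * K) ^ (2 * j + 2) + Real.exp (-(R ^ 2) / 8)) := by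
  have hd1 : 1 < d := by omega
  set M' : ℝ := 1 + ((d * l : ℕ) + (d : ℝ) * (d * l : ℕ) ^ 2) with hM'
  set CA1 := gauCA (d * l) j with hCA1
  set CA2 := gauCA (2 * l) j with hCA2
  set P : ℝ := (2 : ℝ) ^ (d * l) with hP
  set F : ℝ := (j.factorial : ℝ) with hF
  have hF1 : 1 ≤ F := by rw [hF]; exact_mod_cast Nat.one_le_iff_ne_zero.2 (Nat.factorial_ne_zero j)
  have hM0 : 0 ≤ M' := by positivity
  have hCA10 : 0 ≤ CA1 := gauCA_nonneg _ _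
  have hCA20 : 0 ≤ CA2 := gauCA_nonneg _ _
  have hP0 : 0 ≤ P := by positivity
  have hd0 : (0 : ℝ) ≤ d := by positivity
  set C0 : ℝ := M' + (1 + d) + (CA1 + d * CA2) + 14 * (1 + d) * P with hC0
  have hC00 : 0 ≤ C0 := by positivity
  refine ⟨2 * F * C0 + 4 * (1 + d), by positivity, fun q Ω _ _ B K δ ε R h hε hK hR hθ => ?_⟩
  have hK0 : 0 ≤ K := by linarith
  have hR0 : 0 ≤ R := by linarith
  obtain ⟨hεK, hε18, hε8⟩ := gauTh_small hε hK hR hθ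
  have hεK1 : ε * K ≤ 1 := by linarith
  have hδ := h.delta_nonneg
  have ha := h.aform hd hε hK hR hθ
  rw [← hM', ← hP] at ha
  set θ := gauTh (d * l) ε K R with hθdef
  have hθ0 : 0 ≤ θ := gauTh_nonneg _ hε hK0 hR0
  set e := Real.exp (-(R ^ 2) / 8) with he
  have he0 : 0 ≤ e := (Real.exp_pos _).le
  set u := (ε * K) ^ (2 * j + 2) with hu
  have hu0 : 0 ≤ u := by positivity
  set D : ℕ → ℝ := fun k => gauDl B k ⬝ᵥ gauDl B k with hD
  set G : ℕ → Fin d → ℝ := fun k i => gauDl B k ⬝ᵥ (etAll (gauPi d l i) *ᵥ gauDl B k) with hG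
  set w : ℕ → ℝ := fun k => ε ^ (2 * k) / (k.factorial : ℝ) with hw
  have hD0 : ∀ k, 0 ≤ D k := fun k => et_sq_nonneg _
  have hG0 : ∀ k i, 0 ≤ G k i := fun k i => (gau_all_proj hd1 i _).1
  have hGD : ∀ k i, G k i ≤ D k := fun k i => (gau_all_proj hd1 i _).2
  have hw0 : ∀ k, 0 ≤ w k := fun k => by positivity
  have hwle : ∀ k, w k ≤ ε ^ (2 * k) := fun k => by
    have : (1 : ℝ) ≤ (k.factorial : ℝ) := by exact_mod_cast Nat.one_le_iff_ne_zero.2 (Nat.factorial_ne_zero k)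
    exact div_le_self (by positivity) this
  have c1 : Fintype.card (Fin d × Fin l) = d * l := by simp
  have c2 : Fintype.card (Fin 2 × Fin l) = 2 * l := by simp
  have hE1 := gau_A_expand hε hε8 hK h.bd hεK1 j
  rw [c1, ← hCA1] at hE1
  have hEi : ∀ i, |gauA ε (fun ω => gauV d l i *ᵥ B ω) - ∑ k ∈ range (j + 1), w k * G k i| ≤ CA2 * u := by
    intro i
    have := gau_A_expand hε hε8 hK (h.bdV hd1 i) hεK1 j
    rwa [c2, gau_S_proj hd1, ← hCA2] at this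
  have hS1 : gauS ε B j = ∑ k ∈ range (j + 1), w k * D k := rfl
  rw [hS1] at hE1
  set S1 := ∑ k ∈ range (j + 1), w k * D k with hS1def
  set A1 := gauA ε B
  set A2 := ∑ i, gauA ε (fun ω => gauV d l i *ᵥ B ω) with hA2
  set S2 := ∑ i, ∑ k ∈ range (j + 1), w k * G k i with hS2
  have hA2S2 : |A2 - S2| ≤ d * (CA2 * u) := by
    rw [hA2, hS2, ← Finset.sum_sub_distrib]
    calc |∑ i, (gauA ε (fun ω => gauV d l i *ᵥ B ω) - ∑ k ∈ range (j + 1), w k * G k i)|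
        ≤ ∑ i, |gauA ε (fun ω => gauV d l i *ᵥ B ω) - ∑ k ∈ range (j + 1), w k * G k i| := Finset.abs_sum_le_sum_abs _ _
      _ ≤ ∑ _i : Fin d, CA2 * u := Finset.sum_le_sum fun i _ => hEi i
      _ = d * (CA2 * u) := by simp
  have hS2le : S2 ≤ d * S1 := by
    calc S2 ≤ ∑ _i : Fin d, S1 := Finset.sum_le_sum fun i _ => Finset.sum_le_sum fun k _ => mul_le_mul_of_nonneg_left (hGD k i) (hw0 k)
      _ = d * S1 := by simp
  -- the quadratic forms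
  have hQ : ∀ k, etQ (gauPi d l) (gauDl B k) = D k - (1 / 2) * ∑ i, G k i := fun k => rfl
  have hSQ : S1 - (1 / 2) * S2 = ∑ k ∈ range (j + 1), w k * etQ (gauPi d l) (gauDl B k) := by
    rw [hS2, Finset.sum_comm, hS1def, Finset.mul_sum, ← Finset.sum_sub_distrib]
    refine Finset.sum_congr rfl fun k _ => ?_
    rw [hQ, ← Finset.mul_sum]
    ring
  rw [Finset.sum_range_succ] at hSQ
  have hS1split : S1 = ∑ k ∈ range j, w k * D k + w j * D j := by rw [hS1def, Finset.sum_range_succ]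
  set Sg1 := ∑ k ∈ range j, w k * D k with hSg1
  set Sg2 := ∑ k ∈ range j, ε ^ (2 * k) * D k with hSg2
  have hSg10 : 0 ≤ Sg1 := Finset.sum_nonneg fun k _ => mul_nonneg (hw0 k) (hD0 k)
  have hSgle : Sg1 ≤ Sg2 := Finset.sum_le_sum fun k _ => mul_le_mul_of_nonneg_right (hwle k) (hD0 k)
  have hQlow : -((d : ℝ) / 2) * Sg1 ≤ ∑ k ∈ range j, w k * etQ (gauPi d l) (gauDl B k) := by
    rw [hSg1, Finset.mul_sum]
    refine Finset.sum_le_sum fun k _ => ?_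
    have h1 : ∑ i, G k i ≤ d * D k := by
      calc ∑ i, G k i ≤ ∑ _i : Fin d, D k := Finset.sum_le_sum fun i _ => hGD k i
        _ = d * D k := by simp
    have h2 : -((d : ℝ) / 2) * D k ≤ etQ (gauPi d l) (gauDl B k) := by
      rw [hQ]; have := hD0 k; linarith
    have := mul_le_mul_of_nonneg_left h2 (hw0 k)
    linarith
  set Qj := etQ (gauPi d l) (gauDl B j) with hQj
  have hwj : w j * F = ε ^ (2 * j) := by
    simp only [hw, hF]
    field_simp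
  -- assemble
  have hmain : 1 / 2 * (w j * Qj) ≤ M' * δ + (1 + d) * Sg2 + (CA1 + d * CA2) * u + 14 * (1 + d) * P * e + 2 * (1 + d) * θ * (w j * D j) :=
    gau_step_arith ha hE1 hA2S2 hS2le hSQ hS1split hQlow hSgle hSg10 hθ0 hθ hu0 hCA10 hCA20 hd0
  have hfin : ε ^ (2 * j) * Qj ≤ 2 * F * (M' * δ + (1 + d) * Sg2 + (CA1 + d * CA2) * u + 14 * (1 + d) * P * e) + 4 * (1 + d) * (θ * (ε ^ (2 * j) * D j)) := by
    have h1 := mul_le_mul_of_nonneg_left hmain (by positivity : 0 ≤ 2 * F)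
    have e1 : 2 * F * (1 / 2 * (w j * Qj)) = ε ^ (2 * j) * Qj := by rw [← hwj]; ring
    have e2 : 2 * F * (2 * (1 + d) * θ * (w j * D j)) = 4 * (1 + d) * (θ * (ε ^ (2 * j) * D j)) := by rw [← hwj]; ring
    rw [e1, mul_add, e2] at h1
    exact h1
  have hSg20 : 0 ≤ Sg2 := hSg10.trans hSgle
  have hT0 : 0 ≤ θ * (ε ^ (2 * j) * D j) := by have := hD0 j; positivity
  exact gau_step_arith2 hfin (by linarith) hM0 hδ hSg20 hu0 he0 hP0 (by positivity) hd0 hT0 hC0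

/-- the swap defect of `Δ_j`.   PLAN: `etL` of `Δ_j = M_j - M⁰_j`: the Gaussian part drops (`gau_M0_swap` with `gauSg_eq`, `gauPi_eq`, `gauSig_mul`, `gauV_mul_transpose`; `Matrix.mulVec_sub`); each of the `d` terms is a sum of `(d l)^j` squares `≤ δ²` (`GauHyp.sw`). -/
theorem GauHyp.swap (hd : 1 < d) (hp : |p| < 1) (h : GauHyp d l q p B K δ) {j : ℕ} (hj : j ≤ q) :
    etL (gauPi d l) (gauSg d l p) (gauDl B j) ≤ d * ((d * l : ℕ) : ℝ) ^ j * δ ^ 2 := by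
  unfold etL
  have hterm : ∀ i : Fin d, (etAll (gauSg d l p i) *ᵥ gauDl B j - etAll (gauPi d l i) *ᵥ gauDl B j) ⬝ᵥ
      (etAll (gauSg d l p i) *ᵥ gauDl B j - etAll (gauPi d l i) *ᵥ gauDl B j) ≤ ((d * l : ℕ) : ℝ) ^ j * δ ^ 2 := by
    intro i
    have e0 := gau_M0_swap (gauV d l i) (gauV_mul_transpose hd l i) (gauSig l p) (gauSig_mul hp l) j
    rw [← gauSg_eq, ← gauPi_eq] at e0
    have e1 : etAll (gauSg d l p i) *ᵥ gauDl B j - etAll (gauPi d l i) *ᵥ gauDl B j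
        = etAll (gauSg d l p i) *ᵥ gauM B j - etAll (gauPi d l i) *ᵥ gauM B j := by
      unfold gauDl
      rw [Matrix.mulVec_sub, Matrix.mulVec_sub, e0]
      abel
    rw [e1]
    unfold dotProduct
    calc ∑ x, (etAll (gauSg d l p i) *ᵥ gauM B j - etAll (gauPi d l i) *ᵥ gauM B j) x
          * (etAll (gauSg d l p i) *ᵥ gauM B j - etAll (gauPi d l i) *ᵥ gauM B j) x ≤ ∑ _x : Fin j → Fin d × Fin l, δ ^ 2 := by
          refine Finset.sum_le_sum fun x _ => ?_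
          rw [← sq, ← sq_abs]
          exact pow_le_pow_left₀ (abs_nonneg _) (h.sw j hj i x) 2
      _ = ((d * l : ℕ) : ℝ) ^ j * δ ^ 2 := by
          rw [Finset.sum_const, Finset.card_univ, nsmul_eq_mul]
          simp
  calc _ ≤ ∑ _i : Fin d, ((d * l : ℕ) : ℝ) ^ j * δ ^ 2 := Finset.sum_le_sum fun i _ => hterm i
    _ = d * ((d * l : ℕ) : ℝ) ^ j * δ ^ 2 := by
      rw [Finset.sum_const, Finset.card_univ, nsmul_eq_mul, Fintype.card_fin]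
      ring

/-- **ONE STEP, second form** (with [T]).   PLAN: `gau_tensor`: `c|Δ_j|² ≤ Q_j + C_T L_j`; multiply by `ε^{2j}`; `gau_step`; `GauHyp.swap` (`δ² ≤ δ`, `ε ≤ 1`); choose `θ₀ = min (1/8) (c/(2C))` and absorb `C θ ε^{2j}|Δ_j|²`. -/
theorem gau_step2 (hd : 3 ≤ d) {p : ℝ} (hp : p ^ 2 < 4 * ((d : ℝ) - 1) / (d : ℝ) ^ 2) (l : ℕ) {j : ℕ} (hj : 3 ≤ j) :
    ∃ C θ₀ : ℝ, 0 ≤ C ∧ 0 < θ₀ ∧ ∀ (q : ℕ) (Ω : Type) [Fintype Ω] [Nonempty Ω] (B : Ω → Fin d × Fin l → ℝ) (K δ ε R : ℝ), j ≤ q → GauHyp d l q p B K δ →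
      0 ≤ ε → 1 ≤ K → 1 ≤ R → δ ≤ 1 → gauTh (d * l) ε K R ≤ θ₀ →
      ε ^ (2 * j) * (gauDl B j ⬝ᵥ gauDl B j) ≤ C * (δ + ∑ k ∈ range j, ε ^ (2 * k) * (gauDl B k ⬝ᵥ gauDl B k)
        + (ε * K) ^ (2 * j + 2) + Real.exp (-(R ^ 2) / 8)) := by
  obtain ⟨CT, c, hCT, hc, hT⟩ := gau_tensor hd hp l hj
  obtain ⟨C1, hC1, hS⟩ := gau_step (d := d) (by omega) l j p
  have hp1 := gau_p_lt_one hd hp
  set W : ℝ := CT * (d * ((d * l : ℕ) : ℝ) ^ j) with hW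
  have hW0 : 0 ≤ W := by positivity
  refine ⟨2 / c * (C1 + W), min (1 / 8) (c / (2 * (C1 + 1))), by positivity, lt_min (by norm_num) (by positivity),
    fun q Ω _ _ B K δ ε R hjq h hε hK hR hδ1 hθ => ?_⟩
  have hθ8 : gauTh (d * l) ε K R ≤ 1 / 8 := hθ.trans (min_le_left _ _)
  have hθc : gauTh (d * l) ε K R ≤ c / (2 * (C1 + 1)) := hθ.trans (min_le_right _ _)
  obtain ⟨-, hε18, -⟩ := gauTh_small hε hK hR hθ8
  have hδ0 := h.delta_nonneg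
  have h1 := hS q Ω B K δ ε R h hε hK hR hθ8
  have h2 := hT (gauDl B j)
  have h3 := h.swap (by omega) hp1 hjq
  set θ := gauTh (d * l) ε K R
  set D := gauDl B j ⬝ᵥ gauDl B j with hD
  have hD0 : 0 ≤ D := et_sq_nonneg _
  set E2 := ε ^ (2 * j) with hE2
  have hE20 : 0 ≤ E2 := by positivity
  have hE21 : E2 ≤ 1 := pow_le_one₀ hε (by linarith)
  set Sg := ∑ k ∈ range j, ε ^ (2 * k) * (gauDl B k ⬝ᵥ gauDl B k) with hSg
  have hSg0 : 0 ≤ Sg := Finset.sum_nonneg fun k _ => mul_nonneg (by positivity) (et_sq_nonneg _)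
  set u := (ε * K) ^ (2 * j + 2)
  have hu0 : 0 ≤ u := by have : 0 ≤ K := by linarith
                         positivity
  set e := Real.exp (-(R ^ 2) / 8)
  have he0 : 0 ≤ e := (Real.exp_pos _).le
  set Q := etQ (gauPi d l) (gauDl B j)
  set L := etL (gauPi d l) (gauSg d l p) (gauDl B j)
  have hL0 : 0 ≤ L := etL_nonneg _ _ _
  have hδ2 : δ ^ 2 ≤ δ := by nlinarith
  -- `CT E2 L ≤ W δ`
  have h4 : CT * (E2 * L) ≤ W * δ := by
    have a1 : E2 * L ≤ 1 * L := mul_le_mul_of_nonneg_right hE21 hL0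
    have a2 : L ≤ d * ((d * l : ℕ) : ℝ) ^ j * δ := h3.trans (mul_le_mul_of_nonneg_left hδ2 (by positivity))
    calc CT * (E2 * L) ≤ CT * (d * ((d * l : ℕ) : ℝ) ^ j * δ) := mul_le_mul_of_nonneg_left (by linarith) hCT
      _ = W * δ := by rw [hW]; ring
  have h5 : c * (E2 * D) ≤ E2 * Q + CT * (E2 * L) := by
    have := mul_le_mul_of_nonneg_left h2 hE20
    calc c * (E2 * D) = E2 * (c * D) := by ring
      _ ≤ E2 * (Q + CT * L) := this
      _ = _ := by ring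
  have hX0 : 0 ≤ E2 * D := by positivity
  have h6 : C1 * (θ * (E2 * D)) ≤ c / 2 * (E2 * D) := by
    have a1 : C1 * θ ≤ c / 2 := by
      calc C1 * θ ≤ C1 * (c / (2 * (C1 + 1))) := mul_le_mul_of_nonneg_left hθc hC1
        _ = c / 2 * (C1 / (C1 + 1)) := by field_simp
        _ ≤ c / 2 * 1 := by
          refine mul_le_mul_of_nonneg_left ?_ (by positivity)
          rw [div_le_one (by linarith)]; linarith
        _ = c / 2 := mul_one _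
    calc C1 * (θ * (E2 * D)) = C1 * θ * (E2 * D) := by ring
      _ ≤ _ := mul_le_mul_of_nonneg_right a1 hX0
  have h7 : c / 2 * (E2 * D) ≤ (C1 + W) * (δ + Sg + u + e) := by
    have e1 : C1 * (δ + Sg + θ * (E2 * D) + u + e) = C1 * (δ + Sg + u + e) + C1 * (θ * (E2 * D)) := by ring
    rw [e1] at h1
    have a2 : W * δ ≤ W * (δ + Sg + u + e) := mul_le_mul_of_nonneg_left (by linarith) hW0
    have e2 : (C1 + W) * (δ + Sg + u + e) = C1 * (δ + Sg + u + e) + W * (δ + Sg + u + e) := by ring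
    rw [e2]
    linarith
  calc E2 * D = 2 / c * (c / 2 * (E2 * D)) := by field_simp
    _ ≤ 2 / c * ((C1 + W) * (δ + Sg + u + e)) := mul_le_mul_of_nonneg_left h7 (by positivity)
    _ = _ := by ring

/-- the orders `0, 1, 2`.   PLAN: `gau_M0_low`; `Δ_0 = 1 - 1 = 0` (`Ω` nonempty), `Δ_1 x = avg B_{x 0}`, `Δ_2 x = avg B_{x 0} B_{x 1} - [x 0 = x 1]` (`Fin.prod_univ_two`); sums of `r^k` squares. -/
theorem GauHyp.low [Nonempty Ω] (h : GauHyp d l q p B K δ) {k : ℕ} (hk : k ≤ 2) :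
    gauDl B k ⬝ᵥ gauDl B k ≤ ((d * l : ℕ) : ℝ) ^ 2 * δ ^ 2 := by
  obtain ⟨l0, l1, l2⟩ := gau_M0_low (κ := Fin d × Fin l)
  have hsum : ∀ (k : ℕ), (∀ x, |gauDl B k x| ≤ δ) → gauDl B k ⬝ᵥ gauDl B k ≤ ((d * l : ℕ) : ℝ) ^ k * δ ^ 2 := by
    intro k hx
    unfold dotProduct
    calc ∑ x, gauDl B k x * gauDl B k x ≤ ∑ _x : Fin k → Fin d × Fin l, δ ^ 2 := by
          refine Finset.sum_le_sum fun x _ => ?_
          rw [← sq, ← sq_abs]
          exact pow_le_pow_left₀ (abs_nonneg _) (hx x) 2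
      _ = ((d * l : ℕ) : ℝ) ^ k * δ ^ 2 := by
          rw [Finset.sum_const, Finset.card_univ, nsmul_eq_mul]
          simp
  have hδ2 : 0 ≤ δ ^ 2 := sq_nonneg δ
  interval_cases k
  · have : gauDl B 0 = 0 := by
      funext x
      unfold gauDl gauM
      rw [Pi.sub_apply, l0]
      simp [gauAv_const]
    rw [this, zero_dotProduct]
    positivity
  · refine (hsum 1 fun x => ?_).trans ?_
    · unfold gauDl gauM
      rw [Pi.sub_apply, l1, sub_zero]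
      simpa using h.m1 (x 0)
    · refine mul_le_mul_of_nonneg_right ?_ hδ2
      have : (d * l : ℕ) ^ 1 ≤ (d * l : ℕ) ^ 2 := by
        rw [pow_one, sq]
        exact Nat.le_mul_self _
      exact_mod_cast this
  · refine hsum 2 fun x => ?_
    unfold gauDl gauM
    rw [Pi.sub_apply, l2]
    simpa [Fin.prod_univ_two] using h.m2 (x 0) (x 1)

end step

/-! ## 8. Exponents: the induction and the criterion -/

section expo

variable {d : ℕ}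

/-- superpolynomial decay.   PLAN: `exp(-u) ≤ m!/u^m` (`Real.pow_div_factorial_le_exp`) with `u = N^{2κ}/8` and `m ≥ a/(2κ)`. -/
theorem gau_superpoly {κ a : ℝ} (hκ : 0 < κ) : ∃ N₀ : ℝ, 1 ≤ N₀ ∧ ∀ N : ℝ, N₀ ≤ N → Real.exp (-((N ^ κ) ^ 2) / 8) ≤ N ^ (-a) := by
  have h2κ : 0 < 2 * κ := by linarith
  have t1 := tendsto_rpow_mul_exp_neg_mul_atTop_nhds_zero (a / (2 * κ)) (1 / 8) (by norm_num)
  have t2 : ∀ᶠ x : ℝ in Filter.atTop, x ^ (a / (2 * κ)) * Real.exp (-(1 / 8) * x) ≤ 1 :=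
    t1.eventually (ge_mem_nhds zero_lt_one)
  have t3 := (tendsto_rpow_atTop h2κ).eventually t2
  obtain ⟨N₁, hN₁⟩ := Filter.eventually_atTop.1 t3
  refine ⟨max 1 N₁, le_max_left _ _, fun N hN => ?_⟩
  have hN1 : 1 ≤ N := (le_max_left _ _).trans hN
  have hN0 : 0 < N := by linarith
  have h := hN₁ N ((le_max_right _ _).trans hN)
  have e1 : (N ^ (2 * κ)) ^ (a / (2 * κ)) = N ^ a := by
    rw [← Real.rpow_mul hN0.le]
    congr 1
    field_simp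
  have e2 : (N ^ κ) ^ 2 = N ^ (2 * κ) := by
    rw [← Real.rpow_natCast (N ^ κ) 2, ← Real.rpow_mul hN0.le]
    congr 1
    push_cast
    ring
  rw [e1] at h
  rw [e2, Real.rpow_neg hN0.le]
  have hp : 0 < N ^ a := Real.rpow_pos_of_pos hN0 a
  rw [le_inv_comm₀ (Real.exp_pos _) hp, ← Real.exp_neg]
  have e3 : Real.exp (-(1 / 8) * N ^ (2 * κ)) * Real.exp (-(-N ^ (2 * κ) / 8)) = 1 := by
    rw [← Real.exp_add]
    have : -(1 / 8) * N ^ (2 * κ) + -(-N ^ (2 * κ) / 8) = 0 := by ring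
    rw [this, Real.exp_zero]
  have hq := Real.exp_pos (-(-N ^ (2 * κ) / 8))
  calc N ^ a = N ^ a * (Real.exp (-(1 / 8) * N ^ (2 * κ)) * Real.exp (-(-N ^ (2 * κ) / 8))) := by rw [e3, mul_one]
    _ = (N ^ a * Real.exp (-(1 / 8) * N ^ (2 * κ))) * Real.exp (-(-N ^ (2 * κ) / 8)) := by ring
    _ ≤ 1 * Real.exp (-(-N ^ (2 * κ) / 8)) := mul_le_mul_of_nonneg_right h hq.le
    _ = _ := one_mul _

/-- `θ` for the choice `ε = N^{-τ}`, `K = R = N^{κ}`, `4κ ≤ τ`: `θ ≤ (2 + r) N^{-τ/2}`.   PLAN: each of the four terms is `≤ N^{-τ+2κ}` times a constant (`Real.rpow_add`, `Real.rpow_le_rpow_of_exponent_le`, `N ≥ 1`). -/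
theorem gau_theta_pow (r : ℕ) {τ κ N : ℝ} (hκ : 0 ≤ κ) (hτ : 4 * κ ≤ τ) (hN : 1 ≤ N) :
    gauTh r (N ^ (-τ)) (N ^ κ) (N ^ κ) ≤ (2 + r) * N ^ (-(τ / 2)) := by
  have hN0 : 0 < N := by linarith
  have hτ0 : 0 ≤ τ := by linarith
  obtain ⟨e, he⟩ : ∃ e, e = N ^ (-τ) := ⟨_, rfl⟩
  obtain ⟨k, hk⟩ : ∃ k, k = N ^ κ := ⟨_, rfl⟩
  obtain ⟨t, ht⟩ : ∃ t, t = N ^ (-(τ / 2)) := ⟨_, rfl⟩
  have he0 : 0 < e := by rw [he]; exact Real.rpow_pos_of_pos hN0 _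
  have hk0 : 0 < k := by rw [hk]; exact Real.rpow_pos_of_pos hN0 _
  have ht0 : 0 < t := by rw [ht]; exact Real.rpow_pos_of_pos hN0 _
  have h1 : e * k * k ≤ t := by
    rw [he, hk, ht, ← Real.rpow_add hN0, ← Real.rpow_add hN0]
    exact Real.rpow_le_rpow_of_exponent_le hN (by linarith)
  have h2 : e ≤ 1 := by
    rw [he]
    exact Real.rpow_le_one_of_one_le_of_nonpos hN (by linarith)
  have h3 : e ≤ t := by
    rw [he, ht]
    exact Real.rpow_le_rpow_of_exponent_le hN (by linarith)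
  have hr : (0 : ℝ) ≤ r := Nat.cast_nonneg r
  unfold gauTh
  rw [← he, ← hk, ← ht]
  have h4 : e * (e * k * k) ≤ 1 * t := mul_le_mul h2 h1 (by positivity) (by norm_num)
  have h5 : e * e ≤ 1 * t := mul_le_mul h2 h3 he0.le (by norm_num)
  have h6 : (r : ℝ) * (e * e) ≤ r * (1 * t) := mul_le_mul_of_nonneg_left h5 hr
  have h7 : 0 ≤ (r : ℝ) * t := by positivity
  calc e * k * k + e ^ 2 * k ^ 2 / 2 + e ^ 2 * k ^ 2 / 2 + r * e ^ 2 / 2
      = e * k * k + e * (e * k * k) + (r : ℝ) * (e * e) / 2 := by ring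
    _ ≤ (2 + r) * t := by nlinarith

theorem gau_rpow_pow {N : ℝ} (hN : 0 < N) (a : ℝ) (m : ℕ) : (N ^ a) ^ m = N ^ (a * m) := by
  rw [← Real.rpow_natCast (N ^ a) m, ← Real.rpow_mul hN.le]

theorem gau_rpow_anti {N : ℝ} (hN : 1 ≤ N) {a b : ℝ} (h : a ≤ b) : N ^ (-b) ≤ N ^ (-a) :=
  Real.rpow_le_rpow_of_exponent_le hN (by linarith)

/-- **the induction step in exponents.**   Given the bound `C' N^{-c'}` for all orders `< j`, get a bound for the order `j`.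
PLAN: `τ = min cs c' / (4 j)`, `κ₁ = min κ' (τ/(4j+4))`, `ε = N^{-τ}`, `K = R = N^{κ₁}`;  `gau_step2` (its `θ₀`: `gau_theta_pow` and `N` large);  divide by `ε^{2j} = N^{-2jτ}`:
`δ ε^{-2j} = N^{-cs+2jτ} ≤ N^{-cs/2}`;  `ε^{2k-2j}|Δ_k|² ≤ N^{2jτ} C' N^{-c'} ≤ C' N^{-c'/2}`;  `(εK)^{2j+2} ε^{-2j} = N^{-2τ+(2j+2)κ₁} ≤ N^{-τ}`;  `exp(-R²/8) ε^{-2j} ≤ N^{-1}` (`gau_superpoly` with `a = 1 + 2jτ`).
`c₁ = min (min (cs/2) (c'/2)) (min τ 1)`. -/
theorem gau_induct_step (hd : 3 ≤ d) {p : ℝ} (hp : p ^ 2 < 4 * ((d : ℝ) - 1) / (d : ℝ) ^ 2) (l q : ℕ) {cs : ℝ} (hcs : 0 < cs) {j : ℕ} (hj : 3 ≤ j) (hjq : j ≤ q)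
    {c' κ' C' N' : ℝ} (hc' : 0 < c') (hκ' : 0 < κ')
    (hprev : ∀ N : ℝ, N' ≤ N → ∀ (Ω : Type) [Fintype Ω] [Nonempty Ω] (B : Ω → Fin d × Fin l → ℝ), GauHyp d l q p B (N ^ κ') (N ^ (-cs)) →
      ∀ k, k < j → gauDl B k ⬝ᵥ gauDl B k ≤ C' * N ^ (-c')) :
    ∃ c₁ κ₁ C₁ N₁ : ℝ, 0 < c₁ ∧ 0 < κ₁ ∧ ∀ N : ℝ, N₁ ≤ N → ∀ (Ω : Type) [Fintype Ω] [Nonempty Ω] (B : Ω → Fin d × Fin l → ℝ), GauHyp d l q p B (N ^ κ₁) (N ^ (-cs)) →
      ∀ k, k < j + 1 → gauDl B k ⬝ᵥ gauDl B k ≤ C₁ * N ^ (-c₁) := by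
  obtain ⟨C, θ₀, hC, hθ₀, hstep⟩ := gau_step2 hd hp l hj
  have hj0 : (0 : ℝ) < j := by exact_mod_cast (by omega : 0 < j)
  set τ : ℝ := min cs c' / (4 * j) with hτdef
  have hτ : 0 < τ := div_pos (lt_min hcs hc') (by positivity)
  have hτcs : 2 * j * τ ≤ cs / 2 := by
    have : 2 * j * τ = min cs c' / 2 := by rw [hτdef]; field_simp; ring
    rw [this]; have := min_le_left cs c'; linarith
  have hτc' : 2 * j * τ ≤ c' / 2 := by
    have : 2 * j * τ = min cs c' / 2 := by rw [hτdef]; field_simp; ring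
    rw [this]; have := min_le_right cs c'; linarith
  set κ₁ : ℝ := min κ' (τ / (4 * j + 4)) with hκdef
  have hκ₁ : 0 < κ₁ := lt_min hκ' (div_pos hτ (by positivity))
  have hκτ : (4 * j + 4) * κ₁ ≤ τ := by
    have h1 : κ₁ ≤ τ / (4 * j + 4) := min_le_right _ _
    have h2 : (0 : ℝ) < 4 * j + 4 := by positivity
    calc (4 * j + 4) * κ₁ ≤ (4 * j + 4) * (τ / (4 * j + 4)) := by gcongr
      _ = τ := by field_simp
  obtain ⟨Ns, hNs1, hNs⟩ := gau_superpoly (κ := κ₁) (a := 1 + 2 * j * τ) hκ₁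
  set r : ℕ := d * l with hr
  set Nθ : ℝ := ((2 + r) / θ₀) ^ (2 / τ) with hNθ
  set c₁ : ℝ := min (min (cs / 2) (c' / 2)) (min τ 1) with hc₁def
  have hc₁ : 0 < c₁ := lt_min (lt_min (by positivity) (by positivity)) (lt_min hτ one_pos)
  refine ⟨c₁, κ₁, |C'| + C * (3 + j * |C'|), max (max N' Ns) (max Nθ 1), hc₁, hκ₁, fun N hN Ω _ _ B hB k hk => ?_⟩
  have hN' : N' ≤ N := (le_max_left _ _).trans ((le_max_left _ _).trans hN)
  have hNNs : Ns ≤ N := (le_max_right _ _).trans ((le_max_left _ _).trans hN)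
  have hNNθ : Nθ ≤ N := (le_max_left _ _).trans ((le_max_right _ _).trans hN)
  have hN1 : 1 ≤ N := (le_max_right _ _).trans ((le_max_right _ _).trans hN)
  have hN0 : 0 < N := by linarith
  have hpos : ∀ a : ℝ, 0 < N ^ a := fun a => Real.rpow_pos_of_pos hN0 a
  have hB' : GauHyp d l q p B (N ^ κ') (N ^ (-cs)) :=
    hB.mono (hpos _).le (Real.rpow_le_rpow_of_exponent_le hN1 (min_le_left _ _))
  have hlow := hprev N hN' Ω B hB'
  have hc₁c' : c₁ ≤ c' := by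
    have h1 : c₁ ≤ c' / 2 := (min_le_left _ _).trans (min_le_right _ _)
    linarith
  have hlow' : ∀ k, k < j → gauDl B k ⬝ᵥ gauDl B k ≤ |C'| * N ^ (-c') := fun k hk =>
    (hlow k hk).trans (mul_le_mul_of_nonneg_right (le_abs_self _) (hpos _).le)
  have hCnn : 0 ≤ C * (3 + j * |C'|) := by positivity
  rcases Nat.lt_succ_iff_lt_or_eq.1 hk with hk | hk
  · calc gauDl B k ⬝ᵥ gauDl B k ≤ |C'| * N ^ (-c') := hlow' k hk
      _ ≤ |C'| * N ^ (-c₁) := mul_le_mul_of_nonneg_left (gau_rpow_anti hN1 hc₁c') (abs_nonneg _)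
      _ ≤ (|C'| + C * (3 + j * |C'|)) * N ^ (-c₁) :=
        mul_le_mul_of_nonneg_right (le_add_of_nonneg_right hCnn) (hpos (-c₁)).le
  · subst hk
    -- the parameters
    have hθ : gauTh r (N ^ (-τ)) (N ^ κ₁) (N ^ κ₁) ≤ θ₀ := by
      have h4 : 4 * κ₁ ≤ τ := by nlinarith
      refine (gau_theta_pow r hκ₁.le h4 hN1).trans ?_
      have hbase : 0 < (2 + (r : ℝ)) / θ₀ := by positivity
      have h1 : (2 + (r : ℝ)) / θ₀ ≤ N ^ (τ / 2) := by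
        have h2 : Nθ ^ (τ / 2) ≤ N ^ (τ / 2) := Real.rpow_le_rpow (by positivity) hNNθ (by positivity)
        have h3 : Nθ ^ (τ / 2) = (2 + (r : ℝ)) / θ₀ := by
          rw [hNθ, ← Real.rpow_mul hbase.le]
          have : 2 / τ * (τ / 2) = 1 := by field_simp
          rw [this, Real.rpow_one]
        rwa [h3] at h2
      rw [Real.rpow_neg hN0.le, ← div_eq_mul_inv, div_le_iff₀ (hpos _)]
      rw [div_le_iff₀ hθ₀] at h1
      linarith
    have hK1 : 1 ≤ N ^ κ₁ := Real.one_le_rpow hN1 hκ₁.le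
    have hδ1 : N ^ (-cs) ≤ 1 := Real.rpow_le_one_of_one_le_of_nonpos hN1 (by linarith)
    have hε1 : N ^ (-τ) ≤ 1 := Real.rpow_le_one_of_one_le_of_nonpos hN1 (by linarith)
    have hs := hstep q Ω B (N ^ κ₁) (N ^ (-cs)) (N ^ (-τ)) (N ^ κ₁) hjq hB (hpos _).le hK1 hK1 hδ1 hθ
    -- the sum over the lower orders
    have hsum : ∑ k ∈ range k, (N ^ (-τ)) ^ (2 * k) * (gauDl B k ⬝ᵥ gauDl B k) ≤ k * (|C'| * N ^ (-c')) := by
      calc ∑ k ∈ range k, (N ^ (-τ)) ^ (2 * k) * (gauDl B k ⬝ᵥ gauDl B k) ≤ ∑ _k ∈ range k, |C'| * N ^ (-c') := by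
            refine Finset.sum_le_sum fun i hi => ?_
            have h1 : (N ^ (-τ)) ^ (2 * i) ≤ 1 := pow_le_one₀ (hpos _).le hε1
            have h2 : 0 ≤ gauDl B i ⬝ᵥ gauDl B i := et_sq_nonneg _
            calc (N ^ (-τ)) ^ (2 * i) * (gauDl B i ⬝ᵥ gauDl B i) ≤ 1 * (gauDl B i ⬝ᵥ gauDl B i) := by gcongr
              _ = gauDl B i ⬝ᵥ gauDl B i := one_mul _
              _ ≤ _ := hlow' i (Finset.mem_range.1 hi)
        _ = k * (|C'| * N ^ (-c')) := by simp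
    have e1 : (N ^ (-τ)) ^ (2 * k) = N ^ (-(2 * k * τ)) := by
      rw [gau_rpow_pow hN0]; congr 1; push_cast; ring
    have e2 : (N ^ (-τ) * N ^ κ₁) ^ (2 * k + 2) = N ^ ((κ₁ - τ) * (2 * k + 2)) := by
      rw [← Real.rpow_add hN0, gau_rpow_pow hN0]; congr 1; push_cast; ring
    have hexp := hNs N hNNs
    rw [e1, e2] at hs
    -- multiply by `N^{2kτ}`
    have hX : N ^ (2 * k * τ) * N ^ (-(2 * k * τ)) = 1 := by
      rw [← Real.rpow_add hN0]; simp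
    have hmain : gauDl B k ⬝ᵥ gauDl B k ≤ N ^ (2 * k * τ) * (C * (N ^ (-cs) + k * (|C'| * N ^ (-c')) + N ^ ((κ₁ - τ) * (2 * k + 2)) + N ^ (-(1 + 2 * k * τ)))) := by
      have h1 : N ^ (-(2 * k * τ)) * (gauDl B k ⬝ᵥ gauDl B k) ≤ C * (N ^ (-cs) + k * (|C'| * N ^ (-c')) + N ^ ((κ₁ - τ) * (2 * k + 2)) + N ^ (-(1 + 2 * k * τ))) := by
        refine hs.trans ?_
        gcongr
      calc gauDl B k ⬝ᵥ gauDl B k = N ^ (2 * k * τ) * (N ^ (-(2 * k * τ)) * (gauDl B k ⬝ᵥ gauDl B k)) := by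
            rw [← mul_assoc, hX, one_mul]
        _ ≤ _ := by gcongr
    have t1 : N ^ (2 * k * τ) * N ^ (-cs) ≤ N ^ (-c₁) := by
      rw [← Real.rpow_add hN0]
      refine Real.rpow_le_rpow_of_exponent_le hN1 ?_
      have : c₁ ≤ cs / 2 := (min_le_left _ _).trans (min_le_left _ _)
      linarith
    have t2 : N ^ (2 * k * τ) * N ^ (-c') ≤ N ^ (-c₁) := by
      rw [← Real.rpow_add hN0]
      refine Real.rpow_le_rpow_of_exponent_le hN1 ?_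
      have : c₁ ≤ c' / 2 := (min_le_left _ _).trans (min_le_right _ _)
      linarith
    have t3 : N ^ (2 * k * τ) * N ^ ((κ₁ - τ) * (2 * k + 2)) ≤ N ^ (-c₁) := by
      rw [← Real.rpow_add hN0]
      refine Real.rpow_le_rpow_of_exponent_le hN1 ?_
      have : c₁ ≤ τ := (min_le_right _ _).trans (min_le_left _ _)
      nlinarith
    have t4 : N ^ (2 * k * τ) * N ^ (-(1 + 2 * k * τ)) ≤ N ^ (-c₁) := by
      rw [← Real.rpow_add hN0]
      refine Real.rpow_le_rpow_of_exponent_le hN1 ?_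
      have : c₁ ≤ 1 := (min_le_right _ _).trans (min_le_right _ _)
      linarith
    have hfin : N ^ (2 * k * τ) * (C * (N ^ (-cs) + k * (|C'| * N ^ (-c')) + N ^ ((κ₁ - τ) * (2 * k + 2)) + N ^ (-(1 + 2 * k * τ))))
        ≤ C * (3 + k * |C'|) * N ^ (-c₁) := by
      have hk0 : (0 : ℝ) ≤ k * |C'| := by positivity
      have : N ^ (2 * k * τ) * (C * (N ^ (-cs) + k * (|C'| * N ^ (-c')) + N ^ ((κ₁ - τ) * (2 * k + 2)) + N ^ (-(1 + 2 * k * τ))))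
          = C * (N ^ (2 * k * τ) * N ^ (-cs) + k * |C'| * (N ^ (2 * k * τ) * N ^ (-c')) + N ^ (2 * k * τ) * N ^ ((κ₁ - τ) * (2 * k + 2))
            + N ^ (2 * k * τ) * N ^ (-(1 + 2 * k * τ))) := by ring
      rw [this, mul_assoc C]
      refine mul_le_mul_of_nonneg_left ?_ hC
      have := mul_le_mul_of_nonneg_left t2 hk0
      linarith
    calc gauDl B k ⬝ᵥ gauDl B k ≤ C * (3 + k * |C'|) * N ^ (-c₁) := hmain.trans hfin
      _ ≤ (|C'| + C * (3 + k * |C'|)) * N ^ (-c₁) :=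
        mul_le_mul_of_nonneg_right (le_add_of_nonneg_left (abs_nonneg _)) (hpos (-c₁)).le

theorem gau_induct_base (l q : ℕ) (p : ℝ) {cs : ℝ} (hcs : 0 < cs) (j : ℕ) (hj : j ≤ 2) :
    ∃ c₁ κ₁ C₁ N₁ : ℝ, 0 < c₁ ∧ 0 < κ₁ ∧ ∀ N : ℝ, N₁ ≤ N → ∀ (Ω : Type) [Fintype Ω] [Nonempty Ω] (B : Ω → Fin d × Fin l → ℝ), GauHyp d l q p B (N ^ κ₁) (N ^ (-cs)) →
      ∀ k, k < j + 1 → gauDl B k ⬝ᵥ gauDl B k ≤ C₁ * N ^ (-c₁) := by
  refine ⟨2 * cs, 1, ((d * l : ℕ) : ℝ) ^ 2, 1, by positivity, one_pos, fun N hN Ω _ _ B hB k hk => ?_⟩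
  have h := hB.low (k := k) (by omega)
  have hN0 : 0 < N := by linarith
  have e : (N ^ (-cs)) ^ 2 = N ^ (-(2 * cs)) := by
    rw [← Real.rpow_natCast (N ^ (-cs)) 2, ← Real.rpow_mul hN0.le]
    congr 1
    push_cast
    ring
  rwa [e] at h

/-- the induction.   PLAN: induction on `j`; `j ≤ 2`: `GauHyp.low` (`c = 2 cs`, any `κ`);  step: `gau_induct_step`. -/
theorem gau_induct (hd : 3 ≤ d) {p : ℝ} (hp : p ^ 2 < 4 * ((d : ℝ) - 1) / (d : ℝ) ^ 2) (l q : ℕ) {cs : ℝ} (hcs : 0 < cs) (j : ℕ) (hjq : j ≤ q) :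
    ∃ c₁ κ₁ C₁ N₁ : ℝ, 0 < c₁ ∧ 0 < κ₁ ∧ ∀ N : ℝ, N₁ ≤ N → ∀ (Ω : Type) [Fintype Ω] [Nonempty Ω] (B : Ω → Fin d × Fin l → ℝ), GauHyp d l q p B (N ^ κ₁) (N ^ (-cs)) →
      ∀ k, k < j + 1 → gauDl B k ⬝ᵥ gauDl B k ≤ C₁ * N ^ (-c₁) := by
  induction j with
  | zero => exact gau_induct_base l q p hcs 0 (by omega)
  | succ j ih =>
    by_cases h3 : 3 ≤ j + 1
    · obtain ⟨c', κ', C', N', hc', hκ', hprev⟩ := ih (by omega)
      exact gau_induct_step hd hp l q hcs h3 hjq hc' hκ' hprev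
    · exact gau_induct_base l q p hcs (j + 1) (by omega)

/-- **[G] = P1 Lemma 3.6 (Gaussian criterion).**   All moments of degree `≤ q` of `B` are within `C N^{-c}` of the Gaussian ones. -/
theorem gau_G (hd : 3 ≤ d) {p : ℝ} (hp : p ^ 2 < 4 * ((d : ℝ) - 1) / (d : ℝ) ^ 2) (l q : ℕ) {cs : ℝ} (hcs : 0 < cs) :
    ∃ c κ₀ C N₀ : ℝ, 0 < c ∧ 0 < κ₀ ∧ ∀ N : ℝ, N₀ ≤ N → ∀ (Ω : Type) [Fintype Ω] [Nonempty Ω] (B : Ω → Fin d × Fin l → ℝ), GauHyp d l q p B (N ^ κ₀) (N ^ (-cs)) →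
      ∀ k, k ≤ q → ∀ x : Fin k → Fin d × Fin l, |gauDl B k x| ≤ C * N ^ (-c) := by
  obtain ⟨c₁, κ₁, C₁, N₁, hc₁, hκ₁, h⟩ := gau_induct hd hp l q hcs q le_rfl
  refine ⟨c₁ / 2, κ₁, √(|C₁|), max N₁ 1, by positivity, hκ₁, fun N hN Ω _ _ B hB k hk x => ?_⟩
  have hN1 : 1 ≤ N := (le_max_right _ _).trans hN
  have hN0 : 0 < N := by linarith
  have h1 := h N ((le_max_left _ _).trans hN) Ω B hB k (by omega)
  have h2 : gauDl B k x ^ 2 ≤ gauDl B k ⬝ᵥ gauDl B k := by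
    unfold dotProduct
    rw [sq]
    exact Finset.single_le_sum (f := fun y => gauDl B k y * gauDl B k y) (fun y _ => mul_self_nonneg _) (Finset.mem_univ x)
  have h3 : (0 : ℝ) < N ^ (-c₁) := Real.rpow_pos_of_pos hN0 _
  have h4 : gauDl B k x ^ 2 ≤ (√(|C₁|) * N ^ (-(c₁ / 2))) ^ 2 := by
    rw [mul_pow, Real.sq_sqrt (abs_nonneg _), ← Real.rpow_natCast (N ^ (-(c₁ / 2))) 2, ← Real.rpow_mul hN0.le]
    have : -(c₁ / 2) * ((2 : ℕ) : ℝ) = -c₁ := by push_cast; ring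
    rw [this]
    calc gauDl B k x ^ 2 ≤ C₁ * N ^ (-c₁) := h2.trans h1
      _ ≤ |C₁| * N ^ (-c₁) := by gcongr; exact le_abs_self _
  exact abs_le_of_sq_le_sq h4 (by positivity)

end expo

end Claimed.Agent.R287
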