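-- KEEP
import Claimed.Agent.R287.Defs

/-!
# Row 287 (S0534): kit LIM/TOP (helper274, prefixes `tp`, `lim`)

Finite `n` configurations are LABELLED sorted sequences `x : ℤ → EReal` (`x 0` = first point `≥ 0`, `x (-1)` = last
point `< 0`, labels out of range are `⊤` / `⊥`).  `ℤ → EReal` is compact, hence so is
`ProbabilityMeasure (ℤ → EReal)` (`instCompactSpaceProbabilityMeasure`): every ultrafilter on `n` has a limit law.
No tightness, no subsequence, no diagonal extraction, no vague topology for the EXISTENCE of limit objects.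

A `tpExt h` extension of a test function by `0` at `±∞`, continuous;   B `tpSumJ`, `tpLapJ`, `tpLap` Laplace integrands;
C `TpLocFin`, `tp_lap_tendsto` (weak convergence + local finiteness of the LIMIT ⟹ Laplace functionals converge);
E `tpLab` labelling of a finite spectrum, `tp_lap_lab`, `tp_lab_mono`;   F `tp_measW` measurability of the labelled GOE spectrum;
G `tpLawG n d a E`, `tpLawW n a`, `limPG`, `limPW`, `tp_lawG_apply`, `tp_lawW_apply`, `tp_regularLaplace_eq`, `tp_goeLaplace_eq`;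
H `LimHyp` (sorted, lab, tight, locfin), `lim_fin`, `lim_locfin`, `lim_cLap`;   I `lim_window`;
J `lim_exists` : limit law on `Conf = ℤ → ℝ`;   K `tp_lab_le_iff`, `tp_le_lab_iff`, `lim_hyp_G`, `lim_hyp_W`, `lim_gr`, `lim_goe`.
-/

set_option autoImplicit false

namespace Claimed.Agent.R287

open MeasureTheory Filter Topology Claims.C0462
open scoped ENNReal

/-- Labelled configurations. -/
abbrev TpCf : Type := ℤ → EReal

/-! ## A. Test functions on `EReal` -/

/-- Extension of a test function by `0` at `±∞`. -/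
noncomputable def tpExt (h : ℝ → ℝ) (x : EReal) : ℝ :=
  if x = ⊤ ∨ x = ⊥ then 0 else h x.toReal

@[simp] theorem tp_ext_top (h : ℝ → ℝ) : tpExt h ⊤ = 0 := by simp [tpExt]
@[simp] theorem tp_ext_bot (h : ℝ → ℝ) : tpExt h ⊥ = 0 := by simp [tpExt]
@[simp] theorem tp_ext_coe (h : ℝ → ℝ) (r : ℝ) : tpExt h (r : EReal) = h r := by
  simp [tpExt]

theorem tp_ext_nonneg {h : ℝ → ℝ} (hnn : ∀ t, 0 ≤ h t) (x : EReal) : 0 ≤ tpExt h x := by
  unfold tpExt; split_ifs
  · exact le_rfl
  · exact hnn _

/-- `h` vanishes outside `[-R, R]`. -/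
def TpSupp (h : ℝ → ℝ) (R : ℝ) : Prop := ∀ t, R < |t| → h t = 0

theorem tp_supp_exists {h : ℝ → ℝ} (hs : HasCompactSupport h) : ∃ R : ℝ, 0 < R ∧ TpSupp h R := by
  obtain ⟨R, hR⟩ := hs.isCompact.isBounded.subset_closedBall 0
  refine ⟨max R 1, lt_of_lt_of_le one_pos (le_max_right _ _), fun t ht => ?_⟩
  apply image_eq_zero_of_notMem_tsupport
  intro hmem
  have := hR hmem
  rw [Metric.mem_closedBall, Real.dist_eq, sub_zero] at this
  exact absurd (lt_of_le_of_lt (le_max_left R 1) ht) (not_lt.mpr this)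

theorem tp_ext_right {h : ℝ → ℝ} {R : ℝ} (hR : TpSupp h R) {x : EReal} (hx : (R : EReal) < x) :
    tpExt h x = 0 := by
  induction x using EReal.rec with
  | bot => simp
  | top => simp
  | coe r =>
    rw [tp_ext_coe]
    apply hR
    exact lt_of_lt_of_le (EReal.coe_lt_coe_iff.mp hx) (le_abs_self r)

theorem tp_ext_left {h : ℝ → ℝ} {R : ℝ} (hR : TpSupp h R) {x : EReal} (hx : x < ((-R : ℝ) : EReal)) :
    tpExt h x = 0 := by
  induction x using EReal.rec with
  | bot => simp
  | top => simp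
  | coe r =>
    rw [tp_ext_coe]
    apply hR
    have h1 : r < -R := EReal.coe_lt_coe_iff.mp hx
    have h2 : -r ≤ |r| := neg_le_abs r
    linarith

theorem tp_ext_continuous' {h : ℝ → ℝ} (hc : Continuous h) {R : ℝ} (hR : TpSupp h R) :
    Continuous (tpExt h) := by
  rw [continuous_iff_continuousAt]
  intro x
  induction x using EReal.rec with
  | bot =>
    have : tpExt h =ᶠ[𝓝 (⊥ : EReal)] fun _ => (0 : ℝ) := by
      filter_upwards [Iio_mem_nhds (EReal.bot_lt_coe (-R))] with y hy
      exact tp_ext_left hR hy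
    exact (continuousAt_const).congr this.symm
  | top =>
    have : tpExt h =ᶠ[𝓝 (⊤ : EReal)] fun _ => (0 : ℝ) := by
      filter_upwards [Ioi_mem_nhds (EReal.coe_lt_top R)] with y hy
      exact tp_ext_right hR hy
    exact (continuousAt_const).congr this.symm
  | coe r =>
    unfold ContinuousAt
    rw [EReal.nhds_coe, tendsto_map'_iff, tp_ext_coe]
    have : tpExt h ∘ (fun r : ℝ => (r : EReal)) = h := by
      funext t; simp
    rw [this]
    exact hc.continuousAt

theorem tp_ext_continuous {h : ℝ → ℝ} (hc : Continuous h) (hs : HasCompactSupport h) :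
    Continuous (tpExt h) := by
  obtain ⟨R, -, hR⟩ := tp_supp_exists hs
  exact tp_ext_continuous' hc hR

/-! ## B. Truncated Laplace integrands -/

/-- Sum of the test function over the labels `-J ≤ j < J`. -/
noncomputable def tpSumJ (h : ℝ → ℝ) (J : ℕ) (x : TpCf) : ℝ :=
  ∑ i ∈ Finset.range J, (tpExt h (x (i : ℤ)) + tpExt h (x (-(i : ℤ) - 1)))

/-- Truncated Laplace integrand. -/
noncomputable def tpLapJ (h : ℝ → ℝ) (J : ℕ) (x : TpCf) : ℝ := Real.exp (-(tpSumJ h J x))

/-- Laplace integrand `exp (- ∑_j h (x_j))` (infimum of the truncations; `h ≥ 0`). -/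
noncomputable def tpLap (h : ℝ → ℝ) (x : TpCf) : ℝ := ⨅ J : ℕ, tpLapJ h J x

theorem tp_sumJ_continuous {h : ℝ → ℝ} (hc : Continuous h) (hs : HasCompactSupport h) (J : ℕ) :
    Continuous (tpSumJ h J) := by
  unfold tpSumJ
  refine continuous_finsetSum _ fun i _ => ?_
  exact ((tp_ext_continuous hc hs).comp (continuous_apply _)).add
    ((tp_ext_continuous hc hs).comp (continuous_apply _))

theorem tp_lapJ_continuous {h : ℝ → ℝ} (hc : Continuous h) (hs : HasCompactSupport h) (J : ℕ) :
    Continuous (tpLapJ h J) :=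
  Real.continuous_exp.comp (tp_sumJ_continuous hc hs J).neg

theorem tp_sumJ_nonneg {h : ℝ → ℝ} (hnn : ∀ t, 0 ≤ h t) (J : ℕ) (x : TpCf) : 0 ≤ tpSumJ h J x :=
  Finset.sum_nonneg fun _ _ => add_nonneg (tp_ext_nonneg hnn _) (tp_ext_nonneg hnn _)

theorem tp_sumJ_mono {h : ℝ → ℝ} (hnn : ∀ t, 0 ≤ h t) (x : TpCf) : Monotone fun J => tpSumJ h J x := by
  intro J J' hJ
  exact Finset.sum_le_sum_of_subset_of_nonneg (Finset.range_mono hJ)
    fun _ _ _ => add_nonneg (tp_ext_nonneg hnn _) (tp_ext_nonneg hnn _)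

theorem tp_lapJ_pos (h : ℝ → ℝ) (J : ℕ) (x : TpCf) : 0 < tpLapJ h J x := Real.exp_pos _

theorem tp_lapJ_le_one {h : ℝ → ℝ} (hnn : ∀ t, 0 ≤ h t) (J : ℕ) (x : TpCf) : tpLapJ h J x ≤ 1 := by
  unfold tpLapJ
  rw [Real.exp_le_one_iff]
  linarith [tp_sumJ_nonneg hnn J x]

theorem tp_lapJ_anti {h : ℝ → ℝ} (hnn : ∀ t, 0 ≤ h t) (x : TpCf) : Antitone fun J => tpLapJ h J x := by
  intro J J' hJ
  simp only [tpLapJ]
  exact Real.exp_le_exp.mpr (neg_le_neg (tp_sumJ_mono hnn x hJ))

theorem tp_lapJ_bdd (h : ℝ → ℝ) (x : TpCf) : BddBelow (Set.range fun J : ℕ => tpLapJ h J x) :=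
  ⟨0, by rintro _ ⟨J, rfl⟩; exact (tp_lapJ_pos h J x).le⟩

theorem tp_lap_nonneg (h : ℝ → ℝ) (x : TpCf) : 0 ≤ tpLap h x :=
  le_ciInf fun J => (tp_lapJ_pos h J x).le

theorem tp_lap_le_lapJ (h : ℝ → ℝ) (J : ℕ) (x : TpCf) : tpLap h x ≤ tpLapJ h J x :=
  ciInf_le (tp_lapJ_bdd h x) J

theorem tp_lap_le_one {h : ℝ → ℝ} (hnn : ∀ t, 0 ≤ h t) (x : TpCf) : tpLap h x ≤ 1 :=
  (tp_lap_le_lapJ h 0 x).trans (tp_lapJ_le_one hnn 0 x)

theorem tp_lap_measurable {h : ℝ → ℝ} (hc : Continuous h) (hs : HasCompactSupport h) :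
    Measurable (tpLap h) :=
  Measurable.iInf fun J => (tp_lapJ_continuous hc hs J).measurable

/-- If the truncated sums are stationary from `J` on, the infimum is attained at `J`. -/
theorem tp_lap_eq_of_stationary {h : ℝ → ℝ} (hnn : ∀ t, 0 ≤ h t) {x : TpCf} {J : ℕ}
    (hst : ∀ J', J ≤ J' → tpSumJ h J' x = tpSumJ h J x) : tpLap h x = tpLapJ h J x := by
  apply le_antisymm (tp_lap_le_lapJ h J x)
  refine le_ciInf fun J' => ?_
  rcases le_total J J' with hJ | hJ
  · simp only [tpLapJ, hst J' hJ]; exact le_rfl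
  · exact tp_lapJ_anti hnn x hJ

/-- The closed "bad" set: a point with label `≥ J` or `< -J` may sit in `[-R, R]`. -/
def tpBad (R : ℝ) (J : ℕ) : Set TpCf :=
  {x | x (J : ℤ) ≤ (R : EReal)} ∪ {x | ((-R : ℝ) : EReal) ≤ x (-(J : ℤ) - 1)}

theorem tp_bad_closed (R : ℝ) (J : ℕ) : IsClosed (tpBad R J) :=
  (isClosed_le (continuous_apply _) continuous_const).union
    (isClosed_le continuous_const (continuous_apply _))

theorem tp_mono_closed : IsClosed {x : TpCf | Monotone x} := by
  have : {x : TpCf | Monotone x} = ⋂ (i : ℤ) (j : ℤ) (_ : i ≤ j), {x : TpCf | x i ≤ x j} := by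
    ext x; simp [Monotone]
  rw [this]
  exact isClosed_iInter fun i => isClosed_iInter fun j => isClosed_iInter fun _ =>
    isClosed_le (continuous_apply i) (continuous_apply j)

theorem tp_lap_eq_off_bad {h : ℝ → ℝ} (hnn : ∀ t, 0 ≤ h t) {R : ℝ} (hR : TpSupp h R) {x : TpCf}
    (hx : Monotone x) {J : ℕ} (hb : x ∉ tpBad R J) : tpLap h x = tpLapJ h J x := by
  simp only [tpBad, Set.mem_union, Set.mem_ofPred_eq, not_or, not_le] at hb
  apply tp_lap_eq_of_stationary hnn
  intro J' hJ
  unfold tpSumJ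
  symm
  apply Finset.sum_subset (Finset.range_mono hJ)
  intro i _ hi
  have hi' : J ≤ i := by simpa using hi
  have h1 : tpExt h (x (i : ℤ)) = 0 :=
    tp_ext_right hR (lt_of_lt_of_le hb.1 (hx (by exact_mod_cast hi')))
  have h2 : tpExt h (x (-(i : ℤ) - 1)) = 0 :=
    tp_ext_left hR (lt_of_le_of_lt (hx (by
      have : (J : ℤ) ≤ i := by exact_mod_cast hi'
      linarith)) hb.2)
  rw [h1, h2, add_zero]

/-! ## C. Convergence of the Laplace functionals -/

/-- Local finiteness of a law on labelled configurations. -/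
def TpLocFin (μ : ProbabilityMeasure TpCf) : Prop :=
  ∀ R ε : ℝ, 0 < ε → ∃ J : ℕ, (μ : Measure TpCf) (tpBad R J) < ENNReal.ofReal ε

/-- The law is carried by sorted sequences. -/
def TpSorted (μ : ProbabilityMeasure TpCf) : Prop := ∀ᵐ x ∂(μ : Measure TpCf), Monotone x

theorem tp_lap_integrable {h : ℝ → ℝ} (hc : Continuous h) (hs : HasCompactSupport h)
    (hnn : ∀ t, 0 ≤ h t) (μ : ProbabilityMeasure TpCf) : Integrable (tpLap h) (μ : Measure TpCf) := by
  refine Integrable.of_bound (tp_lap_measurable hc hs).aestronglyMeasurable 1 (ae_of_all _ fun x => ?_)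
  rw [Real.norm_eq_abs, abs_of_nonneg (tp_lap_nonneg h x)]
  exact tp_lap_le_one hnn x

theorem tp_lapJ_integrable {h : ℝ → ℝ} (hc : Continuous h) (hs : HasCompactSupport h)
    (hnn : ∀ t, 0 ≤ h t) (J : ℕ) (μ : ProbabilityMeasure TpCf) :
    Integrable (tpLapJ h J) (μ : Measure TpCf) := by
  refine Integrable.of_bound (tp_lapJ_continuous hc hs J).measurable.aestronglyMeasurable 1
    (ae_of_all _ fun x => ?_)
  rw [Real.norm_eq_abs, abs_of_nonneg (tp_lapJ_pos h J x).le]
  exact tp_lapJ_le_one hnn J x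

/-- Truncation error of the Laplace functional. -/
theorem tp_lap_trunc {h : ℝ → ℝ} (hc : Continuous h) (hs : HasCompactSupport h)
    (hnn : ∀ t, 0 ≤ h t) {R : ℝ} (hR : TpSupp h R) (μ : ProbabilityMeasure TpCf) (hμ : TpSorted μ)
    (J : ℕ) :
    |∫ x, tpLap h x ∂(μ : Measure TpCf) - ∫ x, tpLapJ h J x ∂(μ : Measure TpCf)|
      ≤ ((μ : Measure TpCf) (tpBad R J)).toReal := by
  rw [← integral_sub (tp_lap_integrable hc hs hnn μ) (tp_lapJ_integrable hc hs hnn J μ)]
  have hmeas : MeasurableSet (tpBad R J) := (tp_bad_closed R J).measurableSet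
  calc |∫ x, (tpLap h x - tpLapJ h J x) ∂(μ : Measure TpCf)|
      ≤ ∫ x, |tpLap h x - tpLapJ h J x| ∂(μ : Measure TpCf) := abs_integral_le_integral_abs
    _ ≤ ∫ x, (tpBad R J).indicator (fun _ => (1 : ℝ)) x ∂(μ : Measure TpCf) := by
        apply integral_mono_ae
        · exact ((tp_lap_integrable hc hs hnn μ).sub (tp_lapJ_integrable hc hs hnn J μ)).abs
        · exact (integrable_const (1 : ℝ)).indicator hmeas
        · filter_upwards [hμ] with x hx
          by_cases hb : x ∈ tpBad R J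
          · rw [Set.indicator_of_mem hb, abs_le]
            constructor
            · linarith [tp_lap_nonneg h x, tp_lapJ_le_one hnn J x]
            · linarith [tp_lap_le_one hnn x, tp_lapJ_pos h J x]
          · rw [Set.indicator_of_notMem hb, tp_lap_eq_off_bad hnn hR hx hb, sub_self, abs_zero]
    _ = ((μ : Measure TpCf) (tpBad R J)).toReal := by
        rw [integral_indicator hmeas, setIntegral_const, smul_eq_mul, mul_one]
        rfl

/-- An almost sure closed property passes to weak limits. -/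
theorem tp_closed_lim {ι : Type*} {L : Filter ι} [L.NeBot] {Λ : ι → ProbabilityMeasure TpCf}
    {μ : ProbabilityMeasure TpCf} (hlim : Tendsto Λ L (𝓝 μ)) {S : Set TpCf} (hS : IsClosed S)
    (hΛ : ∀ᶠ i in L, ∀ᵐ x ∂(Λ i : Measure TpCf), x ∈ S) : ∀ᵐ x ∂(μ : Measure TpCf), x ∈ S := by
  have h1 := ProbabilityMeasure.limsup_measure_closed_le_of_tendsto hlim hS
  have h2 : (fun i => (Λ i : Measure TpCf) S) =ᶠ[L] fun _ => (1 : ℝ≥0∞) := by
    filter_upwards [hΛ] with i hi
    exact (prob_compl_eq_zero_iff hS.measurableSet).mp hi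
  rw [limsup_congr h2, limsup_const] at h1
  have h3 : (μ : Measure TpCf) S = 1 := le_antisymm prob_le_one h1
  exact (prob_compl_eq_zero_iff hS.measurableSet).mpr h3

/-- Sortedness passes to weak limits. -/
theorem tp_sorted_lim {ι : Type*} {L : Filter ι} [L.NeBot] {Λ : ι → ProbabilityMeasure TpCf}
    {μ : ProbabilityMeasure TpCf} (hlim : Tendsto Λ L (𝓝 μ)) (hΛ : ∀ᶠ i in L, TpSorted (Λ i)) :
    TpSorted μ := tp_closed_lim hlim tp_mono_closed hΛ

/-- Weak convergence + local finiteness of the LIMIT give convergence of the Laplace functionals. -/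
theorem tp_lap_tendsto {ι : Type*} {L : Filter ι} [L.NeBot] {Λ : ι → ProbabilityMeasure TpCf}
    {μ : ProbabilityMeasure TpCf} (hlim : Tendsto Λ L (𝓝 μ)) (hΛ : ∀ᶠ i in L, TpSorted (Λ i))
    (hloc : TpLocFin μ) {h : ℝ → ℝ} (hc : Continuous h) (hs : HasCompactSupport h)
    (hnn : ∀ t, 0 ≤ h t) :
    Tendsto (fun i => ∫ x, tpLap h x ∂(Λ i : Measure TpCf)) L
      (𝓝 (∫ x, tpLap h x ∂(μ : Measure TpCf))) := by
  obtain ⟨R, -, hR⟩ := tp_supp_exists hs
  have hμ : TpSorted μ := tp_sorted_lim hlim hΛ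
  rw [Metric.tendsto_nhds]
  intro ε hε
  -- choose J
  obtain ⟨J, hJ⟩ := hloc R (ε / 3) (by positivity)
  have h1 : ∀ᶠ i in L, (Λ i : Measure TpCf) (tpBad R J) < ENNReal.ofReal (ε / 3) :=
    eventually_lt_of_limsup_lt (lt_of_le_of_lt
      (ProbabilityMeasure.limsup_measure_closed_le_of_tendsto hlim (tp_bad_closed R J)) hJ)
  have h2 := (ProbabilityMeasure.tendsto_iff_forall_integral_tendsto.mp hlim)
    (BoundedContinuousFunction.mkOfCompact ⟨tpLapJ h J, tp_lapJ_continuous hc hs J⟩)
  simp only [BoundedContinuousFunction.mkOfCompact_apply, ContinuousMap.coe_mk] at h2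
  have h3 := (Metric.tendsto_nhds.mp h2) (ε / 3) (by positivity)
  have key : ∀ ν : ProbabilityMeasure TpCf, (ν : Measure TpCf) (tpBad R J) < ENNReal.ofReal (ε / 3) →
      ((ν : Measure TpCf) (tpBad R J)).toReal < ε / 3 := by
    intro ν hν
    have := (ENNReal.toReal_lt_toReal (measure_ne_top _ _) ENNReal.ofReal_ne_top).mpr hν
    rwa [ENNReal.toReal_ofReal (by positivity)] at this
  filter_upwards [h1, h3, hΛ] with i hi1 hi3 hi
  rw [Real.dist_eq] at hi3 ⊢
  have a1 := tp_lap_trunc hc hs hnn hR (Λ i) hi J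
  have a2 := tp_lap_trunc hc hs hnn hR μ hμ J
  have b1 := key (Λ i) hi1
  have b2 := key μ hJ
  rw [abs_le] at a1 a2
  rw [abs_lt] at hi3 ⊢
  constructor <;> linarith [a1.1, a1.2, a2.1, a2.2, hi3.1, hi3.2]

/-! ## E. Labelling of a finite spectrum -/

/-- `i`-th entry of a list of reals, with a default value in `EReal`. -/
def tpGet (dflt : EReal) (l : List ℝ) (i : ℕ) : EReal := (l[i]?).elim dflt fun r => (r : EReal)

@[simp] theorem tp_get_nil (dflt : EReal) (i : ℕ) : tpGet dflt [] i = dflt := by simp [tpGet]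
@[simp] theorem tp_get_cons_zero (dflt : EReal) (a : ℝ) (l : List ℝ) :
    tpGet dflt (a :: l) 0 = (a : EReal) := by simp [tpGet]
@[simp] theorem tp_get_cons_succ (dflt : EReal) (a : ℝ) (l : List ℝ) (i : ℕ) :
    tpGet dflt (a :: l) (i + 1) = tpGet dflt l i := by simp [tpGet]

theorem tp_get_of_lt (dflt : EReal) {l : List ℝ} {i : ℕ} (hi : i < l.length) :
    tpGet dflt l i = (l[i] : EReal) := by simp [tpGet, hi]

theorem tp_get_of_le (dflt : EReal) {l : List ℝ} {i : ℕ} (hi : l.length ≤ i) :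
    tpGet dflt l i = dflt := by simp [tpGet, hi]

theorem tp_sum_get (φ : EReal → ℝ) (dflt : EReal) (h0 : φ dflt = 0) (l : List ℝ) :
    ∀ N : ℕ, l.length ≤ N →
      ∑ i ∈ Finset.range N, φ (tpGet dflt l i) = (l.map fun r : ℝ => φ (r : EReal)).sum := by
  induction l with
  | nil => intro N _; simp [h0]
  | cons a l ih =>
    intro N hN
    obtain ⟨N', rfl⟩ : ∃ N', N = N' + 1 := ⟨N - 1, by simp at hN; omega⟩
    rw [Finset.sum_range_succ']
    simp only [tp_get_cons_succ, tp_get_cons_zero, List.map_cons, List.sum_cons]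
    rw [ih N' (by simpa using hN), add_comm]

/-- The nonnegative points, increasing. -/
noncomputable def tpPos (s : Multiset ℝ) : List ℝ := (s.filter fun t => 0 ≤ t).sort (· ≤ ·)
/-- The negative points, decreasing. -/
noncomputable def tpNeg (s : Multiset ℝ) : List ℝ := (s.filter fun t => t < 0).sort (· ≥ ·)

/-- Labelling: `x 0` = first point `≥ 0`, `x (-1)` = last point `< 0`; `⊤`, `⊥` out of range. -/
noncomputable def tpLab (s : Multiset ℝ) : TpCf := fun j =>
  if 0 ≤ j then tpGet ⊤ (tpPos s) j.toNat else tpGet ⊥ (tpNeg s) (-j - 1).toNat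

theorem tp_lab_pos (s : Multiset ℝ) (i : ℕ) : tpLab s (i : ℤ) = tpGet ⊤ (tpPos s) i := by
  simp [tpLab]

theorem tp_lab_neg (s : Multiset ℝ) (i : ℕ) : tpLab s (-(i : ℤ) - 1) = tpGet ⊥ (tpNeg s) i := by
  have h1 : ¬ (0 : ℤ) ≤ -(i : ℤ) - 1 := by omega
  have h2 : (-(-(i : ℤ) - 1) - 1).toNat = i := by omega
  simp only [tpLab, if_neg h1, h2]

theorem tp_pos_length_le (s : Multiset ℝ) : (tpPos s).length ≤ Multiset.card s := by
  unfold tpPos; rw [Multiset.length_sort]; exact Multiset.card_le_card (Multiset.filter_le _ _)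

theorem tp_neg_length_le (s : Multiset ℝ) : (tpNeg s).length ≤ Multiset.card s := by
  unfold tpNeg; rw [Multiset.length_sort]; exact Multiset.card_le_card (Multiset.filter_le _ _)

theorem tp_list_sum_split (s : Multiset ℝ) (f : ℝ → ℝ) :
    ((tpPos s).map f).sum + ((tpNeg s).map f).sum = (s.map f).sum := by
  have h1 : ((tpPos s).map f).sum = ((s.filter fun t => 0 ≤ t).map f).sum := by
    conv_rhs => rw [← Multiset.sort_eq (s.filter fun t => 0 ≤ t) (· ≤ ·)]
    rw [Multiset.map_coe, Multiset.sum_coe]; rfl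
  have h2 : ((tpNeg s).map f).sum = ((s.filter fun t => ¬ 0 ≤ t).map f).sum := by
    have : (s.filter fun t => ¬ 0 ≤ t) = s.filter fun t => t < 0 := by
      congr 1; funext t; simp
    rw [this]
    conv_rhs => rw [← Multiset.sort_eq (s.filter fun t => t < 0) (· ≥ ·)]
    rw [Multiset.map_coe, Multiset.sum_coe]; rfl
  rw [h1, h2, ← Multiset.sum_add, ← Multiset.map_add, Multiset.filter_add_not]

theorem tp_sumJ_lab (h : ℝ → ℝ) (s : Multiset ℝ) {J : ℕ} (hJ : Multiset.card s ≤ J) :
    tpSumJ h J (tpLab s) = (s.map h).sum := by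
  unfold tpSumJ
  simp only [tp_lab_pos, tp_lab_neg]
  rw [Finset.sum_add_distrib,
    tp_sum_get (tpExt h) ⊤ (tp_ext_top h) _ J ((tp_pos_length_le s).trans hJ),
    tp_sum_get (tpExt h) ⊥ (tp_ext_bot h) _ J ((tp_neg_length_le s).trans hJ)]
  simp only [tp_ext_coe]
  exact tp_list_sum_split s h

/-- The Laplace integrand of a labelled finite spectrum. -/
theorem tp_lap_lab {h : ℝ → ℝ} (hnn : ∀ t, 0 ≤ h t) (s : Multiset ℝ) :
    tpLap h (tpLab s) = Real.exp (-(s.map h).sum) := by
  rw [tp_lap_eq_of_stationary hnn (J := Multiset.card s)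
    (fun J' hJ => by rw [tp_sumJ_lab h s hJ, tp_sumJ_lab h s le_rfl])]
  unfold tpLapJ
  rw [tp_sumJ_lab h s le_rfl]

theorem tp_get_top_mono {l : List ℝ} (hl : l.Pairwise (· ≤ ·)) : Monotone (tpGet ⊤ l) := by
  intro i j hij
  rcases lt_or_ge j l.length with hj | hj
  · rw [tp_get_of_lt _ hj, tp_get_of_lt _ (lt_of_le_of_lt hij hj)]
    rcases hij.lt_or_eq with h | h
    · exact EReal.coe_le_coe_iff.mpr (List.pairwise_iff_getElem.mp hl i j _ hj h)
    · subst h; exact le_rfl
  · rw [tp_get_of_le _ hj]; exact le_top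

theorem tp_get_bot_anti {l : List ℝ} (hl : l.Pairwise (· ≥ ·)) : Antitone (tpGet ⊥ l) := by
  intro i j hij
  rcases lt_or_ge j l.length with hj | hj
  · rw [tp_get_of_lt _ hj, tp_get_of_lt _ (lt_of_le_of_lt hij hj)]
    rcases hij.lt_or_eq with h | h
    · exact EReal.coe_le_coe_iff.mpr (List.pairwise_iff_getElem.mp hl i j _ hj h)
    · subst h; exact le_rfl
  · rw [tp_get_of_le _ hj]; exact bot_le

theorem tp_get_pos_nonneg (s : Multiset ℝ) (i : ℕ) : (0 : EReal) ≤ tpGet ⊤ (tpPos s) i := by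
  rcases lt_or_ge i (tpPos s).length with hi | hi
  · rw [tp_get_of_lt _ hi]
    have : (tpPos s)[i] ∈ tpPos s := List.getElem_mem hi
    unfold tpPos at this
    rw [Multiset.mem_sort, Multiset.mem_filter] at this
    exact_mod_cast this.2
  · rw [tp_get_of_le _ hi]; exact le_top

theorem tp_get_neg_nonpos (s : Multiset ℝ) (i : ℕ) : tpGet ⊥ (tpNeg s) i ≤ (0 : EReal) := by
  rcases lt_or_ge i (tpNeg s).length with hi | hi
  · rw [tp_get_of_lt _ hi]
    have : (tpNeg s)[i] ∈ tpNeg s := List.getElem_mem hi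
    unfold tpNeg at this
    rw [Multiset.mem_sort, Multiset.mem_filter] at this
    exact_mod_cast this.2.le
  · rw [tp_get_of_le _ hi]; exact bot_le

theorem tp_lab_mono (s : Multiset ℝ) : Monotone (tpLab s) := by
  intro i j hij
  unfold tpLab
  by_cases hi : 0 ≤ i
  · have hj : 0 ≤ j := hi.trans hij
    rw [if_pos hi, if_pos hj]
    exact tp_get_top_mono (Multiset.pairwise_sort _ _) (Int.toNat_le_toNat hij)
  · rw [if_neg hi]
    by_cases hj : 0 ≤ j
    · rw [if_pos hj]
      exact (tp_get_neg_nonpos s _).trans (tp_get_pos_nonneg s _)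
    · rw [if_neg hj]
      exact tp_get_bot_anti (Multiset.pairwise_sort _ _) (Int.toNat_le_toNat (by omega))

/-! ## F. Measurability of the labelled GOE spectrum -/

/-- Rescaled spectrum of the GOE matrix, `y = a t`. -/
noncomputable def tpSpecW {n : ℕ} (a : ℝ) (x : Fin n × Fin n → ℝ) : Multiset ℝ :=
  (goeMatrix x).charpoly.roots.map fun t => a * t

theorem tp_goeMatrix_herm {n : ℕ} (x : Fin n × Fin n → ℝ) : (goeMatrix x).IsHermitian := by
  ext i j
  simp [goeMatrix, Matrix.conjTranspose_apply, min_comm, max_comm]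

theorem tp_roots_sum {n : ℕ} {A : Matrix (Fin n) (Fin n) ℝ} (hA : A.IsHermitian) (f : ℝ → ℝ) :
    (A.charpoly.roots.map f).sum = ∑ i, f (hA.eigenvalues i) := by
  rw [hA.roots_charpoly_eq_eigenvalues, Multiset.map_map]
  rfl

theorem tp_trace_pow {n : ℕ} {A : Matrix (Fin n) (Fin n) ℝ} (hA : A.IsHermitian) (k : ℕ) :
    (A ^ k).trace = ∑ i, hA.eigenvalues i ^ k := by
  conv_lhs => rw [hA.spectral_theorem, ← map_pow, Unitary.conjStarAlgAut_apply, Matrix.trace_mul_cycle,
    Unitary.coe_star_mul_self, one_mul, Matrix.diagonal_pow, Matrix.trace_diagonal]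
  rfl

theorem tp_goeMatrix_continuous (n : ℕ) :
    Continuous fun x : Fin n × Fin n → ℝ => goeMatrix x := by
  refine continuous_matrix fun i j => ?_
  exact continuous_apply _

theorem tp_poly_continuous (n : ℕ) (p : Polynomial ℝ) :
    Continuous fun x : Fin n × Fin n → ℝ => ((goeMatrix x).charpoly.roots.map fun t => p.eval t).sum := by
  have : (fun x : Fin n × Fin n → ℝ => ((goeMatrix x).charpoly.roots.map fun t => p.eval t).sum)
      = fun x => ∑ k ∈ Finset.range (p.natDegree + 1), p.coeff k * ((goeMatrix x) ^ k).trace := by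
    funext x
    rw [tp_roots_sum (tp_goeMatrix_herm x)]
    simp only [Polynomial.eval_eq_sum_range, tp_trace_pow (tp_goeMatrix_herm x), Finset.mul_sum]
    rw [Finset.sum_comm]
  rw [this]
  refine continuous_finsetSum _ fun k _ => continuous_const.mul ?_
  exact ((tp_goeMatrix_continuous n).pow k).matrix_trace

theorem tp_cont_measurable (n : ℕ) {φ : ℝ → ℝ} (hφ : Continuous φ) :
    Measurable fun x : Fin n × Fin n → ℝ => ((goeMatrix x).charpoly.roots.map φ).sum := by
  have hex : ∀ m : ℕ, ∃ p : Polynomial ℝ, ∀ t ∈ Set.Icc (-(m : ℝ)) m, |p.eval t - φ t| < 1 / ((m : ℝ) + 1) :=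
    fun m => exists_polynomial_near_of_continuousOn _ _ φ hφ.continuousOn _ (by positivity)
  choose p hp using hex
  refine measurable_of_tendsto_metrizable (fun m => (tp_poly_continuous n (p m)).measurable) ?_
  rw [tendsto_pi_nhds]
  intro x
  simp only [tp_roots_sum (tp_goeMatrix_herm x)]
  refine tendsto_finsetSum _ fun i _ => ?_
  set l := (tp_goeMatrix_herm x).eigenvalues i with hl
  rw [tendsto_iff_dist_tendsto_zero]
  refine squeeze_zero' (Eventually.of_forall fun _ => dist_nonneg) ?_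
    tendsto_one_div_add_atTop_nhds_zero_nat
  obtain ⟨M, hM⟩ := exists_nat_ge |l|
  filter_upwards [eventually_ge_atTop M] with m hm
  rw [Real.dist_eq]
  have hml : |l| ≤ (m : ℝ) := hM.trans (by exact_mod_cast hm)
  exact (hp m l (abs_le.mp hml)).le

/-- Continuous approximations of the indicator of a closed set. -/
theorem tp_indicator_measurable (n : ℕ) {S : Set ℝ} (hS : IsClosed S) (hne : S.Nonempty) :
    Measurable fun x : Fin n × Fin n → ℝ =>
      ((goeMatrix x).charpoly.roots.map (S.indicator fun _ => (1 : ℝ))).sum := by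
  have hc : ∀ m : ℕ, Continuous fun t : ℝ => max 0 (1 - (m : ℝ) * Metric.infDist t S) := fun m =>
    continuous_const.max (continuous_const.sub (continuous_const.mul (Metric.continuous_infDist_pt S)))
  refine measurable_of_tendsto_metrizable (fun m => tp_cont_measurable n (hc m)) ?_
  rw [tendsto_pi_nhds]
  intro x
  simp only [tp_roots_sum (tp_goeMatrix_herm x)]
  refine tendsto_finsetSum _ fun i _ => ?_
  set l := (tp_goeMatrix_herm x).eigenvalues i with hl
  by_cases hmem : l ∈ S
  · rw [Set.indicator_of_mem hmem]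
    have : ∀ m : ℕ, max 0 (1 - (m : ℝ) * Metric.infDist l S) = 1 := by
      intro m
      rw [Metric.infDist_zero_of_mem hmem]; simp
    simp only [this]
    exact tendsto_const_nhds
  · rw [Set.indicator_of_notMem hmem]
    have hpos : 0 < Metric.infDist l S := (hS.notMem_iff_infDist_pos hne).mp hmem
    apply tendsto_const_nhds.congr'
    obtain ⟨M, hM⟩ := exists_nat_ge (1 / Metric.infDist l S)
    filter_upwards [eventually_ge_atTop M] with m hm
    symm
    apply max_eq_left
    have : 1 / Metric.infDist l S ≤ (m : ℝ) := hM.trans (by exact_mod_cast hm)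
    rw [div_le_iff₀ hpos] at this
    linarith

theorem tp_get_top_le_iff {l : List ℝ} (hl : l.Pairwise (· ≤ ·)) (t : ℝ) :
    ∀ i : ℕ, tpGet ⊤ l i ≤ (t : EReal) ↔ i < l.countP (fun r => decide (r ≤ t)) := by
  induction l with
  | nil => intro i; simp
  | cons a l ih =>
    rw [List.pairwise_cons] at hl
    intro i
    by_cases hat : a ≤ t
    · cases i with
      | zero => simp [hat]
      | succ i => rw [tp_get_cons_succ, ih hl.2 i, List.countP_cons_of_pos (by simpa using hat)]; omega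
    · have hall : ∀ b ∈ l, ¬ b ≤ t := fun b hb hbt => hat ((hl.1 b hb).trans hbt)
      have hc0 : l.countP (fun r => decide (r ≤ t)) = 0 := by
        rw [List.countP_eq_zero]; intro b hb; simpa using hall b hb
      rw [List.countP_cons_of_neg (by simpa using hat), hc0]
      cases i with
      | zero => simpa using hat
      | succ i => rw [tp_get_cons_succ, ih hl.2 i, hc0]; omega

theorem tp_get_bot_ge_iff {l : List ℝ} (hl : l.Pairwise (· ≥ ·)) (t : ℝ) :
    ∀ i : ℕ, (t : EReal) ≤ tpGet ⊥ l i ↔ i < l.countP (fun r => decide (t ≤ r)) := by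
  induction l with
  | nil => intro i; simp
  | cons a l ih =>
    rw [List.pairwise_cons] at hl
    intro i
    by_cases hat : t ≤ a
    · cases i with
      | zero => simp [hat]
      | succ i => rw [tp_get_cons_succ, ih hl.2 i, List.countP_cons_of_pos (by simpa using hat)]; omega
    · have hall : ∀ b ∈ l, ¬ t ≤ b := fun b hb hbt => hat (hbt.trans (hl.1 b hb))
      have hc0 : l.countP (fun r => decide (t ≤ r)) = 0 := by
        rw [List.countP_eq_zero]; intro b hb; simpa using hall b hb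
      rw [List.countP_cons_of_neg (by simpa using hat), hc0]
      cases i with
      | zero => simpa using hat
      | succ i => rw [tp_get_cons_succ, ih hl.2 i, hc0]; omega

theorem tp_countP_sum (l : List ℝ) (p : ℝ → Bool) :
    ((l.countP p : ℕ) : ℝ) = (l.map fun r => if p r then (1 : ℝ) else 0).sum := by
  induction l with
  | nil => simp
  | cons a l ih =>
    by_cases h : p a
    · rw [List.countP_cons_of_pos h, List.map_cons, List.sum_cons, if_pos h, ← ih]; push_cast; ring
    · rw [List.countP_cons_of_neg h, List.map_cons, List.sum_cons, if_neg h, ← ih]; ring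

theorem tp_mem_pos {s : Multiset ℝ} {r : ℝ} (h : r ∈ tpPos s) : 0 ≤ r := by
  unfold tpPos at h
  rw [Multiset.mem_sort, Multiset.mem_filter] at h
  exact h.2

theorem tp_mem_neg {s : Multiset ℝ} {r : ℝ} (h : r ∈ tpNeg s) : r < 0 := by
  unfold tpNeg at h
  rw [Multiset.mem_sort, Multiset.mem_filter] at h
  exact h.2

theorem tp_pos_pairwise (s : Multiset ℝ) : (tpPos s).Pairwise (· ≤ ·) := Multiset.pairwise_sort _ _
theorem tp_neg_pairwise (s : Multiset ℝ) : (tpNeg s).Pairwise (· ≥ ·) := Multiset.pairwise_sort _ _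

theorem tp_count_pos (s : Multiset ℝ) (t : ℝ) :
    (((tpPos s).countP fun r => decide (r ≤ t) : ℕ) : ℝ)
      = (s.map ((Set.Icc 0 t).indicator fun _ => (1 : ℝ))).sum := by
  rw [← tp_list_sum_split s, tp_countP_sum]
  have h1 : ((tpNeg s).map ((Set.Icc 0 t).indicator fun _ => (1 : ℝ))).sum = 0 := by
    apply List.sum_eq_zero
    intro y hy
    obtain ⟨r, hr, rfl⟩ := List.mem_map.mp hy
    rw [Set.indicator_of_notMem]
    intro hmem
    exact absurd hmem.1 (not_le.mpr (tp_mem_neg hr))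
  rw [h1, add_zero]
  congr 1
  apply List.map_congr_left
  intro r hr
  have h0 := tp_mem_pos hr
  by_cases hrt : r ≤ t
  · rw [Set.indicator_of_mem (Set.mem_Icc.mpr ⟨h0, hrt⟩)]; simp [hrt]
  · rw [Set.indicator_of_notMem (fun h => hrt h.2)]; simp [hrt]

theorem tp_count_neg (s : Multiset ℝ) {t : ℝ} (ht : t ≤ 0) :
    (((tpNeg s).countP fun r => decide (t ≤ r) : ℕ) : ℝ)
      = (s.map ((Set.Ici t).indicator fun _ => (1 : ℝ))).sum
        - (s.map ((Set.Ici (0 : ℝ)).indicator fun _ => (1 : ℝ))).sum := by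
  rw [← Multiset.sum_map_sub, ← tp_list_sum_split s, tp_countP_sum]
  have h1 : ((tpPos s).map fun r => (Set.Ici t).indicator (fun _ => (1 : ℝ)) r
      - (Set.Ici (0 : ℝ)).indicator (fun _ => (1 : ℝ)) r).sum = 0 := by
    apply List.sum_eq_zero
    intro y hy
    obtain ⟨r, hr, rfl⟩ := List.mem_map.mp hy
    have h0 := tp_mem_pos hr
    rw [Set.indicator_of_mem (Set.mem_Ici.mpr (ht.trans h0)), Set.indicator_of_mem (Set.mem_Ici.mpr h0),
      sub_self]
  rw [h1, zero_add]
  congr 1
  apply List.map_congr_left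
  intro r hr
  have h0 := tp_mem_neg hr
  rw [Set.indicator_of_notMem
    (show r ∉ Set.Ici (0 : ℝ) from fun h => absurd (Set.mem_Ici.mp h) (not_le.mpr h0)), sub_zero]
  by_cases hrt : t ≤ r
  · rw [Set.indicator_of_mem (Set.mem_Ici.mpr hrt)]; simp [hrt]
  · rw [Set.indicator_of_notMem (show r ∉ Set.Ici t from fun h => hrt (Set.mem_Ici.mp h))]; simp [hrt]

/-- Counting functions of closed sets are measurable, in the rescaled variable. -/
theorem tp_count_measurable (n : ℕ) (a : ℝ) {S : Set ℝ} (hS : IsClosed S) (h0 : (0 : ℝ) ∈ S) :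
    Measurable fun x : Fin n × Fin n → ℝ => ((tpSpecW a x).map (S.indicator fun _ => (1 : ℝ))).sum := by
  have hS' : IsClosed ((fun t : ℝ => a * t) ⁻¹' S) :=
    hS.preimage (continuous_const.mul continuous_id)
  have hne : ((fun t : ℝ => a * t) ⁻¹' S).Nonempty := ⟨0, by simpa using h0⟩
  have := tp_indicator_measurable n hS' hne
  convert this using 2 with x
  unfold tpSpecW
  rw [Multiset.map_map]
  rfl

theorem tp_measW (n : ℕ) (a : ℝ) :
    Measurable fun x : Fin n × Fin n → ℝ => tpLab (tpSpecW a x) := by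
  rw [measurable_pi_iff]
  intro j
  by_cases hj : 0 ≤ j
  · have hfun : (fun x : Fin n × Fin n → ℝ => tpLab (tpSpecW a x) j)
        = fun x => tpGet ⊤ (tpPos (tpSpecW a x)) j.toNat := by
      funext x; simp only [tpLab, if_pos hj]
    rw [hfun]
    apply measurable_of_Iic
    intro a
    induction a using EReal.rec with
    | top => simp
    | bot =>
      have : (fun x : Fin n × Fin n → ℝ => tpGet ⊤ (tpPos (tpSpecW a x)) j.toNat) ⁻¹' Set.Iic ⊥ = ∅ := by
        ext x
        simp only [Set.mem_preimage, Set.mem_Iic, le_bot_iff, Set.mem_empty_iff_false, iff_false]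
        intro h
        have := tp_get_pos_nonneg (tpSpecW a x) j.toNat
        rw [h] at this
        exact absurd this (by simp)
      rw [this]; exact MeasurableSet.empty
    | coe t =>
      by_cases ht : 0 ≤ t
      · have : (fun x : Fin n × Fin n → ℝ => tpGet ⊤ (tpPos (tpSpecW a x)) j.toNat) ⁻¹' Set.Iic (t : EReal)
            = {x | ((j.toNat : ℕ) : ℝ) <
                ((tpSpecW a x).map ((Set.Icc 0 t).indicator fun _ => (1 : ℝ))).sum} := by
          ext x
          simp only [Set.mem_preimage, Set.mem_Iic, Set.mem_ofPred_eq]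
          rw [tp_get_top_le_iff (tp_pos_pairwise _), ← tp_count_pos, Nat.cast_lt]
        rw [this]
        exact measurableSet_lt measurable_const
          (tp_count_measurable n a isClosed_Icc (Set.mem_Icc.mpr ⟨le_rfl, ht⟩))
      · have : (fun x : Fin n × Fin n → ℝ => tpGet ⊤ (tpPos (tpSpecW a x)) j.toNat) ⁻¹' Set.Iic (t : EReal)
            = ∅ := by
          ext x
          simp only [Set.mem_preimage, Set.mem_Iic, Set.mem_empty_iff_false, iff_false]
          intro h
          have := (tp_get_pos_nonneg (tpSpecW a x) j.toNat).trans h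
          exact ht (by exact_mod_cast this)
        rw [this]; exact MeasurableSet.empty
  · have hfun : (fun x : Fin n × Fin n → ℝ => tpLab (tpSpecW a x) j)
        = fun x => tpGet ⊥ (tpNeg (tpSpecW a x)) (-j - 1).toNat := by
      funext x; simp only [tpLab, if_neg hj]
    rw [hfun]
    apply measurable_of_Ici
    intro a
    induction a using EReal.rec with
    | bot => simp
    | top =>
      have : (fun x : Fin n × Fin n → ℝ => tpGet ⊥ (tpNeg (tpSpecW a x)) (-j - 1).toNat) ⁻¹' Set.Ici ⊤ = ∅ := by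
        ext x
        simp only [Set.mem_preimage, Set.mem_Ici, top_le_iff, Set.mem_empty_iff_false, iff_false]
        intro h
        have := tp_get_neg_nonpos (tpSpecW a x) (-j - 1).toNat
        rw [h] at this
        exact absurd this (by simp)
      rw [this]; exact MeasurableSet.empty
    | coe t =>
      by_cases ht : t ≤ 0
      · have : (fun x : Fin n × Fin n → ℝ => tpGet ⊥ (tpNeg (tpSpecW a x)) (-j - 1).toNat) ⁻¹'
              Set.Ici (t : EReal)
            = {x | (((-j - 1).toNat : ℕ) : ℝ) <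
                ((tpSpecW a x).map ((Set.Ici t).indicator fun _ => (1 : ℝ))).sum
                - ((tpSpecW a x).map ((Set.Ici (0 : ℝ)).indicator fun _ => (1 : ℝ))).sum} := by
          ext x
          simp only [Set.mem_preimage, Set.mem_Ici, Set.mem_ofPred_eq]
          rw [tp_get_bot_ge_iff (tp_neg_pairwise _), ← tp_count_neg _ ht, Nat.cast_lt]
        rw [this]
        exact measurableSet_lt measurable_const
          ((tp_count_measurable n a isClosed_Ici (Set.mem_Ici.mpr ht)).sub
            (tp_count_measurable n a isClosed_Ici (Set.mem_Ici.mpr le_rfl)))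
      · have : (fun x : Fin n × Fin n → ℝ => tpGet ⊥ (tpNeg (tpSpecW a x)) (-j - 1).toNat) ⁻¹'
              Set.Ici (t : EReal) = ∅ := by
          ext x
          simp only [Set.mem_preimage, Set.mem_Ici, Set.mem_empty_iff_false, iff_false]
          intro h
          have := h.trans (tp_get_neg_nonpos (tpSpecW a x) (-j - 1).toNat)
          exact ht (by exact_mod_cast this)
        rw [this]; exact MeasurableSet.empty

/-! ## G. The two ensembles as laws on labelled configurations -/

open Classical in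
/-- Rescaled spectrum of a graph, `x = a (t - E)`. -/
noncomputable def tpSpecG {n : ℕ} (a E : ℝ) (G : SimpleGraph (Fin n)) : Multiset ℝ :=
  (G.adjMatrix ℝ).charpoly.roots.map fun t => a * (t - E)

/-- Law of the labelled rescaled spectrum of the uniform `d`-regular graph. -/
noncomputable def tpLawG (n d : ℕ) (a E : ℝ) : Measure TpCf :=
  ((regularGraphs n d).card : ℝ≥0∞)⁻¹ •
    ∑ G ∈ regularGraphs n d, Measure.dirac (tpLab (tpSpecG a E G))

/-- Law of the labelled rescaled spectrum of GOE. -/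
noncomputable def tpLawW (n : ℕ) (a : ℝ) : Measure TpCf :=
  (goeArray n).map fun x => tpLab (tpSpecW a x)

theorem tp_lawG_prob {n d : ℕ} (a E : ℝ) (hne : (regularGraphs n d).Nonempty) :
    IsProbabilityMeasure (tpLawG n d a E) := by
  constructor
  unfold tpLawG
  rw [Measure.smul_apply, Measure.finsetSum_apply]
  simp only [measure_univ, Finset.sum_const, nsmul_eq_mul, mul_one, smul_eq_mul]
  apply ENNReal.inv_mul_cancel
  · exact_mod_cast (Finset.card_pos.mpr hne).ne'
  · exact ENNReal.natCast_ne_top _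

instance tp_goeArray_prob (n : ℕ) : IsProbabilityMeasure (goeArray n) := by
  unfold goeArray; infer_instance

instance tp_lawW_prob (n : ℕ) (a : ℝ) : IsProbabilityMeasure (tpLawW n a) :=
  Measure.isProbabilityMeasure_map (tp_measW n a).aemeasurable

open Classical in
/-- A measure as a probability measure (junk Dirac mass if it is not one). -/
noncomputable def tpMk (μ : Measure TpCf) : ProbabilityMeasure TpCf :=
  if h : IsProbabilityMeasure μ then (⟨μ, h⟩ : ProbabilityMeasure TpCf)
  else (⟨Measure.dirac (fun _ => 0), inferInstance⟩ : ProbabilityMeasure TpCf)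

theorem tp_mk_coe (μ : Measure TpCf) (h : IsProbabilityMeasure μ) :
    ((tpMk μ : ProbabilityMeasure TpCf) : Measure TpCf) = μ := by
  have : tpMk μ = (⟨μ, h⟩ : ProbabilityMeasure TpCf) := dif_pos h
  rw [this]
  rfl

/-- The graph law in the micro-coordinates of P1, `x = n (t - E)` (junk for non admissible `n`). -/
noncomputable def limPG (d : ℕ) (E : ℝ) (n : ℕ) : ProbabilityMeasure TpCf := tpMk (tpLawG n d n E)

/-- The GOE law in the coordinates `y = n t / (π ρ)`. -/
noncomputable def limPW (ρ : ℝ) (n : ℕ) : ProbabilityMeasure TpCf := tpMk (tpLawW n (n / (Real.pi * ρ)))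

theorem lim_PG_coe {n d : ℕ} (E : ℝ) (hne : (regularGraphs n d).Nonempty) :
    ((limPG d E n : ProbabilityMeasure TpCf) : Measure TpCf) = tpLawG n d n E :=
  tp_mk_coe _ (tp_lawG_prob _ E hne)

theorem lim_PW_coe (ρ : ℝ) (n : ℕ) :
    ((limPW ρ n : ProbabilityMeasure TpCf) : Measure TpCf) = tpLawW n (n / (Real.pi * ρ)) :=
  tp_mk_coe _ inferInstance

theorem tp_lawG_integral (n d : ℕ) (a E : ℝ) (F : TpCf → ℝ) :
    ∫ x, F x ∂(tpLawG n d a E)
      = (∑ G ∈ regularGraphs n d, F (tpLab (tpSpecG a E G))) / (regularGraphs n d).card := by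
  unfold tpLawG
  rw [integral_smul_measure, integral_finsetSum_measure (fun G _ => integrable_dirac (by simp))]
  simp only [integral_dirac, ENNReal.toReal_inv, ENNReal.toReal_natCast, smul_eq_mul]
  rw [div_eq_inv_mul]

open Classical in
/-- The graph law of an event = fraction of the graphs. -/
theorem tp_lawG_apply (n d : ℕ) (a E : ℝ) {S : Set TpCf} (hS : MeasurableSet S) :
    tpLawG n d a E S
      = (((regularGraphs n d).filter fun G => tpLab (tpSpecG a E G) ∈ S).card : ℝ≥0∞)
        / ((regularGraphs n d).card : ℝ≥0∞) := by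
  unfold tpLawG
  rw [Measure.smul_apply, Measure.finsetSum_apply, smul_eq_mul, ENNReal.div_eq_inv_mul]
  congr 1
  rw [Finset.card_filter]
  push_cast
  refine Finset.sum_congr rfl fun G _ => ?_
  rw [Measure.dirac_apply' _ hS]
  by_cases h : tpLab (tpSpecG a E G) ∈ S
  · simp [h]
  · simp [h]

/-- The GOE law of an event. -/
theorem tp_lawW_apply (n : ℕ) (a : ℝ) {S : Set TpCf} (hS : MeasurableSet S) :
    tpLawW n a S = goeArray n {x | tpLab (tpSpecW a x) ∈ S} := by
  unfold tpLawW
  rw [Measure.map_apply (tp_measW n a) hS]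
  rfl

theorem tp_regularLaplace_eq {h : ℝ → ℝ} (hnn : ∀ t, 0 ≤ h t) (n d : ℕ) (E : ℝ) :
    regularLaplace n d E h = ∫ x, tpLap (fun t => h (kestenMcKay d E * t)) x ∂(tpLawG n d n E) := by
  rw [tp_lawG_integral]
  unfold regularLaplace
  congr 1
  refine Finset.sum_congr rfl fun G _ => ?_
  rw [tp_lap_lab (fun t => hnn _)]
  unfold tpSpecG spectralSum
  rw [Multiset.map_map]
  congr 3
  refine Multiset.map_congr rfl fun t _ => ?_
  simp only [Function.comp]
  congr 1
  ring

theorem tp_goeLaplace_eq {h : ℝ → ℝ} (hc : Continuous h) (hs : HasCompactSupport h)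
    (hnn : ∀ t, 0 ≤ h t) {ρ : ℝ} (hρ : 0 < ρ) (n : ℕ) :
    goeLaplace n h = ∫ x, tpLap (fun t => h (ρ * t)) x ∂(tpLawW n (n / (Real.pi * ρ))) := by
  have hgc : Continuous fun t => h (ρ * t) := hc.comp (continuous_const.mul continuous_id)
  have hgs : HasCompactSupport fun t => h (ρ * t) :=
    hs.comp_homeomorph (Homeomorph.mulLeft₀ ρ hρ.ne')
  unfold tpLawW
  rw [integral_map (tp_measW n _).aemeasurable (tp_lap_measurable hgc hgs).aestronglyMeasurable]
  unfold goeLaplace
  refine integral_congr_ae (ae_of_all _ fun x => ?_)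
  simp only
  rw [tp_lap_lab (fun t => hnn _)]
  unfold tpSpecW spectralSum
  rw [Multiset.map_map]
  congr 3
  refine Multiset.map_congr rfl fun t _ => ?_
  simp only [Function.comp]
  congr 1
  have := Real.pi_pos
  field_simp

/-- A property of all labelled finite spectra holds almost surely under the graph law. -/
theorem tp_lawG_ae (n d : ℕ) (a E : ℝ) {S : Set TpCf} (hS : MeasurableSet S)
    (h : ∀ s : Multiset ℝ, tpLab s ∈ S) : ∀ᵐ x ∂(tpLawG n d a E), x ∈ S := by
  rw [ae_iff]
  unfold tpLawG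
  rw [Measure.smul_apply, Measure.finsetSum_apply, smul_eq_mul]
  have : ∑ G ∈ regularGraphs n d, (Measure.dirac (tpLab (tpSpecG a E G))) {x : TpCf | ¬ x ∈ S} = 0 := by
    refine Finset.sum_eq_zero fun G _ => ?_
    have hc : {x : TpCf | ¬ x ∈ S} = Sᶜ := rfl
    rw [hc, Measure.dirac_apply' _ hS.compl, Set.indicator_of_notMem]
    simpa using h _
  rw [this, mul_zero]

/-- A property of all labelled finite spectra holds almost surely under the GOE law. -/
theorem tp_lawW_ae (n : ℕ) (a : ℝ) {S : Set TpCf} (hS : MeasurableSet S)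
    (h : ∀ s : Multiset ℝ, tpLab s ∈ S) : ∀ᵐ x ∂(tpLawW n a), x ∈ S := by
  unfold tpLawW
  exact (ae_map_iff (tp_measW n a).aemeasurable hS).mpr (ae_of_all _ fun x => h _)

/-- canonical labels -/
def tpLabSet : Set TpCf := {x | x (-1) ≤ 0 ∧ 0 ≤ x 0}

theorem tp_labSet_closed : IsClosed tpLabSet :=
  (isClosed_le (continuous_apply _) continuous_const).inter
    (isClosed_le continuous_const (continuous_apply _))

theorem tp_lab_mem_labSet (s : Multiset ℝ) : tpLab s ∈ tpLabSet := by
  constructor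
  · have := tp_lab_neg s 0
    simp only [Nat.cast_zero, neg_zero, zero_sub] at this
    rw [this]; exact tp_get_neg_nonpos s 0
  · have := tp_lab_pos s 0
    simp only [Nat.cast_zero] at this
    rw [this]; exact tp_get_pos_nonneg s 0

/-! ## H. From the compactified limit to a law on `Conf` -/

/-- real values of the labels (junk `0` at `±∞`) -/
noncomputable def tpReal (x : TpCf) : Conf := fun j => (x j).toReal

/-- the embedding of `Conf` -/
def tpCoe (y : Conf) : TpCf := fun j => (y j : EReal)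

theorem tp_real_measurable : Measurable tpReal :=
  measurable_pi_iff.mpr fun j => measurable_ereal_toReal.comp (measurable_pi_apply j)

theorem tp_coe_continuous : Continuous tpCoe :=
  continuous_pi fun j => continuous_coe_real_ereal.comp (continuous_apply j)

/-- all labels are finite -/
def tpFinSet : Set TpCf := {x | ∀ j, x j ≠ ⊤ ∧ x j ≠ ⊥}

theorem tp_coe_real {x : TpCf} (hx : x ∈ tpFinSet) : tpCoe (tpReal x) = x :=
  funext fun j => EReal.coe_toReal (hx j).1 (hx j).2

/-- the label `j` is outside `[-R, R]` (open event) -/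
def tpOut (j : ℤ) (R : ℝ) : Set TpCf := {x | x j < ((-R : ℝ) : EReal)} ∪ {x | (R : EReal) < x j}

theorem tp_out_open (j : ℤ) (R : ℝ) : IsOpen (tpOut j R) :=
  (isOpen_lt (continuous_apply _) continuous_const).union
    (isOpen_lt continuous_const (continuous_apply _))

theorem tp_out_anti (j : ℤ) {R R' : ℝ} (h : R ≤ R') : tpOut j R' ⊆ tpOut j R := by
  rintro x (hx | hx)
  · exact Or.inl (lt_of_lt_of_le hx (EReal.coe_le_coe_iff.mpr (neg_le_neg h)))
  · exact Or.inr (lt_of_le_of_lt (EReal.coe_le_coe_iff.mpr h) hx)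

/-- **Hypotheses of the limit kit** on the finite `n` laws, along the ultrafilter `U`. -/
structure LimHyp (U : Ultrafilter ℕ) (Λ : ℕ → ProbabilityMeasure TpCf) : Prop where
  sorted : ∀ᶠ n in (U : Filter ℕ), TpSorted (Λ n)
  lab : ∀ᶠ n in (U : Filter ℕ), ∀ᵐ x ∂(Λ n : Measure TpCf), x ∈ tpLabSet
  tight : ∀ (j : ℤ) (ε : ℝ), 0 < ε → ∃ R : ℝ, ∀ᶠ n in (U : Filter ℕ),
    (Λ n : Measure TpCf) (tpOut j R) ≤ ENNReal.ofReal ε
  locfin : ∀ R ε : ℝ, 0 < ε → ∃ J : ℕ, ∀ᶠ n in (U : Filter ℕ),
    (Λ n : Measure TpCf) (tpBad R J) ≤ ENNReal.ofReal ε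

/-- the limit law in the compactified space -/
theorem lim_bar_exists (U : Ultrafilter ℕ) (Λ : ℕ → ProbabilityMeasure TpCf) :
    ∃ μ : ProbabilityMeasure TpCf, Tendsto Λ U (𝓝 μ) := by
  obtain ⟨μ, -, h⟩ := isCompact_univ.ultrafilter_le_nhds (U.map Λ) (by simp)
  exact ⟨μ, h⟩

/-- portmanteau, open sets, in the form used here -/
theorem lim_open_le {U : Ultrafilter ℕ} {Λ : ℕ → ProbabilityMeasure TpCf} {μ : ProbabilityMeasure TpCf}
    (hlim : Tendsto Λ U (𝓝 μ)) {O : Set TpCf} (hO : IsOpen O) {c : ℝ≥0∞}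
    (h : ∀ᶠ n in (U : Filter ℕ), (Λ n : Measure TpCf) O ≤ c) : (μ : Measure TpCf) O ≤ c :=
  (ProbabilityMeasure.le_liminf_measure_open_of_tendsto hlim hO).trans
    (liminf_le_of_frequently_le' h.frequently)

theorem lim_eq_zero_of_le {a : ℝ≥0∞} (h : ∀ ε : ℝ, 0 < ε → a ≤ ENNReal.ofReal ε) : a = 0 := by
  refine le_antisymm ?_ zero_le
  apply ENNReal.le_of_forall_pos_le_add
  intro ε hε _
  rw [zero_add]
  have := h ε (by exact_mod_cast hε)
  rwa [ENNReal.ofReal_coe_nnreal] at this

theorem lim_fin {U : Ultrafilter ℕ} {Λ : ℕ → ProbabilityMeasure TpCf} (H : LimHyp U Λ)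
    {μ : ProbabilityMeasure TpCf} (hlim : Tendsto Λ U (𝓝 μ)) :
    ∀ᵐ x ∂(μ : Measure TpCf), x ∈ tpFinSet := by
  have : ∀ j : ℤ, ∀ᵐ x ∂(μ : Measure TpCf), x j ≠ ⊤ ∧ x j ≠ ⊥ := by
    intro j
    rw [ae_iff]
    apply lim_eq_zero_of_le
    intro ε hε
    obtain ⟨R, hR⟩ := H.tight j ε hε
    refine (measure_mono ?_).trans (lim_open_le hlim (tp_out_open j R) hR)
    intro x hx
    simp only [Set.mem_ofPred_eq, not_and_or, not_not] at hx
    rcases hx with hx | hx
    · exact Or.inr (show (R : EReal) < x j by rw [hx]; exact EReal.coe_lt_top R)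
    · exact Or.inl (show x j < ((-R : ℝ) : EReal) by rw [hx]; exact EReal.bot_lt_coe _)
  exact ae_all_iff.mpr this

theorem lim_locfin {U : Ultrafilter ℕ} {Λ : ℕ → ProbabilityMeasure TpCf} (H : LimHyp U Λ)
    {μ : ProbabilityMeasure TpCf} (hlim : Tendsto Λ U (𝓝 μ)) : TpLocFin μ := by
  intro R ε hε
  obtain ⟨J, hJ⟩ := H.locfin (R + 1) (ε / 2) (by positivity)
  refine ⟨J, ?_⟩
  set O : Set TpCf := {x | x (J : ℤ) < ((R + 1 : ℝ) : EReal)} ∪
    {x | ((-(R + 1) : ℝ) : EReal) < x (-(J : ℤ) - 1)} with hOdef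
  have hO : IsOpen O := (isOpen_lt (continuous_apply _) continuous_const).union
    (isOpen_lt continuous_const (continuous_apply _))
  have h1 : tpBad R J ⊆ O := by
    rintro x (hx | hx)
    · exact Or.inl (lt_of_le_of_lt hx (EReal.coe_lt_coe_iff.mpr (by linarith)))
    · exact Or.inr (lt_of_lt_of_le (EReal.coe_lt_coe_iff.mpr (by linarith)) hx)
  have h2 : O ⊆ tpBad (R + 1) J := by
    rintro x (hx | hx)
    · exact Or.inl (show x (J : ℤ) ≤ ((R + 1 : ℝ) : EReal) from le_of_lt hx)
    · exact Or.inr (show ((-(R + 1) : ℝ) : EReal) ≤ x (-(J : ℤ) - 1) from le_of_lt hx)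
  have h3 : (μ : Measure TpCf) O ≤ ENNReal.ofReal (ε / 2) :=
    lim_open_le hlim hO (hJ.mono fun n hn => (measure_mono h2).trans hn)
  refine lt_of_le_of_lt ((measure_mono h1).trans h3) ?_
  exact (ENNReal.ofReal_lt_ofReal_iff hε).mpr (by linarith)

theorem tp_locfin_ae {μ : ProbabilityMeasure TpCf} (h : TpLocFin μ) (R : ℝ) :
    ∀ᵐ x ∂(μ : Measure TpCf), ∃ J : ℕ, x ∉ tpBad R J := by
  rw [ae_iff]
  apply lim_eq_zero_of_le
  intro ε hε
  obtain ⟨J, hJ⟩ := h R ε hε
  refine (measure_mono ?_).trans hJ.le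
  intro x hx
  simp only [Set.mem_ofPred_eq, not_exists, not_not] at hx
  exact hx J

/-- the sum over all labels is the truncated sum, off the bad set -/
theorem tp_tsum_eq {g : ℝ → ℝ} {R : ℝ} (hR : TpSupp g R) {y : Conf} (hy : Monotone y) {J : ℕ}
    (hb : tpCoe y ∉ tpBad R J) : ∑' j : ℤ, g (y j) = tpSumJ g J (tpCoe y) := by
  have hb1 : R < y (J : ℤ) := by
    by_contra h
    exact hb (Or.inl (show tpCoe y (J : ℤ) ≤ (R : EReal) from EReal.coe_le_coe_iff.mpr (not_lt.mp h)))
  have hb2 : y (-(J : ℤ) - 1) < -R := by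
    by_contra h
    exact hb (Or.inr (show ((-R : ℝ) : EReal) ≤ tpCoe y (-(J : ℤ) - 1) from
      EReal.coe_le_coe_iff.mpr (not_lt.mp h)))
  have h1 : HasSum (fun i : ℕ => g (y (i : ℤ))) (∑ i ∈ Finset.range J, g (y (i : ℤ))) := by
    apply hasSum_sum_of_ne_finset_zero
    intro i hi
    have hi' : J ≤ i := by simpa using hi
    apply hR
    have : y J ≤ y i := hy (by exact_mod_cast hi')
    exact lt_of_lt_of_le (by linarith [hb1]) (le_abs_self _)
  have h2 : HasSum (fun i : ℕ => g (y (-((i : ℤ) + 1)))) (∑ i ∈ Finset.range J, g (y (-((i : ℤ) + 1)))) := by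
    apply hasSum_sum_of_ne_finset_zero
    intro i hi
    have hi' : J ≤ i := by simpa using hi
    apply hR
    have : y (-((i : ℤ) + 1)) ≤ y (-(J : ℤ) - 1) := hy (by
      have : (J : ℤ) ≤ i := by exact_mod_cast hi'
      linarith)
    have h3 : -(y (-((i : ℤ) + 1))) ≤ |y (-((i : ℤ) + 1))| := neg_le_abs _
    linarith [hb2]
  rw [(HasSum.of_nat_of_neg_add_one (f := fun j : ℤ => g (y j)) h1 h2).tsum_eq]
  have e : tpSumJ g J (tpCoe y)
      = ∑ i ∈ Finset.range J, (g (y (i : ℤ)) + g (y (-(i : ℤ) - 1))) := by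
    unfold tpSumJ
    refine Finset.sum_congr rfl fun i _ => ?_
    rw [show tpCoe y (i : ℤ) = ((y (i : ℤ) : ℝ) : EReal) from rfl,
      show tpCoe y (-(i : ℤ) - 1) = ((y (-(i : ℤ) - 1) : ℝ) : EReal) from rfl, tp_ext_coe, tp_ext_coe]
  rw [e, Finset.sum_add_distrib, add_right_inj]
  refine Finset.sum_congr rfl fun i _ => ?_
  rw [show -((i : ℤ) + 1) = -(i : ℤ) - 1 by ring]

theorem tp_coe_mono {y : Conf} (hy : Monotone y) : Monotone (tpCoe y) :=
  fun _ _ hij => EReal.coe_le_coe_iff.mpr (hy hij)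

theorem tp_real_mono {x : TpCf} (hx : Monotone x) (hf : x ∈ tpFinSet) : Monotone (tpReal x) :=
  fun i j hij => EReal.toReal_le_toReal (hx hij) (hf i).2 (hf j).1

theorem conf_mono_measurable : MeasurableSet {y : Conf | Monotone y} := by
  have : {y : Conf | Monotone y} = ⋂ (i : ℤ) (j : ℤ) (_ : i ≤ j), {y : Conf | y i ≤ y j} := by
    ext y; simp [Monotone]
  rw [this]
  exact (isClosed_iInter fun i => isClosed_iInter fun j => isClosed_iInter fun _ =>
    isClosed_le (continuous_apply i) (continuous_apply j)).measurableSet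

/-- the Laplace functional of the real law = integral of `tpLap` against the compactified law -/
theorem lim_cLap {μ : ProbabilityMeasure TpCf} (hs : TpSorted μ) (hf : ∀ᵐ x ∂(μ : Measure TpCf), x ∈ tpFinSet)
    (hl : TpLocFin μ) {g : ℝ → ℝ} (hc : Continuous g) (hsupp : HasCompactSupport g) (hnn : ∀ t, 0 ≤ g t) :
    cLap ((μ : Measure TpCf).map tpReal) g = ∫ x, tpLap g x ∂(μ : Measure TpCf) := by
  obtain ⟨R, -, hR⟩ := tp_supp_exists hsupp
  set A : Set Conf := {y | Monotone y} ∩ ⋃ J : ℕ, tpCoe ⁻¹' (tpBad R J)ᶜ with hA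
  have hAm : MeasurableSet A := conf_mono_measurable.inter
    (MeasurableSet.iUnion fun J => tp_coe_continuous.measurable (tp_bad_closed R J).measurableSet.compl)
  have hAae : ∀ᵐ y ∂((μ : Measure TpCf).map tpReal), y ∈ A := by
    refine (ae_map_iff tp_real_measurable.aemeasurable hAm).mpr ?_
    filter_upwards [hs, hf, tp_locfin_ae hl R] with x h1 h2 h3
    refine ⟨tp_real_mono h1 h2, ?_⟩
    obtain ⟨J, hJ⟩ := h3
    refine Set.mem_iUnion.mpr ⟨J, ?_⟩
    simp only [Set.mem_preimage, Set.mem_compl_iff]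
    rwa [tp_coe_real h2]
  unfold cLap
  have e1 : ∫ y, Real.exp (-∑' j : ℤ, g (y j)) ∂((μ : Measure TpCf).map tpReal)
      = ∫ y, tpLap g (tpCoe y) ∂((μ : Measure TpCf).map tpReal) := by
    refine integral_congr_ae ?_
    filter_upwards [hAae] with y hy
    obtain ⟨J, hJ⟩ := Set.mem_iUnion.mp hy.2
    simp only [Set.mem_preimage, Set.mem_compl_iff] at hJ
    rw [tp_lap_eq_off_bad hnn hR (tp_coe_mono hy.1) hJ, tp_tsum_eq hR hy.1 hJ]
    rfl
  have e2 := integral_map (μ := (μ : Measure TpCf)) (φ := tpReal) tp_real_measurable.aemeasurable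
    (f := fun y => tpLap g (tpCoe y))
    ((tp_lap_measurable hc hsupp).comp tp_coe_continuous.measurable).aestronglyMeasurable
  rw [e1, e2]
  refine integral_congr_ae ?_
  filter_upwards [hf] with x hx
  rw [tp_coe_real hx]

/-! ## I. Convergence of finitely many labels -/

/-- trapezoidal cutoff: `1` on `[-R, R]`, `0` outside `[-R-1, R+1]` -/
noncomputable def tpChi (R : ℝ) (t : ℝ) : ℝ := max 0 (min 1 (R + 1 - |t|))

theorem tp_chi_continuous (R : ℝ) : Continuous (tpChi R) :=
  continuous_const.max (continuous_const.min (continuous_const.sub continuous_abs))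

theorem tp_chi_supp (R : ℝ) : TpSupp (tpChi R) (R + 1) := by
  intro t ht
  unfold tpChi
  apply max_eq_left
  exact (min_le_right _ _).trans (by linarith)

theorem tp_chi_one {R t : ℝ} (h : |t| ≤ R) : tpChi R t = 1 := by
  unfold tpChi
  rw [min_eq_left (by linarith), max_eq_right zero_le_one]

theorem tp_chi_nonneg (R t : ℝ) : 0 ≤ tpChi R t := le_max_left _ _

theorem tp_chi_le_one (R t : ℝ) : tpChi R t ≤ 1 := max_le zero_le_one (min_le_left _ _)

section window

variable {ι : Type} [Fintype ι] (idx : ι → ℤ)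

/-- the window map -/
noncomputable def tpWin (x : TpCf) : ι → ℝ := fun i => (x (idx i)).toReal

omit [Fintype ι] in
theorem tp_win_measurable : Measurable (tpWin idx) :=
  measurable_pi_iff.mpr fun _ => measurable_ereal_toReal.comp (measurable_pi_apply _)

/-- product of the cutoffs -/
noncomputable def tpCutP (R : ℝ) (x : TpCf) : ℝ := ∏ i, tpExt (tpChi R) (x (idx i))

theorem tp_cutP_continuous (R : ℝ) : Continuous (tpCutP idx R) :=
  continuous_finsetProd _ fun _ _ =>
    (tp_ext_continuous' (tp_chi_continuous R) (tp_chi_supp R)).comp (continuous_apply _)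

theorem tp_cutP_nonneg (R : ℝ) (x : TpCf) : 0 ≤ tpCutP idx R x :=
  Finset.prod_nonneg fun _ _ => tp_ext_nonneg (tp_chi_nonneg R) _

theorem tp_ext_chi_le_one (R : ℝ) (x : EReal) : tpExt (tpChi R) x ≤ 1 := by
  unfold tpExt; split_ifs
  · exact zero_le_one
  · exact tp_chi_le_one R _

theorem tp_cutP_le_one (R : ℝ) (x : TpCf) : tpCutP idx R x ≤ 1 :=
  Finset.prod_le_one (fun _ _ => tp_ext_nonneg (tp_chi_nonneg R) _) fun _ _ => tp_ext_chi_le_one R _

/-- some label of the window is outside `[-R, R]` -/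
def tpOutW (R : ℝ) : Set TpCf := ⋃ i, tpOut (idx i) R

omit [Fintype ι] in
theorem tp_outW_open (R : ℝ) : IsOpen (tpOutW idx R) := isOpen_iUnion fun _ => tp_out_open _ R

theorem tp_cutP_one {R : ℝ} {x : TpCf} (hx : x ∉ tpOutW idx R) : tpCutP idx R x = 1 := by
  apply Finset.prod_eq_one
  intro i _
  have hi : x ∉ tpOut (idx i) R := fun h => hx (Set.mem_iUnion.mpr ⟨i, h⟩)
  have h1 : ((-R : ℝ) : EReal) ≤ x (idx i) := not_lt.mp fun h => hi (Or.inl h)
  have h2 : x (idx i) ≤ (R : EReal) := not_lt.mp fun h => hi (Or.inr h)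
  generalize x (idx i) = a at h1 h2
  induction a using EReal.rec with
  | bot => exact absurd h1 (by simp)
  | top => exact absurd h2 (by simp)
  | coe r =>
    rw [tp_ext_coe]
    exact tp_chi_one (abs_le.mpr ⟨EReal.coe_le_coe_iff.mp h1, EReal.coe_le_coe_iff.mp h2⟩)

theorem tp_cutF_continuous (F : BoundedContinuousFunction (ι → ℝ) ℝ) (R : ℝ) :
    Continuous fun x : TpCf => F (tpWin idx x) * tpCutP idx R x := by
  rw [continuous_iff_continuousAt]
  intro x
  by_cases hfin : ∀ i, x (idx i) ≠ ⊤ ∧ x (idx i) ≠ ⊥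
  · have hw : ContinuousAt (tpWin idx) x :=
      continuousAt_pi.mpr fun i =>
        (EReal.tendsto_toReal (hfin i).1 (hfin i).2).comp (continuous_apply (idx i)).continuousAt
    exact (F.continuous.continuousAt.comp hw).mul (tp_cutP_continuous idx R).continuousAt
  · push Not at hfin
    obtain ⟨i, hi⟩ := hfin
    have hmem : x ∈ tpOut (idx i) (R + 1) := by
      by_cases ht : x (idx i) = ⊤
      · exact Or.inr (show ((R + 1 : ℝ) : EReal) < x (idx i) by rw [ht]; exact EReal.coe_lt_top _)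
      · exact Or.inl (show x (idx i) < ((-(R + 1) : ℝ) : EReal) by rw [hi ht]; exact EReal.bot_lt_coe _)
    have hev : (fun x : TpCf => F (tpWin idx x) * tpCutP idx R x) =ᶠ[𝓝 x] fun _ => (0 : ℝ) := by
      filter_upwards [(tp_out_open (idx i) (R + 1)).mem_nhds hmem] with y hy
      have : tpExt (tpChi R) (y (idx i)) = 0 := by
        rcases hy with hy | hy
        · exact tp_ext_left (tp_chi_supp R) hy
        · exact tp_ext_right (tp_chi_supp R) hy
      have h0 : tpCutP idx R y = 0 := Finset.prod_eq_zero (Finset.mem_univ i) this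
      rw [h0, mul_zero]
    exact continuousAt_const.congr hev.symm

theorem tp_win_trunc (F : BoundedContinuousFunction (ι → ℝ) ℝ) (R : ℝ) (ν : ProbabilityMeasure TpCf) :
    |∫ x, F (tpWin idx x) ∂(ν : Measure TpCf) - ∫ x, F (tpWin idx x) * tpCutP idx R x ∂(ν : Measure TpCf)|
      ≤ ‖F‖ * ((ν : Measure TpCf) (tpOutW idx R)).toReal := by
  have hm1 : Measurable fun x : TpCf => F (tpWin idx x) := F.continuous.measurable.comp (tp_win_measurable idx)
  have hi1 : Integrable (fun x : TpCf => F (tpWin idx x)) (ν : Measure TpCf) :=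
    Integrable.of_bound hm1.aestronglyMeasurable ‖F‖ (ae_of_all _ fun x => F.norm_coe_le_norm _)
  have hi2 : Integrable (fun x : TpCf => F (tpWin idx x) * tpCutP idx R x) (ν : Measure TpCf) := by
    refine Integrable.of_bound (tp_cutF_continuous idx F R).measurable.aestronglyMeasurable ‖F‖
      (ae_of_all _ fun x => ?_)
    rw [norm_mul, Real.norm_eq_abs (tpCutP idx R x), abs_of_nonneg (tp_cutP_nonneg idx R x)]
    calc ‖F (tpWin idx x)‖ * tpCutP idx R x ≤ ‖F‖ * 1 :=
          mul_le_mul (F.norm_coe_le_norm _) (tp_cutP_le_one idx R x) (tp_cutP_nonneg idx R x) (norm_nonneg _)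
      _ = ‖F‖ := mul_one _
  have hmeas : MeasurableSet (tpOutW idx R) := (tp_outW_open idx R).measurableSet
  rw [← integral_sub hi1 hi2]
  calc |∫ x, (F (tpWin idx x) - F (tpWin idx x) * tpCutP idx R x) ∂(ν : Measure TpCf)|
      ≤ ∫ x, |F (tpWin idx x) - F (tpWin idx x) * tpCutP idx R x| ∂(ν : Measure TpCf) :=
        abs_integral_le_integral_abs
    _ ≤ ∫ x, (tpOutW idx R).indicator (fun _ => ‖F‖) x ∂(ν : Measure TpCf) := by
        apply integral_mono_ae (hi1.sub hi2).abs ((integrable_const ‖F‖).indicator hmeas)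
        refine ae_of_all _ fun x => ?_
        show |F (tpWin idx x) - F (tpWin idx x) * tpCutP idx R x| ≤ (tpOutW idx R).indicator (fun _ => ‖F‖) x
        by_cases hb : x ∈ tpOutW idx R
        · rw [Set.indicator_of_mem hb]
          have : F (tpWin idx x) - F (tpWin idx x) * tpCutP idx R x
              = F (tpWin idx x) * (1 - tpCutP idx R x) := by ring
          rw [this, abs_mul, abs_of_nonneg (a := 1 - tpCutP idx R x) (by linarith [tp_cutP_le_one idx R x])]
          calc |F (tpWin idx x)| * (1 - tpCutP idx R x) ≤ ‖F‖ * 1 :=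
                mul_le_mul (F.norm_coe_le_norm _) (by linarith [tp_cutP_nonneg idx R x])
                  (by linarith [tp_cutP_le_one idx R x]) (norm_nonneg _)
            _ = ‖F‖ := mul_one _
        · rw [Set.indicator_of_notMem hb, tp_cutP_one idx hb, mul_one, sub_self, abs_zero]
    _ = ‖F‖ * ((ν : Measure TpCf) (tpOutW idx R)).toReal := by
        rw [integral_indicator hmeas, setIntegral_const, smul_eq_mul, mul_comm]
        rfl

theorem lim_tightW {U : Ultrafilter ℕ} {Λ : ℕ → ProbabilityMeasure TpCf} (H : LimHyp U Λ) (ε : ℝ)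
    (hε : 0 < ε) : ∃ R : ℝ, ∀ᶠ n in (U : Filter ℕ), (Λ n : Measure TpCf) (tpOutW idx R) ≤ ENNReal.ofReal ε := by
  set N : ℝ := (Fintype.card ι : ℝ) + 1 with hN
  have hNpos : 0 < N := by positivity
  have hex := fun i : ι => H.tight (idx i) (ε / N) (by positivity)
  choose r hr using hex
  refine ⟨∑ i, |r i|, ?_⟩
  filter_upwards [eventually_all.mpr hr] with n hn
  calc (Λ n : Measure TpCf) (tpOutW idx (∑ i, |r i|))
      ≤ ∑ i, (Λ n : Measure TpCf) (tpOut (idx i) (∑ i, |r i|)) := measure_iUnion_fintype_le _ _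
    _ ≤ ∑ i : ι, ENNReal.ofReal (ε / N) := by
        refine Finset.sum_le_sum fun i _ => (measure_mono (tp_out_anti _ ?_)).trans (hn i)
        exact (le_abs_self _).trans (Finset.single_le_sum (f := fun i => |r i|) (fun j _ => abs_nonneg _)
          (Finset.mem_univ i))
    _ = ENNReal.ofReal ((Fintype.card ι : ℝ) * (ε / N)) := by
        rw [Finset.sum_const, Finset.card_univ, nsmul_eq_mul, ENNReal.ofReal_mul (by positivity),
          ENNReal.ofReal_natCast]
    _ ≤ ENNReal.ofReal ε := by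
        apply ENNReal.ofReal_le_ofReal
        rw [mul_div_assoc', div_le_iff₀ hNpos]
        nlinarith

/-- **Convergence of finitely many labels** along the ultrafilter. -/
theorem lim_window {U : Ultrafilter ℕ} {Λ : ℕ → ProbabilityMeasure TpCf} (H : LimHyp U Λ)
    {μ : ProbabilityMeasure TpCf} (hlim : Tendsto Λ U (𝓝 μ)) (F : BoundedContinuousFunction (ι → ℝ) ℝ) :
    Tendsto (fun n => ∫ x, F (tpWin idx x) ∂(Λ n : Measure TpCf)) U
      (𝓝 (∫ x, F (tpWin idx x) ∂(μ : Measure TpCf))) := by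
  rw [Metric.tendsto_nhds]
  intro ε hε
  set M : ℝ := ‖F‖ + 1 with hM
  have hMpos : 0 < M := by positivity
  obtain ⟨R, hR⟩ := lim_tightW idx H (ε / (3 * M)) (by positivity)
  have hμR : (μ : Measure TpCf) (tpOutW idx R) ≤ ENNReal.ofReal (ε / (3 * M)) :=
    lim_open_le hlim (tp_outW_open idx R) hR
  have h2 := (ProbabilityMeasure.tendsto_iff_forall_integral_tendsto.mp hlim)
    (BoundedContinuousFunction.mkOfCompact ⟨_, tp_cutF_continuous idx F R⟩)
  simp only [BoundedContinuousFunction.mkOfCompact_apply, ContinuousMap.coe_mk] at h2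
  have h3 := (Metric.tendsto_nhds.mp h2) (ε / 3) (by positivity)
  have key : ∀ ν : ProbabilityMeasure TpCf, (ν : Measure TpCf) (tpOutW idx R) ≤ ENNReal.ofReal (ε / (3 * M)) →
      ‖F‖ * ((ν : Measure TpCf) (tpOutW idx R)).toReal < ε / 3 := by
    intro ν hν
    have h4 : ((ν : Measure TpCf) (tpOutW idx R)).toReal ≤ ε / (3 * M) := by
      have := ENNReal.toReal_mono ENNReal.ofReal_ne_top hν
      rwa [ENNReal.toReal_ofReal (by positivity)] at this
    have h5 : ‖F‖ * ((ν : Measure TpCf) (tpOutW idx R)).toReal ≤ ‖F‖ * (ε / (3 * M)) :=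
      mul_le_mul_of_nonneg_left h4 (norm_nonneg _)
    have h6 : ‖F‖ * (ε / (3 * M)) < ε / 3 := by
      rw [mul_div_assoc', div_lt_div_iff₀ (by positivity) (by norm_num)]
      nlinarith [norm_nonneg F]
    linarith
  filter_upwards [hR, h3] with n hn1 hn3
  rw [Real.dist_eq] at hn3 ⊢
  have a1 := (tp_win_trunc idx F R (Λ n)).trans_lt (key _ hn1)
  have a2 := (tp_win_trunc idx F R μ).trans_lt (key _ hμR)
  rw [abs_lt] at a1 a2 hn3 ⊢
  constructor <;> linarith [a1.1, a1.2, a2.1, a2.2, hn3.1, hn3.2]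

end window

/-! ## J. The main theorem of the kit -/

/-- **Limit kit.**  Under `LimHyp` the finite `n` laws have a limit law on `Conf` along the ultrafilter. -/
theorem lim_exists (U : Ultrafilter ℕ) (Λ : ℕ → ProbabilityMeasure TpCf) (H : LimHyp U Λ) :
    ∃ μ : Measure Conf, IsProbabilityMeasure μ ∧ (∀ᵐ y ∂μ, Monotone y) ∧ (∀ᵐ y ∂μ, y (-1) ≤ 0 ∧ 0 ≤ y 0) ∧
      (∀ (ι : Type) [Fintype ι] (idx : ι → ℤ) (F : BoundedContinuousFunction (ι → ℝ) ℝ),
        Tendsto (fun n => ∫ x, F (fun i => (x (idx i)).toReal) ∂(Λ n : Measure TpCf)) U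
          (𝓝 (∫ y, F (fun i => y (idx i)) ∂μ))) ∧
      (∀ g : ℝ → ℝ, Continuous g → HasCompactSupport g → (∀ t, 0 ≤ g t) →
        Tendsto (fun n => ∫ x, tpLap g x ∂(Λ n : Measure TpCf)) U (𝓝 (cLap μ g))) := by
  obtain ⟨μb, hlim⟩ := lim_bar_exists U Λ
  have hs : TpSorted μb := tp_sorted_lim hlim H.sorted
  have hf := lim_fin H hlim
  have hl := lim_locfin H hlim
  have hlab := tp_closed_lim hlim tp_labSet_closed H.lab
  refine ⟨(μb : Measure TpCf).map tpReal, Measure.isProbabilityMeasure_map tp_real_measurable.aemeasurable,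
    ?_, ?_, ?_, ?_⟩
  · refine (ae_map_iff tp_real_measurable.aemeasurable conf_mono_measurable).mpr ?_
    filter_upwards [hs, hf] with x h1 h2 using tp_real_mono h1 h2
  · have hm : MeasurableSet {y : Conf | y (-1) ≤ 0 ∧ 0 ≤ y 0} :=
      ((isClosed_le (continuous_apply _) continuous_const).inter
        (isClosed_le continuous_const (continuous_apply _))).measurableSet
    refine (ae_map_iff tp_real_measurable.aemeasurable hm).mpr ?_
    filter_upwards [hlab] with x hx
    exact ⟨EReal.toReal_nonpos hx.1, EReal.toReal_nonneg hx.2⟩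
  · intro ι _ idx F
    have e := integral_map (μ := (μb : Measure TpCf)) (φ := tpReal) tp_real_measurable.aemeasurable
      (f := fun y : Conf => F (fun i => y (idx i)))
      (F.continuous.comp (continuous_pi fun i => continuous_apply (idx i))).measurable.aestronglyMeasurable
    rw [e]
    exact lim_window idx H hlim F
  · intro g hc hsupp hnn
    rw [lim_cLap hs hf hl hc hsupp hnn]
    exact tp_lap_tendsto hlim H.sorted hl hc hsupp hnn

/-! ## K. The two ensembles: what S4 and GOE have to check -/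

/-- labels versus counting functions, right of the origin -/
theorem tp_lab_le_iff (s : Multiset ℝ) (i : ℕ) (t : ℝ) :
    tpLab s (i : ℤ) ≤ (t : EReal) ↔ i < Multiset.card (s.filter fun r => 0 ≤ r ∧ r ≤ t) := by
  rw [tp_lab_pos, tp_get_top_le_iff (tp_pos_pairwise s)]
  have : (tpPos s).countP (fun r => decide (r ≤ t)) = Multiset.card (s.filter fun r => 0 ≤ r ∧ r ≤ t) := by
    have h1 : (tpPos s).countP (fun r => decide (r ≤ t))
        = Multiset.countP (fun r => r ≤ t) ((tpPos s : List ℝ) : Multiset ℝ) := by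
      rw [Multiset.coe_countP]
    rw [h1]
    unfold tpPos
    rw [Multiset.sort_eq, Multiset.countP_eq_card_filter, Multiset.filter_filter]
    congr 2
    funext r
    exact propext and_comm
  rw [this]

/-- labels versus counting functions, left of the origin -/
theorem tp_le_lab_iff (s : Multiset ℝ) (i : ℕ) (t : ℝ) :
    (t : EReal) ≤ tpLab s (-(i : ℤ) - 1) ↔ i < Multiset.card (s.filter fun r => t ≤ r ∧ r < 0) := by
  rw [tp_lab_neg, tp_get_bot_ge_iff (tp_neg_pairwise s)]
  have : (tpNeg s).countP (fun r => decide (t ≤ r)) = Multiset.card (s.filter fun r => t ≤ r ∧ r < 0) := by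
    have h1 : (tpNeg s).countP (fun r => decide (t ≤ r))
        = Multiset.countP (fun r => t ≤ r) ((tpNeg s : List ℝ) : Multiset ℝ) := by
      rw [Multiset.coe_countP]
    rw [h1]
    unfold tpNeg
    rw [Multiset.sort_eq, Multiset.countP_eq_card_filter, Multiset.filter_filter]
  rw [this]

/-- For the graph ensemble only `tight` and `locfin` have to be checked. -/
theorem lim_hyp_G {d : ℕ} {E : ℝ} {U : Ultrafilter ℕ} (hadm : {n : ℕ | (regularGraphs n d).Nonempty} ∈ U)
    (tight : ∀ (j : ℤ) (ε : ℝ), 0 < ε → ∃ R : ℝ, ∀ᶠ n in (U : Filter ℕ),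
      tpLawG n d n E (tpOut j R) ≤ ENNReal.ofReal ε)
    (locfin : ∀ R ε : ℝ, 0 < ε → ∃ J : ℕ, ∀ᶠ n in (U : Filter ℕ),
      tpLawG n d n E (tpBad R J) ≤ ENNReal.ofReal ε) : LimHyp U (limPG d E) where
  sorted := by
    filter_upwards [hadm] with n hn
    unfold TpSorted
    rw [lim_PG_coe E hn]
    exact tp_lawG_ae n d n E tp_mono_closed.measurableSet tp_lab_mono
  lab := by
    filter_upwards [hadm] with n hn
    rw [lim_PG_coe E hn]
    exact tp_lawG_ae n d n E tp_labSet_closed.measurableSet tp_lab_mem_labSet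
  tight := fun j ε hε => by
    obtain ⟨R, hR⟩ := tight j ε hε
    refine ⟨R, ?_⟩
    filter_upwards [hadm, hR] with n hn h
    rwa [lim_PG_coe E hn]
  locfin := fun R ε hε => by
    obtain ⟨J, hJ⟩ := locfin R ε hε
    refine ⟨J, ?_⟩
    filter_upwards [hadm, hJ] with n hn h
    rwa [lim_PG_coe E hn]

/-- For GOE only `tight` and `locfin` have to be checked. -/
theorem lim_hyp_W {ρ : ℝ} {U : Ultrafilter ℕ}
    (tight : ∀ (j : ℤ) (ε : ℝ), 0 < ε → ∃ R : ℝ, ∀ᶠ n in (U : Filter ℕ),
      tpLawW n (n / (Real.pi * ρ)) (tpOut j R) ≤ ENNReal.ofReal ε)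
    (locfin : ∀ R ε : ℝ, 0 < ε → ∃ J : ℕ, ∀ᶠ n in (U : Filter ℕ),
      tpLawW n (n / (Real.pi * ρ)) (tpBad R J) ≤ ENNReal.ofReal ε) : LimHyp U (limPW ρ) where
  sorted := Eventually.of_forall fun n => by
    unfold TpSorted
    rw [lim_PW_coe]
    exact tp_lawW_ae n _ tp_mono_closed.measurableSet tp_lab_mono
  lab := Eventually.of_forall fun n => by
    rw [lim_PW_coe]
    exact tp_lawW_ae n _ tp_labSet_closed.measurableSet tp_lab_mem_labSet
  tight := fun j ε hε => by
    obtain ⟨R, hR⟩ := tight j ε hε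
    exact ⟨R, hR.mono fun n h => by rwa [lim_PW_coe]⟩
  locfin := fun R ε hε => by
    obtain ⟨J, hJ⟩ := locfin R ε hε
    exact ⟨J, hJ.mono fun n h => by rwa [lim_PW_coe]⟩

/-- **Limit law of the graph process** (micro-coordinates `x = n (t - E)`): existence, labels, convergence of
finitely many labels, convergence of `regularLaplace`. -/
theorem lim_gr {d : ℕ} {E : ℝ} {U : Ultrafilter ℕ} (hadm : {n : ℕ | (regularGraphs n d).Nonempty} ∈ U)
    (H : LimHyp U (limPG d E)) :
    ∃ μ : Measure Conf, IsProbabilityMeasure μ ∧ (∀ᵐ y ∂μ, Monotone y) ∧ (∀ᵐ y ∂μ, y (-1) ≤ 0 ∧ 0 ≤ y 0) ∧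
      (∀ (ι : Type) [Fintype ι] (idx : ι → ℤ) (F : BoundedContinuousFunction (ι → ℝ) ℝ),
        Tendsto (fun n => ∫ x, F (fun i => (x (idx i)).toReal) ∂(tpLawG n d n E)) U
          (𝓝 (∫ y, F (fun i => y (idx i)) ∂μ))) ∧
      (∀ h : ℝ → ℝ, Continuous h → HasCompactSupport h → (∀ t, 0 ≤ h t) → 0 < kestenMcKay d E →
        Tendsto (fun n => regularLaplace n d E h) U (𝓝 (cLap μ fun t => h (kestenMcKay d E * t)))) := by
  obtain ⟨μ, h1, h2, h3, h4, h5⟩ := lim_exists U (limPG d E) H
  refine ⟨μ, h1, h2, h3, ?_, ?_⟩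
  · intro ι _ idx F
    refine (h4 ι idx F).congr' ?_
    filter_upwards [hadm] with n hn
    rw [lim_PG_coe E hn]
  · intro h hc hs hnn hρ
    have hgc : Continuous fun t => h (kestenMcKay d E * t) := hc.comp (continuous_const.mul continuous_id)
    have hgs : HasCompactSupport fun t => h (kestenMcKay d E * t) :=
      hs.comp_homeomorph (Homeomorph.mulLeft₀ _ hρ.ne')
    refine (h5 _ hgc hgs fun t => hnn _).congr' ?_
    filter_upwards [hadm] with n hn
    rw [lim_PG_coe E hn, tp_regularLaplace_eq hnn]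

/-- **Limit law of GOE** (coordinates `y = n t / (π ρ)`). -/
theorem lim_goe {ρ : ℝ} (hρ : 0 < ρ) {U : Ultrafilter ℕ} (H : LimHyp U (limPW ρ)) :
    ∃ μ : Measure Conf, IsProbabilityMeasure μ ∧ (∀ᵐ y ∂μ, Monotone y) ∧ (∀ᵐ y ∂μ, y (-1) ≤ 0 ∧ 0 ≤ y 0) ∧
      (∀ (ι : Type) [Fintype ι] (idx : ι → ℤ) (F : BoundedContinuousFunction (ι → ℝ) ℝ),
        Tendsto (fun n => ∫ x, F (fun i => (x (idx i)).toReal) ∂(tpLawW n (n / (Real.pi * ρ)))) U
          (𝓝 (∫ y, F (fun i => y (idx i)) ∂μ))) ∧
      (∀ h : ℝ → ℝ, Continuous h → HasCompactSupport h → (∀ t, 0 ≤ h t) →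
        Tendsto (fun n => goeLaplace n h) U (𝓝 (cLap μ fun t => h (ρ * t)))) := by
  obtain ⟨μ, h1, h2, h3, h4, h5⟩ := lim_exists U (limPW ρ) H
  refine ⟨μ, h1, h2, h3, ?_, ?_⟩
  · intro ι _ idx F
    refine (h4 ι idx F).congr' (Eventually.of_forall fun n => ?_)
    simp only [lim_PW_coe]
  · intro h hc hs hnn
    have hgc : Continuous fun t => h (ρ * t) := hc.comp (continuous_const.mul continuous_id)
    have hgs : HasCompactSupport fun t => h (ρ * t) := hs.comp_homeomorph (Homeomorph.mulLeft₀ _ hρ.ne')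
    refine (h5 _ hgc hgs fun t => hnn _).congr' (Eventually.of_forall fun n => ?_)
    simp only [lim_PW_coe]
    rw [tp_goeLaplace_eq hc hs hnn hρ]

theorem tp_eqns_cite : True := by
  have := @tpExt.eq_1
  have := @TpSupp.eq_1
  have := @tpSumJ.eq_1
  have := @tpLapJ.eq_1
  have := @tpLap.eq_1
  have := @tpBad.eq_1
  have := @TpLocFin.eq_1
  have := @TpSorted.eq_1
  have := @tpGet.eq_1
  have := @tpPos.eq_1
  have := @tpNeg.eq_1
  have := @tpLab.eq_1
  have := @tpSpecW.eq_1
  have := @tpSpecG.eq_1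
  have := @tpLawG.eq_1
  have := @tpLawW.eq_1
  have := @tpMk.eq_1
  have := @limPG.eq_1
  have := @limPW.eq_1
  have := @tpLabSet.eq_1
  have := @tpReal.eq_1
  have := @tpCoe.eq_1
  have := @tpFinSet.eq_1
  have := @tpOut.eq_1
  have := @tpChi.eq_1
  have := @tpWin.eq_1
  have := @tpCutP.eq_1
  have := @tpOutW.eq_1
  trivial

end Claimed.Agent.R287
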