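-- KEEP
import Claimed.Agent.R287.Defs
import Claimed.Agent.R287.Res
import Claimed.Agent.R287.Top274

/-!
# Row 287 (S0534), unit S4 = P1 Sec. 4 (04-limits.tex) + S2: VOCABULARY      (head helper289; prefix `s4`)

P1 = GOE-bulk-universality-for-fixed-degree-random-regular-graphs (Sep 23).      Notes: origin/helper289:notes/R287/A7_helper289.md (referee + route), origin/helper102:notes/R287/S2_102.md (trace exponent 3/5).
SAMPLE SPACE at size `n`: `(G, v, w)`, `G ∈ regularGraphs n d`, `(v a, w a)`, `a : Fin k`, iid uniform oriented edges of `G`: uniform weight `1 / (|G_{n,d}| (n d)^k)`.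
MICRO-COORDINATES `x_i = n (λ_i - E)`, density `ρ = kestenMcKay d E`.      GRAPH VECTOR `s4X = (m_n, M_{n,k}, M_{n,k}')(z)`, `R(z) = (A - E - z/n)⁻¹`: `m_n = n⁻¹ Tr R`, `M_{n,k} = Wᵀ R W`, `M' = n⁻¹ Wᵀ R² W`.
ROUTE (differs from the paper: no random analytic functions, no vague topology, no conditional laws, no a.s. principal values before the limit):
  finite `n`:   E1 = Prop 4.1, E1' = S2 (trace exponent 3/5);   N2 = `s4_window` (graph vector = window vector `s4Y` of the labelled data, in probability);   N3 = `s4_gauss` ((labels, marks) ⟹ `μ ⊗` Gaussian);   N4 = `s4_switch`.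
  limit:        M1 = one-point Poisson bounds;   M2 = grid + `pc_count` (`Cnt289.lean`) + labels ⟹ `CReg` with tails;   M3 = lattice sum under `CReg`;   M4 = the law `P`.
FILES (linear import order):   `S4.lean` (THIS: vocabulary only) → `S4Prob.lean` (probability kit on the sample space, proved) → `S4Desc.lean` (E1 `s4_E1`, E1' `s4_E1tr`, N4 `s4_switch`)
  → `S4Win.lean` (N2 `s4_window_pf`, `s4_tight_pf`, `s4_locfin_pf`, D1 helper244), `S4Gau.lean` (N3 `s4_gauss_pf`, D2 helper84), `S4Reg.lean` (X1 `s4_X1_pf`, D3 helper177), `S4X.lean` (X2, X3a, X3b, D4 helper14), `S4Mom.lean` (MOM2J, D5 helper186)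
  → `S4Top.lean` (imports I1, I2; X4 from `LimTr.lean` of helper250; glue `s4_exit` = `exit_gr`).
STATUS of a statement: **IMPORT** (owner elsewhere), **NODE** (will be cut further by the head / a deputy: do not start without a line to 289), **LEAF** (market).
-/

set_option autoImplicit false

namespace Claimed.Agent.R287

open MeasureTheory ProbabilityTheory Matrix Filter Topology Claims.C0462
open scoped BoundedContinuousFunction

noncomputable section

/-! ## 0. constants, closeness -/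

/-- `m_* = m_d(E + i0) = m_r + i π ρ`: the root with positive imaginary part of `q² - q - m² = 0`, `q = (1 + E m)/d` -/
def s4Ms (d : ℕ) (E : ℝ) : ℂ := ⟨mRe d E, Real.pi * kestenMcKay d E⟩

/-- `K_k(m) = m C_k + d⁻¹ J_k` for complex `m` -/
def s4K (k d : ℕ) (E : ℝ) (m : ℂ) : Matrix (Ch k) (Ch k) ℂ := m • toC (chC k (E / d)) + ((d : ℂ)⁻¹) • toC (chJ k)

/-- entrywise distance `≤ τ` of two switching states -/
def S4Close {k : ℕ} (X Y : SwSt k) (τ : ℝ) : Prop :=
  ‖X.1 - Y.1‖ ≤ τ ∧ (∀ c c', ‖X.2.1 c c' - Y.2.1 c c'‖ ≤ τ) ∧ ∀ c c', ‖X.2.2 c c' - Y.2.2 c c'‖ ≤ τ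

/-- the event of Prop 4.1: `(m, M)` is `τ`-close to `(m_*, K_k(m_*))` -/
def S4Near {k : ℕ} (d : ℕ) (E : ℝ) (X : SwSt k) (τ : ℝ) : Prop :=
  ‖X.1 - s4Ms d E‖ ≤ τ ∧ ∀ c c', ‖X.2.1 c c' - s4K k d E (s4Ms d E) c c'‖ ≤ τ

/-! ## 1. the sample space `(G, v, w)` -/

open Classical in
/-- conditional expectation given the graph: average over `k` iid uniform oriented edges -/
def s4Ec {n : ℕ} (d k : ℕ) (G : SimpleGraph (Fin n)) (F : (Fin k → Fin n) → (Fin k → Fin n) → ℝ) : ℝ :=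
  (∑ v : Fin k → Fin n, ∑ w : Fin k → Fin n, if (∀ a, G.Adj (v a) (w a)) then F v w else 0) / ((n : ℝ) * d) ^ k

/-- expectation over the uniform graph -/
def s4Eg (n d : ℕ) (F : SimpleGraph (Fin n) → ℝ) : ℝ := (∑ G ∈ regularGraphs n d, F G) / (regularGraphs n d).card

/-- expectation over the uniform graph and `k` iid uniform oriented edges -/
def s4E (n d k : ℕ) (F : SimpleGraph (Fin n) → (Fin k → Fin n) → (Fin k → Fin n) → ℝ) : ℝ := s4Eg n d fun G => s4Ec d k G (F G)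

open Classical in
/-- probability -/
def s4Pr (n d k : ℕ) (S : SimpleGraph (Fin n) → (Fin k → Fin n) → (Fin k → Fin n) → Prop) : ℝ :=
  s4E n d k fun G v w => if S G v w then 1 else 0

open Classical in
/-- probability of a graph event -/
def s4Pg (n d : ℕ) (S : SimpleGraph (Fin n) → Prop) : ℝ := s4Eg n d fun G => if S G then 1 else 0

/-! ## 2. the graph vector, spectral data -/

open Classical in
/-- the real adjacency matrix -/
def s4A {n : ℕ} (G : SimpleGraph (Fin n)) : Matrix (Fin n) (Fin n) ℝ := G.adjMatrix ℝ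

theorem s4_herm {n : ℕ} (G : SimpleGraph (Fin n)) : (s4A G).IsHermitian := by
  classical
  rw [Matrix.IsHermitian, Matrix.conjTranspose_eq_transpose_of_trivial]
  exact G.transpose_adjMatrix

/-- `R(z) = (A - E - z/n)⁻¹` -/
def s4R {n : ℕ} (G : SimpleGraph (Fin n)) (E : ℝ) (z : ℂ) : Matrix (Fin n) (Fin n) ℂ := rsG (s4A G) ((E : ℂ) + z / n)

/-- the `2k` sampled end points: starting points, then ending points -/
def s4End {n k : ℕ} (v w : Fin k → Fin n) : Ch k → Fin n := Sum.elim v w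

/-- `m_n(z) = n⁻¹ Tr R(z) = ∑ 1/(x_i - z)` -/
def s4M {n : ℕ} (G : SimpleGraph (Fin n)) (E : ℝ) (z : ℂ) : ℂ := (n : ℂ)⁻¹ * Matrix.trace (s4R G E z)

/-- the graph vector `(m_n, M_{n,k}, M_{n,k}')(z)` -/
def s4X {n k : ℕ} (G : SimpleGraph (Fin n)) (E : ℝ) (v w : Fin k → Fin n) (z : ℂ) : SwSt k :=
  (s4M G E z, (s4R G E z).submatrix (s4End v w) (s4End v w),
    (n : ℂ)⁻¹ • (s4R G E z * s4R G E z).submatrix (s4End v w) (s4End v w))

/-- microscopic position `x_i = n (λ_i - E)` -/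
def s4Pos {n : ℕ} (G : SimpleGraph (Fin n)) (E : ℝ) (i : Fin n) : ℝ := n * ((s4_herm G).eigenvalues i - E)

/-- eigenvector entries in the normalisation `‖u_i‖² = n` -/
def s4Vec {n : ℕ} (G : SimpleGraph (Fin n)) (i x : Fin n) : ℝ := Real.sqrt n * rsU (s4_herm G) x i

/-- the mark `b_i = Wᵀ u_i` -/
def s4Mark {n k : ℕ} (G : SimpleGraph (Fin n)) (v w : Fin k → Fin n) (i : Fin n) : Ch k → ℝ := fun c => s4Vec G i (s4End v w c)

/-- the microscopic spectrum as a multiset -/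
def s4Spec {n : ℕ} (E : ℝ) (G : SimpleGraph (Fin n)) : Multiset ℝ := tpSpecG (n : ℝ) E G

/-- the labelled positions `|j| ≤ K` (`0` = junk for a label out of range) -/
def s4Win {n : ℕ} (E : ℝ) (K : ℕ) (G : SimpleGraph (Fin n)) : Win K → ℝ := fun i => (tpLab (s4Spec E G) (wIdx i)).toReal

theorem s4_eqns_cite : True := by
  have := @s4Ms.eq_1
  have := @s4K.eq_1
  have := @S4Close.eq_1
  have := @S4Near.eq_1
  have := @s4Ec.eq_1
  have := @s4Eg.eq_1
  have := @s4E.eq_1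
  have := @s4Pr.eq_1
  have := @s4Pg.eq_1
  have := @s4A.eq_1
  have := @s4R.eq_1
  have := @s4End.eq_1
  have := @s4M.eq_1
  have := @s4X.eq_1
  have := @s4Pos.eq_1
  have := @s4Vec.eq_1
  have := @s4Mark.eq_1
  have := @s4Spec.eq_1
  have := @s4Win.eq_1
  trivial

/-! ## 3. the two imports -/

/-- (B1-lite (b), (c) at the heights `n^ε/n`, `n^{2ε}/n`).      Only convergence in probability, no rate. -/
def S4I1 (d : ℕ) (E : ℝ) : Prop :=
  ∃ ε1 C : ℝ, 0 < ε1 ∧ ∀ ε0 : ℝ, 0 < ε0 → ε0 ≤ ε1 → ∀ s τ η : ℝ, 0 < τ → 0 < η → ∃ N : ℕ, ∀ n : ℕ, N ≤ n → (regularGraphs n d).Nonempty →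
    s4Pr n d 1 (fun G v w => ¬ S4Near d E (s4X G E v w ⟨s, (n : ℝ) ^ ε0⟩) τ) ≤ η ∧
    s4Pg n d (fun G => C < (s4M G E ⟨0, (n : ℝ) ^ (2 * ε0)⟩).im) ≤ η

/-- the moments of degree `≤ q` of the marks of any `ℓ' ≤ ℓ` distinct eigenvectors of the band `|x_i| ≤ Λ` match those of iid `N(0, C_k)` up to `δ` -/
def S4Mom {n : ℕ} (d : ℕ) (E : ℝ) (k ℓ q : ℕ) (G : SimpleGraph (Fin n)) (Λ δ : ℝ) : Prop :=
  ∀ ℓ' : ℕ, ℓ' ≤ ℓ → ∀ i : Fin ℓ' → Fin n, Function.Injective i → (∀ r, |s4Pos G E (i r)| ≤ Λ) → ∀ q' : ℕ, q' ≤ q → ∀ t : Fin q' → Fin ℓ' × Ch k,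
    |s4Ec d k G (fun v w => ∏ a, s4Mark G v w (i (t a).1) (t a).2)
      - ∫ g, ∏ a, (g * (chA k (E / d))ᵀ) (t a).1 (t a).2 ∂(gArr (Fin ℓ') (Ch k))| ≤ δ

/-- (P1 Prop 3.1).      ORDER: `(k, ℓ, q) → (ε1, c, C)`, then any band exponent `ε0 ≤ ε1`. -/
def S4I2 (d : ℕ) (E : ℝ) : Prop :=
  ∀ k ℓ q : ℕ, ∃ ε1 c C : ℝ, 0 < ε1 ∧ 0 < c ∧ ∀ ε0 : ℝ, 0 < ε0 → ε0 ≤ ε1 → ∀ η : ℝ, 0 < η → ∃ N : ℕ, ∀ n : ℕ, N ≤ n → (regularGraphs n d).Nonempty →
    s4Pg n d (fun G => ¬ S4Mom d E k ℓ q G ((n : ℝ) ^ (2 * ε0)) (C * (n : ℝ) ^ (-c))) ≤ η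

/-- the standing hypotheses -/
structure S4Hyp (d : ℕ) (E : ℝ) : Prop where
  hd : 3 ≤ d
  hE : |E| < 2 * Real.sqrt ((d : ℝ) - 1)
  i1 : S4I1 d E
  i2 : S4I2 d E

/-! ## 4. labelled marks, the window vector -/

/-- a labelling of the eigen-indices compatible with the labelling `tpLab` of the spectrum -/
structure S4Lab {n : ℕ} (E : ℝ) (G : SimpleGraph (Fin n)) (idx : ℤ → Option (Fin n)) : Prop where
  inj : ∀ j j' i, idx j = some i → idx j' = some i → j = j'
  surj : ∀ i, ∃ j, idx j = some i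
  pos : ∀ j i, idx j = some i → tpLab (s4Spec E G) j = ((s4Pos G E i : ℝ) : EReal)
  none : ∀ j, idx j = none → tpLab (s4Spec E G) j = ⊤ ∨ tpLab (s4Spec E G) j = ⊥

/-- a sorted list representing `S.val.map f` lifts to a duplicate-free list of indices -/
theorem s4_lift_list {ι : Type} (f : ι → ℝ) (r : ℝ → ℝ → Prop) [DecidableRel r] [Std.Total r] [IsTrans ℝ r] [Std.Antisymm r]
    (S : Finset ι) (l : List ℝ) (hl : l.Pairwise r) (hS : (l : Multiset ℝ) = S.val.map f) :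
    ∃ t : List ι, t.Nodup ∧ (∀ i, i ∈ t ↔ i ∈ S) ∧ t.map f = l := by
  classical
  let r' : ι → ι → Prop := fun a b => r (f a) (f b)
  have : Std.Total r' := ⟨fun a b => Std.Total.total (r := r) (f a) (f b)⟩
  have : IsTrans ι r' := ⟨fun a b c h1 h2 => _root_.trans (r := r) h1 h2⟩
  refine ⟨S.toList.insertionSort r', ?_, fun i => ?_, ?_⟩
  · exact (List.perm_insertionSort r' S.toList).nodup_iff.2 S.nodup_toList
  · rw [(List.perm_insertionSort r' S.toList).mem_iff, Finset.mem_toList]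
  · have h1 : ((S.toList.insertionSort r').map f).Pairwise r := by
      rw [List.pairwise_map]
      exact List.pairwise_insertionSort r' S.toList
    have h2 : ((S.toList.insertionSort r').map f).Perm l := by
      rw [← Multiset.coe_eq_coe, hS, ← Multiset.map_coe]
      congr 1
      rw [Multiset.coe_eq_coe.2 (List.perm_insertionSort r' S.toList), Finset.coe_toList]
    exact h2.eq_of_pairwise' h1 hl

theorem s4_get_map {ι : Type} (f : ι → ℝ) (dflt : EReal) (t : List ι) (a : ℕ) :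
    tpGet dflt (t.map f) a = (t[a]?).elim dflt fun i => ((f i : ℝ) : EReal) := by
  unfold tpGet
  rw [List.getElem?_map]
  cases t[a]? <;> rfl

/-- **LEAF** (`charpoly.roots = eigenvalues`: `tp_roots_sum` / kit EIG; then: two lists with the same multiset are related by a bijection of the indices; `tpLab` = the two sorted lists `tpPos`, `tpNeg`) -/
theorem s4_lab_exists {n : ℕ} (E : ℝ) (G : SimpleGraph (Fin n)) : ∃ idx, S4Lab E G idx := by
  classical
  have hspec : s4Spec E G = Finset.univ.val.map (s4Pos G E) := by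
    unfold s4Spec tpSpecG
    have h := (s4_herm G).roots_charpoly_eq_eigenvalues
    unfold s4A at h
    rw [h, Multiset.map_map]
    rfl
  set f := s4Pos G E with hf
  obtain ⟨tP, hP1, hP2, hP3⟩ := s4_lift_list f (· ≤ ·) (Finset.univ.filter fun i => 0 ≤ f i) (tpPos (s4Spec E G))
    (tp_pos_pairwise _) (by
      unfold tpPos
      rw [Multiset.sort_eq, hspec, Multiset.filter_map]
      rfl)
  obtain ⟨tN, hN1, hN2, hN3⟩ := s4_lift_list f (· ≥ ·) (Finset.univ.filter fun i => f i < 0) (tpNeg (s4Spec E G))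
    (tp_neg_pairwise _) (by
      unfold tpNeg
      rw [Multiset.sort_eq, hspec, Multiset.filter_map]
      rfl)
  simp only [Finset.mem_filter, Finset.mem_univ, true_and] at hP2 hN2
  refine ⟨fun j => if 0 ≤ j then tP[j.toNat]? else tN[(-j - 1).toNat]?, ?_, ?_, ?_, ?_⟩
  · intro j j' i h1 h2
    by_cases hj : 0 ≤ j <;> by_cases hj' : 0 ≤ j'
    · simp only [if_pos hj, if_pos hj'] at h1 h2
      have := (List.getElem?_inj (List.getElem?_eq_some_iff.1 h1).1 hP1).1 (h1.trans h2.symm)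
      omega
    · simp only [if_pos hj, if_neg hj'] at h1 h2
      have a1 := (hP2 i).1 (List.mem_of_getElem? h1)
      have a2 := (hN2 i).1 (List.mem_of_getElem? h2)
      linarith
    · simp only [if_neg hj, if_pos hj'] at h1 h2
      have a1 := (hN2 i).1 (List.mem_of_getElem? h1)
      have a2 := (hP2 i).1 (List.mem_of_getElem? h2)
      linarith
    · simp only [if_neg hj, if_neg hj'] at h1 h2
      have := (List.getElem?_inj (List.getElem?_eq_some_iff.1 h1).1 hN1).1 (h1.trans h2.symm)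
      omega
  · intro i
    rcases le_or_gt 0 (f i) with h | h
    · obtain ⟨a, ha⟩ := List.mem_iff_getElem?.1 ((hP2 i).2 h)
      refine ⟨(a : ℤ), ?_⟩
      simp only [Int.natCast_nonneg, if_true, Int.toNat_natCast]
      exact ha
    · obtain ⟨a, ha⟩ := List.mem_iff_getElem?.1 ((hN2 i).2 h)
      refine ⟨-(a : ℤ) - 1, ?_⟩
      have h1 : ¬ (0 : ℤ) ≤ -(a : ℤ) - 1 := by omega
      have h2 : (-(-(a : ℤ) - 1) - 1).toNat = a := by omega
      simp only [if_neg h1, h2]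
      exact ha
  · intro j i h
    unfold tpLab
    by_cases hj : 0 ≤ j
    · simp only [if_pos hj] at h ⊢
      rw [← hP3, s4_get_map, h]
      rfl
    · simp only [if_neg hj] at h ⊢
      rw [← hN3, s4_get_map, h]
      rfl
  · intro j h
    unfold tpLab
    by_cases hj : 0 ≤ j
    · simp only [if_pos hj] at h ⊢
      left
      rw [← hP3, s4_get_map, h]
      rfl
    · simp only [if_neg hj] at h ⊢
      right
      rw [← hN3, s4_get_map, h]
      rfl

/-- the chosen labelling -/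
def s4Idx {n : ℕ} (E : ℝ) (G : SimpleGraph (Fin n)) : ℤ → Option (Fin n) := Classical.choose (s4_lab_exists E G)

theorem s4_idx_spec {n : ℕ} (E : ℝ) (G : SimpleGraph (Fin n)) : S4Lab E G (s4Idx E G) := Classical.choose_spec (s4_lab_exists E G)

/-- the marks of the labels `|j| ≤ L` (`0` for a label out of range) -/
def s4Beta {n : ℕ} (E : ℝ) (k L : ℕ) (G : SimpleGraph (Fin n)) (v w : Fin k → Fin n) : Matrix (Win L) (Ch k) ℝ :=
  fun i c => (s4Idx E G (wIdx i)).elim 0 fun i' => s4Mark G v w i' c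

/-- the anchored trace of a window: `a = m_* + ∑ (1/(x_j - z) - 1/(x_j - iR))` -/
def s4Ya (d : ℕ) (E : ℝ) (L : ℕ) (R : ℝ) (x : Win L → ℝ) (z : ℂ) : ℂ :=
  s4Ms d E + ∑ i : Win L, (((x i : ℂ) - z)⁻¹ - ((x i : ℂ) - (⟨0, R⟩ : ℂ))⁻¹)

/-- the window vector: labels `|j| ≤ L`, marks `β`, anchored at the height `R` where `m = m_*`:      `(a,  K_k(a) + ∑ (β_j β_jᵀ - C_k)/(x_j - z),  ∑ β_j β_jᵀ/(x_j - z)²)` -/
def s4Y (k d : ℕ) (E : ℝ) (L : ℕ) (R : ℝ) (x : Win L → ℝ) (β : Matrix (Win L) (Ch k) ℝ) (z : ℂ) : SwSt k :=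
  (s4Ya d E L R x z,
   s4K k d E (s4Ya d E L R x z) + ∑ i : Win L, ((x i : ℂ) - z)⁻¹ • (toC (Matrix.vecMulVec (β i) (β i)) - toC (chC k (E / d))),
   ∑ i : Win L, (((x i : ℂ) - z)⁻¹) ^ 2 • toC (Matrix.vecMulVec (β i) (β i)))

/-! ## 5. the limit law -/

/-- what the kit LIM (helper274, `lim_exists`) gives -/
structure S4Lim (d : ℕ) (E : ℝ) (U : Ultrafilter ℕ) (μ : Measure Conf) : Prop where
  top : (U : Filter ℕ) ≤ atTop
  adm : {n | (regularGraphs n d).Nonempty} ∈ U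
  prob : IsProbabilityMeasure μ
  mono : ∀ᵐ x ∂μ, Monotone x
  lab : ∀ᵐ x ∂μ, x (-1) ≤ 0 ∧ 0 ≤ x 0
  win : ∀ (K : ℕ) (f : (Win K → ℝ) →ᵇ ℝ), Tendsto (fun n => s4Eg n d fun G => f (s4Win E K G)) U (𝓝 (∫ x, f (cPos K x) ∂μ))
  lap : ∀ h : ℝ → ℝ, Continuous h → HasCompactSupport h → (∀ t, 0 ≤ h t) →
    Tendsto (fun n => regularLaplace n d E h) U (𝓝 (cLap μ fun t => h (kestenMcKay d E * t)))
  winG : ∀ (ι : Type) [Fintype ι] (idx : ι → ℤ) (F : BoundedContinuousFunction (ι → ℝ) ℝ),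
    Tendsto (fun n => ∫ y, F (fun i => (y (idx i)).toReal) ∂(limPG d E n : Measure TpCf)) U (𝓝 (∫ x, F (fun i => x (idx i)) ∂μ))
  lapG : ∀ g : ℝ → ℝ, Continuous g → HasCompactSupport g → (∀ t, 0 ≤ g t) →
    Tendsto (fun n => ∫ y, tpLap g y ∂(limPG d E n : Measure TpCf)) U (𝓝 (cLap μ g))

open Classical in
theorem s4_law_apply {n d : ℕ} (E : ℝ) (hne : (regularGraphs n d).Nonempty) {S : Set TpCf} (hS : MeasurableSet S) :
    tpLawG n d n E S = ENNReal.ofReal (s4Pg n d fun G => tpLab (s4Spec E G) ∈ S) := by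
  have := tp_lawG_prob (n : ℝ) E hne
  have h1 := tp_lawG_integral n d n E (S.indicator fun _ => (1 : ℝ))
  rw [integral_indicator hS, setIntegral_const, smul_eq_mul, mul_one] at h1
  rw [← ofReal_measureReal (measure_ne_top _ _), h1]
  congr 1

/-- the kit LIM of helper274 (`lim_hyp_G`, `lim_exists`) in the vocabulary of this unit -/
theorem s4_lim_exists {d : ℕ} {E : ℝ} (hρ : 0 < kestenMcKay d E) (U : Ultrafilter ℕ) (hU : (U : Filter ℕ) ≤ atTop)
    (hadm : {n | (regularGraphs n d).Nonempty} ∈ U)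
    (ht : ∀ (j : ℤ) (ε : ℝ), 0 < ε → ∃ R : ℝ, ∃ N : ℕ, ∀ n : ℕ, N ≤ n → (regularGraphs n d).Nonempty →
      s4Pg n d (fun G => ¬ (((-R : ℝ) : EReal) ≤ tpLab (s4Spec E G) j ∧ tpLab (s4Spec E G) j ≤ (R : EReal))) ≤ ε)
    (hl : ∀ (R ε : ℝ), 0 < ε → ∃ J : ℕ, ∃ N : ℕ, ∀ n : ℕ, N ≤ n → (regularGraphs n d).Nonempty →
      s4Pg n d (fun G => tpLab (s4Spec E G) (J : ℤ) ≤ (R : EReal) ∨ ((-R : ℝ) : EReal) ≤ tpLab (s4Spec E G) (-(J : ℤ) - 1)) ≤ ε) :
    ∃ μ : Measure Conf, S4Lim d E U μ := by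
  have H : LimHyp U (limPG d E) := by
    refine lim_hyp_G hadm (fun j ε hε => ?_) (fun R ε hε => ?_)
    · obtain ⟨R, N, h⟩ := ht j ε hε
      refine ⟨R, ?_⟩
      filter_upwards [hadm, hU (eventually_ge_atTop N)] with n hn hN
      rw [s4_law_apply E hn (tp_out_open j R).measurableSet]
      refine ENNReal.ofReal_le_ofReal (le_trans (le_of_eq ?_) (h n hN hn))
      congr 1
      funext G
      simp only [tpOut, Set.mem_union, Set.mem_ofPred_eq, not_and_or, not_le]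
    · obtain ⟨J, N, h⟩ := hl R ε hε
      refine ⟨J, ?_⟩
      filter_upwards [hadm, hU (eventually_ge_atTop N)] with n hn hN
      rw [s4_law_apply E hn (tp_bad_closed R J).measurableSet]
      refine ENNReal.ofReal_le_ofReal (le_trans (le_of_eq ?_) (h n hN hn))
      congr 1
  obtain ⟨μ, h1, h2, h3, h4, h5⟩ := lim_exists U (limPG d E) H
  refine ⟨μ, hU, hadm, h1, h2, h3, fun K f => ?_, fun h hc hs hn => ?_, h4, h5⟩
  · refine (h4 (Win K) wIdx f).congr' ?_
    filter_upwards [hadm] with n hn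
    rw [lim_PG_coe E hn, tp_lawG_integral]
    rfl
  · have hgc : Continuous fun t => h (kestenMcKay d E * t) := hc.comp (continuous_const.mul continuous_id)
    have hgs : HasCompactSupport fun t => h (kestenMcKay d E * t) := hs.comp_homeomorph (Homeomorph.mulLeft₀ _ hρ.ne')
    refine (h5 _ hgc hgs fun t => hn _).congr' ?_
    filter_upwards [hadm] with n hn'
    rw [lim_PG_coe E hn', tp_regularLaplace_eq hn]

/-- the Gaussian marks `β = g Aᵀ`, rows iid `N(0, C_k)` -/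
def s4Gam (k L : ℕ) (p : ℝ) : Measure (Matrix (Win L) (Ch k) ℝ) := (gArr (Win L) (Ch k)).map fun g => g * (chA k p)ᵀ

/-- the limit `P` of the law of the graph vector = the limit of the Gaussian marked model -/
structure S4P (d : ℕ) (E : ℝ) (U : Ultrafilter ℕ) (μ : Measure Conf) (k : ℕ) {b : ℕ} (z : Fin b → ℂ) (P : Measure (Fin b → SwSt k)) : Prop where
  prob : IsProbabilityMeasure P
  graph : ∀ f : (Fin b → SwSt k) →ᵇ ℝ, Tendsto (fun n => s4E n d k fun G v w => f fun i => s4X G E v w (z i)) U (𝓝 (∫ s, f s ∂P))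
  model : ∀ f : (Fin b → SwSt k) →ᵇ ℝ, Tendsto (fun L => ∫ s, f s ∂(swLaw μ k L (E / d) (1 / d) (mRe d E) z)) atTop (𝓝 (∫ s, f s ∂P))

theorem s4b_eqns_cite : True := by
  have := @S4I1.eq_1
  have := @S4Mom.eq_1
  have := @S4I2.eq_1
  have := @s4Idx.eq_1
  have := @s4Beta.eq_1
  have := @s4Ya.eq_1
  have := @s4Y.eq_1
  have := @s4Gam.eq_1
  trivial

/-! ## 6. the density is positive -/

theorem s4_rho_pos (d : ℕ) (hd : 3 ≤ d) (E : ℝ) (hE : |E| < 2 * Real.sqrt ((d : ℝ) - 1)) : 0 < kestenMcKay d E := by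
  have hd3 : (3 : ℝ) ≤ d := by exact_mod_cast hd
  have h1 : E ^ 2 < 4 * ((d : ℝ) - 1) := by
    have h0 : (0 : ℝ) ≤ (d : ℝ) - 1 := by linarith
    have := pow_lt_pow_left₀ hE (abs_nonneg E) two_ne_zero
    rw [sq_abs, mul_pow, Real.sq_sqrt h0] at this
    linarith
  have h2 : 0 < (d : ℝ) ^ 2 - E ^ 2 := by nlinarith
  unfold kestenMcKay
  have h3 : 0 < Real.sqrt (4 * ((d : ℝ) - 1) - E ^ 2) := Real.sqrt_pos.2 (by linarith)
  have : 0 < Real.pi := Real.pi_pos
  positivity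

end

end Claimed.Agent.R287
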