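-- KEEP
import Claimed.Agent.R287.S4
import Claimed.Agent.R287.X123
import Claimed.Agent.R287.B1U3

/-!
# Row 287 (S0534): the IMPORT I1 of unit S4 from the exports of unit B1      helper274, prefix `i1`

* sec. 1   `X1`, `X2`, `X3` (`X123.lean`) from `b1_X1`, `b1_state`, `b1_X3` (`B1.lean`, `B1U3.lean`); `i1_tr_le` = the deterministic `b1_tr_le`, proved.
* sec. 2   dictionary `s4R, s4M, s4Eg, s4Pg` ↔ `rgG, rgTr, rgE, rgP`  (`E + z/n = rgz (E + s/n) (y/n)`).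
* sec. 3   boundary values: `rgg`, `rgm`, `rgTv` are continuous at the real point `E` of the bulk; `rgm d E = s4Ms d E`; `-g m = (1 + E m)/d`; entries of `K_1(m)`.
* sec. 4   one uniform oriented edge of a `d`-regular graph: an event which forces an event of the starting point; a good star gives `S4Near`.
* sec. 5   `i1_of_X2 : X2 d E → S4I1 d E`  and  **`s4_import_I1'`** (the statement of `s4_import_I1`).
Everything here is PROVED; the only debts are `b1_state`, `b1_X1`, `b1_X3` of unit B1.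
-/

set_option autoImplicit false

namespace Claimed.Agent.R287

open MeasureTheory ProbabilityTheory Matrix Filter Topology Claims.C0462

/-! ## 1. `X1`, `X2`, `X3` from the exports of `B1.lean` -/

/-- deterministic: trace from the stars -/
theorem i1_tr_le {n : ℕ} (hn : 1 ≤ n) (d : ℕ) (H : Gr n) (z : ℂ) : ‖rgTr H z - rgm d z‖ ^ 2 ≤ rgStarF d H z := by
  classical
  have hn0 : (0 : ℝ) < n := by exact_mod_cast hn
  have hnc : (n : ℂ) ≠ 0 := by exact_mod_cast (by omega : n ≠ 0)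
  have h1 : rgTr H z - rgm d z = (∑ o, (rgG H z o o - rgm d z)) / n := by
    unfold rgTr
    rw [Finset.sum_sub_distrib]
    simp only [Finset.sum_const, Finset.card_univ, Fintype.card_fin, nsmul_eq_mul]
    field_simp
  have h2 : ∀ o, ‖rgG H z o o - rgm d z‖ ^ 2 ≤ rgStD d H z o := by
    intro o
    have ho : o ∈ rgStar H o := by simp [rgStar]
    have := x7_star_entry d H z (le_refl (rgStD d H z o)) ho ho
    simpa [rgSd, rgTv] using this
  have h3 : ‖∑ o, (rgG H z o o - rgm d z)‖ ^ 2 ≤ n * ∑ o, ‖rgG H z o o - rgm d z‖ ^ 2 := by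
    have a1 : ‖∑ o, (rgG H z o o - rgm d z)‖ ≤ ∑ o, ‖rgG H z o o - rgm d z‖ := norm_sum_le _ _
    have a2 := sq_sum_le_card_mul_sum_sq (s := (Finset.univ : Finset (Fin n))) (f := fun o => ‖rgG H z o o - rgm d z‖)
    simp only [Finset.card_univ, Fintype.card_fin] at a2
    exact (pow_le_pow_left₀ (norm_nonneg _) a1 2).trans a2
  rw [h1, norm_div, div_pow, Complex.norm_natCast]
  unfold rgStarF
  rw [div_le_div_iff₀ (by positivity) hn0]
  calc ‖∑ o, (rgG H z o o - rgm d z)‖ ^ 2 * n ≤ (n * ∑ o, ‖rgG H z o o - rgm d z‖ ^ 2) * n :=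
        mul_le_mul_of_nonneg_right h3 hn0.le
    _ ≤ (n * ∑ o, rgStD d H z o) * n := by
        refine mul_le_mul_of_nonneg_right (mul_le_mul_of_nonneg_left (Finset.sum_le_sum fun o _ => h2 o) hn0.le) hn0.le
    _ = (∑ o, rgStD d H z o) * (n : ℝ) ^ 2 := by ring


/-- the statement of `b1_state` (unit B1), as a hypothesis -/
def I1State (d : ℕ) : Prop :=
  ∀ κb : ℝ, 0 < κb → ∀ ε : ℝ, 0 < ε →
    ∃ (C : ℝ) (N : ℕ), ∀ n : ℕ, N ≤ n → ∀ e η : ℝ, RgBulk d κb e → (n : ℝ) ^ ε ≤ n * η → η < b1h κb →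
      rgP n d (fun H => ¬ ((∀ x y, ‖rgG H (rgz e η) x y‖ ≤ C) ∧ rgStarF d H (rgz e η) ≤ (n * η) ^ (-(1 / 2 : ℝ)))) ≤ C * (n * η) ^ (-(1 / 8 : ℝ))

theorem i1_b1h_pos {κb : ℝ} (hκ : 0 < κb) : 0 < b1h κb := by
  unfold b1h
  exact lt_min one_pos (div_pos (Real.sqrt_pos.2 hκ) (by norm_num))

/-- the perturbed energies stay in the bulk -/
theorem i1_bulk {d : ℕ} (hd : 3 ≤ d) {E : ℝ} (hE : |E| < 2 * Real.sqrt ((d : ℝ) - 1)) (S₀ : ℝ) :
    ∀ᶠ n : ℕ in atTop, ∀ t : ℝ, |t| ≤ S₀ → RgBulk d ((4 * ((d : ℝ) - 1) - E ^ 2) / 2) (E + t / n) := by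
  have h0 := x7_disc_pos hd hE
  set κ := (4 * ((d : ℝ) - 1) - E ^ 2) / 2 with hκ
  have hκ0 : 0 < κ := by positivity
  have hlim : Tendsto (fun n : ℕ => 2 * |E| * (|S₀| / n) + (|S₀| / n) ^ 2) atTop (𝓝 (2 * |E| * 0 + 0 ^ 2)) := by
    have h1 : Tendsto (fun n : ℕ => |S₀| / (n : ℝ)) atTop (𝓝 0) := tendsto_const_div_atTop_nhds_zero_nat _
    exact (h1.const_mul _).add (h1.pow 2)
  have hlim' : ∀ᶠ n : ℕ in atTop, 2 * |E| * (|S₀| / n) + (|S₀| / n) ^ 2 < κ := by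
    refine hlim.eventually_lt_const ?_
    simpa using hκ0
  filter_upwards [hlim', eventually_ge_atTop 1] with n hn hn1 t ht
  have hn0 : (0 : ℝ) < n := by exact_mod_cast hn1
  unfold RgBulk
  have ht' : |t / n| ≤ |S₀| / n := by
    rw [abs_div, abs_of_pos hn0]
    exact div_le_div_of_nonneg_right (ht.trans (le_abs_self _)) hn0.le
  have h2 : (E + t / n) ^ 2 ≤ E ^ 2 + 2 * |E| * (|S₀| / n) + (|S₀| / n) ^ 2 := by
    have a1 : (E + t / n) ^ 2 = E ^ 2 + 2 * (E * (t / n)) + (t / n) ^ 2 := by ring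
    have a2 : E * (t / n) ≤ |E| * (|S₀| / n) := by
      calc E * (t / n) ≤ |E * (t / n)| := le_abs_self _
        _ = |E| * |t / n| := abs_mul _ _
        _ ≤ |E| * (|S₀| / n) := mul_le_mul_of_nonneg_left ht' (abs_nonneg _)
    have a3 : (t / n) ^ 2 ≤ (|S₀| / n) ^ 2 := by
      rw [← sq_abs (t / n)]
      exact pow_le_pow_left₀ (abs_nonneg _) ht' 2
    rw [a1]; linarith
  have h3 : 4 * ((d : ℝ) - 1) - κ = E ^ 2 + κ := by rw [hκ]; ring
  rw [h3]
  linarith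

/-- **X2** from the state of the descent -/
theorem i1_X2 {d : ℕ} (hd : 3 ≤ d) {E : ℝ} (hE : |E| < 2 * Real.sqrt ((d : ℝ) - 1)) (hS : I1State d) : X2 d E := by
  have h0 := x7_disc_pos hd hE
  set κ := (4 * ((d : ℝ) - 1) - E ^ 2) / 2 with hκ
  have hκ0 : 0 < κ := by positivity
  refine ⟨1 / 4, b1h κ / 2, by norm_num, by have := i1_b1h_pos hκ0; positivity, fun ε hε hε1 => ⟨1, fun S₀ s η hs hη δ hδ => ?_⟩⟩
  obtain ⟨C, N, hN⟩ := hS κ hκ0 ε hε
  -- the failure probability tends to zero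
  have hlim : Tendsto (fun n : ℕ => |C| * ((n : ℝ) ^ ε) ^ (-(1 / 8 : ℝ))) atTop (𝓝 (|C| * 0)) := by
    refine Tendsto.const_mul _ ?_
    have h1 : Tendsto (fun n : ℕ => (n : ℝ) ^ ε) atTop atTop := (tendsto_rpow_atTop hε).comp tendsto_natCast_atTop_atTop
    exact (tendsto_rpow_neg_atTop (by norm_num : (0 : ℝ) < 1 / 8)).comp h1
  have hlim' : ∀ᶠ n : ℕ in atTop, |C| * ((n : ℝ) ^ ε) ^ (-(1 / 8 : ℝ)) < δ := by
    refine hlim.eventually_lt_const ?_
    simpa using hδ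
  obtain ⟨N', hN'⟩ := eventually_atTop.1 ((((hlim'.and hη).and (i1_bulk hd hE S₀)).and (eventually_ge_atTop N)).and (eventually_ge_atTop 1))
  refine ⟨N', fun n hn hne => ?_⟩
  obtain ⟨⟨⟨⟨k1, k2, k3⟩, k4⟩, k5⟩, k6⟩ := hN' n hn
  have hn0 : (0 : ℝ) < n := by exact_mod_cast k6
  have hy : (n : ℝ) ^ ε ≤ n * η n := by
    have : (n : ℝ) ^ ε = n * (n : ℝ) ^ (-1 + ε) := by
      rw [Real.rpow_add hn0, Real.rpow_neg_one]; field_simp
    rw [this]
    exact mul_le_mul_of_nonneg_left k2 hn0.le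
  have hy1 : (1 : ℝ) ≤ (n : ℝ) ^ ε := Real.one_le_rpow (by exact_mod_cast k6) hε.le
  have hy0 : (0 : ℝ) < n * η n := by linarith
  have hh : η n < b1h κ := by have := i1_b1h_pos hκ0; linarith
  have hP := hN n k5 (E + s n / n) (η n) (k4 (s n) (hs n)) hy hh
  have hP2 : C * (n * η n) ^ (-(1 / 8 : ℝ)) < δ := by
    have a1 : (n * η n) ^ (-(1 / 8 : ℝ)) ≤ ((n : ℝ) ^ ε) ^ (-(1 / 8 : ℝ)) :=
      Real.rpow_le_rpow_of_nonpos (by positivity) hy (by norm_num)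
    calc C * (n * η n) ^ (-(1 / 8 : ℝ)) ≤ |C| * (n * η n) ^ (-(1 / 8 : ℝ)) :=
          mul_le_mul_of_nonneg_right (le_abs_self _) (by positivity)
      _ ≤ |C| * ((n : ℝ) ^ ε) ^ (-(1 / 8 : ℝ)) := mul_le_mul_of_nonneg_left a1 (abs_nonneg _)
      _ < δ := k1
  rw [rg_P_not hne] at hP
  refine le_trans (by linarith) (rg_P_mono fun H _ hH => ?_)
  obtain ⟨-, hF⟩ := hH
  set y := (n : ℝ) * η n with hydef
  have hy1' : (1 : ℝ) ≤ y := hy1.trans hy
  have e1 : y ^ (-(1 / 2 : ℝ)) = (y ^ (-(1 / 4 : ℝ))) ^ 2 := by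
    rw [← Real.rpow_natCast, ← Real.rpow_mul hy0.le]; norm_num
  have e2 : y ^ (-(1 / 2 : ℝ)) ≤ y ^ (-(1 / 4 : ℝ)) :=
    Real.rpow_le_rpow_of_exponent_le hy1' (by norm_num)
  constructor
  · rw [one_mul]
    have := (i1_tr_le k6 d H (rgz (E + s n / n) (η n))).trans hF
    rw [e1] at this
    exact (pow_le_pow_iff_left₀ (norm_nonneg _) (by positivity) (by norm_num)).1 this
  · rw [one_mul]
    exact hF.trans e2

/-! ## 2. dictionary `s4` ↔ `rg` -/

theorem i1_z (E s y : ℝ) (n : ℕ) : (E : ℂ) + (⟨s, y⟩ : ℂ) / n = rgz (E + s / n) (y / n) := by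
  apply Complex.ext
  · simp [rgz]
  · simp [rgz]

theorem i1_R {n : ℕ} (G : SimpleGraph (Fin n)) (E s y : ℝ) : s4R G E ⟨s, y⟩ = rgG G (rgz (E + s / n) (y / n)) := by
  unfold s4R rgG
  rw [i1_z]
  rfl

theorem i1_M {n : ℕ} (G : SimpleGraph (Fin n)) (E s y : ℝ) : s4M G E ⟨s, y⟩ = rgTr G (rgz (E + s / n) (y / n)) := by
  unfold s4M rgTr
  rw [i1_R, Matrix.trace, mul_comm, ← div_eq_mul_inv]
  rfl

theorem i1_Eg (n d : ℕ) (F : SimpleGraph (Fin n) → ℝ) : s4Eg n d F = rgE n d F := rfl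

theorem i1_Pg (n d : ℕ) (S : SimpleGraph (Fin n) → Prop) : s4Pg n d S = rgP n d S := rfl

/-! ## 3. boundary values -/

theorem i1_g_cont {d : ℕ} (hd : 3 ≤ d) {E : ℝ} (hE : |E| < 2 * Real.sqrt ((d : ℝ) - 1)) : ContinuousAt (rgg d) (E : ℂ) := by
  have h0 := x7_disc_pos hd hE
  unfold rgg
  have h1 : (4 * ((d : ℂ) - 1) - (E : ℂ) ^ 2) = ((4 * ((d : ℝ) - 1) - E ^ 2 : ℝ) : ℂ) := by push_cast; ring
  have h2 : (4 * ((d : ℂ) - 1) - (E : ℂ) ^ 2) ∈ Complex.slitPlane := by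
    rw [h1]; exact Complex.ofReal_mem_slitPlane.2 h0
  have h3 : ContinuousAt (fun z : ℂ => (4 * ((d : ℂ) - 1) - z ^ 2) ^ (1 / 2 : ℂ)) (E : ℂ) := by
    refine ContinuousAt.cpow ?_ continuousAt_const h2
    fun_prop
  exact ((continuousAt_id.neg).add (continuousAt_const.mul h3)).div_const _

theorem i1_one_sub_ne {d : ℕ} (hd : 3 ≤ d) {E : ℝ} (hE : |E| < 2 * Real.sqrt ((d : ℝ) - 1)) : 1 - rgg d (E : ℂ) ^ 2 ≠ 0 := by
  intro h
  have hL := x7_sq_lt hd hE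
  have hd' : (3 : ℝ) ≤ d := by exact_mod_cast hd
  have hb : ((d : ℝ) - 1) ≠ 0 := by linarith
  have := x7_g_abs' hd hE
  rw [h, norm_zero] at this
  have h2 : 0 < ((d : ℝ) ^ 2 - E ^ 2) / ((d : ℝ) - 1) ^ 2 := by positivity
  rw [← this] at h2
  norm_num at h2

theorem i1_m_cont {d : ℕ} (hd : 3 ≤ d) {E : ℝ} (hE : |E| < 2 * Real.sqrt ((d : ℝ) - 1)) : ContinuousAt (rgm d) (E : ℂ) := by
  unfold rgm
  exact (i1_g_cont hd hE).div (continuousAt_const.sub ((i1_g_cont hd hE).pow 2)) (i1_one_sub_ne hd hE)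

theorem i1_tv_cont {d : ℕ} (hd : 3 ≤ d) {E : ℝ} (hE : |E| < 2 * Real.sqrt ((d : ℝ) - 1)) (k : ℕ) :
    ContinuousAt (fun z => rgTv d z k) (E : ℂ) := by
  unfold rgTv
  exact (i1_m_cont hd hE).mul ((i1_g_cont hd hE).neg.pow k)

theorem i1_m_eq {d : ℕ} (hd : 3 ≤ d) {E : ℝ} (hE : |E| < 2 * Real.sqrt ((d : ℝ) - 1)) : rgm d (E : ℂ) = s4Ms d E := by
  obtain ⟨h1, h2⟩ := x7_m_bdry hd hE
  apply Complex.ext
  · rw [h2]; rfl
  · rw [h1]; rfl

theorem i1_tv0 (d : ℕ) (z : ℂ) : rgTv d z 0 = rgm d z := by simp [rgTv]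

/-- `- g m = (1 + E m)/d` -/
theorem i1_tv1 {d : ℕ} (hd : 3 ≤ d) {E : ℝ} (hE : |E| < 2 * Real.sqrt ((d : ℝ) - 1)) :
    rgTv d (E : ℂ) 1 = rgm d (E : ℂ) * ((E / d : ℝ) : ℂ) + (d : ℂ)⁻¹ := by
  have hq := x7_g_quad hd hE
  have hne := i1_one_sub_ne hd hE
  have hd0 : (d : ℂ) ≠ 0 := by exact_mod_cast (by omega : d ≠ 0)
  unfold rgTv rgm
  push_cast
  field_simp
  linear_combination (-1 : ℂ) * hq

/-- the entries of `K_1(m)` -/
theorem i1_K_diag (d : ℕ) (E : ℝ) (m : ℂ) (c : Ch 1) : s4K 1 d E m c c = m := by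
  unfold s4K chC chJ toC
  rcases c with c | c <;> simp [Matrix.fromBlocks]

theorem i1_K_off (d : ℕ) (E : ℝ) (m : ℂ) {c c' : Ch 1} (h : c ≠ c') : s4K 1 d E m c c' = m * ((E / d : ℝ) : ℂ) + (d : ℂ)⁻¹ := by
  unfold s4K chC chJ toC
  rcases c with c | c <;> rcases c' with c' | c'
  · exact absurd (by rw [Subsingleton.elim c c']) h
  · simp [Matrix.fromBlocks, Subsingleton.elim c c']
  · simp [Matrix.fromBlocks, Subsingleton.elim c c']
  · exact absurd (by rw [Subsingleton.elim c c']) h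

/-- the spectral parameters converge to `E` -/
theorem i1_z_tendsto (E s : ℝ) {ε : ℝ} (hε : ε < 1) :
    Tendsto (fun n : ℕ => rgz (E + s / n) ((n : ℝ) ^ ε / n)) atTop (𝓝 (E : ℂ)) := by
  have h1 : Tendsto (fun n : ℕ => E + s / (n : ℝ)) atTop (𝓝 (E + 0)) :=
    tendsto_const_nhds.add (tendsto_const_div_atTop_nhds_zero_nat _)
  have h2 : Tendsto (fun n : ℕ => (n : ℝ) ^ ε / n) atTop (𝓝 0) := by
    have a : Tendsto (fun n : ℕ => (n : ℝ) ^ (-(1 - ε))) atTop (𝓝 0) :=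
      (tendsto_rpow_neg_atTop (by linarith : 0 < 1 - ε)).comp tendsto_natCast_atTop_atTop
    refine a.congr' ?_
    filter_upwards [eventually_ge_atTop 1] with n hn
    have hn0 : (0 : ℝ) < n := by exact_mod_cast hn
    rw [show -(1 - ε) = ε - 1 by ring, Real.rpow_sub hn0, Real.rpow_one]
  rw [add_zero] at h1
  have h3 : Tendsto (fun n : ℕ => ((E + s / (n : ℝ) : ℝ) : ℂ) + (((n : ℝ) ^ ε / n : ℝ) : ℂ) * Complex.I) atTop (𝓝 ((E : ℂ) + ((0 : ℝ) : ℂ) * Complex.I)) :=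
    ((Complex.continuous_ofReal.tendsto _).comp h1).add (((Complex.continuous_ofReal.tendsto _).comp h2).mul_const _)
  simp only [Complex.ofReal_zero, zero_mul, add_zero] at h3
  refine h3.congr fun n => ?_
  apply Complex.ext <;> simp [rgz]


/-! ## 4. one uniform oriented edge -/

open Classical in
theorem i1_deg {n d : ℕ} {G : SimpleGraph (Fin n)} (hG : G ∈ regularGraphs n d) (x : Fin n) :
    ∑ y, (if G.Adj x y then (1 : ℝ) else 0) = d := by
  unfold regularGraphs at hG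
  rw [Finset.mem_filter] at hG
  have h := hG.2 x
  rw [Finset.sum_boole, ← h, ← SimpleGraph.card_neighborFinset_eq_degree, SimpleGraph.neighborFinset_eq_filter]

open Classical in
/-- an event of the sampled edge which forces an event `Q` of its starting point -/
theorem i1_Ec_le {n d : ℕ} (hn : 1 ≤ n) (hd : 1 ≤ d) {G : SimpleGraph (Fin n)} (hG : G ∈ regularGraphs n d)
    (S : (Fin 1 → Fin n) → (Fin 1 → Fin n) → Prop) (Q : Fin n → Prop)
    (h : ∀ v w, G.Adj (v 0) (w 0) → S v w → Q (v 0)) :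
    s4Ec d 1 G (fun v w => if S v w then 1 else 0) ≤ ((Finset.univ.filter Q).card : ℝ) / n := by
  have hn0 : (0 : ℝ) < n := by exact_mod_cast hn
  have hd0 : (0 : ℝ) < d := by exact_mod_cast hd
  unfold s4Ec
  rw [pow_one, div_le_div_iff₀ (by positivity) hn0]
  have h1 : ∑ v : Fin 1 → Fin n, ∑ w : Fin 1 → Fin n, (if (∀ a, G.Adj (v a) (w a)) then (if S v w then (1 : ℝ) else 0) else 0)
      ≤ ∑ v : Fin 1 → Fin n, ∑ w : Fin 1 → Fin n, (if Q (v 0) then (if G.Adj (v 0) (w 0) then (1 : ℝ) else 0) else 0) := by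
    refine Finset.sum_le_sum fun v _ => Finset.sum_le_sum fun w _ => ?_
    by_cases ha : ∀ a, G.Adj (v a) (w a)
    · by_cases hs : S v w
      · simp [ha, hs, h v w (ha 0) hs]
      · simp only [ha, hs, if_true, if_false, implies_true]
        split_ifs <;> norm_num
    · simp only [ha, if_false]
      split_ifs <;> norm_num
  have h2 : ∑ v : Fin 1 → Fin n, ∑ w : Fin 1 → Fin n, (if Q (v 0) then (if G.Adj (v 0) (w 0) then (1 : ℝ) else 0) else 0)
      = ∑ x : Fin n, ∑ y : Fin n, (if Q x then (if G.Adj x y then (1 : ℝ) else 0) else 0) := by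
    refine Fintype.sum_equiv (Equiv.funUnique (Fin 1) (Fin n)) _ _ fun v => ?_
    exact Fintype.sum_equiv (Equiv.funUnique (Fin 1) (Fin n)) _ _ fun w => rfl
  have h3 : ∑ x : Fin n, ∑ y : Fin n, (if Q x then (if G.Adj x y then (1 : ℝ) else 0) else 0)
      = ((Finset.univ.filter Q).card : ℝ) * d := by
    have : ∀ x : Fin n, ∑ y : Fin n, (if Q x then (if G.Adj x y then (1 : ℝ) else 0) else 0) = if Q x then (d : ℝ) else 0 := by
      intro x
      by_cases hq : Q x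
      · simp only [hq, if_true]; exact i1_deg hG x
      · simp [hq]
    simp only [this]
    rw [← Finset.sum_filter, Finset.sum_const, nsmul_eq_mul]
  calc _ ≤ ((Finset.univ.filter Q).card : ℝ) * d * n := by
        refine mul_le_mul_of_nonneg_right ?_ hn0.le
        rw [← h3, ← h2]; exact h1
    _ = ((Finset.univ.filter Q).card : ℝ) * (n * d) := by ring

open Classical in
theorem i1_Ec_le_one {n d : ℕ} (hn : 1 ≤ n) (hd : 1 ≤ d) {G : SimpleGraph (Fin n)} (hG : G ∈ regularGraphs n d)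
    (S : (Fin 1 → Fin n) → (Fin 1 → Fin n) → Prop) : s4Ec d 1 G (fun v w => if S v w then 1 else 0) ≤ 1 := by
  have := i1_Ec_le hn hd hG S (fun _ => True) (fun _ _ _ _ => trivial)
  have hn0 : (0 : ℝ) < n := by exact_mod_cast hn
  simpa [hn0.ne'] using this

/-- a good star gives `S4Near` at each of its edges -/
theorem i1_near {n d : ℕ} (hd : 3 ≤ d) {E : ℝ} (hE : |E| < 2 * Real.sqrt ((d : ℝ) - 1)) (G : SimpleGraph (Fin n)) (s y τ : ℝ) (hτ : 0 < τ)
    (h1 : ‖rgTr G (rgz (E + s / n) (y / n)) - rgm d (rgz (E + s / n) (y / n))‖ ≤ τ / 2)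
    (h2 : ∀ k, k ≤ 1 → ‖rgTv d (rgz (E + s / n) (y / n)) k - rgTv d (E : ℂ) k‖ ≤ τ / 2)
    (v w : Fin 1 → Fin n) (ha : G.Adj (v 0) (w 0)) (h3 : rgStD d G (rgz (E + s / n) (y / n)) (v 0) ≤ (τ / 2) ^ 2) :
    S4Near d E (s4X G E v w ⟨s, y⟩) τ := by
  classical
  set z := rgz (E + s / n) (y / n) with hz
  have hm := i1_m_eq hd hE
  constructor
  · show ‖s4M G E ⟨s, y⟩ - s4Ms d E‖ ≤ τ
    rw [i1_M, ← hm]
    have a := h2 0 (by norm_num)
    rw [i1_tv0, i1_tv0] at a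
    calc ‖rgTr G z - rgm d (E : ℂ)‖ ≤ ‖rgTr G z - rgm d z‖ + ‖rgm d z - rgm d (E : ℂ)‖ := norm_sub_le_norm_sub_add_norm_sub _ _ _
      _ ≤ τ := by linarith
  · intro c c'
    show ‖(s4R G E ⟨s, y⟩) (s4End v w c) (s4End v w c') - s4K 1 d E (s4Ms d E) c c'‖ ≤ τ
    rw [i1_R]
    have hmem : ∀ c : Ch 1, s4End v w c ∈ rgStar G (v 0) := by
      intro c
      rcases c with c | c
      · simp [s4End, rgStar, Subsingleton.elim c 0]
      · simp [s4End, rgStar, Subsingleton.elim c 0, ha]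
    have hent := x7_star_entry d G z h3 (hmem c) (hmem c')
    have hent' : ‖rgG G z (s4End v w c) (s4End v w c') - rgTv d z (rgSd (v 0) (s4End v w c) (s4End v w c'))‖ ≤ τ / 2 :=
      (pow_le_pow_iff_left₀ (norm_nonneg _) (by positivity) (by norm_num)).1 hent
    have hne : v 0 ≠ w 0 := ha.ne
    have key : ∃ k, k ≤ 1 ∧ rgSd (v 0) (s4End v w c) (s4End v w c') = k ∧ s4K 1 d E (s4Ms d E) c c' = rgTv d (E : ℂ) k := by
      by_cases hcc : c = c'
      · subst hcc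
        exact ⟨0, by norm_num, by simp [rgSd], by rw [i1_K_diag, i1_tv0, hm]⟩
      · refine ⟨1, le_refl _, ?_, by rw [i1_K_off d E _ hcc, i1_tv1 hd hE, hm]⟩
        rcases c with c | c <;> rcases c' with c' | c'
        · exact absurd (by rw [Subsingleton.elim c c']) hcc
        · simp [rgSd, s4End, Subsingleton.elim c 0, Subsingleton.elim c' 0, hne]
        · simp [rgSd, s4End, Subsingleton.elim c 0, Subsingleton.elim c' 0, hne.symm]
        · exact absurd (by rw [Subsingleton.elim c c']) hcc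
    obtain ⟨k, hk, e1, e2⟩ := key
    rw [e1] at hent'
    rw [e2]
    calc ‖rgG G z (s4End v w c) (s4End v w c') - rgTv d (E : ℂ) k‖
        ≤ ‖rgG G z (s4End v w c) (s4End v w c') - rgTv d z k‖ + ‖rgTv d z k - rgTv d (E : ℂ) k‖ := norm_sub_le_norm_sub_add_norm_sub _ _ _
      _ ≤ τ := by have := h2 k hk; linarith


/-! ## 5. `X2 ⟹ S4I1` -/

/-- the heights `n^ε/n` are admissible in `X2` -/
theorem i1_height {ε h : ℝ} (hε1 : ε < 1) (hh : 0 < h) :
    ∀ᶠ n : ℕ in atTop, (n : ℝ) ^ (-1 + ε) ≤ (n : ℝ) ^ ε / n ∧ (n : ℝ) ^ ε / n ≤ h := by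
  have a : Tendsto (fun n : ℕ => (n : ℝ) ^ (-(1 - ε))) atTop (𝓝 0) :=
    (tendsto_rpow_neg_atTop (by linarith : 0 < 1 - ε)).comp tendsto_natCast_atTop_atTop
  filter_upwards [eventually_ge_atTop 1, a.eventually_lt_const hh] with n hn h2
  have hn0 : (0 : ℝ) < n := by exact_mod_cast hn
  have e : (n : ℝ) ^ ε / n = (n : ℝ) ^ (-1 + ε) := by
    rw [show -1 + ε = ε - 1 by ring, Real.rpow_sub hn0, Real.rpow_one]
  rw [e]
  refine ⟨le_refl _, ?_⟩
  rw [show -1 + ε = -(1 - ε) by ring]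
  exact h2.le

/-- the error of `X2` at the heights `n^ε/n` tends to zero -/
theorem i1_err (C : ℝ) {ε cB : ℝ} (hε : 0 < ε) (hc : 0 < cB) {a : ℝ} (ha : 0 < a) :
    ∀ᶠ n : ℕ in atTop, C * ((n : ℝ) * ((n : ℝ) ^ ε / n)) ^ (-cB) ≤ a := by
  have h1 : Tendsto (fun n : ℕ => (n : ℝ) ^ ε) atTop atTop := (tendsto_rpow_atTop hε).comp tendsto_natCast_atTop_atTop
  have h2 : Tendsto (fun n : ℕ => C * ((n : ℝ) ^ ε) ^ (-cB)) atTop (𝓝 (C * 0)) :=
    ((tendsto_rpow_neg_atTop hc).comp h1).const_mul C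
  rw [mul_zero] at h2
  filter_upwards [eventually_ge_atTop 1, h2.eventually_lt_const ha] with n hn h3
  have hn0 : (0 : ℝ) < n := by exact_mod_cast hn
  rw [mul_div_cancel₀ _ hn0.ne']
  exact h3.le

open Classical in
/-- total probability: good graphs + the rest -/
theorem i1_Pr_le {n d : ℕ} (hn : 1 ≤ n) (hd : 1 ≤ d) (hne : (regularGraphs n d).Nonempty)
    (S : SimpleGraph (Fin n) → (Fin 1 → Fin n) → (Fin 1 → Fin n) → Prop) (good : Gr n → Prop) (a : ℝ) (ha : 0 ≤ a)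
    (h : ∀ G ∈ regularGraphs n d, good G → s4Ec d 1 G (fun v w => if S G v w then 1 else 0) ≤ a) :
    s4Pr n d 1 S ≤ a + (1 - rgP n d good) := by
  have hb : ∀ G ∈ regularGraphs n d,
      s4Ec d 1 G (fun v w => if S G v w then 1 else 0) ≤ a * 1 + (if ¬ good G then 1 else 0) := by
    intro G hG
    by_cases hg : good G
    · simp only [hg, not_true, if_false, add_zero, mul_one]
      exact h G hG hg
    · simp only [hg, not_false_eq_true, if_true]
      have := i1_Ec_le_one hn hd hG (S G)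
      linarith
  have e1 : s4Pr n d 1 S = rgE n d (fun G => s4Ec d 1 G (fun v w => if S G v w then 1 else 0)) := rfl
  rw [e1]
  refine (rg_E_mono hb).trans ?_
  rw [rg_E_add, rg_E_const_mul, rg_E_one hne, ← rg_P_not hne, mul_one]
  refine add_le_add (le_refl _) (le_of_eq ?_)
  unfold rgP
  congr 1
  funext G
  by_cases hg : good G <;> simp [hg]

open Classical in
theorem i1_of_X2 {d : ℕ} (hd : 3 ≤ d) {E : ℝ} (hE : |E| < 2 * Real.sqrt ((d : ℝ) - 1)) (hX : X2 d E) : S4I1 d E := by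
  obtain ⟨cB, h, hcB, hh, H⟩ := hX
  refine ⟨1 / 4, ‖s4Ms d E‖ + 1, by norm_num, fun ε0 hε0 hε1 s τ η hτ hη => ?_⟩
  obtain ⟨C1, H1⟩ := H ε0 hε0 (by linarith)
  obtain ⟨C2, H2⟩ := H (2 * ε0) (by linarith) (by linarith)
  have W1 := H1 |s| (fun _ => s) (fun n => (n : ℝ) ^ ε0 / n) (fun _ => le_refl _) (i1_height (by linarith) hh)
  have W2 := H2 0 (fun _ => 0) (fun n => (n : ℝ) ^ (2 * ε0) / n) (fun _ => by simp) (i1_height (by linarith) hh)
  obtain ⟨N1, hN1⟩ := W1 (η / 2) (by positivity)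
  obtain ⟨N2, hN2⟩ := W2 η hη
  -- deterministic smallness
  have D1 := i1_err C1 hε0 hcB (a := min (τ / 2) (η / 2 * (τ / 2) ^ 2)) (by positivity)
  have D2 := i1_err C2 (by linarith : 0 < 2 * ε0) hcB (a := 1 / 2) (by norm_num)
  have T1 : ∀ k : ℕ, ∀ᶠ n : ℕ in atTop, ‖rgTv d (rgz (E + s / n) ((n : ℝ) ^ ε0 / n)) k - rgTv d (E : ℂ) k‖ ≤ τ / 2 := by
    intro k
    have := (i1_tv_cont hd hE k).tendsto.comp (i1_z_tendsto E s (by linarith : ε0 < 1))
    have h2 := (Metric.tendsto_nhds.1 this) (τ / 2) (by positivity)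
    filter_upwards [h2] with n hn
    rw [← dist_eq_norm]
    exact hn.le
  have T2 : ∀ᶠ n : ℕ in atTop, ‖rgm d (rgz (E + 0 / n) ((n : ℝ) ^ (2 * ε0) / n)) - rgm d (E : ℂ)‖ ≤ 1 / 2 := by
    have := (i1_m_cont hd hE).tendsto.comp (i1_z_tendsto E 0 (by linarith : 2 * ε0 < 1))
    have h2 := (Metric.tendsto_nhds.1 this) (1 / 2) (by norm_num)
    filter_upwards [h2] with n hn
    rw [← dist_eq_norm]
    exact hn.le
  obtain ⟨N, hN⟩ := eventually_atTop.1 ((((((D1.and D2).and (T1 0)).and (T1 1)).and T2).and (eventually_ge_atTop (max N1 N2))).and (eventually_ge_atTop 1))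
  refine ⟨N, fun n hn hne => ?_⟩
  obtain ⟨⟨⟨⟨⟨⟨d1, d2⟩, t0⟩, t1⟩, t2⟩, hmax⟩, hn1⟩ := hN n hn
  have hn0 : (0 : ℝ) < n := by exact_mod_cast hn1
  have g1 := hN1 n ((le_max_left _ _).trans hmax) hne
  have g2 := hN2 n ((le_max_right _ _).trans hmax) hne
  constructor
  · -- the sampled edge
    set z := rgz (E + s / n) ((n : ℝ) ^ ε0 / n) with hz
    set good : Gr n → Prop := fun G =>
      ‖rgTr G z - rgm d z‖ ≤ C1 * ((n : ℝ) * ((n : ℝ) ^ ε0 / n)) ^ (-cB) ∧ rgStarF d G z ≤ C1 * ((n : ℝ) * ((n : ℝ) ^ ε0 / n)) ^ (-cB) with hgood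
    have key := i1_Pr_le hn1 (by omega : 1 ≤ d) hne (fun G v w => ¬ S4Near d E (s4X G E v w ⟨s, (n : ℝ) ^ ε0⟩) τ) good (η / 2) (by positivity)
      (fun G hG hg => by
        have hq := i1_Ec_le hn1 (by omega) hG (fun v w => ¬ S4Near d E (s4X G E v w ⟨s, (n : ℝ) ^ ε0⟩) τ)
          (fun o => (τ / 2) ^ 2 < rgStD d G z o) (fun v w ha hS => by
            by_contra hc
            exact hS (i1_near hd hE G s _ τ hτ (hg.1.trans (d1.trans (min_le_left _ _)))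
              (fun k hk => by
                interval_cases k
                · exact t0
                · exact t1) v w ha (not_lt.1 hc)))
        refine hq.trans ((x7_star_markov d G z (by positivity)).trans ?_)
        rw [div_le_iff₀ (by positivity)]
        exact hg.2.trans (d1.trans (min_le_right _ _)))
    refine key.trans ?_
    linarith
  · -- the trace at the height `n^{2 ε0}`
    rw [i1_Pg]
    have e3 : rgP n d (fun G => ‖s4Ms d E‖ + 1 < (s4M G E ⟨0, (n : ℝ) ^ (2 * ε0)⟩).im)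
        ≤ rgP n d (fun G => ¬ (‖rgTr G (rgz (E + 0 / n) ((n : ℝ) ^ (2 * ε0) / n)) - rgm d (rgz (E + 0 / n) ((n : ℝ) ^ (2 * ε0) / n))‖
            ≤ C2 * ((n : ℝ) * ((n : ℝ) ^ (2 * ε0) / n)) ^ (-cB) ∧
          rgStarF d G (rgz (E + 0 / n) ((n : ℝ) ^ (2 * ε0) / n)) ≤ C2 * ((n : ℝ) * ((n : ℝ) ^ (2 * ε0) / n)) ^ (-cB))) := by
      refine rg_P_mono fun G _ hG hc => ?_
      rw [i1_M] at hG
      have a1 := hc.1.trans d2
      have a2 : ‖rgTr G (rgz (E + 0 / n) ((n : ℝ) ^ (2 * ε0) / n))‖ ≤ ‖s4Ms d E‖ + 1 := by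
        rw [← i1_m_eq hd hE]
        have := norm_sub_le_norm_sub_add_norm_sub (rgTr G (rgz (E + 0 / n) ((n : ℝ) ^ (2 * ε0) / n)))
          (rgm d (rgz (E + 0 / n) ((n : ℝ) ^ (2 * ε0) / n))) (rgm d (E : ℂ))
        have b := norm_le_norm_add_norm_sub' (rgTr G (rgz (E + 0 / n) ((n : ℝ) ^ (2 * ε0) / n))) (rgm d (E : ℂ))
        linarith
      have a3 := (Complex.abs_im_le_norm (rgTr G (rgz (E + 0 / n) ((n : ℝ) ^ (2 * ε0) / n))))
      have a4 := le_abs_self (rgTr G (rgz (E + 0 / n) ((n : ℝ) ^ (2 * ε0) / n))).im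
      linarith
    refine e3.trans ?_
    rw [rg_P_not hne]
    linarith

/-! ## 6. the closed statements -/

theorem i1_eqns_cite : True := by
  have := @I1State.eq_1
  trivial

theorem i1_state (d : ℕ) (hd : 3 ≤ d) : I1State d := fun κb hκ ε hε => b1_state d hd κb hκ ε hε

theorem x7_X1_pf (d : ℕ) (hd : 3 ≤ d) (E : ℝ) (hE : |E| < 2 * Real.sqrt ((d : ℝ) - 1)) : X1 d E :=
  fun ε h1 h2 => b1_X1 d hd E hE ε h1 h2

theorem x7_X2_pf (d : ℕ) (hd : 3 ≤ d) (E : ℝ) (hE : |E| < 2 * Real.sqrt ((d : ℝ) - 1)) : X2 d E :=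
  i1_X2 hd hE (i1_state d hd)

theorem x7_pot_eq {n : ℕ} (H : Gr n) (z : ℂ) : x7Pot H z = rgLd H z := by
  unfold x7Pot rgLd
  rw [div_eq_inv_mul]

theorem x7_X3_pf (d : ℕ) (hd : 3 ≤ d) (E : ℝ) (hE : |E| < 2 * Real.sqrt ((d : ℝ) - 1)) : X3 d E := by
  obtain ⟨c, hc, h⟩ := b1_X3 d hd E hE
  refine ⟨c, 1 / 20, hc, by norm_num, fun α h1 h2 => ?_⟩
  have := h α h1 h2
  simpa only [x7_pot_eq] using this

/-- **IMPORT I1 of unit S4** -/
theorem s4_import_I1' (d : ℕ) (hd : 3 ≤ d) (E : ℝ) (hE : |E| < 2 * Real.sqrt ((d : ℝ) - 1)) : S4I1 d E :=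
  i1_of_X2 hd hE (x7_X2_pf d hd E hE)

end Claimed.Agent.R287
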