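-- KEEP
import Claimed.Agent.R287.Gau
import Claimed.Agent.R287.Ent.Gibbs
import Claimed.Agent.R287.Ent.Imp
import Claimed.Agent.R287.I1
import Claimed.Agent.R287.Defs
import Claimed.Agent.R287.DefsB1
import Claimed.Agent.R287.Ent.Loc

/-!
# Row 287 (S0534), unit GAU, part 2: [C] = conclusion of P1 Prop 3.1, and the exit `gau_P31`      HEAD helper283.   Prefix `gau_`, `gc_`.

EXIT `gau_P31` = import I2 of the unit S4 (helper289, `S4I2`), stated for ANY orthogonal `ℓ`-tuple of eigenvectors of the band (no choice of an eigenbasis), `k` iid uniform oriented edges.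
CHAIN (one graph):  `gau_import` (B1 + Lemma 3.2 give `EnData.Ok` and the sup norm)  →  `en_out` (unit ENT)  →  `gau_of_out` (dictionary `EnOut → GauHyp`)  →  `gau_G` ([G])  →  `gc_edge_one` ([C], one edge)  →  `gc_factor` (`k` edges).
-/

set_option autoImplicit false
set_option linter.unusedSectionVars false

namespace Claimed.Agent.R287

open MeasureTheory ProbabilityTheory Matrix Finset Claims.C0462

/-! ## 0. Vocabulary -/

/-- an orthogonal `ℓ`-tuple of eigenvectors (normalised by `|u|² = n`) with eigenvalues within `w` of `E` -/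
structure GauBand {n ℓ : ℕ} (G : SimpleGraph (Fin n)) (E w : ℝ) (V : Fin n → Fin ℓ → ℝ) (lam : Fin ℓ → ℝ) : Prop where
  eig : ∀ j, enA G *ᵥ (fun v => V v j) = lam j • fun v => V v j
  orth : ∀ j j', ∑ v, V v j * V v j' = if j = j' then (n : ℝ) else 0
  band : ∀ j, |lam j - E| ≤ w

open Classical in
/-- average over a uniform oriented edge -/
noncomputable def gauEd {n : ℕ} (d : ℕ) (G : SimpleGraph (Fin n)) (F : Fin n → Fin n → ℝ) : ℝ :=
  (∑ v, ∑ w, if G.Adj v w then F v w else 0) / ((n : ℝ) * d)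

open Classical in
/-- average over `k` iid uniform oriented edges (`= s4Ec` of the unit S4) -/
noncomputable def gauEk {n : ℕ} (d k : ℕ) (G : SimpleGraph (Fin n)) (F : (Fin k → Fin n) → (Fin k → Fin n) → ℝ) : ℝ :=
  (∑ v : Fin k → Fin n, ∑ w : Fin k → Fin n, if (∀ a, G.Adj (v a) (w a)) then F v w else 0) / ((n : ℝ) * d) ^ k

/-- the Gaussian pair: `false ↦ g₀`, `true ↦ p g₀ + √(1-p²) g₁`, colour `c` -/
noncomputable def gauZ {ℓ : ℕ} (p : ℝ) (g : Fin 2 × Fin ℓ → ℝ) (t : Bool) (c : Fin ℓ) : ℝ :=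
  if t then p * g (0, c) + √(1 - p ^ 2) * g (1, c) else g (0, c)

/-- the moments of degree `≤ q` of the values of `V` at the two ends of a uniform oriented edge are `δ`-close to the Gaussian ones.   Monomials = multisets of letters (end, colour). -/
def GauEdge {n ℓ : ℕ} (d : ℕ) (G : SimpleGraph (Fin n)) (p : ℝ) (V : Fin n → Fin ℓ → ℝ) (q : ℕ) (δ : ℝ) : Prop :=
  ∀ s : Multiset (Bool × Fin ℓ), Multiset.card s ≤ q →
    |gauEd d G (fun v w => (s.map fun x => V (if x.1 then w else v) x.2).prod)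
      - ∫ g, (s.map fun x => gauZ p g x.1 x.2).prod ∂qfG (Fin 2 × Fin ℓ)| ≤ δ

/-- the weight vector of the observation `enObs` -/
noncomputable def gauW (d : ℕ) {ℓ : ℕ} (E : ℝ) (i : Fin d) (t : Bool) (c : Fin ℓ) : Fin d × Fin ℓ → ℝ :=
  fun x => if x.2 = c then (if t then enVi d E i x.1 else etOm d x.1) else 0

theorem gc_eqns_cite : True := by
  have := @gauEd.eq_1
  have := @gauEk.eq_1
  have := @gauZ.eq_1
  have := @GauEdge.eq_1
  have := @gauW.eq_1
  trivial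

/-! ## 1. The import -/

/-- **IMPORT (B1, Lemma 3.2 → ENT)**      owners: helper277 (ENT) with helper274 (exports X1-X3 of B1).
PLAN.  `r = π ρ_d(E)`.  Choose `c₂` from `b1_X2` (typical stars at `η = n^-α`: error `(nη)^(-1/4)`), `b1_X3` (exponent `c α`) and the continuity of the tree values; then `γ`, `α` with `EnPar`.   On the intersection of the events of
`b1_X1` (at `ε = 2 ε₁`), `b1_X2`, `b1_X3`, `en_type`:   * sup norm: `Im G_vv(E + iη') = Σ_k η' ψ_k(v)²/((λ_k - E)² + η'²) ≥ V(v,j)²/(2 n η')`, `η' = n^(-1+2ε₁)`, so `|V v j| ≤ √(2C) n^{ε₁}` (`≤ n^α` for large `n`);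
* noise `L, M` from `en_noise`, `Γ = Im G(E + iη)/r` (`en_gam`), so `typ` is `b1_X2` + the tree values `Im G^tree_star/r = enSig0 + O(η)`;   * `pot` is `b1_X3` (`log det((A-E)²+η²) = 2 n rgLd`, `rgPhi d E = enU d E` = P1 (2.4));   * `typeOk` is `en_type`. -/
theorem gau_import (d : ℕ) (hd : 3 ≤ d) (E : ℝ) (hE : |E| < 2 * Real.sqrt ((d : ℝ) - 1)) (ℓ : ℕ) :
    ∃ γ α c₂ : ℝ, EnPar d ℓ γ α c₂ ∧ ∀ ε₁ : ℝ, 0 < ε₁ → ε₁ ≤ α / 32 → ∃ C₀ : ℝ, 1 ≤ C₀ ∧
      RgWhp d fun n G => ∀ (V : Fin n → Fin ℓ → ℝ) (lam : Fin ℓ → ℝ), GauBand G E ((n : ℝ) ^ (-1 + 2 * ε₁)) V lam →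
        (∀ v j, |V v j| ≤ C₀ * (n : ℝ) ^ ε₁) ∧
        ∃ D : EnData n d ℓ, D.G = G ∧ D.V = V ∧ D.lam = lam ∧ D.E = E ∧ D.r = Real.pi * kestenMcKay d E ∧ D.Ok γ α c₂ := by
  obtain ⟨γ, α, c₂, hP, H⟩ := en_import d hd E hE ℓ (x7_X1_pf d hd E hE) (x7_X2_pf d hd E hE) (x7_X3_pf d hd E hE)
  refine ⟨γ, α, c₂, hP, fun ε₁ h0 h1 => ?_⟩
  obtain ⟨C₀, hC₀, hw⟩ := H ε₁ h0 h1
  exact ⟨C₀, hC₀, fun δ hδ => by
    obtain ⟨N, hN⟩ := hw δ hδ
    exact ⟨N, fun n hn hne => (hN n hn hne).trans (rg_P_mono fun G _ hS V lam hB => hS V lam hB.eig hB.orth hB.band)⟩⟩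

/-! ## 2. The dictionary `EnOut → GauHyp` -/

section dict

variable {d ℓ : ℕ}

/-- a Kronecker product with the identity acts colour by colour -/
theorem gc_kron_mulVec {α : Type} (M : Matrix α (Fin d) ℝ) (y : Fin d × Fin ℓ → ℝ) (r : α) (c : Fin ℓ) :
    ((Matrix.kroneckerMap (· * ·) M (1 : Matrix (Fin ℓ) (Fin ℓ) ℝ)) *ᵥ y) (r, c) = ∑ k, M r k * y (k, c) := by
  simp only [Matrix.mulVec, dotProduct, Matrix.kroneckerMap_apply, Matrix.one_apply, Fintype.sum_prod_type]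
  refine Finset.sum_congr rfl fun k _ => ?_
  simp [mul_ite, ite_mul]

/-- PLAN: entrywise: `(etP d i ⊗ₖ 1) (r,c) (r',c') = etP d i r r' * [c = c']` (`Matrix.kroneckerMap_apply`, `Matrix.one_apply`); `Fintype.sum_prod_type`, `Finset.sum_ite_eq`. -/
theorem gc_enPi_eq (i : Fin d) (y : Fin d × Fin ℓ → ℝ) : enPi i y = gauPi d ℓ i *ᵥ y := by
  funext x
  obtain ⟨r, c⟩ := x
  unfold gauPi
  rw [gc_kron_mulVec]
  rfl

/-- PLAN: `Fintype.sum_prod_type`, `Finset.sum_ite_eq`. -/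
theorem gc_obs_eq (E : ℝ) (i : Fin d) (y : Fin d × Fin ℓ → ℝ) (t : Bool) (c : Fin ℓ) : enObs d E i y t c = gauW d E i t c ⬝ᵥ y := by
  simp only [enObs, gauW, dotProduct, Fintype.sum_prod_type]
  refine Finset.sum_congr rfl fun k _ => ?_
  simp [ite_mul]

theorem gc_om_abs_le (hd : 0 < d) (r : Fin d) : |etOm d r| ≤ 1 := by
  have h := et_om_om hd
  have h1 : etOm d r ^ 2 ≤ etOm d ⬝ᵥ etOm d := by
    simp only [dotProduct]
    have := Finset.single_le_sum (f := fun k => etOm d k * etOm d k) (fun k _ => mul_self_nonneg _) (Finset.mem_univ r)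
    simpa [sq] using this
  rw [h] at h1
  exact (sq_le_one_iff_abs_le_one _).1 h1

theorem gc_av_abs_le (hd : 1 < d) (i r : Fin d) : |etAv d i r| ≤ 1 := by
  have h := et_av_av hd i i
  rw [if_pos rfl] at h
  have h1 : etAv d i r ^ 2 ≤ etAv d i ⬝ᵥ etAv d i := by
    simp only [dotProduct]
    have := Finset.single_le_sum (f := fun k => etAv d i k * etAv d i k) (fun k _ => mul_self_nonneg _) (Finset.mem_univ r)
    simpa [sq] using this
  rw [h] at h1
  exact (sq_le_one_iff_abs_le_one _).1 h1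

theorem gc_q_pos {p : ℝ} (hp : |p| < 1) : 0 < √(1 - p ^ 2) := by
  have := (sq_lt_one_iff_abs_lt_one p).2 hp
  exact Real.sqrt_pos.2 (by linarith)

/-- the projection and the swap in terms of the two observations: with `α_r = ω_r - p a_i(r)/√(1-p²)`, `β_r = a_i(r)/√(1-p²)`:  `(Π_i y)(r,c) = α_r s_c + β_r t_c`,  `(S_i y)(r,c) = α_r t_c + β_r s_c`,  `s = obs false`, `t = obs true`;  `|α_r| + |β_r| ≤ 1 + 2/√(1-p²)`.
PLAN: `etP_expand`, `etM_expand` for `etSw`; `<a_i,y_c> = (t_c - p s_c)/√(1-p²)`; entries of the unit vectors `ω`, `a_i` are `≤ 1` in absolute value (`et_om_om`, `et_av_av`, `Finset.single_le_sum`). -/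
theorem gc_proj_obs (hd : 1 < d) {E : ℝ} (hp : |enP d E| < 1) (i : Fin d) :
    ∃ a b : Fin d → ℝ, (∀ r, |a r| + |b r| ≤ 1 + 2 / √(1 - enP d E ^ 2)) ∧ ∀ (y : Fin d × Fin ℓ → ℝ) (x : Fin d × Fin ℓ),
      (gauPi d ℓ i *ᵥ y) x = a x.1 * enObs d E i y false x.2 + b x.1 * enObs d E i y true x.2 ∧
      (gauSg d ℓ (enP d E) i *ᵥ y) x = a x.1 * enObs d E i y true x.2 + b x.1 * enObs d E i y false x.2 := by
  have hq := gc_q_pos hp
  have hqq := et_q0 hp
  refine ⟨fun r => etOm d r - enP d E * etAv d i r / √(1 - enP d E ^ 2), fun r => etAv d i r / √(1 - enP d E ^ 2), fun r => ?_, fun y x => ?_⟩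
  · have h1 := gc_om_abs_le (show 0 < d by omega) r
    have h2 := gc_av_abs_le hd i r
    have h3 : |enP d E * etAv d i r / √(1 - enP d E ^ 2)| ≤ 1 / √(1 - enP d E ^ 2) := by
      rw [abs_div, abs_of_pos hq, abs_mul]
      gcongr
      nlinarith [abs_nonneg (enP d E), abs_nonneg (etAv d i r)]
    have h4 : |etAv d i r / √(1 - enP d E ^ 2)| ≤ 1 / √(1 - enP d E ^ 2) := by
      rw [abs_div, abs_of_pos hq]
      gcongr
    have h5 := abs_sub (etOm d r) (enP d E * etAv d i r / √(1 - enP d E ^ 2))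
    have h6 : 2 / √(1 - enP d E ^ 2) = 1 / √(1 - enP d E ^ 2) + 1 / √(1 - enP d E ^ 2) := by ring
    simp only
    linarith
  · obtain ⟨r, c⟩ := x
    have e1 : enObs d E i y false c = ∑ k, etOm d k * y (k, c) := by simp [enObs]
    have e2 : enObs d E i y true c = enP d E * (∑ k, etOm d k * y (k, c)) + √(1 - enP d E ^ 2) * ∑ k, etAv d i k * y (k, c) := by
      simp only [enObs, enVi, if_true, Finset.mul_sum, ← Finset.sum_add_distrib]
      exact Finset.sum_congr rfl fun k _ => by ring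
    constructor
    · unfold gauPi
      rw [gc_kron_mulVec, e1, e2, etP_expand]
      simp only [etW, Matrix.add_apply, vecMulVec_apply, add_mul, Finset.sum_add_distrib, mul_assoc, ← Finset.mul_sum]
      field_simp
      ring
    · unfold gauSg etSw
      rw [gc_kron_mulVec, e1, e2, etM_expand]
      simp only [Matrix.add_apply, Matrix.smul_apply, vecMulVec_apply, add_mul, Finset.sum_add_distrib, mul_assoc, ← Finset.mul_sum, smul_eq_mul,
        Matrix.of_apply, Matrix.cons_val_zero, Matrix.cons_val_one, Matrix.cons_val', Matrix.cons_val_fin_one]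
      generalize (∑ k, etOm d k * y (k, c)) = s
      generalize (∑ k, etAv d i k * y (k, c)) = A
      generalize hQ : √(1 - enP d E ^ 2) = Q at *
      have hQ2 : Q ^ 2 = 1 - enP d E ^ 2 := by rw [sq]; exact hqq
      field_simp
      have : enP d E ^ 2 = 1 - Q ^ 2 := by linarith
      ring_nf
      rw [this]
      ring

theorem gc_av_sum {Ω α : Type} [Fintype Ω] (s : Finset α) (F : α → Ω → ℝ) : (gauAv fun ω => ∑ y ∈ s, F y ω) = ∑ y ∈ s, gauAv (F y) := by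
  unfold gauAv
  rw [Finset.sum_comm, Finset.sum_div]

theorem gc_av_const_mul {Ω : Type} [Fintype Ω] (c : ℝ) (F : Ω → ℝ) : (gauAv fun ω => c * F ω) = c * gauAv F := by
  unfold gauAv
  rw [← Finset.mul_sum, mul_div_assoc]

/-- `(etAll N *ᵥ M_j) x = avg ∏_a (N B)(x a)`.   PLAN: `etK_apply`, `Finset.prod_univ_sum` (as in `gau_Dl_map`), exchange with the average. -/
theorem gc_all_M {Ω : Type} [Fintype Ω] (N : Matrix (Fin d × Fin ℓ) (Fin d × Fin ℓ) ℝ) (B : Ω → Fin d × Fin ℓ → ℝ) (j : ℕ) (x : Fin j → Fin d × Fin ℓ) :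
    (etAll N *ᵥ gauM B j) x = gauAv fun ω => ∏ a, (N *ᵥ B ω) (x a) := by
  have e : ∀ ω, ∏ a, (N *ᵥ B ω) (x a) = ∑ y : Fin j → Fin d × Fin ℓ, (∏ a, N (x a) (y a)) * ∏ a, B ω (y a) := by
    intro ω
    simp only [Matrix.mulVec, dotProduct]
    rw [Finset.prod_univ_sum, Fintype.piFinset_univ]
    exact Finset.sum_congr rfl fun y _ => Finset.prod_mul_distrib
  simp only [e]
  rw [gc_av_sum]
  simp only [gc_av_const_mul]
  rfl

/-- expansion of a product of two-term sums over the choices `τ` -/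
theorem gc_prod_two {j : ℕ} (u v : Fin j → ℝ) : ∏ a, (u a + v a) = ∑ τ : Fin j → Bool, ∏ a, (if τ a then v a else u a) := by
  have e : ∀ a, u a + v a = ∑ b : Bool, (if b then v a else u a) := by
    intro a
    simp [add_comm]
  simp only [e]
  rw [Finset.prod_univ_sum, Fintype.piFinset_univ]

theorem gc_one_le_const {p : ℝ} : 1 ≤ 1 + 2 / √(1 - p ^ 2) := by
  have : 0 ≤ 2 / √(1 - p ^ 2) := by positivity
  linarith

/-- **reversal ⟹ swap defect.**   PLAN: `gc_all_M` for `Π_i`, `S_i`; `gc_proj_obs`; expand `∏_a (a_{r_a} o(τ) + b_{r_a} o(!τ))` over `τ : Fin j → Bool` (`Finset.prod_add` or `Finset.prod_univ_sum` with `Bool`): the two expansions have the same coefficients and the observations are exchanged;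
each difference is `≤ δ` by `EnOut.rev`; `Σ_τ ∏ |coef| = ∏_a (|a| + |b|) ≤ (1 + 2/√(1-p²))^j ≤ (..)^q`. -/
theorem gc_swap_of_rev (hd : 1 < d) {E : ℝ} (hp : |enP d E| < 1) {Ω : Type} [Fintype Ω] {B : Ω → Fin d × Fin ℓ → ℝ} {S δ : ℝ} {q : ℕ} (h : EnOut d ℓ E B S δ q)
    (j : ℕ) (hj : j ≤ q) (i : Fin d) (x : Fin j → Fin d × Fin ℓ) :
    |(etAll (gauSg d ℓ (enP d E) i) *ᵥ gauM B j - etAll (gauPi d ℓ i) *ᵥ gauM B j) x| ≤ (1 + 2 / √(1 - enP d E ^ 2)) ^ q * δ := by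
  obtain ⟨a, b, hab, H⟩ := gc_proj_obs (ℓ := ℓ) hd hp i
  have hδ : 0 ≤ δ := (abs_nonneg _).trans (h.rev i j hj (fun _ => false) (fun a => (x a).2))
  rw [Pi.sub_apply, gc_all_M, gc_all_M]
  have e1 : ∀ ω, ∏ k, (gauPi d ℓ i *ᵥ B ω) (x k) = ∑ τ : Fin j → Bool, (∏ k, (if τ k then b (x k).1 else a (x k).1)) * ∏ k, enObs d E i (B ω) (τ k) (x k).2 := by
    intro ω
    simp only [(H (B ω) _).1]
    rw [gc_prod_two]
    refine Finset.sum_congr rfl fun τ _ => ?_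
    rw [← Finset.prod_mul_distrib]
    refine Finset.prod_congr rfl fun k _ => ?_
    cases τ k <;> simp
  have e2 : ∀ ω, ∏ k, (gauSg d ℓ (enP d E) i *ᵥ B ω) (x k) = ∑ τ : Fin j → Bool, (∏ k, (if τ k then b (x k).1 else a (x k).1)) * ∏ k, enObs d E i (B ω) (!(τ k)) (x k).2 := by
    intro ω
    simp only [(H (B ω) _).2]
    rw [gc_prod_two]
    refine Finset.sum_congr rfl fun τ _ => ?_
    rw [← Finset.prod_mul_distrib]
    refine Finset.prod_congr rfl fun k _ => ?_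
    cases τ k <;> simp
  simp only [e1, e2]
  rw [gc_av_sum, gc_av_sum]
  simp only [gc_av_const_mul]
  rw [← Finset.sum_sub_distrib]
  calc |∑ τ : Fin j → Bool, ((∏ k, (if τ k then b (x k).1 else a (x k).1)) * (gauAv fun ω => ∏ k, enObs d E i (B ω) (!(τ k)) (x k).2)
          - (∏ k, (if τ k then b (x k).1 else a (x k).1)) * (gauAv fun ω => ∏ k, enObs d E i (B ω) (τ k) (x k).2))|
      ≤ ∑ τ : Fin j → Bool, (∏ k, (if τ k then |b (x k).1| else |a (x k).1|)) * δ := by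
        refine (Finset.abs_sum_le_sum_abs _ _).trans (Finset.sum_le_sum fun τ _ => ?_)
        rw [← mul_sub, abs_mul, Finset.abs_prod]
        have h1 : ∏ k, |if τ k then b (x k).1 else a (x k).1| = ∏ k, (if τ k then |b (x k).1| else |a (x k).1|) :=
          Finset.prod_congr rfl fun k _ => by cases τ k <;> simp
        rw [h1]
        refine mul_le_mul_of_nonneg_left ?_ (Finset.prod_nonneg fun k _ => by cases τ k <;> simp)
        have := h.rev i j hj τ (fun k => (x k).2)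
        rw [gauAv_eq_enAvg, gauAv_eq_enAvg, abs_sub_comm]
        exact this
    _ = (∏ k, (|a (x k).1| + |b (x k).1|)) * δ := by rw [← Finset.sum_mul, gc_prod_two]
    _ ≤ (1 + 2 / √(1 - enP d E ^ 2)) ^ j * δ := by
        refine mul_le_mul_of_nonneg_right ?_ hδ
        calc ∏ k, (|a (x k).1| + |b (x k).1|) ≤ ∏ _k : Fin j, (1 + 2 / √(1 - enP d E ^ 2)) :=
              Finset.prod_le_prod (fun k _ => by positivity) fun k _ => hab _
          _ = (1 + 2 / √(1 - enP d E ^ 2)) ^ j := by simp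
    _ ≤ (1 + 2 / √(1 - enP d E ^ 2)) ^ q * δ := by
        refine mul_le_mul_of_nonneg_right ?_ hδ
        exact pow_le_pow_right₀ gc_one_le_const hj

/-- `δ ≥ 0` in `EnOut`.   PLAN: `EnOut.ent` at `ε = 0`: `enEnt 0 = 0` (`enR 0 = 1`, `log 1 = 0`), for some `i` (`d > 0`). -/
theorem EnOut.nonneg (hd : 0 < d) {E : ℝ} {Ω : Type} [Fintype Ω] [Nonempty Ω] {B : Ω → Fin d × Fin ℓ → ℝ} {S δ : ℝ} {q : ℕ} (h : EnOut d ℓ E B S δ q) : 0 ≤ δ :=
  (abs_nonneg _).trans (h.rev ⟨0, hd⟩ 0 (Nat.zero_le _) (fun a => a.elim0) (fun a => a.elim0))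

/-- **the dictionary.**   PLAN: `bd`: `B ⬝ᵥ B = Σ_x B_x² ≤ d ℓ S²`;  `m1`: `EnOut.mean`, `EnOut.nonneg`;  `m2`: `EnOut.cov`;  `sw`: `gc_swap_of_rev`;
`ent`: average of `EnOut.ent` over `i` (`Σ_i (Ent - (d/2) Ent_i) ≤ d δ`, divide by `d`), `gauEnt_eq_enEnt`, `gc_enPi_eq`, `gauAv_eq_enAvg`;  the constant is `≥ 1`. -/
theorem gau_of_out (hd : 1 < d) {E : ℝ} (hp : |enP d E| < 1) {Ω : Type} [Fintype Ω] [Nonempty Ω] {B : Ω → Fin d × Fin ℓ → ℝ} {S δ : ℝ} {q : ℕ} (hS : 0 ≤ S)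
    (h : EnOut d ℓ E B S δ q) : GauHyp d ℓ q (enP d E) B (√((d * ℓ : ℕ) : ℝ) * S) ((1 + 2 / √(1 - enP d E ^ 2)) ^ q * δ) := by
  have hδ : 0 ≤ δ := EnOut.nonneg (by omega) h
  have hC : 1 ≤ (1 + 2 / √(1 - enP d E ^ 2)) ^ q := one_le_pow₀ gc_one_le_const
  have hδC : δ ≤ (1 + 2 / √(1 - enP d E ^ 2)) ^ q * δ := by nlinarith
  refine ⟨fun ω => ?_, fun x => ?_, fun x y => ?_, fun j hj i x => gc_swap_of_rev hd hp h j hj i x, fun ε h0 h1 => ?_⟩
  · rw [mul_pow, Real.sq_sqrt (Nat.cast_nonneg _)]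
    simp only [dotProduct]
    calc ∑ x, B ω x * B ω x ≤ ∑ _x : Fin d × Fin ℓ, S ^ 2 := by
          refine Finset.sum_le_sum fun x _ => ?_
          rw [← sq, ← sq_abs]
          exact pow_le_pow_left₀ (abs_nonneg _) (h.sup ω x) 2
      _ = ((d * ℓ : ℕ) : ℝ) * S ^ 2 := by simp
  · rw [gauAv_eq_enAvg, h.mean x, abs_zero]
    exact hδ.trans hδC
  · rw [gauAv_eq_enAvg]
    exact (h.cov x y).trans hδC
  · refine le_trans ?_ hδC
    have hd0 : (0 : ℝ) < d := by exact_mod_cast (show 0 < d by omega)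
    have key : ∀ i : Fin d, gauEnt (ε • B) - (d : ℝ) / 2 * gauEnt (ε • fun ω => gauPi d ℓ i *ᵥ B ω) ≤ δ := by
      intro i
      have := h.ent ε ⟨h0, h1⟩ i
      rw [gauEnt_eq_enEnt, gauEnt_eq_enEnt]
      simp only [gc_enPi_eq] at this
      exact this
    have hs := Finset.sum_le_sum fun i (_ : i ∈ (Finset.univ : Finset (Fin d))) => key i
    rw [Finset.sum_sub_distrib, ← Finset.mul_sum] at hs
    simp only [Finset.sum_const, Finset.card_univ, Fintype.card_fin, nsmul_eq_mul] at hs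
    have : (d : ℝ) * (gauEnt (ε • B) - (1 / 2) * ∑ i, gauEnt (ε • fun ω => gauPi d ℓ i *ᵥ B ω)) ≤ d * δ := by
      calc _ = (d : ℝ) * gauEnt (ε • B) - (d : ℝ) / 2 * ∑ i, gauEnt (ε • fun ω => gauPi d ℓ i *ᵥ B ω) := by ring
        _ ≤ _ := hs
    exact le_of_mul_le_mul_left this hd0

end dict

/-! ## 3. [C]: one edge -/

section edge

variable {d ℓ : ℕ}

/-- a product of linear forms, expanded -/
theorem gc_prod_dot {κ : Type} [Fintype κ] {m : ℕ} (w : Fin m → κ → ℝ) (y : κ → ℝ) :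
    ∏ a, w a ⬝ᵥ y = ∑ x : Fin m → κ, (∏ a, w a (x a)) * ∏ a, y (x a) := by
  simp only [dotProduct]
  rw [Finset.prod_univ_sum, Fintype.piFinset_univ]
  exact Finset.sum_congr rfl fun x _ => Finset.prod_mul_distrib

/-- multilinear forms of the moment tensors.   PLAN: `∏_a (w_a ⬝ᵥ y) = Σ_x (∏_a w_a (x a)) ∏_a y (x a)` (`Finset.prod_univ_sum`); average / integrate (`gau_mono_integrable`): the difference is `Σ_x (∏_a w_a (x a)) Δ_m x`;
`Σ_x ∏_a |w_a (x a)| = ∏_a Σ_x |w_a x|`. -/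
theorem gc_lin {κ Ω : Type} [Fintype κ] [Fintype Ω] (B : Ω → κ → ℝ) {m : ℕ} {δ : ℝ} (h : ∀ x, |gauDl B m x| ≤ δ) (w : Fin m → κ → ℝ) :
    |(gauAv fun ω => ∏ a, w a ⬝ᵥ B ω) - ∫ g, ∏ a, w a ⬝ᵥ g ∂qfG κ| ≤ (∏ a, ∑ x, |w a x|) * δ := by
  simp only [gc_prod_dot]
  rw [gc_av_sum, integral_finsetSum _ fun x _ => (gau_mono_integrable x).const_mul _]
  simp only [gc_av_const_mul, integral_const_mul]
  rw [← Finset.sum_sub_distrib, Finset.prod_univ_sum, Fintype.piFinset_univ, Finset.sum_mul]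
  refine (Finset.abs_sum_le_sum_abs _ _).trans (Finset.sum_le_sum fun x _ => ?_)
  rw [← mul_sub, abs_mul, Finset.abs_prod]
  exact mul_le_mul_of_nonneg_left (h x) (Finset.prod_nonneg fun a _ => abs_nonneg _)

theorem gc_vi_abs_le (hd : 1 < d) {E : ℝ} (hp : |enP d E| < 1) (i r : Fin d) : |enVi d E i r| ≤ 1 := by
  have hd0 : 0 < d := by omega
  have h : enVi d E i ⬝ᵥ enVi d E i = 1 := by
    have e : enVi d E i = enP d E • etOm d + √(1 - enP d E ^ 2) • etAv d i := by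
      funext k
      simp [enVi]
    rw [e]
    simp only [add_dotProduct, dotProduct_add, smul_dotProduct, dotProduct_smul, et_om_om hd0, et_om_av hd0, et_av_om hd0, et_av_av hd, if_true,
      smul_eq_mul, mul_one, mul_zero, add_zero, zero_add]
    rw [et_q0 hp]
    ring
  have h1 : enVi d E i r ^ 2 ≤ enVi d E i ⬝ᵥ enVi d E i := by
    simp only [dotProduct]
    have := Finset.single_le_sum (f := fun k => enVi d E i k * enVi d E i k) (fun k _ => mul_self_nonneg _) (Finset.mem_univ r)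
    simpa [sq] using this
  rw [h] at h1
  exact (sq_le_one_iff_abs_le_one _).1 h1

/-- `ℓ¹` norm of the weights.   PLAN: only the `d` entries of colour `c` are nonzero, each is `≤ 1` in absolute value: `ω` and `v_i` are unit vectors (`et_om_om`; `|v_i|² = p² + (1-p²) = 1` by `et_om_av`, `et_av_av`). -/
theorem gc_W_l1 (hd : 1 < d) {E : ℝ} (hp : |enP d E| < 1) (i : Fin d) (t : Bool) (c : Fin ℓ) : ∑ x, |gauW d E i t c x| ≤ d := by
  rw [Fintype.sum_prod_type]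
  calc ∑ k : Fin d, ∑ c' : Fin ℓ, |gauW d E i t c (k, c')| ≤ ∑ _k : Fin d, (1 : ℝ) := by
        refine Finset.sum_le_sum fun k _ => ?_
        have e : ∀ c' : Fin ℓ, |gauW d E i t c (k, c')| = if c' = c then |if t then enVi d E i k else etOm d k| else 0 := by
          intro c'
          simp only [gauW]
          split_ifs <;> simp
        simp only [e, Finset.sum_ite_eq', Finset.mem_univ, if_true]
        cases t
        · simpa using gc_om_abs_le (by omega) k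
        · simpa using gc_vi_abs_le hd hp i k
    _ = d := by simp

/-- the observations in the coordinates of `U_i`.   PLAN: `(gauV d ℓ i *ᵥ y)(0,c) = <ω,y_c>`, `(..)(1,c) = <a_i,y_c>` (`Matrix.kroneckerMap_apply`, `etV`), `enVi = p ω + √(1-p²) a_i`. -/
theorem gc_obs_coord (E : ℝ) (i : Fin d) (y : Fin d × Fin ℓ → ℝ) (t : Bool) (c : Fin ℓ) :
    enObs d E i y t c = gauZ (enP d E) (gauV d ℓ i *ᵥ y) t c := by
  unfold gauZ gauV
  rw [gc_kron_mulVec, gc_kron_mulVec]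
  cases t
  · simp [enObs, etV]
  · simp only [enObs, enVi, etV, if_true, Matrix.of_apply, Matrix.cons_val_zero, Matrix.cons_val_one, Finset.mul_sum, ← Finset.sum_add_distrib]
    exact Finset.sum_congr rfl fun k _ => by ring

/-- the Gaussian side.   PLAN: `gc_obs_coord`, `gau_rot_integral` with `V = gauV d ℓ i` (`gauV_mul_transpose`); the integrand is continuous. -/
theorem gc_gauss (hd : 1 < d) (E : ℝ) (i : Fin d) {m : ℕ} (t : Fin m → Bool) (c : Fin m → Fin ℓ) :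
    ∫ g, ∏ a, enObs d E i g (t a) (c a) ∂qfG (Fin d × Fin ℓ) = ∫ g, ∏ a, gauZ (enP d E) g (t a) (c a) ∂qfG (Fin 2 × Fin ℓ) := by
  simp only [gc_obs_coord]
  refine gau_rot_integral (gauV d ℓ i) (gauV_mul_transpose hd ℓ i) (fun g => ∏ a, gauZ (enP d E) g (t a) (c a)) ?_
  refine Continuous.aestronglyMeasurable ?_
  refine continuous_finsetProd _ fun a _ => ?_
  unfold gauZ
  cases t a
  · simp only [Bool.false_eq_true, if_false]
    fun_prop
  · simp only [if_true]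
    fun_prop

/-- an ordered star enumerates ALL the neighbours of its centre.   PLAN: `s.2.1` injective into the neighbour set, of cardinality `d` (`G.IsRegularOfDegree d`): `Finset.eq_of_subset_of_card_le`; `Finset.sum_image`. -/
theorem gc_star_sum {n : ℕ} {G : SimpleGraph (Fin n)} (hG : G ∈ regularGraphs n d) (s : EnLoc G d) (f : Fin n → ℝ) :
    ∑ k, f (s.vx (some k)) = (enA G *ᵥ f) (s.vx none) := by
  classical
  rw [en_loc_sum hG s f]
  simp only [Matrix.mulVec, dotProduct, enA, SimpleGraph.adjMatrix_apply]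
  refine Finset.sum_congr rfl fun w _ => ?_
  by_cases hw : G.Adj (s.vx none) w <;> simp [hw]

/-- the algebra of the two observations of `Z ω + P X / √a` -/
theorem gc_obs_alg (hd : 1 < d) {E : ℝ} (hp : |enP d E| < 1) (i : Fin d) (Z : ℝ) (X : Fin d → ℝ) :
    (∑ k, etOm d k * (Z / √(d : ℝ) + (X k - (d : ℝ)⁻¹ * ∑ k', X k') / √(enAa d E)) = Z) ∧
    (∑ k, enVi d E i k * (Z / √(d : ℝ) + (X k - (d : ℝ)⁻¹ * ∑ k', X k') / √(enAa d E)) = enP d E * Z + (X i - (d : ℝ)⁻¹ * ∑ k', X k')) := by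
  have hd0 : (0 : ℝ) < d := by exact_mod_cast (show 0 < d by omega)
  have hd1 : (0 : ℝ) < (d : ℝ) - 1 := by
    have : (1 : ℝ) < d := by exact_mod_cast hd
    linarith
  have hμ : ∑ k, (X k - (d : ℝ)⁻¹ * ∑ k', X k') = 0 := by
    rw [Finset.sum_sub_distrib, Finset.sum_const, Finset.card_univ, Fintype.card_fin, nsmul_eq_mul, ← mul_assoc, mul_inv_cancel₀ hd0.ne', one_mul, sub_self]
  generalize (d : ℝ)⁻¹ * ∑ k', X k' = μ at hμ ⊢
  have hsd : √(d : ℝ) * √(d : ℝ) = d := Real.mul_self_sqrt hd0.le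
  have hsd0 : 0 < √(d : ℝ) := Real.sqrt_pos.2 hd0
  have hq := gc_q_pos hp
  have hr : 0 < √((d : ℝ) / ((d : ℝ) - 1)) := Real.sqrt_pos.2 (by positivity)
  have ha : √(enAa d E) = √((d : ℝ) / ((d : ℝ) - 1)) * √(1 - enP d E ^ 2) := by
    unfold enAa
    exact Real.sqrt_mul (by positivity) _
  have h1 : ∑ k, etOm d k * (Z / √(d : ℝ) + (X k - μ) / √(enAa d E)) = Z := by
    have e : ∀ k, etOm d k * (Z / √(d : ℝ) + (X k - μ) / √(enAa d E)) = Z / d + (√(d : ℝ))⁻¹ / √(enAa d E) * (X k - μ) := by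
      intro k
      simp only [etOm]
      have e0 : Z / (d : ℝ) = Z / (√(d : ℝ) * √(d : ℝ)) := by rw [hsd]
      rw [e0]
      field_simp
    simp only [e]
    rw [Finset.sum_add_distrib, ← Finset.mul_sum, hμ, mul_zero, add_zero, Finset.sum_const, Finset.card_univ, Fintype.card_fin, nsmul_eq_mul]
    field_simp
  refine ⟨h1, ?_⟩
  have h2 : ∑ k, etAv d i k * (Z / √(d : ℝ) + (X k - μ) / √(enAa d E)) = (X i - μ) / √(1 - enP d E ^ 2) := by
    have e : ∀ k, etAv d i k * (Z / √(d : ℝ) + (X k - μ) / √(enAa d E))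
        = Z * (etAv d i k * etOm d k) + (√(1 - enP d E ^ 2))⁻¹ * ((if k = i then (X k - μ) else 0) - 1 / (d : ℝ) * (X k - μ)) := by
      intro k
      rw [ha]
      simp only [etOm, etAv]
      split_ifs <;> field_simp <;> ring
    simp only [e]
    rw [Finset.sum_add_distrib, ← Finset.mul_sum, ← Finset.mul_sum, Finset.sum_sub_distrib, ← Finset.mul_sum, hμ, mul_zero, sub_zero,
      Finset.sum_ite_eq' Finset.univ i, if_pos (Finset.mem_univ _)]
    have := et_av_om (show 0 < d by omega) i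
    simp only [dotProduct] at this
    rw [this, mul_zero, zero_add, div_eq_inv_mul]
  have e : ∀ k, enVi d E i k * (Z / √(d : ℝ) + (X k - μ) / √(enAa d E))
      = enP d E * (etOm d k * (Z / √(d : ℝ) + (X k - μ) / √(enAa d E))) + √(1 - enP d E ^ 2) * (etAv d i k * (Z / √(d : ℝ) + (X k - μ) / √(enAa d E))) := by
    intro k
    simp only [enVi]
    ring
  simp only [e]
  rw [Finset.sum_add_distrib, ← Finset.mul_sum, ← Finset.mul_sum, h1, h2]
  field_simp

/-- the observations of the projected star.   PLAN: `<ω,B_c> = Z_c` (the centred part sums to `0`, `Σ_k ω_k/√d = 1`);  `<a_i,B_c> = (X_i - mean X)/√(1-p²)` (`√(d/(d-1))/√a = 1/√(1-p²)`, `a = enAa`);  `mean X = λ Z/d` (`gc_star_sum` + the eigenvector equation). -/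
theorem gc_obs_BV {n : ℕ} (hd : 1 < d) (D : EnData n d ℓ) (hp : |enP d D.E| < 1) (hG : D.G ∈ regularGraphs n d)
    (heig : ∀ j, enA D.G *ᵥ (fun v => D.V v j) = D.lam j • fun v => D.V v j) (s : EnLoc D.G d) (i : Fin d) (c : Fin ℓ) :
    enObs d D.E i (D.BV s) false c = D.V (s.vx none) c ∧
      enObs d D.E i (D.BV s) true c = D.V (s.vx (some i)) c - (D.lam c - D.E) / d * D.V (s.vx none) c := by
  obtain ⟨h1, h2⟩ := gc_obs_alg hd hp i (D.V (s.vx none) c) (fun k => D.V (s.vx (some k)) c)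
  have hd0 : (0 : ℝ) < d := by exact_mod_cast (show 0 < d by omega)
  constructor
  · simpa [enObs, EnData.BV] using h1
  · have e : enObs d D.E i (D.BV s) true c = enP d D.E * D.V (s.vx none) c + (D.V (s.vx (some i)) c - (d : ℝ)⁻¹ * ∑ k', D.V (s.vx (some k')) c) := by
      simpa [enObs, EnData.BV] using h2
    rw [e, gc_star_sum hG s (fun v => D.V v c), heig c]
    simp only [Pi.smul_apply, smul_eq_mul, enP]
    field_simp
    ring

/-- the `i`-th edge of a uniform ordered star is a uniform oriented edge.   PLAN: fibres of `s ↦ (s.vx none, s.vx (some i))` over the oriented edges all have `(d-1)!` elements and `card (EnLoc G d) = n d!`;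
cheaper: both sides are linear in `F`, so take `F = 1_{(v,w)}`; the group `Perm (Fin d)` acts freely on the enumerations of the neighbours of `v` and transitively (`gc_star_sum`-like: every enumeration is a bijection onto the neighbour set). -/
theorem gc_star_edge {n : ℕ} (hd : 0 < d) {G : SimpleGraph (Fin n)} (hG : G ∈ regularGraphs n d) (i : Fin d) (F : Fin n → Fin n → ℝ) :
    enAvg (fun s : EnLoc G d => F (s.vx none) (s.vx (some i))) = gauEd d G F := by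
  rw [en_avg_ed hG i F, gauEd, div_eq_inv_mul]

/-- ordered stars exist.   PLAN: `n ≥ 1`, enumerate the `d` neighbours of the vertex `0` (`Finset.equivFin`). -/
theorem gc_star_nonempty {n : ℕ} (hn : 0 < n) {G : SimpleGraph (Fin n)} (hG : G ∈ regularGraphs n d) : Nonempty (EnLoc G d) := by
  rw [← Fintype.card_pos_iff, en_loc_card hG]
  exact Nat.mul_pos hn (Nat.factorial_pos d)

/-- telescoping.   PLAN: induction on `m` (`Fin.prod_univ_succ`): `xX - yY = (x-y)X + y(X-Y)`. -/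
theorem gc_prod_sub {m : ℕ} (x y : Fin m → ℝ) {S η : ℝ} (hx : ∀ a, |x a| ≤ S) (hy : ∀ a, |y a| ≤ S) (h : ∀ a, |x a - y a| ≤ η) :
    |∏ a, x a - ∏ a, y a| ≤ m * S ^ (m - 1) * η := by
  induction m with
  | zero => simp
  | succ m ih =>
    have hS : 0 ≤ S := (abs_nonneg _).trans (hx 0)
    have hη : 0 ≤ η := (abs_nonneg _).trans (h 0)
    have ih' := ih (fun a => x a.succ) (fun a => y a.succ) (fun a => hx _) (fun a => hy _) (fun a => h _)
    rw [Fin.prod_univ_succ, Fin.prod_univ_succ]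
    have hX : |∏ a : Fin m, x a.succ| ≤ S ^ m := by
      rw [Finset.abs_prod]
      calc ∏ a : Fin m, |x a.succ| ≤ ∏ _a : Fin m, S := Finset.prod_le_prod (fun a _ => abs_nonneg _) fun a _ => hx _
        _ = S ^ m := by simp
    have e : x 0 * ∏ a : Fin m, x a.succ - y 0 * ∏ a : Fin m, y a.succ
        = (x 0 - y 0) * ∏ a : Fin m, x a.succ + y 0 * (∏ a : Fin m, x a.succ - ∏ a : Fin m, y a.succ) := by ring
    rw [e]
    have hm : (m : ℝ) * (S * S ^ (m - 1)) = m * S ^ m := by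
      cases m with
      | zero => simp
      | succ k => rw [Nat.add_sub_cancel, pow_succ']
    calc |(x 0 - y 0) * ∏ a : Fin m, x a.succ + y 0 * (∏ a : Fin m, x a.succ - ∏ a : Fin m, y a.succ)|
        ≤ |x 0 - y 0| * |∏ a : Fin m, x a.succ| + |y 0| * |∏ a : Fin m, x a.succ - ∏ a : Fin m, y a.succ| := by
          rw [← abs_mul, ← abs_mul]
          exact abs_add_le _ _
      _ ≤ η * S ^ m + S * (m * S ^ (m - 1) * η) := by
          gcongr
          · exact h 0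
          · exact hy 0
      _ = ((m + 1 : ℕ) : ℝ) * S ^ (m + 1 - 1) * η := by
          rw [Nat.add_sub_cancel]
          push_cast
          have : S * (m * S ^ (m - 1) * η) = (m * (S * S ^ (m - 1))) * η := by ring
          rw [this, hm]
          ring

/-- averages of uniformly close functions are close -/
theorem gc_av_sub_le {Ω : Type} [Fintype Ω] (F F' : Ω → ℝ) {c : ℝ} (hc : 0 ≤ c) (h : ∀ ω, |F ω - F' ω| ≤ c) : |gauAv F - gauAv F'| ≤ c := by
  unfold gauAv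
  rw [← sub_div, ← Finset.sum_sub_distrib, abs_div, Nat.abs_cast]
  rcases Nat.eq_zero_or_pos (Fintype.card Ω) with h0 | h0
  · rw [h0]; simpa using hc
  · have h0' : (0 : ℝ) < Fintype.card Ω := by exact_mod_cast h0
    rw [div_le_iff₀ h0']
    calc |∑ ω, (F ω - F' ω)| ≤ ∑ ω, |F ω - F' ω| := Finset.abs_sum_le_sum_abs _ _
      _ ≤ ∑ _ω : Ω, c := Finset.sum_le_sum fun ω _ => h ω
      _ = c * Fintype.card Ω := by simp [mul_comm]

/-- **[C] for tuples.**   PLAN: `gc_star_edge`: the edge average is the star average of `∏_a V(s.ed i (t a))(c a)`; by `gc_obs_BV` each factor differs from `enObs .. (BV s)` by `≤ w S/d ≤ w S`, all factors are `≤ 2S` (`w ≤ 1`): `gc_prod_sub`;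
then `gc_obs_eq`, `gc_lin`, `gc_W_l1` (`d^m ≤ d^q`), `gc_gauss`. -/
theorem gc_edge_tuple {n : ℕ} (hd : 1 < d) (D : EnData n d ℓ) (hp : |enP d D.E| < 1) (hG : D.G ∈ regularGraphs n d)
    (heig : ∀ j, enA D.G *ᵥ (fun v => D.V v j) = D.lam j • fun v => D.V v j) {w S δ : ℝ} (hw : ∀ j, |D.lam j - D.E| ≤ w) (hw0 : 0 ≤ w) (hw1 : w ≤ 1) (hS : 1 ≤ S) (hV : ∀ v j, |D.V v j| ≤ S)
    {q m : ℕ} (hm : m ≤ q) (hΔ : ∀ x, |gauDl D.BV m x| ≤ δ) (t : Fin m → Bool) (c : Fin m → Fin ℓ) :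
    |gauEd d D.G (fun v v' => ∏ a, D.V (if t a then v' else v) (c a)) - ∫ g, ∏ a, gauZ (enP d D.E) g (t a) (c a) ∂qfG (Fin 2 × Fin ℓ)|
      ≤ (d : ℝ) ^ q * δ + q * (2 * S) ^ q * w := by
  have hd0 : 0 < d := by omega
  have hd1 : (1 : ℝ) ≤ d := by exact_mod_cast hd0
  let i : Fin d := ⟨0, hd0⟩
  have hδ : 0 ≤ δ := (abs_nonneg _).trans (hΔ fun a => (i, c a))
  rw [← gc_star_edge hd0 hG i, ← gauAv_eq_enAvg, ← gc_gauss hd D.E i t c]
  -- step 1: replace the values by the observations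
  have h1 : |(gauAv fun s : EnLoc D.G d => ∏ a, D.V (if t a then s.vx (some i) else s.vx none) (c a))
      - gauAv fun s : EnLoc D.G d => ∏ a, enObs d D.E i (D.BV s) (t a) (c a)| ≤ q * (2 * S) ^ q * w := by
    refine gc_av_sub_le _ _ (by positivity) fun s => ?_
    have hdiff : ∀ a, |D.V (if t a then s.vx (some i) else s.vx none) (c a) - enObs d D.E i (D.BV s) (t a) (c a)| ≤ w * S := by
      intro a
      obtain ⟨o1, o2⟩ := gc_obs_BV hd D hp hG heig s i (c a)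
      cases t a
      · simp only [Bool.false_eq_true, if_false, o1, sub_self, abs_zero]
        positivity
      · simp only [if_true, o2]
        rw [sub_sub_cancel, abs_mul, abs_div, Nat.abs_cast]
        have h2 : |D.lam (c a) - D.E| / (d : ℝ) ≤ w := (div_le_self (abs_nonneg _) hd1).trans (hw _)
        exact mul_le_mul h2 (hV _ _) (abs_nonneg _) hw0
    have hx : ∀ a, |D.V (if t a then s.vx (some i) else s.vx none) (c a)| ≤ 2 * S := fun a => (hV _ _).trans (by linarith)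
    have hy : ∀ a, |enObs d D.E i (D.BV s) (t a) (c a)| ≤ 2 * S := by
      intro a
      have h3 := hdiff a
      have h4 := hV (if t a then s.vx (some i) else s.vx none) (c a)
      have h5 : w * S ≤ S := by nlinarith
      have h6 := abs_sub_abs_le_abs_sub (enObs d D.E i (D.BV s) (t a) (c a)) (D.V (if t a then s.vx (some i) else s.vx none) (c a))
      rw [abs_sub_comm] at h6
      linarith
    refine (gc_prod_sub _ _ hx hy hdiff).trans ?_
    rcases Nat.eq_zero_or_pos m with h0 | h0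
    · subst h0
      simp only [Nat.cast_zero, zero_mul]
      positivity
    · have e : (m : ℝ) * (2 * S) ^ (m - 1) * (w * S) ≤ m * ((2 * S) ^ (m - 1) * (2 * S)) * w := by
        have : 0 ≤ (m : ℝ) * (2 * S) ^ (m - 1) * w * S := by positivity
        nlinarith
      refine e.trans ?_
      rw [← pow_succ, Nat.sub_add_cancel h0]
      have h7 : (2 * S) ^ m ≤ (2 * S) ^ q := pow_le_pow_right₀ (by linarith) hm
      have h8 : (m : ℝ) ≤ q := by exact_mod_cast hm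
      gcongr
  -- step 2: linear forms of the moment tensors
  have h2 : |(gauAv fun s : EnLoc D.G d => ∏ a, enObs d D.E i (D.BV s) (t a) (c a)) - ∫ g, ∏ a, enObs d D.E i g (t a) (c a) ∂qfG (Fin d × Fin ℓ)|
      ≤ (d : ℝ) ^ q * δ := by
    simp only [gc_obs_eq]
    refine (gc_lin D.BV hΔ fun a => gauW d D.E i (t a) (c a)).trans ?_
    refine mul_le_mul_of_nonneg_right ?_ hδ
    calc ∏ a, ∑ x, |gauW d D.E i (t a) (c a) x| ≤ ∏ _a : Fin m, (d : ℝ) :=
          Finset.prod_le_prod (fun a _ => Finset.sum_nonneg fun x _ => abs_nonneg _) fun a _ => gc_W_l1 hd hp i _ _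
      _ = (d : ℝ) ^ m := by simp
      _ ≤ (d : ℝ) ^ q := pow_le_pow_right₀ hd1 hm
  have h3 := abs_sub_le (gauAv fun s : EnLoc D.G d => ∏ a, D.V (if t a then s.vx (some i) else s.vx none) (c a))
    (gauAv fun s : EnLoc D.G d => ∏ a, enObs d D.E i (D.BV s) (t a) (c a)) (∫ g, ∏ a, enObs d D.E i g (t a) (c a) ∂qfG (Fin d × Fin ℓ))
  linarith

/-- **[C], one edge, multiset form.**   PLAN: a multiset `s` of cardinality `m` is `Multiset.ofList`, `s.toList.get : Fin m → _`; `(s.map φ).prod = ∏ a, φ (s.toList.get a)` (`List.prod_ofFn`, `List.ofFn_get`, `Multiset.prod_coe`); `gc_edge_tuple`. -/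
theorem gc_edge_one {n : ℕ} (hd : 1 < d) (D : EnData n d ℓ) (hp : |enP d D.E| < 1) (hG : D.G ∈ regularGraphs n d)
    (heig : ∀ j, enA D.G *ᵥ (fun v => D.V v j) = D.lam j • fun v => D.V v j) {w S δ : ℝ} (hw : ∀ j, |D.lam j - D.E| ≤ w) (hw0 : 0 ≤ w) (hw1 : w ≤ 1) (hS : 1 ≤ S) (hV : ∀ v j, |D.V v j| ≤ S)
    {q : ℕ} (hΔ : ∀ m, m ≤ q → ∀ x, |gauDl D.BV m x| ≤ δ) :
    GauEdge d D.G (enP d D.E) D.V q ((d : ℝ) ^ q * δ + q * (2 * S) ^ q * w) := by
  intro s hs
  obtain ⟨l, rfl⟩ := Quot.exists_rep s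
  have hl : l.length ≤ q := by simpa using hs
  have := gc_edge_tuple hd D hp hG heig hw hw0 hw1 hS hV hl (hΔ _ hl) (fun a => (l[a.1]).1) (fun a => (l[a.1]).2)
  have e1 : ∀ v v' : Fin n, ∏ a : Fin l.length, D.V (if (l[a.1]).1 then v' else v) (l[a.1]).2 = (l.map fun x => D.V (if x.1 then v' else v) x.2).prod :=
    fun v v' => Fin.prod_univ_fun_getElem l (fun x => D.V (if x.1 then v' else v) x.2)
  have e2 : ∀ g : Fin 2 × Fin ℓ → ℝ, ∏ a : Fin l.length, gauZ (enP d D.E) g (l[a.1]).1 (l[a.1]).2 = (l.map fun x => gauZ (enP d D.E) g x.1 x.2).prod :=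
    fun g => Fin.prod_univ_fun_getElem l (fun x => gauZ (enP d D.E) g x.1 x.2)
  simp only [e1, e2] at this
  simpa using this

end edge

/-! ## 4. `k` edges -/

section kedge

variable {d ℓ : ℕ}

/-- the letters of the monomial `t` which sit on the edge `e` -/
def gauLet {k ℓ m : ℕ} (t : Fin m → Fin ℓ × Ch k) (e : Fin k) : Multiset (Bool × Fin ℓ) :=
  ((Finset.univ.filter fun a => Sum.elim id id (t a).2 = e).val).map fun a => ((t a).2.isRight, (t a).1)

theorem gauLet_eqns_cite : True := by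
  have := @gauLet.eq_1
  trivial

/-- a monomial, sorted by edges -/
theorem gc_let_prod {k m : ℕ} (t : Fin m → Fin ℓ × Ch k) (φ : Fin k → Bool × Fin ℓ → ℝ) :
    ∏ a, φ (Sum.elim id id (t a).2) ((t a).2.isRight, (t a).1) = ∏ e : Fin k, ((gauLet t e).map (φ e)).prod := by
  rw [← Finset.prod_fiberwise Finset.univ (fun a => Sum.elim id id (t a).2)]
  refine Finset.prod_congr rfl fun e _ => ?_
  unfold gauLet
  rw [Multiset.map_map]
  refine Finset.prod_congr rfl fun a ha => ?_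
  rw [(Finset.mem_filter.1 ha).2]
  rfl

theorem gc_let_card {k m : ℕ} (t : Fin m → Fin ℓ × Ch k) (e : Fin k) : Multiset.card (gauLet t e) ≤ m := by
  unfold gauLet
  rw [Multiset.card_map]
  calc (Finset.univ.filter fun a => Sum.elim id id (t a).2 = e).card ≤ (Finset.univ : Finset (Fin m)).card := Finset.card_filter_le _ _
    _ = m := by simp

/-- the graph side factorises.   PLAN: `∏_a = ∏_e ∏_{a on e}` (`Finset.prod_fiberwise`); the indicator `∀ a, Adj` is `∏_e`; the sum over `(v,w) : (Fin k → Fin n)²` of a product over `e` of functions of `(v e, w e)` is the product of the sums (`Finset.prod_univ_sum`, twice, or via `Fin k → Fin n × Fin n`); `((n d)^k = ∏_e n d`. -/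
theorem gc_factor_graph {n k m : ℕ} (G : SimpleGraph (Fin n)) (V : Fin n → Fin ℓ → ℝ) (t : Fin m → Fin ℓ × Ch k) :
    gauEk d k G (fun v w => ∏ a, V (Sum.elim v w (t a).2) (t a).1)
      = ∏ e : Fin k, gauEd d G fun v w => ((gauLet t e).map fun x => V (if x.1 then w else v) x.2).prod := by
  classical
  have e1 : ∀ v w : Fin k → Fin n, ∏ a, V (Sum.elim v w (t a).2) (t a).1
      = ∏ e : Fin k, ((gauLet t e).map fun x => V (if x.1 then w e else v e) x.2).prod := by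
    intro v w
    rw [← gc_let_prod t (fun e x => V (if x.1 then w e else v e) x.2)]
    refine Finset.prod_congr rfl fun a _ => ?_
    rcases (t a).2 with e | e <;> simp
  unfold gauEk gauEd
  rw [Finset.prod_div_distrib, Finset.prod_const, Finset.card_univ, Fintype.card_fin]
  congr 1
  rw [Finset.prod_univ_sum, Fintype.piFinset_univ]
  refine Finset.sum_congr rfl fun v _ => ?_
  rw [Finset.prod_univ_sum, Fintype.piFinset_univ]
  refine Finset.sum_congr rfl fun w _ => ?_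
  rw [Finset.prod_ite_zero]
  simp only [e1, Finset.mem_univ, forall_true_left]

/-- the coordinates of `k` copies of `ℝ^{2 × ℓ}` are the entries of an `ℓ × 2k` array -/
def gcSig (k ℓ : ℕ) : Fin k × (Fin 2 × Fin ℓ) ≃ Fin ℓ × Ch k where
  toFun x := (x.2.2, if x.2.1 = 0 then Sum.inl x.1 else Sum.inr x.1)
  invFun y := (Sum.elim id id y.2, (if y.2.isRight then 1 else 0, y.1))
  left_inv := by
    rintro ⟨e, b, c⟩
    fin_cases b <;> simp
  right_inv := by
    rintro ⟨c, e | e⟩ <;> simp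

theorem gc_curry_mp (ι κ : Type) [Fintype ι] [Fintype κ] : MeasurePreserving (MeasurableEquiv.curry ι κ ℝ) (qfG (ι × κ)) (gArr ι κ) := by
  refine ⟨(MeasurableEquiv.curry ι κ ℝ).measurable, ?_⟩
  have h := Measure.infinitePi_map_curry (ι := ι) (κ := κ) (X := ℝ) (fun _ _ => gaussianReal 0 1)
  simp only [Measure.infinitePi_eq_pi] at h
  exact h

theorem gc_reindex_mp {α β : Type} [Fintype α] [Fintype β] (σ : α ≃ β) :
    MeasurePreserving (MeasurableEquiv.arrowCongr' σ (MeasurableEquiv.refl ℝ)) (qfG α) (qfG β) :=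
  measurePreserving_arrowCongr' (fun _ => gaussianReal 0 1) (fun _ => gaussianReal 0 1) σ (MeasurableEquiv.refl ℝ) (fun _ => MeasurePreserving.id _)

/-- the rearrangement, as a measurable equivalence -/
noncomputable def gcT (k ℓ : ℕ) : (Fin k → Fin 2 × Fin ℓ → ℝ) ≃ᵐ (Fin ℓ → Ch k → ℝ) :=
  (MeasurableEquiv.curry (Fin k) (Fin 2 × Fin ℓ) ℝ).symm.trans
    ((MeasurableEquiv.arrowCongr' (gcSig k ℓ) (MeasurableEquiv.refl ℝ)).trans (MeasurableEquiv.curry (Fin ℓ) (Ch k) ℝ))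

theorem gcT_eqns_cite : True := by
  have := @gcSig.eq_1
  have := @gcT.eq_1
  trivial

theorem gcT_apply (k ℓ : ℕ) (G : Fin k → Fin 2 × Fin ℓ → ℝ) (c : Fin ℓ) (z : Ch k) :
    gcT k ℓ G c z = G (Sum.elim id id z) (if z.isRight then 1 else 0, c) := rfl

theorem gcT_mp (k ℓ : ℕ) : MeasurePreserving (gcT k ℓ) (Measure.pi fun _ : Fin k => qfG (Fin 2 × Fin ℓ)) (gArr (Fin ℓ) (Ch k)) :=
  ((gc_curry_mp (Fin ℓ) (Ch k)).comp (gc_reindex_mp (gcSig k ℓ))).comp (gc_curry_mp (Fin k) (Fin 2 × Fin ℓ)).symm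

theorem gc_chA_apply {k : ℕ} (p : ℝ) (g : Matrix (Fin ℓ) (Ch k) ℝ) (c : Fin ℓ) (z : Ch k) :
    (g * (chA k p)ᵀ) c z = if z.isRight then p * g c (Sum.inl (Sum.elim id id z)) + √(1 - p ^ 2) * g c (Sum.inr (Sum.elim id id z))
      else g c (Sum.inl (Sum.elim id id z)) := by
  rw [Matrix.mul_apply, Fintype.sum_sum_type]
  rcases z with e | e
  · simp [chA, Matrix.one_apply]
  · simp [chA, Matrix.one_apply, mul_comm]

/-- the Gaussian side factorises.   PLAN: `(g * (chA k p)ᵀ) c (inl e) = g c (inl e)`, `(..) c (inr e) = p g c (inl e) + √(1-p²) g c (inr e)`; the integrand is a product over `e` of functions of the coordinates `(c, inl e), (c, inr e)`;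
`gArr (Fin ℓ) (Ch k)` is a product measure: reindex `Fin ℓ → Ch k → ℝ ≃ Fin k → (Fin 2 × Fin ℓ → ℝ)` (measure preserving: `measurePreserving_piCongrLeft`, `MeasurableEquiv.curry`, `measurePreserving_piEquivPiSubtypeProd`-style; or charFun), `integral_fintype_prod_eq_prod`. -/
theorem gc_factor_gauss {k m : ℕ} (p : ℝ) (t : Fin m → Fin ℓ × Ch k) :
    ∫ g, ∏ a, (g * (chA k p)ᵀ) (t a).1 (t a).2 ∂(gArr (Fin ℓ) (Ch k))
      = ∏ e : Fin k, ∫ g, ((gauLet t e).map fun x => gauZ p g x.1 x.2).prod ∂qfG (Fin 2 × Fin ℓ) := by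
  have h1 : ∀ Φ : Matrix (Fin ℓ) (Ch k) ℝ → ℝ, ∫ g, Φ g ∂(gArr (Fin ℓ) (Ch k)) = ∫ G, Φ (gcT k ℓ G) ∂(Measure.pi fun _ : Fin k => qfG (Fin 2 × Fin ℓ)) :=
    fun Φ => ((gcT_mp k ℓ).integral_comp' Φ).symm
  rw [h1, ← integral_fintype_prod_eq_prod (fun (e : Fin k) (g : Fin 2 × Fin ℓ → ℝ) => ((gauLet t e).map fun x => gauZ p g x.1 x.2).prod)]
  congr 1
  funext G
  rw [← gc_let_prod t (fun e x => gauZ p (G e) x.1 x.2)]
  refine Finset.prod_congr rfl fun a _ => ?_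
  refine (gc_chA_apply p (gcT k ℓ G) (t a).1 (t a).2).trans ?_
  simp only [gauZ, gcT_apply]
  rcases (t a).2 with e | e <;> simp

/-- Gaussian moments are bounded.   PLAN: any bound works; e.g. `|∏| ≤ Σ_letters |Z|^m + 1`, or define the constant as the max over the FINITE set of multisets of cardinality `≤ q` over the finite alphabet (`Multiset` of bounded card over a `Fintype`: use `Sym`), or Hölder. -/
theorem gc_gauss_bd (ℓ q : ℕ) (p : ℝ) : ∃ C : ℝ, 1 ≤ C ∧ ∀ s : Multiset (Bool × Fin ℓ), Multiset.card s ≤ q →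
    |∫ g, (s.map fun x => gauZ p g x.1 x.2).prod ∂qfG (Fin 2 × Fin ℓ)| ≤ C := by
  refine ⟨1 + ∑ m ∈ Finset.range (q + 1), ∑ x : Fin m → Bool × Fin ℓ, |∫ g, ∏ a, gauZ p g (x a).1 (x a).2 ∂qfG (Fin 2 × Fin ℓ)|, ?_, fun s hs => ?_⟩
  · have : 0 ≤ ∑ m ∈ Finset.range (q + 1), ∑ x : Fin m → Bool × Fin ℓ, |∫ g, ∏ a, gauZ p g (x a).1 (x a).2 ∂qfG (Fin 2 × Fin ℓ)| :=
      Finset.sum_nonneg fun m _ => Finset.sum_nonneg fun x _ => abs_nonneg _
    linarith
  · obtain ⟨l, rfl⟩ := Quot.exists_rep s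
    have hl : l.length ≤ q := by simpa using hs
    have e2 : ∀ g : Fin 2 × Fin ℓ → ℝ, ∏ a : Fin l.length, gauZ p g (l[a.1]).1 (l[a.1]).2 = (l.map fun x => gauZ p g x.1 x.2).prod :=
      fun g => Fin.prod_univ_fun_getElem l (fun x => gauZ p g x.1 x.2)
    have h1 : |∫ g, ∏ a : Fin l.length, gauZ p g (l[a.1]).1 (l[a.1]).2 ∂qfG (Fin 2 × Fin ℓ)|
        ≤ ∑ x : Fin l.length → Bool × Fin ℓ, |∫ g, ∏ a, gauZ p g (x a).1 (x a).2 ∂qfG (Fin 2 × Fin ℓ)| :=
      Finset.single_le_sum (f := fun x : Fin l.length → Bool × Fin ℓ => |∫ g, ∏ a, gauZ p g (x a).1 (x a).2 ∂qfG (Fin 2 × Fin ℓ)|)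
        (fun x _ => abs_nonneg _) (Finset.mem_univ fun a : Fin l.length => l[a.1])
    have h2 : ∑ x : Fin l.length → Bool × Fin ℓ, |∫ g, ∏ a, gauZ p g (x a).1 (x a).2 ∂qfG (Fin 2 × Fin ℓ)|
        ≤ ∑ m ∈ Finset.range (q + 1), ∑ x : Fin m → Bool × Fin ℓ, |∫ g, ∏ a, gauZ p g (x a).1 (x a).2 ∂qfG (Fin 2 × Fin ℓ)| :=
      Finset.single_le_sum (f := fun m : ℕ => ∑ x : Fin m → Bool × Fin ℓ, |∫ g, ∏ a, gauZ p g (x a).1 (x a).2 ∂qfG (Fin 2 × Fin ℓ)|)
        (fun m _ => Finset.sum_nonneg fun x _ => abs_nonneg _) (Finset.mem_range.2 (by omega))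
    simp only [e2] at h1
    have h3 := h1.trans h2
    have h4 : |∫ g, (l.map fun x => gauZ p g x.1 x.2).prod ∂qfG (Fin 2 × Fin ℓ)|
        ≤ 1 + ∑ m ∈ Finset.range (q + 1), ∑ x : Fin m → Bool × Fin ℓ, |∫ g, ∏ a, gauZ p g (x a).1 (x a).2 ∂qfG (Fin 2 × Fin ℓ)| := by linarith
    simpa using h4

/-- **`k` edges from one edge.**   PLAN: `gc_factor_graph`, `gc_factor_gauss`; `card (gauLet t e) ≤ m ≤ q`; `gc_prod_sub` with `S = C + 1` (`δ ≤ 1`). -/
theorem gc_factor (ℓ q k : ℕ) (p : ℝ) : ∃ C : ℝ, 0 ≤ C ∧ ∀ (n : ℕ) (G : SimpleGraph (Fin n)) (V : Fin n → Fin ℓ → ℝ) (δ : ℝ), δ ≤ 1 → GauEdge d G p V q δ →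
    ∀ m, m ≤ q → ∀ t : Fin m → Fin ℓ × Ch k,
      |gauEk d k G (fun v w => ∏ a, V (Sum.elim v w (t a).2) (t a).1) - ∫ g, ∏ a, (g * (chA k p)ᵀ) (t a).1 (t a).2 ∂(gArr (Fin ℓ) (Ch k))| ≤ C * δ := by
  obtain ⟨C₀, hC₀, H⟩ := gc_gauss_bd ℓ q p
  refine ⟨k * (C₀ + 1) ^ (k - 1), by positivity, fun n G V δ hδ hE m hm t => ?_⟩
  rw [gc_factor_graph, gc_factor_gauss]
  have hc : ∀ e, Multiset.card (gauLet t e) ≤ q := fun e => (gc_let_card t e).trans hm
  refine gc_prod_sub _ _ (fun e => ?_) (fun e => ?_) (fun e => hE _ (hc e))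
  · have h1 := hE _ (hc e)
    have h2 := H _ (hc e)
    have h3 := abs_sub_abs_le_abs_sub (gauEd d G fun v w => ((gauLet t e).map fun x => V (if x.1 then w else v) x.2).prod)
      (∫ g, ((gauLet t e).map fun x => gauZ p g x.1 x.2).prod ∂qfG (Fin 2 × Fin ℓ))
    linarith
  · exact (H _ (hc e)).trans (by linarith)

end kedge

/-! ## 5. The exit -/

/-- monotonicity of "with high probability" under an implication valid for large `n` -/
theorem gc_whp_mono {d : ℕ} {S S' : (n : ℕ) → Gr n → Prop} (h : RgWhp d S) (N₀ : ℕ) (himp : ∀ n, N₀ ≤ n → ∀ G ∈ regularGraphs n d, S n G → S' n G) : RgWhp d S' := by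
  intro δ hδ
  obtain ⟨N, hN⟩ := h δ hδ
  exact ⟨max N N₀, fun n hn hne => (hN n ((le_max_left _ _).trans hn) hne).trans (rg_P_mono (himp n ((le_max_right _ _).trans hn)))⟩

theorem gc_km_pos (d : ℕ) (hd : 3 ≤ d) (E : ℝ) (hE : |E| < 2 * Real.sqrt ((d : ℝ) - 1)) : 0 < kestenMcKay d E := by
  have hd3 : (3 : ℝ) ≤ d := by exact_mod_cast hd
  have h1 : E ^ 2 < 4 * ((d : ℝ) - 1) := by
    have h0 : (0 : ℝ) ≤ (d : ℝ) - 1 := by linarith
    have := pow_lt_pow_left₀ hE (abs_nonneg E) two_ne_zero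
    rw [sq_abs, mul_pow, Real.sq_sqrt h0] at this
    linarith
  have h2 : 0 < (d : ℝ) ^ 2 - E ^ 2 := by nlinarith
  unfold kestenMcKay
  have h3 : 0 < Real.sqrt (4 * ((d : ℝ) - 1) - E ^ 2) := Real.sqrt_pos.2 (by linarith)
  have : 0 < Real.pi := Real.pi_pos
  positivity

theorem gc_p_bulk (d : ℕ) (hd : 3 ≤ d) (E : ℝ) (hE : |E| < 2 * Real.sqrt ((d : ℝ) - 1)) : (enP d E) ^ 2 < 4 * ((d : ℝ) - 1) / (d : ℝ) ^ 2 := by
  have hd3 : (3 : ℝ) ≤ d := by exact_mod_cast hd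
  have h1 : E ^ 2 < 4 * ((d : ℝ) - 1) := by
    have h0 : (0 : ℝ) ≤ (d : ℝ) - 1 := by linarith
    have := pow_lt_pow_left₀ hE (abs_nonneg E) two_ne_zero
    rw [sq_abs, mul_pow, Real.sq_sqrt h0] at this
    linarith
  unfold enP
  rw [div_pow]
  exact div_lt_div_of_pos_right h1 (by positivity)

theorem EnOut.mono {d ℓ : ℕ} {E : ℝ} {K : Type} [Fintype K] {B : K → Fin d × Fin ℓ → ℝ} {S δ S' δ' : ℝ} {q : ℕ} (h : EnOut d ℓ E B S δ q) (hS : S ≤ S') (hδ : δ ≤ δ') :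
    EnOut d ℓ E B S' δ' q :=
  ⟨fun k x => (h.sup k x).trans hS, h.mean, fun x y => (h.cov x y).trans hδ, fun i m hm t c => (h.rev i m hm t c).trans hδ, fun ε hε i => (h.ent ε hε i).trans hδ⟩

theorem GauHyp.mono_delta {d l q : ℕ} {p : ℝ} {Ω : Type} [Fintype Ω] {B : Ω → Fin d × Fin l → ℝ} {K δ δ' : ℝ} (h : GauHyp d l q p B K δ) (hδ : δ ≤ δ') : GauHyp d l q p B K δ' :=
  ⟨h.bd, fun x => (h.m1 x).trans hδ, fun x y => (h.m2 x y).trans hδ, fun j hj i x => (h.sw j hj i x).trans hδ, fun ε h0 h1 => (h.ent ε h0 h1).trans hδ⟩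

theorem gc_ev_le (a : ℝ) {s : ℝ} (hs : 0 < s) : ∃ N : ℕ, ∀ n : ℕ, N ≤ n → a ≤ (n : ℝ) ^ s := by
  have ht : Filter.Tendsto (fun n : ℕ => (n : ℝ) ^ s) Filter.atTop Filter.atTop := (tendsto_rpow_atTop hs).comp tendsto_natCast_atTop_atTop
  obtain ⟨N, hN⟩ := Filter.eventually_atTop.1 (ht.eventually_ge_atTop a)
  exact ⟨N, hN⟩

/-- **one edge, with high probability** (P1 Prop 3.1 for `k = 1`).
PLAN (exponents).  `γ α c₂` from `gau_import`;  `c, C, n₀` from `en_out` (`EnFix` with `r = π ρ > 0`: `km_pos`-like);  `cs = c/2`;  `c', κ₀, C', N₀` from `gau_G` with `p = E/d` (`p² < 4(d-1)/d²` from the bulk condition);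
`ε₁ = min (α/32) (min (κ₀/2) (min (c/(4(q+1))) (1/(4(q+2)))))`, `C₀` from `gau_import`, `S = C₀ n^{ε₁}`.   For large `n`:  `√(dℓ) C S ≤ n^{κ₀}`;  `(1+2/√(1-p²))^q C n^{-c} S^q ≤ n^{-c/2}`;  `GauHyp.mono` and monotonicity in `δ`;
`gc_edge_one` with `w = n^{-1+2ε₁}`, `δ = C' n^{-c'}`:  error `d^q C' n^{-c'} + q (2 C₀)^q n^{q ε₁ - 1 + 2 ε₁} ≤ C'' n^{-min c' (1/2)}`. -/
theorem gau_edge (d : ℕ) (hd : 3 ≤ d) (E : ℝ) (hE : |E| < 2 * Real.sqrt ((d : ℝ) - 1)) (ℓ q : ℕ) :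
    ∃ ε₁ c C : ℝ, 0 < ε₁ ∧ 0 < c ∧ RgWhp d fun n G => ∀ (V : Fin n → Fin ℓ → ℝ) (lam : Fin ℓ → ℝ), GauBand G E ((n : ℝ) ^ (-1 + 2 * ε₁)) V lam →
      GauEdge d G (E / d) V q (C * (n : ℝ) ^ (-c)) := by
  have hd1 : 1 < d := by omega
  obtain ⟨γ, α, c₂, hP, himp⟩ := gau_import d hd E hE ℓ
  have hr : 0 < Real.pi * kestenMcKay d E := mul_pos Real.pi_pos (gc_km_pos d hd E hE)
  have hF : EnFix d E (Real.pi * kestenMcKay d E) := ⟨hd, hE, hr⟩
  obtain ⟨c, C, n₀, hc, hout⟩ := en_out hF hP q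
  have hp := gc_p_bulk d hd E hE
  have hp1 : |enP d E| < 1 := gau_p_lt_one hd hp
  obtain ⟨c', κ₀, C', N₀, hc', hκ₀, hG⟩ := gau_G hd hp ℓ q (cs := c / 2) (by positivity)
  have hq0 : (0 : ℝ) ≤ q := by positivity
  set ε₁ : ℝ := min (α / 32) (min (κ₀ / 2) (min (c / (4 * (q + 1))) (1 / (4 * (q + 2))))) with hε₁def
  have hα0 := hP.α0
  have hε₁ : 0 < ε₁ := lt_min (by positivity) (lt_min (by positivity) (lt_min (by positivity) (by positivity)))
  have hε₁α : ε₁ ≤ α / 32 := min_le_left _ _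
  have hε₁κ : ε₁ ≤ κ₀ / 2 := (min_le_right _ _).trans (min_le_left _ _)
  have hε₁c : q * ε₁ ≤ c / 4 := by
    have h1 : ε₁ ≤ c / (4 * (q + 1)) := (min_le_right _ _).trans ((min_le_right _ _).trans (min_le_left _ _))
    have h2 : (q : ℝ) * (c / (4 * (q + 1))) ≤ c / 4 := by
      rw [mul_div_assoc', div_le_div_iff₀ (by positivity) (by norm_num)]
      nlinarith
    exact (mul_le_mul_of_nonneg_left h1 hq0).trans h2
  have hε₁q : (q + 2) * ε₁ ≤ 1 / 4 := by
    have h1 : ε₁ ≤ 1 / (4 * (q + 2)) := (min_le_right _ _).trans ((min_le_right _ _).trans (min_le_right _ _))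
    calc ((q : ℝ) + 2) * ε₁ ≤ (q + 2) * (1 / (4 * (q + 2))) := mul_le_mul_of_nonneg_left h1 (by positivity)
      _ = 1 / 4 := by field_simp
  obtain ⟨C₀, hC₀1, hwhp⟩ := himp ε₁ hε₁ hε₁α
  set Kq : ℝ := (1 + 2 / √(1 - enP d E ^ 2)) ^ q with hKq
  have hKq0 : 0 ≤ Kq := by positivity
  obtain ⟨N1, hN1⟩ := gc_ev_le (√((d * ℓ : ℕ) : ℝ) * (|C| * C₀)) (s := κ₀ / 2) (by positivity)
  obtain ⟨N2, hN2⟩ := gc_ev_le (Kq * (|C| * C₀ ^ q)) (s := c / 4) (by positivity)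
  obtain ⟨N3, hN3⟩ := exists_nat_ge N₀
  refine ⟨ε₁, min c' (1 / 2), (d : ℝ) ^ q * |C'| + q * (2 * C₀) ^ q, hε₁, lt_min hc' (by norm_num),
    gc_whp_mono hwhp (max (max N1 N2) (max (max N3 n₀) 1)) fun n hn G _ hS V lam hB => ?_⟩
  have hnN1 : N1 ≤ n := le_trans (by simp) hn
  have hnN2 : N2 ≤ n := le_trans (by simp) hn
  have hnN3 : N3 ≤ n := le_trans (by simp) hn
  have hnn₀ : n₀ ≤ n := le_trans (by simp) hn
  have hn1 : 1 ≤ n := le_trans (by simp) hn
  have hnR1 : (1 : ℝ) ≤ n := by exact_mod_cast hn1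
  have hnR0 : (0 : ℝ) < n := by linarith
  have hpos : ∀ a : ℝ, 0 < (n : ℝ) ^ a := fun a => Real.rpow_pos_of_pos hnR0 a
  obtain ⟨hsup, D, rfl, rfl, rfl, hDE, hDr, hOk⟩ := hS V lam hB
  set S : ℝ := C₀ * (n : ℝ) ^ ε₁ with hSdef
  have hS1 : 1 ≤ S := by
    have : 1 ≤ (n : ℝ) ^ ε₁ := Real.one_le_rpow hnR1 hε₁.le
    nlinarith
  have hS0 : 0 ≤ S := by linarith
  have hO := hout n hnn₀ D hDE hDr hOk S hS1 hsup
  have hSq0 : 0 ≤ S ^ q := by positivity
  have hO' : EnOut d ℓ E D.BV (|C| * S) (|C| * (n : ℝ) ^ (-c) * S ^ q) q :=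
    hO.mono (mul_le_mul_of_nonneg_right (le_abs_self C) hS0)
      (mul_le_mul_of_nonneg_right (mul_le_mul_of_nonneg_right (le_abs_self C) (hpos _).le) hSq0)
  have : Nonempty (EnLoc D.G d) := gc_star_nonempty (by omega) hOk.reg
  have hH := gau_of_out hd1 hp1 (by positivity) hO'
  -- the two bounds
  have hK : √((d * ℓ : ℕ) : ℝ) * (|C| * S) ≤ (n : ℝ) ^ κ₀ := by
    have h1 := hN1 n hnN1
    calc √((d * ℓ : ℕ) : ℝ) * (|C| * S) = √((d * ℓ : ℕ) : ℝ) * (|C| * C₀) * (n : ℝ) ^ ε₁ := by rw [hSdef]; ring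
      _ ≤ (n : ℝ) ^ (κ₀ / 2) * (n : ℝ) ^ (κ₀ / 2) :=
        mul_le_mul h1 (Real.rpow_le_rpow_of_exponent_le hnR1 hε₁κ) (hpos _).le (hpos _).le
      _ = (n : ℝ) ^ κ₀ := by rw [← Real.rpow_add hnR0]; congr 1; ring
  have hSq : S ^ q = C₀ ^ q * (n : ℝ) ^ (q * ε₁) := by
    rw [hSdef, mul_pow, ← Real.rpow_natCast ((n : ℝ) ^ ε₁) q, ← Real.rpow_mul hnR0.le, mul_comm ε₁]
  have hδ : Kq * (|C| * (n : ℝ) ^ (-c) * S ^ q) ≤ (n : ℝ) ^ (-(c / 2)) := by
    have h2 := hN2 n hnN2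
    calc Kq * (|C| * (n : ℝ) ^ (-c) * S ^ q) = Kq * (|C| * C₀ ^ q) * ((n : ℝ) ^ (-c) * (n : ℝ) ^ (q * ε₁)) := by rw [hSq]; ring
      _ ≤ (n : ℝ) ^ (c / 4) * ((n : ℝ) ^ (-c) * (n : ℝ) ^ (c / 4)) := by
        refine mul_le_mul h2 ?_ (by have := hpos (-c); have := hpos (q * ε₁); positivity) (hpos _).le
        exact mul_le_mul_of_nonneg_left (Real.rpow_le_rpow_of_exponent_le hnR1 hε₁c) (hpos _).le
      _ = (n : ℝ) ^ (-(c / 2)) := by rw [← Real.rpow_add hnR0, ← Real.rpow_add hnR0]; congr 1; ring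
  have hH' : GauHyp d ℓ q (enP d E) D.BV ((n : ℝ) ^ κ₀) ((n : ℝ) ^ (-(c / 2))) :=
    (hH.mono (by positivity) hK).mono_delta hδ
  have hΔ := hG (n : ℝ) (hN3.trans (by exact_mod_cast hnN3)) (EnLoc D.G d) D.BV hH'
  have hε₁8 : 2 * ε₁ ≤ 1 / 4 := by
    have : 2 * ε₁ ≤ (q + 2) * ε₁ := mul_le_mul_of_nonneg_right (by linarith) hε₁.le
    linarith
  have hw1 : (n : ℝ) ^ (-1 + 2 * ε₁) ≤ 1 := Real.rpow_le_one_of_one_le_of_nonpos hnR1 (by linarith)
  have hedge := gc_edge_one hd1 D (by rw [hDE]; exact hp1) hOk.reg hOk.eig (w := (n : ℝ) ^ (-1 + 2 * ε₁)) (S := S) (δ := C' * (n : ℝ) ^ (-c')) (q := q)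
    (by rw [hDE]; exact hB.band) (hpos _).le hw1 hS1 hsup hΔ
  rw [hDE] at hedge
  intro s hs
  refine (hedge s hs).trans ?_
  -- the final bound
  have hm1 : (n : ℝ) ^ (-c') ≤ (n : ℝ) ^ (-(min c' (1 / 2))) := Real.rpow_le_rpow_of_exponent_le hnR1 (by have := min_le_left c' (1 / 2 : ℝ); linarith)
  have t1 : (d : ℝ) ^ q * (C' * (n : ℝ) ^ (-c')) ≤ (d : ℝ) ^ q * |C'| * (n : ℝ) ^ (-(min c' (1 / 2))) := by
    calc (d : ℝ) ^ q * (C' * (n : ℝ) ^ (-c')) ≤ (d : ℝ) ^ q * (|C'| * (n : ℝ) ^ (-(min c' (1 / 2)))) := by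
          refine mul_le_mul_of_nonneg_left ?_ (by positivity)
          exact mul_le_mul (le_abs_self _) hm1 (hpos _).le (abs_nonneg _)
      _ = _ := by ring
  have t2 : (q : ℝ) * (2 * S) ^ q * (n : ℝ) ^ (-1 + 2 * ε₁) ≤ q * (2 * C₀) ^ q * (n : ℝ) ^ (-(min c' (1 / 2))) := by
    have e1 : (2 * S) ^ q = (2 * C₀) ^ q * (n : ℝ) ^ (q * ε₁) := by rw [mul_pow, hSq, mul_pow]; ring
    calc (q : ℝ) * (2 * S) ^ q * (n : ℝ) ^ (-1 + 2 * ε₁) = q * (2 * C₀) ^ q * ((n : ℝ) ^ (q * ε₁) * (n : ℝ) ^ (-1 + 2 * ε₁)) := by rw [e1]; ring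
      _ ≤ q * (2 * C₀) ^ q * (n : ℝ) ^ (-(min c' (1 / 2))) := by
        refine mul_le_mul_of_nonneg_left ?_ (mul_nonneg hq0 (pow_nonneg (by linarith) _))
        rw [← Real.rpow_add hnR0]
        refine Real.rpow_le_rpow_of_exponent_le hnR1 ?_
        have := min_le_right c' (1 / 2 : ℝ)
        have e2 : (q : ℝ) * ε₁ + (-1 + 2 * ε₁) = (q + 2) * ε₁ - 1 := by ring
        rw [e2]
        linarith
  rw [add_mul]
  exact add_le_add t1 t2

/-- **EXIT P31 = P1 Prop 3.1** (import I2 of the unit S4). -/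
theorem gau_P31 (d : ℕ) (hd : 3 ≤ d) (E : ℝ) (hE : |E| < 2 * Real.sqrt ((d : ℝ) - 1)) (k ℓ q : ℕ) :
    ∃ ε₁ c C : ℝ, 0 < ε₁ ∧ 0 < c ∧ RgWhp d fun n G => ∀ (V : Fin n → Fin ℓ → ℝ) (lam : Fin ℓ → ℝ), GauBand G E ((n : ℝ) ^ (-1 + 2 * ε₁)) V lam →
      ∀ m, m ≤ q → ∀ t : Fin m → Fin ℓ × Ch k,
        |gauEk d k G (fun v w => ∏ a, V (Sum.elim v w (t a).2) (t a).1) - ∫ g, ∏ a, (g * (chA k (E / d))ᵀ) (t a).1 (t a).2 ∂(gArr (Fin ℓ) (Ch k))|
          ≤ C * (n : ℝ) ^ (-c) := by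
  obtain ⟨ε₁, c, C, hε₁, hc, h⟩ := gau_edge d hd E hE ℓ q
  obtain ⟨C₂, hC₂, h₂⟩ := gc_factor (d := d) ℓ q k (E / d)
  -- for large `n`: `C n^-c ≤ 1`
  obtain ⟨N₀, hN₀⟩ : ∃ N₀ : ℕ, ∀ n : ℕ, N₀ ≤ n → C * (n : ℝ) ^ (-c) ≤ 1 := by
    have ht : Filter.Tendsto (fun n : ℕ => C * (n : ℝ) ^ (-c)) Filter.atTop (nhds (C * 0)) :=
      ((tendsto_rpow_neg_atTop hc).comp tendsto_natCast_atTop_atTop).const_mul C
    rw [mul_zero] at ht
    have := (tendsto_order.1 ht).2 1 one_pos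
    obtain ⟨N₀, hN₀⟩ := Filter.eventually_atTop.1 this
    exact ⟨N₀, fun n hn => (hN₀ n hn).le⟩
  refine ⟨ε₁, c, C₂ * C, hε₁, hc, gc_whp_mono h N₀ fun n hn G _ hS V lam hB m hm t => ?_⟩
  have := h₂ n G V _ (hN₀ n hn) (hS V lam hB) m hm t
  rwa [← mul_assoc] at this

end Claimed.Agent.R287
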