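-- KEEP
import Claimed.Agent.R287.Defs
import Claimed.Agent.R287.ResB
import Claimed.Agent.R286.Base.Kit

/-!
# Row 287 (S0534), unit GOE, block G1: OPTIMAL-SCALE LOCAL LAW FOR GOE BY STEIN MOMENTS      (architect + prover helper273; head of the unit helper250; prefix `g1_`, `g1`)

## WRITTEN PROOF (all quantifiers).
`H` = GOE_n of the frozen statement (`goeMatrix x`, `x ~ goeArray n`: variance `1/n` off the diagonal, `2/n` on it), `z = E + iη`, `η > 0`, `G = (H - z)⁻¹ = rsG H z`, `m = n⁻¹ Tr G`, `P = 1 + z m + m²`, `u = n η`.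
**(S) Stein identity.**   `(H - z) G = 1` gives `1 + z m = n⁻¹ ∑_{ij} H_ij G_ji`.   For the coordinate `q = (min i j, max i j)` Gaussian integration by parts reads `E[H_ij ψ] = n⁻¹ E[D_ij ψ]`, `D_ij` = derivative in the
direction `E_ij + E_ji` (diagonal: variance `2/n` times the direction `E_ii`).   `D_ij G = - G (E_ij + E_ji) G`: `D_ij G_ji = - G_ji² - G_jj G_ii`, `D_ij m = -(2/n) (G²)_ij`.   Summing over ALL ordered pairs, for `F = F(P)`: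
    `E[P F] = - n⁻² E[Tr G² F] + n⁻² ∑_{ij} E[G_ji D_ij F]`.
**(W) Ward.**   `∑ |G_ij|² = n Im m / η`, `|Tr G²| ≤ n Im m / η`, `∑ |(G²)_ij|² ≤ 2 η⁻² ∑ |G_ij|²` (`ℓ²` bound of `G` on the real and imaginary parts of the columns), so `∑ |G_ij| |(G²)_ij| ≤ 2 n Im m / η²`.
**(M) moment inequality.**   `F = conj(P)^p P^(p-1)`: `P F = |P|^{2p}`, `|F| = |P|^{2p-1}`, `|D_ij F| ≤ (2p-1) |P|^{2p-2} |z + 2m| (2/n) |(G²)_ij|`:
    `E|P|^{2p} ≤ u⁻¹ E[Im m |P|^{2p-1}] + 4 (2p-1) u⁻² E[Im m |z + 2m| |P|^{2p-2}]`.          (everything is bounded: `|G_ij| ≤ 1/η`; no a-priori event, no descent)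
**(C) closing.**   `|z| ≤ 2`: `|m|² ≤ |P| + 1 + 2|m|` gives `|m| ≤ 4 + |P|`.   With `X = |P|`: the right side is `≤ E[u⁻¹ (4+X) X^{2p-1} + c u⁻² (4+X)(10+2X) X^{2p-2}]`, `c = 4(2p-1)`, and POINTWISE, for `u ≥ u₀(p)`,
this integrand is `≤ X^{2p}/2 + C_p u^{-2p}` (`a X^{2p-1} ≤ X^{2p}/8 + 8^{2p-1} a^{2p}`, `b X^{2p-2} ≤ X^{2p}/8 + 8^{p-1} b^p`).   Hence **`E|P|^{2p} ≤ 2 C_p u^{-2p}`** for all `n ≥ 1`, `|z| ≤ 2`, `n Im z ≥ u₀(p)`.
**(St) stability at the centre of the bulk, no `m_sc`.**   `P = (m - i)(m + i) + z m`, `|m + i| ≥ 1 + Im m ≥ 1`:  `|m - i| ≤ |P| + |z| |m| ≤ (1 + |z|)|P| + 4|z|`.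
**(Pr) micro-coordinates.**   `x_j = n λ_j/(π ρ)`, `w = e + iu`, `z = π ρ w / n → 0`:  `S_n(w) = ∑_j 1/(x_j - w) = π ρ m(z)`, `n Im z = π ρ u`;  Markov with `2p(1-ξ) ≥ D`:
    `∀ ξ < 1, D  ∃ C, u₀  ∀ e, ∀ u ≥ u₀, ∀ᶠ n:  P(|S_n(e+iu) - iπρ| > u^{-ξ}) ≤ C u^{-D}`          (`C, u₀` do not depend on `e`; the threshold in `n` does).

## STATUS 06:15Z: THE WHOLE FILE IS PROVED (0 sorry; leaves by helper51, helper215; Stein block and exits by helper273).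
## EXITS: `g1_moment` (finite `n`, all `|z| ≤ 2`), `g1_stab` (deterministic), `g1_prob` (micro-coordinates).      Gaussian IBP = `sk_b_ibp_pi` (`R286/Base/Kit.lean`, proved); resolvent kit = helper240 (`Res.lean`, `ResB.lean`, proved).
-/

set_option autoImplicit false

namespace Claimed.Agent.R287

open MeasureTheory ProbabilityTheory Matrix Filter Topology Claims.C0462

/-! ## 0. definitions -/

/-- index set of the frozen array -/
abbrev G1I (n : ℕ) := Fin n × Fin n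

/-- standard deviations of the frozen array -/
noncomputable def g1s (n : ℕ) (q : G1I n) : ℝ := Real.sqrt (if q.1 = q.2 then 2 / (n : ℝ) else 1 / (n : ℝ))

/-- the standard Gaussian array -/
noncomputable def g1Ga (n : ℕ) : Measure (G1I n → ℝ) := Measure.pi fun _ => gaussianReal 0 1

/-- GOE as a function of the standard array -/
noncomputable def g1H {n : ℕ} (g : G1I n → ℝ) : Matrix (Fin n) (Fin n) ℝ := goeMatrix fun q => g1s n q * g q

/-- `m = n⁻¹ Tr G` -/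
noncomputable def g1m {n : ℕ} (A : Matrix (Fin n) (Fin n) ℝ) (z : ℂ) : ℂ := (n : ℂ)⁻¹ * (rsG A z).trace

/-- `P = 1 + z m + m²` -/
noncomputable def g1P {n : ℕ} (A : Matrix (Fin n) (Fin n) ℝ) (z : ℂ) : ℂ := 1 + z * g1m A z + g1m A z ^ 2

/-- the direction `E_ij + E_ji` -/
def g1B {n : ℕ} (i j : Fin n) : Matrix (Fin n) (Fin n) ℝ := Matrix.single i j 1 + Matrix.single j i 1

/-- `F(P) = conj(P)^p P^(p-1)` -/
noncomputable def g1F (p : ℕ) (P : ℂ) : ℂ := (starRingEnd ℂ) P ^ p * P ^ (p - 1)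

/-- the derivative of `F` at `P` in the direction `P'` -/
noncomputable def g1F' (p : ℕ) (P P' : ℂ) : ℂ :=
  ((p : ℂ) * (starRingEnd ℂ) P ^ (p - 1) * (starRingEnd ℂ) P') * P ^ (p - 1)
    + (starRingEnd ℂ) P ^ p * (((p - 1 : ℕ) : ℂ) * P ^ (p - 1 - 1) * P')

theorem g1_eqns_cite : True := by
  have := @g1s.eq_1
  have := @g1Ga.eq_1
  have := @g1H.eq_1
  have := @g1m.eq_1
  have := @g1P.eq_1
  have := @g1B.eq_1
  have := @g1F.eq_1
  have := @g1F'.eq_1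
  trivial

/-! ## 1. the law -/

/-- LEAF A1: the frozen array is the scaled standard array (`gaussianReal_map_const_mul`, `Measure.pi_map_pi`) -/
theorem g1_law (n : ℕ) (hn : 1 ≤ n) : goeArray n = (g1Ga n).map fun g q => g1s n q * g q := by
  unfold goeArray g1Ga
  rw [Measure.pi_map_pi (fun q => (measurable_const_mul _).aemeasurable)]
  congr 1
  funext q
  rw [gaussianReal_map_const_mul]
  congr 1
  · simp
  · ext
    simp only [mul_one, NNReal.coe_mk, g1s]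
    rw [Real.sq_sqrt (by split_ifs <;> positivity)]
    split_ifs <;> simp

/-- LEAF A2 -/
theorem g1_int_eq (n : ℕ) (hn : 1 ≤ n) (f : Matrix (Fin n) (Fin n) ℝ → ℝ) (hf : Continuous fun x : G1I n → ℝ => f (goeMatrix x)) :
    ∫ x, f (goeMatrix x) ∂(goeArray n) = ∫ g, f (g1H g) ∂(g1Ga n) := by
  rw [g1_law n hn, integral_map]
  · rfl
  · exact (measurable_pi_lambda _ fun q => (measurable_pi_apply q).const_mul _).aemeasurable
  · exact hf.aestronglyMeasurable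

/-! ## 2. the matrix as a function of the array -/

theorem g1_H_apply {n : ℕ} (g : G1I n → ℝ) (i j : Fin n) : g1H g i j = g1s n (min i j, max i j) * g (min i j, max i j) := rfl

/-- LEAF B1 -/
theorem g1_H_herm {n : ℕ} (g : G1I n → ℝ) : (g1H g).IsHermitian := by
  ext i j
  simp only [conjTranspose_apply, star_trivial, g1_H_apply, min_comm, max_comm]

/-- LEAF B2: linearity along a coordinate -/
theorem g1_H_add {n : ℕ} (g : G1I n → ℝ) (q : G1I n) (t : ℝ) :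
    g1H (g + t • Pi.single q (1 : ℝ)) = g1H g + (t * g1s n q) • goeMatrix (Pi.single q (1 : ℝ)) := by
  ext i j
  simp only [g1_H_apply, Matrix.add_apply, Matrix.smul_apply, goeMatrix, Pi.add_apply, Pi.smul_apply, smul_eq_mul]
  by_cases h : (min i j, max i j) = q
  · rw [h]; simp; ring
  · rw [Pi.single_eq_of_ne h]; ring

/-- LEAF B3: variance times direction: `(1/n)(E_ij + E_ji)` in BOTH cases `i ≠ j`, `i = j` -/
theorem g1_dir {n : ℕ} (hn : 1 ≤ n) (i j : Fin n) :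
    (g1s n (min i j, max i j) ^ 2) • goeMatrix (Pi.single (min i j, max i j) (1 : ℝ)) = (1 / (n : ℝ)) • g1B i j := by
  have hs : g1s n (min i j, max i j) ^ 2 = if i = j then 2 / (n : ℝ) else 1 / (n : ℝ) := by
    unfold g1s
    rw [Real.sq_sqrt (by split_ifs <;> positivity)]
    have : (min i j = max i j) ↔ i = j := inf_eq_sup
    simp only [this]
  rw [hs]
  ext a b
  simp only [Matrix.smul_apply, goeMatrix, g1B, Matrix.add_apply, Matrix.single_apply, smul_eq_mul, Pi.single_apply, Prod.mk.injEq]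
  have key : (min a b = min i j ∧ max a b = max i j) ↔ ((i = a ∧ j = b) ∨ (j = a ∧ i = b)) := by
    constructor
    · rintro ⟨h1, h2⟩
      rcases le_total a b with hab | hab <;> rcases le_total i j with hij | hij <;>
        simp only [min_eq_left, min_eq_right, max_eq_left, max_eq_right, hab, hij] at h1 h2 <;> simp [h1, h2]
    · rintro (⟨rfl, rfl⟩ | ⟨rfl, rfl⟩)
      · exact ⟨rfl, rfl⟩
      · exact ⟨min_comm _ _, max_comm _ _⟩
  simp only [key]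
  by_cases hij : i = j
  · subst hij
    by_cases h : i = a ∧ i = b
    · rw [if_pos rfl, if_pos (Or.inl h), if_pos h]; ring
    · rw [if_pos rfl, if_neg (fun h' : i = a ∧ i = b ∨ i = a ∧ i = b => h (h'.elim id id)), if_neg h]; ring
  · rw [if_neg hij]
    by_cases h1 : i = a ∧ j = b
    · have h2 : ¬ (j = a ∧ i = b) := by
        rintro ⟨h3, _⟩; exact hij (h1.1.trans h3.symm)
      rw [if_pos (Or.inl h1), if_pos h1, if_neg h2]; ring
    · by_cases h2 : j = a ∧ i = b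
      · rw [if_pos (Or.inr h2), if_neg h1, if_pos h2]; ring
      · rw [if_neg (fun h' => h'.elim h1 h2), if_neg h1, if_neg h2]; ring

theorem g1_B_herm {n : ℕ} (i j : Fin n) : (g1B i j).IsHermitian := by
  unfold g1B Matrix.IsHermitian
  rw [conjTranspose_add, conjTranspose_single, conjTranspose_single, star_one, add_comm]

/-! ## 3. resolvent calculus -/

section rcalc

variable {n : ℕ} {z : ℂ}

/-- LEAF C1 (from `rs_res_A`, `rs_G_le`) -/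
theorem g1_G_lip {A B : Matrix (Fin n) (Fin n) ℝ} (hA : A.IsHermitian) (hB : B.IsHermitian) (hz : 0 < z.im) (x y : Fin n) :
    ‖rsG A z x y - rsG B z x y‖ ≤ (∑ a, ∑ b, |B a b - A a b|) / z.im ^ 2 := by
  have e : rsG A z x y - rsG B z x y = (rsG A z * rsC (B - A) * rsG B z) x y := by
    rw [← rs_res_A hA hB hz.ne']; rfl
  rw [e, Matrix.mul_apply]
  simp only [Matrix.mul_apply, Finset.sum_mul]
  rw [Finset.sum_comm, Finset.sum_div]
  refine (norm_sum_le _ _).trans (Finset.sum_le_sum fun a _ => ?_)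
  rw [Finset.sum_div]
  refine (norm_sum_le _ _).trans (Finset.sum_le_sum fun b _ => ?_)
  rw [norm_mul, norm_mul, rs_C_apply, Complex.norm_real, Real.norm_eq_abs, Matrix.sub_apply]
  have h1 := rs_G_le hA hz x a
  have h2 := rs_G_le hB hz b y
  have h3 : ‖rsG A z x a‖ * |B a b - A a b| * ‖rsG B z b y‖ ≤ 1 / z.im * |B a b - A a b| * (1 / z.im) :=
    mul_le_mul (mul_le_mul_of_nonneg_right h1 (abs_nonneg _)) h2 (norm_nonneg _) (by positivity)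
  refine h3.trans (le_of_eq ?_)
  field_simp

/-- LEAF C2 -/
theorem g1_G_cont (hz : 0 < z.im) (x y : Fin n) : Continuous fun g : G1I n → ℝ => rsG (g1H g) z x y := by
  rw [continuous_iff_continuousAt]
  intro g0
  unfold ContinuousAt
  rw [tendsto_iff_norm_sub_tendsto_zero]
  have hb : ∀ g : G1I n → ℝ, ‖rsG (g1H g) z x y - rsG (g1H g0) z x y‖ ≤ (∑ a, ∑ b, |g1H g0 a b - g1H g a b|) / z.im ^ 2 :=
    fun g => g1_G_lip (g1_H_herm g) (g1_H_herm g0) hz x y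
  have hc : Continuous fun g : G1I n → ℝ => (∑ a, ∑ b, |g1H g0 a b - g1H g a b|) / z.im ^ 2 := by
    refine Continuous.div_const ?_ _
    refine continuous_finsetSum _ fun a _ => continuous_finsetSum _ fun b _ => ?_
    refine (continuous_const.sub ?_).abs
    simp only [g1_H_apply]
    exact continuous_const.mul (continuous_apply _)
  have h0 : Tendsto (fun g : G1I n → ℝ => (∑ a, ∑ b, |g1H g0 a b - g1H g a b|) / z.im ^ 2) (𝓝 g0) (𝓝 0) := by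
    have := hc.tendsto g0
    simpa using this
  exact squeeze_zero (fun g => norm_nonneg _) hb h0

/-- LEAF C3: `d/dt G(A + tB) = - G B G` (from `rs_res_A` and C1) -/
theorem g1_G_deriv {A B : Matrix (Fin n) (Fin n) ℝ} (hA : A.IsHermitian) (hB : B.IsHermitian) (hz : 0 < z.im) (x y : Fin n) :
    HasDerivAt (fun t : ℝ => rsG (A + t • B) z x y) (-(rsG A z * rsC B * rsG A z) x y) 0 := by
  have hAt : ∀ t : ℝ, (A + t • B).IsHermitian := fun t => by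
    refine hA.add ?_
    unfold Matrix.IsHermitian
    rw [conjTranspose_smul, hB.eq, star_trivial]
  -- continuity of the entries at `t = 0`
  have hcont : ∀ a b : Fin n, Tendsto (fun t : ℝ => rsG (A + t • B) z a b) (𝓝 0) (𝓝 (rsG A z a b)) := by
    intro a b
    rw [tendsto_iff_norm_sub_tendsto_zero]
    have hb : ∀ t : ℝ, ‖rsG (A + t • B) z a b - rsG A z a b‖ ≤ |t| * ((∑ c, ∑ d, |B c d|) / z.im ^ 2) := by
      intro t
      refine (g1_G_lip (hAt t) hA hz a b).trans (le_of_eq ?_)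
      rw [mul_div_assoc', Finset.mul_sum]
      congr 1
      refine Finset.sum_congr rfl fun c _ => ?_
      rw [Finset.mul_sum]
      refine Finset.sum_congr rfl fun d _ => ?_
      simp [Matrix.add_apply, Matrix.smul_apply, abs_mul]
    have h0 : Tendsto (fun t : ℝ => |t| * ((∑ c, ∑ d, |B c d|) / z.im ^ 2)) (𝓝 0) (𝓝 0) := by
      have : Continuous fun t : ℝ => |t| * ((∑ c, ∑ d, |B c d|) / z.im ^ 2) := continuous_abs.mul continuous_const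
      simpa using this.tendsto 0
    exact squeeze_zero (fun t => norm_nonneg _) hb h0
  rw [hasDerivAt_iff_tendsto_slope]
  have hsl : ∀ t : ℝ, t ≠ 0 → slope (fun t : ℝ => rsG (A + t • B) z x y) 0 t = -(rsG (A + t • B) z * rsC B * rsG A z) x y := by
    intro t ht
    have e : rsG (A + t • B) z x y - rsG A z x y = (rsG (A + t • B) z * rsC (A - (A + t • B)) * rsG A z) x y := by
      rw [← rs_res_A (hAt t) hA hz.ne']; rfl
    have e2 : rsC (A - (A + t • B)) = (-(t : ℂ)) • rsC B := by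
      ext c d
      simp [Matrix.smul_apply]
    rw [slope_def_module]
    simp only [zero_smul, add_zero, sub_zero]
    rw [e, e2, Matrix.mul_smul, Matrix.smul_mul, Matrix.smul_apply, smul_eq_mul, Complex.real_smul]
    have : (t : ℂ) ≠ 0 := by exact_mod_cast ht
    push_cast
    field_simp
  have hlim : Tendsto (fun t : ℝ => -(rsG (A + t • B) z * rsC B * rsG A z) x y) (𝓝 0) (𝓝 (-(rsG A z * rsC B * rsG A z) x y)) := by
    refine Tendsto.neg ?_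
    simp only [Matrix.mul_apply]
    refine tendsto_finsetSum _ fun b _ => Tendsto.mul_const _ ?_
    exact tendsto_finsetSum _ fun a _ => (hcont x a).mul_const _
  refine (hlim.mono_left nhdsWithin_le_nhds).congr' ?_
  filter_upwards [self_mem_nhdsWithin] with t ht
  exact (hsl t ht).symm

/-- LEAF C4 -/
theorem g1_GBG (G : Matrix (Fin n) (Fin n) ℂ) (i j a b : Fin n) :
    (G * rsC (g1B i j) * G) a b = G a i * G j b + G a j * G i b := by
  have e : rsC (g1B i j) = Matrix.single i j (1 : ℂ) + Matrix.single j i (1 : ℂ) := by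
    ext x y
    simp only [rs_C_apply, g1B, Matrix.add_apply, Matrix.single_apply]
    split_ifs <;> simp
  have key : ∀ i j : Fin n, (G * Matrix.single i j (1 : ℂ) * G) a b = G a i * G j b := by
    intro i j
    rw [Matrix.mul_apply, Finset.sum_eq_single j]
    · rw [Matrix.mul_single_apply_same, mul_one]
    · intro x _ hx
      rw [Matrix.mul_single_apply_of_ne (hbj := hx), zero_mul]
    · simp
  rw [e, Matrix.mul_add, Matrix.add_mul, Matrix.add_apply, key, key]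

end rcalc

/-! ## 4. Ward -/

theorem g1_m_im {n : ℕ} (A : Matrix (Fin n) (Fin n) ℝ) (z : ℂ) : (g1m A z).im = (n : ℝ)⁻¹ * (rsG A z).trace.im := by
  unfold g1m
  rw [show ((n : ℂ)⁻¹) = (((n : ℝ)⁻¹ : ℝ) : ℂ) by push_cast; rfl, Complex.im_ofReal_mul]

theorem g1_m_im_eq {n : ℕ} (A : Matrix (Fin n) (Fin n) ℝ) (z : ℂ) : (n : ℝ) * (g1m A z).im = (rsG A z).trace.im := by
  rw [g1_m_im]
  rcases Nat.eq_zero_or_pos n with h | h
  · subst h
    simp [Matrix.trace]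
  · have : (n : ℝ) ≠ 0 := by positivity
    field_simp

section ward

variable {n : ℕ} {A : Matrix (Fin n) (Fin n) ℝ} (hA : A.IsHermitian) {z : ℂ} (hz : 0 < z.im)

include hA hz

/-- LEAF W0 -/
theorem g1_m_im_nonneg : 0 ≤ (g1m A z).im := by
  rw [g1_m_im]
  refine mul_nonneg (by positivity) ?_
  rw [Matrix.trace, Complex.im_sum]
  exact Finset.sum_nonneg fun x _ => (rs_G_im_pos hA hz x).le

/-- LEAF W1 -/
theorem g1_m_le : ‖g1m A z‖ ≤ 1 / z.im := by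
  unfold g1m
  rw [norm_mul, norm_inv, Complex.norm_natCast]
  have h1 : ‖(rsG A z).trace‖ ≤ n * (1 / z.im) := by
    rw [Matrix.trace]
    calc ‖∑ i, (rsG A z).diag i‖ ≤ ∑ i, ‖(rsG A z).diag i‖ := norm_sum_le _ _
      _ ≤ ∑ _i : Fin n, 1 / z.im := Finset.sum_le_sum fun i _ => rs_G_diag_le hA hz i
      _ = n * (1 / z.im) := by simp
  rcases Nat.eq_zero_or_pos n with h | h
  · subst h
    simp only [Nat.cast_zero, _root_.inv_zero, zero_mul]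
    positivity
  · have hn : (0 : ℝ) < n := by exact_mod_cast h
    calc (n : ℝ)⁻¹ * ‖(rsG A z).trace‖ ≤ (n : ℝ)⁻¹ * (n * (1 / z.im)) := mul_le_mul_of_nonneg_left h1 (by positivity)
      _ = 1 / z.im := by field_simp

/-- LEAF W2 (`rs_HS`) -/
theorem g1_HS : ∑ x, ∑ y, ‖rsG A z x y‖ ^ 2 = n * (g1m A z).im / z.im := by
  rw [rs_HS hA hz.ne', g1_m_im_eq]

/-- LEAF W3 -/
theorem g1_trG2 : ‖(rsG A z * rsG A z).trace‖ ≤ n * (g1m A z).im / z.im := by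
  have h1 : (rsG A z * rsG A z).trace = ∑ x, ∑ y, rsG A z x y * rsG A z y x := by
    simp [Matrix.trace, Matrix.mul_apply]
  rw [h1, ← g1_HS hA hz]
  calc ‖∑ x, ∑ y, rsG A z x y * rsG A z y x‖ ≤ ∑ x, ∑ y, ‖rsG A z x y * rsG A z y x‖ :=
        (norm_sum_le _ _).trans (Finset.sum_le_sum fun x _ => norm_sum_le _ _)
    _ = ∑ x, ∑ y, ‖rsG A z x y‖ ^ 2 := by
        refine Finset.sum_congr rfl fun x _ => Finset.sum_congr rfl fun y _ => ?_
        rw [rs_G_symm hA hz.ne' y x, norm_mul, sq]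

/-- `ℓ²` bound of `G` on a complex vector -/
theorem g1_op_le (c : Fin n → ℂ) : ∑ x, ‖∑ w, rsG A z x w * c w‖ ^ 2 ≤ 2 * (∑ w, ‖c w‖ ^ 2) / z.im ^ 2 := by
  have h1 := rs_op_le hA hz fun w => (c w).re
  have h2 := rs_op_le hA hz fun w => (c w).im
  have h3 : ∀ x, ‖∑ w, rsG A z x w * c w‖ ^ 2
      ≤ 2 * ‖∑ w, rsG A z x w * (((c w).re : ℝ) : ℂ)‖ ^ 2 + 2 * ‖∑ w, rsG A z x w * (((c w).im : ℝ) : ℂ)‖ ^ 2 := by
    intro x
    have e : ∑ w, rsG A z x w * c w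
        = ∑ w, rsG A z x w * (((c w).re : ℝ) : ℂ) + (∑ w, rsG A z x w * (((c w).im : ℝ) : ℂ)) * Complex.I := by
      rw [Finset.sum_mul, ← Finset.sum_add_distrib]
      refine Finset.sum_congr rfl fun w _ => ?_
      conv_lhs => rw [← Complex.re_add_im (c w)]
      ring
    rw [e]
    have h4 := norm_add_le (∑ w, rsG A z x w * (((c w).re : ℝ) : ℂ)) ((∑ w, rsG A z x w * (((c w).im : ℝ) : ℂ)) * Complex.I)
    rw [norm_mul, Complex.norm_I, mul_one] at h4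
    have h5 := norm_nonneg (∑ w, rsG A z x w * (((c w).re : ℝ) : ℂ) + (∑ w, rsG A z x w * (((c w).im : ℝ) : ℂ)) * Complex.I)
    nlinarith [sq_nonneg (‖∑ w, rsG A z x w * (((c w).re : ℝ) : ℂ)‖ - ‖∑ w, rsG A z x w * (((c w).im : ℝ) : ℂ)‖)]
  have h6 : ∑ w, ‖c w‖ ^ 2 = ∑ w, (c w).re ^ 2 + ∑ w, (c w).im ^ 2 := by
    rw [← Finset.sum_add_distrib]
    refine Finset.sum_congr rfl fun w _ => ?_
    rw [← Complex.normSq_eq_norm_sq, Complex.normSq_apply]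
    ring
  calc ∑ x, ‖∑ w, rsG A z x w * c w‖ ^ 2
      ≤ ∑ x, (2 * ‖∑ w, rsG A z x w * (((c w).re : ℝ) : ℂ)‖ ^ 2 + 2 * ‖∑ w, rsG A z x w * (((c w).im : ℝ) : ℂ)‖ ^ 2) :=
        Finset.sum_le_sum fun x _ => h3 x
    _ = 2 * ∑ x, ‖∑ w, rsG A z x w * (((c w).re : ℝ) : ℂ)‖ ^ 2 + 2 * ∑ x, ‖∑ w, rsG A z x w * (((c w).im : ℝ) : ℂ)‖ ^ 2 := by
        rw [Finset.sum_add_distrib, Finset.mul_sum, Finset.mul_sum]
    _ ≤ 2 * ((∑ w, (c w).re ^ 2) / z.im ^ 2) + 2 * ((∑ w, (c w).im ^ 2) / z.im ^ 2) := by linarith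
    _ = 2 * (∑ w, ‖c w‖ ^ 2) / z.im ^ 2 := by rw [h6]; ring

/-- LEAF W4 (`rs_op_le` on the real and imaginary parts of the columns) -/
theorem g1_HS2 : ∑ x, ∑ y, ‖(rsG A z * rsG A z) x y‖ ^ 2 ≤ 2 * (n * (g1m A z).im / z.im) / z.im ^ 2 := by
  rw [← g1_HS hA hz, Finset.sum_comm]
  have h1 : ∀ y, ∑ x, ‖(rsG A z * rsG A z) x y‖ ^ 2 ≤ 2 * (∑ w, ‖rsG A z w y‖ ^ 2) / z.im ^ 2 := by
    intro y
    have := g1_op_le hA hz fun w => rsG A z w y
    simpa only [Matrix.mul_apply] using this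
  calc ∑ y, ∑ x, ‖(rsG A z * rsG A z) x y‖ ^ 2 ≤ ∑ y, 2 * (∑ w, ‖rsG A z w y‖ ^ 2) / z.im ^ 2 :=
        Finset.sum_le_sum fun y _ => h1 y
    _ = 2 * (∑ x, ∑ y, ‖rsG A z x y‖ ^ 2) / z.im ^ 2 := by
        rw [Finset.sum_comm (f := fun x y => ‖rsG A z x y‖ ^ 2), Finset.mul_sum, Finset.sum_div]

/-- LEAF W5 (Cauchy-Schwarz) -/
theorem g1_cross : ∑ x, ∑ y, ‖rsG A z x y‖ * ‖(rsG A z * rsG A z) x y‖ ≤ 2 * (n * (g1m A z).im) / z.im ^ 2 := by
  have h1 := g1_HS hA hz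
  have h2 := g1_HS2 hA hz
  have h0 := g1_m_im_nonneg hA hz
  have h3 : ∀ x y, ‖rsG A z x y‖ * ‖(rsG A z * rsG A z) x y‖
      ≤ (‖rsG A z x y‖ ^ 2 / z.im + z.im * ‖(rsG A z * rsG A z) x y‖ ^ 2) / 2 := by
    intro x y
    have e : ‖rsG A z x y‖ ^ 2 / z.im + z.im * ‖(rsG A z * rsG A z) x y‖ ^ 2
        = (‖rsG A z x y‖ ^ 2 + z.im ^ 2 * ‖(rsG A z * rsG A z) x y‖ ^ 2) / z.im := by
      field_simp
    rw [e, div_div, le_div_iff₀ (by positivity)]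
    nlinarith [sq_nonneg (‖rsG A z x y‖ - z.im * ‖(rsG A z * rsG A z) x y‖)]
  calc ∑ x, ∑ y, ‖rsG A z x y‖ * ‖(rsG A z * rsG A z) x y‖
      ≤ ∑ x, ∑ y, (‖rsG A z x y‖ ^ 2 / z.im + z.im * ‖(rsG A z * rsG A z) x y‖ ^ 2) / 2 :=
        Finset.sum_le_sum fun x _ => Finset.sum_le_sum fun y _ => h3 x y
    _ = ((∑ x, ∑ y, ‖rsG A z x y‖ ^ 2) / z.im + z.im * ∑ x, ∑ y, ‖(rsG A z * rsG A z) x y‖ ^ 2) / 2 := by
        simp only [← Finset.sum_div, Finset.sum_add_distrib, Finset.mul_sum]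
    _ ≤ ((n * (g1m A z).im / z.im) / z.im + z.im * (2 * (n * (g1m A z).im / z.im) / z.im ^ 2)) / 2 := by
        rw [h1]
        have := mul_le_mul_of_nonneg_left h2 hz.le
        linarith
    _ = 3 / 2 * (n * (g1m A z).im) / z.im ^ 2 := by
        field_simp
        ring
    _ ≤ 2 * (n * (g1m A z).im) / z.im ^ 2 := by
        apply div_le_div_of_nonneg_right _ (by positivity)
        have : 0 ≤ (n : ℝ) * (g1m A z).im := by positivity
        linarith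

/-- LEAF W6 (`rs_eq_left` on the diagonal) -/
theorem g1_self (hn : 1 ≤ n) : 1 + z * g1m A z = (n : ℂ)⁻¹ * ∑ i, ∑ j, (A i j : ℂ) * rsG A z j i := by
  have h1 : ∀ i, ∑ j, (A i j : ℂ) * rsG A z j i = 1 + z * rsG A z i i := by
    intro i
    rw [rs_eq_left hA hz.ne' i i, if_pos rfl]
  simp only [h1]
  rw [Finset.sum_add_distrib, ← Finset.mul_sum]
  have hn' : (n : ℂ) ≠ 0 := by
    have : n ≠ 0 := by omega
    exact_mod_cast this
  unfold g1m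
  simp only [Finset.sum_const, Finset.card_univ, Fintype.card_fin, nsmul_eq_mul, mul_one, Matrix.trace, Matrix.diag_apply]
  field_simp

end ward

/-! ## 5. the test function `F` -/

/-- LEAF F1 -/
theorem g1_F_mul (p : ℕ) (hp : 1 ≤ p) (P : ℂ) : P * g1F p P = ((‖P‖ ^ (2 * p) : ℝ) : ℂ) := by
  unfold g1F
  have e1 : P * ((starRingEnd ℂ) P ^ p * P ^ (p - 1)) = ((starRingEnd ℂ) P * P) ^ p := by
    rw [mul_pow]
    obtain ⟨k, rfl⟩ : ∃ k, p = k + 1 := ⟨p - 1, by omega⟩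
    simp only [Nat.add_sub_cancel]
    ring
  rw [e1, ← Complex.normSq_eq_conj_mul_self, Complex.normSq_eq_norm_sq, pow_mul]
  push_cast
  rfl

/-- LEAF F2 -/
theorem g1_F_norm (p : ℕ) (hp : 1 ≤ p) (P : ℂ) : ‖g1F p P‖ = ‖P‖ ^ (2 * p - 1) := by
  unfold g1F
  rw [norm_mul, norm_pow, norm_pow, RCLike.norm_conj, ← pow_add]
  congr 1; omega

/-- LEAF F3 -/
theorem g1_F'_norm (p : ℕ) (hp : 1 ≤ p) (P P' : ℂ) : ‖g1F' p P P'‖ ≤ (2 * p - 1 : ℝ) * ‖P‖ ^ (2 * p - 2) * ‖P'‖ := by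
  unfold g1F'
  refine (norm_add_le _ _).trans ?_
  simp only [norm_mul, norm_pow, RCLike.norm_conj, Complex.norm_natCast]
  have h1 : (p : ℝ) * ‖P‖ ^ (p - 1) * ‖P'‖ * ‖P‖ ^ (p - 1) = (p : ℝ) * ‖P‖ ^ (2 * p - 2) * ‖P'‖ := by
    have : ‖P‖ ^ (2 * p - 2) = ‖P‖ ^ (p - 1) * ‖P‖ ^ (p - 1) := by rw [← pow_add]; congr 1; omega
    rw [this]; ring
  have h2 : ‖P‖ ^ p * (((p - 1 : ℕ) : ℝ) * ‖P‖ ^ (p - 1 - 1) * ‖P'‖) = ((p : ℝ) - 1) * ‖P‖ ^ (2 * p - 2) * ‖P'‖ := by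
    rcases Nat.lt_or_ge p 2 with h | h
    · have : p = 1 := by omega
      subst this; simp
    · have e : ‖P‖ ^ (2 * p - 2) = ‖P‖ ^ p * ‖P‖ ^ (p - 1 - 1) := by rw [← pow_add]; congr 1; omega
      rw [e, Nat.cast_sub hp]; push_cast; ring
  rw [h1, h2]
  apply le_of_eq; ring

/-- LEAF F4 (`HasDerivAt.star`, `.pow`, `.mul`) -/
theorem g1_F_deriv (p : ℕ) {c : ℝ → ℂ} {c' : ℂ} {t : ℝ} (h : HasDerivAt c c' t) :
    HasDerivAt (fun s => g1F p (c s)) (g1F' p (c t) c') t := by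
  unfold g1F g1F'
  have h1 : HasDerivAt (fun s => (starRingEnd ℂ) (c s)) ((starRingEnd ℂ) c') t := h.star
  exact (h1.pow p).mul (h.pow (p - 1))

/-! ## 6. Stein      (all PROVED, helper273) -/

section api

variable {n : ℕ} {z : ℂ}

instance g1Ga_prob (n : ℕ) : IsProbabilityMeasure (g1Ga n) := by unfold g1Ga; infer_instance

theorem g1_Gm_cont (hz : 0 < z.im) : Continuous fun g : G1I n → ℝ => rsG (g1H g) z :=
  continuous_matrix fun x y => g1_G_cont hz x y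

/-- a continuous function of the resolvent is bounded (compactness of `{|G_xy| ≤ 1/η}`) -/
theorem g1_bdd {E : Type} [SeminormedAddGroup E] (hz : 0 < z.im) {Φ : Matrix (Fin n) (Fin n) ℂ → E} (hΦ : Continuous Φ) :
    ∃ C : ℝ, ∀ A : Matrix (Fin n) (Fin n) ℝ, A.IsHermitian → ‖Φ (rsG A z)‖ ≤ C := by
  have hK : IsCompact (Set.univ.pi fun _ : Fin n => Set.univ.pi fun _ : Fin n => Metric.closedBall (0 : ℂ) (1 / z.im)) :=
    isCompact_univ_pi fun _ => isCompact_univ_pi fun _ => isCompact_closedBall _ _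
  obtain ⟨C, hC⟩ := hK.exists_bound_of_continuousOn (f := Φ) hΦ.continuousOn
  refine ⟨C, fun A hA => hC _ ?_⟩
  intro x _ y _
  simpa using rs_G_le hA hz x y

theorem g1_integrable {E : Type} [NormedAddCommGroup E] (hz : 0 < z.im) {Φ : Matrix (Fin n) (Fin n) ℂ → E} (hΦ : Continuous Φ) :
    Integrable (fun g : G1I n → ℝ => Φ (rsG (g1H g) z)) (g1Ga n) := by
  obtain ⟨C, hC⟩ := g1_bdd hz hΦ
  exact Integrable.of_bound (hΦ.comp (g1_Gm_cont hz)).aestronglyMeasurable C (ae_of_all _ fun g => hC _ (g1_H_herm g))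

theorem g1_F_cont (p : ℕ) : Continuous (g1F p) := by
  unfold g1F
  fun_prop

theorem g1_F'_cont (p : ℕ) : Continuous fun x : ℂ × ℂ => g1F' p x.1 x.2 := by
  unfold g1F'
  fun_prop

end api

section stein2

variable {n : ℕ} {z : ℂ}

theorem g1_m_deriv {A B : Matrix (Fin n) (Fin n) ℝ} (hA : A.IsHermitian) (hB : B.IsHermitian) (hz : 0 < z.im) :
    HasDerivAt (fun t : ℝ => g1m (A + t • B) z) (-((n : ℂ)⁻¹ * (rsG A z * rsC B * rsG A z).trace)) 0 := by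
  have h : HasDerivAt (fun t : ℝ => ∑ x, rsG (A + t • B) z x x) (∑ x, -(rsG A z * rsC B * rsG A z) x x) 0 :=
    HasDerivAt.fun_sum fun x _ => g1_G_deriv hA hB hz x x
  have h2 := h.const_mul ((n : ℂ)⁻¹)
  refine h2.congr_deriv ?_
  rw [Finset.sum_neg_distrib, mul_neg]
  rfl

theorem g1_P_deriv {A B : Matrix (Fin n) (Fin n) ℝ} (hA : A.IsHermitian) (hB : B.IsHermitian) (hz : 0 < z.im) :
    HasDerivAt (fun t : ℝ => g1P (A + t • B) z)
      ((z + 2 * g1m A z) * (-((n : ℂ)⁻¹ * (rsG A z * rsC B * rsG A z).trace))) 0 := by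
  have h := g1_m_deriv hA hB hz
  have h2 := ((h.const_mul z).const_add 1).add (h.pow 2)
  refine h2.congr_deriv ?_
  simp only [zero_smul, add_zero]
  push_cast
  ring

/-- the derivative of `Ψ = G_ji F(P)` in the direction `B`, as a function of the resolvent matrix -/
noncomputable def g1D (z : ℂ) (p : ℕ) (i j : Fin n) (B : Matrix (Fin n) (Fin n) ℝ) (G : Matrix (Fin n) (Fin n) ℂ) : ℂ :=
  -(G * rsC B * G) j i * g1F p (1 + z * ((n : ℂ)⁻¹ * G.trace) + ((n : ℂ)⁻¹ * G.trace) ^ 2)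
    + G j i * g1F' p (1 + z * ((n : ℂ)⁻¹ * G.trace) + ((n : ℂ)⁻¹ * G.trace) ^ 2)
        ((z + 2 * ((n : ℂ)⁻¹ * G.trace)) * (-((n : ℂ)⁻¹ * (G * rsC B * G).trace)))

theorem g1_D_cont (p : ℕ) (i j : Fin n) (B : Matrix (Fin n) (Fin n) ℝ) : Continuous (g1D z p i j B) := by
  have h1 := g1_F_cont p
  have h2 := g1_F'_cont p
  unfold g1D
  have h3 : Continuous fun G : Matrix (Fin n) (Fin n) ℂ =>
      ((1 + z * ((n : ℂ)⁻¹ * G.trace) + ((n : ℂ)⁻¹ * G.trace) ^ 2,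
        (z + 2 * ((n : ℂ)⁻¹ * G.trace)) * (-((n : ℂ)⁻¹ * (G * rsC B * G).trace))) : ℂ × ℂ) := by fun_prop
  have h4 := h2.comp h3
  refine Continuous.add (by fun_prop) (Continuous.mul (by fun_prop) h4)

theorem g1_Psi_deriv (p : ℕ) {A B : Matrix (Fin n) (Fin n) ℝ} (hA : A.IsHermitian) (hB : B.IsHermitian) (hz : 0 < z.im) (i j : Fin n) :
    HasDerivAt (fun t : ℝ => rsG (A + t • B) z j i * g1F p (g1P (A + t • B) z)) (g1D z p i j B (rsG A z)) 0 := by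
  have h1 := g1_G_deriv hA hB hz j i
  have h2 := g1_F_deriv p (g1_P_deriv hA hB hz)
  have h3 := h1.mul h2
  refine h3.congr_deriv ?_
  simp only [zero_smul, add_zero]
  rfl

theorem g1_F'_smul (p : ℕ) (P P' : ℂ) (c : ℝ) : g1F' p P ((c : ℂ) * P') = (c : ℂ) * g1F' p P P' := by
  unfold g1F'
  rw [map_mul, Complex.conj_ofReal]
  ring

theorem g1_D_smul (p : ℕ) (i j : Fin n) (B : Matrix (Fin n) (Fin n) ℝ) (G : Matrix (Fin n) (Fin n) ℂ) (c : ℝ) :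
    g1D z p i j (c • B) G = (c : ℂ) * g1D z p i j B G := by
  have e : G * rsC (c • B) * G = (c : ℂ) • (G * rsC B * G) := by
    have : rsC (c • B) = (c : ℂ) • rsC B := by
      ext a b
      simp [rsC]
    rw [this, Matrix.mul_smul, Matrix.smul_mul]
  unfold g1D
  rw [e, Matrix.trace_smul, Matrix.smul_apply, smul_eq_mul, smul_eq_mul]
  have e2 : (z + 2 * ((n : ℂ)⁻¹ * G.trace)) * -((n : ℂ)⁻¹ * ((c : ℂ) * (G * rsC B * G).trace))
      = (c : ℂ) * ((z + 2 * ((n : ℂ)⁻¹ * G.trace)) * -((n : ℂ)⁻¹ * (G * rsC B * G).trace)) := by ring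
  rw [e2, g1_F'_smul]
  ring

theorem g1_goe_herm (x : G1I n → ℝ) : (goeMatrix x).IsHermitian := by
  ext a b
  simp only [Matrix.conjTranspose_apply, star_trivial, goeMatrix, min_comm, max_comm]

/-- **Stein for one ordered pair** -/
theorem g1_stein_D (hn : 1 ≤ n) (hz : 0 < z.im) (p : ℕ) (i j : Fin n) :
    ∫ g, ((g1H g i j : ℝ) : ℂ) * (rsG (g1H g) z j i * g1F p (g1P (g1H g) z)) ∂(g1Ga n)
      = (n : ℂ)⁻¹ * ∫ g, g1D z p i j (g1B i j) (rsG (g1H g) z) ∂(g1Ga n) := by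
  obtain ⟨q, hq⟩ : ∃ q : G1I n, q = (min i j, max i j) := ⟨_, rfl⟩
  obtain ⟨s, hs⟩ : ∃ s : ℝ, s = g1s n q := ⟨_, rfl⟩
  obtain ⟨Bq, hBq⟩ : ∃ Bq : Matrix (Fin n) (Fin n) ℝ, Bq = goeMatrix (Pi.single q (1 : ℝ)) := ⟨_, rfl⟩
  have hsB : (s • Bq).IsHermitian := by
    have : s • Bq = goeMatrix (s • Pi.single q (1 : ℝ)) := by
      rw [hBq]; ext a b; simp [goeMatrix]
    rw [this]; exact g1_goe_herm _
  have hΦ0 : Continuous fun G : Matrix (Fin n) (Fin n) ℂ =>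
      G j i * g1F p (1 + z * ((n : ℂ)⁻¹ * G.trace) + ((n : ℂ)⁻¹ * G.trace) ^ 2) := by
    have := g1_F_cont p
    fun_prop
  have hΦ1 := g1_D_cont (z := z) p i j (s • Bq)
  obtain ⟨C0, hC0⟩ := g1_bdd hz hΦ0
  obtain ⟨C1, hC1⟩ := g1_bdd hz hΦ1
  have key := R286.sk_b_ibp_pi (V := ℂ) q
    (ψ := fun g => rsG (g1H g) z j i * g1F p (g1P (g1H g) z))
    (ψ' := fun g => g1D z p i j (s • Bq) (rsG (g1H g) z))
    (hΦ0.comp (g1_Gm_cont hz)) (hΦ1.comp (g1_Gm_cont hz))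
    (fun g => by
      have h := g1_Psi_deriv p (g1_H_herm g) hsB hz i j
      refine h.congr_of_eventuallyEq (Eventually.of_forall fun t => ?_)
      simp only [g1_H_add, ← hs, ← hBq, smul_smul])
    (A := max C0 C1) (B := 0)
    (fun g => by
      rw [zero_mul, Real.exp_zero, mul_one]
      exact (hC0 _ (g1_H_herm g)).trans (le_max_left _ _))
    (fun g => by
      rw [zero_mul, Real.exp_zero, mul_one]
      exact (hC1 _ (g1_H_herm g)).trans (le_max_right _ _))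
  have e1 : ∀ g : G1I n → ℝ, ((g1H g i j : ℝ) : ℂ) * (rsG (g1H g) z j i * g1F p (g1P (g1H g) z))
      = (s : ℂ) * (g q • (rsG (g1H g) z j i * g1F p (g1P (g1H g) z))) := by
    intro g
    rw [g1_H_apply, ← hq, ← hs, Complex.real_smul]
    push_cast
    ring
  have e2 : ∀ g : G1I n → ℝ, (s : ℂ) * g1D z p i j (s • Bq) (rsG (g1H g) z)
      = (n : ℂ)⁻¹ * g1D z p i j (g1B i j) (rsG (g1H g) z) := by
    intro g
    have h1 := g1_dir hn i j
    rw [← hq, ← hs, ← hBq] at h1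
    rw [g1_D_smul, ← mul_assoc, ← Complex.ofReal_mul, ← sq, ← g1_D_smul, h1, g1_D_smul]
    push_cast
    rw [one_div]
  simp only [e1]
  rw [integral_const_mul, show (g1Ga n) = Measure.pi fun _ : G1I n => gaussianReal 0 1 from rfl, key, ← integral_const_mul,
    ← integral_const_mul]
  exact integral_congr_ae (ae_of_all _ fun g => e2 g)

end stein2

section master

variable {n : ℕ} {z : ℂ}

/-- the right side of the master identity as a function of the resolvent matrix -/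
noncomputable def g1R (z : ℂ) (p : ℕ) (G : Matrix (Fin n) (Fin n) ℂ) : ℂ :=
  -((n : ℂ)⁻¹ ^ 2 * (G * G).trace * g1F p (1 + z * ((n : ℂ)⁻¹ * G.trace) + ((n : ℂ)⁻¹ * G.trace) ^ 2))
    + (n : ℂ)⁻¹ ^ 2 * ∑ i, ∑ j, G j i * g1F' p (1 + z * ((n : ℂ)⁻¹ * G.trace) + ((n : ℂ)⁻¹ * G.trace) ^ 2)
        ((z + 2 * ((n : ℂ)⁻¹ * G.trace)) * (-(2 * (n : ℂ)⁻¹ * (G * G) i j)))

theorem g1_R_cont (p : ℕ) : Continuous (g1R (n := n) z p) := by
  have h2 := g1_F'_cont p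
  have hP : Continuous fun G : Matrix (Fin n) (Fin n) ℂ => 1 + z * ((n : ℂ)⁻¹ * G.trace) + ((n : ℂ)⁻¹ * G.trace) ^ 2 := by fun_prop
  have hF : Continuous fun G : Matrix (Fin n) (Fin n) ℂ => g1F p (1 + z * ((n : ℂ)⁻¹ * G.trace) + ((n : ℂ)⁻¹ * G.trace) ^ 2) := (g1_F_cont p).comp hP
  have hGG : Continuous fun G : Matrix (Fin n) (Fin n) ℂ => G * G := continuous_id.matrix_mul continuous_id
  have hT : Continuous fun G : Matrix (Fin n) (Fin n) ℂ => (G * G).trace := hGG.matrix_trace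
  have hA : Continuous fun G : Matrix (Fin n) (Fin n) ℂ => -((n : ℂ)⁻¹ ^ 2 * (G * G).trace * g1F p (1 + z * ((n : ℂ)⁻¹ * G.trace) + ((n : ℂ)⁻¹ * G.trace) ^ 2)) :=
    ((continuous_const.mul hT).mul hF).neg
  have hB : ∀ i j : Fin n, Continuous fun G : Matrix (Fin n) (Fin n) ℂ => G j i * g1F' p (1 + z * ((n : ℂ)⁻¹ * G.trace) + ((n : ℂ)⁻¹ * G.trace) ^ 2)
        ((z + 2 * ((n : ℂ)⁻¹ * G.trace)) * (-(2 * (n : ℂ)⁻¹ * (G * G) i j))) := by
    intro i j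
    have h5 : Continuous fun G : Matrix (Fin n) (Fin n) ℂ => (G * G) i j := hGG.matrix_elem i j
    have h4 : Continuous fun G : Matrix (Fin n) (Fin n) ℂ => (z + 2 * ((n : ℂ)⁻¹ * G.trace)) * (-(2 * (n : ℂ)⁻¹ * (G * G) i j)) :=
      Continuous.mul (by fun_prop) ((continuous_const.mul h5).neg)
    have h6 := h2.comp (hP.prodMk h4)
    have h7 : Continuous fun G : Matrix (Fin n) (Fin n) ℂ => G j i := continuous_id.matrix_elem j i
    exact h7.mul h6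
  have hS : Continuous fun G : Matrix (Fin n) (Fin n) ℂ => ∑ i, ∑ j, G j i * g1F' p (1 + z * ((n : ℂ)⁻¹ * G.trace) + ((n : ℂ)⁻¹ * G.trace) ^ 2)
        ((z + 2 * ((n : ℂ)⁻¹ * G.trace)) * (-(2 * (n : ℂ)⁻¹ * (G * G) i j))) :=
    continuous_finsetSum _ fun i _ => continuous_finsetSum _ fun j _ => hB i j
  exact hA.add (continuous_const.mul hS)

/-- algebra: the sum of the directional derivatives over all ordered pairs, `G` symmetric -/
theorem g1_D_sum (p : ℕ) (G : Matrix (Fin n) (Fin n) ℂ) (hG : ∀ x y, G x y = G y x) :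
    (n : ℂ)⁻¹ ^ 2 * ∑ i, ∑ j, g1D z p i j (g1B i j) G
      = g1R z p G - ((n : ℂ)⁻¹ * G.trace) ^ 2 * g1F p (1 + z * ((n : ℂ)⁻¹ * G.trace) + ((n : ℂ)⁻¹ * G.trace) ^ 2) := by
  obtain ⟨F, hF⟩ : ∃ F : ℂ, F = g1F p (1 + z * ((n : ℂ)⁻¹ * G.trace) + ((n : ℂ)⁻¹ * G.trace) ^ 2) := ⟨_, rfl⟩
  have htr : ∀ i j, (G * rsC (g1B i j) * G).trace = 2 * (G * G) i j := by
    intro i j
    rw [Matrix.trace]
    simp only [Matrix.diag_apply, g1_GBG]
    rw [Finset.sum_add_distrib, two_mul, Matrix.mul_apply]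
    congr 1
    · exact Finset.sum_congr rfl fun a _ => by rw [hG a i, hG j a]
    · exact Finset.sum_congr rfl fun a _ => by rw [mul_comm]
  have e1 : ∀ i j, g1D z p i j (g1B i j) G = -(G j i * G i j + G j j * G i i) * F
      + G j i * g1F' p (1 + z * ((n : ℂ)⁻¹ * G.trace) + ((n : ℂ)⁻¹ * G.trace) ^ 2)
        ((z + 2 * ((n : ℂ)⁻¹ * G.trace)) * (-(2 * (n : ℂ)⁻¹ * (G * G) i j))) := by
    intro i j
    unfold g1D
    rw [htr, g1_GBG, ← hF, hG i j]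
    congr 3
    ring
  simp only [e1, Finset.sum_add_distrib]
  unfold g1R
  rw [← hF]
  have e2 : ∑ i, ∑ j, -(G j i * G i j + G j j * G i i) * F = -((G * G).trace + G.trace ^ 2) * F := by
    simp only [← Finset.sum_mul, Finset.sum_neg_distrib, Finset.sum_add_distrib]
    congr 3
    · rw [Matrix.trace, Finset.sum_comm]
      exact Finset.sum_congr rfl fun a _ => by rw [Matrix.diag_apply, Matrix.mul_apply]
    · rw [sq, Matrix.trace, Finset.mul_sum]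
      rfl
  rw [e2]
  ring

theorem g1_H_integrable (hz : 0 < z.im) {Φ : Matrix (Fin n) (Fin n) ℂ → ℂ} (hΦ : Continuous Φ) (i j : Fin n) :
    Integrable (fun g : G1I n → ℝ => ((g1H g i j : ℝ) : ℂ) * Φ (rsG (g1H g) z)) (g1Ga n) := by
  obtain ⟨C, hC⟩ := g1_bdd hz hΦ
  have h1 : Integrable (fun g : G1I n → ℝ => g (min i j, max i j)) (g1Ga n) :=
    integrable_comp_eval (μ := fun _ : G1I n => gaussianReal 0 1) (i := (min i j, max i j)) (f := id)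
      ((memLp_id_gaussianReal 1).integrable le_rfl)
  have h2 : Integrable (fun g : G1I n → ℝ => ((g1H g i j : ℝ) : ℂ)) (g1Ga n) := by
    simp only [g1_H_apply]
    exact (h1.const_mul _).ofReal
  exact h2.mul_bdd (c := C) (hΦ.comp (g1_Gm_cont hz)).aestronglyMeasurable (ae_of_all _ fun g => hC _ (g1_H_herm g))

/-- **the master identity** -/
theorem g1_master (hn : 1 ≤ n) (hz : 0 < z.im) (p : ℕ) (hp : 1 ≤ p) :
    ((∫ g, ‖g1P (g1H g) z‖ ^ (2 * p) ∂(g1Ga n) : ℝ) : ℂ) = ∫ g, g1R z p (rsG (g1H g) z) ∂(g1Ga n) := by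
  have hΦ0 : ∀ i j : Fin n, Continuous fun G : Matrix (Fin n) (Fin n) ℂ =>
      G j i * g1F p (1 + z * ((n : ℂ)⁻¹ * G.trace) + ((n : ℂ)⁻¹ * G.trace) ^ 2) := by
    intro i j
    have := g1_F_cont p
    fun_prop
  have hΦ2 : Continuous fun G : Matrix (Fin n) (Fin n) ℂ =>
      ((n : ℂ)⁻¹ * G.trace) ^ 2 * g1F p (1 + z * ((n : ℂ)⁻¹ * G.trace) + ((n : ℂ)⁻¹ * G.trace) ^ 2) := by
    have := g1_F_cont p
    fun_prop
  have e0 : ∀ g : G1I n → ℝ, ((‖g1P (g1H g) z‖ ^ (2 * p) : ℝ) : ℂ)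
      = (n : ℂ)⁻¹ * ∑ i, ∑ j, ((g1H g i j : ℝ) : ℂ) * (rsG (g1H g) z j i * g1F p (g1P (g1H g) z))
        + g1m (g1H g) z ^ 2 * g1F p (g1P (g1H g) z) := by
    intro g
    rw [← g1_F_mul p hp]
    have h := g1_self (g1_H_herm g) hz hn
    obtain ⟨F, hF⟩ : ∃ F : ℂ, F = g1F p (g1P (g1H g) z) := ⟨_, rfl⟩
    rw [← hF, g1P, h, add_mul, mul_assoc, Finset.sum_mul]
    congr 2
    refine Finset.sum_congr rfl fun i _ => ?_
    rw [Finset.sum_mul]
    exact Finset.sum_congr rfl fun j _ => by ring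
  rw [← integral_complex_ofReal]
  simp only [e0]
  rw [integral_add, integral_const_mul, integral_finsetSum]
  · have e3 : ∀ i : Fin n, ∫ g, ∑ j, ((g1H g i j : ℝ) : ℂ) * (rsG (g1H g) z j i * g1F p (g1P (g1H g) z)) ∂(g1Ga n)
        = ∑ j, (n : ℂ)⁻¹ * ∫ g, g1D z p i j (g1B i j) (rsG (g1H g) z) ∂(g1Ga n) := by
      intro i
      rw [integral_finsetSum]
      · exact Finset.sum_congr rfl fun j _ => g1_stein_D hn hz p i j
      · exact fun j _ => g1_H_integrable hz (hΦ0 i j) i j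
    simp only [e3]
    have e4 : ∫ g, g1R z p (rsG (g1H g) z) ∂(g1Ga n)
        = ∫ g, ((n : ℂ)⁻¹ ^ 2 * ∑ i, ∑ j, g1D z p i j (g1B i j) (rsG (g1H g) z)
          + g1m (g1H g) z ^ 2 * g1F p (g1P (g1H g) z)) ∂(g1Ga n) := by
      refine integral_congr_ae (ae_of_all _ fun g => ?_)
      simp only
      rw [g1_D_sum p _ (rs_G_symm (g1_H_herm g) hz.ne')]
      simp only [g1m, g1P]
      ring
    rw [e4, integral_add, integral_const_mul, integral_finsetSum]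
    · congr 1
      rw [sq, mul_assoc]
      congr 1
      rw [Finset.mul_sum]
      refine Finset.sum_congr rfl fun i _ => ?_
      rw [integral_finsetSum, Finset.mul_sum]
      exact fun j _ => g1_integrable hz (g1_D_cont p i j _)
    · exact fun i _ => integrable_finsetSum _ fun j _ => g1_integrable hz (g1_D_cont p i j _)
    · exact (integrable_finsetSum _ fun i _ => integrable_finsetSum _ fun j _ => g1_integrable hz (g1_D_cont p i j _)).const_mul _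
    · exact g1_integrable hz hΦ2
  · exact fun i _ => integrable_finsetSum _ fun j _ => g1_H_integrable hz (hΦ0 i j) i j
  · exact (integrable_finsetSum _ fun i _ => integrable_finsetSum _ fun j _ => g1_H_integrable hz (hΦ0 i j) i j).const_mul _
  · exact g1_integrable hz hΦ2

end master

section ineq

variable {n : ℕ} {z : ℂ}

theorem g1_R_le (hn : 1 ≤ n) {A : Matrix (Fin n) (Fin n) ℝ} (hA : A.IsHermitian) (hz : 0 < z.im) (p : ℕ) (hp : 1 ≤ p) :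
    ‖g1R z p (rsG A z)‖ ≤ (n * z.im)⁻¹ * ((g1m A z).im * ‖g1P A z‖ ^ (2 * p - 1))
      + 4 * (2 * p - 1 : ℝ) * ((n * z.im)⁻¹) ^ 2 * ((g1m A z).im * ‖z + 2 * g1m A z‖ * ‖g1P A z‖ ^ (2 * p - 2)) := by
  have hn0 : (0 : ℝ) < n := by exact_mod_cast hn
  have hp1 : (0 : ℝ) ≤ 2 * p - 1 := by
    have : (1 : ℝ) ≤ p := by exact_mod_cast hp
    linarith
  have e : g1R z p (rsG A z) = -((n : ℂ)⁻¹ ^ 2 * (rsG A z * rsG A z).trace * g1F p (g1P A z))
      + (n : ℂ)⁻¹ ^ 2 * ∑ i, ∑ j, rsG A z j i * g1F' p (g1P A z)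
          ((z + 2 * g1m A z) * (-(2 * (n : ℂ)⁻¹ * (rsG A z * rsG A z) i j))) := rfl
  rw [e]
  have hT := g1_trG2 hA hz
  have hX := g1_cross hA hz
  have hS := rs_G_symm hA hz.ne'
  have hm0 := g1_m_im_nonneg hA hz
  obtain ⟨G, hG⟩ : ∃ G, G = rsG A z := ⟨_, rfl⟩
  obtain ⟨m, hm⟩ : ∃ m, m = g1m A z := ⟨_, rfl⟩
  obtain ⟨P, hP⟩ : ∃ P, P = g1P A z := ⟨_, rfl⟩
  obtain ⟨η, hη⟩ : ∃ η, η = z.im := ⟨_, rfl⟩
  rw [← hG, ← hm, ← hη] at hT hX
  rw [← hG] at hS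
  rw [← hm] at hm0
  rw [← hη] at hz
  rw [← hG, ← hm, ← hP, ← hη]
  have hnn : ‖(n : ℂ)⁻¹‖ = (n : ℝ)⁻¹ := by rw [norm_inv, Complex.norm_natCast]
  have h1 : ‖-((n : ℂ)⁻¹ ^ 2 * (G * G).trace * g1F p P)‖ ≤ (n * η)⁻¹ * (m.im * ‖P‖ ^ (2 * p - 1)) := by
    rw [norm_neg, norm_mul, norm_mul, norm_pow, hnn, g1_F_norm p hp]
    calc (n : ℝ)⁻¹ ^ 2 * ‖(G * G).trace‖ * ‖P‖ ^ (2 * p - 1) ≤ (n : ℝ)⁻¹ ^ 2 * (n * m.im / η) * ‖P‖ ^ (2 * p - 1) := by gcongr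
      _ = (n * η)⁻¹ * (m.im * ‖P‖ ^ (2 * p - 1)) := by field_simp
  have h3 : ‖∑ i, ∑ j, G j i * g1F' p P ((z + 2 * m) * (-(2 * (n : ℂ)⁻¹ * (G * G) i j)))‖
      ≤ ∑ i, ∑ j, (‖G i j‖ * ‖(G * G) i j‖) * ((2 * p - 1 : ℝ) * ‖P‖ ^ (2 * p - 2) * ‖z + 2 * m‖ * (2 * (n : ℝ)⁻¹)) := by
    refine (norm_sum_le _ _).trans (Finset.sum_le_sum fun i _ => (norm_sum_le _ _).trans (Finset.sum_le_sum fun j _ => ?_))
    rw [norm_mul, hS j i]
    have h := g1_F'_norm p hp P ((z + 2 * m) * (-(2 * (n : ℂ)⁻¹ * (G * G) i j)))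
    rw [norm_mul, norm_neg, norm_mul, norm_mul, hnn, Complex.norm_two] at h
    calc ‖G i j‖ * ‖g1F' p P ((z + 2 * m) * (-(2 * (n : ℂ)⁻¹ * (G * G) i j)))‖
        ≤ ‖G i j‖ * ((2 * p - 1 : ℝ) * ‖P‖ ^ (2 * p - 2) * (‖z + 2 * m‖ * (2 * (n : ℝ)⁻¹ * ‖(G * G) i j‖))) := by gcongr
      _ = _ := by ring
  simp only [← Finset.sum_mul] at h3
  have h2 : ‖(n : ℂ)⁻¹ ^ 2 * ∑ i, ∑ j, G j i * g1F' p P ((z + 2 * m) * (-(2 * (n : ℂ)⁻¹ * (G * G) i j)))‖
      ≤ 4 * (2 * p - 1 : ℝ) * ((n * η)⁻¹) ^ 2 * (m.im * ‖z + 2 * m‖ * ‖P‖ ^ (2 * p - 2)) := by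
    rw [norm_mul, norm_pow, hnn]
    calc (n : ℝ)⁻¹ ^ 2 * ‖∑ i, ∑ j, G j i * g1F' p P ((z + 2 * m) * (-(2 * (n : ℂ)⁻¹ * (G * G) i j)))‖
        ≤ (n : ℝ)⁻¹ ^ 2 * ((2 * (n * m.im) / η ^ 2) * ((2 * p - 1 : ℝ) * ‖P‖ ^ (2 * p - 2) * ‖z + 2 * m‖ * (2 * (n : ℝ)⁻¹))) := by
          gcongr
          exact h3.trans (by gcongr)
      _ = _ := by field_simp; ring
  exact (norm_add_le _ _).trans (add_le_add h1 h2)

/-- **the moment inequality** -/
theorem g1_ineq (hn : 1 ≤ n) (hz : 0 < z.im) (p : ℕ) (hp : 1 ≤ p) :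
    ∫ g, ‖g1P (g1H g) z‖ ^ (2 * p) ∂(g1Ga n)
      ≤ ∫ g, ((n * z.im)⁻¹ * ((g1m (g1H g) z).im * ‖g1P (g1H g) z‖ ^ (2 * p - 1))
          + 4 * (2 * p - 1 : ℝ) * ((n * z.im)⁻¹) ^ 2 * ((g1m (g1H g) z).im * ‖z + 2 * g1m (g1H g) z‖ * ‖g1P (g1H g) z‖ ^ (2 * p - 2))) ∂(g1Ga n) := by
  have hΦ : Continuous fun G : Matrix (Fin n) (Fin n) ℂ =>
      (n * z.im)⁻¹ * (((n : ℂ)⁻¹ * G.trace).im * ‖1 + z * ((n : ℂ)⁻¹ * G.trace) + ((n : ℂ)⁻¹ * G.trace) ^ 2‖ ^ (2 * p - 1))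
          + 4 * (2 * p - 1 : ℝ) * ((n * z.im)⁻¹) ^ 2 * (((n : ℂ)⁻¹ * G.trace).im * ‖z + 2 * ((n : ℂ)⁻¹ * G.trace)‖
            * ‖1 + z * ((n : ℂ)⁻¹ * G.trace) + ((n : ℂ)⁻¹ * G.trace) ^ 2‖ ^ (2 * p - 2)) := by
    fun_prop
  have h1 := g1_master hn hz p hp
  have h2 : ∫ g, ‖g1P (g1H g) z‖ ^ (2 * p) ∂(g1Ga n) ≤ ‖∫ g, g1R z p (rsG (g1H g) z) ∂(g1Ga n)‖ := by
    rw [← h1, Complex.norm_real]
    exact le_abs_self _
  refine h2.trans ((norm_integral_le_integral_norm _).trans ?_)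
  exact integral_mono (g1_integrable hz (g1_R_cont p)).norm (g1_integrable hz hΦ) fun g => g1_R_le hn (g1_H_herm g) hz p hp

end ineq

/-! ## 7. closing -/

/-- LEAF K1: `|m| ≤ 4 + |P|` -/
theorem g1_m_le_P {z m : ℂ} (hz : ‖z‖ ≤ 2) : ‖m‖ ≤ 4 + ‖1 + z * m + m ^ 2‖ := by
  have h1 : ‖m‖ ^ 2 ≤ ‖1 + z * m + m ^ 2‖ + 1 + 2 * ‖m‖ := by
    have e : m ^ 2 = (1 + z * m + m ^ 2) - 1 - z * m := by ring
    calc ‖m‖ ^ 2 = ‖m ^ 2‖ := (norm_pow _ _).symm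
      _ = ‖(1 + z * m + m ^ 2) - 1 - z * m‖ := by rw [← e]
      _ ≤ ‖(1 + z * m + m ^ 2) - 1‖ + ‖z * m‖ := norm_sub_le _ _
      _ ≤ (‖1 + z * m + m ^ 2‖ + ‖(1 : ℂ)‖) + ‖z‖ * ‖m‖ := by
          rw [norm_mul]
          exact add_le_add_left (norm_sub_le _ _) _
      _ ≤ ‖1 + z * m + m ^ 2‖ + 1 + 2 * ‖m‖ := by
          rw [norm_one]
          have := mul_le_mul_of_nonneg_right hz (norm_nonneg m)
          linarith
  have h2 := norm_nonneg (1 + z * m + m ^ 2)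
  have h3 := norm_nonneg m
  by_contra hcon
  rw [not_le] at hcon
  nlinarith

/-- LEAF K2 (pure real analysis) -/
theorem g1_close (p : ℕ) (hp : 1 ≤ p) : ∃ C u₀ : ℝ, 0 < C ∧ 1 ≤ u₀ ∧ ∀ u X : ℝ, u₀ ≤ u → 0 ≤ X →
    u⁻¹ * ((4 + X) * X ^ (2 * p - 1)) + 4 * (2 * p - 1 : ℝ) * u⁻¹ ^ 2 * ((4 + X) * (10 + 2 * X) * X ^ (2 * p - 2))
      ≤ X ^ (2 * p) / 2 + C * u⁻¹ ^ (2 * p) := by
  obtain ⟨q, rfl⟩ : ∃ q, p = q + 1 := ⟨p - 1, by omega⟩
  have e1 : 2 * (q + 1) - 1 = 2 * q + 1 := by omega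
  have e2 : 2 * (q + 1) - 2 = 2 * q := by omega
  have e3 : 2 * (q + 1) = 2 * q + 2 := by ring
  rw [e1, e2, e3]
  set c : ℝ := 4 * (2 * ((q + 1 : ℕ) : ℝ) - 1) with hc
  have hc0 : 0 < c := by
    rw [hc]; push_cast
    have : (0 : ℝ) ≤ q := Nat.cast_nonneg q
    linarith
  set a : ℝ := 4 + 18 * c with ha
  have ha0 : 0 < a := by positivity
  set b : ℝ := 40 * c with hb
  have hb0 : 0 < b := by positivity
  refine ⟨8 ^ (2 * q + 1) * a ^ (2 * q + 2) + 8 ^ q * b ^ (q + 1), max 8 (16 * c), by positivity, le_trans (by norm_num) (le_max_left _ _), ?_⟩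
  intro u X hu hX
  have hu8 : 8 ≤ u := (le_max_left _ _).trans hu
  have huc : 16 * c ≤ u := (le_max_right _ _).trans hu
  have hu0 : 0 < u := by linarith
  set w : ℝ := u⁻¹ with hw
  have hw0 : 0 < w := inv_pos.2 hu0
  have hwu : w * u = 1 := inv_mul_cancel₀ hu0.ne'
  have hw8 : w ≤ 1 / 8 := by
    rw [le_div_iff₀ (by norm_num)]
    nlinarith
  have hwc : 16 * c * w ≤ 1 := by nlinarith
  -- the two Young inequalities
  have Y1 : a * w * X ^ (2 * q + 1) ≤ X ^ (2 * q + 2) / 8 + 8 ^ (2 * q + 1) * a ^ (2 * q + 2) * w ^ (2 * q + 2) := by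
    have hs0 : 0 ≤ a * w := by positivity
    rcases le_total (8 * (a * w)) X with h | h
    · have : a * w * X ^ (2 * q + 1) ≤ X / 8 * X ^ (2 * q + 1) := mul_le_mul_of_nonneg_right (by linarith) (by positivity)
      have e : X / 8 * X ^ (2 * q + 1) = X ^ (2 * q + 2) / 8 := by ring
      have : 0 ≤ (8 : ℝ) ^ (2 * q + 1) * a ^ (2 * q + 2) * w ^ (2 * q + 2) := by positivity
      linarith
    · have h1 : X ^ (2 * q + 1) ≤ (8 * (a * w)) ^ (2 * q + 1) := pow_le_pow_left₀ hX h _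
      have h2 : a * w * X ^ (2 * q + 1) ≤ a * w * (8 * (a * w)) ^ (2 * q + 1) := mul_le_mul_of_nonneg_left h1 hs0
      have e : a * w * (8 * (a * w)) ^ (2 * q + 1) = 8 ^ (2 * q + 1) * a ^ (2 * q + 2) * w ^ (2 * q + 2) := by
        rw [mul_pow, mul_pow]; ring
      have : 0 ≤ X ^ (2 * q + 2) / 8 := by positivity
      linarith
  have Y2 : b * w ^ 2 * X ^ (2 * q) ≤ X ^ (2 * q + 2) / 8 + 8 ^ q * b ^ (q + 1) * w ^ (2 * q + 2) := by
    have hs0 : 0 ≤ b * w ^ 2 := by positivity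
    rcases le_total (8 * (b * w ^ 2)) (X ^ 2) with h | h
    · have : b * w ^ 2 * X ^ (2 * q) ≤ X ^ 2 / 8 * X ^ (2 * q) := mul_le_mul_of_nonneg_right (by linarith) (by positivity)
      have e : X ^ 2 / 8 * X ^ (2 * q) = X ^ (2 * q + 2) / 8 := by ring
      have : 0 ≤ (8 : ℝ) ^ q * b ^ (q + 1) * w ^ (2 * q + 2) := by positivity
      linarith
    · have h1 : (X ^ 2) ^ q ≤ (8 * (b * w ^ 2)) ^ q := pow_le_pow_left₀ (by positivity) h _
      have e0 : X ^ (2 * q) = (X ^ 2) ^ q := pow_mul X 2 q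
      have h2 : b * w ^ 2 * X ^ (2 * q) ≤ b * w ^ 2 * (8 * (b * w ^ 2)) ^ q := by
        rw [e0]; exact mul_le_mul_of_nonneg_left h1 hs0
      have e : b * w ^ 2 * (8 * (b * w ^ 2)) ^ q = 8 ^ q * b ^ (q + 1) * w ^ (2 * q + 2) := by
        rw [mul_pow, mul_pow, ← pow_mul]; ring
      have : 0 ≤ X ^ (2 * q + 2) / 8 := by positivity
      linarith
  -- expansion
  have hX1 : 0 ≤ X ^ (2 * q + 1) := by positivity
  have hX2 : 0 ≤ X ^ (2 * q + 2) := by positivity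
  have E : w * ((4 + X) * X ^ (2 * q + 1)) + c * w ^ 2 * ((4 + X) * (10 + 2 * X) * X ^ (2 * q))
      = (w + 2 * c * w ^ 2) * X ^ (2 * q + 2) + (4 * w + 18 * c * w ^ 2) * X ^ (2 * q + 1) + b * w ^ 2 * X ^ (2 * q) := by
    rw [hb]; ring
  rw [E]
  have h1 : (w + 2 * c * w ^ 2) * X ^ (2 * q + 2) ≤ 1 / 4 * X ^ (2 * q + 2) := by
    refine mul_le_mul_of_nonneg_right ?_ hX2
    nlinarith
  have h2 : (4 * w + 18 * c * w ^ 2) * X ^ (2 * q + 1) ≤ a * w * X ^ (2 * q + 1) := by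
    refine mul_le_mul_of_nonneg_right ?_ hX1
    rw [ha]
    have : w ^ 2 ≤ w := by nlinarith
    nlinarith
  have e4 : (8 ^ (2 * q + 1) * a ^ (2 * q + 2) + 8 ^ q * b ^ (q + 1)) * w ^ (2 * q + 2)
      = 8 ^ (2 * q + 1) * a ^ (2 * q + 2) * w ^ (2 * q + 2) + 8 ^ q * b ^ (q + 1) * w ^ (2 * q + 2) := by ring
  rw [e4]
  linarith

section exits

variable {n : ℕ} {z : ℂ}

instance g1_goeArray_prob (n : ℕ) : IsProbabilityMeasure (goeArray n) := by unfold goeArray; infer_instance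

theorem g1_G_cont0 (hz : 0 < z.im) (x y : Fin n) : Continuous fun a : G1I n → ℝ => rsG (goeMatrix a) z x y := by
  refine continuous_iff_continuousAt.2 fun a0 => ?_
  refine tendsto_iff_norm_sub_tendsto_zero.2 ?_
  have hc : Continuous fun a : G1I n → ℝ => (∑ i, ∑ j, |goeMatrix a0 i j - goeMatrix a i j|) / z.im ^ 2 := by
    unfold goeMatrix
    fun_prop
  have h0 := hc.tendsto a0
  simp only [sub_self, abs_zero, Finset.sum_const_zero, zero_div] at h0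
  exact squeeze_zero (fun a => norm_nonneg _) (fun a => g1_G_lip (g1_goe_herm a) (g1_goe_herm a0) hz x y) h0

theorem g1_Gm_cont0 (hz : 0 < z.im) : Continuous fun a : G1I n → ℝ => rsG (goeMatrix a) z :=
  continuous_matrix fun x y => g1_G_cont0 hz x y

theorem g1_integrable0 {E : Type} [NormedAddCommGroup E] (hz : 0 < z.im) {Φ : Matrix (Fin n) (Fin n) ℂ → E} (hΦ : Continuous Φ) :
    Integrable (fun a : G1I n → ℝ => Φ (rsG (goeMatrix a) z)) (goeArray n) := by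
  obtain ⟨C, hC⟩ := g1_bdd hz hΦ
  exact Integrable.of_bound (hΦ.comp (g1_Gm_cont0 hz)).aestronglyMeasurable C (ae_of_all _ fun g => hC _ (g1_goe_herm g))

theorem g1_PP_cont (p : ℕ) : Continuous fun G : Matrix (Fin n) (Fin n) ℂ =>
    ‖1 + z * ((n : ℂ)⁻¹ * G.trace) + ((n : ℂ)⁻¹ * G.trace) ^ 2‖ ^ (2 * p) := by
  fun_prop

/-- **EXIT G1-a: the moments of `P = 1 + z m + m²`**, all `n ≥ 1`, `|z| ≤ 2`, `n Im z ≥ u₀(p)`. -/
theorem g1_moment (p : ℕ) (hp : 1 ≤ p) : ∃ C u₀ : ℝ, 0 < C ∧ 1 ≤ u₀ ∧ ∀ (n : ℕ) (z : ℂ), 1 ≤ n → ‖z‖ ≤ 2 → u₀ ≤ n * z.im →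
    ∫ x, ‖g1P (goeMatrix x) z‖ ^ (2 * p) ∂(goeArray n) ≤ C * ((n * z.im)⁻¹) ^ (2 * p) := by
  obtain ⟨C, u₀, hC, hu₀, hcl⟩ := g1_close p hp
  refine ⟨2 * C, u₀, by positivity, hu₀, fun n z hn hz2 hu => ?_⟩
  have hn0 : (0 : ℝ) < n := by exact_mod_cast hn
  have hu0 : 0 < n * z.im := by linarith
  have hz : 0 < z.im := (mul_pos_iff_of_pos_left hn0).1 hu0
  have hp1 : (0 : ℝ) ≤ 2 * p - 1 := by
    have : (1 : ℝ) ≤ p := by exact_mod_cast hp
    linarith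
  rw [g1_int_eq n hn (fun A => ‖g1P A z‖ ^ (2 * p)) ((g1_PP_cont p).comp (g1_Gm_cont0 hz))]
  have h1 := g1_ineq hn hz p hp
  have hI : Integrable (fun g : G1I n → ℝ => ‖g1P (g1H g) z‖ ^ (2 * p)) (g1Ga n) := g1_integrable hz (g1_PP_cont p)
  have h2 : ∀ g : G1I n → ℝ, (n * z.im)⁻¹ * ((g1m (g1H g) z).im * ‖g1P (g1H g) z‖ ^ (2 * p - 1))
          + 4 * (2 * p - 1 : ℝ) * ((n * z.im)⁻¹) ^ 2 * ((g1m (g1H g) z).im * ‖z + 2 * g1m (g1H g) z‖ * ‖g1P (g1H g) z‖ ^ (2 * p - 2))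
      ≤ ‖g1P (g1H g) z‖ ^ (2 * p) / 2 + C * ((n * z.im)⁻¹) ^ (2 * p) := by
    intro g
    refine le_trans ?_ (hcl (n * z.im) ‖g1P (g1H g) z‖ hu (norm_nonneg _))
    have hm : ‖g1m (g1H g) z‖ ≤ 4 + ‖g1P (g1H g) z‖ := g1_m_le_P hz2
    have hm1 : (g1m (g1H g) z).im ≤ 4 + ‖g1P (g1H g) z‖ := (Complex.im_le_norm _).trans hm
    have hm2 : ‖z + 2 * g1m (g1H g) z‖ ≤ 10 + 2 * ‖g1P (g1H g) z‖ := by
      refine (norm_add_le _ _).trans ?_
      rw [norm_mul, Complex.norm_two]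
      linarith
    have hm3 : (g1m (g1H g) z).im * ‖z + 2 * g1m (g1H g) z‖ ≤ (4 + ‖g1P (g1H g) z‖) * (10 + 2 * ‖g1P (g1H g) z‖) :=
      mul_le_mul hm1 hm2 (norm_nonneg _) (by positivity)
    gcongr
  have hΦ : Continuous fun G : Matrix (Fin n) (Fin n) ℂ =>
      (n * z.im)⁻¹ * (((n : ℂ)⁻¹ * G.trace).im * ‖1 + z * ((n : ℂ)⁻¹ * G.trace) + ((n : ℂ)⁻¹ * G.trace) ^ 2‖ ^ (2 * p - 1))
          + 4 * (2 * p - 1 : ℝ) * ((n * z.im)⁻¹) ^ 2 * (((n : ℂ)⁻¹ * G.trace).im * ‖z + 2 * ((n : ℂ)⁻¹ * G.trace)‖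
            * ‖1 + z * ((n : ℂ)⁻¹ * G.trace) + ((n : ℂ)⁻¹ * G.trace) ^ 2‖ ^ (2 * p - 2)) := by
    fun_prop
  have h3 : ∫ g, ((n * z.im)⁻¹ * ((g1m (g1H g) z).im * ‖g1P (g1H g) z‖ ^ (2 * p - 1))
          + 4 * (2 * p - 1 : ℝ) * ((n * z.im)⁻¹) ^ 2 * ((g1m (g1H g) z).im * ‖z + 2 * g1m (g1H g) z‖ * ‖g1P (g1H g) z‖ ^ (2 * p - 2))) ∂(g1Ga n)
      ≤ ∫ g, (‖g1P (g1H g) z‖ ^ (2 * p) / 2 + C * ((n * z.im)⁻¹) ^ (2 * p)) ∂(g1Ga n) :=
    integral_mono (g1_integrable hz hΦ) ((hI.div_const 2).add (integrable_const _)) h2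
  rw [integral_add (hI.div_const 2) (integrable_const _), integral_div, integral_const, probReal_univ, one_smul] at h3
  have h4 := h1.trans h3
  linarith

/-- **EXIT G1-b: stability at the centre of the bulk** (deterministic) -/
theorem g1_stab {A : Matrix (Fin n) (Fin n) ℝ} (hA : A.IsHermitian) (hz : 0 < z.im) (hz2 : ‖z‖ ≤ 2) :
    ‖g1m A z - Complex.I‖ ≤ (1 + ‖z‖) * ‖g1P A z‖ + 4 * ‖z‖ := by
  have h0 := g1_m_im_nonneg hA hz
  have hm : ‖g1m A z‖ ≤ 4 + ‖g1P A z‖ := g1_m_le_P hz2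
  obtain ⟨m, hm'⟩ : ∃ m, m = g1m A z := ⟨_, rfl⟩
  have e : g1P A z = (m - Complex.I) * (m + Complex.I) + z * m := by
    rw [g1P, ← hm']
    linear_combination Complex.I_sq
  rw [← hm'] at h0 hm ⊢
  have h1 : 1 ≤ ‖m + Complex.I‖ := by
    refine le_trans ?_ (Complex.im_le_norm _)
    simp only [Complex.add_im, Complex.I_im]
    linarith
  have h2 : ‖m - Complex.I‖ ≤ ‖(m - Complex.I) * (m + Complex.I)‖ := by
    rw [norm_mul]
    exact le_mul_of_one_le_right (norm_nonneg _) h1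
  have h3 : ‖(m - Complex.I) * (m + Complex.I)‖ ≤ ‖g1P A z‖ + ‖z‖ * ‖m‖ := by
    have : (m - Complex.I) * (m + Complex.I) = g1P A z - z * m := by rw [e]; ring
    rw [this, ← norm_mul]
    exact norm_sub_le _ _
  have h4 : ‖z‖ * ‖m‖ ≤ ‖z‖ * (4 + ‖g1P A z‖) := by gcongr
  nlinarith

end exits

/-- the Stieltjes sum in micro-coordinates `x_j = n λ_j / (π ρ)`:   `S_n(w) = π ρ m(π ρ w / n)` -/
noncomputable def g1S {n : ℕ} (ρ : ℝ) (A : Matrix (Fin n) (Fin n) ℝ) (w : ℂ) : ℂ :=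
  ((Real.pi * ρ : ℝ) : ℂ) * g1m A (((Real.pi * ρ / n : ℝ) : ℂ) * w)

theorem g1_eqns_cite2 : True := by
  have := @g1D.eq_1
  have := @g1R.eq_1
  have := @g1S.eq_1
  trivial

/-- **EXIT G1-c: (R).tr at finite `n`**, any exponent `ξ < 1`; `C, u₀` do not depend on the energy `e` -/
theorem g1_prob (ρ ξ : ℝ) (hρ : 0 < ρ) (hξ : ξ < 1) (D : ℕ) : ∃ C u₀ : ℝ, ∀ e u : ℝ, u₀ ≤ u → ∀ᶠ n : ℕ in atTop,
    (goeArray n) {x | u ^ (-ξ) < ‖g1S ρ (goeMatrix x) ((e : ℂ) + (u : ℂ) * Complex.I) - ((Real.pi * ρ : ℝ) : ℂ) * Complex.I‖}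
      ≤ ENNReal.ofReal (C * u ^ (-(D : ℝ))) := by
  obtain ⟨p, hp1, hpD⟩ : ∃ p : ℕ, 1 ≤ p ∧ (D : ℝ) ≤ (1 - ξ) * ((2 * p : ℕ) : ℝ) := by
    obtain ⟨k, hk⟩ := exists_nat_ge ((D : ℝ) / (2 * (1 - ξ)))
    refine ⟨k + 1, by omega, ?_⟩
    have h0 : 0 < 1 - ξ := by linarith
    rw [div_le_iff₀ (by positivity)] at hk
    push_cast
    nlinarith
  obtain ⟨C, u₀, hC, hu₀, hM⟩ := g1_moment p hp1
  obtain ⟨a, ha'⟩ : ∃ a : ℝ, a = Real.pi * ρ := ⟨_, rfl⟩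
  have ha : 0 < a := by rw [ha']; exact mul_pos Real.pi_pos hρ
  refine ⟨C * 6 ^ (2 * p), max 1 (u₀ / a), fun e u hu => ?_⟩
  have hu1 : 1 ≤ u := (le_max_left _ _).trans hu
  have hu0 : 0 < u := by linarith
  have hu2 : u₀ ≤ a * u := by
    have := (le_max_right _ _).trans hu
    rwa [div_le_iff₀' ha] at this
  obtain ⟨w, hw⟩ : ∃ w : ℂ, w = (e : ℂ) + (u : ℂ) * Complex.I := ⟨_, rfl⟩
  have hwim : w.im = u := by rw [hw]; simp
  have hs : 0 < u ^ (-ξ) := Real.rpow_pos_of_pos hu0 _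
  have hlim : Tendsto (fun n : ℕ => a / (n : ℝ) * ‖w‖) atTop (𝓝 0) := by
    have := (tendsto_const_div_atTop_nhds_zero_nat a).mul_const ‖w‖
    rwa [zero_mul] at this
  have hev : ∀ᶠ n : ℕ in atTop, a / (n : ℝ) * ‖w‖ < min 2 (u ^ (-ξ) / (8 * a)) :=
    (tendsto_order.1 hlim).2 _ (lt_min two_pos (by positivity))
  filter_upwards [hev, eventually_ge_atTop 1] with n hn hn1
  rw [← hw, ← ha']
  have hn0 : (0 : ℝ) < n := by exact_mod_cast hn1
  obtain ⟨z, hz'⟩ : ∃ z : ℂ, z = ((a / n : ℝ) : ℂ) * w := ⟨_, rfl⟩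
  have hzn : ‖z‖ = a / n * ‖w‖ := by
    rw [hz', norm_mul, Complex.norm_real, Real.norm_of_nonneg (by positivity)]
  have hz2 : ‖z‖ ≤ 2 := by rw [hzn]; exact (hn.trans_le (min_le_left _ _)).le
  have hz8 : 4 * a * ‖z‖ ≤ u ^ (-ξ) / 2 := by
    have h1 := (hn.trans_le (min_le_right _ _)).le
    rw [← hzn, le_div_iff₀ (by positivity)] at h1
    linarith
  have hzim : z.im = a / n * u := by rw [hz', Complex.im_ofReal_mul, hwim]
  have hnz : n * z.im = a * u := by rw [hzim]; field_simp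
  have hz : 0 < z.im := by rw [hzim]; positivity
  have hmom := hM n z hn1 hz2 (by rw [hnz]; exact hu2)
  rw [hnz] at hmom
  obtain ⟨t, ht'⟩ : ∃ t : ℝ, t = u ^ (-ξ) / (6 * a) := ⟨_, rfl⟩
  have ht : 0 < t := by rw [ht']; positivity
  have hsub : {x : G1I n → ℝ | u ^ (-ξ) < ‖g1S ρ (goeMatrix x) w - (a : ℂ) * Complex.I‖}
      ⊆ {x | t ^ (2 * p) ≤ ‖g1P (goeMatrix x) z‖ ^ (2 * p)} := by
    intro x hx
    have h1 := g1_stab (g1_goe_herm x) hz hz2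
    have e1 : g1S ρ (goeMatrix x) w - (a : ℂ) * Complex.I = (a : ℂ) * (g1m (goeMatrix x) z - Complex.I) := by
      unfold g1S
      rw [← ha', ← hz']
      ring
    rw [Set.mem_ofPred_eq, e1, norm_mul, Complex.norm_real, Real.norm_of_nonneg ha.le] at hx
    have h2 : (1 + ‖z‖) * ‖g1P (goeMatrix x) z‖ ≤ 3 * ‖g1P (goeMatrix x) z‖ := by
      gcongr
      linarith
    have h3 : a * ‖g1m (goeMatrix x) z - Complex.I‖ ≤ a * (3 * ‖g1P (goeMatrix x) z‖ + 4 * ‖z‖) := by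
      gcongr
      linarith
    have h4 : t ≤ ‖g1P (goeMatrix x) z‖ := by
      rw [ht', div_le_iff₀ (by positivity)]
      nlinarith
    exact pow_le_pow_left₀ ht.le h4 _
  refine (measure_mono hsub).trans ?_
  have hmk := mul_meas_ge_le_integral_of_nonneg (μ := goeArray n) (f := fun x => ‖g1P (goeMatrix x) z‖ ^ (2 * p))
    (ae_of_all _ fun x => by positivity) (g1_integrable0 hz (g1_PP_cont p)) (t ^ (2 * p))
  rw [← ENNReal.ofReal_toReal (measure_ne_top (goeArray n) _)]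
  apply ENNReal.ofReal_le_ofReal
  have hk : (a * u)⁻¹ = t * (6 * u ^ (ξ - 1)) := by
    have : u ^ (ξ - 1) = u ^ ξ * u⁻¹ := by rw [Real.rpow_sub_one hu0.ne', div_eq_mul_inv]
    rw [ht', this, Real.rpow_neg hu0.le]
    have := Real.rpow_pos_of_pos hu0 ξ
    field_simp
  have h5 : t ^ (2 * p) * ((goeArray n) {x | t ^ (2 * p) ≤ ‖g1P (goeMatrix x) z‖ ^ (2 * p)}).toReal
      ≤ t ^ (2 * p) * (C * (6 * u ^ (ξ - 1)) ^ (2 * p)) := by
    refine (hmk.trans hmom).trans (le_of_eq ?_)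
    rw [hk, mul_pow]
    ring
  have h6 := le_of_mul_le_mul_left h5 (by positivity)
  refine h6.trans ?_
  rw [mul_pow, ← mul_assoc]
  refine mul_le_mul_of_nonneg_left ?_ (by positivity)
  rw [← Real.rpow_natCast (u ^ (ξ - 1)), ← Real.rpow_mul hu0.le]
  exact Real.rpow_le_rpow_of_exponent_le hu1 (by nlinarith)

/-! ## 8. bridge to `rTr` (E1 of helper250) -/

theorem g1_rTr_eq {ι : Type} [Fintype ι] [DecidableEq ι] (A : Matrix ι ι ℝ) (z : ℂ) : rTr A z = (rsG A z).trace := rfl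

theorem g1_inv_smul {ι : Type} [Fintype ι] [DecidableEq ι] (c : ℂ) (hc : c ≠ 0) (M : Matrix ι ι ℂ) : (c • M)⁻¹ = c⁻¹ • M⁻¹ := by
  by_cases h : IsUnit M.det
  · let _ : Invertible c := invertibleOfNonzero hc
    rw [Matrix.inv_smul M c h, invOf_eq_inv]
  · have h2 : ¬ IsUnit (c • M).det := by
      rw [Matrix.det_smul]
      intro h3
      exact h (isUnit_of_mul_isUnit_right h3)
    rw [Matrix.nonsing_inv_apply_not_isUnit _ h, Matrix.nonsing_inv_apply_not_isUnit _ h2, smul_zero]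

/-- scaling of the resolvent trace -/
theorem g1_rTr_smul {ι : Type} [Fintype ι] [DecidableEq ι] (c : ℝ) (hc : c ≠ 0) (A : Matrix ι ι ℝ) (w : ℂ) :
    rTr (c • A) w = (c : ℂ)⁻¹ * (rsG A ((c : ℂ)⁻¹ * w)).trace := by
  have hc' : (c : ℂ) ≠ 0 := by exact_mod_cast hc
  have e : rsC (c • A) - w • (1 : Matrix ι ι ℂ) = (c : ℂ) • (rsC A - ((c : ℂ)⁻¹ * w) • (1 : Matrix ι ι ℂ)) := by
    have : rsC (c • A) = (c : ℂ) • rsC A := by
      ext a b
      simp [rsC]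
    rw [this, smul_sub, smul_smul, mul_inv_cancel_left₀ hc']
  rw [g1_rTr_eq, rsG, e, g1_inv_smul _ hc', Matrix.trace_smul, smul_eq_mul]
  rfl

/-- **bridge**: the resolvent trace of the GOE matrix in micro-coordinates is `g1S` -/
theorem g1_rTr {n : ℕ} (hn : 1 ≤ n) (ρ : ℝ) (hρ : 0 < ρ) (A : Matrix (Fin n) (Fin n) ℝ) (w : ℂ) :
    rTr (((n : ℝ) / (Real.pi * ρ)) • A) w = g1S ρ A w := by
  have hn0 : (0 : ℝ) < n := by exact_mod_cast hn
  have hpi := Real.pi_pos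
  have hc : (n : ℝ) / (Real.pi * ρ) ≠ 0 := by positivity
  rw [g1_rTr_smul _ hc, g1S, g1m]
  have e : (((n : ℝ) / (Real.pi * ρ) : ℝ) : ℂ)⁻¹ = ((Real.pi * ρ / n : ℝ) : ℂ) := by
    rw [← Complex.ofReal_inv, inv_div]
  rw [e]
  have e2 : ((Real.pi * ρ / n : ℝ) : ℂ) = ((Real.pi * ρ : ℝ) : ℂ) * (n : ℂ)⁻¹ := by
    push_cast
    rw [div_eq_mul_inv]
  rw [← mul_assoc, ← e2]

/-- **EXIT G1-c in the `rTr` form** (E1 of helper250) -/
theorem g1_prob_rTr (ρ ξ : ℝ) (hρ : 0 < ρ) (hξ : ξ < 1) (D : ℕ) : ∃ C u₀ : ℝ, ∀ e u : ℝ, u₀ ≤ u → ∀ᶠ n : ℕ in atTop,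
    (goeArray n) {x | u ^ (-ξ) < ‖rTr (((n : ℝ) / (Real.pi * ρ)) • goeMatrix x) ((e : ℂ) + (u : ℂ) * Complex.I) - ((Real.pi * ρ : ℝ) : ℂ) * Complex.I‖}
      ≤ ENNReal.ofReal (C * u ^ (-(D : ℝ))) := by
  obtain ⟨C, u₀, h⟩ := g1_prob ρ ξ hρ hξ D
  refine ⟨C, u₀, fun e u hu => ?_⟩
  filter_upwards [h e u hu, eventually_ge_atTop 1] with n hn hn1
  simpa only [g1_rTr hn1 ρ hρ] using hn

end Claimed.Agent.R287
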