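-- KEEP
import Claimed.Agent.R287.Defs
import Claimed.Agent.R287.Top274
import Claimed.Agent.R287.Ct
import Claimed.Agent.R287.Stj227
import Claimed.Agent.R287.Res

/-!
# Row 287 (S0534): FROM TRACE BOUNDS AT FINITE `n` TO A REGULAR LIMIT LAW      (architect helper250, prefix `lt_`, defs `ltW ltSK ltS ltFin LtTr LtLim`)

ABSTRACT layer, serves BOTH ensembles (GOE: `mr = 0`, `Λ = limPW ρ`;   graphs: `mr = mRe d E`, `Λ = limPG d E`).
INPUT  `LtTr ρ ξ mr U Λ`: the laws `Λ n` of labelled finite configurations `y : ℤ → EReal` (kit Top274) satisfy, along the ultrafilter `U`,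
       `P(|S_n(e+iu) - (mr + iπρ)| > u^{-ξ}) ≤ C u^{-D}`, `C, u₀` uniform in the energy `e` (the threshold in `n` may depend on `e, u`).
OUTPUT `lt_main`: a probability `μ` on `Conf` with `LReg ρ ξ μ` (SAME exponent) and `LtLim mr U Λ μ` = convergence of windows, of Laplace functionals, and (`LtJoint`) convergence in law of
       `(S_n(z_a) - mr)_a` to `(cS x (z_a))_a` (bounded Lipschitz tests).

## WRITTEN PROOF
(0) finite configurations: `ltS y z` is a finite sum (`lt_S_fin`), measurable in `y` (`lt_S_measurable`).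
(1) deterministic, one configuration, `S = ltS y`:   (D2) `#{|t-e| ≤ R} ≤ 2R Im S(e+iR)`;   (D3) `∑_{|t-e|>L} |t-e|^{-2} ≤ (2/L) Im S(e+iL)`;   (D4) `#{|t-e| ≤ R} ≥ u (Im S(e+iu) - (2u/R) Im S(e+iR))`.
(2) `lt_tight`, `lt_locfin` from (D2), (D4) and `LtTr.tr` at two points ⟹ `LimHyp U Λ` ⟹ (kit 274, `lim_exists`) `μ`, windows, Laplace.
(3) RIGIDITY.  For integers `B ≥ 1` and both signs: rectangle `[0,B]` (`[-B,0]`), `u0 = B^γ`, `R = B`; `ct_rect` of helper186 at finite `n` on a finite grid (`lt_grid`: Lipschitz in `e`, `u`) gives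
    `|#[0,B] - ρB| ≤ C B^{1-χ}` off probability `C B^{-2}`, eventually along `U`; portmanteau on finitely many labels (`lt_open_le`) carries it to `μ`; Borel-Cantelli in `B`; counts ⟹ labels (`lt_count_lab`).   ⟹ `LReg.pos`.
(4) deterministic under `CReg`: `cSK K x z → cS x z` (`lt_cS_tendsto`), anchored identity `cS x z - cS x w = ∑' j (z-w)/((x_j-z)(x_j-w))` (`lt_cS_sub`), `cS x (iR) → iπρ` (`lt_cS_far`).
(5) JOINT convergence (`lt_joint`): `S_n(z) - mr = [S_n(z) - S_n(iR)] + [S_n(iR) - mr - iπρ] + iπρ`; the first bracket is an absolutely convergent sum whose tail beyond the labels `|j| > K` is `≤ C/L` on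
    `{|y_{±K}| ≥ L, Im S_n(iL) ≤ πρ+1}` (D3); its window part is a continuous function of the window; the second bracket is `≤ R^{-ξ}` off `C R^{-D}`; the same decomposition for `cS x z` by (4);
    conclude by `lt_together` (convergence together along an ultrafilter, bounded Lipschitz tests).
(6) `LReg.tr`: the set `{w : u^{-ξ} < |w - iπρ|}` is OPEN: its indicator is an increasing limit of bounded Lipschitz functions (from (5) with `b = 1`).
-/

set_option autoImplicit false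

namespace Claimed.Agent.R287

open MeasureTheory ProbabilityTheory Filter Topology
open scoped ENNReal

/-! ## 0. definitions -/

/-- resolvent weight of an extended point (`0` at `±∞`) -/
noncomputable def ltW (y : EReal) (z : ℂ) : ℂ := if y = ⊤ ∨ y = ⊥ then 0 else (((y.toReal : ℝ) : ℂ) - z)⁻¹

/-- index-symmetric partial Stieltjes sums of a labelled configuration -/
noncomputable def ltSK (K : ℕ) (y : TpCf) (z : ℂ) : ℂ := ∑ i : Win K, ltW (y (wIdx i)) z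

/-- the Stieltjes sum (a finite sum on `ltFin`; equals `cS` on real configurations) -/
noncomputable def ltS (y : TpCf) (z : ℂ) : ℂ := limUnder atTop fun K : ℕ => ltSK K y z

/-- labelled FINITE configurations -/
def ltFin : Set TpCf :=
  {y | Monotone y ∧ y ∈ tpLabSet ∧ ∃ J : ℕ, ∀ j : ℤ, (J : ℤ) ≤ |j| → (y j = ⊤ ∨ y j = ⊥)}

/-- the target of the trace: `mr + iπρ` -/
noncomputable def ltT (ρ mr : ℝ) : ℂ := (mr : ℂ) + ((Real.pi * ρ : ℝ) : ℂ) * Complex.I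

/-- **INPUT**: trace bounds at finite `n` along the ultrafilter -/
structure LtTr (ρ ξ mr : ℝ) (U : Ultrafilter ℕ) (Λ : ℕ → ProbabilityMeasure TpCf) : Prop where
  fin : ∀ᶠ n in (U : Filter ℕ), ∀ᵐ y ∂(Λ n : Measure TpCf), y ∈ ltFin
  tr : ∀ D : ℕ, ∃ C u₀ : ℝ, ∀ e u : ℝ, u₀ ≤ u → ∀ᶠ n in (U : Filter ℕ),
    (Λ n : Measure TpCf) {y | u ^ (-ξ) < ‖ltS y ((e : ℂ) + (u : ℂ) * Complex.I) - ltT ρ mr‖} ≤ ENNReal.ofReal (C * u ^ (-(D : ℝ)))

/-- **OUTPUT**: the three convergences -/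
structure LtLim (mr : ℝ) (U : Ultrafilter ℕ) (Λ : ℕ → ProbabilityMeasure TpCf) (μ : Measure Conf) : Prop where
  mono : ∀ᵐ x ∂μ, Monotone x
  lab : ∀ᵐ x ∂μ, x (-1) ≤ 0 ∧ 0 ≤ x 0
  win : ∀ (ι : Type) [Fintype ι] (idx : ι → ℤ) (F : BoundedContinuousFunction (ι → ℝ) ℝ),
    Tendsto (fun n => ∫ y, F (fun i => (y (idx i)).toReal) ∂(Λ n : Measure TpCf)) U (𝓝 (∫ x, F (fun i => x (idx i)) ∂μ))
  lap : ∀ g : ℝ → ℝ, Continuous g → HasCompactSupport g → (∀ t, 0 ≤ g t) →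
    Tendsto (fun n => ∫ y, tpLap g y ∂(Λ n : Measure TpCf)) U (𝓝 (cLap μ g))

/-- convergence in law of finitely many traces (bounded Lipschitz tests, as in `LStat`) -/
def LtJoint (mr : ℝ) (U : Ultrafilter ℕ) (Λ : ℕ → ProbabilityMeasure TpCf) (μ : Measure Conf) : Prop :=
  ∀ (b : ℕ) (z : Fin b → ℂ), (∀ a, 0 < (z a).im) → ∀ Φ : (Fin b → ℂ) → ℝ, (∃ B : ℝ, ∀ v, |Φ v| ≤ B) → (∃ Lc : NNReal, LipschitzWith Lc Φ) →
    Tendsto (fun n => ∫ y, Φ (fun a => ltS y (z a) - mr) ∂(Λ n : Measure TpCf)) U (𝓝 (∫ x, Φ (fun a => cS x (z a)) ∂μ))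

theorem lt_eqns_cite : True := by
  have := @ltW.eq_1
  have := @ltSK.eq_1
  have := @ltS.eq_1
  have := @ltFin.eq_1
  have := @ltT.eq_1
  have := @LtJoint.eq_1
  trivial

/-! ## 1. finite configurations -/

/-- M0: `limUnder` of a sequence of measurable maps into `ℂ` is measurable -/
theorem lt_limUnder_measurable {X : Type} [MeasurableSpace X] (f : ℕ → X → ℂ) (hf : ∀ K, Measurable (f K)) :
    Measurable fun x => limUnder atTop fun K => f K x :=
  (StronglyMeasurable.limUnder fun K => (hf K).stronglyMeasurable).measurable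

/-- M1 -/
theorem lt_W_measurable (z : ℂ) : Measurable fun y : EReal => ltW y z := by
  unfold ltW
  refine Measurable.ite ?_ measurable_const ?_
  · exact (measurableSet_singleton (⊤ : EReal)).union (measurableSet_singleton (⊥ : EReal))
  · exact ((Complex.measurable_ofReal.comp measurable_id.ereal_toReal).sub_const z).inv

theorem lt_SK_measurable (K : ℕ) (z : ℂ) : Measurable fun y : TpCf => ltSK K y z := by
  unfold ltSK
  exact Finset.measurable_sum _ fun i _ => (lt_W_measurable z).comp (measurable_pi_apply _)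

theorem lt_S_measurable (z : ℂ) : Measurable fun y : TpCf => ltS y z :=
  lt_limUnder_measurable _ fun K => lt_SK_measurable K z

/-- M2 (closed ∩ closed ∩ countable union of closed sets) -/
theorem lt_fin_measurable : MeasurableSet ltFin := by
  have h : ltFin = {y : TpCf | Monotone y} ∩ (tpLabSet ∩ ⋃ J : ℕ, ⋂ j : ℤ, {y : TpCf | (J : ℤ) ≤ |j| → (y j = ⊤ ∨ y j = ⊥)}) := by
    ext y
    simp only [ltFin, Set.mem_ofPred_eq, Set.mem_inter_iff, Set.mem_iUnion, Set.mem_iInter]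
  rw [h]
  refine tp_mono_closed.measurableSet.inter (tp_labSet_closed.measurableSet.inter
    (MeasurableSet.iUnion fun J => MeasurableSet.iInter fun j => ?_))
  by_cases hj : (J : ℤ) ≤ |j|
  · have e : {y : TpCf | (J : ℤ) ≤ |j| → (y j = ⊤ ∨ y j = ⊥)} = (fun y : TpCf => y j) ⁻¹' ({⊤} ∪ {⊥}) := by
      ext y; simp [hj, or_comm]
    rw [e]
    exact (measurable_pi_apply j) ((measurableSet_singleton _).union (measurableSet_singleton _))
  · have e : {y : TpCf | (J : ℤ) ≤ |j| → (y j = ⊤ ∨ y j = ⊥)} = Set.univ := by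
      ext y; simp [hj]
    rw [e]; exact MeasurableSet.univ

theorem lt_lab_out (s : Multiset ℝ) (j : ℤ) (hj : ((Multiset.card s + 1 : ℕ) : ℤ) ≤ |j|) : tpLab s j = ⊤ ∨ tpLab s j = ⊥ := by
  rcases le_total 0 j with h0 | h0
  · left
    rw [abs_of_nonneg h0] at hj
    obtain ⟨i, rfl⟩ := Int.eq_ofNat_of_zero_le h0
    rw [tp_lab_pos]
    exact tp_get_of_le _ ((tp_pos_length_le s).trans (by omega))
  · right
    rw [abs_of_nonpos h0] at hj
    obtain ⟨i, hi⟩ : ∃ i : ℕ, j = -(i : ℤ) - 1 := ⟨(-j - 1).toNat, by omega⟩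
    rw [hi, tp_lab_neg]
    exact tp_get_of_le _ ((tp_neg_length_le s).trans (by omega))

/-- M3 (`tp_lab_mono`, `tp_lab_mem_labSet`, `tp_get_of_le`) -/
theorem lt_lab_fin (s : Multiset ℝ) : tpLab s ∈ ltFin :=
  ⟨tp_lab_mono s, tp_lab_mem_labSet s, Multiset.card s + 1, lt_lab_out s⟩

theorem lt_W_top (z : ℂ) : ltW ⊤ z = 0 := by simp [ltW]

theorem lt_W_bot (z : ℂ) : ltW ⊥ z = 0 := by simp [ltW]

theorem lt_W_coe (r : ℝ) (z : ℂ) : ltW (r : EReal) z = ((r : ℂ) - z)⁻¹ := by simp [ltW]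

theorem lt_SK_Icc (K : ℕ) (y : TpCf) (z : ℂ) : ltSK K y z = ∑ j ∈ Finset.Icc (-(K : ℤ)) K, ltW (y j) z :=
  k9_sum_win K fun j => ltW (y j) z

theorem lt_SK_const {y : TpCf} {J : ℕ} (hJ : ∀ j : ℤ, (J : ℤ) ≤ |j| → (y j = ⊤ ∨ y j = ⊥)) (z : ℂ) {K : ℕ} (hK : J ≤ K) :
    ltSK K y z = ltSK J y z := by
  rw [lt_SK_Icc, lt_SK_Icc]
  symm
  refine Finset.sum_subset (Finset.Icc_subset_Icc (by omega) (by omega)) fun j _ hj => ?_
  have h1 : (J : ℤ) ≤ |j| := by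
    by_contra h2
    rw [not_le, abs_lt] at h2
    exact hj (Finset.mem_Icc.2 ⟨h2.1.le, h2.2.le⟩)
  rcases hJ j h1 with h | h
  · rw [h, lt_W_top]
  · rw [h, lt_W_bot]

/-- D0: on `ltFin` the partial sums are eventually constant -/
theorem lt_S_fin {y : TpCf} {J : ℕ} (hJ : ∀ j : ℤ, (J : ℤ) ≤ |j| → (y j = ⊤ ∨ y j = ⊥)) (z : ℂ) {K : ℕ} (hK : J ≤ K) :
    ltS y z = ltSK K y z := by
  unfold ltS
  apply Tendsto.limUnder_eq
  refine tendsto_const_nhds.congr' ?_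
  filter_upwards [eventually_ge_atTop J] with K' hK'
  rw [lt_SK_const hJ z hK, lt_SK_const hJ z hK']

theorem lt_sum_get {M : Type} [AddCommMonoid M] (φ : EReal → M) (dflt : EReal) (h0 : φ dflt = 0) (l : List ℝ) :
    ∀ N : ℕ, l.length ≤ N →
      ∑ i ∈ Finset.range N, φ (tpGet dflt l i) = (l.map fun r : ℝ => φ (r : EReal)).sum := by
  induction l with
  | nil => intro N _; simp [h0]
  | cons a l ih =>
    intro N hN
    obtain ⟨N', rfl⟩ : ∃ N', N = N' + 1 := ⟨N - 1, by simp at hN; omega⟩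
    rw [Finset.sum_range_succ']
    simp only [tp_get_cons_succ, tp_get_cons_zero, List.map_cons, List.sum_cons]
    rw [ih N' (by simpa using hN), add_comm]

theorem lt_list_sum_split {M : Type} [AddCommMonoid M] (s : Multiset ℝ) (f : ℝ → M) :
    ((tpPos s).map f).sum + ((tpNeg s).map f).sum = (s.map f).sum := by
  have h1 : ((tpPos s).map f).sum = ((s.filter fun t => 0 ≤ t).map f).sum := by
    conv_rhs => rw [← Multiset.sort_eq (s.filter fun t => 0 ≤ t) (· ≤ ·)]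
    rw [Multiset.map_coe, Multiset.sum_coe]; rfl
  have h2 : ((tpNeg s).map f).sum = ((s.filter fun t => ¬ 0 ≤ t).map f).sum := by
    have : (s.filter fun t => ¬ 0 ≤ t) = s.filter fun t => t < 0 := by
      congr 1; funext t; simp
    rw [this]
    conv_rhs => rw [← Multiset.sort_eq (s.filter fun t => t < 0) (· ≥ ·)]
    rw [Multiset.map_coe, Multiset.sum_coe]; rfl
  rw [h1, h2, ← Multiset.sum_add, ← Multiset.map_add, Multiset.filter_add_not]

theorem lt_sum_Icc {M : Type} [AddCommMonoid M] (g : ℤ → M) (J : ℕ) :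
    ∑ j ∈ Finset.Icc (-(J : ℤ)) J, g j = ∑ i ∈ Finset.range J, (g (i : ℤ) + g (-(i : ℤ) - 1)) + g J := by
  induction J with
  | zero => simp
  | succ J ih =>
    have e : Finset.Icc (-((J + 1 : ℕ) : ℤ)) ((J + 1 : ℕ) : ℤ) = insert (-(J : ℤ) - 1) (insert ((J : ℤ) + 1) (Finset.Icc (-(J : ℤ)) J)) := by
      ext j
      simp only [Finset.mem_Icc, Finset.mem_insert]
      push_cast
      omega
    rw [e, Finset.sum_insert, Finset.sum_insert, ih, Finset.sum_range_succ]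
    · push_cast
      abel
    · simp only [Finset.mem_Icc]; omega
    · simp only [Finset.mem_Icc, Finset.mem_insert]; omega

/-- D1: the Stieltjes sum of a labelled multiset (`tp_list_sum_split`, `tp_sum_get` pattern of `tp_sumJ_lab`) -/
theorem lt_S_lab (s : Multiset ℝ) (z : ℂ) : ltS (tpLab s) z = (s.map fun t : ℝ => ((t : ℂ) - z)⁻¹).sum := by
  set J : ℕ := Multiset.card s + 1 with hJ
  rw [lt_S_fin (lt_lab_out s) z le_rfl, lt_SK_Icc, lt_sum_Icc]
  have h1 : ltW (tpLab s ((Multiset.card s + 1 : ℕ) : ℤ)) z = 0 := by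
    rw [tp_lab_pos, tp_get_of_le _ ((tp_pos_length_le s).trans (by omega)), lt_W_top]
  rw [h1, add_zero]
  simp only [tp_lab_pos, tp_lab_neg]
  rw [Finset.sum_add_distrib,
    lt_sum_get (fun y => ltW y z) ⊤ (lt_W_top z) _ _ ((tp_pos_length_le s).trans (by omega)),
    lt_sum_get (fun y => ltW y z) ⊥ (lt_W_bot z) _ _ ((tp_neg_length_le s).trans (by omega))]
  simp only [lt_W_coe]
  exact lt_list_sum_split s _

/-- D1': real configurations -/
theorem lt_S_coe (x : Conf) (z : ℂ) : ltS (tpCoe x) z = cS x z := by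
  have h : (fun K : ℕ => ltSK K (tpCoe x) z) = fun K : ℕ => cSK K x z := by
    funext K
    unfold ltSK cSK cPos tpCoe
    exact Finset.sum_congr rfl fun i _ => lt_W_coe _ z
  unfold ltS cS
  rw [h]

/-! ## 2. one finite configuration: counts from the imaginary part -/

/-- number of labels with `a ≤ y_j ≤ b` -/
noncomputable def ltN (y : TpCf) (a b : ℝ) : ℕ := Set.ncard {j : ℤ | (a : EReal) ≤ y j ∧ y j ≤ (b : EReal)}

/-- the spectral parameter `e + iu` -/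
noncomputable def ltZ (e u : ℝ) : ℂ := (e : ℂ) + (u : ℂ) * Complex.I

theorem lt_eqns_cite2 : True := by
  have := @ltN.eq_1
  have := @ltZ.eq_1
  trivial

/-- a label in a bounded window lies in the support -/
theorem lt_win_sub {y : TpCf} {J : ℕ} (hJ : ∀ j : ℤ, (J : ℤ) ≤ |j| → (y j = ⊤ ∨ y j = ⊥)) (a b : ℝ) {j : ℤ}
    (hj : (a : EReal) ≤ y j ∧ y j ≤ (b : EReal)) : j ∈ Finset.Icc (-(J : ℤ)) J := by
  by_contra hc
  have h1 : (J : ℤ) ≤ |j| := by
    rw [Finset.mem_Icc, not_and_or, not_le, not_le] at hc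
    rw [le_abs]
    rcases hc with h | h
    · right; omega
    · left; omega
  rcases hJ j h1 with h | h
  · rw [h] at hj
    exact absurd hj.2 (by simp)
  · rw [h] at hj
    exact absurd hj.1 (by simp)

/-- a point in a bounded window is real -/
theorem lt_win_real {t : EReal} {a b : ℝ} (h : (a : EReal) ≤ t ∧ t ≤ (b : EReal)) :
    ¬ (t = ⊤ ∨ t = ⊥) ∧ a ≤ t.toReal ∧ t.toReal ≤ b := by
  have h1 : t ≠ ⊤ := fun e => by rw [e] at h; exact absurd h.2 (by simp)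
  have h2 : t ≠ ⊥ := fun e => by rw [e] at h; exact absurd h.1 (by simp)
  have e := EReal.coe_toReal h1 h2
  refine ⟨fun hc => hc.elim h1 h2, ?_, ?_⟩
  · rw [← EReal.coe_le_coe_iff, e]; exact h.1
  · rw [← EReal.coe_le_coe_iff, e]; exact h.2

open Classical in
/-- the count as the cardinality of a filter -/
theorem lt_N_eq {y : TpCf} {J : ℕ} (hJ : ∀ j : ℤ, (J : ℤ) ≤ |j| → (y j = ⊤ ∨ y j = ⊥)) (a b : ℝ) :
    ltN y a b = ((Finset.Icc (-(J : ℤ)) J).filter fun j => (a : EReal) ≤ y j ∧ y j ≤ (b : EReal)).card := by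
  unfold ltN
  rw [← Set.ncard_coe_finset]
  congr 1
  ext j
  simp only [Set.mem_ofPred_eq, Finset.coe_filter]
  exact ⟨fun h => ⟨lt_win_sub hJ a b h, h⟩, fun h => h.2⟩

/-- LEAF D2a: the set of labels in a bounded window is finite -/
theorem lt_N_finite {y : TpCf} (hy : y ∈ ltFin) (a b : ℝ) : {j : ℤ | (a : EReal) ≤ y j ∧ y j ≤ (b : EReal)}.Finite := by
  obtain ⟨_, _, J, hJ⟩ := hy
  exact (Finset.finite_toSet (Finset.Icc (-(J : ℤ)) J)).subset fun j hj => lt_win_sub hJ a b hj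

/-- LEAF D2b: imaginary part as a sum of Poisson kernels, `K` beyond the support -/
theorem lt_S_im {y : TpCf} {J : ℕ} (hJ : ∀ j : ℤ, (J : ℤ) ≤ |j| → (y j = ⊤ ∨ y j = ⊥)) (e u : ℝ) :
    (ltS y (ltZ e u)).im = ∑ j ∈ Finset.Icc (-(J : ℤ)) J, if y j = ⊤ ∨ y j = ⊥ then 0 else ctP ((y j).toReal - e) u := by
  rw [lt_S_fin hJ (ltZ e u) (le_refl J)]
  unfold ltSK
  rw [k9_sum_win J (fun j => ltW (y j) (ltZ e u)), Complex.im_sum]
  refine Finset.sum_congr rfl fun j _ => ?_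
  unfold ltW
  split_ifs
  · simp
  · exact ct_inv_im _ e u

/-- LEAF D2 (upper count): `u/(t²+u²) ≥ 1/(2R)` for `|t| ≤ R = u` -/
theorem lt_count_le {y : TpCf} (hy : y ∈ ltFin) (e : ℝ) {R : ℝ} (hR : 0 < R) :
    (ltN y (e - R) (e + R) : ℝ) ≤ 2 * R * (ltS y (ltZ e R)).im := by
  classical
  obtain ⟨_, _, J, hJ⟩ := hy
  rw [lt_S_im hJ, lt_N_eq hJ, Finset.mul_sum, Finset.card_filter]
  simp only [Nat.cast_sum, Nat.cast_ite, Nat.cast_one, Nat.cast_zero]
  refine Finset.sum_le_sum fun j _ => ?_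
  by_cases hj : ((e - R : ℝ) : EReal) ≤ y j ∧ y j ≤ ((e + R : ℝ) : EReal)
  · obtain ⟨h0, h1, h2⟩ := lt_win_real hj
    rw [if_pos hj, if_neg h0]
    unfold ctP
    set t := (y j).toReal - e with ht
    have ht2 : t ^ 2 ≤ R ^ 2 := sq_le_sq' (by linarith) (by linarith)
    rw [← mul_div_assoc, le_div_iff₀ (by positivity)]
    nlinarith
  · rw [if_neg hj]
    split_ifs
    · simp
    · exact mul_nonneg (by positivity) (ct_P_pos _ hR).le

/-- LEAF D4 (lower count): `Im S(e+iu) ≤ N/u + ∑_{|t-e|>R} u/(t-e)² ≤ N/u + (2u/R) Im S(e+iR)` -/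
theorem lt_count_ge {y : TpCf} (hy : y ∈ ltFin) (e : ℝ) {u R : ℝ} (hu : 0 < u) (hR : 0 < R) :
    u * ((ltS y (ltZ e u)).im - 2 * u / R * (ltS y (ltZ e R)).im) ≤ (ltN y (e - R) (e + R) : ℝ) := by
  classical
  obtain ⟨_, _, J, hJ⟩ := hy
  rw [lt_S_im hJ, lt_S_im hJ, lt_N_eq hJ, Finset.mul_sum, ← Finset.sum_sub_distrib, Finset.mul_sum, Finset.card_filter]
  simp only [Nat.cast_sum, Nat.cast_ite, Nat.cast_one, Nat.cast_zero]
  refine Finset.sum_le_sum fun j _ => ?_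
  by_cases h0 : y j = ⊤ ∨ y j = ⊥
  · rw [if_pos h0, if_pos h0]
    split_ifs <;> simp
  rw [if_neg h0, if_neg h0]
  set t := (y j).toReal - e with ht
  have hP : 0 < ctP t R := ct_P_pos _ hR
  by_cases hj : ((e - R : ℝ) : EReal) ≤ y j ∧ y j ≤ ((e + R : ℝ) : EReal)
  · rw [if_pos hj]
    have h1 : u * ctP t u ≤ 1 := by
      unfold ctP
      rw [← mul_div_assoc, div_le_one (by positivity)]
      nlinarith [sq_nonneg t]
    have h2 : 0 ≤ u * (2 * u / R * ctP t R) := by positivity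
    linarith
  · rw [if_neg hj]
    have e1 := EReal.coe_toReal (fun h => h0 (Or.inl h)) (fun h => h0 (Or.inr h))
    have hR2 : R ^ 2 < t ^ 2 := by
      rw [← e1, EReal.coe_le_coe_iff, EReal.coe_le_coe_iff, not_and_or, not_le, not_le] at hj
      rcases hj with h | h
      · nlinarith
      · nlinarith
    have ht0 : 0 < t ^ 2 := lt_of_le_of_lt (sq_nonneg R) hR2
    have h1 : u * ctP t u ≤ u ^ 2 / t ^ 2 := by
      unfold ctP
      rw [← mul_div_assoc, div_le_div_iff₀ (by positivity) ht0]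
      nlinarith [mul_pos (pow_pos hu 2) (pow_pos hu 2)]
    have h2 : u ^ 2 / t ^ 2 ≤ u * (2 * u / R * ctP t R) := by
      unfold ctP
      have e2 : u * (2 * u / R * (R / (t ^ 2 + R ^ 2))) = (2 * u ^ 2) / (t ^ 2 + R ^ 2) := by
        field_simp
      rw [e2, div_le_div_iff₀ ht0 (by positivity)]
      nlinarith [pow_pos hu 2]
    linarith

/-- LEAF L1: labels versus counts, right of the origin -/
theorem lt_lab_right {y : TpCf} (hy : y ∈ ltFin) {a b : ℝ} (ha : 0 < a) {i : ℕ} (h : (b : EReal) < y (i : ℤ)) : ltN y a b ≤ i := by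
  obtain ⟨hm, hl, _⟩ := hy
  have hsub : {j : ℤ | (a : EReal) ≤ y j ∧ y j ≤ (b : EReal)} ⊆ ↑(Finset.Ico (0 : ℤ) i) := by
    intro j hj
    rw [Finset.coe_Ico, Set.mem_Ico]
    constructor
    · by_contra hc
      have h1 : y j ≤ y (-1) := hm (by omega)
      have h2 : (a : EReal) ≤ 0 := hj.1.trans (h1.trans hl.1)
      have h3 : a ≤ 0 := by exact_mod_cast h2
      linarith
    · by_contra hc
      have h1 : y (i : ℤ) ≤ y j := hm (by omega)
      exact absurd (lt_of_lt_of_le h (h1.trans hj.2)) (lt_irrefl _)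
  have := Set.ncard_le_ncard hsub (Finset.finite_toSet _)
  rw [Set.ncard_coe_finset, Int.card_Ico] at this
  simpa [ltN] using this

/-- LEAF L2: labels versus counts, left of the origin -/
theorem lt_lab_left {y : TpCf} (hy : y ∈ ltFin) {a b : ℝ} (hb : b < 0) {i : ℕ} (h : y (-(i : ℤ) - 1) < (a : EReal)) : ltN y a b ≤ i := by
  obtain ⟨hm, hl, _⟩ := hy
  have hsub : {j : ℤ | (a : EReal) ≤ y j ∧ y j ≤ (b : EReal)} ⊆ ↑(Finset.Ico (-(i : ℤ)) 0) := by
    intro j hj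
    rw [Finset.coe_Ico, Set.mem_Ico]
    constructor
    · by_contra hc
      have h1 : y j ≤ y (-(i : ℤ) - 1) := hm (by omega)
      exact absurd (lt_of_le_of_lt (hj.1.trans h1) h) (lt_irrefl _)
    · by_contra hc
      have h1 : y 0 ≤ y j := hm (by omega)
      have h2 : (0 : EReal) ≤ (b : EReal) := hl.2.trans (h1.trans hj.2)
      have h3 : 0 ≤ b := by exact_mod_cast h2
      linarith
  have := Set.ncard_le_ncard hsub (Finset.finite_toSet _)
  rw [Set.ncard_coe_finset, Int.card_Ico] at this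
  simpa [ltN] using this

/-- LEAF L3: the bad set of local finiteness -/
theorem lt_lab_bad {y : TpCf} (hy : y ∈ ltFin) {R : ℝ} {J : ℕ} (h : y ∈ tpBad R J) : J + 1 ≤ ltN y (-R) R := by
  have hfin := lt_N_finite hy (-R) R
  obtain ⟨hm, hl, _⟩ := hy
  rcases h with h | h
  · have h' : y (J : ℤ) ≤ (R : EReal) := h
    have hR : (0 : EReal) ≤ (R : EReal) := hl.2.trans ((hm (by omega : (0 : ℤ) ≤ J)).trans h')
    have hR' : ((-R : ℝ) : EReal) ≤ 0 := by
      have : (0 : ℝ) ≤ R := by exact_mod_cast hR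
      exact_mod_cast (by linarith : -R ≤ 0)
    have hsub : (↑(Finset.Icc (0 : ℤ) J) : Set ℤ) ⊆ {j : ℤ | ((-R : ℝ) : EReal) ≤ y j ∧ y j ≤ (R : EReal)} := by
      intro j hj
      rw [Finset.coe_Icc, Set.mem_Icc] at hj
      exact ⟨hR'.trans (hl.2.trans (hm hj.1)), (hm hj.2).trans h'⟩
    have := Set.ncard_le_ncard hsub hfin
    rw [Set.ncard_coe_finset, Int.card_Icc] at this
    have e : ((J : ℤ) + 1 - 0).toNat = J + 1 := by omega
    rw [e] at this
    exact this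
  · have h' : ((-R : ℝ) : EReal) ≤ y (-(J : ℤ) - 1) := h
    have hR' : ((-R : ℝ) : EReal) ≤ 0 := h'.trans ((hm (by omega : -(J : ℤ) - 1 ≤ -1)).trans hl.1)
    have hR : (0 : EReal) ≤ (R : EReal) := by
      have : -R ≤ 0 := by exact_mod_cast hR'
      exact_mod_cast (by linarith : (0 : ℝ) ≤ R)
    have hsub : (↑(Finset.Icc (-(J : ℤ) - 1) (-1)) : Set ℤ) ⊆ {j : ℤ | ((-R : ℝ) : EReal) ≤ y j ∧ y j ≤ (R : EReal)} := by
      intro j hj
      rw [Finset.coe_Icc, Set.mem_Icc] at hj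
      exact ⟨h'.trans (hm hj.1), ((hm hj.2).trans hl.1).trans hR⟩
    have := Set.ncard_le_ncard hsub hfin
    rw [Set.ncard_coe_finset, Int.card_Icc] at this
    have e : ((-1 : ℤ) + 1 - (-(J : ℤ) - 1)).toNat = J + 1 := by omega
    rw [e] at this
    exact this

/-! ## 3. existence of the limit law -/

section lim

variable {ρ ξ mr : ℝ} {U : Ultrafilter ℕ} {Λ : ℕ → ProbabilityMeasure TpCf}

/-- LEAF P0: two-sided bound of `Im S` at one point, in the form used below: off an event of probability `≤ ε` (eventually along `U`) `|Im S_n(e+iu) - πρ| ≤ 1 ∧ …`; `u` as large as we like -/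
theorem lt_im_event (hξ : 0 < ξ) (H : LtTr ρ ξ mr U Λ) (ε δ : ℝ) (hε : 0 < ε) (hδ : 0 < δ) : ∃ u₁ : ℝ, 0 < u₁ ∧ ∀ e u : ℝ, u₁ ≤ u → ∀ᶠ n in (U : Filter ℕ),
    (Λ n : Measure TpCf) {y | δ < ‖ltS y (ltZ e u) - ltT ρ mr‖} ≤ ENNReal.ofReal ε := by
  obtain ⟨C, u₀, htr⟩ := H.tr 1
  set v := δ ^ (-(1 / ξ)) with hv
  have hv0 : 0 < v := Real.rpow_pos_of_pos hδ _
  refine ⟨max (max u₀ 1) (max v (|C| / ε)), lt_of_lt_of_le one_pos ((le_max_right _ _).trans (le_max_left _ _)), fun e u hu => ?_⟩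
  have hu0 : u₀ ≤ u := ((le_max_left _ _).trans (le_max_left _ _)).trans hu
  have hu1 : 1 ≤ u := ((le_max_right _ _).trans (le_max_left _ _)).trans hu
  have huv : v ≤ u := ((le_max_left _ _).trans (le_max_right _ _)).trans hu
  have huC : |C| / ε ≤ u := ((le_max_right _ _).trans (le_max_right _ _)).trans hu
  have hupos : 0 < u := lt_of_lt_of_le one_pos hu1
  have h1 : u ^ (-ξ) ≤ δ := by
    have h2 : u ^ (-ξ) ≤ v ^ (-ξ) := Real.rpow_le_rpow_of_nonpos hv0 huv (by linarith)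
    have h3 : v ^ (-ξ) = δ := by
      rw [hv, ← Real.rpow_mul hδ.le]
      have : -(1 / ξ) * -ξ = 1 := by field_simp
      rw [this, Real.rpow_one]
    linarith
  have h4 : C * u ^ (-((1 : ℕ) : ℝ)) ≤ ε := by
    have e1 : u ^ (-((1 : ℕ) : ℝ)) = u⁻¹ := by
      rw [Nat.cast_one, Real.rpow_neg_one]
    rw [e1, ← div_eq_mul_inv, div_le_iff₀ hupos]
    rw [div_le_iff₀ hε] at huC
    have := le_abs_self C
    linarith
  filter_upwards [htr e u hu0] with n hn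
  refine (measure_mono fun y hy => ?_).trans (hn.trans (ENNReal.ofReal_le_ofReal h4))
  exact lt_of_le_of_lt h1 hy

theorem lt_T_im (ρ mr : ℝ) : (ltT ρ mr).im = Real.pi * ρ := by
  simp [ltT]

/-- the imaginary part is within `δ` of `πρ` on the good event -/
theorem lt_im_close {w : ℂ} {δ : ℝ} (h : ‖w - ltT ρ mr‖ ≤ δ) : Real.pi * ρ - δ ≤ w.im ∧ w.im ≤ Real.pi * ρ + δ := by
  have h1 := (Complex.abs_im_le_norm (w - ltT ρ mr)).trans h
  rw [Complex.sub_im, lt_T_im, abs_le] at h1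
  constructor <;> linarith [h1.1, h1.2]

theorem lt_N_mono {y : TpCf} (hy : y ∈ ltFin) {a b a' b' : ℝ} (ha : a' ≤ a) (hb : b ≤ b') : ltN y a b ≤ ltN y a' b' := by
  unfold ltN
  refine Set.ncard_le_ncard (fun j hj => ⟨le_trans (EReal.coe_le_coe_iff.2 ha) hj.1, le_trans hj.2 (EReal.coe_le_coe_iff.2 hb)⟩)
    (lt_N_finite hy a' b')

/-- LEAF P1 (tightness of every label): `lt_im_event` at `(e,u)` and `(e,R)`, `R = 8u`, `e = ±(R+1)`, `u πρ/2 > |j|+1`; `lt_count_ge`, `lt_lab_right`, `lt_lab_left` -/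
theorem lt_tight (hρ : 0 < ρ) (hξ : 0 < ξ) (H : LtTr ρ ξ mr U Λ) (j : ℤ) (ε : ℝ) (hε : 0 < ε) :
    ∃ R : ℝ, ∀ᶠ n in (U : Filter ℕ), (Λ n : Measure TpCf) (tpOut j R) ≤ ENNReal.ofReal ε := by
  have hπρ : 0 < Real.pi * ρ := mul_pos Real.pi_pos hρ
  set δ : ℝ := Real.pi * ρ / 5 with hδ
  have hδ0 : 0 < δ := by positivity
  obtain ⟨u₁, hu₁, hev⟩ := lt_im_event hξ H (ε / 4) δ (by positivity) hδ0
  set u : ℝ := max u₁ (2 * ((j.natAbs : ℝ) + 1) / (Real.pi * ρ)) with hu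
  have hu1 : u₁ ≤ u := le_max_left _ _
  have hu0 : 0 < u := lt_of_lt_of_le hu₁ hu1
  have huj : (j.natAbs : ℝ) + 1 ≤ u * (Real.pi * ρ / 2) := by
    have := le_max_right u₁ (2 * ((j.natAbs : ℝ) + 1) / (Real.pi * ρ))
    rw [div_le_iff₀ hπρ] at this
    linarith
  set R₀ : ℝ := 8 * u with hR₀
  have hR₀0 : 0 < R₀ := by positivity
  have hu2 : u₁ ≤ R₀ := by rw [hR₀]; linarith
  have key : ∀ y ∈ ltFin, ∀ e : ℝ, ‖ltS y (ltZ e u) - ltT ρ mr‖ ≤ δ → ‖ltS y (ltZ e R₀) - ltT ρ mr‖ ≤ δ →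
      (j.natAbs : ℝ) + 1 ≤ (ltN y (e - R₀) (e + R₀) : ℝ) := by
    intro y hy e h1 h2
    have a1 := (lt_im_close h1).1
    have a2 := (lt_im_close h2).2
    have a3 := lt_count_ge hy e hu0 hR₀0
    have e1 : 2 * u / R₀ = 1 / 4 := by rw [hR₀]; field_simp; norm_num
    rw [e1] at a3
    have a4 : u * (Real.pi * ρ / 2) ≤ u * ((ltS y (ltZ e u)).im - 1 / 4 * (ltS y (ltZ e R₀)).im) := by
      refine mul_le_mul_of_nonneg_left ?_ hu0.le
      rw [hδ] at a1 a2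
      linarith
    linarith
  refine ⟨2 * R₀ + 1, ?_⟩
  filter_upwards [H.fin, hev (R₀ + 1) u hu1, hev (R₀ + 1) R₀ hu2, hev (-(R₀ + 1)) u hu1, hev (-(R₀ + 1)) R₀ hu2] with n hfin h1 h2 h3 h4
  have hsub : tpOut j (2 * R₀ + 1) ≤ᵐ[(Λ n : Measure TpCf)]
      (({y | δ < ‖ltS y (ltZ (R₀ + 1) u) - ltT ρ mr‖} ∪ {y | δ < ‖ltS y (ltZ (R₀ + 1) R₀) - ltT ρ mr‖}) ∪
        ({y | δ < ‖ltS y (ltZ (-(R₀ + 1)) u) - ltT ρ mr‖} ∪ {y | δ < ‖ltS y (ltZ (-(R₀ + 1)) R₀) - ltT ρ mr‖}) : Set TpCf) := by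
    filter_upwards [hfin] with y hy hout
    by_contra hc
    have hc' : ¬ (((δ < ‖ltS y (ltZ (R₀ + 1) u) - ltT ρ mr‖) ∨ (δ < ‖ltS y (ltZ (R₀ + 1) R₀) - ltT ρ mr‖)) ∨
        ((δ < ‖ltS y (ltZ (-(R₀ + 1)) u) - ltT ρ mr‖) ∨ (δ < ‖ltS y (ltZ (-(R₀ + 1)) R₀) - ltT ρ mr‖))) := hc
    rw [not_or, not_or, not_or, not_lt, not_lt, not_lt, not_lt] at hc'
    obtain ⟨⟨c1, c2⟩, c3, c4⟩ := hc'
    rcases hout with hl | hr
    · -- left
      have hl' : y j < ((-(2 * R₀ + 1) : ℝ) : EReal) := hl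
      rcases lt_or_ge j 0 with hj | hj
      · obtain ⟨i, hi⟩ : ∃ i : ℕ, j = -(i : ℤ) - 1 := ⟨(-j - 1).toNat, by omega⟩
        have hna : j.natAbs = i + 1 := by omega
        have k1 := key y hy (-(R₀ + 1)) c3 c4
        have e1 : (-(2 * R₀ + 1) : ℝ) = -(R₀ + 1) - R₀ := by ring
        rw [e1, hi] at hl'
        have k2 := lt_lab_left hy (a := -(R₀ + 1) - R₀) (b := -(R₀ + 1) + R₀) (by linarith) hl'
        have k3 : (ltN y (-(R₀ + 1) - R₀) (-(R₀ + 1) + R₀) : ℝ) ≤ (i : ℝ) := by exact_mod_cast k2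
        rw [hna] at k1
        push_cast at k1
        linarith
      · have m1 : y 0 ≤ y j := hy.1 hj
        have m2 : (0 : EReal) ≤ y 0 := hy.2.1.2
        have m3 : (0 : EReal) < ((-(2 * R₀ + 1) : ℝ) : EReal) := lt_of_le_of_lt (m2.trans m1) hl'
        have m4 : (0 : ℝ) < -(2 * R₀ + 1) := by exact_mod_cast m3
        linarith
    · have hr' : ((2 * R₀ + 1 : ℝ) : EReal) < y j := hr
      rcases lt_or_ge j 0 with hj | hj
      · have m1 : y j ≤ y (-1) := hy.1 (by omega)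
        have m2 : y (-1) ≤ (0 : EReal) := hy.2.1.1
        have m3 : ((2 * R₀ + 1 : ℝ) : EReal) < (0 : EReal) := lt_of_lt_of_le hr' (m1.trans m2)
        have m4 : (2 * R₀ + 1 : ℝ) < 0 := by exact_mod_cast m3
        linarith
      · obtain ⟨i, hi⟩ : ∃ i : ℕ, j = (i : ℤ) := ⟨j.toNat, by omega⟩
        have hna : j.natAbs = i := by omega
        have k1 := key y hy (R₀ + 1) c1 c2
        have e1 : (2 * R₀ + 1 : ℝ) = R₀ + 1 + R₀ := by ring
        rw [e1, hi] at hr'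
        have k2 := lt_lab_right hy (a := R₀ + 1 - R₀) (b := R₀ + 1 + R₀) (by linarith) hr'
        have k3 : (ltN y (R₀ + 1 - R₀) (R₀ + 1 + R₀) : ℝ) ≤ (i : ℝ) := by exact_mod_cast k2
        rw [hna] at k1
        linarith
  have hq : 0 ≤ ε / 4 := by positivity
  calc (Λ n : Measure TpCf) (tpOut j (2 * R₀ + 1)) ≤ _ := measure_mono_ae hsub
    _ ≤ (ENNReal.ofReal (ε / 4) + ENNReal.ofReal (ε / 4)) + (ENNReal.ofReal (ε / 4) + ENNReal.ofReal (ε / 4)) :=
        (measure_union_le _ _).trans (add_le_add ((measure_union_le _ _).trans (add_le_add h1 h2))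
          ((measure_union_le _ _).trans (add_le_add h3 h4)))
    _ = ENNReal.ofReal ε := by
        rw [← ENNReal.ofReal_add hq hq, ← ENNReal.ofReal_add (by positivity) (by positivity)]
        congr 1
        ring

/-- LEAF P2 (local finiteness): `lt_im_event` at `(0, R')`, `R' = max R u₁`; `lt_count_le`, `lt_lab_bad`; `J ≥ 2R'(πρ+1)` -/
theorem lt_locfin (hρ : 0 < ρ) (hξ : 0 < ξ) (H : LtTr ρ ξ mr U Λ) (R ε : ℝ) (hε : 0 < ε) :
    ∃ J : ℕ, ∀ᶠ n in (U : Filter ℕ), (Λ n : Measure TpCf) (tpBad R J) ≤ ENNReal.ofReal ε := by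
  obtain ⟨u₁, hu₁, hev⟩ := lt_im_event hξ H ε 1 hε one_pos
  set R' : ℝ := max R u₁ with hR'
  have hR'0 : 0 < R' := lt_of_lt_of_le hu₁ (le_max_right _ _)
  refine ⟨⌈2 * R' * (Real.pi * ρ + 1)⌉₊, ?_⟩
  filter_upwards [H.fin, hev 0 R' (le_max_right _ _)] with n hfin hn
  refine le_trans (measure_mono_ae ?_) hn
  filter_upwards [hfin] with y hy hbad
  by_contra hc
  have hc' : ‖ltS y (ltZ 0 R') - ltT ρ mr‖ ≤ 1 := not_lt.1 hc
  have h1 := (lt_im_close hc').2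
  have h2 : ⌈2 * R' * (Real.pi * ρ + 1)⌉₊ + 1 ≤ ltN y (-R) R := lt_lab_bad hy hbad
  have h3 : ltN y (-R) R ≤ ltN y (0 - R') (0 + R') :=
    lt_N_mono hy (by have := le_max_left R u₁; linarith) (by have := le_max_left R u₁; linarith)
  have h4 := lt_count_le hy 0 hR'0
  have h5 : ((⌈2 * R' * (Real.pi * ρ + 1)⌉₊ + 1 : ℕ) : ℝ) ≤ (ltN y (0 - R') (0 + R') : ℝ) := by exact_mod_cast h2.trans h3
  have h6 := Nat.le_ceil (2 * R' * (Real.pi * ρ + 1))
  have h7 : 2 * R' * (ltS y (ltZ 0 R')).im ≤ 2 * R' * (Real.pi * ρ + 1) := mul_le_mul_of_nonneg_left h1 (by positivity)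
  push_cast at h5
  linarith

theorem lt_hyp (hρ : 0 < ρ) (hξ : 0 < ξ) (H : LtTr ρ ξ mr U Λ) : LimHyp U Λ where
  sorted := H.fin.mono fun _ h => h.mono fun _ hy => hy.1
  lab := H.fin.mono fun _ h => h.mono fun _ hy => hy.2.1
  tight := fun j ε hε => lt_tight hρ hξ H j ε hε
  locfin := fun R ε hε => lt_locfin hρ hξ H R ε hε

theorem lt_lim_exists (hρ : 0 < ρ) (hξ : 0 < ξ) (H : LtTr ρ ξ mr U Λ) :
    ∃ μ : Measure Conf, IsProbabilityMeasure μ ∧ LtLim mr U Λ μ := by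
  obtain ⟨μ, h1, h2, h3, h4, h5⟩ := lim_exists U Λ (lt_hyp hρ hξ H)
  exact ⟨μ, h1, ⟨h2, h3, h4, h5⟩⟩

/-- LEAF Q1 (portmanteau, open sets of finitely many labels): push both laws forward to `ι → ℝ`, `ProbabilityMeasure.tendsto_iff_forall_integral_tendsto`, `ProbabilityMeasure.le_liminf_measure_open_of_tendsto` -/
theorem lt_open_le {μ : Measure Conf} [IsProbabilityMeasure μ] (L : LtLim mr U Λ μ) {ι : Type} [Fintype ι] (idx : ι → ℤ)
    {G : Set (ι → ℝ)} (hG : IsOpen G) {c : ℝ≥0∞}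
    (h : ∀ᶠ n in (U : Filter ℕ), (Λ n : Measure TpCf) {y | (fun i => (y (idx i)).toReal) ∈ G} ≤ c) :
    μ {x | (fun i => x (idx i)) ∈ G} ≤ c := by
  have m1 : Measurable fun y : TpCf => fun i => (y (idx i)).toReal :=
    measurable_pi_lambda _ fun i => measurable_ereal_toReal.comp (measurable_pi_apply _)
  have m2 : Measurable fun x : Conf => fun i => x (idx i) := measurable_pi_lambda _ fun i => measurable_pi_apply _
  let νs : ℕ → ProbabilityMeasure (ι → ℝ) := fun n => (Λ n).map m1.aemeasurable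
  let ν : ProbabilityMeasure (ι → ℝ) := ProbabilityMeasure.map (⟨μ, inferInstance⟩ : ProbabilityMeasure Conf) m2.aemeasurable
  have ht : Tendsto νs (U : Filter ℕ) (𝓝 ν) := by
    rw [ProbabilityMeasure.tendsto_iff_forall_integral_tendsto]
    intro F
    have h1 := L.win ι idx F
    have e1 : ∀ n, ∫ w, F w ∂(νs n : Measure (ι → ℝ)) = ∫ y, F (fun i => (y (idx i)).toReal) ∂(Λ n : Measure TpCf) := fun n => by
      show ∫ w, F w ∂(Measure.map _ (Λ n : Measure TpCf)) = _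
      exact integral_map m1.aemeasurable F.continuous.aestronglyMeasurable
    have e2 : ∫ w, F w ∂(ν : Measure (ι → ℝ)) = ∫ x, F (fun i => x (idx i)) ∂μ := by
      show ∫ w, F w ∂(Measure.map _ μ) = _
      exact integral_map m2.aemeasurable F.continuous.aestronglyMeasurable
    simp only [e1, e2]
    exact h1
  have h2 := ProbabilityMeasure.le_liminf_measure_open_of_tendsto ht hG
  have e3 : (ν : Measure (ι → ℝ)) G = μ {x | (fun i => x (idx i)) ∈ G} := by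
    show (Measure.map _ μ) G = _
    rw [Measure.map_apply m2 hG.measurableSet]
    rfl
  have e4 : ∀ n, (νs n : Measure (ι → ℝ)) G = (Λ n : Measure TpCf) {y | (fun i => (y (idx i)).toReal) ∈ G} := fun n => by
    show (Measure.map _ (Λ n : Measure TpCf)) G = _
    rw [Measure.map_apply m1 hG.measurableSet]
    rfl
  rw [e3] at h2
  simp only [e4] at h2
  exact h2.trans (liminf_le_of_frequently_le' h.frequently)

/-! ## 4. rigidity (`lt_rigid_n`, `lt_pos` and the exit `lt_main` are in `LimRg.lean`) -/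

/-- LEAF R2 (Borel-Cantelli over the labels `j ∈ ℤ`: `measure_limsup_cofinite_eq_zero` / `ae_eventually_notMem`, summability of `|j|^{-2}`) -/
theorem lt_bc {μ : Measure Conf} [IsProbabilityMeasure μ] {χ C₀ C₁ : ℝ} {J₁ : ℕ}
    (h : ∀ j : ℤ, (J₁ : ℤ) ≤ |j| → μ {x | C₀ * |(j : ℝ)| ^ (1 - χ) < |x j - j / ρ|} ≤ ENNReal.ofReal (C₁ * |(j : ℝ)| ^ (-(2 : ℝ)))) :
    ∀ᵐ x ∂μ, ∃ J₀ : ℕ, ∀ j : ℤ, (J₀ : ℤ) ≤ |j| → |x j - j / ρ| ≤ C₀ * |(j : ℝ)| ^ (1 - χ) := by
  set s : ℤ → Set Conf := fun j => if (J₁ : ℤ) ≤ |j| then {x | C₀ * |(j : ℝ)| ^ (1 - χ) < |x j - j / ρ|} else ∅ with hs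
  have hsum0 : Summable fun j : ℤ => |C₁| * |(j : ℝ)| ^ (-(2 : ℝ)) := by
    refine Summable.mul_left _ ?_
    have h1 : Summable fun j : ℤ => |(j : ℝ)| ^ (-(2 : ℝ)) := by
      have := (Real.summable_abs_int_rpow (b := 2) (by norm_num))
      exact this
    exact h1
  have hle : ∀ j, μ (s j) ≤ ENNReal.ofReal (|C₁| * |(j : ℝ)| ^ (-(2 : ℝ))) := by
    intro j
    by_cases hj : (J₁ : ℤ) ≤ |j|
    · simp only [hs, if_pos hj]
      refine (h j hj).trans (ENNReal.ofReal_le_ofReal ?_)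
      exact mul_le_mul_of_nonneg_right (le_abs_self _) (Real.rpow_nonneg (abs_nonneg _) _)
    · simp [hs, if_neg hj]
  have hfin : ∑' j, μ (s j) ≠ ∞ := by
    refine ne_top_of_le_ne_top ?_ (ENNReal.tsum_le_tsum hle)
    exact hsum0.tsum_ofReal_ne_top
  have hae := ae_finite_setOfPred_mem (μ := μ) hfin
  filter_upwards [hae] with x hx
  obtain ⟨B, hB⟩ : ∃ B : ℕ, ∀ j ∈ {j | x ∈ s j}, |j| ≤ (B : ℤ) := by
    obtain ⟨t, ht⟩ := hx.exists_finset_coe
    refine ⟨t.sup (fun j => j.natAbs), fun j hj => ?_⟩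
    have hjt : j ∈ t := by
      have : j ∈ (t : Set ℤ) := by rw [ht]; exact hj
      exact this
    have := Finset.le_sup (f := fun j : ℤ => j.natAbs) hjt
    rw [Int.abs_eq_natAbs]
    exact_mod_cast this
  refine ⟨max J₁ (B + 1), fun j hj => ?_⟩
  by_contra hc
  rw [not_le] at hc
  have h1 : (J₁ : ℤ) ≤ |j| := le_trans (by exact_mod_cast le_max_left _ _) hj
  have h2 : ((B + 1 : ℕ) : ℤ) ≤ |j| := le_trans (by exact_mod_cast le_max_right _ _) hj
  have hmem : x ∈ s j := by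
    simp only [hs, if_pos h1]
    exact hc
  have := hB j hmem
  push_cast at h2
  omega

end lim

/-! ## 5. one regular configuration: the principal value sum -/

section det

variable {ρ χ C₀ : ℝ} {J₀ : ℕ} {x : Conf}

/-- `|1/(t - z)|² = P_{Im z}(t - Re z) / Im z` -/
theorem lt_inv_sq (t : ℝ) {z : ℂ} (hz : 0 < z.im) : ‖(((t : ℝ) : ℂ) - z)⁻¹‖ ^ 2 = k9P z.im (t - z.re) / z.im := by
  rw [norm_inv, inv_pow, Complex.sq_norm, Complex.normSq_apply]
  simp only [Complex.sub_re, Complex.ofReal_re, Complex.sub_im, Complex.ofReal_im, zero_sub]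
  unfold k9P
  have h1 : 0 < (t - z.re) ^ 2 + z.im ^ 2 := by positivity
  field_simp

theorem lt_sub_ne (t : ℝ) {z : ℂ} (hz : 0 < z.im) : ((t : ℝ) : ℂ) - z ≠ 0 := by
  intro h
  have := congrArg Complex.im h
  simp only [Complex.sub_im, Complex.ofReal_im, zero_sub, Complex.zero_im] at this
  linarith

/-- LEAF C1: absolute convergence of the anchored series (`|x_j| ≥ |j|/(2ρ)` for large `|j|`) -/
theorem lt_anch_summable (hρ : 0 < ρ) (hχ : 0 < χ) (hx : CReg ρ χ C₀ J₀ x) {z w : ℂ} (hz : 0 < z.im) (hw : 0 < w.im) :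
    Summable fun j : ℤ => (((x j : ℝ) : ℂ) - z)⁻¹ * (((x j : ℝ) : ℂ) - w)⁻¹ := by
  have hs := k9_creg_summable hρ hχ hx
  have h1 := (k9_summable_P hs hz z.re).div_const z.im
  have h2 := (k9_summable_P hs hw w.re).div_const w.im
  refine Summable.of_norm_bounded (h1.add h2) fun j => ?_
  rw [norm_mul, ← lt_inv_sq (x j) hz, ← lt_inv_sq (x j) hw]
  nlinarith [sq_nonneg (‖(((x j : ℝ) : ℂ) - z)⁻¹‖ - ‖(((x j : ℝ) : ℂ) - w)⁻¹‖), sq_nonneg ‖(((x j : ℝ) : ℂ) - z)⁻¹‖,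
    sq_nonneg ‖(((x j : ℝ) : ℂ) - w)⁻¹‖]

/-- C2: the principal value sum converges (= `k9_creg_tendsto` of helper227) -/
theorem lt_cS_tendsto (hρ : 0 < ρ) (hχ : 0 < χ) (hx : CReg ρ χ C₀ J₀ x) {z : ℂ} (_hz : 0 < z.im) :
    Tendsto (fun K : ℕ => cSK K x z) atTop (𝓝 (cS x z)) :=
  k9_creg_tendsto hρ hχ hx z

theorem lt_cSK_eq (K : ℕ) (x : Conf) (z : ℂ) : cSK K x z = ∑ j ∈ Finset.Icc (-(K : ℤ)) K, (((x j : ℝ) : ℂ) - z)⁻¹ := by
  unfold cSK cPos
  exact k9_sum_win K fun j => (((x j : ℝ) : ℂ) - z)⁻¹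

/-- LEAF C3: anchored identity (resolvent identity termwise, C1, C2) -/
theorem lt_cS_sub (hρ : 0 < ρ) (hχ : 0 < χ) (hx : CReg ρ χ C₀ J₀ x) {z w : ℂ} (hz : 0 < z.im) (hw : 0 < w.im) :
    cS x z - cS x w = (z - w) * ∑' j : ℤ, (((x j : ℝ) : ℂ) - z)⁻¹ * (((x j : ℝ) : ℂ) - w)⁻¹ := by
  have h1 : Tendsto (fun K : ℕ => cSK K x z - cSK K x w) atTop (𝓝 (cS x z - cS x w)) :=
    (k9_creg_tendsto hρ hχ hx z).sub (k9_creg_tendsto hρ hχ hx w)
  have h2 : Tendsto (fun K : ℕ => (z - w) * ∑ j ∈ Finset.Icc (-(K : ℤ)) K, (((x j : ℝ) : ℂ) - z)⁻¹ * (((x j : ℝ) : ℂ) - w)⁻¹) atTop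
      (𝓝 ((z - w) * ∑' j : ℤ, (((x j : ℝ) : ℂ) - z)⁻¹ * (((x j : ℝ) : ℂ) - w)⁻¹)) :=
    ((lt_anch_summable hρ hχ hx hz hw).hasSum.comp Finset.tendsto_Icc_neg).const_mul _
  have e : ∀ K : ℕ, cSK K x z - cSK K x w
      = (z - w) * ∑ j ∈ Finset.Icc (-(K : ℤ)) K, (((x j : ℝ) : ℂ) - z)⁻¹ * (((x j : ℝ) : ℂ) - w)⁻¹ := by
    intro K
    rw [lt_cSK_eq, lt_cSK_eq, ← Finset.sum_sub_distrib, Finset.mul_sum]
    refine Finset.sum_congr rfl fun j _ => ?_
    have a1 := lt_sub_ne (x j) hz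
    have a2 := lt_sub_ne (x j) hw
    field_simp
    ring
  simp only [e] at h1
  exact tendsto_nhds_unique h1 h2

/-- the lattice sum in closed form: `i (1/R + 2 ∑_{k<K} R/(((k+1)/ρ)² + R²))` -/
theorem lt_lat_eq (hρ : 0 < ρ) {R : ℝ} (hR : 0 < R) (K : ℕ) :
    cSK K (fun j : ℤ => (j : ℝ) / ρ) ((R : ℂ) * Complex.I)
      = ((1 / R + 2 * ∑ k ∈ Finset.range K, k9P R (((k + 1 : ℕ) : ℝ) / ρ) : ℝ) : ℂ) * Complex.I := by
  rw [lt_cSK_eq]
  induction K with
  | zero =>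
    simp only [Nat.cast_zero, neg_zero, Finset.Icc_self, Finset.sum_singleton, Int.cast_zero, zero_div, Complex.ofReal_zero, zero_sub,
      Finset.range_zero, Finset.sum_empty, mul_zero, add_zero]
    have hR' : (R : ℂ) ≠ 0 := Complex.ofReal_ne_zero.2 hR.ne'
    push_cast
    field_simp
    rw [Complex.I_sq]
  | succ K ih =>
    have h := Finset.sum_Icc_succ_eq_add_endpoints (fun j : ℤ => ((((j : ℝ) / ρ : ℝ) : ℂ) - (R : ℂ) * Complex.I)⁻¹) (N := K)
    push_cast at h ih ⊢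
    rw [h, ih, Finset.sum_range_succ]
    set a : ℝ := ((K : ℝ) + 1) / ρ with ha
    have e1 : ((K : ℂ) + 1) / (ρ : ℂ) = (a : ℂ) := by rw [ha]; push_cast; ring
    have e2 : (-((K : ℂ) + 1)) / (ρ : ℂ) = -(a : ℂ) := by rw [ha]; push_cast; ring
    have e2' : (-1 + -(K : ℂ)) / (ρ : ℂ) = -(a : ℂ) := by rw [ha]; push_cast; ring
    have n1 : (a : ℂ) - (R : ℂ) * Complex.I ≠ 0 := by
      have := lt_sub_ne a (z := (R : ℂ) * Complex.I) (by simpa using hR)
      exact this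
    have n2 : -(a : ℂ) - (R : ℂ) * Complex.I ≠ 0 := by
      have := lt_sub_ne (-a) (z := (R : ℂ) * Complex.I) (by simpa using hR)
      simpa using this
    have n3 : ((a : ℂ) ^ 2 + (R : ℂ) ^ 2) ≠ 0 := by
      have : (0 : ℝ) < a ^ 2 + R ^ 2 := by positivity
      exact_mod_cast this.ne'
    have key : ((a : ℂ) - (R : ℂ) * Complex.I)⁻¹ + (-(a : ℂ) - (R : ℂ) * Complex.I)⁻¹ = 2 * ((k9P R a : ℝ) : ℂ) * Complex.I := by
      unfold k9P
      push_cast
      field_simp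
      ring_nf
      rw [show Complex.I ^ 3 = -Complex.I by rw [pow_succ, Complex.I_sq]; ring]
      ring
    simp only [e1, e2]
    rw [key]
    ring

/-- `∫_0^K R/((t/ρ)²+R²) dt = ρ arctan (K/(ρR))` -/
theorem lt_lat_int (hρ : 0 < ρ) {R : ℝ} (hR : 0 < R) (b : ℝ) :
    ∫ t in (0 : ℝ)..b, k9P R (t / ρ) = ρ * Real.arctan (b / (ρ * R)) := by
  have e : ∀ t : ℝ, k9P R (t / ρ) = (fun s : ℝ => R⁻¹ * (1 + s ^ 2)⁻¹) (t / (ρ * R)) := by
    intro t
    rw [k9P_eq hR]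
    simp only
    rw [div_div]
  simp only [e]
  rw [intervalIntegral.integral_comp_div (fun s : ℝ => R⁻¹ * (1 + s ^ 2)⁻¹) (mul_pos hρ hR).ne', intervalIntegral.integral_const_mul,
    integral_inv_one_add_sq, zero_div, Real.arctan_zero, sub_zero, smul_eq_mul]
  field_simp

theorem lt_lat_anti (hρ : 0 < ρ) {R : ℝ} (hR : 0 < R) (b : ℝ) : AntitoneOn (fun t : ℝ => k9P R (t / ρ)) (Set.Icc 0 b) := by
  intro s hs t _ hst
  simp only
  unfold k9P
  have h1 : (s / ρ) ^ 2 ≤ (t / ρ) ^ 2 := pow_le_pow_left₀ (div_nonneg hs.1 hρ.le) (div_le_div_of_nonneg_right hst hρ.le) 2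
  exact div_le_div_of_nonneg_left hR.le (by positivity) (by linarith)

/-- LEAF C4a: the lattice: `∑_{|j| ≤ K} 1/(j/ρ - iR) → iπρ coth(πρR)`; only `|lim - iπρ| ≤ 2/R` is used (real part `0` by oddness, imaginary part = Riemann sum of a unimodal function, `∫ R/(t²/ρ²+R²) dt = πρ`) -/
theorem lt_lattice (hρ : 0 < ρ) {R : ℝ} (hR : 0 < R) : ∀ᶠ K : ℕ in atTop,
    ‖cSK K (fun j : ℤ => (j : ℝ) / ρ) ((R : ℂ) * Complex.I) - ((Real.pi * ρ : ℝ) : ℂ) * Complex.I‖ ≤ 3 / R := by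
  have hlim : Tendsto (fun K : ℕ => Real.arctan ((K : ℝ) / (ρ * R))) atTop (𝓝 (Real.pi / 2)) := by
    have h1 : Tendsto (fun K : ℕ => (K : ℝ) / (ρ * R)) atTop atTop :=
      tendsto_natCast_atTop_atTop.atTop_div_const (mul_pos hρ hR)
    exact (tendsto_nhds_of_tendsto_nhdsWithin Real.tendsto_arctan_atTop).comp h1
  have hgap : 0 < 1 / (2 * ρ * R) := by positivity
  filter_upwards [hlim.eventually (lt_mem_nhds (show Real.pi / 2 - 1 / (2 * ρ * R) < Real.pi / 2 by linarith))] with K hK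
  rw [lt_lat_eq hρ hR K, ← sub_mul, norm_mul, Complex.norm_I, mul_one, ← Complex.ofReal_sub, Complex.norm_real, Real.norm_eq_abs]
  set S : ℝ := ∑ k ∈ Finset.range K, k9P R (((k + 1 : ℕ) : ℝ) / ρ) with hS
  set A : ℝ := Real.arctan ((K : ℝ) / (ρ * R)) with hA
  have hanti : AntitoneOn (fun t : ℝ => k9P R (t / ρ)) (Set.Icc 0 (0 + (K : ℝ))) := lt_lat_anti hρ hR _
  have u1 := hanti.sum_le_integral
  have u2 := hanti.integral_le_sum
  rw [zero_add, lt_lat_int hρ hR] at u1 u2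
  simp only [zero_add] at u1 u2
  have e1 : ∑ i ∈ Finset.range K, k9P R ((i : ℝ) / ρ) = S + k9P R (((0 : ℕ) : ℝ) / ρ) - k9P R ((K : ℝ) / ρ) := by
    have a1 := Finset.sum_range_succ' (fun i : ℕ => k9P R ((i : ℝ) / ρ)) K
    have a2 := Finset.sum_range_succ (fun i : ℕ => k9P R ((i : ℝ) / ρ)) K
    rw [hS]
    linarith
  have e2 : k9P R (((0 : ℕ) : ℝ) / ρ) = 1 / R := by
    unfold k9P
    simp only [Nat.cast_zero, zero_div]
    field_simp
    ring
  have e3 : 0 ≤ k9P R ((K : ℝ) / ρ) := k9P_nonneg hR _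
  have hA2 : A < Real.pi / 2 := Real.arctan_lt_pi_div_two _
  have hRinv : 0 < 1 / R := by positivity
  have g1 : ρ * A ≤ ρ * (Real.pi / 2) := mul_le_mul_of_nonneg_left hA2.le hρ.le
  have g2 : ρ * (Real.pi / 2 - 1 / (2 * ρ * R)) ≤ ρ * A := mul_le_mul_of_nonneg_left hK.le hρ.le
  have g3 : ρ * (Real.pi / 2 - 1 / (2 * ρ * R)) = Real.pi * ρ / 2 - 1 / R / 2 := by field_simp
  have g4 : 3 / R = 3 * (1 / R) := by ring
  rw [e1, e2] at u2
  rw [abs_le, g4]
  constructor <;> linarith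

theorem lt_lat_creg (hρ : 0 < ρ) : CReg ρ χ 0 0 (fun j : ℤ => (j : ℝ) / ρ) := by
  refine ⟨fun a b hab => ?_, fun j _ => ?_⟩
  · exact div_le_div_of_nonneg_right (by exact_mod_cast hab) hρ.le
  · simp

theorem lt_far_sq (t : ℝ) {R : ℝ} (hR : 1 ≤ R) : ‖((t : ℂ) - (R : ℂ) * Complex.I)⁻¹‖ ^ 2 ≤ (1 + t ^ 2)⁻¹ := by
  rw [norm_inv, inv_pow, Complex.sq_norm, Complex.normSq_apply]
  simp only [Complex.sub_re, Complex.ofReal_re, Complex.mul_re, Complex.I_re, mul_zero, Complex.ofReal_im, Complex.I_im, mul_one,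
    sub_self, sub_zero, Complex.sub_im, Complex.mul_im, add_zero, zero_sub]
  apply inv_anti₀ (by positivity)
  nlinarith

theorem lt_far_inv (t : ℝ) {R : ℝ} (hR : 0 < R) : ‖((t : ℂ) - (R : ℂ) * Complex.I)⁻¹‖ ≤ R⁻¹ := by
  rw [norm_inv]
  apply inv_anti₀ hR
  have := Complex.abs_im_le_norm ((t : ℂ) - (R : ℂ) * Complex.I)
  simp only [Complex.sub_im, Complex.ofReal_im, Complex.mul_im, Complex.ofReal_re, Complex.I_im, mul_one, Complex.I_re, mul_zero,
    add_zero, zero_sub, abs_neg] at this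
  exact (le_abs_self R).trans this

/-- the dominating series of the comparison with the lattice -/
theorem lt_far_summable (hρ : 0 < ρ) (hχ : 0 < χ) (hx : CReg ρ χ C₀ J₀ x) :
    Summable fun j : ℤ => |(j : ℝ) / ρ - x j| * ((1 + x j ^ 2)⁻¹ + (1 + ((j : ℝ) / ρ) ^ 2)⁻¹) := by
  obtain ⟨N, hN⟩ := k9_creg_far hρ hχ hx
  have hs : Summable fun j : ℤ => (5 * ρ ^ 2 * C₀) * |(j : ℝ)| ^ (-(1 + χ)) :=
    (Real.summable_abs_int_rpow (by linarith : 1 < 1 + χ)).mul_left _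
  refine Summable.of_norm_bounded_eventually hs ?_
  have hfin : {j : ℤ | ¬ (N : ℤ) ≤ |j|}.Finite := by
    refine (Set.finite_Ioo (-(N : ℤ)) N).subset fun j hj => ?_
    have hj : |j| < (N : ℤ) := not_le.1 hj
    exact abs_lt.1 hj
  refine (hfin.subset fun j hj => ?_ : {j : ℤ | ¬ ‖|(j : ℝ) / ρ - x j| * ((1 + x j ^ 2)⁻¹ + (1 + ((j : ℝ) / ρ) ^ 2)⁻¹)‖
    ≤ (5 * ρ ^ 2 * C₀) * |(j : ℝ)| ^ (-(1 + χ))}.Finite)
  intro hle
  apply hj
  obtain ⟨h1, h2, -, h4⟩ := hN j hle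
  set t : ℝ := |(j : ℝ)| with ht
  have ht0 : 0 < t := by linarith
  have e : t ^ (-(1 + χ)) = t ^ (1 - χ) / t ^ 2 := by
    rw [← Real.rpow_natCast t 2, ← Real.rpow_sub ht0]
    congr 1
    push_cast
    ring
  have hA : (1 + x j ^ 2)⁻¹ ≤ 4 * ρ ^ 2 / t ^ 2 := by
    have h6 : (t / (2 * ρ)) ^ 2 ≤ |x j| ^ 2 := pow_le_pow_left₀ (by positivity) h4 2
    rw [sq_abs (x j)] at h6
    have e1 : 4 * ρ ^ 2 / t ^ 2 = ((t / (2 * ρ)) ^ 2)⁻¹ := by field_simp; ring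
    rw [e1]
    exact inv_anti₀ (by positivity) (by linarith)
  have hB : (1 + ((j : ℝ) / ρ) ^ 2)⁻¹ ≤ ρ ^ 2 / t ^ 2 := by
    have e1 : ρ ^ 2 / t ^ 2 = (((j : ℝ) / ρ) ^ 2)⁻¹ := by
      rw [ht, sq_abs, div_pow, inv_div]
    have hj0 : (j : ℝ) ≠ 0 := by
      intro h0
      rw [ht, h0, abs_zero] at ht0
      exact lt_irrefl _ ht0
    rw [e1]
    exact inv_anti₀ (by positivity) (by linarith)
  rw [Real.norm_eq_abs, abs_of_nonneg (by positivity), e, abs_sub_comm]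
  calc |x j - (j : ℝ) / ρ| * ((1 + x j ^ 2)⁻¹ + (1 + ((j : ℝ) / ρ) ^ 2)⁻¹)
      ≤ (C₀ * t ^ (1 - χ)) * (5 * ρ ^ 2 / t ^ 2) := by
        refine mul_le_mul h2 ?_ (by positivity) ((abs_nonneg _).trans h2)
        have : 5 * ρ ^ 2 / t ^ 2 = 4 * ρ ^ 2 / t ^ 2 + ρ ^ 2 / t ^ 2 := by ring
        linarith
    _ = 5 * ρ ^ 2 * C₀ * (t ^ (1 - χ) / t ^ 2) := by ring

/-- LEAF C4: `cS x (iR) → iπρ` (compare with the lattice: `∑_j |x_j - j/ρ| / (|x_j - iR| |j/ρ - iR|) = O(J₀²/R² + R^{-χ})`) -/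
theorem lt_cS_far (hρ : 0 < ρ) (hχ : 0 < χ) (hx : CReg ρ χ C₀ J₀ x) :
    Tendsto (fun R : ℝ => cS x ((R : ℂ) * Complex.I)) atTop (𝓝 (((Real.pi * ρ : ℝ) : ℂ) * Complex.I)) := by
  set l : Conf := fun j : ℤ => (j : ℝ) / ρ with hl
  have hlr : CReg ρ χ 0 0 l := lt_lat_creg hρ
  set f : ℝ → ℤ → ℂ := fun R j => (((l j - x j : ℝ) : ℂ)) * (((x j : ℝ) : ℂ) - (R : ℂ) * Complex.I)⁻¹ * (((l j : ℝ) : ℂ) - (R : ℂ) * Complex.I)⁻¹ with hf
  have hsum := lt_far_summable hρ hχ hx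
  have hbd : ∀ R : ℝ, 1 ≤ R → ∀ j : ℤ, ‖f R j‖ ≤ |(j : ℝ) / ρ - x j| * ((1 + x j ^ 2)⁻¹ + (1 + ((j : ℝ) / ρ) ^ 2)⁻¹) := by
    intro R hR j
    simp only [hf, hl]
    rw [norm_mul, norm_mul, Complex.norm_real, Real.norm_eq_abs, mul_assoc]
    refine mul_le_mul_of_nonneg_left ?_ (abs_nonneg _)
    have a1 := lt_far_sq (x j) hR
    have a2 := lt_far_sq ((j : ℝ) / ρ) hR
    nlinarith [sq_nonneg (‖(((x j : ℝ) : ℂ) - (R : ℂ) * Complex.I)⁻¹‖ - ‖((((j : ℝ) / ρ : ℝ) : ℂ) - (R : ℂ) * Complex.I)⁻¹‖),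
      sq_nonneg ‖(((x j : ℝ) : ℂ) - (R : ℂ) * Complex.I)⁻¹‖, sq_nonneg ‖((((j : ℝ) / ρ : ℝ) : ℂ) - (R : ℂ) * Complex.I)⁻¹‖]
  -- the comparison series tends to `0`
  have h2 : Tendsto (fun R : ℝ => ∑' j : ℤ, f R j) atTop (𝓝 (∑' _ : ℤ, (0 : ℂ))) := by
    refine tendsto_tsum_of_dominated_convergence hsum (fun j => ?_) ?_
    · refine squeeze_zero_norm' (a := fun R : ℝ => |l j - x j| * (R⁻¹ * R⁻¹)) ?_ ?_
      · filter_upwards [eventually_gt_atTop 0] with R hR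
        simp only [hf]
        rw [norm_mul, norm_mul, Complex.norm_real, Real.norm_eq_abs, mul_assoc]
        refine mul_le_mul_of_nonneg_left ?_ (abs_nonneg _)
        exact mul_le_mul (lt_far_inv _ hR) (lt_far_inv _ hR) (norm_nonneg _) (inv_nonneg.2 hR.le)
      · have := (tendsto_inv_atTop_zero (𝕜 := ℝ)).mul (tendsto_inv_atTop_zero (𝕜 := ℝ))
        simpa using this.const_mul |l j - x j|
    · filter_upwards [eventually_ge_atTop 1] with R hR
      exact hbd R hR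
  rw [tsum_zero] at h2
  -- the lattice
  have h3 : Tendsto (fun R : ℝ => cS l ((R : ℂ) * Complex.I)) atTop (𝓝 (((Real.pi * ρ : ℝ) : ℂ) * Complex.I)) := by
    rw [tendsto_iff_norm_sub_tendsto_zero]
    refine squeeze_zero' (g := fun R : ℝ => 3 / R) (Eventually.of_forall fun R => norm_nonneg _) ?_ ?_
    · filter_upwards [eventually_gt_atTop 0] with R hR
      have t1 : Tendsto (fun K : ℕ => ‖cSK K l ((R : ℂ) * Complex.I) - ((Real.pi * ρ : ℝ) : ℂ) * Complex.I‖) atTop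
          (𝓝 ‖cS l ((R : ℂ) * Complex.I) - ((Real.pi * ρ : ℝ) : ℂ) * Complex.I‖) :=
        ((k9_creg_tendsto hρ hχ hlr _).sub_const _).norm
      exact le_of_tendsto t1 (lt_lattice hρ hR)
    · exact tendsto_const_nhds.div_atTop tendsto_id
  -- the identity
  have h1 : ∀ᶠ R : ℝ in atTop, cS l ((R : ℂ) * Complex.I) + ∑' j : ℤ, f R j = cS x ((R : ℂ) * Complex.I) := by
    filter_upwards [eventually_ge_atTop 1] with R hR
    have hz : 0 < ((R : ℂ) * Complex.I).im := by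
      simp only [Complex.mul_im, Complex.ofReal_re, Complex.I_im, mul_one, Complex.ofReal_im, Complex.I_re, mul_zero, add_zero]
      linarith
    have s1 : Summable (f R) := Summable.of_norm_bounded hsum (hbd R hR)
    have t1 : Tendsto (fun K : ℕ => cSK K x ((R : ℂ) * Complex.I) - cSK K l ((R : ℂ) * Complex.I)) atTop
        (𝓝 (cS x ((R : ℂ) * Complex.I) - cS l ((R : ℂ) * Complex.I))) :=
      (k9_creg_tendsto hρ hχ hx _).sub (k9_creg_tendsto hρ hχ hlr _)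
    have t2 : Tendsto (fun K : ℕ => ∑ j ∈ Finset.Icc (-(K : ℤ)) K, f R j) atTop (𝓝 (∑' j : ℤ, f R j)) :=
      s1.hasSum.comp Finset.tendsto_Icc_neg
    have e : ∀ K : ℕ, cSK K x ((R : ℂ) * Complex.I) - cSK K l ((R : ℂ) * Complex.I) = ∑ j ∈ Finset.Icc (-(K : ℤ)) K, f R j := by
      intro K
      rw [lt_cSK_eq, lt_cSK_eq, ← Finset.sum_sub_distrib]
      refine Finset.sum_congr rfl fun j _ => ?_
      have a1 := lt_sub_ne (x j) hz
      have a2 := lt_sub_ne (l j) hz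
      simp only [hf]
      push_cast
      field_simp
      ring
    simp only [e] at t1
    have := tendsto_nhds_unique t1 t2
    rw [← this]
    ring
  have := (h3.add h2).congr' h1
  simpa using this

end det

/-- M4 (= `k9_meas_cS` of helper227) -/
theorem lt_cS_measurable (z : ℂ) : Measurable fun x : Conf => cS x z := k9_meas_cS z

/-- C5: dominated convergence for the partial sums under a regular law -/
theorem lt_cSK_lim {ρ ξ : ℝ} (hρ : 0 < ρ) {μ : Measure Conf} [IsProbabilityMeasure μ] (hR : LReg ρ ξ μ) {b : ℕ} (z : Fin b → ℂ) (_hz : ∀ a, 0 < (z a).im)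
    (Φ : (Fin b → ℂ) → ℝ) (hb : ∃ B : ℝ, ∀ v, |Φ v| ≤ B) (hl : ∃ Lc : NNReal, LipschitzWith Lc Φ) :
    Tendsto (fun K : ℕ => ∫ x, Φ (fun a => cSK K x (z a)) ∂μ) atTop (𝓝 (∫ x, Φ (fun a => cS x (z a)) ∂μ)) := by
  obtain ⟨B, hB⟩ := hb
  obtain ⟨Lc, hL⟩ := hl
  refine tendsto_integral_of_dominated_convergence (fun _ => B) (fun K => ?_) (integrable_const B) (fun K => ?_) ?_
  · exact (hL.continuous.measurable.comp (measurable_pi_lambda _ fun a => k9_meas_cSK K (z a))).aestronglyMeasurable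
  · exact ae_of_all _ fun x => by rw [Real.norm_eq_abs]; exact hB _
  · filter_upwards [k9_lreg_tendsto hρ hR] with x hx
    exact (hL.continuous.tendsto _).comp (tendsto_pi_nhds.2 fun a => hx (z a))

/-! ## 6. joint convergence -/

/-- two maps which are `δ`-close off an event of probability `ε`: one bounded Lipschitz test -/
theorem lt_close_int {Ω E : Type} [MeasurableSpace Ω] [PseudoMetricSpace E] [MeasurableSpace E] [OpensMeasurableSpace E]
    (ν : Measure Ω) [IsProbabilityMeasure ν] {f g : Ω → E} (hf : Measurable f) (hg : Measurable g) {F : E → ℝ} {B : ℝ} (hB : ∀ v, |F v| ≤ B)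
    {Lc : NNReal} (hL : LipschitzWith Lc F) {δ ε : ℝ} (hδ : 0 ≤ δ) (hε : 0 ≤ ε) (h : ν {y | δ < dist (f y) (g y)} ≤ ENNReal.ofReal ε) :
    |∫ y, F (g y) ∂ν - ∫ y, F (f y) ∂ν| ≤ Lc * δ + 2 * B * ε := by
  have hB0 : 0 ≤ B := (abs_nonneg _).trans (hB (f (Classical.choice (by
    by_contra hne
    rw [not_nonempty_iff] at hne
    have : ν Set.univ = 0 := by rw [Set.univ_eq_empty_iff.2 hne]; exact measure_empty
    simp at this))))
  have mF := hL.continuous.measurable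
  have i1 : Integrable (fun y => F (g y)) ν :=
    Integrable.of_bound (mF.comp hg).aestronglyMeasurable B (ae_of_all _ fun y => by rw [Real.norm_eq_abs]; exact hB _)
  have i2 : Integrable (fun y => F (f y)) ν :=
    Integrable.of_bound (mF.comp hf).aestronglyMeasurable B (ae_of_all _ fun y => by rw [Real.norm_eq_abs]; exact hB _)
  set S : Set Ω := {y | δ < dist (f y) (g y)} with hS
  set T : Set Ω := toMeasurable ν S with hT
  have mT : MeasurableSet T := measurableSet_toMeasurable _ _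
  have hST : S ⊆ T := subset_toMeasurable _ _
  have hTm : ν T ≤ ENNReal.ofReal ε := by rw [hT, measure_toMeasurable]; exact h
  have i3 : Integrable (fun y => (Lc : ℝ) * δ + 2 * B * T.indicator (fun _ => (1 : ℝ)) y) ν :=
    (integrable_const _).add (((integrable_const (1 : ℝ)).indicator mT).const_mul _)
  rw [← integral_sub i1 i2, ← Real.norm_eq_abs]
  refine (norm_integral_le_of_norm_le i3 (ae_of_all _ fun y => ?_)).trans ?_
  · rw [Real.norm_eq_abs]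
    by_cases hy : y ∈ S
    · have : T.indicator (fun _ => (1 : ℝ)) y = 1 := Set.indicator_of_mem (hST hy) _
      rw [this]
      have h1 := abs_sub (F (g y)) (F (f y))
      have h2 := hB (g y)
      have h3 := hB (f y)
      have h4 : 0 ≤ (Lc : ℝ) * δ := mul_nonneg Lc.2 hδ
      linarith
    · have h1 : dist (f y) (g y) ≤ δ := not_lt.1 hy
      have h2 := hL.dist_le_mul (g y) (f y)
      rw [Real.dist_eq, dist_comm] at h2
      have h3 : 0 ≤ T.indicator (fun _ => (1 : ℝ)) y := Set.indicator_nonneg (fun _ _ => zero_le_one) _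
      have h4 : (Lc : ℝ) * dist (f y) (g y) ≤ Lc * δ := mul_le_mul_of_nonneg_left h1 Lc.2
      have h5 : 0 ≤ 2 * B * T.indicator (fun _ => (1 : ℝ)) y := by positivity
      linarith
  · have e0 : ∫ y, T.indicator (fun _ => (1 : ℝ)) y ∂ν = (ν T).toReal := by
      rw [integral_indicator mT]
      simp [Measure.real]
    have e1 : ∫ y, ((Lc : ℝ) * δ + 2 * B * T.indicator (fun _ => (1 : ℝ)) y) ∂ν = Lc * δ + 2 * B * (ν T).toReal := by
      rw [integral_add (integrable_const _) (((integrable_const (1 : ℝ)).indicator mT).const_mul _), integral_const_mul (2 * B), e0]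
      simp
    rw [e1]
    have h6 : (ν T).toReal ≤ ε := by
      have := ENNReal.toReal_mono ENNReal.ofReal_ne_top hTm
      rwa [ENNReal.toReal_ofReal hε] at this
    have : 2 * B * (ν T).toReal ≤ 2 * B * ε := mul_le_mul_of_nonneg_left h6 (by positivity)
    linarith

/-- T0 (**convergence together along an ultrafilter**, one bounded Lipschitz test `F`; the functional `X n` may depend on `n`).
`|∫F(X_n) - ∫F(Y)| ≤ |∫F(X_n) - ∫F(X^k)| + |∫F(X^k) dΛ_n - ∫F(Y^k) dμ| + |∫F(Y^k) - ∫F(Y)|`; first `≤ Lc δ + 2Bε` by (c), second `→ 0` along `U` by (a), third `→ 0` in `k` by (b) and dominated convergence. -/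
theorem lt_together {E : Type} [PseudoMetricSpace E] [MeasurableSpace E] [OpensMeasurableSpace E] {U : Ultrafilter ℕ} {Λ : ℕ → ProbabilityMeasure TpCf}
    {μ : Measure Conf} [IsProbabilityMeasure μ] (X : ℕ → TpCf → E) (Xk : ℕ → TpCf → E) (Y : Conf → E) (Yk : ℕ → Conf → E)
    (hX : ∀ n, Measurable (X n)) (hXk : ∀ k, Measurable (Xk k)) (_hY : Measurable Y) (hYk : ∀ k, Measurable (Yk k))
    (F : E → ℝ) (hFb : ∃ B : ℝ, ∀ v, |F v| ≤ B) (hFl : ∃ Lc : NNReal, LipschitzWith Lc F)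
    (ha : ∀ k, Tendsto (fun n => ∫ y, F (Xk k y) ∂(Λ n : Measure TpCf)) U (𝓝 (∫ x, F (Yk k x) ∂μ)))
    (hb : ∀ᵐ x ∂μ, Tendsto (fun k => Yk k x) atTop (𝓝 (Y x)))
    (hc : ∀ δ ε : ℝ, 0 < δ → 0 < ε → ∃ k₀ : ℕ, ∀ k, k₀ ≤ k → ∀ᶠ n in (U : Filter ℕ), (Λ n : Measure TpCf) {y | δ < dist (Xk k y) (X n y)} ≤ ENNReal.ofReal ε) :
    Tendsto (fun n => ∫ y, F (X n y) ∂(Λ n : Measure TpCf)) U (𝓝 (∫ x, F (Y x) ∂μ)) := by
  obtain ⟨B, hB⟩ := hFb
  obtain ⟨Lc, hL⟩ := hFl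
  have mF := hL.continuous.measurable
  have hB0 : 0 ≤ B := (abs_nonneg _).trans (hB (Y 0))
  have h3 : Tendsto (fun k => ∫ x, F (Yk k x) ∂μ) atTop (𝓝 (∫ x, F (Y x) ∂μ)) := by
    refine tendsto_integral_of_dominated_convergence (fun _ => B) (fun k => (mF.comp (hYk k)).aestronglyMeasurable) (integrable_const B)
      (fun k => ae_of_all _ fun x => by rw [Real.norm_eq_abs]; exact hB _) ?_
    filter_upwards [hb] with x hx
    exact (hL.continuous.tendsto _).comp hx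
  rw [Metric.tendsto_nhds]
  intro η hη
  have hδ : 0 < η / (4 * (Lc + 1)) := by positivity
  have hε : 0 < η / (8 * (B + 1)) := by positivity
  obtain ⟨k₀, hk₀⟩ := hc _ _ hδ hε
  obtain ⟨k₁, hk₁⟩ := eventually_atTop.1 ((Metric.tendsto_nhds.1 h3) (η / 4) (by positivity))
  have g1 := hk₀ (max k₀ k₁) (le_max_left _ _)
  have g2 := hk₁ (max k₀ k₁) (le_max_right _ _)
  have g3 := (Metric.tendsto_nhds.1 (ha (max k₀ k₁))) (η / 4) (by positivity)
  filter_upwards [g1, g3] with n e1 e3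
  have e4 := lt_close_int (Λ n : Measure TpCf) (hXk (max k₀ k₁)) (hX n) hB hL hδ.le hε.le e1
  rw [Real.dist_eq] at g2 e3 ⊢
  have b1 : (Lc : ℝ) * (η / (4 * (Lc + 1))) ≤ η / 4 := by
    rw [show (Lc : ℝ) * (η / (4 * (Lc + 1))) = (η / 4) * (Lc / (Lc + 1)) by field_simp]
    refine mul_le_of_le_one_right (by positivity) ?_
    rw [div_le_one (by positivity)]
    linarith
  have b2 : 2 * B * (η / (8 * (B + 1))) ≤ η / 4 := by
    rw [show 2 * B * (η / (8 * (B + 1))) = (η / 4) * (B / (B + 1)) by field_simp; ring]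
    refine mul_le_of_le_one_right (by positivity) ?_
    rw [div_le_one (by positivity)]
    linarith
  have t1 := abs_sub_le (∫ y, F (X n y) ∂(Λ n : Measure TpCf)) (∫ y, F (Xk (max k₀ k₁) y) ∂(Λ n : Measure TpCf)) (∫ x, F (Y x) ∂μ)
  have t2 := abs_sub_le (∫ y, F (Xk (max k₀ k₁) y) ∂(Λ n : Measure TpCf)) (∫ x, F (Yk (max k₀ k₁) x) ∂μ) (∫ x, F (Y x) ∂μ)
  linarith

/-- the approximants of step (5): window part of the anchored sum, anchor `ik`, window `|j| ≤ L k` -/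
noncomputable def ltAp (ρ : ℝ) (k L : ℕ) (v : ℤ → ℝ) (z : ℂ) : ℂ :=
  ((Real.pi * ρ : ℝ) : ℂ) * Complex.I + (z - (k : ℂ) * Complex.I) * ∑ i : Win L, (((v (wIdx i) : ℝ) : ℂ) - z)⁻¹ * (((v (wIdx i) : ℝ) : ℂ) - (k : ℂ) * Complex.I)⁻¹

theorem lt_eqns_cite3 : True := by
  have := @ltAp.eq_1
  trivial

/-- window sums of a summable family -/
theorem lt_win_tendsto {f : ℤ → ℂ} (hf : Summable f) : Tendsto (fun L : ℕ => ∑ i : Win L, f (wIdx i)) atTop (𝓝 (∑' j, f j)) := by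
  have h1 : Tendsto (fun L : ℕ => Finset.Icc (-(L : ℤ)) L) atTop atTop := by
    refine tendsto_atTop_finset_of_monotone (fun a b hab => Finset.Icc_subset_Icc (by omega) (by omega)) fun j => ⟨j.natAbs, ?_⟩
    rw [Finset.mem_Icc]
    omega
  have h2 := hf.hasSum.comp h1
  refine h2.congr fun L => ?_
  exact (k9_sum_win L f).symm

/-- for a fixed anchor `k ≥ 1` the approximants converge -/
theorem lt_ap_tendsto {ρ χ C₀ : ℝ} {J₀ : ℕ} {x : Conf} (hρ : 0 < ρ) (hχ : 0 < χ) (hx : CReg ρ χ C₀ J₀ x) {z : ℂ} (hz : 0 < z.im) {k : ℕ} (hk : 1 ≤ k) :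
    Tendsto (fun L : ℕ => ltAp ρ k L x z) atTop (𝓝 (((Real.pi * ρ : ℝ) : ℂ) * Complex.I + (cS x z - cS x ((k : ℂ) * Complex.I)))) := by
  have hw : 0 < ((k : ℂ) * Complex.I).im := by
    simp only [Complex.mul_im, Complex.natCast_re, Complex.I_im, mul_one, Complex.natCast_im, Complex.I_re, mul_zero, add_zero]
    exact_mod_cast hk
  rw [lt_cS_sub hρ hχ hx hz hw]
  unfold ltAp
  exact tendsto_const_nhds.add (tendsto_const_nhds.mul
    (lt_win_tendsto (f := fun j : ℤ => (((x j : ℝ) : ℂ) - z)⁻¹ * (((x j : ℝ) : ℂ) - (k : ℂ) * Complex.I)⁻¹) (lt_anch_summable hρ hχ hx hz hw)))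

/-- the anchors go away -/
theorem lt_anchor_tendsto {ρ χ C₀ : ℝ} {J₀ : ℕ} {x : Conf} (hρ : 0 < ρ) (hχ : 0 < χ) (hx : CReg ρ χ C₀ J₀ x) (z : ℂ) :
    Tendsto (fun k : ℕ => ((Real.pi * ρ : ℝ) : ℂ) * Complex.I + (cS x z - cS x ((k : ℂ) * Complex.I))) atTop (𝓝 (cS x z)) := by
  have h1 := (lt_cS_far hρ hχ hx).comp tendsto_natCast_atTop_atTop
  have h2 : Tendsto (fun k : ℕ => cS x ((k : ℂ) * Complex.I)) atTop (𝓝 (((Real.pi * ρ : ℝ) : ℂ) * Complex.I)) := by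
    refine h1.congr fun k => ?_
    simp only [Function.comp, Complex.ofReal_natCast]
  have h3 := (tendsto_const_nhds (x := ((Real.pi * ρ : ℝ) : ℂ) * Complex.I)).add ((tendsto_const_nhds (x := cS x z)).sub h2)
  simpa using h3

theorem lt_anchor_im {k : ℕ} (hk : 1 ≤ k) : 0 < ((k : ℂ) * Complex.I).im := by
  simp only [Complex.mul_im, Complex.natCast_re, Complex.I_im, mul_one, Complex.natCast_im, Complex.I_re, mul_zero, add_zero]
  exact_mod_cast hk

/-- the approximant as a function of the window -/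
noncomputable def ltApW (ρ : ℝ) (k L : ℕ) (v : Win L → ℝ) (z : ℂ) : ℂ :=
  ((Real.pi * ρ : ℝ) : ℂ) * Complex.I + (z - (k : ℂ) * Complex.I) * ∑ i : Win L, (((v i : ℝ) : ℂ) - z)⁻¹ * (((v i : ℝ) : ℂ) - (k : ℂ) * Complex.I)⁻¹

theorem lt_eqns_cite5 : True := by
  have := @ltApW.eq_1
  trivial

theorem lt_apW_eq (ρ : ℝ) (k L : ℕ) (v : ℤ → ℝ) (z : ℂ) : ltAp ρ k L v z = ltApW ρ k L (fun i => v (wIdx i)) z := rfl

theorem lt_apW_continuous (ρ : ℝ) {k : ℕ} (hk : 1 ≤ k) (L : ℕ) {z : ℂ} (hz : 0 < z.im) : Continuous fun v : Win L → ℝ => ltApW ρ k L v z := by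
  unfold ltApW
  refine continuous_const.add (continuous_const.mul (continuous_finsetSum _ fun i _ => ?_))
  have c1 : Continuous fun v : Win L → ℝ => ((v i : ℝ) : ℂ) := Complex.continuous_ofReal.comp (continuous_apply i)
  exact ((c1.sub continuous_const).inv₀ fun v => lt_sub_ne _ hz).mul ((c1.sub continuous_const).inv₀ fun v => lt_sub_ne _ (lt_anchor_im hk))

theorem lt_ap_measurable (ρ : ℝ) {k : ℕ} (hk : 1 ≤ k) (L : ℕ) {z : ℂ} (hz : 0 < z.im) : Measurable fun v : Conf => ltAp ρ k L v z :=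
  (lt_apW_continuous ρ hk L hz).measurable.comp (measurable_pi_lambda _ fun _ => measurable_pi_apply _)

/-- the ramp `min 1 (m (‖v 0 - c‖ - r)₊)` -/
noncomputable def ltRamp (c : ℂ) (r : ℝ) (m : ℕ) (v : Fin 1 → ℂ) : ℝ := min 1 ((m : ℝ) * max 0 (‖v 0 - c‖ - r))

theorem lt_eqns_cite4 : True := by
  have := @ltRamp.eq_1
  trivial

theorem lt_ramp_nonneg (c : ℂ) (r : ℝ) (m : ℕ) (v : Fin 1 → ℂ) : 0 ≤ ltRamp c r m v :=
  le_min zero_le_one (mul_nonneg (Nat.cast_nonneg _) (le_max_left _ _))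

theorem lt_ramp_le_one (c : ℂ) (r : ℝ) (m : ℕ) (v : Fin 1 → ℂ) : ltRamp c r m v ≤ 1 := min_le_left _ _

theorem lt_ramp_zero {c : ℂ} {r : ℝ} (m : ℕ) {v : Fin 1 → ℂ} (h : ‖v 0 - c‖ ≤ r) : ltRamp c r m v = 0 := by
  unfold ltRamp
  rw [max_eq_left (by linarith), mul_zero]
  exact min_eq_right zero_le_one

theorem lt_ramp_lip (c : ℂ) (r : ℝ) (m : ℕ) : LipschitzWith (m : NNReal) (ltRamp c r m) := by
  have h1 : LipschitzWith 1 fun v : Fin 1 → ℂ => ‖v 0 - c‖ - r := by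
    have a1 : LipschitzWith 1 fun v : Fin 1 → ℂ => v 0 := LipschitzWith.eval 0
    have a2 : LipschitzWith 1 fun v : Fin 1 → ℂ => v 0 - c := by
      simpa using a1.sub (LipschitzWith.const c)
    have a3 : LipschitzWith 1 fun v : Fin 1 → ℂ => ‖v 0 - c‖ := by
      have := lipschitzWith_one_norm.comp a2
      rw [one_mul] at this
      exact this
    simpa using a3.sub (LipschitzWith.const r)
  have h2 : LipschitzWith 1 fun v : Fin 1 → ℂ => max 0 (‖v 0 - c‖ - r) := h1.const_max 0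
  have h3 : LipschitzWith (m : NNReal) fun v : Fin 1 → ℂ => (m : ℝ) * max 0 (‖v 0 - c‖ - r) := by
    have := (LipschitzWith.of_dist_le_mul (K := (m : NNReal)) (f := fun t : ℝ => (m : ℝ) * t) fun a b => by
      rw [Real.dist_eq, Real.dist_eq, ← mul_sub, abs_mul, abs_of_nonneg (Nat.cast_nonneg m)]
      simp).comp h2
    rw [mul_one] at this
    exact this
  exact h3.const_min 1

theorem lt_ramp_tendsto (c : ℂ) (r : ℝ) (v : Fin 1 → ℂ) :
    Tendsto (fun m : ℕ => ltRamp c r m v) atTop (𝓝 (({w : Fin 1 → ℂ | r < ‖w 0 - c‖}).indicator (fun _ => (1 : ℝ)) v)) := by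
  by_cases h : r < ‖v 0 - c‖
  · rw [Set.indicator_of_mem (show v ∈ {w : Fin 1 → ℂ | r < ‖w 0 - c‖} from h)]
    have ht : 0 < ‖v 0 - c‖ - r := by linarith
    obtain ⟨m₀, hm₀⟩ := exists_nat_gt (1 / (‖v 0 - c‖ - r))
    refine tendsto_const_nhds.congr' ?_
    filter_upwards [eventually_ge_atTop m₀] with m hm
    unfold ltRamp
    rw [max_eq_right ht.le, min_eq_left]
    have : (m₀ : ℝ) ≤ m := by exact_mod_cast hm
    rw [div_lt_iff₀ ht] at hm₀
    nlinarith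
  · rw [Set.indicator_of_notMem (show v ∉ {w : Fin 1 → ℂ | r < ‖w 0 - c‖} from h)]
    refine tendsto_const_nhds.congr fun m => ?_
    exact (lt_ramp_zero m (not_lt.1 h)).symm

section joint

variable {ρ ξ mr : ℝ} {U : Ultrafilter ℕ} {Λ : ℕ → ProbabilityMeasure TpCf}

theorem gx_W_ne (t : ℝ) {z : ℂ} (hz : 0 < z.im) : ((t : ℝ) : ℂ) - z ≠ 0 := by
  intro h
  have := congrArg Complex.im h
  simp at this
  linarith

theorem gx_W_sub (v : EReal) {z w : ℂ} (hz : 0 < z.im) (hw : 0 < w.im) : ltW v w - ltW v z = (w - z) * (ltW v w * ltW v z) := by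
  unfold ltW
  split_ifs with h
  · simp
  · have h1 := gx_W_ne v.toReal hz
    have h2 := gx_W_ne v.toReal hw
    field_simp
    ring

theorem gx_W_im (v : EReal) (z : ℂ) : (ltW v z).im = z.im * ‖ltW v z‖ ^ 2 := by
  unfold ltW
  split_ifs with h
  · simp
  · rw [Complex.inv_im, norm_inv, inv_pow, ← Complex.normSq_eq_norm_sq]
    simp only [Complex.sub_im, Complex.ofReal_im, zero_sub, neg_neg]
    rw [div_eq_mul_inv]

theorem gx_W_le (v : EReal) {w w₀ : ℂ} (hw : 0 < w.im) (hw₀ : 0 < w₀.im) : ‖ltW v w‖ ≤ (1 + ‖w - w₀‖ / w.im) * ‖ltW v w₀‖ := by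
  unfold ltW
  split_ifs with h
  · simp
  · have h1 := gx_W_ne v.toReal hw
    have h2 := gx_W_ne v.toReal hw₀
    have n1 : 0 < ‖((v.toReal : ℝ) : ℂ) - w‖ := norm_pos_iff.2 h1
    have n2 : 0 < ‖((v.toReal : ℝ) : ℂ) - w₀‖ := norm_pos_iff.2 h2
    rw [norm_inv, norm_inv, ← div_eq_mul_inv, le_div_iff₀ n2, inv_mul_le_iff₀ n1]
    have h3 : w.im ≤ ‖((v.toReal : ℝ) : ℂ) - w‖ := by
      have := Complex.abs_im_le_norm (((v.toReal : ℝ) : ℂ) - w)
      simp only [Complex.sub_im, Complex.ofReal_im, zero_sub, abs_neg] at this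
      exact (le_abs_self _).trans this
    have h4 : ‖((v.toReal : ℝ) : ℂ) - w₀‖ ≤ ‖((v.toReal : ℝ) : ℂ) - w‖ + ‖w - w₀‖ := by
      have := norm_add_le (((v.toReal : ℝ) : ℂ) - w) (w - w₀)
      simpa using this
    have h5 : ‖w - w₀‖ ≤ ‖((v.toReal : ℝ) : ℂ) - w‖ * (‖w - w₀‖ / w.im) := by
      rw [mul_div_assoc', le_div_iff₀ hw, mul_comm]
      exact mul_le_mul_of_nonneg_right h3 (norm_nonneg _)
    nlinarith

theorem gx_SK_sub (K : ℕ) (y : TpCf) {z w : ℂ} (hz : 0 < z.im) (hw : 0 < w.im) :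
    ltSK K y w - ltSK K y z = (w - z) * ∑ i : Win K, ltW (y (wIdx i)) w * ltW (y (wIdx i)) z := by
  unfold ltSK
  rw [← Finset.sum_sub_distrib, Finset.mul_sum]
  exact Finset.sum_congr rfl fun i _ => gx_W_sub _ hz hw

theorem gx_SK_im (K : ℕ) (y : TpCf) (z : ℂ) : (ltSK K y z).im = z.im * ∑ i : Win K, ‖ltW (y (wIdx i)) z‖ ^ 2 := by
  unfold ltSK
  rw [Complex.im_sum, Finset.mul_sum]
  exact Finset.sum_congr rfl fun i _ => gx_W_im _ _

/-- resolvent identity + Cauchy-Schwarz -/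
theorem gx_S_sub_le {y : TpCf} (hy : y ∈ ltFin) {z w : ℂ} (hz : 0 < z.im) (hw : 0 < w.im) :
    ‖ltS y w - ltS y z‖ ≤ ‖w - z‖ * Real.sqrt ((ltS y z).im * (ltS y w).im / (z.im * w.im)) := by
  obtain ⟨-, -, J, hJ⟩ := hy
  rw [lt_S_fin hJ z le_rfl, lt_S_fin hJ w le_rfl, gx_SK_sub J y hz hw, norm_mul, gx_SK_im, gx_SK_im]
  refine mul_le_mul_of_nonneg_left ?_ (norm_nonneg _)
  have e : (z.im * ∑ i : Win J, ‖ltW (y (wIdx i)) z‖ ^ 2) * (w.im * ∑ i : Win J, ‖ltW (y (wIdx i)) w‖ ^ 2) / (z.im * w.im)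
      = (∑ i : Win J, ‖ltW (y (wIdx i)) w‖ ^ 2) * ∑ i : Win J, ‖ltW (y (wIdx i)) z‖ ^ 2 := by
    field_simp
  rw [e, Real.sqrt_mul (Finset.sum_nonneg fun i _ => by positivity)]
  refine (norm_sum_le _ _).trans ?_
  simp only [norm_mul]
  exact Real.sum_mul_le_sqrt_mul_sqrt _ _ _

/-- comparison of the trace at two points of the upper half plane -/
theorem gx_S_le {y : TpCf} (hy : y ∈ ltFin) {w w₀ : ℂ} (hw : 0 < w.im) (hw₀ : 0 < w₀.im) :
    ‖ltS y w‖ ≤ ‖ltS y w₀‖ * (1 + ‖w - w₀‖ * (1 + ‖w - w₀‖ / w.im) / w₀.im) := by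
  obtain ⟨-, -, J, hJ⟩ := hy
  rw [lt_S_fin hJ w₀ le_rfl, lt_S_fin hJ w le_rfl]
  have h1 := gx_SK_sub J y hw₀ hw
  have h2 : ‖∑ i : Win J, ltW (y (wIdx i)) w * ltW (y (wIdx i)) w₀‖ ≤ (1 + ‖w - w₀‖ / w.im) * (‖ltSK J y w₀‖ / w₀.im) := by
    have h3 : ∑ i : Win J, ‖ltW (y (wIdx i)) w₀‖ ^ 2 ≤ ‖ltSK J y w₀‖ / w₀.im := by
      rw [le_div_iff₀ hw₀, mul_comm, ← gx_SK_im]
      exact (le_abs_self _).trans (Complex.abs_im_le_norm _)
    calc ‖∑ i : Win J, ltW (y (wIdx i)) w * ltW (y (wIdx i)) w₀‖ ≤ ∑ i : Win J, ‖ltW (y (wIdx i)) w * ltW (y (wIdx i)) w₀‖ := norm_sum_le _ _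
      _ ≤ ∑ i : Win J, (1 + ‖w - w₀‖ / w.im) * ‖ltW (y (wIdx i)) w₀‖ ^ 2 := by
          refine Finset.sum_le_sum fun i _ => ?_
          rw [norm_mul, sq, ← mul_assoc]
          exact mul_le_mul_of_nonneg_right (gx_W_le _ hw hw₀) (norm_nonneg _)
      _ = (1 + ‖w - w₀‖ / w.im) * ∑ i : Win J, ‖ltW (y (wIdx i)) w₀‖ ^ 2 := by rw [Finset.mul_sum]
      _ ≤ _ := mul_le_mul_of_nonneg_left h3 (by positivity)
  have h4 : ltSK J y w = ltSK J y w₀ + (w - w₀) * ∑ i : Win J, ltW (y (wIdx i)) w * ltW (y (wIdx i)) w₀ := by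
    rw [← h1]; ring
  rw [h4]
  calc _ ≤ ‖ltSK J y w₀‖ + ‖w - w₀‖ * ‖∑ i : Win J, ltW (y (wIdx i)) w * ltW (y (wIdx i)) w₀‖ := by
        refine (norm_add_le _ _).trans ?_
        rw [norm_mul]
    _ ≤ ‖ltSK J y w₀‖ + ‖w - w₀‖ * ((1 + ‖w - w₀‖ / w.im) * (‖ltSK J y w₀‖ / w₀.im)) := by gcongr
    _ = _ := by ring

/-- off the bad set, the labels outside the window are outside `[-R, R]` -/
theorem lt_off_bad {y : TpCf} (hy : Monotone y) {R : ℝ} {L : ℕ} (hbad : y ∉ tpBad R L) {j : ℤ} (hj : (L : ℤ) < |j|) :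
    (R : EReal) < y j ∨ y j < ((-R : ℝ) : EReal) := by
  simp only [tpBad, Set.mem_union, Set.mem_ofPred_eq, not_or, not_le] at hbad
  rcases lt_abs.1 hj with h | h
  · exact Or.inl (lt_of_lt_of_le hbad.1 (hy h.le))
  · exact Or.inr (lt_of_le_of_lt (hy (by omega)) hbad.2)

theorem lt_bad_anti {y : TpCf} (hy : Monotone y) {R : ℝ} {J L : ℕ} (hJL : J ≤ L) (hbad : y ∉ tpBad R J) : y ∉ tpBad R L := by
  simp only [tpBad, Set.mem_union, Set.mem_ofPred_eq, not_or, not_le] at hbad ⊢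
  exact ⟨lt_of_lt_of_le hbad.1 (hy (by exact_mod_cast hJL)), lt_of_le_of_lt (hy (by omega)) hbad.2⟩

/-- one term of the tail of the anchored sum -/
theorem lt_tail_term {v : EReal} {R : ℝ} (hR : 0 < R) {z w : ℂ} (hRz : 2 * ‖z‖ ≤ R) (hw : w.re = 0)
    (hv : (R : EReal) < v ∨ v < ((-R : ℝ) : EReal)) :
    ‖ltW v z‖ * ‖ltW v w‖ ≤ 4 / R * (if v = ⊤ ∨ v = ⊥ then 0 else ctP (v.toReal - 0) R) := by
  by_cases h0 : v = ⊤ ∨ v = ⊥
  · rw [if_pos h0]
    unfold ltW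
    rw [if_pos h0]
    simp
  rw [if_neg h0]
  have e1 := EReal.coe_toReal (fun h => h0 (Or.inl h)) (fun h => h0 (Or.inr h))
  obtain ⟨t, ht⟩ : ∃ t : ℝ, t = v.toReal := ⟨_, rfl⟩
  rw [← ht] at e1 ⊢
  have hRt : R < |t| := by
    rw [← e1, EReal.coe_lt_coe_iff, EReal.coe_lt_coe_iff] at hv
    rw [lt_abs]
    rcases hv with h | h
    · exact Or.inl h
    · exact Or.inr (by linarith)
  have ht0 : 0 < |t| := hR.trans hRt
  unfold ltW
  rw [if_neg h0, if_neg h0, ← ht, norm_inv, norm_inv]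
  have h1 : |t| / 2 ≤ ‖((t : ℝ) : ℂ) - z‖ := by
    have := norm_sub_norm_le ((t : ℝ) : ℂ) z
    rw [Complex.norm_real, Real.norm_eq_abs] at this
    linarith
  have h2 : |t| ≤ ‖((t : ℝ) : ℂ) - w‖ := by
    have := Complex.abs_re_le_norm (((t : ℝ) : ℂ) - w)
    simpa [hw] using this
  have h3 : ‖((t : ℝ) : ℂ) - z‖⁻¹ ≤ 2 / |t| := by
    rw [inv_le_comm₀ (lt_of_lt_of_le (by positivity) h1) (by positivity), inv_div]
    exact h1
  have h4 : ‖((t : ℝ) : ℂ) - w‖⁻¹ ≤ 1 / |t| := by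
    rw [one_div]
    exact inv_anti₀ ht0 h2
  have h5 : 2 / |t| * (1 / |t|) ≤ 4 / R * ctP (t - 0) R := by
    unfold ctP
    rw [sub_zero]
    have e2 : 2 / |t| * (1 / |t|) = 2 / t ^ 2 := by
      rw [div_mul_div_comm, mul_one, ← sq, sq_abs]
    have e3 : 4 / R * (R / (t ^ 2 + R ^ 2)) = 4 / (t ^ 2 + R ^ 2) := by field_simp
    have ht2 : R ^ 2 < t ^ 2 := by
      rw [← sq_abs t]
      exact pow_lt_pow_left₀ hRt hR.le (by norm_num)
    have ht3 : 0 < t ^ 2 := lt_of_le_of_lt (sq_nonneg R) ht2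
    rw [e2, e3, div_le_div_iff₀ ht3 (by positivity)]
    nlinarith
  calc _ ≤ 2 / |t| * (1 / |t|) := mul_le_mul h3 h4 (by positivity) (by positivity)
    _ ≤ _ := h5

/-- **deterministic core of J1** -/
theorem lt_joint_det {y : TpCf} (hy : y ∈ ltFin) {ρ mr R : ℝ} {k L : ℕ} (hk : 1 ≤ k) {z : ℂ} (hz : 0 < z.im) (hR : 0 < R) (hRz : 2 * ‖z‖ ≤ R)
    (hbad : y ∉ tpBad R L) (hfin : ∀ j : ℤ, |j| ≤ (L : ℤ) → ¬ (y j = ⊤ ∨ y j = ⊥)) :
    ‖ltAp ρ k L (tpReal y) z - (ltS y z - mr)‖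
      ≤ ‖z - (k : ℂ) * Complex.I‖ * (4 / R * (ltS y (ltZ 0 R)).im) + ‖ltS y (ltZ 0 k) - ltT ρ mr‖ := by
  obtain ⟨hmono, -, J, hJ⟩ := hy
  obtain ⟨w, hw⟩ : ∃ w : ℂ, w = (k : ℂ) * Complex.I := ⟨_, rfl⟩
  have hk0 : (0 : ℝ) < k := by exact_mod_cast hk
  have hwim : 0 < w.im := by rw [hw]; simpa using hk0
  have hwre : w.re = 0 := by rw [hw]; simp
  have hwZ : ltZ 0 k = w := by rw [hw]; simp [ltZ]
  obtain ⟨K, hKdef⟩ : ∃ K : ℕ, K = max J L := ⟨_, rfl⟩
  have hJK : J ≤ K := by rw [hKdef]; exact le_max_left _ _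
  have hLK : L ≤ K := by rw [hKdef]; exact le_max_right _ _
  have hK : ∀ j : ℤ, (K : ℤ) ≤ |j| → (y j = ⊤ ∨ y j = ⊥) := fun j hj => hJ j (le_trans (by exact_mod_cast hJK) hj)
  -- the window part
  have eA : ltAp ρ k L (tpReal y) z = ((Real.pi * ρ : ℝ) : ℂ) * Complex.I + (z - w) * ∑ j ∈ Finset.Icc (-(L : ℤ)) L, ltW (y j) z * ltW (y j) w := by
    unfold ltAp
    rw [← hw, k9_sum_win L (fun j => (((tpReal y j : ℝ) : ℂ) - z)⁻¹ * (((tpReal y j : ℝ) : ℂ) - w)⁻¹)]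
    congr 2
    refine Finset.sum_congr rfl fun j hj => ?_
    have hj' : |j| ≤ (L : ℤ) := abs_le.2 (Finset.mem_Icc.1 hj)
    unfold ltW tpReal
    rw [if_neg (hfin j hj'), if_neg (hfin j hj')]
  have eB : ltS y z - ltS y w = (z - w) * ∑ j ∈ Finset.Icc (-(K : ℤ)) K, ltW (y j) z * ltW (y j) w := by
    rw [lt_S_fin hJ z hJK, lt_S_fin hJ w hJK, gx_SK_sub K y hwim hz, k9_sum_win K (fun j => ltW (y j) z * ltW (y j) w)]
  have hsub : Finset.Icc (-(L : ℤ)) L ⊆ Finset.Icc (-(K : ℤ)) K := Finset.Icc_subset_Icc (by omega) (by omega)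
  have eD : ∑ j ∈ Finset.Icc (-(K : ℤ)) K, ltW (y j) z * ltW (y j) w - ∑ j ∈ Finset.Icc (-(L : ℤ)) L, ltW (y j) z * ltW (y j) w
      = ∑ j ∈ Finset.Icc (-(K : ℤ)) K \ Finset.Icc (-(L : ℤ)) L, ltW (y j) z * ltW (y j) w := by
    rw [← Finset.sum_sdiff hsub]; ring
  have hT : ‖∑ j ∈ Finset.Icc (-(K : ℤ)) K \ Finset.Icc (-(L : ℤ)) L, ltW (y j) z * ltW (y j) w‖ ≤ 4 / R * (ltS y (ltZ 0 R)).im := by
    rw [lt_S_im hK, Finset.mul_sum]
    calc _ ≤ ∑ j ∈ Finset.Icc (-(K : ℤ)) K \ Finset.Icc (-(L : ℤ)) L, ‖ltW (y j) z * ltW (y j) w‖ := norm_sum_le _ _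
      _ ≤ ∑ j ∈ Finset.Icc (-(K : ℤ)) K \ Finset.Icc (-(L : ℤ)) L, 4 / R * (if y j = ⊤ ∨ y j = ⊥ then 0 else ctP ((y j).toReal - 0) R) := by
          refine Finset.sum_le_sum fun j hj => ?_
          rw [norm_mul]
          have hj2 : (L : ℤ) < |j| := by
            by_contra hc
            rw [not_lt, abs_le] at hc
            exact (Finset.mem_sdiff.1 hj).2 (Finset.mem_Icc.2 hc)
          exact lt_tail_term hR hRz hwre (lt_off_bad hmono hbad hj2)
      _ ≤ _ := by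
          refine Finset.sum_le_sum_of_subset_of_nonneg Finset.sdiff_subset fun j _ _ => ?_
          split_ifs
          · simp
          · exact mul_nonneg (by positivity) (ct_P_pos _ hR).le
  have e : ltAp ρ k L (tpReal y) z - (ltS y z - mr)
      = -((z - w) * ∑ j ∈ Finset.Icc (-(K : ℤ)) K \ Finset.Icc (-(L : ℤ)) L, ltW (y j) z * ltW (y j) w) - (ltS y w - ltT ρ mr) := by
    rw [← eD, eA]
    have : ltS y z = ltS y w + (z - w) * ∑ j ∈ Finset.Icc (-(K : ℤ)) K, ltW (y j) z * ltW (y j) w := by rw [← eB]; ring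
    rw [this]
    unfold ltT
    ring
  rw [e, hwZ, ← hw]
  calc _ ≤ ‖-((z - w) * ∑ j ∈ Finset.Icc (-(K : ℤ)) K \ Finset.Icc (-(L : ℤ)) L, ltW (y j) z * ltW (y j) w)‖ + ‖ltS y w - ltT ρ mr‖ := norm_sub_le _ _
    _ ≤ _ := by
        rw [norm_neg, norm_mul]
        gcongr

/-- LEAF J1 (tail of the anchored sum at finite `n`).   On `ltFin ∩ {tpBad R L}ᶜ ∩ {Im S(iR) ≤ πρ+1}`: `∑_{|j|>L} 1/(|y_j - z||y_j - ik|) ≤ c(z) ∑_{|t|>R} t^{-2} ≤ c(z) (2/R)(πρ+1)`;   plus `|S_n(ik) - mr - iπρ| ≤ k^{-ξ}`.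
For every anchor `k ≥ k₀` there is a window `L` which works. -/
theorem lt_joint_n (hρ : 0 < ρ) (hξ : 0 < ξ) (H : LtTr ρ ξ mr U Λ) {z : ℂ} (hz : 0 < z.im) (δ ε : ℝ) (hδ : 0 < δ) (hε : 0 < ε) :
    ∃ k₀ : ℕ, ∀ k, k₀ ≤ k → ∃ L₀ : ℕ, ∀ L, L₀ ≤ L → ∀ᶠ n in (U : Filter ℕ),
      (Λ n : Measure TpCf) {y | δ < ‖ltAp ρ k L (tpReal y) z - (ltS y z - mr)‖} ≤ ENNReal.ofReal ε := by
  have hpi := Real.pi_pos
  obtain ⟨u₁, hu₁, h1⟩ := lt_im_event hξ H (ε / 4) (δ / 2) (by positivity) (by positivity)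
  obtain ⟨u₂, hu₂, h2⟩ := lt_im_event hξ H (ε / 4) 1 (by positivity) one_pos
  obtain ⟨k₀, hk₀⟩ := exists_nat_ge u₁
  refine ⟨max k₀ 1, fun k hk => ?_⟩
  have hk1 : 1 ≤ k := (le_max_right _ _).trans hk
  have hku : u₁ ≤ (k : ℝ) := hk₀.trans (by exact_mod_cast (le_max_left _ _).trans hk)
  obtain ⟨R, hRdef⟩ : ∃ R : ℝ, R = max (max u₂ (2 * ‖z‖)) (max 1 (8 * ‖z - (k : ℂ) * Complex.I‖ * (Real.pi * ρ + 1) / δ)) := ⟨_, rfl⟩
  have hR1 : u₂ ≤ R := by rw [hRdef]; exact (le_max_left _ _).trans (le_max_left _ _)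
  have hR2 : 2 * ‖z‖ ≤ R := by rw [hRdef]; exact (le_max_right _ _).trans (le_max_left _ _)
  have hR3 : 1 ≤ R := by rw [hRdef]; exact (le_max_left _ _).trans (le_max_right _ _)
  have hR4 : 8 * ‖z - (k : ℂ) * Complex.I‖ * (Real.pi * ρ + 1) / δ ≤ R := by rw [hRdef]; exact (le_max_right _ _).trans (le_max_right _ _)
  have hR0 : 0 < R := by linarith
  obtain ⟨J, hJ⟩ := lt_locfin hρ hξ H R (ε / 4) (by positivity)
  refine ⟨J, fun L hL => ?_⟩
  have hLpos : (0 : ℝ) < 2 * L + 1 := by positivity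
  choose Rj hRj using fun j : ℤ => lt_tight hρ hξ H j (ε / (4 * (2 * L + 1))) (by positivity)
  have hE4 : ∀ᶠ n in (U : Filter ℕ), ∀ j ∈ Finset.Icc (-(L : ℤ)) L, (Λ n : Measure TpCf) (tpOut j (Rj j)) ≤ ENNReal.ofReal (ε / (4 * (2 * L + 1))) :=
    (Filter.eventually_all_finset _).2 fun j _ => hRj j
  filter_upwards [h1 0 k hku, h2 0 R hR1, hJ, hE4, H.fin] with n e1 e2 e3 e4 hfin
  have hsub : {y : TpCf | δ < ‖ltAp ρ k L (tpReal y) z - (ltS y z - mr)‖}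
      ⊆ (((({y : TpCf | δ / 2 < ‖ltS y (ltZ 0 k) - ltT ρ mr‖} ∪ {y : TpCf | 1 < ‖ltS y (ltZ 0 R) - ltT ρ mr‖}) ∪ tpBad R J)
          ∪ ⋃ j ∈ Finset.Icc (-(L : ℤ)) L, tpOut j (Rj j)) ∪ {y : TpCf | ¬ y ∈ ltFin}) := by
    intro y hy
    by_contra hcon
    simp only [Set.mem_union, Set.mem_iUnion, Set.mem_ofPred_eq, not_or, not_exists, not_lt, not_not] at hcon
    obtain ⟨⟨⟨⟨g1, g2⟩, g3⟩, g4⟩, hyf⟩ := hcon
    have hfin' : ∀ j : ℤ, |j| ≤ (L : ℤ) → ¬ (y j = ⊤ ∨ y j = ⊥) := by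
      intro j hj hinf
      refine g4 j (Finset.mem_Icc.2 (abs_le.1 hj)) ?_
      rcases hinf with h | h
      · exact Or.inr (show (Rj j : EReal) < y j by rw [h]; exact EReal.coe_lt_top _)
      · exact Or.inl (show y j < ((-(Rj j) : ℝ) : EReal) by rw [h]; exact EReal.bot_lt_coe _)
    have key := lt_joint_det (ρ := ρ) (mr := mr) hyf hk1 hz hR0 hR2 (lt_bad_anti hyf.1 hL g3) hfin'
    have him : (ltS y (ltZ 0 R)).im ≤ Real.pi * ρ + 1 := by
      have a1 : (ltS y (ltZ 0 R)).im = (ltS y (ltZ 0 R) - ltT ρ mr).im + (ltT ρ mr).im := by simp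
      have a2 : (ltT ρ mr).im = Real.pi * ρ := by
        unfold ltT
        simp
      have a3 := (le_abs_self _).trans (Complex.abs_im_le_norm (ltS y (ltZ 0 R) - ltT ρ mr))
      rw [a1, a2]
      linarith
    have hb : ‖z - (k : ℂ) * Complex.I‖ * (4 / R * (ltS y (ltZ 0 R)).im) ≤ δ / 2 := by
      calc _ ≤ ‖z - (k : ℂ) * Complex.I‖ * (4 / R * (Real.pi * ρ + 1)) := by gcongr
        _ = (8 * ‖z - (k : ℂ) * Complex.I‖ * (Real.pi * ρ + 1) / δ) * (δ / 2) / R := by field_simp; ring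
        _ ≤ R * (δ / 2) / R := by gcongr
        _ = δ / 2 := by field_simp
    have : ‖ltAp ρ k L (tpReal y) z - (ltS y z - mr)‖ ≤ δ := by linarith
    exact absurd hy (not_lt.2 this)
  have hcard : ∑ _j ∈ Finset.Icc (-(L : ℤ)) L, ENNReal.ofReal (ε / (4 * (2 * L + 1))) = ENNReal.ofReal (ε / 4) := by
    rw [← ENNReal.ofReal_sum_of_nonneg (fun _ _ => by positivity), Finset.sum_const, Int.card_Icc, nsmul_eq_mul]
    congr 1
    have : (((L : ℤ) + 1 - -(L : ℤ)).toNat : ℝ) = 2 * L + 1 := by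
      have : ((L : ℤ) + 1 - -(L : ℤ)).toNat = 2 * L + 1 := by omega
      rw [this]; push_cast; ring
    rw [this]
    field_simp
  calc _ ≤ (Λ n : Measure TpCf) (((({y : TpCf | δ / 2 < ‖ltS y (ltZ 0 k) - ltT ρ mr‖} ∪ {y : TpCf | 1 < ‖ltS y (ltZ 0 R) - ltT ρ mr‖}) ∪ tpBad R J)
          ∪ ⋃ j ∈ Finset.Icc (-(L : ℤ)) L, tpOut j (Rj j)) ∪ {y : TpCf | ¬ y ∈ ltFin}) := measure_mono hsub
    _ ≤ (((ENNReal.ofReal (ε / 4) + ENNReal.ofReal (ε / 4)) + ENNReal.ofReal (ε / 4)) + ENNReal.ofReal (ε / 4)) + 0 := by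
        refine (measure_union_le _ _).trans (add_le_add ?_ (le_of_eq (ae_iff.1 hfin)))
        refine (measure_union_le _ _).trans (add_le_add ?_ ?_)
        · refine (measure_union_le _ _).trans (add_le_add ?_ e3)
          exact (measure_union_le _ _).trans (add_le_add e1 e2)
        · rw [← hcard]
          exact (measure_biUnion_finset_le _ _).trans (Finset.sum_le_sum e4)
    _ = ENNReal.ofReal ε := by
        rw [add_zero, ← ENNReal.ofReal_add (by positivity) (by positivity), ← ENNReal.ofReal_add (by positivity) (by positivity),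
          ← ENNReal.ofReal_add (by positivity) (by positivity)]
        congr 1
        ring

/-- J2 (the same for one regular configuration, deterministic: C3, C4, C1) -/
theorem lt_joint_x {χ C₀ : ℝ} {J₀ : ℕ} {x : Conf} (hρ : 0 < ρ) (hχ : 0 < χ) (hx : CReg ρ χ C₀ J₀ x) {z : ℂ} (hz : 0 < z.im) (δ : ℝ) (hδ : 0 < δ) :
    ∃ k₀ : ℕ, ∀ k, k₀ ≤ k → ∃ L₀ : ℕ, ∀ L, L₀ ≤ L → ‖ltAp ρ k L x z - cS x z‖ ≤ δ := by
  obtain ⟨k₁, hk₁⟩ := eventually_atTop.1 ((Metric.tendsto_nhds.1 (lt_anchor_tendsto hρ hχ hx z)) (δ / 2) (by positivity))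
  refine ⟨max k₁ 1, fun k hk => ?_⟩
  obtain ⟨L₀, hL₀⟩ := eventually_atTop.1 ((Metric.tendsto_nhds.1 (lt_ap_tendsto hρ hχ hx hz (le_of_max_le_right hk))) (δ / 2) (by positivity))
  refine ⟨L₀, fun L hL => ?_⟩
  have a1 := hk₁ k (le_of_max_le_left hk)
  have a2 := hL₀ L hL
  rw [← dist_eq_norm]
  have := dist_triangle (ltAp ρ k L x z) (((Real.pi * ρ : ℝ) : ℂ) * Complex.I + (cS x z - cS x ((k : ℂ) * Complex.I))) (cS x z)
  linarith

/-- J3 (**convergence in law of the traces**): `lt_together` with `E = Fin b → ℂ`, `X n y = (ltS y (z a) - mr)_a`, `X^k y = (ltAp ρ k (L k) (tpReal y) (z a))_a`, `Y^k x = (ltAp ρ k (L k) x (z a))_a`;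
`L k` chosen by J1 with `δ = ε = 1/k` AND so large that `μ{∃ a, ‖ltAp ρ k (L k) x (z a) - [iπρ + cS x (z a) - cS x (ik)]‖ > 1/k} ≤ 2^{-k}` (C1, C3: for fixed `k` the window sums converge a.s., hence in probability), Borel-Cantelli + C4 give (b);
(a) = `LtLim.win` on the window `L k` (the test `F ∘ ltAp` is bounded continuous in the window). -/
theorem lt_joint (hρ : 0 < ρ) (hξ : 0 < ξ) (H : LtTr ρ ξ mr U Λ) {μ : Measure Conf} [IsProbabilityMeasure μ] (L : LtLim mr U Λ μ)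
    (hpos : ∃ χ : ℝ, 0 < χ ∧ ∀ᵐ x ∂μ, ∃ (C₀ : ℝ) (J₀ : ℕ), CReg ρ χ C₀ J₀ x) : LtJoint mr U Λ μ := by
  intro b z hz Φ hb hl
  obtain ⟨B, hB⟩ := hb
  obtain ⟨Lc, hL⟩ := hl
  obtain ⟨χ, hχ, hreg⟩ := hpos
  have mΦ := hL.continuous.measurable
  have hB0 : 0 ≤ B := (abs_nonneg _).trans (hB 0)
  -- the law side, window to anchor
  have G1 : ∀ k : ℕ, 1 ≤ k → Tendsto (fun Lw : ℕ => ∫ x, Φ (fun a => ltAp ρ k Lw x (z a)) ∂μ) atTop
      (𝓝 (∫ x, Φ (fun a => ((Real.pi * ρ : ℝ) : ℂ) * Complex.I + (cS x (z a) - cS x ((k : ℂ) * Complex.I))) ∂μ)) := by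
    intro k hk
    refine tendsto_integral_of_dominated_convergence (fun _ => B) (fun Lw => ?_) (integrable_const B)
      (fun Lw => ae_of_all _ fun x => by rw [Real.norm_eq_abs]; exact hB _) ?_
    · exact (mΦ.comp (measurable_pi_lambda _ fun a => lt_ap_measurable ρ hk Lw (hz a))).aestronglyMeasurable
    · filter_upwards [hreg] with x hx
      obtain ⟨C₀, J₀, hx⟩ := hx
      exact (hL.continuous.tendsto _).comp (tendsto_pi_nhds.2 fun a => lt_ap_tendsto hρ hχ hx (hz a) hk)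
  -- the law side, anchor to infinity
  have G2 : Tendsto (fun k : ℕ => ∫ x, Φ (fun a => ((Real.pi * ρ : ℝ) : ℂ) * Complex.I + (cS x (z a) - cS x ((k : ℂ) * Complex.I))) ∂μ) atTop
      (𝓝 (∫ x, Φ (fun a => cS x (z a)) ∂μ)) := by
    refine tendsto_integral_of_dominated_convergence (fun _ => B) (fun k => ?_) (integrable_const B)
      (fun k => ae_of_all _ fun x => by rw [Real.norm_eq_abs]; exact hB _) ?_
    · exact (mΦ.comp (measurable_pi_lambda _ fun a =>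
        measurable_const.add ((lt_cS_measurable (z a)).sub (lt_cS_measurable _)))).aestronglyMeasurable
    · filter_upwards [hreg] with x hx
      obtain ⟨C₀, J₀, hx⟩ := hx
      exact (hL.continuous.tendsto _).comp (tendsto_pi_nhds.2 fun a => lt_anchor_tendsto hρ hχ hx (z a))
  -- windows
  have G3 : ∀ k : ℕ, 1 ≤ k → ∀ Lw : ℕ, Tendsto (fun n => ∫ y, Φ (fun a => ltAp ρ k Lw (tpReal y) (z a)) ∂(Λ n : Measure TpCf)) U
      (𝓝 (∫ x, Φ (fun a => ltAp ρ k Lw x (z a)) ∂μ)) := by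
    intro k hk Lw
    have cF : Continuous fun v : Win Lw → ℝ => Φ (fun a => ltApW ρ k Lw v (z a)) :=
      hL.continuous.comp (continuous_pi fun a => lt_apW_continuous ρ hk Lw (hz a))
    exact L.win (Win Lw) wIdx (BoundedContinuousFunction.ofNormedAddCommGroup _ cF B fun v => by rw [Real.norm_eq_abs]; exact hB _)
  rw [Metric.tendsto_nhds]
  intro η hη
  have hδ : 0 < η / (8 * (Lc + 1)) := by positivity
  have hε : 0 < η / (16 * (B + 1)) := by positivity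
  have hε' : 0 < η / (16 * (B + 1)) / (b + 1) := by positivity
  choose k₀ hk₀ using fun a => lt_joint_n hρ hξ H (hz a) _ _ hδ hε'
  obtain ⟨K₁, hK₁⟩ := eventually_atTop.1 ((Metric.tendsto_nhds.1 G2) (η / 4) (by positivity))
  obtain ⟨k, hk⟩ : ∃ k : ℕ, k = max (max (Finset.univ.sup k₀) K₁) 1 := ⟨_, rfl⟩
  have hk1 : 1 ≤ k := hk ▸ le_max_right _ _
  have hkK : K₁ ≤ k := hk ▸ (le_max_right _ _).trans (le_max_left _ _)
  have hk0 : ∀ a, k₀ a ≤ k := fun a => hk ▸ ((Finset.le_sup (Finset.mem_univ a)).trans (le_max_left _ _)).trans (le_max_left _ _)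
  choose L₀ hL₀ using fun a => hk₀ a k (hk0 a)
  obtain ⟨L₁, hL₁⟩ := eventually_atTop.1 ((Metric.tendsto_nhds.1 (G1 k hk1)) (η / 4) (by positivity))
  obtain ⟨Lw, hLw⟩ : ∃ Lw : ℕ, Lw = max (Finset.univ.sup L₀) L₁ := ⟨_, rfl⟩
  have hLw1 : L₁ ≤ Lw := hLw ▸ le_max_right _ _
  have hLw0 : ∀ a, L₀ a ≤ Lw := fun a => hLw ▸ (Finset.le_sup (Finset.mem_univ a)).trans (le_max_left _ _)
  have ev1 : ∀ᶠ n in (U : Filter ℕ), ∀ a, (Λ n : Measure TpCf) {y | η / (8 * (Lc + 1)) < ‖ltAp ρ k Lw (tpReal y) (z a) - (ltS y (z a) - mr)‖}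
      ≤ ENNReal.ofReal (η / (16 * (B + 1)) / (b + 1)) := eventually_all.2 fun a => hL₀ a Lw (hLw0 a)
  have ev2 := (Metric.tendsto_nhds.1 (G3 k hk1 Lw)) (η / 4) (by positivity)
  have g2 := hK₁ k hkK
  have g1 := hL₁ Lw hLw1
  filter_upwards [ev1, ev2] with n e1 e2
  have hm : (Λ n : Measure TpCf) {y | η / (8 * (Lc + 1)) < dist (fun a => ltAp ρ k Lw (tpReal y) (z a)) (fun a => ltS y (z a) - (mr : ℂ))}
      ≤ ENNReal.ofReal (η / (16 * (B + 1))) := by
    have hsub : {y : TpCf | η / (8 * (Lc + 1)) < dist (fun a => ltAp ρ k Lw (tpReal y) (z a)) (fun a => ltS y (z a) - (mr : ℂ))}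
        ⊆ ⋃ a, {y | η / (8 * (Lc + 1)) < ‖ltAp ρ k Lw (tpReal y) (z a) - (ltS y (z a) - mr)‖} := by
      intro y hy
      by_contra hc
      simp only [Set.mem_iUnion, Set.mem_ofPred_eq, not_exists, not_lt] at hc
      have : dist (fun a => ltAp ρ k Lw (tpReal y) (z a)) (fun a => ltS y (z a) - (mr : ℂ)) ≤ η / (8 * (Lc + 1)) :=
        (dist_pi_le_iff hδ.le).2 fun a => by rw [dist_eq_norm]; exact hc a
      exact absurd hy (not_lt.2 this)
    refine (measure_mono hsub).trans ((measure_iUnion_fintype_le _ _).trans ?_)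
    refine (Finset.sum_le_sum fun a _ => e1 a).trans ?_
    rw [Finset.sum_const, Finset.card_univ, Fintype.card_fin, nsmul_eq_mul, ← ENNReal.ofReal_natCast, ← ENNReal.ofReal_mul (Nat.cast_nonneg _)]
    refine ENNReal.ofReal_le_ofReal ?_
    rw [mul_div_assoc', div_le_iff₀ (by positivity)]
    have : 0 ≤ η / (16 * (B + 1)) := hε.le
    nlinarith
  have e4 := lt_close_int (Λ n : Measure TpCf)
    (f := fun y => fun a => ltAp ρ k Lw (tpReal y) (z a)) (g := fun y => fun a => ltS y (z a) - (mr : ℂ))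
    (measurable_pi_lambda _ fun a => (lt_ap_measurable ρ hk1 Lw (hz a)).comp tp_real_measurable)
    (measurable_pi_lambda _ fun a => (lt_S_measurable (z a)).sub_const _) hB hL hδ.le hε.le hm
  rw [Real.dist_eq] at g1 g2 e2 ⊢
  have b1 : (Lc : ℝ) * (η / (8 * (Lc + 1))) ≤ η / 8 := by
    rw [show (Lc : ℝ) * (η / (8 * (Lc + 1))) = (η / 8) * (Lc / (Lc + 1)) by field_simp]
    refine mul_le_of_le_one_right (by positivity) ?_
    rw [div_le_one (by positivity)]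
    linarith
  have b2 : 2 * B * (η / (16 * (B + 1))) ≤ η / 8 := by
    rw [show 2 * B * (η / (16 * (B + 1))) = (η / 8) * (B / (B + 1)) by field_simp; ring]
    refine mul_le_of_le_one_right (by positivity) ?_
    rw [div_le_one (by positivity)]
    linarith
  set I0 := ∫ y, Φ (fun a => ltS y (z a) - (mr : ℂ)) ∂(Λ n : Measure TpCf)
  set I1 := ∫ y, Φ (fun a => ltAp ρ k Lw (tpReal y) (z a)) ∂(Λ n : Measure TpCf)
  set I2 := ∫ x, Φ (fun a => ltAp ρ k Lw x (z a)) ∂μ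
  set I3 := ∫ x, Φ (fun a => ((Real.pi * ρ : ℝ) : ℂ) * Complex.I + (cS x (z a) - cS x ((k : ℂ) * Complex.I))) ∂μ
  set I4 := ∫ x, Φ (fun a => cS x (z a)) ∂μ
  have t1 := abs_sub_le I0 I1 I4
  have t2 := abs_sub_le I1 I2 I4
  have t3 := abs_sub_le I2 I3 I4
  linarith

/-- J4 (`LReg.tr` with the SAME exponent).   The bad set `G = {v : r < ‖v - iπρ‖}` is open: `1_G = sup_m f_m`, `f_m v = min 1 (m (‖v - iπρ‖ - r)₊)` bounded Lipschitz;
`∫ f_m(cS x z) dμ = lim_U ∫ f_m(S_n - mr) dΛ_n ≤ C u^{-D}` (`LtJoint`, `b = 1`; `f_m ≤ 1_G`), monotone convergence in `m`.   `u₀ := max u₀ 1`. -/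
theorem lt_tr (H : LtTr ρ ξ mr U Λ) {μ : Measure Conf} [IsProbabilityMeasure μ] (J : LtJoint mr U Λ μ) :
    ∀ D : ℕ, ∃ C u₀ : ℝ, ∀ e u : ℝ, u₀ ≤ u →
      μ {x | u ^ (-ξ) < ‖cS x ((e : ℂ) + (u : ℂ) * Complex.I) - ((Real.pi * ρ : ℝ) : ℂ) * Complex.I‖} ≤ ENNReal.ofReal (C * u ^ (-(D : ℝ))) := by
  intro D
  obtain ⟨C, u₀, h⟩ := H.tr D
  refine ⟨C, max u₀ 1, fun e u hu => ?_⟩
  have hu0 : u₀ ≤ u := (le_max_left _ _).trans hu
  have hu1 : 0 < u := lt_of_lt_of_le one_pos ((le_max_right _ _).trans hu)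
  set z : ℂ := (e : ℂ) + (u : ℂ) * Complex.I with hz
  set c : ℂ := ((Real.pi * ρ : ℝ) : ℂ) * Complex.I with hc
  set r : ℝ := u ^ (-ξ) with hr
  set q : ℝ≥0∞ := ENNReal.ofReal (C * u ^ (-(D : ℝ))) with hq
  have him : 0 < z.im := by simp [hz, hu1]
  have hn := h e u hu0
  -- the integrals of the ramps
  have key : ∀ m : ℕ, ∫ x, ltRamp c r m (fun _ => cS x z) ∂μ ≤ q.toReal := by
    intro m
    have ht := J 1 (fun _ => z) (fun _ => him) (ltRamp c r m)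
      ⟨1, fun v => by rw [abs_of_nonneg (lt_ramp_nonneg c r m v)]; exact lt_ramp_le_one c r m v⟩ ⟨_, lt_ramp_lip c r m⟩
    refine le_of_tendsto ht ?_
    filter_upwards [hn] with n hn
    set S : Set TpCf := {y | r < ‖ltS y z - ltT ρ mr‖} with hS
    have mS : MeasurableSet S :=
      measurableSet_lt measurable_const ((lt_S_measurable z).sub_const _).norm
    have e1 : ∀ y, ltRamp c r m (fun _ => ltS y z - mr) ≤ S.indicator (fun _ => (1 : ℝ)) y := by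
      intro y
      have e2 : ltS y z - (mr : ℂ) - c = ltS y z - ltT ρ mr := by unfold ltT; ring
      by_cases hy : y ∈ S
      · rw [Set.indicator_of_mem hy]; exact lt_ramp_le_one _ _ _ _
      · rw [Set.indicator_of_notMem hy]
        refine (lt_ramp_zero m ?_).le
        show ‖ltS y z - (mr : ℂ) - c‖ ≤ r
        rw [e2]
        exact not_lt.1 hy
    have mR : Measurable fun y : TpCf => ltRamp c r m (fun _ => ltS y z - mr) :=
      (lt_ramp_lip c r m).continuous.measurable.comp (measurable_pi_lambda _ fun _ => (lt_S_measurable z).sub_const _)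
    have i1 : Integrable (fun y : TpCf => ltRamp c r m (fun _ => ltS y z - mr)) (Λ n : Measure TpCf) :=
      Integrable.of_bound mR.aestronglyMeasurable 1 (ae_of_all _ fun y => by
        rw [Real.norm_eq_abs, abs_of_nonneg (lt_ramp_nonneg _ _ _ _)]; exact lt_ramp_le_one _ _ _ _)
    have i2 : Integrable (S.indicator (fun _ => (1 : ℝ))) (Λ n : Measure TpCf) := (integrable_const (1 : ℝ)).indicator mS
    calc ∫ y, ltRamp c r m (fun _ => ltS y z - mr) ∂(Λ n : Measure TpCf) ≤ ∫ y, S.indicator (fun _ => (1 : ℝ)) y ∂(Λ n : Measure TpCf) :=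
          integral_mono i1 i2 e1
      _ = ((Λ n : Measure TpCf) S).toReal := by
          rw [integral_indicator mS]
          simp [Measure.real]
      _ ≤ q.toReal := ENNReal.toReal_mono ENNReal.ofReal_ne_top hn
  -- monotone limit
  set G : Set Conf := {x | r < ‖cS x z - c‖} with hG
  have mG : MeasurableSet G := measurableSet_lt measurable_const ((lt_cS_measurable z).sub_const _).norm
  have lim : Tendsto (fun m : ℕ => ∫ x, ltRamp c r m (fun _ => cS x z) ∂μ) atTop (𝓝 (∫ x, G.indicator (fun _ => (1 : ℝ)) x ∂μ)) := by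
    refine tendsto_integral_of_dominated_convergence (fun _ => (1 : ℝ)) (fun m => ?_) (integrable_const _) (fun m => ?_) ?_
    · exact ((lt_ramp_lip c r m).continuous.measurable.comp (measurable_pi_lambda _ fun _ => lt_cS_measurable z)).aestronglyMeasurable
    · exact ae_of_all _ fun x => by
        rw [Real.norm_eq_abs, abs_of_nonneg (lt_ramp_nonneg _ _ _ _)]; exact lt_ramp_le_one _ _ _ _
    · refine ae_of_all _ fun x => ?_
      have := lt_ramp_tendsto c r (fun _ => cS x z)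
      exact this
  have h1 : ∫ x, G.indicator (fun _ => (1 : ℝ)) x ∂μ ≤ q.toReal := le_of_tendsto' lim key
  have h2 : ∫ x, G.indicator (fun _ => (1 : ℝ)) x ∂μ = (μ G).toReal := by
    rw [integral_indicator mG]
    simp [Measure.real]
  rw [h2] at h1
  exact (ENNReal.toReal_le_toReal (measure_ne_top _ _) ENNReal.ofReal_ne_top).1 h1

end joint

/-! ## 7. the GOE instance: definitions and change of variables (used by `GoeG1F.lean`, `GoeG2.lean`, `Goe.lean`; prefix `gx_`) -/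

section gx

open Claims.C0462 Matrix

/-- the labelled rescaled spectrum -/
noncomputable def gxY (ρ : ℝ) {n : ℕ} (x : Fin n × Fin n → ℝ) : TpCf := tpLab (tpSpecW (n / (Real.pi * ρ)) x)

/-- the same as a real configuration (junk `0` beyond the range of the labels) -/
noncomputable def gxCf (ρ : ℝ) {n : ℕ} (x : Fin n × Fin n → ℝ) : Conf := tpReal (gxY ρ x)

/-- the perturbed matrix in micro-coordinates, ORIGINAL basis -/
noncomputable def gxFull (ρ Δ : ℝ) {n : ℕ} (x : Fin n × Fin n → ℝ) (N : Matrix (Fin n) (Fin n) ℝ) : Matrix (Fin n) (Fin n) ℝ :=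
  ((n : ℝ) / (Real.pi * ρ)) • goeMatrix x + Real.sqrt Δ • goeOf N

/-- `s_n = √(1 + Δ (πρ)²/n)` -/
noncomputable def gxSc (ρ Δ : ℝ) (n : ℕ) : ℝ := Real.sqrt (1 + Δ * (Real.pi * ρ) ^ 2 / n)

theorem gx_eqns_cite : True := by
  have := @gxY.eq_1
  have := @gxCf.eq_1
  have := @gxFull.eq_1
  have := @gxSc.eq_1
  trivial

theorem gx_Y_measurable (ρ : ℝ) (n : ℕ) : Measurable (gxY ρ : (Fin n × Fin n → ℝ) → TpCf) := tp_measW n _

/-- change of variables -/
theorem gx_int (ρ : ℝ) (n : ℕ) (F : TpCf → ℝ) (hF : Measurable F) :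
    ∫ y, F y ∂(limPW ρ n : Measure TpCf) = ∫ x, F (gxY ρ x) ∂(goeArray n) := by
  rw [lim_PW_coe]
  unfold tpLawW
  rw [integral_map (tp_measW n _).aemeasurable hF.aestronglyMeasurable]
  rfl

theorem gx_meas (ρ : ℝ) (n : ℕ) {S : Set TpCf} (hS : MeasurableSet S) :
    (limPW ρ n : Measure TpCf) S = goeArray n {x | gxY ρ x ∈ S} := by
  rw [lim_PW_coe, tp_lawW_apply n _ hS]
  rfl

/-- LEAF A1: the trace of the resolvent is the Stieltjes sum of the roots of the characteristic polynomial (`lt_S_lab`, `tp_roots_sum` pattern / kit EIG of helper251) -/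
theorem gx_S_rTr (ρ : ℝ) (hρ : 0 < ρ) {n : ℕ} (hn : 1 ≤ n) (x : Fin n × Fin n → ℝ) {w : ℂ} (hw : 0 < w.im) :
    ltS (gxY ρ x) w = rTr (((n : ℝ) / (Real.pi * ρ)) • goeMatrix x) w := by
  have hn0 : (0 : ℝ) < n := by exact_mod_cast hn
  have hpi := Real.pi_pos
  have ha : (0 : ℝ) < (n : ℝ) / (Real.pi * ρ) := by positivity
  obtain ⟨a, ha'⟩ : ∃ a : ℝ, a = (n : ℝ) / (Real.pi * ρ) := ⟨_, rfl⟩
  unfold gxY
  rw [lt_S_lab]
  unfold tpSpecW
  rw [← ha'] at ha ⊢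
  have hac : (a : ℂ) ≠ 0 := by exact_mod_cast ha.ne'
  have hA := tp_goeMatrix_herm x
  have him : ((a : ℂ)⁻¹ * w).im ≠ 0 := by
    rw [← Complex.ofReal_inv, Complex.im_ofReal_mul]
    have : 0 < a⁻¹ * w.im := by positivity
    exact this.ne'
  -- scaling of the resolvent
  have e : (a • goeMatrix x).map (fun t : ℝ => (t : ℂ)) - w • (1 : Matrix (Fin n) (Fin n) ℂ)
      = (a : ℂ) • (rsC (goeMatrix x) - ((a : ℂ)⁻¹ * w) • (1 : Matrix (Fin n) (Fin n) ℂ)) := by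
    ext i j
    simp only [Matrix.sub_apply, Matrix.map_apply, Matrix.smul_apply, smul_eq_mul, Complex.ofReal_mul, rsC, RingHom.mapMatrix_apply,
      Complex.ofRealHom_eq_coe]
    field_simp
  have hu : IsUnit (rsC (goeMatrix x) - ((a : ℂ)⁻¹ * w) • (1 : Matrix (Fin n) (Fin n) ℂ)).det := rs_isUnit hA him
  have e2 : rTr (a • goeMatrix x) w = (a : ℂ)⁻¹ * (rsG (goeMatrix x) ((a : ℂ)⁻¹ * w)).trace := by
    unfold rTr
    rw [e]
    let _ : Invertible (a : ℂ) := invertibleOfNonzero hac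
    rw [Matrix.inv_smul _ (a : ℂ) hu, invOf_eq_inv, Matrix.trace_smul, smul_eq_mul]
    rfl
  rw [e2, rs_trace hA him, Multiset.map_map, hA.roots_charpoly_eq_eigenvalues, Multiset.map_map, Finset.mul_sum]
  show ∑ i, _ = _
  refine Finset.sum_congr rfl fun i _ => ?_
  simp only [Function.comp]
  have h1 : ((hA.eigenvalues i : ℝ) : ℂ) - (a : ℂ)⁻¹ * w ≠ 0 := rs_ne him
  have h2 : ((a * hA.eigenvalues i : ℝ) : ℂ) - w = (a : ℂ) * (((hA.eigenvalues i : ℝ) : ℂ) - (a : ℂ)⁻¹ * w) := by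
    push_cast; field_simp
  simp only [RCLike.ofReal_real_eq_id, id]
  rw [h2, mul_inv]

end gx

end Claimed.Agent.R287
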