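-- KEEP
import Claimed.Agent.R287.LimTr
import Claimed.Agent.R287.Cnt289
import Claimed.Agent.R287.GoeG1

/-!
# Row 287 (S0534), unit GOE, block G1' : MULTI-SCALE REGULARITY OF THE LABELLED GOE SPECTRUM AT FINITE `n` (input `FReg` of G2)      (architect helper273; prefix `gf_`, defs `gf..`, `Gf..`)

## EXIT   `gf_main ρ : ∃ c C, ∀ ε > 0, ∃ J₀, ∀ᶠ n, goeArray n {x | ¬ GfReg c C J₀ n (gxY ρ x)} ≤ ε`,      `GfReg` = labels `|j| ≤ n/1000` exist; `|y_j| ≥ c|j|` for ALL labels `|j| ≥ J₀`; and for `J₀ ≤ j, L ≤ n/1000`: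
`|y_j| ≤ C|j|`, `|y_j + y_{-j}| ≤ C j^{3/4}`, `|∑_{|j|>L} 1/y_j| ≤ C L^{-1/8}`.

## WRITTEN PROOF      (`a = πρ`, micro-coordinates `y_i = (n/a) λ_i`, `S(e+ih) = ∑ 1/(y_i - e - ih) = a m(z)`, `z = gfz a n e h = (a/n)(e+ih)`, `I(e,h) = Im S`, `P = 1 + z m + m²`)
**(A) algebra, no `m_sc`.**   `m = α + iβ`, `β ≥ 0`, `z = E + iη`:   `Re P = 1 + Eα + α² - ηβ - β²` and `α² + Eα + 1 ≥ 3/4` for `|E| ≤ 1`, so `β² + ηβ ≥ 3/4 - |P|`, hence `β ≥ 1/3 - 2|P|` (`η ≤ 1`).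
   Reflection: `z' = -conj z`, `m' = m(z')`, `m~ = -conj m'`: `1 + z m~ + m~² = conj P'`, so `(m - m~)(z + m + m~) = P - conj P'`, `Im(z + m + m~) ≥ β + β'`, `Im(m - m~) = β - β'`:   `|β - β'| (β + β') ≤ |P| + |P'|`.
   At `E = 0` (`z' = z`, `m' = m`): `Re m (η + 2β) = Im P`.      Upper bound: `|m| ≤ 4 + |P|` (`g1_m_le_P`).
**(S) scales.**   `k ∈ [k₀, K]`, `2aK⁸ ≤ n ≤ 2a(K+1)⁸`:   window `R = k⁸`, smoothing height `u = k⁴`, boundary width `t = k⁶`, PV height `v = √(k¹⁵)`.   `GfGood a A k`: `|P| ≤ k⁻²` on the grid `(g k², k⁴)`, `|g| ≤ k⁶`;   `|P| ≤ 1` on `(g k⁶, k⁶)`, `|g| ≤ k²`, and at `(0, 2k⁸)`;   `|P| ≤ 1/k` at `(0, v)`.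
   Markov with `g1_moment 2`:   `P(¬GfGood k) ≤ C k⁻²`, `∑_{k ≥ k₀} ≤ 2C/k₀`, UNIFORMLY in `n`.
**(G) grid ⟹ segment.**   `|K_u(e,x) - K_u(e',x)| ≤ |e-e'|/(2u) (K_u(e,x) + K_u(e',x))` (AM-GM, no Harnack).   So `GfGood` ⟹ `GfSc y (10a) (a/8) (12a/k²) k⁴ k⁶ k⁸`: `I(e,t) ≤ B`, `I(0,2R) ≤ B`, `I(e,u) ≥ b`, `|I(e,u) - I(-e,u)| ≤ δ` on `|e| ≤ R`.
**(C) counts** (`pc_pointwise`, `pc_int_kernel` of helper289 summed over the family): `|∫_v^w I(e,u) de - π N[v,w]| ≤ Err := B(4πt + 8Ru/t + 8u)`.   Hence `π N[v,w] ≥ b(w-v) - Err`, `|N[0,s] - N[-s,0]| ≤ (δs + 2Err)/π`.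
**(L) labels** (`tp_lab_le_iff`, `tp_le_lab_iff` of helper274).   `A ≥ |N₊ - N₋|` on `[0,R]`, growth `N±(α+Δ) ≥ N±(α) + A + 1`:   `y_j ≤ R - 2Δ` ⟹ `|y_j + y_{-j}| ≤ Δ`.      `Δ_k = D k⁶`.
**(PV)**   `Q_v(t) = t/(t²+v²)`:   `∑_{|j|>L} 1/y_j = Re S(iv) - ∑_{|j|≤L} Q_v(y_j) + ∑_{|j|>L} v²/(y_j(y_j²+v²))`;   `|Q_v(α) + Q_v(β)| ≤ |α+β|/v²`, `|Q_v| ≤ 1/(2v)`, `∑_{j>L} j⁻³ ≤ L⁻²`:
   `|T_L| ≤ |Re S(iv)| + 1/(2v) + LΔ/v² + 2v²/(c³L²) ≤ C/k`   for `a k⁸ ≍ L`.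
-/

set_option autoImplicit false

namespace Claimed.Agent.R287

open MeasureTheory ProbabilityTheory Matrix Filter Topology Claims.C0462

/-! ## 0. definitions -/

section defs

variable {ι : Type} [Fintype ι]

/-- `I(e,h) = Im S(e + ih)` -/
noncomputable def gfI (y : ι → ℝ) (e h : ℝ) : ℝ := ∑ i, pcK h e (y i)

/-- `Re S(ih)` -/
noncomputable def gfQ (y : ι → ℝ) (h : ℝ) : ℝ := ∑ i, ctQ (y i) h

/-- `N[v,w]` -/
noncomputable def gfN (y : ι → ℝ) (v w : ℝ) : ℕ := (Finset.univ.filter fun i => v ≤ y i ∧ y i ≤ w).card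

/-- `N₊(s) = #[0,s]` -/
noncomputable def gfNp (y : ι → ℝ) (s : ℝ) : ℕ := (Finset.univ.filter fun i => 0 ≤ y i ∧ y i ≤ s).card

/-- `N₋(s) = #[-s,0)` -/
noncomputable def gfNm (y : ι → ℝ) (s : ℝ) : ℕ := (Finset.univ.filter fun i => -s ≤ y i ∧ y i < 0).card

/-- the labelled family -/
noncomputable def gfL (y : ι → ℝ) : TpCf := tpLab (Finset.univ.val.map y)

/-- regularity of the family at one scale -/
structure GfSc (y : ι → ℝ) (B b δ u t R : ℝ) : Prop where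
  up : ∀ e, |e| ≤ R → gfI y e t ≤ B
  up0 : gfI y 0 (2 * R) ≤ B
  lo : ∀ e, |e| ≤ R → b ≤ gfI y e u
  as : ∀ e, 0 ≤ e → e ≤ R → |gfI y e u - gfI y (-e) u| ≤ δ

end defs

/-- the error of the counts -/
noncomputable def gfE (B u t R : ℝ) : ℝ := B * (4 * Real.pi * t + 8 * R * u / t + 8 * u)

/-- **the output** -/
structure GfReg (c C : ℝ) (J₀ n : ℕ) (x : TpCf) : Prop where
  ex : ∀ j : ℤ, 1000 * |j| ≤ n → x j ≠ ⊤ ∧ x j ≠ ⊥
  lo : ∀ j : ℤ, (J₀ : ℤ) ≤ |j| → x j ≠ ⊤ → x j ≠ ⊥ → c * |(j : ℝ)| ≤ |(x j).toReal|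
  hi : ∀ j : ℤ, (J₀ : ℤ) ≤ |j| → 1000 * |j| ≤ n → |(x j).toReal| ≤ C * |(j : ℝ)|
  sym : ∀ j : ℕ, J₀ ≤ j → 1000 * j ≤ n → |(x (j : ℤ)).toReal + (x (-(j : ℤ))).toReal| ≤ C * (j : ℝ) ^ ((3 : ℝ) / 4)
  pv : ∀ L : ℕ, J₀ ≤ L → 1000 * L ≤ n → ‖ltS x 0 - ltSK L x 0‖ ≤ C * (L : ℝ) ^ (-((1 : ℝ) / 8))

/-- the macroscopic spectral parameter of the microscopic point `e + ih` -/
noncomputable def gfz (a : ℝ) (n : ℕ) (e h : ℝ) : ℂ := ((a / n : ℝ) : ℂ) * ((e : ℂ) + (h : ℂ) * Complex.I)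

/-- the spectrum in micro-coordinates -/
noncomputable def gfY (a : ℝ) {n : ℕ} {A : Matrix (Fin n) (Fin n) ℝ} (hA : A.IsHermitian) : Fin n → ℝ := fun i => (n : ℝ) / a * hA.eigenvalues i

/-- the good event at the scale `k` -/
def GfGood (a : ℝ) {n : ℕ} (A : Matrix (Fin n) (Fin n) ℝ) (k : ℕ) : Prop :=
  (∀ g : ℤ, |g| ≤ (k : ℤ) ^ 6 → ‖g1P A (gfz a n ((g : ℝ) * (k : ℝ) ^ 2) ((k : ℝ) ^ 4))‖ ≤ 1 / (k : ℝ) ^ 2) ∧
  (∀ g : ℤ, |g| ≤ (k : ℤ) ^ 2 → ‖g1P A (gfz a n ((g : ℝ) * (k : ℝ) ^ 6) ((k : ℝ) ^ 6))‖ ≤ 1) ∧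
  ‖g1P A (gfz a n 0 (2 * (k : ℝ) ^ 8))‖ ≤ 1 ∧
  ‖g1P A (gfz a n 0 (Real.sqrt ((k : ℝ) ^ 15)))‖ ≤ 1 / (k : ℝ)

/-- all scales -/
def GfAll {ι : Type} [Fintype ι] (a : ℝ) (k₀ K : ℕ) (y : ι → ℝ) : Prop :=
  ∀ k : ℕ, k₀ ≤ k → k ≤ K → GfSc y (10 * a) (a / 8) (12 * a / (k : ℝ) ^ 2) ((k : ℝ) ^ 4) ((k : ℝ) ^ 6) ((k : ℝ) ^ 8) ∧ |gfQ y (Real.sqrt ((k : ℝ) ^ 15))| ≤ 2 * a / k

theorem gf_eqns_cite : True := by
  have := @gfI.eq_1
  have := @gfQ.eq_1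
  have := @gfN.eq_1
  have := @gfNp.eq_1
  have := @gfNm.eq_1
  have := @gfL.eq_1
  have := @gfE.eq_1
  have := @gfz.eq_1
  have := @gfY.eq_1
  have := @GfGood.eq_1
  have := @GfAll.eq_1
  trivial

/-! ## 1. finite families: kernels and counts -/

section fam

variable {ι : Type} [Fintype ι] (y : ι → ℝ)

theorem gf_I_nonneg (e : ℝ) {h : ℝ} (hh : 0 < h) : 0 ≤ gfI y e h := Finset.sum_nonneg fun i _ => pcK_nonneg hh e (y i)

theorem gf_I_cont {h : ℝ} (hh : 0 < h) : Continuous fun e => gfI y e h := continuous_finsetSum _ fun i _ => pcK_cont_e hh (y i)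

/-- LEAF F1 (**core**): `intervalIntegral.integral_finset_sum`, `pc_int_kernel`, `pc_pointwise` summed over `i`;   `π N[v,w] = ∑ π 1_{[v,w]}(y_i)` (`Finset.card_filter`, `Finset.sum_boole`) -/
theorem gf_core {u t R v w : ℝ} (hu : 0 < u) (ht : 0 < t) (hR : 0 < R) (hv : -R ≤ v) (hvw : v ≤ w) (hw : w ≤ R) :
    |(∫ e in v..w, gfI y e u) - Real.pi * gfN y v w|
      ≤ 2 * Real.pi * t * gfI y v t + 2 * Real.pi * t * gfI y w t + (8 * R * u / t + 8 * u) * gfI y 0 (2 * R) := by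
  have h1 : (∫ e in v..w, gfI y e u) = ∑ i, pcQ u v w (y i) := by
    unfold gfI
    rw [intervalIntegral.integral_finsetSum]
    · exact Finset.sum_congr rfl fun i _ => pc_int_kernel hu v w (y i)
    · intro i _
      exact (pcK_cont_e hu (y i)).intervalIntegrable _ _
  have h2 : Real.pi * (gfN y v w : ℝ) = ∑ i, Real.pi * (Set.Icc v w).indicator (fun _ => (1:ℝ)) (y i) := by
    unfold gfN
    rw [← Finset.mul_sum, Finset.card_filter]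
    push_cast
    congr 1
    refine Finset.sum_congr rfl fun i _ => ?_
    by_cases hi : v ≤ y i ∧ y i ≤ w
    · rw [if_pos hi, Set.indicator_of_mem (show y i ∈ Set.Icc v w from hi)]
    · rw [if_neg hi, Set.indicator_of_notMem (show y i ∉ Set.Icc v w from hi)]
  rw [h1, h2, ← Finset.sum_sub_distrib]
  refine (Finset.abs_sum_le_sum_abs _ _).trans ?_
  unfold gfI
  rw [Finset.mul_sum, Finset.mul_sum, Finset.mul_sum, ← Finset.sum_add_distrib, ← Finset.sum_add_distrib]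
  exact Finset.sum_le_sum fun i _ => pc_pointwise hu ht hR hv hvw hw (y i)

/-- LEAF F2 (`pcK_near`) -/
theorem gf_card (e : ℝ) {h : ℝ} (hh : 0 < h) : (gfN y (e - h) (e + h) : ℝ) ≤ 2 * h * gfI y e h := by
  unfold gfN gfI
  rw [Finset.card_filter, Finset.mul_sum]
  push_cast
  refine Finset.sum_le_sum fun i _ => ?_
  by_cases hi : e - h ≤ y i ∧ y i ≤ e + h
  · rw [if_pos hi]
    have h1 : |y i - e| ≤ h := abs_le.2 ⟨by linarith [hi.1], by linarith [hi.2]⟩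
    have h2 := pcK_near hh h1
    have h3 : 2 * h * (1 / (2 * h)) = 1 := by field_simp
    calc (1:ℝ) = 2 * h * (1 / (2 * h)) := h3.symm
      _ ≤ 2 * h * pcK h e (y i) := mul_le_mul_of_nonneg_left h2 (by positivity)
  · rw [if_neg hi]
    have := pcK_nonneg hh e (y i)
    positivity

/-- LEAF F3 kernel: with `D = (x-e)²+u²`, `D' = (x-e')²+u²`: `K - K' = u (e-e')((x-e)+(x-e'))/(D D')`, `|x-e| ≤ D/(2u)`, `|x-e'| ≤ D'/(2u)` -/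
theorem gf_K_lip (e e' x : ℝ) {u : ℝ} (hu : 0 < u) : |pcK u e x - pcK u e' x| ≤ |e - e'| / (2 * u) * (pcK u e x + pcK u e' x) := by
  unfold pcK
  set p := x - e with hp
  set q := x - e' with hq
  have hD : 0 < p ^ 2 + u ^ 2 := by positivity
  have hD' : 0 < q ^ 2 + u ^ 2 := by positivity
  have he : e - e' = q - p := by rw [hp, hq]; ring
  rw [he]
  have h1 : u / (p ^ 2 + u ^ 2) - u / (q ^ 2 + u ^ 2) = u * ((q - p) * (q + p)) / ((p ^ 2 + u ^ 2) * (q ^ 2 + u ^ 2)) := by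
    field_simp
    ring
  have h2 : |q - p| / (2 * u) * (u / (p ^ 2 + u ^ 2) + u / (q ^ 2 + u ^ 2))
      = |q - p| * ((p ^ 2 + u ^ 2) + (q ^ 2 + u ^ 2)) / 2 / ((p ^ 2 + u ^ 2) * (q ^ 2 + u ^ 2)) := by
    field_simp
    ring
  rw [h1, h2, abs_div, abs_of_pos (mul_pos hD hD')]
  refine div_le_div_of_nonneg_right ?_ (mul_pos hD hD').le
  rw [abs_mul, abs_mul, abs_of_pos hu]
  have h3 : u * |q + p| ≤ ((p ^ 2 + u ^ 2) + (q ^ 2 + u ^ 2)) / 2 := by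
    have h4 : |q + p| ≤ |q| + |p| := abs_add_le q p
    have h5 : u * |q| ≤ (q ^ 2 + u ^ 2) / 2 := by
      have := sq_nonneg (|q| - u)
      have h6 := sq_abs q
      nlinarith
    have h5' : u * |p| ≤ (p ^ 2 + u ^ 2) / 2 := by
      have := sq_nonneg (|p| - u)
      have h6 := sq_abs p
      nlinarith
    calc u * |q + p| ≤ u * (|q| + |p|) := mul_le_mul_of_nonneg_left h4 hu.le
      _ = u * |q| + u * |p| := by ring
      _ ≤ _ := by linarith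
  calc u * (|q - p| * |q + p|) = |q - p| * (u * |q + p|) := by ring
    _ ≤ |q - p| * (((p ^ 2 + u ^ 2) + (q ^ 2 + u ^ 2)) / 2) := mul_le_mul_of_nonneg_left h3 (abs_nonneg _)
    _ = _ := by ring

theorem gf_lip (e e' : ℝ) {u : ℝ} (hu : 0 < u) : |gfI y e u - gfI y e' u| ≤ |e - e'| / (2 * u) * (gfI y e u + gfI y e' u) := by
  unfold gfI
  rw [← Finset.sum_sub_distrib, ← Finset.sum_add_distrib, Finset.mul_sum]
  exact (Finset.abs_sum_le_sum_abs _ _).trans (Finset.sum_le_sum fun i _ => gf_K_lip e e' (y i) hu)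

/-- LEAF F4 (monotonicity of the counts) -/
theorem gf_N_mono {v w v' w' : ℝ} (hv : v' ≤ v) (hw : w ≤ w') : gfN y v w ≤ gfN y v' w' := by
  unfold gfN
  refine Finset.card_le_card fun i hi => ?_
  rw [Finset.mem_filter] at hi ⊢
  exact ⟨hi.1, hv.trans hi.2.1, hi.2.2.trans hw⟩

theorem gf_N_le_card (v w : ℝ) : gfN y v w ≤ Fintype.card ι := by
  unfold gfN
  exact Finset.card_le_univ _

end fam

/-! ## 2. one scale -/

section scale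

variable {ι : Type} [Fintype ι] {y : ι → ℝ} {B b δ u t R : ℝ}

theorem gf88_err (h : GfSc y B b δ u t R) (hu : 0 < u) (ht : 0 < t) (hR : 0 < R) {v w : ℝ} (hv : -R ≤ v) (hvw : v ≤ w) (hw : w ≤ R) :
    |(∫ e in v..w, gfI y e u) - Real.pi * gfN y v w| ≤ gfE B u t R := by
  refine (gf_core y hu ht hR hv hvw hw).trans ?_
  have h1 := h.up v (abs_le.2 ⟨hv, hvw.trans hw⟩)
  have h2 := h.up w (abs_le.2 ⟨hv.trans hvw, hw⟩)
  have h3 := h.up0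
  have hpi := Real.pi_pos
  have c1 : 0 ≤ 2 * Real.pi * t := by positivity
  have c2 : 0 ≤ 8 * R * u / t + 8 * u := by positivity
  have e1 := mul_le_mul_of_nonneg_left h1 c1
  have e2 := mul_le_mul_of_nonneg_left h2 c1
  have e3 := mul_le_mul_of_nonneg_left h3 c2
  unfold gfE
  calc _ ≤ 2 * Real.pi * t * B + 2 * Real.pi * t * B + (8 * R * u / t + 8 * u) * B := by linarith
    _ = _ := by ring

/-- LEAF S1 (lower count): `∫_v^w I ≥ b (w - v)` (`intervalIntegral.integral_mono_on`, `gf_I_cont`), `gf_core`, `GfSc.up` at `v`, `w`, `GfSc.up0` -/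
theorem gf_lo (h : GfSc y B b δ u t R) (hu : 0 < u) (ht : 0 < t) (hR : 0 < R) {v w : ℝ} (hv : -R ≤ v) (hvw : v ≤ w) (hw : w ≤ R) :
    b * (w - v) - gfE B u t R ≤ Real.pi * gfN y v w := by
  have h1 := gf88_err h hu ht hR hv hvw hw
  have h2 : b * (w - v) ≤ ∫ e in v..w, gfI y e u := by
    have h3 : (∫ _e in v..w, b) = b * (w - v) := by
      rw [intervalIntegral.integral_const, smul_eq_mul]; ring
    rw [← h3]
    refine intervalIntegral.integral_mono_on hvw intervalIntegrable_const ((gf_I_cont y hu).intervalIntegrable _ _) ?_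
    intro e he
    exact h.lo e (abs_le.2 ⟨hv.trans he.1, he.2.trans hw⟩)
  have h4 := (abs_le.1 h1).2
  linarith

/-- LEAF S2 (asymmetry of the closed counts): `∫_{-s}^0 I(e,u) de = ∫_0^s I(-e,u) de` (`intervalIntegral.integral_comp_neg`), `gf_core` on `[0,s]` and `[-s,0]` -/
theorem gf_as (h : GfSc y B b δ u t R) (hu : 0 < u) (ht : 0 < t) (hR : 0 < R) {s : ℝ} (hs0 : 0 ≤ s) (hs : s ≤ R) :
    |(gfN y 0 s : ℝ) - gfN y (-s) 0| ≤ (δ * s + 2 * gfE B u t R) / Real.pi := by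
  have hpi := Real.pi_pos
  have h1 := gf88_err h hu ht hR (v := 0) (w := s) (by linarith) hs0 hs
  have h2 := gf88_err h hu ht hR (v := -s) (w := 0) (by linarith) (by linarith) hR.le
  have h3 : (∫ e in (-s)..0, gfI y e u) = ∫ e in (0:ℝ)..s, gfI y (-e) u := by
    rw [intervalIntegral.integral_comp_neg (fun e => gfI y e u)]
    simp
  have h4 : |(∫ e in (0:ℝ)..s, gfI y e u) - ∫ e in (0:ℝ)..s, gfI y (-e) u| ≤ δ * s := by
    have hc1 : IntervalIntegrable (fun e => gfI y e u) volume 0 s := (gf_I_cont y hu).intervalIntegrable _ _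
    have hc2 : IntervalIntegrable (fun e => gfI y (-e) u) volume 0 s :=
      ((gf_I_cont y hu).comp continuous_neg).intervalIntegrable _ _
    rw [← intervalIntegral.integral_sub hc1 hc2]
    have h5 := intervalIntegral.norm_integral_le_of_norm_le_const (a := (0:ℝ)) (b := s) (C := δ)
      (f := fun e => gfI y e u - gfI y (-e) u) (by
        intro e he
        rw [Set.uIoc_of_le hs0] at he
        rw [Real.norm_eq_abs]
        exact h.as e he.1.le (he.2.trans hs))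
    rw [Real.norm_eq_abs, sub_zero, abs_of_nonneg hs0] at h5
    exact h5
  rw [h3] at h2
  rw [le_div_iff₀ hpi]
  have e1 : |(gfN y 0 s : ℝ) - gfN y (-s) 0| * Real.pi = |Real.pi * (gfN y 0 s : ℝ) - Real.pi * gfN y (-s) 0| := by
    rw [← mul_sub, abs_mul, abs_of_pos hpi]; ring
  rw [e1]
  have a1 := abs_le.1 h1
  have a2 := abs_le.1 h2
  have a4 := abs_le.1 h4
  rw [abs_le]
  constructor <;> linarith [a1.1, a1.2, a2.1, a2.2, a4.1, a4.2]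

theorem gf88_Np (y : ι → ℝ) (s : ℝ) : gfNp y s = gfN y 0 s := rfl

theorem gf88_Nm_split (y : ι → ℝ) {s : ℝ} (hs0 : 0 ≤ s) :
    gfN y (-s) 0 = gfNm y s + gfN y 0 0 := by
  classical
  unfold gfN gfNm
  rw [← Finset.card_union_of_disjoint]
  · congr 1
    ext i
    simp only [Finset.mem_filter, Finset.mem_univ, true_and, Finset.mem_union]
    constructor
    · rintro ⟨h1, h2⟩
      rcases h2.lt_or_eq with h3 | h3
      · exact Or.inl ⟨h1, h3⟩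
      · exact Or.inr ⟨h3.ge, h3.le⟩
    · rintro (⟨h1, h2⟩ | ⟨h1, h2⟩)
      · exact ⟨h1, h2.le⟩
      · exact ⟨by linarith, h2⟩
  · rw [Finset.disjoint_left]
    intro i hi hi'
    rw [Finset.mem_filter] at hi hi'
    linarith [hi.2.2, hi'.2.1]

/-- LEAF S3: `N₊(s) = N[0,s]`, `N[-s,0] = N₋(s) + #{y = 0}`, `#{y = 0} ≤ N[-t,t] ≤ 2 t I(0,t) ≤ 2tB` -/
theorem gf_pm (h : GfSc y B b δ u t R) (hu : 0 < u) (ht : 0 < t) (hR : 0 < R) {s : ℝ} (hs0 : 0 ≤ s) (hs : s ≤ R) :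
    |(gfNp y s : ℝ) - gfNm y s| ≤ (δ * s + 2 * gfE B u t R) / Real.pi + 2 * t * B := by
  have h1 := gf_as h hu ht hR hs0 hs
  have h2 : (gfN y 0 0 : ℝ) ≤ 2 * t * B := by
    have h3 : gfN y 0 0 ≤ gfN y (0 - t) (0 + t) := gf_N_mono y (by linarith) (by linarith)
    have h4 := gf_card y 0 ht
    have h5 := h.up 0 (by rw [abs_zero]; exact hR.le)
    have h6 : (gfN y 0 0 : ℝ) ≤ gfN y (0 - t) (0 + t) := by exact_mod_cast h3
    calc (gfN y 0 0 : ℝ) ≤ 2 * t * gfI y 0 t := h6.trans h4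
      _ ≤ 2 * t * B := mul_le_mul_of_nonneg_left h5 (by positivity)
  have h7 : (gfN y (-s) 0 : ℝ) = gfNm y s + gfN y 0 0 := by exact_mod_cast gf88_Nm_split y hs0
  have h8 : (0:ℝ) ≤ gfN y 0 0 := Nat.cast_nonneg _
  rw [gf88_Np]
  rw [h7] at h1
  have a1 := abs_le.1 h1
  rw [abs_le]
  constructor <;> linarith [a1.1, a1.2]

/-- LEAF S4: `N₊(α+Δ) - N₊(α) = #(α, α+Δ] ≥ N[α+1, α+Δ]`, `gf_lo` -/
theorem gf_grow_p (h : GfSc y B b δ u t R) (hu : 0 < u) (ht : 0 < t) (hR : 0 < R) {α Δ : ℝ} (hα : 0 ≤ α) (hΔ : 1 ≤ Δ) (hαΔ : α + Δ ≤ R) :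
    (gfNp y α : ℝ) + (b * (Δ - 1) - gfE B u t R) / Real.pi ≤ gfNp y (α + Δ) := by
  have hpi := Real.pi_pos
  have h1 := gf_lo h hu ht hR (v := α + 1) (w := α + Δ) (by linarith) (by linarith) hαΔ
  have h2 : gfNp y α + gfN y (α + 1) (α + Δ) ≤ gfNp y (α + Δ) := by
    classical
    unfold gfNp gfN
    rw [← Finset.card_union_of_disjoint]
    · refine Finset.card_le_card fun i hi => ?_
      simp only [Finset.mem_filter, Finset.mem_univ, true_and, Finset.mem_union] at hi ⊢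
      rcases hi with ⟨h3, h4⟩ | ⟨h3, h4⟩
      · exact ⟨h3, by linarith⟩
      · exact ⟨by linarith, h4⟩
    · rw [Finset.disjoint_left]
      intro i hi hi'
      rw [Finset.mem_filter] at hi hi'
      linarith [hi.2.2, hi'.2.1]
  have h3 : (gfNp y α : ℝ) + gfN y (α + 1) (α + Δ) ≤ gfNp y (α + Δ) := by exact_mod_cast h2
  have h4 : (b * (Δ - 1) - gfE B u t R) / Real.pi ≤ gfN y (α + 1) (α + Δ) := by
    rw [div_le_iff₀ hpi]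
    have : α + Δ - (α + 1) = Δ - 1 := by ring
    rw [this] at h1
    linarith
  linarith

/-- LEAF S5: `N₋(α+Δ) - N₋(α) = #[-(α+Δ), -α) ≥ N[-(α+Δ), -(α+1)]`, `gf_lo` -/
theorem gf_grow_m (h : GfSc y B b δ u t R) (hu : 0 < u) (ht : 0 < t) (hR : 0 < R) {α Δ : ℝ} (hα : 0 ≤ α) (hΔ : 1 ≤ Δ) (hαΔ : α + Δ ≤ R) :
    (gfNm y α : ℝ) + (b * (Δ - 1) - gfE B u t R) / Real.pi ≤ gfNm y (α + Δ) := by
  have hpi := Real.pi_pos
  have h1 := gf_lo h hu ht hR (v := -(α + Δ)) (w := -(α + 1)) (by linarith) (by linarith) (by linarith)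
  have h2 : gfNm y α + gfN y (-(α + Δ)) (-(α + 1)) ≤ gfNm y (α + Δ) := by
    classical
    unfold gfNm gfN
    rw [← Finset.card_union_of_disjoint]
    · refine Finset.card_le_card fun i hi => ?_
      simp only [Finset.mem_filter, Finset.mem_univ, true_and, Finset.mem_union] at hi ⊢
      rcases hi with ⟨h3, h4⟩ | ⟨h3, h4⟩
      · exact ⟨by linarith, h4⟩
      · exact ⟨h3, by linarith⟩
    · rw [Finset.disjoint_left]
      intro i hi hi'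
      rw [Finset.mem_filter] at hi hi'
      linarith [hi.2.1, hi'.2.2]
  have h3 : (gfNm y α : ℝ) + gfN y (-(α + Δ)) (-(α + 1)) ≤ gfNm y (α + Δ) := by exact_mod_cast h2
  have h4 : (b * (Δ - 1) - gfE B u t R) / Real.pi ≤ gfN y (-(α + Δ)) (-(α + 1)) := by
    rw [div_le_iff₀ hpi]
    have : -(α + 1) - -(α + Δ) = Δ - 1 := by ring
    rw [this] at h1
    linarith
  linarith

end scale

/-! ## 3. labels -/

section lab

variable {ι : Type} [Fintype ι] (y : ι → ℝ)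

theorem gf_card_filter_map (p : ℝ → Prop) [DecidablePred p] :
    Multiset.card ((Finset.univ.val.map y).filter p) = (Finset.univ.filter fun i => p (y i)).card := by
  classical
  rw [Multiset.filter_map, Multiset.card_map]
  rfl

/-- LEAF L1 (`tp_lab_le_iff`; `Multiset.filter_map`, `Multiset.card_map`, `Finset.filter_val`) -/
theorem gf_lab_pos (i : ℕ) (s : ℝ) : gfL y (i : ℤ) ≤ (s : EReal) ↔ i < gfNp y s := by
  classical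
  unfold gfL gfNp
  rw [tp_lab_le_iff, gf_card_filter_map]

/-- LEAF L2 (`tp_le_lab_iff`) -/
theorem gf_lab_neg (i : ℕ) (s : ℝ) : ((-s : ℝ) : EReal) ≤ gfL y (-(i : ℤ) - 1) ↔ i < gfNm y s := by
  classical
  unfold gfL gfNm
  rw [tp_le_lab_iff, gf_card_filter_map]

theorem gf_L_mono : Monotone (gfL y) := tp_lab_mono _

/-- LEAF L3 (`tp_get_pos_nonneg`, `tp_lab_pos`) -/
theorem gf_L_nonneg (i : ℕ) : (0 : EReal) ≤ gfL y (i : ℤ) := by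
  unfold gfL
  rw [tp_lab_pos]
  exact tp_get_pos_nonneg _ i

/-- LEAF L4 (`tp_get_neg_nonpos`, `tp_lab_neg`) -/
theorem gf_L_nonpos (i : ℕ) : gfL y (-(i : ℤ) - 1) ≤ (0 : EReal) := by
  unfold gfL
  rw [tp_lab_neg]
  exact tp_get_neg_nonpos _ i

/-- LEAF L5 (labels STRICTLY beyond the cardinality are missing; the label `-card` may exist: `tp_get_of_le`, `tp_pos_length_le`, `tp_neg_length_le`) -/
theorem gf_L_out (j : ℤ) (hj : (Fintype.card ι : ℤ) < |j|) : gfL y j = ⊤ ∨ gfL y j = ⊥ := by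
  have hc : Multiset.card (Finset.univ.val.map y) = Fintype.card ι := by
    rw [Multiset.card_map]; rfl
  rcases le_or_gt 0 j with h | h
  · left
    obtain ⟨i, rfl⟩ := Int.eq_ofNat_of_zero_le h
    unfold gfL
    rw [tp_lab_pos]
    apply tp_get_of_le
    have := tp_pos_length_le (Finset.univ.val.map y)
    rw [hc] at this
    rw [abs_of_nonneg h] at hj
    omega
  · right
    obtain ⟨i, hi⟩ : ∃ i : ℕ, j = -(i : ℤ) - 1 := ⟨(-j - 1).toNat, by omega⟩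
    subst hi
    unfold gfL
    rw [tp_lab_neg]
    apply tp_get_of_le
    have := tp_neg_length_le (Finset.univ.val.map y)
    rw [hc] at this
    rw [abs_of_neg h] at hj
    omega

/-- LEAF L6 (**pairing**).   `α = y_j`: `j < N₊(α)`.   (1) `N₋(α+Δ) ≥ N₊(α+Δ) - A ≥ N₊(α) + 1 > j - 1` ⟹ `-(α+Δ) ≤ y_{-j}` (L2 with `i = j-1`).   (2) `α' = -y_{-j} ≤ α + Δ`, `j - 1 < N₋(α')`,
`N₊(α'+Δ) ≥ N₋(α'+Δ) - A ≥ N₋(α') + 1 > j` ⟹ `y_j ≤ α' + Δ` (L1). -/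
theorem gf_pair {R Δ A : ℝ} (hΔ : 0 ≤ Δ)
    (has : ∀ s, 0 ≤ s → s ≤ R → |(gfNp y s : ℝ) - gfNm y s| ≤ A)
    (hgp : ∀ α, 0 ≤ α → α + Δ ≤ R → (gfNp y α : ℝ) + A + 1 ≤ gfNp y (α + Δ))
    (hgm : ∀ α, 0 ≤ α → α + Δ ≤ R → (gfNm y α : ℝ) + A + 1 ≤ gfNm y (α + Δ))
    {j : ℕ} (hj : 1 ≤ j) (hx : gfL y (j : ℤ) ≤ ((R - 2 * Δ : ℝ) : EReal)) :
    gfL y (j : ℤ) ≠ ⊤ ∧ gfL y (j : ℤ) ≠ ⊥ ∧ gfL y (-(j : ℤ)) ≠ ⊤ ∧ gfL y (-(j : ℤ)) ≠ ⊥ ∧
      |(gfL y (j : ℤ)).toReal + (gfL y (-(j : ℤ))).toReal| ≤ Δ := by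
  have hjz : -(((j - 1 : ℕ) : ℤ)) - 1 = -(j : ℤ) := by
    rw [Nat.cast_sub hj]; ring
  have p0 := gf_L_nonneg y j
  have n0 := gf_L_nonpos y (j - 1)
  rw [hjz] at n0
  have pT : gfL y (j : ℤ) ≠ ⊤ := fun h => by rw [h] at hx; exact absurd (top_le_iff.1 hx) (EReal.coe_ne_top _)
  have pB : gfL y (j : ℤ) ≠ ⊥ := fun h => by rw [h] at p0; exact absurd p0 (by simp)
  obtain ⟨α, hα⟩ : ∃ α : ℝ, gfL y (j : ℤ) = (α : EReal) := ⟨_, (EReal.coe_toReal pT pB).symm⟩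
  have hα0 : 0 ≤ α := by rw [hα] at p0; exact_mod_cast p0
  have hαR : α ≤ R - 2 * Δ := by rw [hα] at hx; exact_mod_cast hx
  have c1 : j < gfNp y α := (gf_lab_pos y j α).1 hα.le
  have c1' : (j : ℝ) + 1 ≤ gfNp y α := by exact_mod_cast c1
  have a1 := (abs_le.1 (has (α + Δ) (by linarith) (by linarith))).2
  have g1 := hgp α hα0 (by linarith)
  have c2 : j - 1 < gfNm y (α + Δ) := by
    have : (j : ℝ) < gfNm y (α + Δ) := by linarith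
    have : j < gfNm y (α + Δ) := by exact_mod_cast this
    omega
  have l2 := (gf_lab_neg y (j - 1) (α + Δ)).2 c2
  rw [hjz] at l2
  have nT : gfL y (-(j : ℤ)) ≠ ⊤ := fun h => by rw [h] at n0; exact absurd n0 (by simp)
  have nB : gfL y (-(j : ℤ)) ≠ ⊥ := fun h => by rw [h] at l2; exact absurd l2 (by simp)
  obtain ⟨β, hβ⟩ : ∃ β : ℝ, gfL y (-(j : ℤ)) = ((-β : ℝ) : EReal) := ⟨-(gfL y (-(j : ℤ))).toReal, by rw [neg_neg, EReal.coe_toReal nT nB]⟩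
  have hβ0 : 0 ≤ β := by
    rw [hβ] at n0
    have : -β ≤ 0 := by exact_mod_cast n0
    linarith
  have hβα : β ≤ α + Δ := by
    rw [hβ] at l2
    have : -(α + Δ) ≤ -β := by exact_mod_cast l2
    linarith
  have c3 : j - 1 < gfNm y β := (gf_lab_neg y (j - 1) β).1 (by rw [hjz, hβ])
  have c3' : (j : ℝ) ≤ gfNm y β := by
    have : j ≤ gfNm y β := by omega
    exact_mod_cast this
  have a2 := (abs_le.1 (has (β + Δ) (by linarith) (by linarith))).1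
  have g2 := hgm β hβ0 (by linarith)
  have c4 : j < gfNp y (β + Δ) := by
    have : (j : ℝ) < gfNp y (β + Δ) := by linarith
    exact_mod_cast this
  have l4 := (gf_lab_pos y j (β + Δ)).2 c4
  have hαβ : α ≤ β + Δ := by rw [hα] at l4; exact_mod_cast l4
  refine ⟨pT, pB, nT, nB, ?_⟩
  rw [hα, hβ, EReal.toReal_coe, EReal.toReal_coe, abs_le]
  constructor <;> linarith

/-- LEAF L7 (**lower bound of the positions**).   `α = |y_j|`: `|j| ≤ N[-α,α]` (L1 / L2).   If `α < r₀`: `|j| ≤ N[-r₀,r₀] ≤ Cu r₀`, excluded. -/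
theorem gf_lo_lab {Cu r₀ : ℝ} (hub : ∀ r, r₀ ≤ r → (gfN y (-r) r : ℝ) ≤ Cu * r) {j : ℤ} (hj : Cu * r₀ < |(j : ℝ)|)
    (h1 : gfL y j ≠ ⊤) (h2 : gfL y j ≠ ⊥) : |(j : ℝ)| ≤ Cu * |(gfL y j).toReal| := by
  classical
  set α : ℝ := |(gfL y j).toReal| with hα
  have hα0 : 0 ≤ α := abs_nonneg _
  have hco : ((gfL y j).toReal : EReal) = gfL y j := EReal.coe_toReal h1 h2
  have key : |(j : ℝ)| ≤ gfN y (-α) α := by
    rcases le_or_gt 0 j with h | h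
    · obtain ⟨i, rfl⟩ := Int.eq_ofNat_of_zero_le h
      have h0 : 0 ≤ (gfL y (i : ℤ)).toReal := EReal.toReal_nonneg (gf_L_nonneg y i)
      have h3 : gfL y (i : ℤ) ≤ (α : EReal) := by
        rw [← hco, hα, abs_of_nonneg h0]
      have h4 := (gf_lab_pos y i α).1 h3
      have h5 : gfNp y α ≤ gfN y (-α) α := by
        unfold gfNp gfN
        refine Finset.card_le_card fun k hk => ?_
        simp only [Finset.mem_filter, Finset.mem_univ, true_and] at hk ⊢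
        exact ⟨by linarith [hk.1], hk.2⟩
      have h6 : (i : ℝ) ≤ gfN y (-α) α := by exact_mod_cast (h4.le.trans h5)
      simpa using h6
    · obtain ⟨i, hi⟩ : ∃ i : ℕ, j = -(i : ℤ) - 1 := ⟨(-j - 1).toNat, by omega⟩
      subst hi
      have h0 : (gfL y (-(i : ℤ) - 1)).toReal ≤ 0 := EReal.toReal_nonpos (gf_L_nonpos y i)
      have h3 : ((-α : ℝ) : EReal) ≤ gfL y (-(i : ℤ) - 1) := by
        rw [← hco, hα, abs_of_nonpos h0, neg_neg]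
      have h4 := (gf_lab_neg y i α).1 h3
      have h5 : gfNm y α ≤ gfN y (-α) α := by
        unfold gfNm gfN
        refine Finset.card_le_card fun k hk => ?_
        simp only [Finset.mem_filter, Finset.mem_univ, true_and] at hk ⊢
        exact ⟨hk.1, by linarith [hk.2]⟩
      have h6 : ((i : ℝ) + 1) ≤ gfN y (-α) α := by exact_mod_cast (Nat.succ_le_of_lt h4).trans h5
      have h7 : |(((-(i : ℤ) - 1 : ℤ)) : ℝ)| = (i : ℝ) + 1 := by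
        push_cast
        rw [abs_of_nonpos (by have : (0 : ℝ) ≤ i := Nat.cast_nonneg i; linarith)]
        ring
      rw [h7]
      exact h6
  rcases le_or_gt r₀ α with h | h
  · exact key.trans (hub α h)
  · exfalso
    have h3 : (gfN y (-α) α : ℝ) ≤ gfN y (-r₀) r₀ := by
      exact_mod_cast gf_N_mono y (by linarith) h.le
    linarith [hub r₀ le_rfl]

end lab

/-! ## 4. the principal value tail -/

section pv

variable {ι : Type} [Fintype ι] (y : ι → ℝ)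

theorem gf_sum_Icc (g : ℤ → ℝ) (N : ℕ) :
    ∑ j ∈ Finset.Icc (-(N : ℤ)) N, g j = ∑ i ∈ Finset.range (N + 1), g (i : ℤ) + ∑ i ∈ Finset.range N, g (-(i : ℤ) - 1) := by
  induction N with
  | zero => simp
  | succ N ih =>
    have e : Finset.Icc (-((N + 1 : ℕ) : ℤ)) ((N + 1 : ℕ) : ℤ)
        = insert (-((N : ℤ)) - 1) (insert ((N : ℤ) + 1) (Finset.Icc (-(N : ℤ)) N)) := by
      ext j
      simp only [Finset.mem_Icc, Finset.mem_insert]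
      push_cast
      omega
    rw [e, Finset.sum_insert, Finset.sum_insert, ih, Finset.sum_range_succ (fun i : ℕ => g (i : ℤ)) (N + 1),
      Finset.sum_range_succ (fun i : ℕ => g (-(i : ℤ) - 1)) N]
    · push_cast
      ring
    · simp
    · simp only [Finset.mem_insert, Finset.mem_Icc]
      omega

/-- LEAF V1 (sum over the labels = sum over the family; pattern of `tp_sumJ_lab`: `tp_list_sum_split`, `tp_sum_get`) -/
theorem gf_sum_lab (φ : EReal → ℝ) (h1 : φ ⊤ = 0) (h2 : φ ⊥ = 0) {N : ℕ} (hN : Fintype.card ι ≤ N) :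
    ∑ j ∈ Finset.Icc (-(N : ℤ)) N, φ (gfL y j) = ∑ i, φ ((y i : ℝ) : EReal) := by
  have hc : Multiset.card (Finset.univ.val.map y) = Fintype.card ι := by
    rw [Multiset.card_map]; rfl
  rw [gf_sum_Icc]
  unfold gfL
  simp only [tp_lab_pos, tp_lab_neg]
  rw [tp_sum_get φ ⊤ h1 _ (N + 1) ((tp_pos_length_le _).trans (by rw [hc]; omega)),
    tp_sum_get φ ⊥ h2 _ N ((tp_neg_length_le _).trans (by rw [hc]; exact hN)),
    tp_list_sum_split _ (fun r : ℝ => φ (r : EReal)), Multiset.map_map]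
  rfl

/-- LEAF V2 (reindexing `Win K ≃ Icc (-K) K` by `wIdx`) -/
theorem gf_SK_Icc (K : ℕ) (x : TpCf) (z : ℂ) : ltSK K x z = ∑ j ∈ Finset.Icc (-(K : ℤ)) K, ltW (x j) z := by
  unfold ltSK
  refine Finset.sum_bij (fun i _ => wIdx i) (fun i _ => ?_) (fun i _ j _ h => ?_) (fun j hj => ?_) (fun i _ => rfl)
  · have := i.2
    unfold wIdx
    rw [Finset.mem_Icc]
    constructor <;> omega
  · unfold wIdx at h
    apply Fin.ext
    omega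
  · rw [Finset.mem_Icc] at hj
    refine ⟨⟨(j + K).toNat, by omega⟩, Finset.mem_univ _, ?_⟩
    unfold wIdx
    simp only
    omega

/-- LEAF V3 -/
theorem gf_Q_tail {t v : ℝ} (ht : t ≠ 0) : |t⁻¹ - ctQ t v| ≤ v ^ 2 / |t| ^ 3 := by
  unfold ctQ
  have h0 : 0 < |t| := abs_pos.2 ht
  have hD : 0 < t ^ 2 + v ^ 2 := by positivity
  have e : t⁻¹ - t / (t ^ 2 + v ^ 2) = v ^ 2 / (t * (t ^ 2 + v ^ 2)) := by
    field_simp
    ring
  rw [e, abs_div, abs_mul, abs_of_nonneg (sq_nonneg v), abs_of_pos hD]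
  apply div_le_div_of_nonneg_left (sq_nonneg v) (by positivity)
  have h3 : |t| ^ 3 = |t| * t ^ 2 := by
    rw [← sq_abs t]
    ring
  rw [h3]
  apply mul_le_mul_of_nonneg_left _ h0.le
  nlinarith [sq_nonneg v]

/-- LEAF V4 (`(v² - αβ')² ≤ (v²+α²)(v²+β'²)`, or `ct_Q_diff` and `ctP ≤ 1/v`) -/
theorem gf_Q_pair (α β : ℝ) {v : ℝ} (hv : 0 < v) : |ctQ α v + ctQ β v| ≤ |α + β| / v ^ 2 := by
  unfold ctQ
  have hA : 0 < α ^ 2 + v ^ 2 := by positivity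
  have hB : 0 < β ^ 2 + v ^ 2 := by positivity
  have e : α / (α ^ 2 + v ^ 2) + β / (β ^ 2 + v ^ 2)
      = (α + β) * ((α * β + v ^ 2) / ((α ^ 2 + v ^ 2) * (β ^ 2 + v ^ 2))) := by
    field_simp
    ring
  rw [e, abs_mul, div_eq_mul_one_div |α + β|]
  apply mul_le_mul_of_nonneg_left _ (abs_nonneg _)
  rw [abs_div, abs_of_pos (mul_pos hA hB), div_le_div_iff₀ (mul_pos hA hB) (by positivity), one_mul]
  have h1 := mul_nonneg (sq_nonneg v) (sq_nonneg (α - β))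
  have h2 := mul_nonneg (sq_nonneg v) (sq_nonneg (α + β))
  have h3 := mul_nonneg (sq_nonneg v) (sq_nonneg α)
  have h4 := mul_nonneg (sq_nonneg v) (sq_nonneg β)
  have h5 := sq_nonneg (α * β)
  have h6 := sq_nonneg (v ^ 2)
  rcases abs_cases (α * β + v ^ 2) with ⟨h, _⟩ | ⟨h, _⟩ <;> rw [h] <;> nlinarith

/-- LEAF V5 -/
theorem gf_Q_le (α : ℝ) {v : ℝ} (hv : 0 < v) : |ctQ α v| ≤ 1 / (2 * v) := by
  unfold ctQ
  have hA : 0 < α ^ 2 + v ^ 2 := by positivity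
  rw [abs_div, abs_of_pos hA, div_le_div_iff₀ hA (by positivity)]
  nlinarith [sq_nonneg (|α| - v), sq_abs α]

/-- LEAF V6 (telescoping: `1/j³ ≤ 1/(j-1)² - 1/j²`) -/
theorem gf_sum_cube {L N : ℕ} (hL : 1 ≤ L) : ∑ j ∈ Finset.Ioc L N, ((j : ℝ) ^ 3)⁻¹ ≤ ((L : ℝ) ^ 2)⁻¹ := by
  rcases le_total N L with h | h
  · rw [Finset.Ioc_eq_empty_of_le h, Finset.sum_empty]
    positivity
  · have key : ∑ j ∈ Finset.Ioc L N, ((j : ℝ) ^ 3)⁻¹ ≤ ((L : ℝ) ^ 2)⁻¹ - ((N : ℝ) ^ 2)⁻¹ := by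
      induction N, h using Nat.le_induction with
      | base => simp
      | succ N hN ih =>
        rw [Finset.sum_Ioc_succ_top hN]
        have hx : (1 : ℝ) ≤ N := by exact_mod_cast hL.trans hN
        have h1 : (((N + 1 : ℕ) : ℝ) ^ 3)⁻¹ ≤ ((N : ℝ) ^ 2)⁻¹ - (((N + 1 : ℕ) : ℝ) ^ 2)⁻¹ := by
          push_cast
          rw [← sub_nonneg]
          have e : ((N : ℝ) ^ 2)⁻¹ - (((N : ℝ) + 1) ^ 2)⁻¹ - (((N : ℝ) + 1) ^ 3)⁻¹
              = ((N : ℝ) ^ 2 + 3 * N + 1) / ((N : ℝ) ^ 2 * ((N : ℝ) + 1) ^ 3) := by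
            field_simp
            ring
          rw [e]
          positivity
        linarith
    have h2 : 0 ≤ ((N : ℝ) ^ 2)⁻¹ := by positivity
    linarith

omit [Fintype ι] in
/-- a symmetric interval of integers, summed by pairs -/
theorem gf_sum_symm {M : Type} [AddCommMonoid M] (f : ℤ → M) (N : ℕ) :
    ∑ j ∈ Finset.Icc (-(N : ℤ)) N, f j = f 0 + ∑ j ∈ Finset.range N, (f ((j : ℤ) + 1) + f (-((j : ℤ) + 1))) := by
  induction N with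
  | zero => simp
  | succ N ih =>
    have e : Finset.Icc (-((N + 1 : ℕ) : ℤ)) ((N + 1 : ℕ) : ℤ)
        = insert ((N : ℤ) + 1) (insert (-((N : ℤ) + 1)) (Finset.Icc (-(N : ℤ)) N)) := by
      ext j
      simp only [Finset.mem_Icc, Finset.mem_insert, Nat.cast_add, Nat.cast_one]
      omega
    rw [e, Finset.sum_insert, Finset.sum_insert, ih, Finset.sum_range_succ]
    · abel
    · simp only [Finset.mem_Icc]; omega
    · simp only [Finset.mem_Icc, Finset.mem_insert]; omega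

/-- LEAF V7 (**the PV tail**): `N = card ι + 1`; `lt_S_fin` + `gf_L_out`: `ltS x 0 = ltSK N x 0`; V2: `ltS x 0 - ltSK L x 0 = ∑_{L<|j|≤N} W_j`, `W_j = ltW (x j) 0` = real `1/y_j` or `0`;   V1 with `φ = ` (`ctQ · v` on reals, `0` at `±∞`):
`gfQ y v = ∑_{|j|≤N} q_j`;   so the tail is `gfQ y v - q_0 - ∑_{j=1}^L (q_j + q_{-j}) + ∑_{L<|j|≤N} (W_j - q_j)`;   V5, V4 + `hsym`, V3 + `hlo` + V6 (twice: `j > L` and `j < -L`). -/
theorem gf_pv {c Δ v : ℝ} {L : ℕ} (hc : 0 < c) (hv : 0 < v) (hL : 1 ≤ L)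
    (hlo : ∀ j : ℤ, (L : ℤ) < |j| → gfL y j ≠ ⊤ → gfL y j ≠ ⊥ → c * |(j : ℝ)| ≤ |(gfL y j).toReal|)
    (hsym : ∀ j : ℕ, 1 ≤ j → j ≤ L → gfL y (j : ℤ) ≠ ⊤ ∧ gfL y (j : ℤ) ≠ ⊥ ∧ gfL y (-(j : ℤ)) ≠ ⊤ ∧ gfL y (-(j : ℤ)) ≠ ⊥ ∧
      |(gfL y (j : ℤ)).toReal + (gfL y (-(j : ℤ))).toReal| ≤ Δ) :
    ‖ltS (gfL y) 0 - ltSK L (gfL y) 0‖ ≤ |gfQ y v| + 1 / (2 * v) + L * Δ / v ^ 2 + 2 * v ^ 2 / (c ^ 3 * (L : ℝ) ^ 2) := by
  classical
  obtain ⟨N, hN⟩ : ∃ N : ℕ, N = Fintype.card ι + 1 + L := ⟨_, rfl⟩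
  have hLN : L ≤ N := by omega
  set x := gfL y with hx
  -- real weights
  let W : ℤ → ℝ := fun j => if x j = ⊤ ∨ x j = ⊥ then 0 else ((x j).toReal)⁻¹
  let φ : EReal → ℝ := fun e => if e = ⊤ ∨ e = ⊥ then 0 else ctQ e.toReal v
  let q : ℤ → ℝ := fun j => φ (x j)
  have hW : ∀ j, ltW (x j) 0 = ((W j : ℝ) : ℂ) := by
    intro j
    simp only [ltW, W]
    split_ifs
    · simp
    · simp
  have e1 : ltS x 0 = ltSK N x 0 :=
    lt_S_fin (J := Fintype.card ι + 1) (fun j hj => gf_L_out y j (by push_cast at hj; omega)) 0 (by omega)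
  have eS : ∀ K : ℕ, ltSK K x 0 = ((W 0 + ∑ j ∈ Finset.range K, (W ((j : ℤ) + 1) + W (-((j : ℤ) + 1))) : ℝ) : ℂ) := by
    intro K
    rw [gf_SK_Icc, ← gf_sum_symm W K]
    push_cast
    exact Finset.sum_congr rfl fun j _ => hW j
  have eQ : gfQ y v = q 0 + ∑ j ∈ Finset.range N, (q ((j : ℤ) + 1) + q (-((j : ℤ) + 1))) := by
    rw [← gf_sum_symm q N]
    have := gf_sum_lab y φ (by simp [φ]) (by simp [φ]) (N := N) (by omega)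
    rw [this]
    unfold gfQ
    refine Finset.sum_congr rfl fun i _ => ?_
    simp [φ]
  have split : ∀ g : ℕ → ℝ, ∑ j ∈ Finset.range N, g j = ∑ j ∈ Finset.range L, g j + ∑ j ∈ Finset.Ico L N, g j :=
    fun g => (Finset.sum_range_add_sum_Ico g hLN).symm
  have eT : ltS x 0 - ltSK L x 0 = ((gfQ y v - q 0 - ∑ j ∈ Finset.range L, (q ((j : ℤ) + 1) + q (-((j : ℤ) + 1)))
      + ∑ j ∈ Finset.Ico L N, ((W ((j : ℤ) + 1) - q ((j : ℤ) + 1)) + (W (-((j : ℤ) + 1)) - q (-((j : ℤ) + 1)))) : ℝ) : ℂ) := by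
    rw [e1, eS, eS, ← Complex.ofReal_sub, eQ, split, split]
    congr 1
    have : ∑ j ∈ Finset.Ico L N, ((W ((j : ℤ) + 1) - q ((j : ℤ) + 1)) + (W (-((j : ℤ) + 1)) - q (-((j : ℤ) + 1))))
        = ∑ j ∈ Finset.Ico L N, (W ((j : ℤ) + 1) + W (-((j : ℤ) + 1))) - ∑ j ∈ Finset.Ico L N, (q ((j : ℤ) + 1) + q (-((j : ℤ) + 1))) := by
      rw [← Finset.sum_sub_distrib]
      exact Finset.sum_congr rfl fun j _ => by ring
    rw [this]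
    ring
  rw [eT, Complex.norm_real, Real.norm_eq_abs]
  -- the three bounds
  have b0 : |q 0| ≤ 1 / (2 * v) := by
    simp only [q, φ]
    split_ifs
    · rw [abs_zero]; positivity
    · exact gf_Q_le _ hv
  have b1 : |∑ j ∈ Finset.range L, (q ((j : ℤ) + 1) + q (-((j : ℤ) + 1)))| ≤ L * Δ / v ^ 2 := by
    refine (Finset.abs_sum_le_sum_abs _ _).trans ?_
    have : ∀ j ∈ Finset.range L, |q ((j : ℤ) + 1) + q (-((j : ℤ) + 1))| ≤ Δ / v ^ 2 := by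
      intro j hj
      obtain ⟨s1, s2, s3, s4, s5⟩ := hsym (j + 1) (by omega) (by have := Finset.mem_range.1 hj; omega)
      push_cast at s1 s2 s3 s4 s5
      simp only [q, φ]
      rw [if_neg (by tauto), if_neg (by tauto)]
      exact (gf_Q_pair _ _ hv).trans (div_le_div_of_nonneg_right s5 (by positivity))
    refine (Finset.sum_le_sum this).trans ?_
    rw [Finset.sum_const, Finset.card_range, nsmul_eq_mul, mul_div_assoc]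
  have bw : ∀ j : ℤ, (L : ℤ) < |j| → |W j - q j| ≤ v ^ 2 / c ^ 3 * (|(j : ℝ)| ^ 3)⁻¹ := by
    intro j hj
    have hj0 : (0 : ℝ) < |(j : ℝ)| := by
      have : (0 : ℤ) < |j| := lt_of_le_of_lt (Int.natCast_nonneg L) hj
      exact_mod_cast this
    simp only [W, q, φ]
    split_ifs with hh
    · rw [sub_zero, abs_zero]; positivity
    · have h1 : x j ≠ ⊤ := fun h => hh (Or.inl h)
      have h2 : x j ≠ ⊥ := fun h => hh (Or.inr h)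
      have h3 := hlo j hj h1 h2
      have h4 : 0 < c * |(j : ℝ)| := by positivity
      have h5 : (x j).toReal ≠ 0 := fun h => by rw [h, abs_zero] at h3; linarith
      refine (gf_Q_tail h5).trans ?_
      have h6 : (c * |(j : ℝ)|) ^ 3 ≤ |(x j).toReal| ^ 3 := pow_le_pow_left₀ h4.le h3 3
      calc v ^ 2 / |(x j).toReal| ^ 3 ≤ v ^ 2 / (c * |(j : ℝ)|) ^ 3 := div_le_div_of_nonneg_left (by positivity) (by positivity) h6
        _ = v ^ 2 / c ^ 3 * (|(j : ℝ)| ^ 3)⁻¹ := by rw [mul_pow]; field_simp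
  have b2 : |∑ j ∈ Finset.Ico L N, ((W ((j : ℤ) + 1) - q ((j : ℤ) + 1)) + (W (-((j : ℤ) + 1)) - q (-((j : ℤ) + 1))))|
      ≤ 2 * v ^ 2 / (c ^ 3 * (L : ℝ) ^ 2) := by
    refine (Finset.abs_sum_le_sum_abs _ _).trans ?_
    have : ∀ j ∈ Finset.Ico L N, |(W ((j : ℤ) + 1) - q ((j : ℤ) + 1)) + (W (-((j : ℤ) + 1)) - q (-((j : ℤ) + 1)))|
        ≤ 2 * (v ^ 2 / c ^ 3) * ((((j + 1 : ℕ) : ℝ)) ^ 3)⁻¹ := by
      intro j hj
      have hjL := (Finset.mem_Ico.1 hj).1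
      have a1 := bw ((j : ℤ) + 1) (by rw [abs_of_nonneg (by omega)]; omega)
      have a2 := bw (-((j : ℤ) + 1)) (by rw [abs_neg, abs_of_nonneg (by omega)]; omega)
      have c1 : |(((j : ℤ) + 1 : ℤ) : ℝ)| = ((j + 1 : ℕ) : ℝ) := by
        push_cast
        exact abs_of_nonneg (by positivity)
      have c2 : |((-((j : ℤ) + 1) : ℤ) : ℝ)| = ((j + 1 : ℕ) : ℝ) := by
        push_cast
        rw [abs_neg]
        exact abs_of_nonneg (by positivity)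
      rw [c1] at a1
      rw [c2] at a2
      refine (abs_add_le _ _).trans ?_
      linarith
    refine (Finset.sum_le_sum this).trans ?_
    rw [← Finset.mul_sum, Finset.sum_Ico_add' (fun j : ℕ => ((j : ℝ) ^ 3)⁻¹) L N 1]
    have e : Finset.Ico (L + 1) (N + 1) = Finset.Ioc L N := by
      ext j; simp only [Finset.mem_Ico, Finset.mem_Ioc]; omega
    rw [e]
    have hL0 : (0 : ℝ) < L := by exact_mod_cast hL
    calc 2 * (v ^ 2 / c ^ 3) * ∑ j ∈ Finset.Ioc L N, ((j : ℝ) ^ 3)⁻¹ ≤ 2 * (v ^ 2 / c ^ 3) * ((L : ℝ) ^ 2)⁻¹ :=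
          mul_le_mul_of_nonneg_left (gf_sum_cube hL) (by positivity)
      _ = 2 * v ^ 2 / (c ^ 3 * (L : ℝ) ^ 2) := by field_simp
  calc _ ≤ |gfQ y v - q 0 - ∑ j ∈ Finset.range L, (q ((j : ℤ) + 1) + q (-((j : ℤ) + 1)))| + _ := abs_add_le _ _
    _ ≤ (|gfQ y v - q 0| + |∑ j ∈ Finset.range L, (q ((j : ℤ) + 1) + q (-((j : ℤ) + 1)))|) + _ := by gcongr; exact abs_sub _ _
    _ ≤ ((|gfQ y v| + |q 0|) + |∑ j ∈ Finset.range L, (q ((j : ℤ) + 1) + q (-((j : ℤ) + 1)))|) + _ := by gcongr; exact abs_sub _ _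
    _ ≤ _ := by linarith

end pv

/-! ## 5. all scales: the deterministic theorem -/

/-- `Δ_k = gfD a k⁶` -/
noncomputable def gfD (a : ℝ) : ℝ := 7600 + 26 / a

/-- the constant of the lower bound -/
noncomputable def gfc (a : ℝ) : ℝ := (5376 * a)⁻¹

/-- the first regular label -/
noncomputable def gfJ (a : ℝ) (k₀ : ℕ) : ℕ := ⌈10752 * a * (k₀ : ℝ) ^ 8⌉₊ + 1

noncomputable def gfCs (a : ℝ) : ℝ := gfD a * (26000 / a) ^ ((3 : ℝ) / 4)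

noncomputable def gfCp (a : ℝ) : ℝ := (2 * a + 1 + a * gfD a + 2 * 26000 ^ 2 / (gfc a ^ 3 * a ^ 2)) * a ^ ((1 : ℝ) / 8)

theorem gf_eqns_cite2 : True := by
  have := @gfD.eq_1
  have := @gfc.eq_1
  have := @gfJ.eq_1
  have := @gfCs.eq_1
  have := @gfCp.eq_1
  trivial

/-- LEAF M0 (`π < 3.15`) -/
theorem gf_E_le {a : ℝ} (ha : 0 < a) {k : ℕ} (hk : 1 ≤ k) : gfE (10 * a) ((k : ℝ) ^ 4) ((k : ℝ) ^ 6) ((k : ℝ) ^ 8) ≤ 290 * a * (k : ℝ) ^ 6 := by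
  unfold gfE
  have hk' : (1 : ℝ) ≤ k := by exact_mod_cast hk
  have e : 8 * (k : ℝ) ^ 8 * (k : ℝ) ^ 4 / (k : ℝ) ^ 6 = 8 * (k : ℝ) ^ 6 := by
    field_simp
  rw [e]
  have h4 : (k : ℝ) ^ 4 ≤ (k : ℝ) ^ 6 := pow_le_pow_right₀ hk' (by norm_num)
  have h6 : 0 < (k : ℝ) ^ 6 := by positivity
  have hpi := Real.pi_lt_d2
  have h7 : 4 * Real.pi * (k : ℝ) ^ 6 ≤ 12.6 * (k : ℝ) ^ 6 := by
    apply mul_le_mul_of_nonneg_right _ h6.le
    linarith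
  have h8 : 4 * Real.pi * (k : ℝ) ^ 6 + 8 * (k : ℝ) ^ 6 + 8 * (k : ℝ) ^ 4 ≤ 29 * (k : ℝ) ^ 6 := by linarith
  calc 10 * a * (4 * Real.pi * (k : ℝ) ^ 6 + 8 * (k : ℝ) ^ 6 + 8 * (k : ℝ) ^ 4) ≤ 10 * a * (29 * (k : ℝ) ^ 6) :=
        mul_le_mul_of_nonneg_left h8 (by positivity)
    _ = 290 * a * (k : ℝ) ^ 6 := by ring

/-- LEAF M1: `12 (K+1) ≤ 13 K`, `13⁸ ≤ 2·12⁸` -/
theorem gf_pow_succ {K : ℕ} (hK : 12 ≤ K) : ((K : ℝ) + 1) ^ 8 ≤ 2 * (K : ℝ) ^ 8 := by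
  have hK' : (12 : ℝ) ≤ K := by exact_mod_cast hK
  have h1 : (K : ℝ) + 1 ≤ 13 / 12 * K := by linarith
  calc ((K : ℝ) + 1) ^ 8 ≤ (13 / 12 * K) ^ 8 := pow_le_pow_left₀ (by positivity) h1 8
    _ = (13 / 12) ^ 8 * (K : ℝ) ^ 8 := mul_pow _ _ _
    _ ≤ 2 * (K : ℝ) ^ 8 := mul_le_mul_of_nonneg_right (by norm_num) (by positivity)

/-- LEAF M2: `k + 1 ≤ 2k` -/
theorem gf_pow_succ' {k : ℕ} (hk : 1 ≤ k) : ((k : ℝ) + 1) ^ 8 ≤ 256 * (k : ℝ) ^ 8 := by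
  have hK' : (1 : ℝ) ≤ k := by exact_mod_cast hk
  have h1 : (k : ℝ) + 1 ≤ 2 * k := by linarith
  calc ((k : ℝ) + 1) ^ 8 ≤ (2 * k) ^ 8 := pow_le_pow_left₀ (by positivity) h1 8
    _ = 2 ^ 8 * (k : ℝ) ^ 8 := mul_pow _ _ _
    _ ≤ 256 * (k : ℝ) ^ 8 := mul_le_mul_of_nonneg_right (by norm_num) (by positivity)

/-- LEAF M3: `k⁶ = (k⁸)^{3/4}` (`Real.rpow_natCast`, `Real.rpow_mul`, `Real.rpow_le_rpow`, `Real.mul_rpow`) -/
theorem gf_rpow_34 {k j : ℕ} {M : ℝ} (hM : 0 ≤ M) (h : (k : ℝ) ^ 8 ≤ M * j) : (k : ℝ) ^ 6 ≤ M ^ ((3 : ℝ) / 4) * (j : ℝ) ^ ((3 : ℝ) / 4) := by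
  have hk0 : (0 : ℝ) ≤ k := Nat.cast_nonneg k
  have e : ((k : ℝ) ^ 8) ^ ((3 : ℝ) / 4) = (k : ℝ) ^ 6 := by
    rw [← Real.rpow_natCast (k : ℝ) 8, ← Real.rpow_mul hk0, ← Real.rpow_natCast (k : ℝ) 6]
    norm_num
  rw [← e, ← Real.mul_rpow hM (Nat.cast_nonneg j)]
  exact Real.rpow_le_rpow (by positivity) h (by norm_num)

/-- LEAF M4: `1/k = (k⁸)^{-1/8}` -/
theorem gf_rpow_18 {k L : ℕ} {M : ℝ} (hM : 0 < M) (hL : 1 ≤ L) (hk : 1 ≤ k) (h : M * L ≤ (k : ℝ) ^ 8) :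
    1 / (k : ℝ) ≤ M ^ (-((1 : ℝ) / 8)) * (L : ℝ) ^ (-((1 : ℝ) / 8)) := by
  have hk0 : (0 : ℝ) ≤ k := Nat.cast_nonneg k
  have hL0 : (0 : ℝ) < L := by exact_mod_cast hL
  have e : ((k : ℝ) ^ 8) ^ (-((1 : ℝ) / 8)) = 1 / (k : ℝ) := by
    rw [← Real.rpow_natCast (k : ℝ) 8, ← Real.rpow_mul hk0]
    have e2 : ((8 : ℕ) : ℝ) * (-((1 : ℝ) / 8)) = -1 := by norm_num
    rw [e2, Real.rpow_neg_one, one_div]
  rw [← e, ← Real.mul_rpow hM.le hL0.le]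
  exact Real.rpow_le_rpow_of_nonpos (by positivity) h (by norm_num)

/-- LEAF M5 (**covering of the labels by the scales**): `k` = the least `k ≥ k₀` with `π (j+1) ≤ a k⁸/16` (`Nat.find`).   `K` qualifies: `j ≤ n/1000 ≤ 4aK⁸/1000` (M1), `π ≤ aK⁸/20`.   If `k = k₀`: `hj0`.
If `k > k₀`: `π (j+1) > a (k-1)⁸/16 ≥ a k⁸/4096` (M2), `j + 1 ≤ 2j`, `8192 π < 26000`. -/
theorem gf_cover {a : ℝ} (ha : 0 < a) {k₀ K n j : ℕ} (hk0 : 1 ≤ k₀) (h64 : 64 ≤ a * (k₀ : ℝ) ^ 8) (hK : k₀ ≤ K) (hK12 : 12 ≤ K)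
    (hn : (n : ℝ) ≤ 2 * a * ((K : ℝ) + 1) ^ 8) (hj1 : 1 ≤ j) (hj0 : a * (k₀ : ℝ) ^ 8 ≤ 26000 * j) (hj : 1000 * j ≤ n) :
    ∃ k : ℕ, k₀ ≤ k ∧ k ≤ K ∧ Real.pi * ((j : ℝ) + 1) ≤ a * (k : ℝ) ^ 8 / 16 ∧ a * (k : ℝ) ^ 8 ≤ 26000 * j := by
  classical
  have hpi := Real.pi_lt_d2
  have hpi0 := Real.pi_pos
  have hj1' : (1 : ℝ) ≤ j := by exact_mod_cast hj1
  have hjn : 1000 * (j : ℝ) ≤ n := by exact_mod_cast hj
  have hKq : k₀ ≤ K ∧ Real.pi * ((j : ℝ) + 1) ≤ a * (K : ℝ) ^ 8 / 16 := by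
    refine ⟨hK, ?_⟩
    have h1 := gf_pow_succ hK12
    have h2 : (k₀ : ℝ) ^ 8 ≤ (K : ℝ) ^ 8 := pow_le_pow_left₀ (Nat.cast_nonneg _) (by exact_mod_cast hK) 8
    have h3 : 64 ≤ a * (K : ℝ) ^ 8 := h64.trans (mul_le_mul_of_nonneg_left h2 ha.le)
    have h4 : (j : ℝ) ≤ 4 * (a * (K : ℝ) ^ 8) / 1000 := by
      have : 2 * a * ((K : ℝ) + 1) ^ 8 ≤ 2 * a * (2 * (K : ℝ) ^ 8) := mul_le_mul_of_nonneg_left h1 (by positivity)
      linarith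
    have h5 : (j : ℝ) + 1 ≤ (4 / 1000 + 1 / 64) * (a * (K : ℝ) ^ 8) := by linarith
    calc Real.pi * ((j : ℝ) + 1) ≤ 3.15 * ((4 / 1000 + 1 / 64) * (a * (K : ℝ) ^ 8)) :=
          mul_le_mul hpi.le h5 (by positivity) (by norm_num)
      _ ≤ a * (K : ℝ) ^ 8 / 16 := by nlinarith
  have hex : ∃ k : ℕ, k₀ ≤ k ∧ Real.pi * ((j : ℝ) + 1) ≤ a * (k : ℝ) ^ 8 / 16 := ⟨K, hKq⟩
  obtain ⟨s1, s2⟩ := Nat.find_spec hex
  refine ⟨Nat.find hex, s1, Nat.find_min' hex hKq, s2, ?_⟩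
  rcases Nat.eq_or_lt_of_le s1 with h | h
  · rw [← h]; exact hj0
  · obtain ⟨m, hm⟩ : ∃ m, Nat.find hex = m + 1 := ⟨Nat.find hex - 1, by omega⟩
    have hm0 : k₀ ≤ m := by omega
    have hnot := Nat.find_min hex (m := m) (by omega)
    have h6 : a * (m : ℝ) ^ 8 / 16 < Real.pi * ((j : ℝ) + 1) := by
      by_contra hc
      exact hnot ⟨hm0, not_lt.1 hc⟩
    have h7 := gf_pow_succ' (k := m) (by omega)
    rw [hm]
    push_cast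
    have h8 : a * ((m : ℝ) + 1) ^ 8 ≤ a * (256 * (m : ℝ) ^ 8) := mul_le_mul_of_nonneg_left h7 ha.le
    have h9 : Real.pi * ((j : ℝ) + 1) ≤ 3.15 * (2 * j) := mul_le_mul hpi.le (by linarith) (by positivity) (by norm_num)
    linarith

section det

variable {ι : Type} [Fintype ι] {y : ι → ℝ} {a : ℝ}

/-- LEAF D1 (**upper bound of the counts at all radii**).   `2k⁸ ≤ r < 2(k+1)⁸`, `k₀ ≤ k < K`: `N[-r,r] ≤ N[-2(k+1)⁸, 2(k+1)⁸] ≤ 4(k+1)⁸·10a ≤ 5120 a r` (`gf_card` at `e = 0`, M2).   `r ≥ 2K⁸`: `N ≤ card ≤ 2a(K+1)⁸ ≤ 256 a r`. -/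
theorem gf_ub (ha : 0 < a) {k₀ K : ℕ} (hk0 : 1 ≤ k₀) (hK : k₀ ≤ K) (hall : ∀ k : ℕ, k₀ ≤ k → k ≤ K → gfI y 0 (2 * (k : ℝ) ^ 8) ≤ 10 * a)
    (hcard : (Fintype.card ι : ℝ) ≤ 2 * a * ((K : ℝ) + 1) ^ 8) (r : ℝ) (hr : 2 * (k₀ : ℝ) ^ 8 ≤ r) : (gfN y (-r) r : ℝ) ≤ 5376 * a * r := by
  classical
  have hr0 : 0 ≤ r := le_trans (by positivity) hr
  have hK1 : 1 ≤ K := hk0.trans hK
  by_cases hrK : 2 * (K : ℝ) ^ 8 ≤ r
  · have h1 : (gfN y (-r) r : ℝ) ≤ Fintype.card ι := by exact_mod_cast gf_N_le_card y (-r) r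
    have h2 := gf_pow_succ' hK1
    have h3 : 2 * a * ((K : ℝ) + 1) ^ 8 ≤ 2 * a * (256 * (K : ℝ) ^ 8) := mul_le_mul_of_nonneg_left h2 (by positivity)
    have h4 : a * (2 * (K : ℝ) ^ 8) ≤ a * r := mul_le_mul_of_nonneg_left hrK ha.le
    have h5 : 0 ≤ a * r := by positivity
    nlinarith
  · push_neg at hrK
    have hex : ∃ k : ℕ, r < 2 * ((k : ℝ) + 1) ^ 8 := by
      refine ⟨K - 1, ?_⟩
      have e : ((K - 1 : ℕ) : ℝ) + 1 = K := by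
        rw [Nat.cast_sub hK1]
        simp
      rw [e]
      exact hrK
    have hk_spec := Nat.find_spec hex
    have hk_min := fun m (hm : m < Nat.find hex) => Nat.find_min hex hm
    have hk_le : Nat.find hex ≤ K - 1 := by
      apply Nat.find_min'
      have e : ((K - 1 : ℕ) : ℝ) + 1 = K := by
        rw [Nat.cast_sub hK1]
        simp
      rw [e]
      exact hrK
    generalize Nat.find hex = k at hk_spec hk_min hk_le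
    have hkk : k₀ ≤ k := by
      by_contra hlt
      push_neg at hlt
      have h1 : (k : ℝ) + 1 ≤ k₀ := by exact_mod_cast hlt
      have h2 : ((k : ℝ) + 1) ^ 8 ≤ (k₀ : ℝ) ^ 8 := pow_le_pow_left₀ (by positivity) h1 8
      linarith
    have hk1 : 1 ≤ k := hk0.trans hkk
    have hlow : 2 * (k : ℝ) ^ 8 ≤ r := by
      have h1 := hk_min (k - 1) (by omega)
      have e : ((k - 1 : ℕ) : ℝ) + 1 = k := by
        rw [Nat.cast_sub hk1]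
        simp
      rw [e] at h1
      exact not_lt.1 h1
    have hI := hall (k + 1) (by omega) (by omega)
    push_cast at hI
    have hh : 0 < 2 * ((k : ℝ) + 1) ^ 8 := by positivity
    have hc := gf_card y 0 hh
    rw [zero_sub, zero_add] at hc
    have hm : (gfN y (-r) r : ℝ) ≤ gfN y (-(2 * ((k : ℝ) + 1) ^ 8)) (2 * ((k : ℝ) + 1) ^ 8) :=
      Nat.cast_le.2 (gf_N_mono y (by linarith) hk_spec.le)
    have h2 := gf_pow_succ' hk1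
    have h3 : 2 * (2 * ((k : ℝ) + 1) ^ 8) * gfI y 0 (2 * ((k : ℝ) + 1) ^ 8) ≤ 2 * (2 * ((k : ℝ) + 1) ^ 8) * (10 * a) :=
      mul_le_mul_of_nonneg_left hI (by positivity)
    have h4 : a * ((k : ℝ) + 1) ^ 8 ≤ a * (256 * (k : ℝ) ^ 8) := mul_le_mul_of_nonneg_left h2 ha.le
    have h5 : a * (2 * (k : ℝ) ^ 8) ≤ a * r := mul_le_mul_of_nonneg_left hlow ha.le
    have h6 : 0 ≤ a * r := by positivity
    nlinarith

/-- LEAF D2 (**symmetry at one scale**): `gf_pair` with `R = k⁸`, `Δ = gfD a k⁶`, `A = (12a k⁶ + 2E)/π + 20a k⁶`, `E = gfE … ≤ 290 a k⁶` (M0).   `has` = `gf_pm` (`δ s ≤ δ R = 12 a k⁶`);   `hgp`, `hgm` = `gf_grow_p/m`: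
`E + π(A+1) ≤ 945 a k⁶ + π ≤ (a/8)(Δ - 1)`;   `hx`: `gf_lab_pos`, `gf_lo` on `[0, R-2Δ]`: `π N₊ ≥ (a/8)(k⁸ - 2Dk⁶) - 290 a k⁶ ≥ a k⁸/16 ≥ π(j+1)` by `hk`.   Last two claims: `y_j ≤ R - 2Δ`, `|y_{-j}| ≤ y_j + Δ`. -/
theorem gf_sym_sc (ha : 0 < a) {k : ℕ} (hk1 : 1 ≤ k) (hk : 4 * gfD a + 4640 ≤ (k : ℝ) ^ 2)
    (h : GfSc y (10 * a) (a / 8) (12 * a / (k : ℝ) ^ 2) ((k : ℝ) ^ 4) ((k : ℝ) ^ 6) ((k : ℝ) ^ 8))
    {j : ℕ} (hj1 : 1 ≤ j) (hj : Real.pi * ((j : ℝ) + 1) ≤ a * (k : ℝ) ^ 8 / 16) :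
    (gfL y (j : ℤ) ≠ ⊤ ∧ gfL y (j : ℤ) ≠ ⊥ ∧ gfL y (-(j : ℤ)) ≠ ⊤ ∧ gfL y (-(j : ℤ)) ≠ ⊥ ∧
      |(gfL y (j : ℤ)).toReal + (gfL y (-(j : ℤ))).toReal| ≤ gfD a * (k : ℝ) ^ 6) ∧
      (gfL y (j : ℤ)).toReal ≤ (k : ℝ) ^ 8 ∧ -(k : ℝ) ^ 8 ≤ (gfL y (-(j : ℤ))).toReal := by
  have hpi := Real.pi_lt_d2
  have hpi0 := Real.pi_pos
  have hk1' : (1 : ℝ) ≤ k := by exact_mod_cast hk1
  have hk0 : (0 : ℝ) < k := by linarith
  obtain ⟨x, hx⟩ : ∃ x : ℝ, x = (k : ℝ) ^ 6 := ⟨_, rfl⟩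
  have hx1 : 1 ≤ x := by rw [hx]; exact one_le_pow₀ hk1'
  have h8 : (k : ℝ) ^ 8 = (k : ℝ) ^ 2 * x := by rw [hx]; ring
  have hD : gfD a = 7600 + 26 / a := rfl
  have hDa : a * gfD a = 7600 * a + 26 := by rw [hD]; field_simp
  have hD0 : 7600 ≤ gfD a := by rw [hD]; have : 0 < 26 / a := by positivity
                                linarith
  obtain ⟨E, hE⟩ : ∃ E : ℝ, E = gfE (10 * a) ((k : ℝ) ^ 4) ((k : ℝ) ^ 6) ((k : ℝ) ^ 8) := ⟨_, rfl⟩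
  have hE1 : E ≤ 290 * a * x := by rw [hE, hx]; exact gf_E_le ha hk1
  have hu : (0 : ℝ) < (k : ℝ) ^ 4 := by positivity
  have ht : (0 : ℝ) < (k : ℝ) ^ 6 := by positivity
  have hR : (0 : ℝ) < (k : ℝ) ^ 8 := by positivity
  obtain ⟨A, hA⟩ : ∃ A : ℝ, A = (12 * a * x + 2 * E) / Real.pi + 20 * a * x := ⟨_, rfl⟩
  have hpA : Real.pi * A = 12 * a * x + 2 * E + 20 * Real.pi * (a * x) := by rw [hA]; field_simp
  have hax : 0 < a * x := by positivity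
  have hΔ1 : 1 ≤ gfD a * x := by nlinarith
  -- the key numerical inequality
  have hkey : A + 1 ≤ (a / 8 * (gfD a * x - 1) - E) / Real.pi := by
    rw [le_div_iff₀ hpi0]
    have e1 : a / 8 * (gfD a * x - 1) = (7600 * a + 26) * x / 8 - a / 8 := by rw [← hDa]; ring
    have e2 : 20 * Real.pi * (a * x) ≤ 63 * (a * x) := by nlinarith
    have e3 : a ≤ a * x := by nlinarith
    rw [e1]
    nlinarith
  have has : ∀ s, 0 ≤ s → s ≤ (k : ℝ) ^ 8 → |(gfNp y s : ℝ) - gfNm y s| ≤ A := by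
    intro s hs0 hs
    refine (gf_pm h hu ht hR hs0 hs).trans ?_
    rw [← hE, hA, ← hx]
    have e1 : 12 * a / (k : ℝ) ^ 2 * s ≤ 12 * a * x := by
      rw [div_mul_eq_mul_div, div_le_iff₀ (by positivity)]
      calc 12 * a * s ≤ 12 * a * ((k : ℝ) ^ 2 * x) := by rw [← h8]; exact mul_le_mul_of_nonneg_left hs (by positivity)
        _ = 12 * a * x * (k : ℝ) ^ 2 := by ring
    have e2 : (12 * a / (k : ℝ) ^ 2 * s + 2 * E) / Real.pi ≤ (12 * a * x + 2 * E) / Real.pi :=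
      div_le_div_of_nonneg_right (by linarith) hpi0.le
    linarith
  have hgp : ∀ α, 0 ≤ α → α + gfD a * x ≤ (k : ℝ) ^ 8 → (gfNp y α : ℝ) + A + 1 ≤ gfNp y (α + gfD a * x) := by
    intro α hα hαΔ
    have := gf_grow_p h hu ht hR hα hΔ1 hαΔ
    rw [← hE] at this
    linarith
  have hgm : ∀ α, 0 ≤ α → α + gfD a * x ≤ (k : ℝ) ^ 8 → (gfNm y α : ℝ) + A + 1 ≤ gfNm y (α + gfD a * x) := by
    intro α hα hαΔ
    have := gf_grow_m h hu ht hR hα hΔ1 hαΔ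
    rw [← hE] at this
    linarith
  have hw0 : 0 ≤ (k : ℝ) ^ 8 - 2 * (gfD a * x) := by rw [h8]; nlinarith
  have hxx : gfL y (j : ℤ) ≤ (((k : ℝ) ^ 8 - 2 * (gfD a * x) : ℝ) : EReal) := by
    rw [gf_lab_pos]
    have l1 := gf_lo h hu ht hR (v := 0) (w := (k : ℝ) ^ 8 - 2 * (gfD a * x)) (by linarith) hw0 (by nlinarith)
    rw [← hE, sub_zero] at l1
    have e0 : gfNp y ((k : ℝ) ^ 8 - 2 * (gfD a * x)) = gfN y 0 ((k : ℝ) ^ 8 - 2 * (gfD a * x)) := rfl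
    rw [e0]
    have l2 : a * (k : ℝ) ^ 8 / 16 ≤ a / 8 * ((k : ℝ) ^ 8 - 2 * (gfD a * x)) - E := by
      rw [h8]
      have : (4 * gfD a + 4640) * (a * x) ≤ (k : ℝ) ^ 2 * (a * x) := mul_le_mul_of_nonneg_right hk hax.le
      nlinarith
    have l3 : Real.pi * ((j : ℝ) + 1) ≤ Real.pi * gfN y 0 ((k : ℝ) ^ 8 - 2 * (gfD a * x)) := by linarith
    have l4 : (j : ℝ) + 1 ≤ gfN y 0 ((k : ℝ) ^ 8 - 2 * (gfD a * x)) := le_of_mul_le_mul_left l3 hpi0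
    have : j + 1 ≤ gfN y 0 ((k : ℝ) ^ 8 - 2 * (gfD a * x)) := by exact_mod_cast l4
    omega
  have hp := gf_pair y (R := (k : ℝ) ^ 8) (Δ := gfD a * x) (A := A) (by linarith) has hgp hgm hj1 hxx
  obtain ⟨p1, p2, p3, p4, p5⟩ := hp
  have q1 : (gfL y (j : ℤ)).toReal ≤ (k : ℝ) ^ 8 - 2 * (gfD a * x) := by
    have := hxx
    rw [← EReal.coe_toReal p1 p2] at this
    exact_mod_cast this
  rw [← hx]
  refine ⟨⟨p1, p2, p3, p4, p5⟩, by linarith, ?_⟩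
  have := (abs_le.1 p5).1
  linarith

theorem gf_J_lt (a : ℝ) (k₀ : ℕ) : 10752 * a * (k₀ : ℝ) ^ 8 < (gfJ a k₀ : ℝ) := by
  have h4 := Nat.le_ceil (10752 * a * (k₀ : ℝ) ^ 8)
  unfold gfJ
  push_cast
  linarith

/-- LEAF D3: `gf_lo_lab` with `Cu = 5376 a`, `r₀ = 2k₀⁸` (`gf_ub`; `GfAll` gives `GfSc.up0`); `gfJ a k₀ > 10752 a k₀⁸` (`Nat.le_ceil`) -/
theorem gf_det_lo (ha : 0 < a) {k₀ K : ℕ} (hk0 : 1 ≤ k₀) (hK : k₀ ≤ K) (hcard : (Fintype.card ι : ℝ) ≤ 2 * a * ((K : ℝ) + 1) ^ 8) (h : GfAll a k₀ K y)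
    (j : ℤ) (hj : (gfJ a k₀ : ℤ) ≤ |j|) (h1 : gfL y j ≠ ⊤) (h2 : gfL y j ≠ ⊥) : gfc a * |(j : ℝ)| ≤ |(gfL y j).toReal| := by
  have hub := gf_ub ha hk0 hK (fun k h1 h2 => (h k h1 h2).1.up0) hcard
  have hJ : 5376 * a * (2 * (k₀ : ℝ) ^ 8) < |(j : ℝ)| := by
    have h3 : (gfJ a k₀ : ℝ) ≤ |(j : ℝ)| := by exact_mod_cast hj
    have := gf_J_lt a k₀
    linarith
  have := gf_lo_lab y hub hJ h1 h2
  unfold gfc
  rw [inv_mul_le_iff₀ (by positivity)]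
  exact this

/-- LEAF D4: `gf_cover` (`hj0` from `gfJ`), `gf_sym_sc`, M3 with `M = 26000/a` -/
theorem gf_det_sym (ha : 0 < a) {k₀ K : ℕ} (hk1 : 1 ≤ k₀) (hk0 : 4 * gfD a + 4640 ≤ (k₀ : ℝ) ^ 2) (h64 : 64 ≤ a * (k₀ : ℝ) ^ 8) (hK : k₀ ≤ K) (hK12 : 12 ≤ K)
    (hcard : (Fintype.card ι : ℝ) ≤ 2 * a * ((K : ℝ) + 1) ^ 8) (h : GfAll a k₀ K y) {j : ℕ} (hj : gfJ a k₀ ≤ j) (hjn : 1000 * j ≤ Fintype.card ι) :
    (gfL y (j : ℤ) ≠ ⊤ ∧ gfL y (j : ℤ) ≠ ⊥ ∧ gfL y (-(j : ℤ)) ≠ ⊤ ∧ gfL y (-(j : ℤ)) ≠ ⊥) ∧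
      |(gfL y (j : ℤ)).toReal + (gfL y (-(j : ℤ))).toReal| ≤ gfCs a * (j : ℝ) ^ ((3 : ℝ) / 4) ∧
      (gfL y (j : ℤ)).toReal ≤ 26000 / a * j ∧ -(26000 / a * j) ≤ (gfL y (-(j : ℤ))).toReal := by
  have hj1 : 1 ≤ j := by unfold gfJ at hj; omega
  have hjr : (gfJ a k₀ : ℝ) ≤ j := by exact_mod_cast hj
  have hj0 : a * (k₀ : ℝ) ^ 8 ≤ 26000 * j := by
    have := gf_J_lt a k₀
    have h0 : 0 ≤ a * (k₀ : ℝ) ^ 8 := by positivity
    have h1 : (0 : ℝ) ≤ j := by positivity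
    nlinarith
  obtain ⟨k, hk1', hk2, hk3, hk4⟩ := gf_cover ha hk1 h64 hK hK12 hcard hj1 hj0 hjn
  have hkk : 4 * gfD a + 4640 ≤ (k : ℝ) ^ 2 := by
    refine hk0.trans (pow_le_pow_left₀ (by positivity) ?_ 2)
    exact_mod_cast hk1'
  obtain ⟨⟨f1, f2, f3, f4, hs⟩, hu, hl⟩ := gf_sym_sc ha (by omega) hkk (h k hk1' hk2).1 hj1 hk3
  have hk8 : (k : ℝ) ^ 8 ≤ 26000 / a * j := by
    rw [div_mul_eq_mul_div, le_div_iff₀ ha]
    linarith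
  have hD : 0 ≤ gfD a := by unfold gfD; positivity
  refine ⟨⟨f1, f2, f3, f4⟩, ?_, hu.trans hk8, by linarith⟩
  have h34 := gf_rpow_34 (M := 26000 / a) (by positivity) hk8
  unfold gfCs
  calc |(gfL y (j : ℤ)).toReal + (gfL y (-(j : ℤ))).toReal| ≤ gfD a * (k : ℝ) ^ 6 := hs
    _ ≤ gfD a * ((26000 / a) ^ ((3 : ℝ) / 4) * (j : ℝ) ^ ((3 : ℝ) / 4)) := by gcongr
    _ = _ := by ring

/-- LEAF D5: `gf_cover` at `L` gives `k`;   `gf_pv` with `c = gfc a`, `Δ = gfD a k⁶`, `v = √(k¹⁵)` (`v² = k¹⁵`, `v ≥ k`);   `hlo` = `gf_det_lo`, `hsym` = `gf_sym_sc` at the SAME `k` for all `j ≤ L`;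
`|gfQ| ≤ 2a/k`;   `L ≤ a k⁸` ⟹ `LΔ/v² ≤ a D/k`;   `a k⁸ ≤ 26000 L` ⟹ `2v²/(c³L²) ≤ 2·26000²/(c³a²k)`;   M4 with `M = 1/a` (`L/a ≤ k⁸`). -/
theorem gf_det_pv (ha : 0 < a) {k₀ K : ℕ} (hk1 : 1 ≤ k₀) (hk0 : 4 * gfD a + 4640 ≤ (k₀ : ℝ) ^ 2) (h64 : 64 ≤ a * (k₀ : ℝ) ^ 8) (hK : k₀ ≤ K) (hK12 : 12 ≤ K)
    (hcard : (Fintype.card ι : ℝ) ≤ 2 * a * ((K : ℝ) + 1) ^ 8) (h : GfAll a k₀ K y) {L : ℕ} (hL : gfJ a k₀ ≤ L) (hLn : 1000 * L ≤ Fintype.card ι) :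
    ‖ltS (gfL y) 0 - ltSK L (gfL y) 0‖ ≤ gfCp a * (L : ℝ) ^ (-((1 : ℝ) / 8)) := by
  have hpi3 := Real.pi_gt_three
  have hL1 : 1 ≤ L := by unfold gfJ at hL; omega
  have hLr : (gfJ a k₀ : ℝ) ≤ L := by exact_mod_cast hL
  have hL0 : (0 : ℝ) < L := by exact_mod_cast hL1
  have hj0 : a * (k₀ : ℝ) ^ 8 ≤ 26000 * L := by
    have := gf_J_lt a k₀
    have h0 : 0 ≤ a * (k₀ : ℝ) ^ 8 := by positivity
    nlinarith
  obtain ⟨k, hk1', hk2, hk3, hk4⟩ := gf_cover ha hk1 h64 hK hK12 hcard hL1 hj0 hLn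
  have hkk : 4 * gfD a + 4640 ≤ (k : ℝ) ^ 2 := by
    refine hk0.trans (pow_le_pow_left₀ (by positivity) ?_ 2)
    exact_mod_cast hk1'
  have hk1n : 1 ≤ k := by omega
  have hkr : (1 : ℝ) ≤ k := by exact_mod_cast hk1n
  have hkp : (0 : ℝ) < k := by linarith
  have hD : 0 ≤ gfD a := by unfold gfD; positivity
  have hc : 0 < gfc a := by unfold gfc; positivity
  obtain ⟨v, hv⟩ : ∃ v : ℝ, v = Real.sqrt ((k : ℝ) ^ 15) := ⟨_, rfl⟩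
  have hv2 : v ^ 2 = (k : ℝ) ^ 15 := by rw [hv, Real.sq_sqrt (by positivity)]
  have hv0 : 0 < v := by rw [hv]; exact Real.sqrt_pos.2 (by positivity)
  have hvk : (k : ℝ) ≤ v := by
    rw [hv]
    refine Real.le_sqrt_of_sq_le ?_
    exact pow_le_pow_right₀ hkr (by norm_num)
  have hp := gf_pv y (c := gfc a) (Δ := gfD a * (k : ℝ) ^ 6) (v := v) (L := L) hc hv0 hL1
    (fun j hj h1 h2 => gf_det_lo ha hk1 hK hcard h j (by omega) h1 h2)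
    (fun j hj1 hjL => (gf_sym_sc ha hk1n hkk (h k hk1' hk2).1 hj1 (by
      have : (j : ℝ) ≤ L := by exact_mod_cast hjL
      have h3 : Real.pi * ((j : ℝ) + 1) ≤ Real.pi * ((L : ℝ) + 1) := mul_le_mul_of_nonneg_left (by linarith) Real.pi_pos.le
      linarith)).1)
  have hq := (h k hk1' hk2).2
  rw [← hv] at hq
  have hLa : (L : ℝ) ≤ a * (k : ℝ) ^ 8 := by nlinarith
  -- the four terms
  have t1 : 1 / (2 * v) ≤ 1 / (k : ℝ) := by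
    apply one_div_le_one_div_of_le hkp
    linarith
  have t2 : L * (gfD a * (k : ℝ) ^ 6) / v ^ 2 ≤ a * gfD a / k := by
    rw [hv2, div_le_div_iff₀ (by positivity) hkp]
    calc L * (gfD a * (k : ℝ) ^ 6) * k ≤ a * (k : ℝ) ^ 8 * (gfD a * (k : ℝ) ^ 6) * k := by gcongr
      _ = a * gfD a * (k : ℝ) ^ 15 := by ring
  have t3 : 2 * v ^ 2 / (gfc a ^ 3 * (L : ℝ) ^ 2) ≤ 2 * 26000 ^ 2 / (gfc a ^ 3 * a ^ 2) / k := by
    rw [hv2, div_div, div_le_div_iff₀ (by positivity) (by positivity)]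
    have h5 : (a * (k : ℝ) ^ 8) ^ 2 ≤ (26000 * (L : ℝ)) ^ 2 := pow_le_pow_left₀ (by positivity) hk4 2
    calc 2 * (k : ℝ) ^ 15 * (gfc a ^ 3 * a ^ 2 * k) = 2 * gfc a ^ 3 * (a * (k : ℝ) ^ 8) ^ 2 := by ring
      _ ≤ 2 * gfc a ^ 3 * (26000 * (L : ℝ)) ^ 2 := by gcongr
      _ = 2 * 26000 ^ 2 * (gfc a ^ 3 * (L : ℝ) ^ 2) := by ring
  have h18 := gf_rpow_18 (M := 1 / a) (L := L) (k := k) (by positivity) hL1 hk1n (by
    rw [one_div, inv_mul_le_iff₀ ha]; exact hLa)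
  have ea : (1 / a) ^ (-((1 : ℝ) / 8)) = a ^ ((1 : ℝ) / 8) := by
    rw [one_div, Real.inv_rpow ha.le, Real.rpow_neg ha.le, inv_inv]
  rw [ea] at h18
  have hC0 : 0 ≤ 2 * a + 1 + a * gfD a + 2 * 26000 ^ 2 / (gfc a ^ 3 * a ^ 2) := by positivity
  calc _ ≤ |gfQ y v| + 1 / (2 * v) + L * (gfD a * (k : ℝ) ^ 6) / v ^ 2 + 2 * v ^ 2 / (gfc a ^ 3 * (L : ℝ) ^ 2) := hp
    _ ≤ 2 * a / k + 1 / (k : ℝ) + a * gfD a / k + 2 * 26000 ^ 2 / (gfc a ^ 3 * a ^ 2) / k := by linarith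
    _ = (2 * a + 1 + a * gfD a + 2 * 26000 ^ 2 / (gfc a ^ 3 * a ^ 2)) * (1 / (k : ℝ)) := by ring
    _ ≤ (2 * a + 1 + a * gfD a + 2 * 26000 ^ 2 / (gfc a ^ 3 * a ^ 2)) * (a ^ ((1 : ℝ) / 8) * (L : ℝ) ^ (-((1 : ℝ) / 8))) :=
        mul_le_mul_of_nonneg_left h18 hC0
    _ = gfCp a * (L : ℝ) ^ (-((1 : ℝ) / 8)) := by unfold gfCp; ring

/-- LEAF D6 (**the deterministic theorem**): fields `lo` = D3, `sym`, `hi` = D4 (`gf_L_nonneg`, `gf_L_nonpos`), `pv` = D5, `ex`: labels `±max(|j|, J₀)` are finite (D4) and `gfL y` is monotone. -/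
theorem gf_det (ha : 0 < a) {k₀ K : ℕ} (hk1 : 1 ≤ k₀) (hk0 : 4 * gfD a + 4640 ≤ (k₀ : ℝ) ^ 2) (h64 : 64 ≤ a * (k₀ : ℝ) ^ 8) (hK : k₀ ≤ K) (hK12 : 12 ≤ K)
    (hJ : 1000 * gfJ a k₀ ≤ Fintype.card ι) (hcard : (Fintype.card ι : ℝ) ≤ 2 * a * ((K : ℝ) + 1) ^ 8) (h : GfAll a k₀ K y) :
    GfReg (gfc a) (max (gfCs a) (max (26000 / a) (gfCp a))) (gfJ a k₀) (Fintype.card ι) (gfL y) := by
  have hsym := fun (j : ℕ) (hj : gfJ a k₀ ≤ j) (hjn : 1000 * j ≤ Fintype.card ι) => gf_det_sym ha hk1 hk0 h64 hK hK12 hcard h hj hjn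
  have hJ1 : 1 ≤ gfJ a k₀ := by unfold gfJ; omega
  -- a natural number form of `hi`
  have hiN : ∀ m : ℕ, gfJ a k₀ ≤ m → 1000 * m ≤ Fintype.card ι →
      |(gfL y (m : ℤ)).toReal| ≤ 26000 / a * m ∧ |(gfL y (-(m : ℤ))).toReal| ≤ 26000 / a * m := by
    intro m hm hmn
    obtain ⟨⟨f1, f2, f3, f4⟩, -, u1, u2⟩ := hsym m hm hmn
    have p0 := gf_L_nonneg y m
    have n0 := gf_L_nonpos y (m - 1)
    have hmz : -(((m - 1 : ℕ) : ℤ)) - 1 = -(m : ℤ) := by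
      rw [Nat.cast_sub (by omega)]; ring
    rw [hmz] at n0
    have p0' : 0 ≤ (gfL y (m : ℤ)).toReal := EReal.toReal_nonneg p0
    have n0' : (gfL y (-(m : ℤ))).toReal ≤ 0 := EReal.toReal_nonpos n0
    exact ⟨by rw [abs_of_nonneg p0']; exact u1, by rw [abs_of_nonpos n0']; linarith⟩
  refine ⟨fun j hj => ?_, fun j hj h1 h2 => gf_det_lo ha hk1 hK hcard h j hj h1 h2, fun j hj hjn => ?_, fun j hj hjn => ?_, fun L hL hLn => ?_⟩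
  · -- existence
    obtain ⟨m, hm⟩ : ∃ m : ℕ, m = max j.natAbs (gfJ a k₀) := ⟨_, rfl⟩
    have hm1 : gfJ a k₀ ≤ m := by rw [hm]; exact le_max_right _ _
    have hm2 : j.natAbs ≤ m := by rw [hm]; exact le_max_left _ _
    have hm3 : 1000 * m ≤ Fintype.card ι := by
      rcases le_total j.natAbs (gfJ a k₀) with h' | h'
      · rw [hm, max_eq_right h']; exact hJ
      · rw [hm, max_eq_left h']
        have : (1000 * (j.natAbs : ℤ)) ≤ Fintype.card ι := by rw [Int.natCast_natAbs]; exact hj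
        exact_mod_cast this
    obtain ⟨⟨f1, f2, f3, f4⟩, -⟩ := hsym m hm1 hm3
    have l1 : gfL y j ≤ gfL y (m : ℤ) := gf_L_mono y (by omega)
    have l2 : gfL y (-(m : ℤ)) ≤ gfL y j := gf_L_mono y (by omega)
    refine ⟨fun hh => f1 (top_le_iff.1 (hh ▸ l1)), fun hh => f4 (le_bot_iff.1 (hh ▸ l2))⟩
  · -- upper bound
    have hC : 26000 / a ≤ max (gfCs a) (max (26000 / a) (gfCp a)) := (le_max_left _ _).trans (le_max_right _ _)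
    have hj' : gfJ a k₀ ≤ j.natAbs := by
      have : (gfJ a k₀ : ℤ) ≤ (j.natAbs : ℤ) := by rw [Int.natCast_natAbs]; exact hj
      exact_mod_cast this
    have hjn' : 1000 * j.natAbs ≤ Fintype.card ι := by
      have : (1000 * (j.natAbs : ℤ)) ≤ Fintype.card ι := by rw [Int.natCast_natAbs]; exact hjn
      exact_mod_cast this
    obtain ⟨b1, b2⟩ := hiN j.natAbs hj' hjn'
    have ec : ((j.natAbs : ℕ) : ℝ) = |(j : ℝ)| := by
      rw [Nat.cast_natAbs]; push_cast; rfl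
    have hfin : |(gfL y j).toReal| ≤ 26000 / a * |(j : ℝ)| := by
      rw [← ec]
      rcases Int.natAbs_eq j with e | e
      · rw [e] at *; simpa using b1
      · have : gfL y j = gfL y (-((j.natAbs : ℕ) : ℤ)) := by rw [← e]
        rw [this]; exact b2
    exact hfin.trans (mul_le_mul_of_nonneg_right hC (abs_nonneg _))
  · exact (hsym j hj hjn).2.1.trans (mul_le_mul_of_nonneg_right (le_max_left _ _) (by positivity))
  · exact (gf_det_pv ha hk1 hk0 h64 hK hK12 hcard h hL hLn).trans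
      (mul_le_mul_of_nonneg_right ((le_max_right _ _).trans (le_max_right _ _)) (by positivity))

end det

/-! ## 6. link with the matrix -/

section link

variable {n : ℕ} {A : Matrix (Fin n) (Fin n) ℝ} (hA : A.IsHermitian) {a : ℝ}

theorem gf_z_re (a : ℝ) (n : ℕ) (e h : ℝ) : (gfz a n e h).re = a / n * e := by
  simp [gfz]

theorem gf_z_im (a : ℝ) (n : ℕ) (e h : ℝ) : (gfz a n e h).im = a / n * h := by
  simp [gfz]

/-- LEAF K1 -/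
theorem gf_z_neg (a : ℝ) (n : ℕ) (e h : ℝ) : gfz a n (-e) h = -(starRingEnd ℂ) (gfz a n e h) := by
  apply Complex.ext <;> simp [gfz]

/-- LEAF K2: `‖e + ih‖ ≤ |e| + |h|` -/
theorem gf_z_norm (ha : 0 < a) (n : ℕ) (e h : ℝ) : ‖gfz a n e h‖ ≤ a / n * (|e| + |h|) := by
  unfold gfz
  rw [norm_mul, Complex.norm_real, Real.norm_eq_abs, abs_of_nonneg (by positivity : 0 ≤ a / n)]
  refine mul_le_mul_of_nonneg_left ?_ (by positivity)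
  refine (norm_add_le _ _).trans ?_
  rw [norm_mul, Complex.norm_real, Complex.norm_real, Complex.norm_I, mul_one, Real.norm_eq_abs, Real.norm_eq_abs]

/-- LEAF K3 (`rs_trace`): `a m((a/n) w) = ∑ 1/((n/a) λ_i - w)` -/
theorem gf_S_m (ha : 0 < a) (hn : 1 ≤ n) (e : ℝ) {h : ℝ} (hh : 0 < h) :
    (a : ℂ) * g1m A (gfz a n e h) = ∑ i, (((gfY a hA i : ℝ) : ℂ) - ctZ e h)⁻¹ := by
  have hn0 : (0 : ℝ) < n := by exact_mod_cast hn
  have hz : (gfz a n e h).im ≠ 0 := by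
    rw [gf_z_im]
    positivity
  have hnC : (n : ℂ) ≠ 0 := by exact_mod_cast hn0.ne'
  have haC : (a : ℂ) ≠ 0 := by exact_mod_cast ha.ne'
  unfold g1m
  rw [rs_trace hA hz, ← mul_assoc, Finset.mul_sum]
  refine Finset.sum_congr rfl fun i _ => ?_
  unfold gfY gfz ctZ
  push_cast
  have e1 : (n : ℂ) / a * (hA.eigenvalues i : ℂ) - ((e : ℂ) + (h : ℂ) * Complex.I)
      = (n : ℂ) / a * ((hA.eigenvalues i : ℂ) - (a : ℂ) / n * ((e : ℂ) + (h : ℂ) * Complex.I)) := by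
    field_simp
  rw [e1, mul_inv, inv_div]
  ring

/-- LEAF K4 (K3, `ct_inv_im`; `ctP (x - e) h = pcK h e x`) -/
theorem gf_I_m (ha : 0 < a) (hn : 1 ≤ n) (e : ℝ) {h : ℝ} (hh : 0 < h) : gfI (gfY a hA) e h = a * (g1m A (gfz a n e h)).im := by
  rw [← Complex.im_ofReal_mul, gf_S_m hA ha hn e hh, Complex.im_sum]
  unfold gfI
  refine Finset.sum_congr rfl fun i _ => ?_
  rw [ct_inv_im]
  rfl

/-- LEAF K5 (K3, `ct_inv_re`) -/
theorem gf_Q_m (ha : 0 < a) (hn : 1 ≤ n) {h : ℝ} (hh : 0 < h) : gfQ (gfY a hA) h = a * (g1m A (gfz a n 0 h)).re := by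
  rw [← Complex.re_ofReal_mul, gf_S_m hA ha hn 0 hh, Complex.re_sum]
  unfold gfQ
  refine Finset.sum_congr rfl fun i _ => ?_
  rw [ct_inv_re, sub_zero]

/-- LEAF K6 (`IsHermitian.roots_charpoly_eq_eigenvalues`, `Multiset.map_map`) -/
theorem gf_L_gx (ρ : ℝ) (x : Fin n × Fin n → ℝ) : gfL (gfY (Real.pi * ρ) (g1_goe_herm x)) = gxY ρ x := by
  unfold gfL gxY tpSpecW gfY
  rw [(g1_goe_herm x).roots_charpoly_eq_eigenvalues, Multiset.map_map]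
  rfl

end link

/-! ## 7. algebra of the quadratic equation -/

/-- LEAF A1 -/
theorem gf_alg_lo {z m : ℂ} (hE : |z.re| ≤ 1) (hη : z.im ≤ 1) (hm : 0 ≤ m.im) : 1 / 3 - 2 * ‖1 + z * m + m ^ 2‖ ≤ m.im := by
  have hre : (1 + z * m + m ^ 2).re ≤ ‖1 + z * m + m ^ 2‖ := Complex.re_le_norm _
  have hp : 0 ≤ ‖1 + z * m + m ^ 2‖ := norm_nonneg _
  have e1 : (1 + z * m + m ^ 2).re = 1 + (z.re * m.re - z.im * m.im) + (m.re * m.re - m.im * m.im) := by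
    simp [sq, Complex.add_re, Complex.mul_re]
  rw [e1] at hre
  set p := ‖1 + z * m + m ^ 2‖
  obtain ⟨hE1, hE2⟩ := abs_le.1 hE
  have h1 : (3 : ℝ) / 4 ≤ 1 + z.re * m.re + m.re * m.re := by nlinarith [sq_nonneg (m.re + z.re / 2)]
  have h2 : z.im * m.im ≤ m.im := by nlinarith
  by_contra hc
  push Not at hc
  have h3 : m.im * m.im ≤ 1 / 3 * m.im := by nlinarith
  nlinarith

/-- LEAF A2 -/
theorem gf_alg_as {z m m' : ℂ} (hη : 0 ≤ z.im) (hm : 0 ≤ m.im) (hm' : 0 ≤ m'.im) :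
    |m.im - m'.im| * (m.im + m'.im) ≤ ‖1 + z * m + m ^ 2‖ + ‖1 + (-(starRingEnd ℂ) z) * m' + m' ^ 2‖ := by
  set mt : ℂ := -(starRingEnd ℂ) m' with hmt
  have key : (m - mt) * (z + m + mt) = (1 + z * m + m ^ 2) - (starRingEnd ℂ) (1 + (-(starRingEnd ℂ) z) * m' + m' ^ 2) := by
    simp only [hmt, map_add, map_mul, map_neg, map_one, map_pow, Complex.conj_conj]
    ring
  have h1 : |m.im - m'.im| ≤ ‖m - mt‖ := by
    have := Complex.abs_im_le_norm (m - mt)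
    have e : (m - mt).im = m.im - m'.im := by simp [hmt, sub_eq_add_neg]
    rwa [e] at this
  have h2 : m.im + m'.im ≤ ‖z + m + mt‖ := by
    have := Complex.im_le_norm (z + m + mt)
    have e : (z + m + mt).im = z.im + m.im + m'.im := by simp [hmt]
    rw [e] at this
    linarith
  calc |m.im - m'.im| * (m.im + m'.im) ≤ ‖m - mt‖ * ‖z + m + mt‖ := mul_le_mul h1 h2 (by linarith) (norm_nonneg _)
    _ = ‖(1 + z * m + m ^ 2) - (starRingEnd ℂ) (1 + (-(starRingEnd ℂ) z) * m' + m' ^ 2)‖ := by rw [← norm_mul, key]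
    _ ≤ ‖1 + z * m + m ^ 2‖ + ‖(starRingEnd ℂ) (1 + (-(starRingEnd ℂ) z) * m' + m' ^ 2)‖ := norm_sub_le _ _
    _ = _ := by rw [Complex.norm_conj]

/-- LEAF A3 -/
theorem gf_alg_re {z m : ℂ} (hE : z.re = 0) (hη : 0 ≤ z.im) (hm : 0 ≤ m.im) : |m.re| * (2 * m.im) ≤ ‖1 + z * m + m ^ 2‖ := by
  have him : |(1 + z * m + m ^ 2).im| ≤ ‖1 + z * m + m ^ 2‖ := Complex.abs_im_le_norm _
  have e1 : (1 + z * m + m ^ 2).im = m.re * (z.im + 2 * m.im) := by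
    simp [sq, Complex.add_im, Complex.mul_im, hE]
    ring
  rw [e1, abs_mul, abs_of_nonneg (by linarith : 0 ≤ z.im + 2 * m.im)] at him
  refine le_trans ?_ him
  exact mul_le_mul_of_nonneg_left (by linarith) (abs_nonneg _)

/-! ## 8. the good event implies the regularity of the scale -/

section good

variable {n : ℕ} {A : Matrix (Fin n) (Fin n) ℝ} (hA : A.IsHermitian) {a : ℝ}

/-- LEAF G1 (`gf_I_m`, `g1_m_le_P`, `Complex.im_le_norm`) -/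
theorem gf_pt_up (ha : 0 < a) (hn : 1 ≤ n) (e : ℝ) {h : ℝ} (hh : 0 < h) (hz : ‖gfz a n e h‖ ≤ 2) :
    gfI (gfY a hA) e h ≤ a * (4 + ‖g1P A (gfz a n e h)‖) := by
  rw [gf_I_m hA ha hn e hh]
  refine mul_le_mul_of_nonneg_left ?_ ha.le
  exact (Complex.im_le_norm _).trans (g1_m_le_P hz)

/-- LEAF G2 (`gf_I_m`, `gf_alg_lo`, `g1_m_im_nonneg`) -/
theorem gf_pt_lo (ha : 0 < a) (hn : 1 ≤ n) (e : ℝ) {h : ℝ} (hh : 0 < h) (h1 : |(gfz a n e h).re| ≤ 1) (h2 : (gfz a n e h).im ≤ 1) :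
    a * (1 / 3 - 2 * ‖g1P A (gfz a n e h)‖) ≤ gfI (gfY a hA) e h := by
  have hn0 : (0 : ℝ) < n := by exact_mod_cast hn
  have hz : 0 < (gfz a n e h).im := by
    rw [gf_z_im]
    positivity
  rw [gf_I_m hA ha hn e hh]
  refine mul_le_mul_of_nonneg_left ?_ ha.le
  exact gf_alg_lo h1 h2 (g1_m_im_nonneg hA hz)

/-- LEAF G3 (`gf_I_m`, `gf_alg_as`, `gf_z_neg`) -/
theorem gf_pt_as (ha : 0 < a) (hn : 1 ≤ n) (e : ℝ) {h : ℝ} (hh : 0 < h) :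
    |gfI (gfY a hA) e h - gfI (gfY a hA) (-e) h| * (gfI (gfY a hA) e h + gfI (gfY a hA) (-e) h)
      ≤ a ^ 2 * (‖g1P A (gfz a n e h)‖ + ‖g1P A (gfz a n (-e) h)‖) := by
  have hn0 : (0 : ℝ) < n := by exact_mod_cast hn
  have hz : ∀ e', 0 < (gfz a n e' h).im := by
    intro e'
    rw [gf_z_im]
    positivity
  rw [gf_I_m hA ha hn e hh, gf_I_m hA ha hn (-e) hh]
  have key := gf_alg_as (z := gfz a n e h) (m := g1m A (gfz a n e h)) (m' := g1m A (gfz a n (-e) h)) (hz e).le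
    (g1_m_im_nonneg hA (hz e)) (g1_m_im_nonneg hA (hz (-e)))
  rw [← gf_z_neg] at key
  have e1 : |a * (g1m A (gfz a n e h)).im - a * (g1m A (gfz a n (-e) h)).im| * (a * (g1m A (gfz a n e h)).im + a * (g1m A (gfz a n (-e) h)).im)
      = a ^ 2 * (|(g1m A (gfz a n e h)).im - (g1m A (gfz a n (-e) h)).im| * ((g1m A (gfz a n e h)).im + (g1m A (gfz a n (-e) h)).im)) := by
    rw [← mul_sub, abs_mul, abs_of_pos ha]
    ring
  rw [e1]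
  exact mul_le_mul_of_nonneg_left key (by positivity)

/-- LEAF G4 (`round (e/σ)`, `abs_sub_round`) -/
theorem gf_round (e : ℝ) {σ : ℝ} (hσ : 0 < σ) (G : ℕ) (he : |e| ≤ G * σ) : ∃ g : ℤ, |g| ≤ (G : ℤ) ∧ |e - g * σ| ≤ σ / 2 := by
  have h1 := abs_sub_round (e / σ)
  have h2 : |e / σ| ≤ G := by rw [abs_div, abs_of_pos hσ, div_le_iff₀ hσ]; exact he
  refine ⟨round (e / σ), ?_, ?_⟩
  · have h3 : |((round (e / σ) : ℤ) : ℝ)| ≤ G + 1 / 2 := by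
      have := abs_sub_abs_le_abs_sub ((round (e / σ) : ℤ) : ℝ) (e / σ)
      rw [abs_sub_comm] at this
      linarith
    have h4 : ((|round (e / σ)| : ℤ) : ℝ) < ((G + 1 : ℤ) : ℝ) := by
      push_cast
      linarith
    have h5 : |round (e / σ)| < (G : ℤ) + 1 := by exact_mod_cast h4
    omega
  · have h3 : e - (round (e / σ) : ℤ) * σ = (e / σ - round (e / σ)) * σ := by field_simp
    rw [h3, abs_mul, abs_of_pos hσ]
    nlinarith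

theorem gf_n_pos (ha : 0 < a) {k : ℕ} (hk : 1 ≤ k) (hkn : 2 * a * (k : ℝ) ^ 8 ≤ n) : 1 ≤ n ∧ a / n * (2 * (k : ℝ) ^ 8) ≤ 1 := by
  have hk1 : (1 : ℝ) ≤ k := by exact_mod_cast hk
  have h0 : 0 < 2 * a * (k : ℝ) ^ 8 := by positivity
  have hn0 : (0 : ℝ) < n := lt_of_lt_of_le h0 hkn
  refine ⟨by exact_mod_cast hn0, ?_⟩
  rw [div_mul_eq_mul_div, div_le_one hn0]
  linarith

theorem gf_pow_le {k : ℕ} (hk : 1 ≤ k) {i j : ℕ} (hij : i ≤ j) : (k : ℝ) ^ i ≤ (k : ℝ) ^ j :=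
  pow_le_pow_right₀ (by exact_mod_cast hk) hij

theorem gf_lip_use {I I' r r₀ : ℝ} (h : |I - I'| ≤ r * (I + I')) (hI : 0 ≤ I) (hI' : 0 ≤ I') (hr : r ≤ r₀) : |I - I'| ≤ r₀ * (I + I') :=
  h.trans (mul_le_mul_of_nonneg_right hr (by linarith))

/-- LEAF G5: `gf_round` (`σ = k⁶`, `G = k²`), G1 at the grid point (`≤ 5a`; `‖z‖ ≤ (a/n) 2k⁸ ≤ 1`), `gf_lip` with `r ≤ 1/4`: `I(e) ≤ (5/3) I(e_g)` -/
theorem gf_good_up (ha : 0 < a) {k : ℕ} (hk : 1 ≤ k) (hkn : 2 * a * (k : ℝ) ^ 8 ≤ n) (hg : GfGood a A k) (e : ℝ) (he : |e| ≤ (k : ℝ) ^ 8) :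
    gfI (gfY a hA) e ((k : ℝ) ^ 6) ≤ 10 * a := by
  obtain ⟨hn, hz1⟩ := gf_n_pos ha hk hkn
  have hk1 : (1 : ℝ) ≤ k := by exact_mod_cast hk
  have hk0 : (0 : ℝ) < k := by linarith
  have h6 : (0 : ℝ) < (k : ℝ) ^ 6 := by positivity
  obtain ⟨g, hg1, hg2⟩ := gf_round e h6 (k ^ 2) (by push_cast; rw [← pow_add]; exact he)
  have hg1' : |g| ≤ (k : ℤ) ^ 2 := by exact_mod_cast hg1
  have hgR : |(g : ℝ)| ≤ (k : ℝ) ^ 2 := by exact_mod_cast hg1'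
  have hP := hg.2.1 g hg1'
  have hzn : ‖gfz a n ((g : ℝ) * (k : ℝ) ^ 6) ((k : ℝ) ^ 6)‖ ≤ 2 := by
    refine (gf_z_norm ha n _ _).trans ?_
    have h1 : |(g : ℝ) * (k : ℝ) ^ 6| ≤ (k : ℝ) ^ 8 := by
      rw [abs_mul, abs_of_pos h6]
      calc |(g : ℝ)| * (k : ℝ) ^ 6 ≤ (k : ℝ) ^ 2 * (k : ℝ) ^ 6 := by gcongr
        _ = _ := by ring
    have h2 : |(k : ℝ) ^ 6| ≤ (k : ℝ) ^ 8 := by rw [abs_of_pos h6]; exact gf_pow_le hk (by norm_num)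
    have h3 : a / n * (|(g : ℝ) * (k : ℝ) ^ 6| + |(k : ℝ) ^ 6|) ≤ a / n * (2 * (k : ℝ) ^ 8) := by
      gcongr
      linarith
    linarith
  have hup := gf_pt_up hA ha hn ((g : ℝ) * (k : ℝ) ^ 6) h6 hzn
  have hup' : gfI (gfY a hA) ((g : ℝ) * (k : ℝ) ^ 6) ((k : ℝ) ^ 6) ≤ 5 * a := by nlinarith
  have hl := gf_lip_use (gf_lip (gfY a hA) e ((g : ℝ) * (k : ℝ) ^ 6) h6) (gf_I_nonneg _ _ h6) (gf_I_nonneg _ _ h6) (r₀ := 1 / 4) (by
    rw [div_le_iff₀ (by positivity)]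
    linarith)
  have := (abs_le.1 hl).2
  linarith

/-- LEAF G6 -/
theorem gf_good_up0 (ha : 0 < a) {k : ℕ} (hk : 1 ≤ k) (hkn : 2 * a * (k : ℝ) ^ 8 ≤ n) (hg : GfGood a A k) :
    gfI (gfY a hA) 0 (2 * (k : ℝ) ^ 8) ≤ 10 * a := by
  obtain ⟨hn, hz1⟩ := gf_n_pos ha hk hkn
  have hk1 : (1 : ℝ) ≤ k := by exact_mod_cast hk
  have hk0 : (0 : ℝ) < k := by linarith
  have h8 : (0 : ℝ) < 2 * (k : ℝ) ^ 8 := by positivity
  have hP := hg.2.2.1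
  have hzn : ‖gfz a n 0 (2 * (k : ℝ) ^ 8)‖ ≤ 2 := by
    refine (gf_z_norm ha n _ _).trans ?_
    rw [abs_zero, zero_add, abs_of_pos h8]
    linarith
  have hup := gf_pt_up hA ha hn 0 h8 hzn
  nlinarith

theorem gf_fine_pt (ha : 0 < a) {k : ℕ} (hk : 5 ≤ k) (hkn : 2 * a * (k : ℝ) ^ 8 ≤ n) (hg : GfGood a A k) (g : ℤ) (hg1 : |g| ≤ (k : ℤ) ^ 6) :
    a / 4 ≤ gfI (gfY a hA) (g * (k : ℝ) ^ 2) ((k : ℝ) ^ 4) ∧ gfI (gfY a hA) (g * (k : ℝ) ^ 2) ((k : ℝ) ^ 4) ≤ 5 * a := by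
  obtain ⟨hn, hz1⟩ := gf_n_pos ha (by omega) hkn
  have hk1 : 1 ≤ k := by omega
  have hk5 : (5 : ℝ) ≤ k := by exact_mod_cast hk
  have hk0 : (0 : ℝ) < k := by linarith
  have h4 : (0 : ℝ) < (k : ℝ) ^ 4 := by positivity
  have h2 : (0 : ℝ) < (k : ℝ) ^ 2 := by positivity
  have hn0 : (0 : ℝ) < n := by exact_mod_cast hn
  have hgR : |(g : ℝ)| ≤ (k : ℝ) ^ 6 := by exact_mod_cast hg1
  have hP := hg.1 g hg1
  have hP' : ‖g1P A (gfz a n ((g : ℝ) * (k : ℝ) ^ 2) ((k : ℝ) ^ 4))‖ ≤ 1 / 25 := by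
    refine hP.trans (one_div_le_one_div_of_le (by norm_num) (by nlinarith))
  have he8 : |(g : ℝ) * (k : ℝ) ^ 2| ≤ (k : ℝ) ^ 8 := by
    rw [abs_mul, abs_of_pos h2]
    calc |(g : ℝ)| * (k : ℝ) ^ 2 ≤ (k : ℝ) ^ 6 * (k : ℝ) ^ 2 := by gcongr
      _ = _ := by ring
  have h48 : (k : ℝ) ^ 4 ≤ (k : ℝ) ^ 8 := gf_pow_le hk1 (by norm_num)
  have han : 0 < a / n := by positivity
  have hzn : ‖gfz a n ((g : ℝ) * (k : ℝ) ^ 2) ((k : ℝ) ^ 4)‖ ≤ 2 := by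
    refine (gf_z_norm ha n _ _).trans ?_
    rw [abs_of_pos h4]
    have h3 : a / n * (|(g : ℝ) * (k : ℝ) ^ 2| + (k : ℝ) ^ 4) ≤ a / n * (2 * (k : ℝ) ^ 8) := by
      gcongr
      linarith
    linarith
  have hre : |(gfz a n ((g : ℝ) * (k : ℝ) ^ 2) ((k : ℝ) ^ 4)).re| ≤ 1 := by
    rw [gf_z_re, abs_mul, abs_of_pos han]
    have h3 : a / n * |(g : ℝ) * (k : ℝ) ^ 2| ≤ a / n * (2 * (k : ℝ) ^ 8) := by
      gcongr
      linarith [pow_pos hk0 8]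
    linarith
  have him : (gfz a n ((g : ℝ) * (k : ℝ) ^ 2) ((k : ℝ) ^ 4)).im ≤ 1 := by
    rw [gf_z_im]
    have h3 : a / n * (k : ℝ) ^ 4 ≤ a / n * (2 * (k : ℝ) ^ 8) := by
      gcongr
      linarith [pow_pos hk0 8]
    linarith
  have hlo := gf_pt_lo hA ha hn ((g : ℝ) * (k : ℝ) ^ 2) h4 hre him
  have hup := gf_pt_up hA ha hn ((g : ℝ) * (k : ℝ) ^ 2) h4 hzn
  constructor <;> nlinarith

theorem gf_fine_step {y : Fin n → ℝ} (ha : 0 < a) {k : ℕ} (hk : 5 ≤ k) {e e' : ℝ} (he : |e - e'| ≤ (k : ℝ) ^ 2 / 2)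
    (hup : gfI y e' ((k : ℝ) ^ 4) ≤ 5 * a) : |gfI y e ((k : ℝ) ^ 4) - gfI y e' ((k : ℝ) ^ 4)| ≤ 3 * a / (k : ℝ) ^ 2 := by
  have hk5 : (5 : ℝ) ≤ k := by exact_mod_cast hk
  have hk0 : (0 : ℝ) < k := by linarith
  have h4 : (0 : ℝ) < (k : ℝ) ^ 4 := by positivity
  have h2 : (0 : ℝ) < (k : ℝ) ^ 2 := by positivity
  have h25 : (25 : ℝ) ≤ (k : ℝ) ^ 2 := by nlinarith
  have hI := gf_I_nonneg y e h4
  have hI' := gf_I_nonneg y e' h4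
  have hl := gf_lip_use (gf_lip y e e' h4) hI hI' (r₀ := 1 / (4 * (k : ℝ) ^ 2)) (by
    rw [div_le_div_iff₀ (by positivity) (by positivity)]
    have : (k : ℝ) ^ 4 = (k : ℝ) ^ 2 * (k : ℝ) ^ 2 := by ring
    rw [this]
    nlinarith)
  have hr : 1 / (4 * (k : ℝ) ^ 2) ≤ 1 / 100 := one_div_le_one_div_of_le (by norm_num) (by linarith)
  have hl2 := (abs_le.1 (hl.trans (mul_le_mul_of_nonneg_right hr (by linarith)))).2
  have h6 : gfI y e ((k : ℝ) ^ 4) ≤ 6 * a := by linarith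
  refine hl.trans ?_
  rw [div_mul_eq_mul_div, one_mul, div_le_div_iff₀ (by positivity) h2]
  nlinarith

/-- LEAF G7: at a grid point of the fine grid `a/4 ≤ I ≤ 5a` (`k² ≥ 24`), and for `|e - e_g| ≤ k²/2`: `r = |e - e_g|/(2k⁴) ≤ 1/(4k²)`, `|I(e) - I(e_g)| ≤ r (I(e) + I(e_g))`, so `I(e) ≤ 6a`, `|I(e) - I(e_g)| ≤ 3a/k²` -/
theorem gf_good_fine (ha : 0 < a) {k : ℕ} (hk : 5 ≤ k) (hkn : 2 * a * (k : ℝ) ^ 8 ≤ n) (hg : GfGood a A k) (e : ℝ) (he : |e| ≤ (k : ℝ) ^ 8) :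
    ∃ g : ℤ, |g| ≤ (k : ℤ) ^ 6 ∧ |e - g * (k : ℝ) ^ 2| ≤ (k : ℝ) ^ 2 / 2 ∧ a / 4 ≤ gfI (gfY a hA) (g * (k : ℝ) ^ 2) ((k : ℝ) ^ 4) ∧
      a / 4 ≤ gfI (gfY a hA) (-(g * (k : ℝ) ^ 2)) ((k : ℝ) ^ 4) ∧
      |gfI (gfY a hA) e ((k : ℝ) ^ 4) - gfI (gfY a hA) (g * (k : ℝ) ^ 2) ((k : ℝ) ^ 4)| ≤ 3 * a / (k : ℝ) ^ 2 ∧
      |gfI (gfY a hA) (-e) ((k : ℝ) ^ 4) - gfI (gfY a hA) (-(g * (k : ℝ) ^ 2)) ((k : ℝ) ^ 4)| ≤ 3 * a / (k : ℝ) ^ 2 ∧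
      |gfI (gfY a hA) (g * (k : ℝ) ^ 2) ((k : ℝ) ^ 4) - gfI (gfY a hA) (-(g * (k : ℝ) ^ 2)) ((k : ℝ) ^ 4)| ≤ 4 * a / (k : ℝ) ^ 2 := by
  obtain ⟨hn, hz1⟩ := gf_n_pos ha (by omega) hkn
  have hk5 : (5 : ℝ) ≤ k := by exact_mod_cast hk
  have hk0 : (0 : ℝ) < k := by linarith
  have h4 : (0 : ℝ) < (k : ℝ) ^ 4 := by positivity
  have h2 : (0 : ℝ) < (k : ℝ) ^ 2 := by positivity
  obtain ⟨g, hg1, hg2⟩ := gf_round e h2 (k ^ 6) (by push_cast; rw [← pow_add]; exact he)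
  have hg1' : |g| ≤ (k : ℤ) ^ 6 := by exact_mod_cast hg1
  have hgm : |(-g)| ≤ (k : ℤ) ^ 6 := by rwa [abs_neg]
  obtain ⟨p1, p2⟩ := gf_fine_pt hA ha hk hkn hg g hg1'
  obtain ⟨q1, q2⟩ := gf_fine_pt hA ha hk hkn hg (-g) hgm
  have eneg : (((-g : ℤ) : ℝ)) * (k : ℝ) ^ 2 = -((g : ℝ) * (k : ℝ) ^ 2) := by push_cast; ring
  rw [eneg] at q1 q2
  refine ⟨g, hg1', hg2, p1, q1, gf_fine_step ha hk hg2 p2, gf_fine_step ha hk (by
    have : -e - -((g : ℝ) * (k : ℝ) ^ 2) = -(e - (g : ℝ) * (k : ℝ) ^ 2) := by ring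
    rw [this, abs_neg]; exact hg2) q2, ?_⟩
  have has := gf_pt_as hA ha hn ((g : ℝ) * (k : ℝ) ^ 2) h4
  have hP := hg.1 g hg1'
  have hP' := hg.1 (-g) hgm
  rw [eneg] at hP'
  set I := gfI (gfY a hA) ((g : ℝ) * (k : ℝ) ^ 2) ((k : ℝ) ^ 4)
  set I' := gfI (gfY a hA) (-((g : ℝ) * (k : ℝ) ^ 2)) ((k : ℝ) ^ 4)
  have h5 : |I - I'| * (a / 2) ≤ a ^ 2 * (2 / (k : ℝ) ^ 2) := by
    calc |I - I'| * (a / 2) ≤ |I - I'| * (I + I') := mul_le_mul_of_nonneg_left (by linarith) (abs_nonneg _)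
      _ ≤ _ := has
      _ ≤ a ^ 2 * (2 / (k : ℝ) ^ 2) := by
        refine mul_le_mul_of_nonneg_left ?_ (by positivity)
        have : 2 / (k : ℝ) ^ 2 = 1 / (k : ℝ) ^ 2 + 1 / (k : ℝ) ^ 2 := by ring
        linarith
  have h6 : a ^ 2 * (2 / (k : ℝ) ^ 2) = 4 * a / (k : ℝ) ^ 2 * (a / 2) := by ring
  rw [h6] at h5
  exact le_of_mul_le_mul_right h5 (by positivity)

theorem gf_good_sc (ha : 0 < a) {k : ℕ} (hk : 5 ≤ k) (hkn : 2 * a * (k : ℝ) ^ 8 ≤ n) (hg : GfGood a A k) :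
    GfSc (gfY a hA) (10 * a) (a / 8) (12 * a / (k : ℝ) ^ 2) ((k : ℝ) ^ 4) ((k : ℝ) ^ 6) ((k : ℝ) ^ 8) where
  up := fun e he => gf_good_up hA ha (by omega) hkn hg e he
  up0 := gf_good_up0 hA ha (by omega) hkn hg
  lo := fun e he => by
    obtain ⟨g, -, -, h1, -, h2, -, -⟩ := gf_good_fine hA ha hk hkn hg e he
    have hk5 : (5 : ℝ) ≤ k := by exact_mod_cast hk
    have h3 : 3 * a / (k : ℝ) ^ 2 ≤ a / 8 := by
      have hk2 : (25 : ℝ) ≤ (k : ℝ) ^ 2 := by nlinarith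
      rw [div_le_div_iff₀ (by positivity) (by norm_num)]
      nlinarith [mul_le_mul_of_nonneg_left hk2 ha.le]
    have := (abs_le.1 h2).1
    linarith
  as := fun e he0 he => by
    obtain ⟨g, -, -, -, -, h2, h3, h4⟩ := gf_good_fine hA ha hk hkn hg e (by rwa [abs_of_nonneg he0])
    have e1 : 12 * a / (k : ℝ) ^ 2 = 3 * a / (k : ℝ) ^ 2 + 4 * a / (k : ℝ) ^ 2 + 3 * a / (k : ℝ) ^ 2 + 2 * a / (k : ℝ) ^ 2 := by ring
    have h5 : 0 ≤ 2 * a / (k : ℝ) ^ 2 := by positivity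
    rw [abs_le] at h2 h3 h4 ⊢
    constructor <;> linarith [h2.1, h2.2, h3.1, h3.2, h4.1, h4.2]

/-- LEAF G8 (`gf_Q_m`, `gf_alg_re`, `gf_alg_lo`: `Im m ≥ 1/3 - 2/k ≥ 1/4`, `|Re m| ≤ 2|P| ≤ 2/k`; `√(k¹⁵) ≤ k⁸`) -/
theorem gf_good_re (ha : 0 < a) {k : ℕ} (hk : 24 ≤ k) (hkn : 2 * a * (k : ℝ) ^ 8 ≤ n) (hg : GfGood a A k) :
    |gfQ (gfY a hA) (Real.sqrt ((k : ℝ) ^ 15))| ≤ 2 * a / k := by
  obtain ⟨hn, hz1⟩ := gf_n_pos ha (by omega) hkn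
  have hk1 : 1 ≤ k := by omega
  have hk24 : (24 : ℝ) ≤ k := by exact_mod_cast hk
  have hk0 : (0 : ℝ) < k := by linarith
  have hn0 : (0 : ℝ) < n := by exact_mod_cast hn
  have han : 0 < a / n := by positivity
  have hv : 0 < Real.sqrt ((k : ℝ) ^ 15) := Real.sqrt_pos.2 (by positivity)
  have hv8 : Real.sqrt ((k : ℝ) ^ 15) ≤ (k : ℝ) ^ 8 := by
    rw [Real.sqrt_le_left (by positivity), ← pow_mul]
    exact gf_pow_le hk1 (by norm_num)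
  have hP := hg.2.2.2
  set z := gfz a n 0 (Real.sqrt ((k : ℝ) ^ 15)) with hz
  have hre : z.re = 0 := by rw [hz, gf_z_re, mul_zero]
  have him : z.im = a / n * Real.sqrt ((k : ℝ) ^ 15) := by rw [hz, gf_z_im]
  have him0 : 0 < z.im := by rw [him]; positivity
  have him1 : z.im ≤ 1 := by
    rw [him]
    have h3 : a / n * Real.sqrt ((k : ℝ) ^ 15) ≤ a / n * (2 * (k : ℝ) ^ 8) := by
      gcongr
      linarith [pow_pos hk0 8]
    linarith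
  have hm0 := g1_m_im_nonneg hA him0
  have hlo := gf_alg_lo (z := z) (m := g1m A z) (by rw [hre]; simp) him1 hm0
  have hre' := gf_alg_re (z := z) (m := g1m A z) hre him0.le hm0
  have hPe : ‖1 + z * g1m A z + g1m A z ^ 2‖ ≤ 1 / (k : ℝ) := hP
  have hk' : 1 / (k : ℝ) ≤ 1 / 24 := one_div_le_one_div_of_le (by norm_num) hk24
  have h4 : 1 / 4 ≤ (g1m A z).im := by linarith
  have h5 : |(g1m A z).re| * (1 / 2) ≤ 1 / (k : ℝ) := by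
    calc |(g1m A z).re| * (1 / 2) ≤ |(g1m A z).re| * (2 * (g1m A z).im) := mul_le_mul_of_nonneg_left (by linarith) (abs_nonneg _)
      _ ≤ _ := hre'.trans hPe
  rw [gf_Q_m hA ha hn hv, abs_mul, abs_of_pos ha]
  have h6 : 2 * a / k = a * (2 * (1 / (k : ℝ))) := by ring
  rw [h6]
  exact mul_le_mul_of_nonneg_left (by linarith) ha.le

theorem gf_good_all (ha : 0 < a) {k₀ K : ℕ} (hk0 : 24 ≤ k₀) (hKn : 2 * a * (K : ℝ) ^ 8 ≤ n) (hg : ∀ k, k₀ ≤ k → k ≤ K → GfGood a A k) :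
    GfAll a k₀ K (gfY a hA) := by
  intro k h1 h2
  have hkn : 2 * a * (k : ℝ) ^ 8 ≤ n := by
    refine le_trans ?_ hKn
    have : (k : ℝ) ≤ K := by exact_mod_cast h2
    gcongr
  exact ⟨gf_good_sc hA ha (by omega) hkn (hg k h1 h2), gf_good_re hA ha (by omega) hkn (hg k h1 h2)⟩

end good

/-! ## 9. probability -/

/-- LEAF P1 (Markov from `g1_moment 2`, as in the proof of `g1_prob`: `mul_meas_ge_le_integral_of_nonneg`, `g1_integrable0`, `g1_PP_cont`) -/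
theorem gf_markov : ∃ C u₀ : ℝ, 0 < C ∧ 1 ≤ u₀ ∧ ∀ (n : ℕ) (z : ℂ) (θ : ℝ), 1 ≤ n → ‖z‖ ≤ 2 → u₀ ≤ n * z.im → 0 < θ →
    goeArray n {x | θ < ‖g1P (goeMatrix x) z‖} ≤ ENNReal.ofReal (C * ((n * z.im)⁻¹) ^ 4 / θ ^ 4) := by
  obtain ⟨C, u₀, hC, hu₀, hM⟩ := g1_moment 2 (by norm_num)
  refine ⟨C, u₀, hC, hu₀, fun n z θ hn hz2 hu hθ => ?_⟩
  have hn0 : (0 : ℝ) < n := by exact_mod_cast hn
  have hu0 : 0 < n * z.im := by linarith
  have hz : 0 < z.im := (mul_pos_iff_of_pos_left hn0).1 hu0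
  have hmom := hM n z hn hz2 hu
  have hmk := mul_meas_ge_le_integral_of_nonneg (μ := goeArray n) (f := fun x => ‖g1P (goeMatrix x) z‖ ^ (2 * 2))
    (ae_of_all _ fun x => by positivity) (g1_integrable0 hz (g1_PP_cont 2)) (θ ^ (2 * 2))
  refine (measure_mono (t := {x | θ ^ (2 * 2) ≤ ‖g1P (goeMatrix x) z‖ ^ (2 * 2)}) fun x hx => ?_).trans ?_
  · exact pow_le_pow_left₀ hθ.le (le_of_lt hx) _
  · rw [← ENNReal.ofReal_toReal (measure_ne_top (goeArray n) _)]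
    apply ENNReal.ofReal_le_ofReal
    rw [le_div_iff₀ (by positivity)]
    have := hmk.trans hmom
    norm_num at this ⊢
    rw [mul_comm]
    exact this

theorem gf_bad_pt {C u₀ : ℝ} (hC : 0 < C) (hM : ∀ (n : ℕ) (z : ℂ) (θ : ℝ), 1 ≤ n → ‖z‖ ≤ 2 → u₀ ≤ n * z.im → 0 < θ →
      goeArray n {x | θ < ‖g1P (goeMatrix x) z‖} ≤ ENNReal.ofReal (C * ((n * z.im)⁻¹) ^ 4 / θ ^ 4))
    {a : ℝ} (ha : 0 < a) {k n : ℕ} (hk : 1 ≤ k) (hu : u₀ ≤ a * (k : ℝ) ^ 4) (hkn : 2 * a * (k : ℝ) ^ 8 ≤ n)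
    {e h θ b : ℝ} (hh : (k : ℝ) ^ 4 ≤ h) (heh : |e| + h ≤ 2 * (k : ℝ) ^ 8) (hθ : 0 < θ) (hb : 1 ≤ b * (h * θ) ^ 4) :
    goeArray n {x | θ < ‖g1P (goeMatrix x) (gfz a n e h)‖} ≤ ENNReal.ofReal (C / a ^ 4 * b) := by
  obtain ⟨hn, hz1⟩ := gf_n_pos ha hk hkn
  have hk0 : (0 : ℝ) < k := by exact_mod_cast hk
  have hn0 : (0 : ℝ) < n := by exact_mod_cast hn
  have hh0 : 0 < h := lt_of_lt_of_le (by positivity) hh
  have hnz : n * (gfz a n e h).im = a * h := by rw [gf_z_im]; field_simp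
  have hzn : ‖gfz a n e h‖ ≤ 2 := by
    refine (gf_z_norm ha n _ _).trans ?_
    rw [abs_of_pos hh0]
    have : a / n * (|e| + h) ≤ a / n * (2 * (k : ℝ) ^ 8) := by gcongr
    linarith
  have := hM n (gfz a n e h) θ hn hzn (by rw [hnz]; exact hu.trans (by gcongr)) hθ
  refine this.trans (ENNReal.ofReal_le_ofReal ?_)
  rw [hnz, div_le_iff₀ (by positivity), mul_inv, mul_pow, inv_pow, inv_pow]
  have e1 : C / a ^ 4 * b * θ ^ 4 = C * ((a ^ 4)⁻¹ * (h ^ 4)⁻¹) * (b * (h * θ) ^ 4) := by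
    field_simp
  rw [e1]
  exact le_mul_of_one_le_right (by positivity) hb

theorem gf_union_int {X : Type} [MeasurableSpace X] (μ : Measure X) (S : ℤ → Set X) (G : ℕ) {b : ℝ} (_hb : 0 ≤ b)
    (h : ∀ g : ℤ, |g| ≤ (G : ℤ) → μ (S g) ≤ ENNReal.ofReal b) :
    μ {x | ∃ g : ℤ, |g| ≤ (G : ℤ) ∧ x ∈ S g} ≤ ENNReal.ofReal ((2 * G + 1) * b) := by
  have e : {x | ∃ g : ℤ, |g| ≤ (G : ℤ) ∧ x ∈ S g} = ⋃ g ∈ Finset.Icc (-(G : ℤ)) G, S g := by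
    ext x
    simp only [Set.mem_ofPred_eq, Set.mem_iUnion, Finset.mem_Icc, abs_le, exists_prop]
  rw [e]
  refine (measure_biUnion_finset_le _ _).trans ?_
  refine (Finset.sum_le_card_nsmul _ _ (ENNReal.ofReal b) fun g hg => h g (by rw [abs_le]; exact Finset.mem_Icc.1 hg)).trans ?_
  rw [Int.card_Icc, nsmul_eq_mul, ENNReal.ofReal_mul (by positivity)]
  refine mul_le_mul_left ?_ _
  have : (G : ℤ) + 1 - -(G : ℤ) = ((2 * G + 1 : ℕ) : ℤ) := by push_cast; ring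
  rw [this, Int.toNat_natCast, ← ENNReal.ofReal_natCast]
  push_cast
  exact le_rfl

/-- LEAF P2 (**one scale**): `n Im z = a h`.   Union bound (`measure_biUnion_finset_le` over `g ∈ Finset.Icc (-k⁶) k⁶`, `Int.card_Icc`): fine grid `(2k⁶+1) C (a k⁴)⁻⁴ k⁸ ≤ 3C a⁻⁴ k⁻²`;   coarse grid `(2k²+1) C (a k⁶)⁻⁴`;   `C (2a k⁸)⁻⁴`;
`C (a²k¹⁵)⁻² k⁴`.   `k₂`: `a k₂⁴ ≥ u₀`.   `‖z‖ ≤ (a/n)(k⁸ + k⁸) ≤ 1`. -/
theorem gf_bad_k (a : ℝ) (ha : 0 < a) : ∃ C : ℝ, ∃ k₂ : ℕ, 0 < C ∧ ∀ k n : ℕ, k₂ ≤ k → 2 * a * (k : ℝ) ^ 8 ≤ n →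
    goeArray n {x | ¬ GfGood a (goeMatrix x) k} ≤ ENNReal.ofReal (C / (k : ℝ) ^ 2) := by
  obtain ⟨C, u₀, hC, hu₀, hM⟩ := gf_markov
  obtain ⟨k₂, hk₂⟩ := exists_nat_ge (u₀ / a)
  refine ⟨8 * (C / a ^ 4), max k₂ 1, by positivity, fun k n hk hkn => ?_⟩
  have hk1 : 1 ≤ k := (le_max_right _ _).trans hk
  have hk1' : (1 : ℝ) ≤ k := by exact_mod_cast hk1
  have hk0 : (0 : ℝ) < k := by linarith
  have hu : u₀ ≤ a * (k : ℝ) ^ 4 := by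
    have h1 : u₀ / a ≤ k := hk₂.trans (by exact_mod_cast (le_max_left _ _).trans hk)
    rw [div_le_iff₀' ha] at h1
    have h2 : (k : ℝ) ≤ (k : ℝ) ^ 4 := le_self_pow₀ hk1' (by norm_num)
    exact h1.trans (by gcongr)
  have hD : 0 < C / a ^ 4 := by positivity
  have hv : 0 < Real.sqrt ((k : ℝ) ^ 15) := Real.sqrt_pos.2 (by positivity)
  have hv2 : Real.sqrt ((k : ℝ) ^ 15) ^ 2 = (k : ℝ) ^ 15 := Real.sq_sqrt (by positivity)
  have hv8 : Real.sqrt ((k : ℝ) ^ 15) ≤ (k : ℝ) ^ 8 := by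
    rw [Real.sqrt_le_left (by positivity), ← pow_mul]
    exact gf_pow_le hk1 (by norm_num)
  have hv4 : (k : ℝ) ^ 4 ≤ Real.sqrt ((k : ℝ) ^ 15) := by
    apply Real.le_sqrt_of_sq_le
    rw [← pow_mul]
    exact gf_pow_le hk1 (by norm_num)
  -- the four families
  have b1 := gf_union_int (goeArray n) (fun g => {x | 1 / (k : ℝ) ^ 2 < ‖g1P (goeMatrix x) (gfz a n ((g : ℝ) * (k : ℝ) ^ 2) ((k : ℝ) ^ 4))‖}) (k ^ 6)
    (b := C / a ^ 4 * (1 / (k : ℝ) ^ 8)) (by positivity) (fun g hg => by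
      have hgR : |(g : ℝ)| ≤ (k : ℝ) ^ 6 := by exact_mod_cast hg
      refine gf_bad_pt hC hM ha hk1 hu hkn le_rfl ?_ (by positivity) (le_of_eq ?_)
      · rw [abs_mul, abs_of_pos (by positivity : (0 : ℝ) < (k : ℝ) ^ 2)]
        have h1 : |(g : ℝ)| * (k : ℝ) ^ 2 ≤ (k : ℝ) ^ 6 * (k : ℝ) ^ 2 := by gcongr
        have h2 : (k : ℝ) ^ 4 ≤ (k : ℝ) ^ 8 := gf_pow_le hk1 (by norm_num)
        have h3 : (k : ℝ) ^ 6 * (k : ℝ) ^ 2 = (k : ℝ) ^ 8 := by ring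
        linarith
      · field_simp)
  have b2 := gf_union_int (goeArray n) (fun g => {x | 1 < ‖g1P (goeMatrix x) (gfz a n ((g : ℝ) * (k : ℝ) ^ 6) ((k : ℝ) ^ 6))‖}) (k ^ 2)
    (b := C / a ^ 4 * (1 / (k : ℝ) ^ 24)) (by positivity) (fun g hg => by
      have hgR : |(g : ℝ)| ≤ (k : ℝ) ^ 2 := by exact_mod_cast hg
      refine gf_bad_pt hC hM ha hk1 hu hkn (gf_pow_le hk1 (by norm_num)) ?_ (by positivity) (le_of_eq ?_)
      · rw [abs_mul, abs_of_pos (by positivity : (0 : ℝ) < (k : ℝ) ^ 6)]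
        have h1 : |(g : ℝ)| * (k : ℝ) ^ 6 ≤ (k : ℝ) ^ 2 * (k : ℝ) ^ 6 := by gcongr
        have h2 : (k : ℝ) ^ 6 ≤ (k : ℝ) ^ 8 := gf_pow_le hk1 (by norm_num)
        have h3 : (k : ℝ) ^ 2 * (k : ℝ) ^ 6 = (k : ℝ) ^ 8 := by ring
        linarith
      · field_simp)
  have b3 : goeArray n {x | 1 < ‖g1P (goeMatrix x) (gfz a n 0 (2 * (k : ℝ) ^ 8))‖} ≤ ENNReal.ofReal (C / a ^ 4 * (1 / (k : ℝ) ^ 2)) := by
    refine gf_bad_pt hC hM ha hk1 hu hkn ?_ (by simp) one_pos ?_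
    · have := gf_pow_le hk1 (by norm_num : 4 ≤ 8)
      linarith [pow_pos hk0 8]
    · rw [mul_one, div_mul_eq_mul_div, one_mul, le_div_iff₀ (by positivity), one_mul, mul_pow, ← pow_mul]
      have := gf_pow_le hk1 (by norm_num : 2 ≤ 8 * 4)
      nlinarith [pow_pos hk0 (8 * 4)]
  have b4 : goeArray n {x | 1 / (k : ℝ) < ‖g1P (goeMatrix x) (gfz a n 0 (Real.sqrt ((k : ℝ) ^ 15)))‖} ≤ ENNReal.ofReal (C / a ^ 4 * (1 / (k : ℝ) ^ 2)) := by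
    refine gf_bad_pt hC hM ha hk1 hu hkn hv4 ?_ (by positivity) ?_
    · rw [abs_zero, zero_add]
      linarith [pow_pos hk0 8]
    · have e1 : (Real.sqrt ((k : ℝ) ^ 15) * (1 / (k : ℝ))) ^ 4 = (k : ℝ) ^ 26 := by
        rw [mul_pow, (by ring : Real.sqrt ((k : ℝ) ^ 15) ^ 4 = (Real.sqrt ((k : ℝ) ^ 15) ^ 2) ^ 2), hv2]
        field_simp
      rw [e1, div_mul_eq_mul_div, one_mul, le_div_iff₀ (by positivity), one_mul]
      exact gf_pow_le hk1 (by norm_num)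
  -- arithmetic of the four bounds
  have c1 : (2 * ((k ^ 6 : ℕ) : ℝ) + 1) * (C / a ^ 4 * (1 / (k : ℝ) ^ 8)) ≤ 3 * (C / a ^ 4) / (k : ℝ) ^ 2 := by
    push_cast
    have h6 : (1 : ℝ) ≤ (k : ℝ) ^ 6 := one_le_pow₀ hk1'
    have e1 : 3 * (C / a ^ 4) / (k : ℝ) ^ 2 = (3 * (k : ℝ) ^ 6) * (C / a ^ 4 * (1 / (k : ℝ) ^ 8)) := by field_simp
    rw [e1]
    exact mul_le_mul_of_nonneg_right (by linarith) (by positivity)
  have c2 : (2 * ((k ^ 2 : ℕ) : ℝ) + 1) * (C / a ^ 4 * (1 / (k : ℝ) ^ 24)) ≤ 3 * (C / a ^ 4) / (k : ℝ) ^ 2 := by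
    push_cast
    have h2 : (1 : ℝ) ≤ (k : ℝ) ^ 2 := one_le_pow₀ hk1'
    have h22 : (1 : ℝ) ≤ (k : ℝ) ^ 20 := one_le_pow₀ hk1'
    have e1 : 3 * (C / a ^ 4) / (k : ℝ) ^ 2 = (3 * (k : ℝ) ^ 2 * (k : ℝ) ^ 20) * (C / a ^ 4 * (1 / (k : ℝ) ^ 24)) := by field_simp
    rw [e1]
    refine mul_le_mul_of_nonneg_right ?_ (by positivity)
    nlinarith
  have hsub : {x : Fin n × Fin n → ℝ | ¬ GfGood a (goeMatrix x) k} ⊆
      (({x | ∃ g : ℤ, |g| ≤ ((k ^ 6 : ℕ) : ℤ) ∧ x ∈ {x | 1 / (k : ℝ) ^ 2 < ‖g1P (goeMatrix x) (gfz a n ((g : ℝ) * (k : ℝ) ^ 2) ((k : ℝ) ^ 4))‖}}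
        ∪ {x | ∃ g : ℤ, |g| ≤ ((k ^ 2 : ℕ) : ℤ) ∧ x ∈ {x | 1 < ‖g1P (goeMatrix x) (gfz a n ((g : ℝ) * (k : ℝ) ^ 6) ((k : ℝ) ^ 6))‖}})
        ∪ {x | 1 < ‖g1P (goeMatrix x) (gfz a n 0 (2 * (k : ℝ) ^ 8))‖})
        ∪ {x | 1 / (k : ℝ) < ‖g1P (goeMatrix x) (gfz a n 0 (Real.sqrt ((k : ℝ) ^ 15)))‖} := by
    intro x hx
    by_contra hc
    simp only [Set.mem_union, Set.mem_ofPred_eq, not_or, not_exists, not_and, not_lt] at hc
    refine hx ⟨fun g hg => hc.1.1.1 g (by exact_mod_cast hg), fun g hg => hc.1.1.2 g (by exact_mod_cast hg), hc.1.2, hc.2⟩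
  refine (measure_mono hsub).trans ?_
  refine (measure_union_le _ _).trans ?_
  refine (add_le_add ((measure_union_le _ _).trans (add_le_add ((measure_union_le _ _).trans (add_le_add b1 b2)) b3)) b4).trans ?_
  rw [← ENNReal.ofReal_add (by positivity) (by positivity), ← ENNReal.ofReal_add (by positivity) (by positivity),
    ← ENNReal.ofReal_add (by positivity) (by positivity)]
  refine ENNReal.ofReal_le_ofReal ?_
  have e8 : 8 * (C / a ^ 4) / (k : ℝ) ^ 2 = 3 * (C / a ^ 4) / (k : ℝ) ^ 2 + 3 * (C / a ^ 4) / (k : ℝ) ^ 2 + C / a ^ 4 * (1 / (k : ℝ) ^ 2) + C / a ^ 4 * (1 / (k : ℝ) ^ 2) := by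
    ring
  rw [e8]
  linarith

theorem gf_sum_sq_aux {k₀ : ℕ} (hk : 1 ≤ k₀) (m : ℕ) : ∑ k ∈ Finset.Icc k₀ (k₀ + m), 1 / (k : ℝ) ^ 2 ≤ 2 / (k₀ : ℝ) - 1 / ((k₀ + m : ℕ) : ℝ) := by
  have hk0 : (1 : ℝ) ≤ k₀ := by exact_mod_cast hk
  induction m with
  | zero =>
    simp only [add_zero, Finset.Icc_self, Finset.sum_singleton]
    have h1 : 1 / (k₀ : ℝ) ^ 2 ≤ 1 / (k₀ : ℝ) := by
      apply one_div_le_one_div_of_le (by positivity)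
      nlinarith
    have h2 : 2 / (k₀ : ℝ) - 1 / (k₀ : ℝ) = 1 / (k₀ : ℝ) := by ring
    linarith
  | succ m ih =>
    rw [← add_assoc, Finset.sum_Icc_succ_top (by omega : k₀ ≤ k₀ + m + 1)]
    have hq : (0 : ℝ) < ((k₀ + m : ℕ) : ℝ) := by
      have : 0 < k₀ + m := by omega
      exact_mod_cast this
    have h1 : 1 / (((k₀ + m + 1 : ℕ)) : ℝ) ^ 2 ≤ 1 / ((k₀ + m : ℕ) : ℝ) - 1 / (((k₀ + m + 1 : ℕ)) : ℝ) := by
      rw [Nat.cast_succ]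
      generalize ((k₀ + m : ℕ) : ℝ) = q at hq
      rw [div_sub_div _ _ hq.ne' (by positivity), div_le_div_iff₀ (by positivity) (by positivity)]
      nlinarith
    linarith

/-- LEAF P3 (telescoping `1/k² ≤ 1/(k-1) - 1/k`, first term `1/k₀² ≤ 1/k₀`) -/
theorem gf_sum_sq {k₀ K : ℕ} (hk : 1 ≤ k₀) : ∑ k ∈ Finset.Icc k₀ K, 1 / (k : ℝ) ^ 2 ≤ 2 / (k₀ : ℝ) := by
  rcases le_or_gt k₀ K with h | h
  · obtain ⟨m, rfl⟩ := Nat.exists_eq_add_of_le h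
    have := gf_sum_sq_aux hk m
    have h2 : (0 : ℝ) ≤ 1 / ((k₀ + m : ℕ) : ℝ) := by positivity
    linarith
  · rw [Finset.Icc_eq_empty (by omega), Finset.sum_empty]
    positivity

/-- LEAF P4 (union bound over the scales: `measure_biUnion_finset_le`, `ENNReal.ofReal_sum_of_nonneg`, P2, P3) -/
theorem gf_bad_all (a : ℝ) (ha : 0 < a) : ∃ C : ℝ, ∃ k₂ : ℕ, 0 < C ∧ ∀ k₀ K n : ℕ, k₂ ≤ k₀ → 2 * a * (K : ℝ) ^ 8 ≤ n →
    goeArray n {x | ∃ k, k₀ ≤ k ∧ k ≤ K ∧ ¬ GfGood a (goeMatrix x) k} ≤ ENNReal.ofReal (C / (k₀ : ℝ)) := by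
  obtain ⟨C, k₂, hC, h⟩ := gf_bad_k a ha
  refine ⟨2 * C, max k₂ 1, by positivity, fun k₀ K n hk hKn => ?_⟩
  have hk1 : 1 ≤ k₀ := (le_max_right _ _).trans hk
  have e : {x : Fin n × Fin n → ℝ | ∃ k, k₀ ≤ k ∧ k ≤ K ∧ ¬ GfGood a (goeMatrix x) k} = ⋃ k ∈ Finset.Icc k₀ K, {x | ¬ GfGood a (goeMatrix x) k} := by
    ext x
    simp only [Set.mem_ofPred_eq, Set.mem_iUnion, Finset.mem_Icc, exists_prop, and_assoc]
  rw [e]
  refine (measure_biUnion_finset_le _ _).trans ?_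
  refine (Finset.sum_le_sum fun k hk' => h k n (((le_max_left _ _).trans hk).trans (Finset.mem_Icc.1 hk').1) ?_).trans ?_
  · refine le_trans ?_ hKn
    have : (k : ℝ) ≤ K := by exact_mod_cast (Finset.mem_Icc.1 hk').2
    gcongr
  · rw [← ENNReal.ofReal_sum_of_nonneg fun k _ => by positivity]
    refine ENNReal.ofReal_le_ofReal ?_
    have := gf_sum_sq (k₀ := k₀) (K := K) hk1
    have e2 : ∑ k ∈ Finset.Icc k₀ K, C / (k : ℝ) ^ 2 = C * ∑ k ∈ Finset.Icc k₀ K, 1 / (k : ℝ) ^ 2 := by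
      rw [Finset.mul_sum]
      exact Finset.sum_congr rfl fun k _ => by ring
    rw [e2]
    calc C * ∑ k ∈ Finset.Icc k₀ K, 1 / (k : ℝ) ^ 2 ≤ C * (2 / (k₀ : ℝ)) := mul_le_mul_of_nonneg_left this hC.le
      _ = _ := by ring

/-! ## 10. the exit -/

/-- LEAF E1: `K` = the largest integer with `2aK⁸ ≤ n` (`Nat.findGreatest` or `⌊(n/(2a))^{1/8}⌋₊`); it tends to infinity with `n` -/
theorem gf_K_exists {a : ℝ} (ha : 0 < a) (k₀ : ℕ) : ∀ᶠ n : ℕ in atTop, ∃ K : ℕ, k₀ ≤ K ∧ 2 * a * (K : ℝ) ^ 8 ≤ n ∧ (n : ℝ) ≤ 2 * a * ((K : ℝ) + 1) ^ 8 := by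
  classical
  obtain ⟨N, hN⟩ := exists_nat_ge (2 * a * (k₀ : ℝ) ^ 8)
  filter_upwards [eventually_ge_atTop N] with n hn
  have hn' : 2 * a * (k₀ : ℝ) ^ 8 ≤ n := hN.trans (by exact_mod_cast hn)
  have hex : ∃ K : ℕ, (n : ℝ) < 2 * a * ((K : ℝ) + 1) ^ 8 := by
    obtain ⟨K, hK⟩ := exists_nat_gt ((n : ℝ) / (2 * a))
    refine ⟨K, ?_⟩
    rw [div_lt_iff₀ (by positivity)] at hK
    have h1 : (K : ℝ) ≤ ((K : ℝ) + 1) ^ 8 := by
      have h0 : (1 : ℝ) ≤ (K : ℝ) + 1 := by have : (0 : ℝ) ≤ K := Nat.cast_nonneg K; linarith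
      have := le_self_pow₀ h0 (by norm_num : (8 : ℕ) ≠ 0)
      linarith
    nlinarith
  refine ⟨Nat.find hex, ?_, ?_, (Nat.find_spec hex).le⟩
  · by_contra hc
    rw [not_le] at hc
    have h1 := Nat.find_spec hex
    have h2 : ((Nat.find hex : ℕ) : ℝ) + 1 ≤ k₀ := by exact_mod_cast hc
    have h3 : (((Nat.find hex : ℕ) : ℝ) + 1) ^ 8 ≤ (k₀ : ℝ) ^ 8 := pow_le_pow_left₀ (by positivity) h2 8
    nlinarith
  · rcases Nat.eq_zero_or_pos (Nat.find hex) with h0 | h0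
    · rw [h0]; simp
    · have h1 := Nat.find_min hex (Nat.sub_lt h0 one_pos)
      rw [not_lt] at h1
      have h2 : (((Nat.find hex - 1 : ℕ) : ℝ) + 1) = ((Nat.find hex : ℕ) : ℝ) := by
        have : Nat.find hex - 1 + 1 = Nat.find hex := Nat.sub_add_cancel h0
        exact_mod_cast this
      rwa [h2] at h1

/-- **EXIT G1'** -/
theorem gf_main (ρ : ℝ) (hρ : 0 < ρ) : ∃ c C : ℝ, 0 < c ∧ 0 < C ∧ ∀ ε : ℝ, 0 < ε → ∃ J₀ : ℕ, ∀ᶠ n : ℕ in atTop,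
    goeArray n {x | ¬ GfReg c C J₀ n (gxY ρ x)} ≤ ENNReal.ofReal ε := by
  obtain ⟨a, ha'⟩ : ∃ a : ℝ, a = Real.pi * ρ := ⟨_, rfl⟩
  have ha : 0 < a := by rw [ha']; exact mul_pos Real.pi_pos hρ
  obtain ⟨C', k₂, hC', hbad⟩ := gf_bad_all a ha
  refine ⟨gfc a, max (gfCs a) (max (26000 / a) (gfCp a)), by unfold gfc; positivity,
    lt_max_of_lt_right (lt_max_of_lt_left (by positivity)), fun ε hε => ?_⟩
  -- the first scale
  obtain ⟨k₀, h1, h2, h3, h4, h5⟩ : ∃ k₀ : ℕ, k₂ ≤ k₀ ∧ 24 ≤ k₀ ∧ 4 * gfD a + 4640 ≤ (k₀ : ℝ) ^ 2 ∧ 64 ≤ a * (k₀ : ℝ) ^ 8 ∧ C' / (k₀ : ℝ) ≤ ε := by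
    obtain ⟨m1, hm1⟩ := exists_nat_ge (4 * gfD a + 4640)
    obtain ⟨m2, hm2⟩ := exists_nat_ge (64 / a)
    obtain ⟨m3, hm3⟩ := exists_nat_ge (C' / ε)
    refine ⟨k₂ + 24 + m1 + m2 + m3, by omega, by omega, ?_, ?_, ?_⟩
    · have h0 : (1 : ℝ) ≤ ((k₂ + 24 + m1 + m2 + m3 : ℕ) : ℝ) := by
        have : 1 ≤ k₂ + 24 + m1 + m2 + m3 := by omega
        exact_mod_cast this
      have h6 : (m1 : ℝ) ≤ ((k₂ + 24 + m1 + m2 + m3 : ℕ) : ℝ) := by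
        have : m1 ≤ k₂ + 24 + m1 + m2 + m3 := by omega
        exact_mod_cast this
      calc 4 * gfD a + 4640 ≤ (m1 : ℝ) := hm1
        _ ≤ ((k₂ + 24 + m1 + m2 + m3 : ℕ) : ℝ) := h6
        _ ≤ ((k₂ + 24 + m1 + m2 + m3 : ℕ) : ℝ) ^ 2 := le_self_pow₀ h0 (by norm_num)
    · have h0 : (1 : ℝ) ≤ ((k₂ + 24 + m1 + m2 + m3 : ℕ) : ℝ) := by
        have : 1 ≤ k₂ + 24 + m1 + m2 + m3 := by omega
        exact_mod_cast this
      have h6 : (m2 : ℝ) ≤ ((k₂ + 24 + m1 + m2 + m3 : ℕ) : ℝ) := by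
        have : m2 ≤ k₂ + 24 + m1 + m2 + m3 := by omega
        exact_mod_cast this
      have h7 : 64 / a ≤ ((k₂ + 24 + m1 + m2 + m3 : ℕ) : ℝ) ^ 8 := (hm2.trans h6).trans (le_self_pow₀ h0 (by norm_num))
      rw [div_le_iff₀ ha] at h7
      linarith
    · have h0 : (0 : ℝ) < ((k₂ + 24 + m1 + m2 + m3 : ℕ) : ℝ) := by
        have : 0 < k₂ + 24 + m1 + m2 + m3 := by omega
        exact_mod_cast this
      have h6 : (m3 : ℝ) ≤ ((k₂ + 24 + m1 + m2 + m3 : ℕ) : ℝ) := by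
        have : m3 ≤ k₂ + 24 + m1 + m2 + m3 := by omega
        exact_mod_cast this
      have h7 := hm3.trans h6
      rw [div_le_iff₀ hε] at h7
      rw [div_le_iff₀ h0]
      linarith
  refine ⟨gfJ a k₀, ?_⟩
  filter_upwards [gf_K_exists ha k₀, eventually_ge_atTop (1000 * gfJ a k₀)] with n hn hnJ
  obtain ⟨K, hK, hK1, hK2⟩ := hn
  refine le_trans (measure_mono ?_) ((hbad k₀ K n h1 hK1).trans (ENNReal.ofReal_le_ofReal h5))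
  intro x hx
  by_contra hcon
  apply hx
  have hg : ∀ k, k₀ ≤ k → k ≤ K → GfGood a (goeMatrix x) k := by
    intro k hk1 hk2
    by_contra hb
    exact hcon ⟨k, hk1, hk2, hb⟩
  have hall := gf_good_all (g1_goe_herm x) ha h2 hK1 hg
  have hdet := gf_det ha (by omega) h3 h4 hK (by omega) (by rwa [Fintype.card_fin]) (by rwa [Fintype.card_fin]) hall
  rw [Fintype.card_fin] at hdet
  have e := gf_L_gx ρ x
  rw [← ha'] at e
  rwa [e] at hdet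

end Claimed.Agent.R287
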