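-- KEEP
import Claimed.Agent.R287.Defs
import Claimed.Agent.R287.ResC
import Claimed.Agent.R287.Qf
import Claimed.Agent.R287.Goe233

/-!
# R287 / unit S5 (P1 Sec. 5, head helper287) / part Alg

Local definitions of the unit, P1 Prop 5.1 on finite dimensional laws, Woodbury, the exact facts F1-F3.
Result of this file: `s5_exact` (T1).   Hand proofs: `origin/helper287:notes/R287/A8_helper287.md`
(F1-F7, K4, K5, K7, sec. 6).   Everything is about explicit finite matrices / finite dimensional integrals.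

ASSEMBLY OF THE UNIT (all parametrised by the cut `K`; `r = K^100`, `β = √(Δ/4r)`):
  `a_L = E Φ(m_r + Tr(D_L - z)⁻¹)`                        (`s5A`)
  `c_{r,L} = E Φ(m_r + Tr(D_L + β(P₊P₋ᵀ + P₋P₊ᵀ) - z)⁻¹)`   (`s5C`)
  `f_K = E Φ(m_r + Tr(D_K + √Δ W - z)⁻¹)`                  (`s5F`)
  T1 `s5_exact` : `c_{r,L} - a_L → 0` (`L → ∞`, every `r`)        [this file]
  T2 `s5_cut`   : `|c_{r,L} - c_{r,K}| ≤ ε` for `L ≥ L₀(K)`       [S5Cut]
  T3 `s5_goe`   : `|c_{r,K} - f_K| ≤ ε`                           [S5]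
  T4 `s5_A_cauchy` : `|a_L - a_K| ≤ ε`, `L ≥ K`                   [S5]
-/

set_option autoImplicit false
open MeasureTheory ProbabilityTheory Matrix Filter Topology
open scoped ComplexOrder

namespace Claimed.Agent.R287

/-! ## 0. Local definitions of the unit -/

instance s5MatSecondCountable {ι κ R : Type} [Countable ι] [Countable κ] [TopologicalSpace R]
    [SecondCountableTopology R] : SecondCountableTopology (Matrix ι κ R) :=
  inferInstanceAs (SecondCountableTopology (ι → κ → R))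

instance s5MatMetrizable {ι κ R : Type} [Finite ι] [Finite κ] [TopologicalSpace R]
    [TopologicalSpace.PseudoMetrizableSpace R] :
    TopologicalSpace.PseudoMetrizableSpace (Matrix ι κ R) :=
  inferInstanceAs (TopologicalSpace.PseudoMetrizableSpace (ι → κ → R))

instance s5StBorel (k b : ℕ) : BorelSpace (Fin b → SwSt k) := Pi.borelSpace

/-- the bilinear noise `P₊ P₋ᵀ + P₋ P₊ᵀ` -/
def bilN {ι κ : Type} [Fintype κ] (P : Matrix ι κ ℝ × Matrix ι κ ℝ) : Matrix ι ι ℝ :=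
  P.1 * P.2ᵀ + P.2 * P.1ᵀ

/-- Hermitian imaginary part -/
noncomputable def imH {ι : Type} (M : Matrix ι ι ℂ) : Matrix ι ι ℂ :=
  (2 * Complex.I)⁻¹ • (M - Mᴴ)

/-- the OPEN domain of regularity: positive definite Hermitian imaginary part (`swDom s → s5Dom s`) -/
def s5Dom {k : ℕ} (s : SwSt k) : Prop := (imH s.2.1).PosDef

/-- orthogonal matrices -/
def IsOrth {k : ℕ} (O : Matrix (Fin k) (Fin k) ℝ) : Prop := O * Oᵀ = 1

/-- pointwise action on a list of states -/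
noncomputable def swTb {k b : ℕ} (O : Matrix (Fin k) (Fin k) ℝ) (v : Fin b → SwSt k) :
    Fin b → SwSt k := fun i => swT O (v i)

def swRb {k b : ℕ} (U : Matrix (Fin k) (Fin k) ℝ) (v : Fin b → SwSt k) :
    Fin b → SwSt k := fun i => swR U (v i)

/-- hyperplane reflection `1 - 2 u uᵀ` -/
def reflM {k : ℕ} (u : Fin k → ℝ) : Matrix (Fin k) (Fin k) ℝ := 1 - (2 : ℝ) • Matrix.vecMulVec u u

/-- effective coefficient `Γ_O = Aᵀ (1 + B_O M⁰)⁻¹ B_O A` (real, `2k × 2k`) -/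
noncomputable def chGam {k : ℕ} (O : Matrix (Fin k) (Fin k) ℝ) (p dinv mr : ℝ) :
    Matrix (Ch k) (Ch k) ℝ :=
  (chA k p)ᵀ * (1 + chB O * chK k p dinv mr)⁻¹ * chB O * chA k p

/-- the marked model on a general finite index type (`swX k L p dinv mr x g z = s5X k p dinv mr (cPos L x) g z`) -/
noncomputable def s5X {ι : Type} [Fintype ι] [DecidableEq ι] (k : ℕ) (p dinv mr : ℝ) (d : ι → ℝ)
    (g : Matrix ι (Ch k) ℝ) (z : ℂ) : SwSt k :=
  ((mr : ℂ) + ∑ i, ((d i : ℂ) - z)⁻¹,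
   toC (chK k p dinv mr) + toC (chA k p) * (toC g)ᵀ * (Matrix.diagonal fun i => ((d i : ℂ) - z)⁻¹)
      * toC g * (toC (chA k p))ᵀ,
   toC (chA k p) * (toC g)ᵀ * (Matrix.diagonal fun i => ((d i : ℂ) - z)⁻¹ ^ 2)
      * toC g * (toC (chA k p))ᵀ)

/-- bounded Lipschitz tests on `ℂ^b` (sup norm) -/
structure BLip {b : ℕ} (Φ : (Fin b → ℂ) → ℝ) : Prop where
  bdd : ∀ v, |Φ v| ≤ 1
  lip : ∀ v w, |Φ v - Φ w| ≤ ‖v - w‖

/-- inner integral over the bilinear noise, positions `d` on a general finite index type -/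
noncomputable def s5cx {ι : Type} [Fintype ι] [DecidableEq ι] (mr : ℝ) {b : ℕ} (z : Fin b → ℂ)
    (Φ : (Fin b → ℂ) → ℝ) (β : ℝ) (m : ℕ) (d : ι → ℝ) : ℝ :=
  ∫ P, Φ (fun i => (mr : ℂ) + rTr (Matrix.diagonal d + β • bilN P) (z i))
    ∂((gArr ι (Fin m)).prod (gArr ι (Fin m)))

/-- `a_L = E Φ(m_r + Tr (D_L - z)⁻¹)` -/
noncomputable def s5A (μ : Measure Conf) (mr : ℝ) {b : ℕ} (z : Fin b → ℂ)
    (Φ : (Fin b → ℂ) → ℝ) (L : ℕ) : ℝ :=
  ∫ x, Φ (fun i => (mr : ℂ) + cSK L x (z i)) ∂μ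

/-- `c_{r,L} = E Φ(m_r + Tr (D_L + β (P₊P₋ᵀ + P₋P₊ᵀ) - z)⁻¹)`, `P±` of size `(2L+1) × 2r` -/
noncomputable def s5C (μ : Measure Conf) (mr : ℝ) {b : ℕ} (z : Fin b → ℂ)
    (Φ : (Fin b → ℂ) → ℝ) (β : ℝ) (r L : ℕ) : ℝ :=
  ∫ x, s5cx mr z Φ β (2 * r) (cPos L x) ∂μ

/-- `f_K = E Φ(m_r + Tr (D_K + √Δ W - z)⁻¹)`, `W` raw GOE -/
noncomputable def s5F (μ : Measure Conf) (mr : ℝ) {b : ℕ} (z : Fin b → ℂ)
    (Φ : (Fin b → ℂ) → ℝ) (Δ : ℝ) (K : ℕ) : ℝ :=
  ∫ x, ∫ N, Φ (fun i => (mr : ℂ) + rTr (cutM K Δ x N) (z i)) ∂(gArr (Win K) (Win K)) ∂μ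

/-- Input of the unit in the form used by all its theorems (built from `LReg`, `LSw` in `S5.lean`). -/
structure S5In (μ : Measure Conf) (ρ χ p dinv mr : ℝ) : Prop where
  prob : IsProbabilityMeasure μ
  rho_pos : 0 < ρ
  chi_pos : 0 < χ
  chi_lt : χ < 1 / 4
  p_lt : |p| < 1
  f1 : mr = p * (mr * p + dinv - 1 / 2)
  reg : ∀ ε : ℝ, 0 < ε → ∃ (C₀ : ℝ) (J₀ : ℕ), μ {x | ¬ CReg ρ χ C₀ J₀ x} ≤ ENNReal.ofReal ε
  sw : LSw p dinv mr μ

theorem s5_alg_eqns_cite : True := by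
  have := @bilN.eq_1
  have := @imH.eq_1
  have := @s5Dom.eq_1
  have := @IsOrth.eq_1
  have := @swTb.eq_1
  have := @swRb.eq_1
  have := @reflM.eq_1
  have := @chGam.eq_1
  have := @s5X.eq_1
  have := @s5cx.eq_1
  have := @s5A.eq_1
  have := @s5C.eq_1
  have := @s5F.eq_1
  trivial

/-! ## A'. kit of helper54 (prefix `s5k_`): noncommutative identities, the quadratic form of `imH`, `toC`, blocks -/

section ringkit
variable {R : Type*} [Ring R]

theorem s5k_push {M B Y Z : R} (hY : Y * (1 + M * B) = 1) (hZ : (1 + B * M) * Z = 1) : Y * M = M * Z := by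
  linear_combination (norm := noncomm_ring) hY * (M * Z) - (Y * M) * hZ

/-- the inverse of `1 + M₁ B'`, `M₁ = Dᵀ Y M D` -/
theorem s5k_invA {M B B' D Dt Y Y2 : R} (hY1 : Y * (1 + M * B) = 1)
    (hV2 : (1 + M * (B + D * B' * Dt)) * Y2 = 1) (hD1 : D * Dt = 1) (hD2 : Dt * D = 1) :
    (1 + Dt * Y * M * D * B') * (Dt * (Y2 * (1 + M * B)) * D) = 1 := by
  have e1 : 1 + Dt * Y * M * D * B' = Dt * (Y * (1 + M * (B + D * B' * Dt))) * D := by
    linear_combination (norm := noncomm_ring) -hD2 - (Dt * Y * M * D * B') * hD2 - Dt * hY1 * D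
  calc (1 + Dt * Y * M * D * B') * (Dt * (Y2 * (1 + M * B)) * D)
      = Dt * Y * ((1 + M * (B + D * B' * Dt)) * (D * Dt) * Y2) * (1 + M * B) * D := by rw [e1]; noncomm_ring
    _ = Dt * (Y * (1 + M * B)) * D := by rw [hD1, mul_one, hV2]; noncomm_ring
    _ = 1 := by rw [hY1, mul_one, hD2]

/-- the inverse of `1 + B' M₁`, `M₁ = Dᵀ Y M D` -/
theorem s5k_invB {M B B' D Dt Y Z Z2 : R} (hY1 : Y * (1 + M * B) = 1) (hZ1 : Z * (1 + B * M) = 1) (hZ2 : (1 + B * M) * Z = 1)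
    (hW2 : (1 + (B + D * B' * Dt) * M) * Z2 = 1) (hD1 : D * Dt = 1) (hD2 : Dt * D = 1) :
    (1 + B' * (Dt * Y * M * D)) * (Dt * ((1 + B * M) * Z2) * D) = 1 := by
  have hp : Y * M = M * Z := s5k_push hY1 hZ2
  have e1 : 1 + B' * (Dt * Y * M * D) = Dt * ((1 + (B + D * B' * Dt) * M) * Z) * D := by
    have : Dt * ((1 + (B + D * B' * Dt) * M) * Z) * D = Dt * ((1 + B * M) * Z) * D + (Dt * D) * B' * Dt * (M * Z) * D := by
      noncomm_ring
    rw [this, hZ2, hD2, ← hp, mul_one, hD2]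
    noncomm_ring
  calc (1 + B' * (Dt * Y * M * D)) * (Dt * ((1 + B * M) * Z2) * D)
      = Dt * (1 + (B + D * B' * Dt) * M) * (Z * (D * Dt) * (1 + B * M)) * Z2 * D := by rw [e1]; noncomm_ring
    _ = Dt * ((1 + (B + D * B' * Dt) * M) * Z2) * D := by rw [hD1, mul_one, hZ1]; noncomm_ring
    _ = 1 := by rw [hW2, mul_one, hD2]

/-- the identity behind the first component -/
theorem s5k_first {M B Bh Y Z Z2 : R} (hY1 : Y * (1 + M * B) = 1) (hZ2 : (1 + B * M) * Z = 1)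
    (hW1 : Z2 * (1 + (B + Bh) * M) = 1) : Z * B + Z2 * Bh * Y = Z2 * (B + Bh) := by
  have hp : Y * M = M * Z := s5k_push hY1 hZ2
  have e1 : Y = 1 - M * Z * B := by
    have : Y + Y * M * B = 1 := by rw [← hY1]; noncomm_ring
    rw [hp] at this
    linear_combination (norm := noncomm_ring) this
  have e2 : Z = Z2 * (1 + (B + Bh) * M) * Z := by rw [hW1, one_mul]
  have e3 : Z2 * (1 + (B + Bh) * M) * Z = Z2 + Z2 * Bh * M * Z := by
    have : Z2 * (1 + (B + Bh) * M) * Z = Z2 * ((1 + B * M) * Z) + Z2 * Bh * M * Z := by noncomm_ring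
    rw [this, hZ2, mul_one]
  rw [e1]
  have e4 : Z = Z2 + Z2 * Bh * M * Z := e2.trans e3
  calc Z * B + Z2 * Bh * (1 - M * Z * B) = (Z - Z2 * Bh * M * Z) * B + Z2 * Bh := by noncomm_ring
    _ = Z2 * B + Z2 * Bh := by
        have : Z - Z2 * Bh * M * Z = Z2 := by linear_combination (norm := noncomm_ring) e4
        rw [this]
    _ = Z2 * (B + Bh) := by noncomm_ring

end ringkit

section cx
variable {n : Type} [Fintype n] [DecidableEq n]

theorem s5k_imH_herm (M : Matrix n n ℂ) : (imH M).IsHermitian := by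
  unfold imH Matrix.IsHermitian
  rw [Matrix.conjTranspose_smul, Matrix.conjTranspose_sub, Matrix.conjTranspose_conjTranspose]
  have : star ((2 * Complex.I)⁻¹ : ℂ) = -(2 * Complex.I)⁻¹ := by
    simp
  rw [this, neg_smul, ← smul_neg, neg_sub]

theorem s5k_imH_quad (M : Matrix n n ℂ) (v : n → ℂ) :
    star v ⬝ᵥ (imH M *ᵥ v) = (((star v ⬝ᵥ (M *ᵥ v)).im : ℝ) : ℂ) := by
  have h1 : star v ⬝ᵥ (Mᴴ *ᵥ v) = star (star v ⬝ᵥ (M *ᵥ v)) := by
    rw [Matrix.star_dotProduct]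
    congr 1
    rw [Matrix.star_mulVec, Matrix.conjTranspose_conjTranspose, ← Matrix.dotProduct_mulVec]
  unfold imH
  rw [Matrix.smul_mulVec, Matrix.sub_mulVec, dotProduct_smul, dotProduct_sub, h1]
  obtain ⟨w, hw⟩ : ∃ w : ℂ, w = star v ⬝ᵥ (M *ᵥ v) := ⟨_, rfl⟩
  rw [← hw]
  have e : w - star w = (2 * Complex.I) * ((w.im : ℝ) : ℂ) := by
    apply Complex.ext <;> simp
    ring
  rw [e, smul_eq_mul, ← mul_assoc, inv_mul_cancel₀ (by simp), one_mul]

/-- `imH M` is positive definite iff `Im ⟨v, M v⟩ > 0` for `v ≠ 0` -/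
theorem s5k_dom_iff (M : Matrix n n ℂ) : (imH M).PosDef ↔ ∀ v : n → ℂ, v ≠ 0 → 0 < (star v ⬝ᵥ (M *ᵥ v)).im := by
  constructor
  · intro h v hv
    have := h.dotProduct_mulVec_pos hv
    rw [s5k_imH_quad] at this
    exact_mod_cast this
  · intro h
    refine Matrix.PosDef.of_dotProduct_mulVec_pos (s5k_imH_herm M) fun v hv => ?_
    rw [s5k_imH_quad]
    exact_mod_cast h v hv

/-- a real symmetric matrix has a real quadratic form -/
theorem s5k_real_quad {B : Matrix n n ℝ} (hB : Bᵀ = B) (u : n → ℂ) : (star u ⬝ᵥ (toC B *ᵥ u)).im = 0 := by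
  have hH : (toC B)ᴴ = toC B := by
    ext i j
    have := congrFun (congrFun hB i) j
    simp only [Matrix.transpose_apply] at this
    simp [toC, Matrix.conjTranspose_apply, this]
  have h1 : star (star u ⬝ᵥ (toC B *ᵥ u)) = star u ⬝ᵥ (toC B *ᵥ u) := by
    rw [← Matrix.star_dotProduct, Matrix.star_mulVec, hH]
    exact (Matrix.dotProduct_mulVec _ _ _).symm
  exact Complex.conj_eq_iff_im.1 h1

theorem s5k_toC_mul {l m o : Type} [Fintype m] (A : Matrix l m ℝ) (B : Matrix m o ℝ) : toC (A * B) = toC A * toC B := by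
  unfold toC
  exact Matrix.map_mul (f := Complex.ofRealHom)

theorem s5k_toC_one : toC (1 : Matrix n n ℝ) = 1 := by
  unfold toC
  exact Matrix.map_one _ Complex.ofReal_zero Complex.ofReal_one

theorem s5k_toC_add {l m : Type} (A B : Matrix l m ℝ) : toC (A + B) = toC A + toC B := by
  unfold toC
  exact Matrix.map_add _ Complex.ofReal_add _ _

theorem s5k_toC_T {l m : Type} (A : Matrix l m ℝ) : toC Aᵀ = (toC A)ᵀ := rfl

theorem s5k_toC_H {l m : Type} (A : Matrix l m ℝ) : (toC A)ᴴ = (toC A)ᵀ := by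
  ext i j
  simp [toC, Matrix.conjTranspose_apply]

/-- A0 on a general index type -/
theorem s5k_unit {M : Matrix n n ℂ} (hM : (imH M).PosDef) {B : Matrix n n ℝ} (hB : Bᵀ = B) :
    IsUnit (1 + toC B * M).det ∧ IsUnit (1 + M * toC B).det ∧ IsUnit M.det := by
  have hq := (s5k_dom_iff M).1 hM
  have h1 : IsUnit (1 + toC B * M).det := by
    rw [isUnit_iff_ne_zero]
    intro h0
    obtain ⟨v, hv, hv0⟩ := Matrix.exists_mulVec_eq_zero_iff.2 h0
    obtain ⟨u, hu⟩ : ∃ u, u = M *ᵥ v := ⟨_, rfl⟩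
    have e : v = -(toC B *ᵥ u) := by
      have : v + toC B *ᵥ u = 0 := by
        rw [Matrix.add_mulVec, Matrix.one_mulVec, ← Matrix.mulVec_mulVec, ← hu] at hv0
        exact hv0
      exact eq_neg_of_add_eq_zero_left this
    have h2 := hq v hv
    rw [← hu] at h2
    have e2 : star v ⬝ᵥ u = -star (star u ⬝ᵥ (toC B *ᵥ u)) := by
      rw [e, star_neg, neg_dotProduct, Matrix.star_dotProduct]
    rw [e2] at h2
    have h3 := s5k_real_quad hB u
    simp [h3] at h2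
  refine ⟨h1, ?_, ?_⟩
  · rw [Matrix.det_one_add_mul_comm]
    exact h1
  · rw [isUnit_iff_ne_zero]
    intro h0
    obtain ⟨v, hv, hv0⟩ := Matrix.exists_mulVec_eq_zero_iff.2 h0
    have h2 := hq v hv
    rw [hv0] at h2
    simp at h2

/-- A1 on a general index type -/
theorem s5k_dom_T {M : Matrix n n ℂ} (hM : (imH M).PosDef) {B D : Matrix n n ℝ} (hB : Bᵀ = B) (hD : D * Dᵀ = 1) :
    (imH ((toC D)ᵀ * (1 + M * toC B)⁻¹ * M * toC D)).PosDef := by
  have hq := (s5k_dom_iff M).1 hM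
  obtain ⟨u1, u2, -⟩ := s5k_unit hM hB
  rw [s5k_dom_iff]
  intro v hv
  have hD2 : Dᵀ * D = 1 := mul_eq_one_comm.1 hD
  have hD2c : (toC D)ᵀ * toC D = 1 := by rw [← s5k_toC_T, ← s5k_toC_mul, hD2, s5k_toC_one]
  obtain ⟨w, hw⟩ : ∃ w, w = toC D *ᵥ v := ⟨_, rfl⟩
  obtain ⟨t, ht⟩ : ∃ t, t = (1 + toC B * M)⁻¹ *ᵥ w := ⟨_, rfl⟩
  have hwt : w = t + toC B *ᵥ (M *ᵥ t) := by
    have : (1 + toC B * M) *ᵥ t = w := by
      rw [ht, Matrix.mulVec_mulVec, Matrix.mul_nonsing_inv _ u1, Matrix.one_mulVec]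
    rw [← this, Matrix.add_mulVec, Matrix.one_mulVec, Matrix.mulVec_mulVec]
  have hw0 : w ≠ 0 := by
    intro h0
    apply hv
    have : (toC D)ᵀ *ᵥ w = v := by rw [hw, Matrix.mulVec_mulVec, hD2c, Matrix.one_mulVec]
    rw [← this, h0, Matrix.mulVec_zero]
  have ht0 : t ≠ 0 := by
    intro h0
    apply hw0
    rw [hwt, h0]
    simp
  have hpush : (1 + M * toC B)⁻¹ * M = M * (1 + toC B * M)⁻¹ :=
    s5k_push (Matrix.nonsing_inv_mul _ u2) (Matrix.mul_nonsing_inv _ u1)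
  have e1 : ((toC D)ᵀ * (1 + M * toC B)⁻¹ * M * toC D) *ᵥ v = (toC D)ᵀ *ᵥ (M *ᵥ t) := by
    rw [mul_assoc (toC D)ᵀ, hpush, ht, hw]
    simp only [Matrix.mulVec_mulVec, mul_assoc]
  have e2 : star v ⬝ᵥ ((toC D)ᵀ *ᵥ (M *ᵥ t)) = star w ⬝ᵥ (M *ᵥ t) := by
    rw [Matrix.dotProduct_mulVec, hw, Matrix.star_mulVec, s5k_toC_H]
  rw [e1, e2]
  obtain ⟨u, hu⟩ : ∃ u, u = M *ᵥ t := ⟨_, rfl⟩
  have e3 : star w ⬝ᵥ u = star t ⬝ᵥ u + star (star u ⬝ᵥ (toC B *ᵥ u)) := by
    rw [hwt, ← hu, star_add, add_dotProduct, Matrix.star_dotProduct (toC B *ᵥ u)]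
  rw [← hu, e3]
  have h3 := s5k_real_quad hB u
  have h4 := hq t ht0
  rw [← hu] at h4
  simp [h3, h4]

end cx

section ch
variable {k : ℕ}

theorem s5k_chB_symm (O : Matrix (Fin k) (Fin k) ℝ) : (chB O)ᵀ = chB O := by
  unfold chB
  rw [Matrix.fromBlocks_transpose]
  simp

theorem s5k_chD_orth {O : Matrix (Fin k) (Fin k) ℝ} (hO : IsOrth O) : chD O * (chD O)ᵀ = 1 := by
  unfold chD
  rw [Matrix.fromBlocks_transpose, Matrix.fromBlocks_multiply]
  have : O * Oᵀ = 1 := hO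
  simp [this]

theorem s5k_chD_mul (O O' : Matrix (Fin k) (Fin k) ℝ) : chD (O * O') = chD O * chD O' := by
  unfold chD
  rw [Matrix.fromBlocks_multiply]
  simp

theorem s5k_chB_mul {O O' : Matrix (Fin k) (Fin k) ℝ} (hO : IsOrth O) :
    chB (O * O') = chB O + chD O * chB O' * (chD O)ᵀ := by
  have h1 : O * Oᵀ = 1 := hO
  unfold chB chD
  rw [Matrix.fromBlocks_transpose, Matrix.fromBlocks_multiply, Matrix.fromBlocks_multiply, Matrix.fromBlocks_add]
  congr 1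
  · simp
  · simp only [Matrix.transpose_mul, Matrix.transpose_zero, Matrix.transpose_one, zero_mul, mul_zero, one_mul, zero_add, add_zero]
    rw [sub_mul, one_mul]
    abel
  · simp only [Matrix.transpose_zero, Matrix.transpose_one, zero_mul, mul_zero, mul_one, zero_add, add_zero]
    rw [mul_sub, mul_one]
    abel
  · simp

theorem s5k_orth_mul {O O' : Matrix (Fin k) (Fin k) ℝ} (hO : IsOrth O) (hO' : IsOrth O') : IsOrth (O * O') := by
  unfold IsOrth at *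
  rw [Matrix.transpose_mul, mul_assoc, ← mul_assoc O', hO', one_mul, hO]

end ch

/-! ## A. Algebra of `T_O`, `R_U` on the domain `{Im M > 0}` -/

section algebra
variable {k : ℕ}

/-- quadratic form of `imH` -/
theorem s5_p8_imH_quad {ι : Type} [Fintype ι] (X : Matrix ι ι ℂ) (v : ι → ℂ) :
    star v ⬝ᵥ (imH X *ᵥ v) = (((star v ⬝ᵥ (X *ᵥ v)).im : ℝ) : ℂ) := by
  have h1 : star v ⬝ᵥ (Xᴴ *ᵥ v) = star (star v ⬝ᵥ (X *ᵥ v)) := by
    rw [Matrix.star_dotProduct, Matrix.star_mulVec, Matrix.conjTranspose_conjTranspose,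
      Matrix.dotProduct_mulVec]
  unfold imH
  rw [Matrix.smul_mulVec, dotProduct_smul, Matrix.sub_mulVec, dotProduct_sub, h1]
  set w := star v ⬝ᵥ (X *ᵥ v)
  have : w - star w = 2 * Complex.I * (w.im : ℂ) := by
    apply Complex.ext <;> simp
    ring
  rw [this, smul_eq_mul]
  have h2 : (2 * Complex.I) ≠ 0 := by simp
  field_simp

theorem s5_p8_imH_herm {ι : Type} (X : Matrix ι ι ℂ) : (imH X).IsHermitian := by
  unfold imH Matrix.IsHermitian
  rw [Matrix.conjTranspose_smul, Matrix.conjTranspose_sub, Matrix.conjTranspose_conjTranspose]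
  have : star ((2 * Complex.I)⁻¹) = - (2 * Complex.I)⁻¹ := by
    simp [star_inv₀]
  rw [this, neg_smul, ← smul_neg, neg_sub]

/-- A-1 (bridge to the RES kit of helper240, `R287/ResC.lean`: `rsDis X c : ∀ v, c |v|² ≤ Im ⟨v, X v⟩`).
`⟨v, imH X v⟩ = Im ⟨v, X v⟩` (real), `imH X` is Hermitian. With this bridge A00, A0, A1, H1 are corollaries of
`rs_dis_of_swDom`, `rs_dis_one_add_det_ne(')`, `rs_dis_det_ne`, `rs_dis_mobius`, `rs_dis_congr`, `rs_dis_inv_le`. -/
theorem s5_psd_iff_dis {ι : Type} [Fintype ι] [DecidableEq ι] (X : Matrix ι ι ℂ) (c : ℝ) :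
    (imH X - (c : ℂ) • (1 : Matrix ι ι ℂ)).PosSemidef ↔ rsDis X c := by
  have key : ∀ v : ι → ℂ, star v ⬝ᵥ ((imH X - (c : ℂ) • (1 : Matrix ι ι ℂ)) *ᵥ v)
      = (((star v ⬝ᵥ (X *ᵥ v)).im - c * rsvSq v : ℝ) : ℂ) := by
    intro v
    rw [Matrix.sub_mulVec, dotProduct_sub, s5_p8_imH_quad, Matrix.smul_mulVec, Matrix.one_mulVec,
      dotProduct_smul, ← rsvSq_eq]
    push_cast
    simp
  have hh : (imH X - (c : ℂ) • (1 : Matrix ι ι ℂ)).IsHermitian := by
    refine (s5_p8_imH_herm X).sub ?_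
    unfold Matrix.IsHermitian
    rw [Matrix.conjTranspose_smul, Matrix.conjTranspose_one]
    simp
  rw [Matrix.posSemidef_iff_dotProduct_mulVec]
  constructor
  · rintro ⟨-, h⟩ v
    have := h v
    rw [key] at this
    have h2 : (0 : ℝ) ≤ (star v ⬝ᵥ (X *ᵥ v)).im - c * rsvSq v := by exact_mod_cast this
    linarith
  · intro h
    refine ⟨hh, fun v => ?_⟩
    rw [key]
    have := h v
    have h2 : (0 : ℝ) ≤ (star v ⬝ᵥ (X *ᵥ v)).im - c * rsvSq v := by linarith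
    exact_mod_cast h2

theorem s5y_imH_herm {ι : Type} (X : Matrix ι ι ℂ) : (imH X).IsHermitian := by
  unfold imH Matrix.IsHermitian
  rw [Matrix.conjTranspose_smul, Matrix.conjTranspose_sub, Matrix.conjTranspose_conjTranspose]
  have h : star ((2 * Complex.I)⁻¹ : ℂ) = -(2 * Complex.I)⁻¹ := by
    simp
  rw [h, neg_smul, ← smul_neg, neg_sub]

theorem s5y_imH_quad {ι : Type} [Fintype ι] (X : Matrix ι ι ℂ) (v : ι → ℂ) :
    star v ⬝ᵥ (imH X *ᵥ v) = (((star v ⬝ᵥ (X *ᵥ v)).im : ℝ) : ℂ) := by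
  have h1 : star v ⬝ᵥ (Xᴴ *ᵥ v) = star (star v ⬝ᵥ (X *ᵥ v)) := by
    rw [Matrix.star_dotProduct, Matrix.star_mulVec, Matrix.conjTranspose_conjTranspose,
      ← Matrix.dotProduct_mulVec]
  unfold imH
  rw [Matrix.smul_mulVec, Matrix.sub_mulVec, dotProduct_smul, dotProduct_sub, h1, Complex.star_def,
    Complex.sub_conj, smul_eq_mul]
  have : (2 * Complex.I : ℂ) ≠ 0 := by simp
  field_simp
  push_cast
  ring

/-- a positive definite Hermitian matrix is bounded below -/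
theorem s5y_posDef_lower {ι : Type} [Fintype ι] [DecidableEq ι] {H : Matrix ι ι ℂ} (hH : H.PosDef) :
    ∃ c : ℝ, 0 < c ∧ ∀ v : ι → ℂ, c * rsvSq v ≤ (star v ⬝ᵥ (H *ᵥ v)).re := by
  have hM := hH.isHermitian
  rcases isEmpty_or_nonempty ι with hV | hV
  · exact ⟨1, one_pos, fun u => by simp [dotProduct, rsvSq]⟩
  obtain ⟨i0, -, hi0⟩ := Finset.exists_min_image Finset.univ hM.eigenvalues Finset.univ_nonempty
  refine ⟨hM.eigenvalues i0, hH.eigenvalues_pos i0, fun v => ?_⟩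
  obtain ⟨U, hU⟩ : ∃ U : Matrix ι ι ℂ, U = (hM.eigenvectorUnitary : Matrix ι ι ℂ) := ⟨_, rfl⟩
  have hUU : U * star U = 1 := by rw [hU]; exact Unitary.coe_mul_star_self _
  have hMs : H = U * diagonal (fun i => (hM.eigenvalues i : ℂ)) * star U := by
    conv_lhs => rw [hM.spectral_theorem, Unitary.conjStarAlgAut_apply]
    rw [hU]
    rfl
  set w : ι → ℂ := star U *ᵥ v with hw
  have e1 : rsvSq w = rsvSq v := by
    have : (rsvSq w : ℂ) = (rsvSq v : ℂ) := by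
      rw [hw, rsvSq_mulVec, rsvSq_eq]
      have : (star U)ᴴ * star U = 1 := by
        rw [Matrix.star_eq_conjTranspose, Matrix.conjTranspose_conjTranspose,
          ← Matrix.star_eq_conjTranspose]
        exact hUU
      rw [this, Matrix.one_mulVec]
    exact_mod_cast this
  have e2 : star v ⬝ᵥ (H *ᵥ v) = ((∑ i, hM.eigenvalues i * ‖w i‖ ^ 2 : ℝ) : ℂ) := by
    have : star v ⬝ᵥ (H *ᵥ v) = star w ⬝ᵥ (diagonal (fun i => (hM.eigenvalues i : ℂ)) *ᵥ w) := by
      rw [hw, Matrix.star_mulVec, Matrix.star_eq_conjTranspose, Matrix.conjTranspose_conjTranspose,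
        ← Matrix.dotProduct_mulVec, Matrix.mulVec_mulVec, Matrix.mulVec_mulVec,
        ← Matrix.star_eq_conjTranspose, ← hMs]
    rw [this]
    unfold dotProduct
    push_cast
    refine Finset.sum_congr rfl fun i _ => ?_
    rw [Matrix.mulVec_diagonal, Pi.star_apply, Complex.star_def]
    have := Complex.mul_conj (w i)
    rw [Complex.normSq_eq_norm_sq] at this
    push_cast at this
    rw [← this]
    ring
  rw [e2, Complex.ofReal_re, ← e1]
  unfold rsvSq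
  rw [Finset.mul_sum]
  exact Finset.sum_le_sum fun i _ =>
    mul_le_mul_of_nonneg_right (hi0 i (Finset.mem_univ i)) (by positivity)

/-- A-1'. `imH X` positive definite iff `X` is `c`-dissipative for some `c > 0` (compactness of the sphere, or the least
eigenvalue of `imH X`; kit `rs_posDef_lower` is the real analogue). -/
theorem s5_pd_iff_dis {ι : Type} [Fintype ι] [DecidableEq ι] (X : Matrix ι ι ℂ) :
    (imH X).PosDef ↔ ∃ c : ℝ, 0 < c ∧ rsDis X c := by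
  constructor
  · intro h
    obtain ⟨c, hc, hl⟩ := s5y_posDef_lower h
    refine ⟨c, hc, fun v => ?_⟩
    have := hl v
    rwa [s5y_imH_quad, Complex.ofReal_re] at this
  · rintro ⟨c, hc, h⟩
    refine Matrix.PosDef.of_dotProduct_mulVec_pos (s5y_imH_herm X) fun v hv => ?_
    rw [s5y_imH_quad]
    have h1 : 0 < rsvSq v := by
      rcases (rsvSq_nonneg v).lt_or_eq with h0 | h0
      · exact h0
      · exact absurd (rs_sq_eq_zero h0.symm.le) hv
    have h2 := h v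
    have h3 : 0 < (star v ⬝ᵥ (X *ᵥ v)).im := lt_of_lt_of_le (mul_pos hc h1) h2
    exact_mod_cast h3

/-- A00. For a complex symmetric matrix the Hermitian imaginary part is the entrywise one:
`M - Mᴴ = M - conj M = 2i Im M`; a real matrix is `PosDef` iff its complexification is. -/
theorem s5_dom_of_swDom {s : SwSt k} (hs : swDom s) : s5Dom s :=
  (s5_pd_iff_dis _).mpr (rs_dis_of_swDom hs)

/-- A0. On the domain `1 + B M`, `1 + M B`, `M` are invertible for every real symmetric `B`.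
(`(1+BM)v = 0`, `u = Mv`: `⟨u,v⟩ = -⟨u,Bu⟩` is real, while `Im ⟨v,Mv⟩ = ⟨v, imH M v⟩ > 0` if `v ≠ 0`.
`1 + MB` by `det (1 + MB) = det (1 + BM)` (`Matrix.det_one_add_mul_comm`).) -/
theorem s5_unit_of_dom {M : Matrix (Ch k) (Ch k) ℂ} (hM : (imH M).PosDef)
    {B : Matrix (Ch k) (Ch k) ℝ} (hB : Bᵀ = B) :
    IsUnit (1 + toC B * M).det ∧ IsUnit (1 + M * toC B).det ∧ IsUnit M.det :=
  s5k_unit hM hB

/-- A1. `T_O` preserves the domain. With `X = (1+MB)⁻¹ M = (M⁻¹+B)⁻¹`: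
`imH X = Xᴴ (imH M)' X`-type identity: `imH (Y⁻¹) = - (Y⁻¹)ᴴ (imH Y) Y⁻¹`, `imH (M⁻¹ + B) = imH (M⁻¹)` since `B` is
Hermitian; conjugation by the real orthogonal `chD O` keeps `PosDef`. -/
theorem s5_swT_dom {O : Matrix (Fin k) (Fin k) ℝ} (hO : IsOrth O) {s : SwSt k} (hs : s5Dom s) :
    s5Dom (swT O s) :=
  s5k_dom_T hs (s5k_chB_symm O) (s5k_chD_orth hO)

/-- A2. `R_U` preserves the domain (congruence by the invertible real matrix `chQ U`). -/
theorem s5_swR_dom {U : Matrix (Fin k) (Fin k) ℝ} (hU : IsOrth U) {s : SwSt k} (hs : s5Dom s) :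
    s5Dom (swR U s) := by
  obtain ⟨c, hc, h⟩ := (s5_pd_iff_dis _).mp hs
  refine (s5_pd_iff_dis _).mpr ⟨c, hc, fun v => ?_⟩
  have hU' : Uᵀ * U = 1 := mul_eq_one_comm.mp hU
  have hQ : (chQ U)ᵀ * chQ U = 1 := by
    simp [chQ, Matrix.fromBlocks_transpose, Matrix.fromBlocks_multiply, hU']
  have hH : (toC (chQ U))ᴴ = (toC (chQ U))ᵀ := by
    ext i j
    simp [toC, Matrix.conjTranspose_apply]
  have h1 := rs_dis_congr h (toC (chQ U)) v
  have e1 : rsvSq (toC (chQ U) *ᵥ v) = rsvSq v := by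
    have : (rsvSq (toC (chQ U) *ᵥ v) : ℂ) = (rsvSq v : ℂ) := by
      rw [rsvSq_mulVec, rsvSq_eq, hH]
      have : (toC (chQ U))ᵀ * toC (chQ U) = 1 := by
        have h2 : (toC (chQ U))ᵀ * toC (chQ U) = toC ((chQ U)ᵀ * chQ U) :=
          (Matrix.map_mul (f := Complex.ofRealHom) (L := (chQ U)ᵀ) (M := chQ U)).symm
        rw [h2, hQ]
        unfold toC
        exact Matrix.map_one _ (by simp) (by simp)
      rw [this, Matrix.one_mulVec]
    exact_mod_cast this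
  rw [e1, hH] at h1
  exact h1

/-- A3a (P1 (5.4)). `B_{OO'} = B_O + D_O B_{O'} D_Oᵀ`, `D_{OO'} = D_O D_{O'}` (`fromBlocks_multiply`). -/
theorem s5_chB_mul {O O' : Matrix (Fin k) (Fin k) ℝ} (hO : IsOrth O) :
    chB (O * O') = chB O + chD O * chB O' * (chD O)ᵀ ∧ chD (O * O') = chD O * chD O' ∧
      chD O * (chD O)ᵀ = 1 ∧ (chB O)ᵀ = chB O :=
  ⟨s5k_chB_mul hO, s5k_chD_mul O O', s5k_chD_orth hO, s5k_chB_symm O⟩

/-- A3b (pure algebra of the composition; `X = (1+MB)⁻¹M`, `X' = (1+MB)⁻¹M'(1+BM)⁻¹`, `B'' = B + B^`).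
`1 + MB'' = (1+MB)(1 + XB^)`, `1 + B''M = (1 + B^X)(1+BM)` (push-through `M(1+BM)⁻¹ = X`, kit `rs_push`), so `1 + XB^`, `1 + B^X` are
invertible and their inverses are `(1+MB'')⁻¹(1+MB)`, `(1+BM)(1+B''M)⁻¹`. Third identity: cyclicity and
`(1+B''M)[(1+BM)⁻¹B + (1+B''M)⁻¹B^(1+MB)⁻¹] = (1+B^X)B + B^(1+MB)⁻¹ = B + B^(1+MB)⁻¹(MB+1) = B''`. -/
theorem s5_comp_alg {n : Type} [Fintype n] [DecidableEq n] {M M' B Bh : Matrix n n ℂ}
    (h1 : IsUnit (1 + M * B).det) (h2 : IsUnit (1 + B * M).det)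
    (h3 : IsUnit (1 + M * (B + Bh)).det) (h4 : IsUnit (1 + (B + Bh) * M).det) :
    (1 + (1 + M * B)⁻¹ * M * Bh)⁻¹ * ((1 + M * B)⁻¹ * M) = (1 + M * (B + Bh))⁻¹ * M ∧
    (1 + (1 + M * B)⁻¹ * M * Bh)⁻¹ * ((1 + M * B)⁻¹ * M' * (1 + B * M)⁻¹)
        * (1 + Bh * ((1 + M * B)⁻¹ * M))⁻¹ = (1 + M * (B + Bh))⁻¹ * M' * (1 + (B + Bh) * M)⁻¹ ∧
    Matrix.trace ((1 + B * M)⁻¹ * B * M')
        + Matrix.trace ((1 + Bh * ((1 + M * B)⁻¹ * M))⁻¹ * Bh * ((1 + M * B)⁻¹ * M' * (1 + B * M)⁻¹))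
      = Matrix.trace ((1 + (B + Bh) * M)⁻¹ * (B + Bh) * M') := by
  have Y1 : (1 + M * B)⁻¹ * (1 + M * B) = 1 := Matrix.nonsing_inv_mul _ h1
  have Y2 : (1 + M * B) * (1 + M * B)⁻¹ = 1 := Matrix.mul_nonsing_inv _ h1
  have Z1 : (1 + B * M)⁻¹ * (1 + B * M) = 1 := Matrix.nonsing_inv_mul _ h2
  have Z2 : (1 + B * M) * (1 + B * M)⁻¹ = 1 := Matrix.mul_nonsing_inv _ h2
  have V1 : (1 + M * (B + Bh))⁻¹ * (1 + M * (B + Bh)) = 1 := Matrix.nonsing_inv_mul _ h3
  have W1 : (1 + (B + Bh) * M)⁻¹ * (1 + (B + Bh) * M) = 1 := Matrix.nonsing_inv_mul _ h4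
  have W2 : (1 + (B + Bh) * M) * (1 + (B + Bh) * M)⁻¹ = 1 := Matrix.mul_nonsing_inv _ h4
  generalize (1 + M * B)⁻¹ = Y at *
  generalize (1 + B * M)⁻¹ = Z at *
  generalize (1 + M * (B + Bh))⁻¹ = V at *
  generalize (1 + (B + Bh) * M)⁻¹ = W at *
  have push : Y * M = M * Z := by
    calc Y * M = Y * (M * ((1 + B * M) * Z)) := by rw [Z2, mul_one]
      _ = (Y * (1 + M * B)) * (M * Z) := by noncomm_ring
      _ = M * Z := by rw [Y1, one_mul]
  have e1 : (1 + Y * M * Bh)⁻¹ = V * (1 + M * B) := by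
    apply Matrix.inv_eq_left_inv
    calc V * (1 + M * B) * (1 + Y * M * Bh) = V * ((1 + M * B) + ((1 + M * B) * Y) * (M * Bh)) := by noncomm_ring
      _ = V * (1 + M * (B + Bh)) := by rw [Y2]; noncomm_ring
      _ = 1 := V1
  have e2 : (1 + Bh * (Y * M))⁻¹ = (1 + B * M) * W := by
    apply Matrix.inv_eq_right_inv
    rw [push]
    calc (1 + Bh * (M * Z)) * ((1 + B * M) * W) = ((1 + B * M) + Bh * M * (Z * (1 + B * M))) * W := by noncomm_ring
      _ = (1 + (B + Bh) * M) * W := by rw [Z1]; noncomm_ring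
      _ = 1 := W2
  refine ⟨?_, ?_, ?_⟩
  · rw [e1]
    calc V * (1 + M * B) * (Y * M) = V * (((1 + M * B) * Y) * M) := by noncomm_ring
      _ = V * M := by rw [Y2, one_mul]
  · rw [e1, e2]
    calc V * (1 + M * B) * (Y * M' * Z) * ((1 + B * M) * W)
        = V * ((1 + M * B) * Y) * M' * (Z * (1 + B * M)) * W := by noncomm_ring
      _ = V * M' * W := by rw [Y2, Z1]; noncomm_ring
  · rw [e2]
    have h5 : (1 + (B + Bh) * M) * Z = 1 + Bh * (Y * M) := by
      rw [push]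
      calc (1 + (B + Bh) * M) * Z = (1 + B * M) * Z + Bh * (M * Z) := by noncomm_ring
        _ = 1 + Bh * (M * Z) := by rw [Z2]
    have h6 : (1 + (B + Bh) * M) * (Z * B + W * Bh * Y) = B + Bh := by
      calc (1 + (B + Bh) * M) * (Z * B + W * Bh * Y)
          = ((1 + (B + Bh) * M) * Z) * B + ((1 + (B + Bh) * M) * W) * Bh * Y := by noncomm_ring
        _ = B + Bh * (Y * (1 + M * B)) := by rw [h5, W2]; noncomm_ring
        _ = B + Bh := by rw [Y1, mul_one]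
    have key : Z * B + W * Bh * Y = W * (B + Bh) := by
      calc Z * B + W * Bh * Y = (W * (1 + (B + Bh) * M)) * (Z * B + W * Bh * Y) := by rw [W1, one_mul]
        _ = W * ((1 + (B + Bh) * M) * (Z * B + W * Bh * Y)) := by rw [mul_assoc]
        _ = W * (B + Bh) := by rw [h6]
    have t1 : Matrix.trace ((1 + B * M) * W * Bh * (Y * M' * Z)) = Matrix.trace (W * Bh * Y * M') := by
      calc Matrix.trace ((1 + B * M) * W * Bh * (Y * M' * Z))
          = Matrix.trace ((1 + B * M) * (W * Bh * Y * M' * Z)) := by congr 1; noncomm_ring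
        _ = Matrix.trace ((W * Bh * Y * M' * Z) * (1 + B * M)) := Matrix.trace_mul_comm _ _
        _ = Matrix.trace (W * Bh * Y * M' * (Z * (1 + B * M))) := by congr 1; noncomm_ring
        _ = Matrix.trace (W * Bh * Y * M') := by rw [Z1, mul_one]
    rw [t1, ← Matrix.trace_add, ← add_mul, key]

/-- A3c (conjugation by an orthogonal `D`, `D Dᵀ = 1`): `(1 + (DᵀXD) B')⁻¹ = Dᵀ (1 + X (D B' Dᵀ))⁻¹ D`, same on the other side
(`Matrix.mul_inv_rev`, `D⁻¹ = Dᵀ`; true for the total inverse, no invertibility needed). -/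
theorem s5_conj_inv {n : Type} [Fintype n] [DecidableEq n] {D X B' : Matrix n n ℂ} (hD : D * Dᵀ = 1) :
    (1 + Dᵀ * X * D * B')⁻¹ = Dᵀ * (1 + X * (D * B' * Dᵀ))⁻¹ * D ∧
    (1 + B' * (Dᵀ * X * D))⁻¹ = Dᵀ * (1 + D * B' * Dᵀ * X)⁻¹ * D := by
  have hD' : Dᵀ * D = 1 := mul_eq_one_comm.1 hD
  have i1 : D⁻¹ = Dᵀ := Matrix.inv_eq_right_inv hD
  have i2 : (Dᵀ)⁻¹ = D := Matrix.inv_eq_right_inv hD'
  constructor
  · have e : 1 + Dᵀ * X * D * B' = Dᵀ * (1 + X * (D * B' * Dᵀ)) * D := by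
      calc 1 + Dᵀ * X * D * B' = Dᵀ * D + Dᵀ * X * D * B' * (Dᵀ * D) := by rw [hD', mul_one]
        _ = _ := by noncomm_ring
    rw [e, Matrix.mul_inv_rev, Matrix.mul_inv_rev, i1, i2]
    exact (mul_assoc _ _ _).symm
  · have e : 1 + B' * (Dᵀ * X * D) = Dᵀ * (1 + D * B' * Dᵀ * X) * D := by
      calc 1 + B' * (Dᵀ * X * D) = Dᵀ * D + (Dᵀ * D) * B' * (Dᵀ * X * D) := by rw [hD', one_mul]
        _ = _ := by noncomm_ring
    rw [e, Matrix.mul_inv_rev, Matrix.mul_inv_rev, i1, i2]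
    exact (mul_assoc _ _ _).symm

/-- A3. Action property: first `T_O`, then `T_{O'}`, gives `T_{O O'}`.
Write `Y = (1+MB)⁻¹`, `Z = (1+BM)⁻¹`, `B^ = D B' Dᵀ`, `B'' = B + B^`. Push-through: `YM = MZ`.
`1 + MB'' = (1+MB)(1 + YMB^)`, `1 + B''M = (1 + B^MZ)(1+BM)`; hence `(1+MB'')⁻¹ = (1+YMB^)⁻¹ Y`,
`(1+B''M)⁻¹ = Z (1+B^YM)⁻¹`: components 2, 3. Component 1:
`Z(1+B^YM)⁻¹(B+B^) - ZB - Z(1+B^YM)⁻¹B^Y = Z(1+B^YM)⁻¹ B^ [1 - Y(MB+1)] = 0`, then cyclicity of the trace.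
All inverses exist by A0, A1. GLUE of A0, A3a, A3b, A3c (+ `toC` is multiplicative, cyclicity of the trace for `D`). -/
theorem s5_swT_comp {O O' : Matrix (Fin k) (Fin k) ℝ} (hO : IsOrth O) (hO' : IsOrth O') {s : SwSt k}
    (hs : s5Dom s) : swT O' (swT O s) = swT (O * O') s := by
  obtain ⟨m, M, M'⟩ := s
  have hM : (imH M).PosDef := hs
  obtain ⟨B, hB⟩ : ∃ B, B = toC (chB O) := ⟨_, rfl⟩
  obtain ⟨B', hB'⟩ : ∃ B', B' = toC (chB O') := ⟨_, rfl⟩
  obtain ⟨D, hD⟩ : ∃ D, D = toC (chD O) := ⟨_, rfl⟩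
  obtain ⟨D', hD'⟩ : ∃ D', D' = toC (chD O') := ⟨_, rfl⟩
  have hB2 : toC (chB (O * O')) = B + D * B' * Dᵀ := by
    rw [s5k_chB_mul hO, s5k_toC_add, s5k_toC_mul, s5k_toC_mul, s5k_toC_T, hB, hB', hD]
  have hDm : toC (chD (O * O')) = D * D' := by rw [s5k_chD_mul, s5k_toC_mul, hD, hD']
  have hD1 : D * Dᵀ = 1 := by rw [hD, ← s5k_toC_T, ← s5k_toC_mul, s5k_chD_orth hO, s5k_toC_one]
  have hD2 : Dᵀ * D = 1 := mul_eq_one_comm.1 hD1
  obtain ⟨u1, u2, -⟩ := s5k_unit hM (s5k_chB_symm O)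
  obtain ⟨w1, w2, -⟩ := s5k_unit hM (s5k_chB_symm (O * O'))
  rw [← hB] at u1 u2
  rw [hB2] at w1 w2
  obtain ⟨Y, hY⟩ : ∃ Y, Y = (1 + M * B)⁻¹ := ⟨_, rfl⟩
  obtain ⟨Z, hZ⟩ : ∃ Z, Z = (1 + B * M)⁻¹ := ⟨_, rfl⟩
  obtain ⟨Y2, hY2⟩ : ∃ Y2, Y2 = (1 + M * (B + D * B' * Dᵀ))⁻¹ := ⟨_, rfl⟩
  obtain ⟨Z2, hZ2⟩ : ∃ Z2, Z2 = (1 + (B + D * B' * Dᵀ) * M)⁻¹ := ⟨_, rfl⟩
  have hY1 : Y * (1 + M * B) = 1 := by rw [hY]; exact Matrix.nonsing_inv_mul _ u2
  have hYr : (1 + M * B) * Y = 1 := by rw [hY]; exact Matrix.mul_nonsing_inv _ u2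
  have hZ1 : Z * (1 + B * M) = 1 := by rw [hZ]; exact Matrix.nonsing_inv_mul _ u1
  have hZr : (1 + B * M) * Z = 1 := by rw [hZ]; exact Matrix.mul_nonsing_inv _ u1
  have hVr : (1 + M * (B + D * B' * Dᵀ)) * Y2 = 1 := by rw [hY2]; exact Matrix.mul_nonsing_inv _ w2
  have hW1 : Z2 * (1 + (B + D * B' * Dᵀ) * M) = 1 := by rw [hZ2]; exact Matrix.nonsing_inv_mul _ w1
  have hWr : (1 + (B + D * B' * Dᵀ) * M) * Z2 = 1 := by rw [hZ2]; exact Matrix.mul_nonsing_inv _ w1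
  have iA : (1 + Dᵀ * Y * M * D * B')⁻¹ = Dᵀ * (Y2 * (1 + M * B)) * D :=
    Matrix.inv_eq_right_inv (s5k_invA hY1 hVr hD1 hD2)
  have iB : (1 + B' * (Dᵀ * Y * M * D))⁻¹ = Dᵀ * ((1 + B * M) * Z2) * D :=
    Matrix.inv_eq_right_inv (s5k_invB hY1 hZ1 hZr hWr hD1 hD2)
  have c1 : swT O (m, M, M') = (m - Matrix.trace (Z * B * M'), Dᵀ * Y * M * D, Dᵀ * Y * M' * Z * D) := by
    rw [hY, hZ, hB, hD]; rfl
  have c2 : swT (O * O') (m, M, M') = (m - Matrix.trace (Z2 * (B + D * B' * Dᵀ) * M'), (D * D')ᵀ * Y2 * M * (D * D'),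
      (D * D')ᵀ * Y2 * M' * Z2 * (D * D')) := by
    rw [hY2, hZ2, ← hB2, ← hDm]; rfl
  have c3 : ∀ (m1 : ℂ) (M1 M1' : Matrix (Ch k) (Ch k) ℂ), swT O' (m1, M1, M1') =
      (m1 - Matrix.trace ((1 + B' * M1)⁻¹ * B' * M1'), D'ᵀ * (1 + M1 * B')⁻¹ * M1 * D', D'ᵀ * (1 + M1 * B')⁻¹ * M1' * (1 + B' * M1)⁻¹ * D') := by
    intro m1 M1 M1'
    rw [hB', hD']; rfl
  rw [c1, c2, c3, iA, iB]
  refine Prod.ext ?_ (Prod.ext ?_ ?_)
  · show m - Matrix.trace (Z * B * M') - Matrix.trace (Dᵀ * ((1 + B * M) * Z2) * D * B' * (Dᵀ * Y * M' * Z * D))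
      = m - Matrix.trace (Z2 * (B + D * B' * Dᵀ) * M')
    have t1 : Matrix.trace (Dᵀ * ((1 + B * M) * Z2) * D * B' * (Dᵀ * Y * M' * Z * D))
        = Matrix.trace (Z2 * (D * B' * Dᵀ) * Y * M') := by
      have : Dᵀ * ((1 + B * M) * Z2) * D * B' * (Dᵀ * Y * M' * Z * D)
          = (Dᵀ * (1 + B * M)) * (Z2 * (D * B' * Dᵀ) * Y * M' * Z * D) := by noncomm_ring
      rw [this, Matrix.trace_mul_comm]
      have : Z2 * (D * B' * Dᵀ) * Y * M' * Z * D * (Dᵀ * (1 + B * M))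
          = Z2 * (D * B' * Dᵀ) * Y * M' * (Z * (D * Dᵀ) * (1 + B * M)) := by noncomm_ring
      rw [this, hD1, mul_one, hZ1, mul_one]
    rw [t1, sub_sub, ← Matrix.trace_add, ← add_mul, s5k_first hY1 hZr hW1]
  · show D'ᵀ * (Dᵀ * (Y2 * (1 + M * B)) * D) * (Dᵀ * Y * M * D) * D' = (D * D')ᵀ * Y2 * M * (D * D')
    rw [Matrix.transpose_mul]
    have : D'ᵀ * (Dᵀ * (Y2 * (1 + M * B)) * D) * (Dᵀ * Y * M * D) * D'
        = D'ᵀ * Dᵀ * Y2 * ((1 + M * B) * (D * Dᵀ) * Y) * M * (D * D') := by noncomm_ring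
    rw [this, hD1, mul_one, hYr, mul_one]
  · show D'ᵀ * (Dᵀ * (Y2 * (1 + M * B)) * D) * (Dᵀ * Y * M' * Z * D) * (Dᵀ * ((1 + B * M) * Z2) * D) * D'
      = (D * D')ᵀ * Y2 * M' * Z2 * (D * D')
    rw [Matrix.transpose_mul]
    have : D'ᵀ * (Dᵀ * (Y2 * (1 + M * B)) * D) * (Dᵀ * Y * M' * Z * D) * (Dᵀ * ((1 + B * M) * Z2) * D) * D'
        = D'ᵀ * Dᵀ * Y2 * ((1 + M * B) * (D * Dᵀ) * Y) * M' * (Z * (D * Dᵀ) * (1 + B * M)) * Z2 * (D * D') := by noncomm_ring
    rw [this, hD1, mul_one, mul_one, hYr, hZ1, mul_one, mul_one]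

theorem s5k_chQ_orth {U : Matrix (Fin k) (Fin k) ℝ} (hU : IsOrth U) : chQ U * (chQ U)ᵀ = 1 := by
  have h1 : U * Uᵀ = 1 := hU
  unfold chQ
  rw [Matrix.fromBlocks_transpose, Matrix.fromBlocks_multiply]
  simp [h1]

theorem s5k_chQ_T (U : Matrix (Fin k) (Fin k) ℝ) : chQ Uᵀ = (chQ U)ᵀ := by
  unfold chQ
  rw [Matrix.fromBlocks_transpose]
  simp

theorem s5k_chB_conj {U : Matrix (Fin k) (Fin k) ℝ} (hU : IsOrth U) (O : Matrix (Fin k) (Fin k) ℝ) :
    chB (U * O * Uᵀ) = chQ U * chB O * (chQ U)ᵀ := by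
  have h1 : U * Uᵀ = 1 := hU
  unfold chB chQ
  rw [Matrix.fromBlocks_transpose, Matrix.fromBlocks_multiply, Matrix.fromBlocks_multiply]
  congr 1
  · simp
  · simp only [Matrix.transpose_mul, Matrix.transpose_transpose, Matrix.transpose_zero, zero_mul, mul_zero, zero_add, add_zero]
    rw [mul_sub, sub_mul, mul_one, h1, mul_assoc]
  · simp only [Matrix.transpose_zero, zero_mul, mul_zero, zero_add, add_zero]
    rw [mul_sub, sub_mul, mul_one, h1]
  · simp

theorem s5k_chD_conj {U : Matrix (Fin k) (Fin k) ℝ} (hU : IsOrth U) (O : Matrix (Fin k) (Fin k) ℝ) :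
    chD (U * O * Uᵀ) = chQ U * chD O * (chQ U)ᵀ := by
  have h1 : U * Uᵀ = 1 := hU
  unfold chD chQ
  rw [Matrix.fromBlocks_transpose, Matrix.fromBlocks_multiply, Matrix.fromBlocks_multiply]
  congr 1
  · simp [h1]
  · simp
  · simp
  · simp

/-- A4. Conjugation `R_U⁻¹ T_O R_U = T_{U O Uᵀ}` (all `s`): `Q B_O Qᵀ = B_{UOUᵀ}`, `Q D_O Qᵀ = D_{UOUᵀ}`,
`(Qᵀ X Q)⁻¹ = Qᵀ X⁻¹ Q` by `Matrix.mul_inv_rev` and `Q⁻¹ = Qᵀ`. -/
theorem s5_swT_conj {U O : Matrix (Fin k) (Fin k) ℝ} (hU : IsOrth U) (s : SwSt k) :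
    swR Uᵀ (swT O (swR U s)) = swT (U * O * Uᵀ) s := by
  obtain ⟨m, M, M'⟩ := s
  obtain ⟨B, hB⟩ : ∃ B, B = toC (chB O) := ⟨_, rfl⟩
  obtain ⟨D, hD⟩ : ∃ D, D = toC (chD O) := ⟨_, rfl⟩
  obtain ⟨Q, hQ⟩ : ∃ Q, Q = toC (chQ U) := ⟨_, rfl⟩
  have hQ1 : Q * Qᵀ = 1 := by rw [hQ, ← s5k_toC_T, ← s5k_toC_mul, s5k_chQ_orth hU, s5k_toC_one]
  have hQ2 : Qᵀ * Q = 1 := mul_eq_one_comm.1 hQ1
  have hQT : toC (chQ Uᵀ) = Qᵀ := by rw [s5k_chQ_T, s5k_toC_T, hQ]
  have hB2 : toC (chB (U * O * Uᵀ)) = Q * B * Qᵀ := by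
    rw [s5k_chB_conj hU, s5k_toC_mul, s5k_toC_mul, s5k_toC_T, hB, hQ]
  have hD2 : toC (chD (U * O * Uᵀ)) = Q * D * Qᵀ := by
    rw [s5k_chD_conj hU, s5k_toC_mul, s5k_toC_mul, s5k_toC_T, hD, hQ]
  obtain ⟨iA, iB⟩ := s5_conj_inv (X := M) (B' := B) hQ1
  obtain ⟨Y, hY⟩ : ∃ Y, Y = (1 + M * (Q * B * Qᵀ))⁻¹ := ⟨_, rfl⟩
  obtain ⟨Z, hZ⟩ : ∃ Z, Z = (1 + Q * B * Qᵀ * M)⁻¹ := ⟨_, rfl⟩
  rw [← hY] at iA
  rw [← hZ] at iB
  have c1 : swR U (m, M, M') = (m, Qᵀ * M * Q, Qᵀ * M' * Q) := by rw [hQ]; rfl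
  have c2 : ∀ (m1 : ℂ) (M1 M1' : Matrix (Ch k) (Ch k) ℂ), swT O (m1, M1, M1') =
      (m1 - Matrix.trace ((1 + B * M1)⁻¹ * B * M1'), Dᵀ * (1 + M1 * B)⁻¹ * M1 * D, Dᵀ * (1 + M1 * B)⁻¹ * M1' * (1 + B * M1)⁻¹ * D) := by
    intro m1 M1 M1'
    rw [hB, hD]; rfl
  have c3 : ∀ (m1 : ℂ) (M1 M1' : Matrix (Ch k) (Ch k) ℂ), swR Uᵀ (m1, M1, M1') = (m1, Qᵀᵀ * M1 * Qᵀ, Qᵀᵀ * M1' * Qᵀ) := by
    intro m1 M1 M1'
    rw [← hQT]; rfl
  have c4 : swT (U * O * Uᵀ) (m, M, M') = (m - Matrix.trace (Z * (Q * B * Qᵀ) * M'), (Q * D * Qᵀ)ᵀ * Y * M * (Q * D * Qᵀ),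
      (Q * D * Qᵀ)ᵀ * Y * M' * Z * (Q * D * Qᵀ)) := by
    rw [hY, hZ, ← hB2, ← hD2]; rfl
  rw [c1, c2, c3, c4, iA, iB, Matrix.transpose_transpose]
  refine Prod.ext ?_ (Prod.ext ?_ ?_)
  · show m - Matrix.trace (Qᵀ * Z * Q * B * (Qᵀ * M' * Q)) = m - Matrix.trace (Z * (Q * B * Qᵀ) * M')
    congr 1
    have : Qᵀ * Z * Q * B * (Qᵀ * M' * Q) = Qᵀ * (Z * (Q * B * Qᵀ) * M' * Q) := by noncomm_ring
    rw [this, Matrix.trace_mul_comm, mul_assoc _ Q, hQ1, mul_one]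
  · show Q * (Dᵀ * (Qᵀ * Y * Q) * (Qᵀ * M * Q) * D) * Qᵀ = (Q * D * Qᵀ)ᵀ * Y * M * (Q * D * Qᵀ)
    rw [Matrix.transpose_mul, Matrix.transpose_mul, Matrix.transpose_transpose]
    have : Q * (Dᵀ * (Qᵀ * Y * Q) * (Qᵀ * M * Q) * D) * Qᵀ = Q * (Dᵀ * Qᵀ) * Y * (Q * Qᵀ) * M * (Q * D * Qᵀ) := by noncomm_ring
    rw [this, hQ1, mul_one]
  · show Q * (Dᵀ * (Qᵀ * Y * Q) * (Qᵀ * M' * Q) * (Qᵀ * Z * Q) * D) * Qᵀ = (Q * D * Qᵀ)ᵀ * Y * M' * Z * (Q * D * Qᵀ)
    rw [Matrix.transpose_mul, Matrix.transpose_mul, Matrix.transpose_transpose]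
    have : Q * (Dᵀ * (Qᵀ * Y * Q) * (Qᵀ * M' * Q) * (Qᵀ * Z * Q) * D) * Qᵀ
        = Q * (Dᵀ * Qᵀ) * Y * (Q * Qᵀ) * M' * (Q * Qᵀ) * Z * (Q * D * Qᵀ) := by noncomm_ring
    rw [this, hQ1, mul_one, mul_one]

theorem s5y_quad_le {n : Type} [Fintype n] (E : Matrix n n ℂ) (v : n → ℂ) :
    ‖star v ⬝ᵥ (E *ᵥ v)‖ ≤ (∑ i, ∑ j, ‖E i j‖) * rsvSq v := by
  unfold dotProduct Matrix.mulVec dotProduct
  rw [Finset.sum_mul]
  refine (norm_sum_le _ _).trans (Finset.sum_le_sum fun i _ => ?_)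
  rw [Finset.mul_sum, Finset.sum_mul]
  refine (norm_sum_le _ _).trans (Finset.sum_le_sum fun j _ => ?_)
  rw [norm_mul, norm_mul, Pi.star_apply, norm_star]
  have h1 : ‖v i‖ ^ 2 ≤ rsvSq v :=
    Finset.single_le_sum (f := fun i => ‖v i‖ ^ 2) (fun _ _ => by positivity) (Finset.mem_univ i)
  have h2 : ‖v j‖ ^ 2 ≤ rsvSq v :=
    Finset.single_le_sum (f := fun i => ‖v i‖ ^ 2) (fun _ _ => by positivity) (Finset.mem_univ j)
  have h3 : ‖v i‖ * ‖v j‖ ≤ rsvSq v := by nlinarith [sq_nonneg (‖v i‖ - ‖v j‖)]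
  calc ‖v i‖ * (‖E i j‖ * ‖v j‖) = ‖E i j‖ * (‖v i‖ * ‖v j‖) := by ring
    _ ≤ ‖E i j‖ * rsvSq v := mul_le_mul_of_nonneg_left h3 (norm_nonneg _)

/-- A5. The domain is open (`imH M` is always Hermitian; `v ↦ ⟨v, imH M v⟩` has a positive minimum on the
unit sphere, which is stable under small perturbations of the entries; or: leading minors / `PosDef` iff
all eigenvalues positive + continuity). -/
theorem s5_isOpen_dom : IsOpen {s : SwSt k | s5Dom s} := by
  rw [isOpen_iff_mem_nhds]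
  intro s0 hs0
  obtain ⟨c, hc, h⟩ := (s5_pd_iff_dis _).mp hs0
  have hcont : Continuous fun s : SwSt k => ∑ i, ∑ j, ‖(s.2.1 - s0.2.1) i j‖ := by
    refine continuous_finsetSum _ fun i _ => continuous_finsetSum _ fun j _ => ?_
    refine Continuous.norm ?_
    simp only [Matrix.sub_apply]
    exact ((continuous_snd.fst : Continuous fun s : SwSt k => s.2.1).matrix_elem i j).sub
      continuous_const
  have hnh : {s : SwSt k | ∑ i, ∑ j, ‖(s.2.1 - s0.2.1) i j‖ < c / 2} ∈ 𝓝 s0 := by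
    refine (isOpen_lt hcont continuous_const).mem_nhds ?_
    simp only [Set.mem_ofPred_eq, sub_self, Matrix.zero_apply, norm_zero, Finset.sum_const_zero]
    linarith
  refine Filter.mem_of_superset hnh fun s hs => ?_
  refine (s5_pd_iff_dis _).mpr ⟨c / 2, by linarith, fun v => ?_⟩
  have h1 := h v
  have h2 := s5y_quad_le (s.2.1 - s0.2.1) v
  have h3 : (star v ⬝ᵥ (s.2.1 *ᵥ v)).im
      = (star v ⬝ᵥ (s0.2.1 *ᵥ v)).im + (star v ⬝ᵥ ((s.2.1 - s0.2.1) *ᵥ v)).im := by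
    rw [← Complex.add_im, ← dotProduct_add, ← Matrix.add_mulVec]
    congr 3
    abel
  have h4 := Complex.abs_im_le_norm (star v ⬝ᵥ ((s.2.1 - s0.2.1) *ᵥ v))
  have h5 := (abs_le.mp h4).1
  have h6 : (∑ i, ∑ j, ‖(s.2.1 - s0.2.1) i j‖) * rsvSq v ≤ c / 2 * rsvSq v :=
    mul_le_mul_of_nonneg_right (le_of_lt hs) (rsvSq_nonneg v)
  rw [h3]
  linarith

theorem s5y_inv_contOn {X n : Type} [TopologicalSpace X] [Fintype n] [DecidableEq n]
    {f : X → Matrix n n ℂ} {S : Set X} (hf : ContinuousOn f S)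
    (hdet : ∀ x ∈ S, IsUnit (f x).det) : ContinuousOn (fun x => (f x)⁻¹) S := by
  simp only [Matrix.inv_def, Ring.inverse_eq_inv']
  refine ContinuousOn.smul (ContinuousOn.inv₀ ?_ fun x hx => (hdet x hx).ne_zero) ?_
  · exact (Continuous.matrix_det continuous_id).comp_continuousOn hf
  · exact (Continuous.matrix_adjugate continuous_id).comp_continuousOn hf

theorem s5y_mul_contOn {X l m n : Type} [TopologicalSpace X] [Fintype m]
    {f : X → Matrix l m ℂ} {g : X → Matrix m n ℂ} {S : Set X} (hf : ContinuousOn f S)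
    (hg : ContinuousOn g S) : ContinuousOn (fun x => f x * g x) S :=
  (Continuous.matrix_mul (continuous_fst (X := Matrix l m ℂ) (Y := Matrix m n ℂ))
    continuous_snd).comp_continuousOn (hf.prodMk hg)

/-- A6. `T_O` is continuous on the domain (`A ↦ A⁻¹ = Ring.inverse (det A) • adjugate A` is continuous at
invertible `A`; A0). -/
theorem s5_swT_continuousOn {O : Matrix (Fin k) (Fin k) ℝ} (hO : IsOrth O) :
    ContinuousOn (swT O) {s : SwSt k | s5Dom s} := by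
  have hB : (chB O)ᵀ = chB O := (s5_chB_mul (O' := O) hO).2.2.2
  have m1 : ContinuousOn (fun s : SwSt k => s.2.1) {s : SwSt k | s5Dom s} :=
    continuous_snd.fst.continuousOn
  have m2 : ContinuousOn (fun s : SwSt k => s.2.2) {s : SwSt k | s5Dom s} :=
    continuous_snd.snd.continuousOn
  have i1 : ContinuousOn (fun s : SwSt k => (1 + toC (chB O) * s.2.1)⁻¹) {s : SwSt k | s5Dom s} :=
    s5y_inv_contOn (by fun_prop) fun s hs => (s5_unit_of_dom hs hB).1
  have i2 : ContinuousOn (fun s : SwSt k => (1 + s.2.1 * toC (chB O))⁻¹) {s : SwSt k | s5Dom s} :=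
    s5y_inv_contOn (by fun_prop) fun s hs => (s5_unit_of_dom hs hB).2.1
  unfold swT
  refine ContinuousOn.prodMk ?_ (ContinuousOn.prodMk ?_ ?_)
  · refine continuous_fst.continuousOn.sub ?_
    exact (Continuous.matrix_trace continuous_id).comp_continuousOn
      (s5y_mul_contOn (s5y_mul_contOn i1 continuousOn_const) m2)
  · exact s5y_mul_contOn (s5y_mul_contOn (s5y_mul_contOn continuousOn_const i2) m1)
      continuousOn_const
  · exact s5y_mul_contOn (s5y_mul_contOn (s5y_mul_contOn (s5y_mul_contOn continuousOn_const i2) m2)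
      i1) continuousOn_const

theorem s5y_inv_meas {X n : Type} [Fintype n] [DecidableEq n] [MeasurableSpace X]
    {f : X → Matrix n n ℂ} (hf : Measurable f) : Measurable fun x => (f x)⁻¹ :=
  measurable_pi_lambda _ fun i => measurable_pi_lambda _ fun j =>
    goe_inv_measurable (fun a c => ((measurable_pi_apply (X := fun _ : n => ℂ) c).comp
      (measurable_pi_apply (X := fun _ : n => n → ℂ) a)).comp hf) i j

theorem s5y_mul_meas0 {X ι κ τ : Type} [Fintype κ] [MeasurableSpace X]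
    {f : X → Matrix ι κ ℂ} {g : X → Matrix κ τ ℂ} (hf : Measurable f) (hg : Measurable g) :
    Measurable fun x => f x * g x := by
  refine measurable_pi_lambda _ fun i => measurable_pi_lambda _ fun j => ?_
  simp only [Matrix.mul_apply]
  refine Finset.measurable_sum _ fun l _ => ?_
  exact (((measurable_pi_apply (X := fun _ : κ => ℂ) l).comp
      (measurable_pi_apply (X := fun _ : ι => κ → ℂ) i)).comp hf).mul
    (((measurable_pi_apply (X := fun _ : τ => ℂ) j).comp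
      (measurable_pi_apply (X := fun _ : κ => τ → ℂ) l)).comp hg)

theorem s5y_one_add_meas {X n : Type} [DecidableEq n] [MeasurableSpace X]
    {f : X → Matrix n n ℂ} (hf : Measurable f) : Measurable fun x => 1 + f x := by
  refine measurable_pi_lambda _ fun i => measurable_pi_lambda _ fun j => ?_
  simp only [Matrix.add_apply]
  exact measurable_const.add (((measurable_pi_apply (X := fun _ : n => ℂ) j).comp
      (measurable_pi_apply (X := fun _ : n => n → ℂ) i)).comp hf)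

/-- A7. `T_O` is measurable (everywhere; `⁻¹` is the total nonsingular inverse: `det`, `adjugate` are
polynomial in the entries, `Ring.inverse` on `ℂ` is `⁻¹`, measurable). -/
theorem s5_swT_measurable (O : Matrix (Fin k) (Fin k) ℝ) : Measurable (swT (k := k) O) := by
  have m1 : Measurable fun s : SwSt k => s.2.1 := measurable_snd.fst
  have m2 : Measurable fun s : SwSt k => s.2.2 := measurable_snd.snd
  have i1 : Measurable fun s : SwSt k => (1 + toC (chB O) * s.2.1)⁻¹ :=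
    s5y_inv_meas (s5y_one_add_meas (s5y_mul_meas0 measurable_const m1))
  have i2 : Measurable fun s : SwSt k => (1 + s.2.1 * toC (chB O))⁻¹ :=
    s5y_inv_meas (s5y_one_add_meas (s5y_mul_meas0 m1 measurable_const))
  unfold swT
  refine Measurable.prodMk ?_ (Measurable.prodMk ?_ ?_)
  · refine measurable_fst.sub ?_
    have h : Measurable fun s : SwSt k => (1 + toC (chB O) * s.2.1)⁻¹ * toC (chB O) * s.2.2 :=
      s5y_mul_meas0 (s5y_mul_meas0 i1 measurable_const) m2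
    simp only [Matrix.trace, Matrix.diag]
    exact Finset.measurable_sum _ fun i _ => ((measurable_pi_apply (X := fun _ : Ch k => ℂ) i).comp
      (measurable_pi_apply (X := fun _ : Ch k => Ch k → ℂ) i)).comp h
  · exact s5y_mul_meas0 (s5y_mul_meas0 (s5y_mul_meas0 measurable_const i2) m1) measurable_const
  · exact s5y_mul_meas0 (s5y_mul_meas0 (s5y_mul_meas0 (s5y_mul_meas0 measurable_const i2) m2) i1)
      measurable_const

/-- A8. `R_U` is continuous. -/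
theorem s5_swR_continuous (U : Matrix (Fin k) (Fin k) ℝ) : Continuous (swR (k := k) U) := by
  unfold swR
  fun_prop

theorem s5_refl_T (u : Fin k → ℝ) : (reflM u)ᵀ = reflM u := by
  unfold reflM
  rw [Matrix.transpose_sub, Matrix.transpose_one, Matrix.transpose_smul, Matrix.transpose_vecMulVec]

theorem s5_refl_mulVec (u x : Fin k → ℝ) : reflM u *ᵥ x = x - (2 * (u ⬝ᵥ x)) • u := by
  unfold reflM
  rw [Matrix.sub_mulVec, Matrix.one_mulVec, Matrix.smul_mulVec, Matrix.vecMulVec_mulVec]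
  ext i
  simp only [Pi.sub_apply, Pi.smul_apply, smul_eq_mul, MulOpposite.smul_eq_mul_unop, MulOpposite.unop_op]
  ring

theorem s5_refl_orth0 {u : Fin k → ℝ} (hu : u ⬝ᵥ u = 1) : IsOrth (reflM u) := by
  unfold IsOrth
  rw [s5_refl_T]
  unfold reflM
  rw [Matrix.sub_mul, Matrix.mul_sub, Matrix.mul_sub, Matrix.one_mul, Matrix.mul_one, Matrix.one_mul,
    Matrix.smul_mul, Matrix.mul_smul, Matrix.vecMulVec_mul_vecMulVec, hu, one_smul]
  module

theorem s5_orth_T {O : Matrix (Fin k) (Fin k) ℝ} (hO : IsOrth O) : IsOrth Oᵀ := by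
  unfold IsOrth at *
  rw [Matrix.transpose_transpose]
  exact mul_eq_one_comm.1 hO

theorem s5_orth_mul {O O' : Matrix (Fin k) (Fin k) ℝ} (hO : IsOrth O) (hO' : IsOrth O') : IsOrth (O * O') := by
  unfold IsOrth at *
  rw [Matrix.transpose_mul, Matrix.mul_assoc, ← Matrix.mul_assoc O', hO', Matrix.one_mul, hO]

theorem s5_orth_dot {O : Matrix (Fin k) (Fin k) ℝ} (hO : IsOrth O) (x y : Fin k → ℝ) : (O *ᵥ x) ⬝ᵥ (O *ᵥ y) = x ⬝ᵥ y := by
  have h : Oᵀ * O = 1 := by simpa [IsOrth] using s5_orth_T hO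
  rw [Matrix.dotProduct_mulVec, Matrix.vecMul_mulVec, ← Matrix.dotProduct_mulVec, h, Matrix.one_mulVec]

/-- conjugation of a reflection -/
theorem s5_refl_conj (U : Matrix (Fin k) (Fin k) ℝ) (hU : IsOrth U) (w : Fin k → ℝ) : U * reflM w * Uᵀ = reflM (U *ᵥ w) := by
  unfold reflM
  rw [Matrix.mul_sub, Matrix.sub_mul, Matrix.mul_one, hU, Matrix.mul_smul, Matrix.smul_mul, Matrix.mul_vecMulVec,
    Matrix.vecMulVec_mul, Matrix.vecMul_transpose]

/-- **Householder**: two distinct vectors of the same length are exchanged by a reflection which fixes every vector having the same product with both -/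
theorem s5_householder {a b : Fin k → ℝ} (hab : a ⬝ᵥ a = b ⬝ᵥ b) (hne : a ≠ b) :
    ∃ v : Fin k → ℝ, v ⬝ᵥ v = 1 ∧ reflM v *ᵥ a = b ∧ ∀ x : Fin k → ℝ, a ⬝ᵥ x = b ⬝ᵥ x → reflM v *ᵥ x = x := by
  have hpos : 0 < (a - b) ⬝ᵥ (a - b) := by
    have h0 : a - b ≠ 0 := sub_ne_zero.2 hne
    have := Matrix.dotProduct_star_self_pos_iff.2 h0
    simpa using this
  set n2 := (a - b) ⬝ᵥ (a - b) with hn2
  set c := (Real.sqrt n2)⁻¹ with hc
  have hc2 : c * c * n2 = 1 := by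
    have h1 : Real.sqrt n2 * Real.sqrt n2 = n2 := Real.mul_self_sqrt hpos.le
    have h2 : Real.sqrt n2 ≠ 0 := (Real.sqrt_pos.2 hpos).ne'
    rw [hc]; field_simp; nlinarith
  have hexp : n2 = 2 * (a ⬝ᵥ a) - 2 * (a ⬝ᵥ b) := by
    rw [hn2]
    simp only [sub_dotProduct, dotProduct_sub]
    rw [dotProduct_comm b a, ← hab]; ring
  refine ⟨c • (a - b), ?_, ?_, fun x hx => ?_⟩
  · rw [smul_dotProduct, dotProduct_smul, smul_eq_mul, smul_eq_mul, ← mul_assoc]; exact hc2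
  · rw [s5_refl_mulVec, smul_dotProduct, smul_smul, smul_eq_mul]
    have h1 : (a - b) ⬝ᵥ a = n2 / 2 := by
      rw [hexp, sub_dotProduct, dotProduct_comm b a]; ring
    rw [h1]
    have : 2 * (c * (n2 / 2)) * c = 1 := by nlinarith
    rw [this, one_smul]; abel
  · rw [s5_refl_mulVec, smul_dotProduct, sub_dotProduct, hx]; simp

theorem s5_swap_eq (hk : 2 ≤ k) : swapMat k hk
    = reflM ((Real.sqrt 2)⁻¹ • ((Pi.single (⟨0, by omega⟩ : Fin k) (1 : ℝ)) - Pi.single (⟨1, by omega⟩ : Fin k) (1 : ℝ))) := by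
  set i0 : Fin k := ⟨0, by omega⟩ with hi0
  set i1 : Fin k := ⟨1, by omega⟩ with hi1
  have h01 : i0 ≠ i1 := by simp [hi0, hi1, Fin.ext_iff]
  have hc : (Real.sqrt 2)⁻¹ * (Real.sqrt 2)⁻¹ = 1 / 2 := by
    rw [← mul_inv, Real.mul_self_sqrt (by norm_num)]; norm_num
  set c := (Real.sqrt 2)⁻¹ with hcd
  ext i j
  simp only [swapMat, PEquiv.toMatrix_apply, Equiv.toPEquiv_apply, Option.mem_def, Option.some.injEq, reflM, Matrix.sub_apply,
    Matrix.smul_apply, Matrix.vecMulVec_apply, Matrix.one_apply, Pi.smul_apply, Pi.sub_apply, Pi.single_apply, smul_eq_mul,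
    Equiv.swap_apply_def]
  rw [← hi0, ← hi1]
  by_cases a0 : i = i0
  · subst a0
    by_cases b0 : j = i0
    · subst b0; simp [h01, h01.symm]; nlinarith
    · by_cases b1 : j = i1
      · subst b1; simp [h01, h01.symm]; nlinarith
      · simp [h01, h01.symm, b0, b1, Ne.symm b0, Ne.symm b1]
  · by_cases a1 : i = i1
    · subst a1
      by_cases b0 : j = i0
      · subst b0; simp [h01, h01.symm]; nlinarith
      · by_cases b1 : j = i1
        · subst b1; simp [h01, h01.symm]; nlinarith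
        · simp [h01, h01.symm, b0, b1, Ne.symm b0, Ne.symm b1]
    · simp [a0, a1]


/-- A9. Every reflection is an orthogonal conjugate of the transposition `(0 1) = reflM w`,
`w = (e₀ - e₁)/√2`: take `U = 1` if `u = w`, else the Householder matrix `reflM ((u-w)/|u-w|)`, which maps
`w` to `u`; `U (reflM w) Uᵀ = reflM (U w)`. -/
theorem s5_refl_conj_swap (hk : 2 ≤ k) {u : Fin k → ℝ} (hu : u ⬝ᵥ u = 1) :
    ∃ U : Matrix (Fin k) (Fin k) ℝ, IsOrth U ∧ reflM u = U * swapMat k hk * Uᵀ := by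
  rw [s5_swap_eq hk]
  set w : Fin k → ℝ := (Real.sqrt 2)⁻¹ • ((Pi.single (⟨0, by omega⟩ : Fin k) (1 : ℝ)) - Pi.single (⟨1, by omega⟩ : Fin k) (1 : ℝ)) with hw
  have hww : w ⬝ᵥ w = 1 := by
    have hc : (Real.sqrt 2)⁻¹ * (Real.sqrt 2)⁻¹ = 1 / 2 := by
      rw [← mul_inv, Real.mul_self_sqrt (by norm_num)]; norm_num
    have h01 : (⟨0, by omega⟩ : Fin k) ≠ ⟨1, by omega⟩ := by simp [Fin.ext_iff]
    rw [hw, smul_dotProduct, dotProduct_smul, smul_eq_mul, smul_eq_mul, ← mul_assoc, hc]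
    simp only [sub_dotProduct, dotProduct_sub, single_dotProduct, Pi.single_apply, one_mul]
    simp [h01, h01.symm]
    norm_num
  by_cases h : w = u
  · refine ⟨1, by simp [IsOrth], ?_⟩
    rw [h]; simp
  · obtain ⟨v, hv, hvw, -⟩ := s5_householder (hww.trans hu.symm) h
    refine ⟨reflM v, s5_refl_orth0 hv, ?_⟩
    rw [s5_refl_conj _ (s5_refl_orth0 hv), hvw]

/-- downward induction for Cartan-Dieudonne: an orthogonal matrix which fixes the first `k - m` basis vectors -/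
theorem s5_cd_aux : ∀ (m : ℕ) (O : Matrix (Fin k) (Fin k) ℝ), IsOrth O →
    (∀ i : Fin k, i.val + m < k → O *ᵥ Pi.single i 1 = Pi.single i 1) →
    ∃ l : List (Fin k → ℝ), (∀ u ∈ l, u ⬝ᵥ u = 1) ∧ O = (l.map reflM).prod := by
  intro m
  induction m with
  | zero =>
    intro O _ hfix
    refine ⟨[], by simp, ?_⟩
    simp only [List.map_nil, List.prod_nil]
    ext i j
    have := congrFun (hfix j (by simp)) i
    rw [Matrix.mulVec_single_one, Matrix.col_apply] at this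
    rw [Matrix.one_apply, this, Pi.single_apply]
  | succ m ih =>
    intro O hO hfix
    by_cases hm : m < k
    · set e : Fin k := ⟨k - 1 - m, by omega⟩ with he
      by_cases hfe : O *ᵥ Pi.single e 1 = Pi.single e 1
      · refine ih O hO fun i hi => ?_
        by_cases hie : i = e
        · rw [hie]; exact hfe
        · refine hfix i ?_
          have : i.val ≠ k - 1 - m := fun h => hie (Fin.ext h)
          omega
      · have hn : (O *ᵥ Pi.single e 1) ⬝ᵥ (O *ᵥ Pi.single e 1) = (Pi.single e (1 : ℝ) : Fin k → ℝ) ⬝ᵥ Pi.single e 1 :=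
          s5_orth_dot hO _ _
        obtain ⟨v, hv, hva, hvx⟩ := s5_householder hn hfe
        obtain ⟨l, hl, hprod⟩ := ih (reflM v * O) (s5_orth_mul (s5_refl_orth0 hv) hO) (fun i hi => by
          rw [← Matrix.mulVec_mulVec]
          by_cases hie : i = e
          · rw [hie]; exact hva
          · have hlt : i.val + (m + 1) < k := by
              have : i.val ≠ k - 1 - m := fun h => hie (Fin.ext h)
              omega
            rw [hfix i hlt]
            refine hvx _ ?_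
            have h1 : (O *ᵥ Pi.single e 1) ⬝ᵥ (Pi.single i (1 : ℝ) : Fin k → ℝ) = (Pi.single e (1 : ℝ) : Fin k → ℝ) ⬝ᵥ Pi.single i 1 := by
              conv_lhs => rw [← hfix i hlt]
              exact s5_orth_dot hO _ _
            exact h1)
        refine ⟨v :: l, ?_, ?_⟩
        · intro u hu
          rcases List.mem_cons.1 hu with h | h
          · rw [h]; exact hv
          · exact hl u h
        · rw [List.map_cons, List.prod_cons, ← hprod, ← Matrix.mul_assoc]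
          have : reflM v * reflM v = 1 := by
            have := s5_refl_orth0 hv
            rwa [IsOrth, s5_refl_T] at this
          rw [this, Matrix.one_mul]
    · exact ih O hO fun i hi => absurd hi (by omega)

/-- A10 (Cartan-Dieudonne; Mathlib `LinearIsometryEquiv.reflections_generate_dim` on
`EuclideanSpace ℝ (Fin k)`; translate `reflection (ℝ ∙ v)ᗮ` into `reflM (v/|v|)`, drop `v = 0`). -/
theorem s5_orth_eq_prod_refl {O : Matrix (Fin k) (Fin k) ℝ} (hO : IsOrth O) :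
    ∃ l : List (Fin k → ℝ), (∀ u ∈ l, u ⬝ᵥ u = 1) ∧ O = (l.map reflM).prod := by
  exact s5_cd_aux k O hO fun i hi => absurd hi (by omega)

/-- A11. -/
theorem s5_refl_orth {u : Fin k → ℝ} (hu : u ⬝ᵥ u = 1) : IsOrth (reflM u) := by
  exact s5_refl_orth0 hu

end algebra

/-! ## B. Invariance of the limit law (Prop 5.1) -/

/-- B0 (general). A finite Borel measure on a (pseudo)metrizable space is determined by the integrals of
bounded continuous functions (`ext_of_forall_integral_eq_of_IsFiniteMeasure`); push-forward form. -/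
theorem s5_map_eq_of_integral {X : Type} [TopologicalSpace X]
    [TopologicalSpace.PseudoMetrizableSpace X] [MeasurableSpace X] [BorelSpace X] {P : Measure X}
    [IsProbabilityMeasure P] {T : X → X} (hT : Measurable T)
    (h : ∀ f : BoundedContinuousFunction X ℝ, ∫ v, f (T v) ∂P = ∫ v, f v ∂P) : P.map T = P := by
  have : IsProbabilityMeasure (P.map T) := Measure.isProbabilityMeasure_map hT.aemeasurable
  refine ext_of_forall_integral_eq_of_IsFiniteMeasure fun f => ?_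
  rw [integral_map hT.aemeasurable f.continuous.measurable.aestronglyMeasurable]
  exact h f

/-- B6 (general; not in Mathlib). Weak convergence tests against bounded measurable functions which are
continuous on an open set of full limit measure. Choose a compatible pseudometric; cutoffs
`χ_n v = min 1 (n · infDist v Uᶜ)`; `χ_n Ψ` is bounded continuous; `∫ (1-χ_n) dP_L → ∫ (1-χ_n) dP ↓ 0`. -/
theorem s5_weak_of_continuousOn {X : Type} [TopologicalSpace X]
    [TopologicalSpace.PseudoMetrizableSpace X] [MeasurableSpace X] [BorelSpace X]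
    {Ps : ℕ → Measure X} {P : Measure X} [∀ n, IsProbabilityMeasure (Ps n)]
    [IsProbabilityMeasure P]
    (hlim : ∀ f : BoundedContinuousFunction X ℝ,
      Tendsto (fun n => ∫ v, f v ∂(Ps n)) atTop (𝓝 (∫ v, f v ∂P)))
    {U : Set X} (hU : IsOpen U) (hPU : ∀ᵐ v ∂P, v ∈ U) {Ψ : X → ℝ} (hm : Measurable Ψ)
    (hb : ∀ v, |Ψ v| ≤ 1) (hc : ContinuousOn Ψ U) :
    Tendsto (fun n => ∫ v, Ψ v ∂(Ps n)) atTop (𝓝 (∫ v, Ψ v ∂P)) := by
  have hF : IsClosed Uᶜ := hU.isClosed_compl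
  -- real valued outer approximations of the complement
  let φ : ℕ → BoundedContinuousFunction X ℝ := fun m =>
    ⟨⟨fun x => ((hF.apprSeq m x : NNReal) : ℝ),
      Continuous.comp' NNReal.continuous_coe (hF.apprSeq m).continuous⟩, (hF.apprSeq m).map_bounded'⟩
  have hφ : ∀ m x, φ m x = ((hF.apprSeq m x : NNReal) : ℝ) := fun _ _ => rfl
  have hφ0 : ∀ m x, 0 ≤ φ m x := fun m x => NNReal.coe_nonneg _
  have hφ1 : ∀ m x, φ m x ≤ 1 := fun m x => by
    rw [hφ]; exact_mod_cast HasOuterApproxClosed.apprSeq_apply_le_one hF m x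
  have hφF : ∀ m x, x ∉ U → φ m x = 1 := fun m x hx => by
    rw [hφ, HasOuterApproxClosed.apprSeq_apply_eq_one hF m (show x ∈ Uᶜ from hx)]; rfl
  have hPF : P Uᶜ = 0 := hPU
  have hφint : ∀ (Q : Measure X) [IsProbabilityMeasure Q] (m : ℕ), Integrable (fun x => φ m x) Q :=
    fun Q _ m => (φ m).integrable Q
  have hφlim : Tendsto (fun m => ∫ x, φ m x ∂P) atTop (𝓝 0) := by
    have h := HasOuterApproxClosed.tendsto_lintegral_apprSeq hF P
    rw [hPF] at h
    have h2 : ∀ m, ∫ x, φ m x ∂P = (∫⁻ x, (hF.apprSeq m x : ENNReal) ∂P).toReal := by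
      intro m
      rw [integral_eq_lintegral_of_nonneg_ae (ae_of_all _ (hφ0 m))
        (φ m).continuous.measurable.aestronglyMeasurable]
      congr 1
      refine lintegral_congr fun x => ?_
      rw [hφ, ENNReal.ofReal_coe_nnreal]
    simp only [h2]
    have := (ENNReal.tendsto_toReal (a := 0) (by simp)).comp h
    exact this
  -- the truncated test functions are bounded continuous
  have hcont : ∀ m, Continuous fun x => (1 - φ m x) * Ψ x := by
    intro m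
    rw [continuous_iff_continuousAt]
    intro x
    by_cases hx : x ∈ U
    · exact ((continuous_const.sub (φ m).continuous).continuousAt).mul
        (hc.continuousAt (hU.mem_nhds hx))
    · have h0 : Tendsto (fun y => 1 - φ m y) (𝓝 x) (𝓝 0) := by
        have h00 : Tendsto (fun y => 1 - φ m y) (𝓝 x) (𝓝 (1 - φ m x)) :=
          (continuous_const.sub (φ m).continuous : Continuous fun y => 1 - φ m y).tendsto x
        rw [hφF m x hx, sub_self] at h00
        exact h00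
      have h1 : (1 - φ m x) * Ψ x = 0 := by rw [hφF m x hx]; ring
      show Tendsto (fun y => (1 - φ m y) * Ψ y) (𝓝 x) (𝓝 ((1 - φ m x) * Ψ x))
      rw [h1]
      refine squeeze_zero_norm (fun y => ?_) h0
      rw [norm_mul, Real.norm_eq_abs, Real.norm_eq_abs, abs_of_nonneg (by linarith [hφ1 m y])]
      exact mul_le_of_le_one_right (by linarith [hφ1 m y]) (hb y)
  let Ψm : ℕ → BoundedContinuousFunction X ℝ := fun m =>
    BoundedContinuousFunction.ofNormedAddCommGroup (fun x => (1 - φ m x) * Ψ x) (hcont m) 1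
      (fun x => by
        rw [norm_mul, Real.norm_eq_abs, Real.norm_eq_abs, abs_of_nonneg (by linarith [hφ1 m x])]
        exact mul_le_one₀ (by linarith [hφ0 m x]) (abs_nonneg _) (hb x))
  have hΨm : ∀ m x, Ψm m x = (1 - φ m x) * Ψ x := fun _ _ => rfl
  have hΨint : ∀ (Q : Measure X) [IsProbabilityMeasure Q], Integrable Ψ Q := fun Q _ =>
    Integrable.of_bound hm.aestronglyMeasurable 1 (ae_of_all _ fun x => by
      rw [Real.norm_eq_abs]; exact hb x)
  -- error of the truncation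
  have herr : ∀ (Q : Measure X) [IsProbabilityMeasure Q] (m : ℕ),
      |∫ x, Ψ x ∂Q - ∫ x, Ψm m x ∂Q| ≤ ∫ x, φ m x ∂Q := by
    intro Q _ m
    rw [← integral_sub (hΨint Q) ((Ψm m).integrable Q)]
    refine (abs_integral_le_integral_abs).trans ?_
    refine integral_mono_of_nonneg (ae_of_all _ fun x => abs_nonneg _) (hφint Q m)
      (ae_of_all _ fun x => ?_)
    show |Ψ x - Ψm m x| ≤ φ m x
    have : Ψ x - Ψm m x = φ m x * Ψ x := by rw [hΨm]; ring
    rw [this, abs_mul, abs_of_nonneg (hφ0 m x)]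
    exact mul_le_of_le_one_right (hφ0 m x) (hb x)
  rw [Metric.tendsto_atTop]
  intro ε hε
  obtain ⟨m, hm1⟩ : ∃ m, ∫ x, φ m x ∂P < ε / 4 := by
    have := (hφlim.eventually (gt_mem_nhds (show (0 : ℝ) < ε / 4 by linarith))).exists
    exact this
  have e1 := (Metric.tendsto_atTop.mp (hlim (Ψm m))) (ε / 4) (by linarith)
  have e2 := (Metric.tendsto_atTop.mp (hlim (φ m))) (ε / 4) (by linarith)
  obtain ⟨N1, hN1⟩ := e1
  obtain ⟨N2, hN2⟩ := e2
  refine ⟨max N1 N2, fun n hn => ?_⟩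
  have a1 := hN1 n (le_trans (le_max_left _ _) hn)
  have a2 := hN2 n (le_trans (le_max_right _ _) hn)
  rw [Real.dist_eq] at a1 a2 ⊢
  have b1 := herr (Ps n) m
  have b2 := herr P m
  have a2' := (abs_lt.mp a2).2
  have t : ∫ x, Ψ x ∂(Ps n) - ∫ x, Ψ x ∂P
      = (∫ x, Ψ x ∂(Ps n) - ∫ x, Ψm m x ∂(Ps n)) + (∫ x, Ψm m x ∂(Ps n) - ∫ x, Ψm m x ∂P)
        - (∫ x, Ψ x ∂P - ∫ x, Ψm m x ∂P) := by ring
  rw [t]
  have := abs_sub (∫ x, Ψ x ∂(Ps n) - ∫ x, Ψm m x ∂(Ps n) + (∫ x, Ψm m x ∂(Ps n) - ∫ x, Ψm m x ∂P))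
    (∫ x, Ψ x ∂P - ∫ x, Ψm m x ∂P)
  have := abs_add_le (∫ x, Ψ x ∂(Ps n) - ∫ x, Ψm m x ∂(Ps n)) (∫ x, Ψm m x ∂(Ps n) - ∫ x, Ψm m x ∂P)
  linarith

section law
variable {μ : Measure Conf} {p dinv mr : ℝ} {k b : ℕ}

/-- rows: the standard Gaussian vector is invariant under an orthogonal matrix -/
theorem s5y_pi_rot {κ : Type} [Fintype κ] [DecidableEq κ] {Q : Matrix κ κ ℝ} (hQ : Q * Qᵀ = 1) :
    (Measure.pi fun _ : κ => gaussianReal 0 1).map (fun v => Matrix.vecMul v Q)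
      = Measure.pi fun _ : κ => gaussianReal 0 1 := by
  classical
  let E := EuclideanSpace ℝ κ
  let f0 : E →ₗ[ℝ] E := Matrix.toEuclideanLin Qᵀ
  have hn : ∀ x : E, ‖f0 x‖ = ‖x‖ := by
    intro x
    have h1 : ‖f0 x‖ ^ 2 = ‖x‖ ^ 2 := by
      rw [EuclideanSpace.real_norm_sq_eq, EuclideanSpace.real_norm_sq_eq]
      have e1 : ∀ i, (f0 x).ofLp i = (Qᵀ *ᵥ x.ofLp) i := fun i => rfl
      simp only [e1]
      have e2 : ∑ i, (Qᵀ *ᵥ x.ofLp) i ^ 2 = (Qᵀ *ᵥ x.ofLp) ⬝ᵥ (Qᵀ *ᵥ x.ofLp) := by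
        simp [dotProduct, sq]
      have e3 : ∑ i, x.ofLp i ^ 2 = x.ofLp ⬝ᵥ x.ofLp := by simp [dotProduct, sq]
      rw [e2, e3, Matrix.dotProduct_mulVec, Matrix.vecMul_mulVec, Matrix.transpose_transpose, hQ,
        Matrix.vecMul_one]
    exact (sq_eq_sq₀ (norm_nonneg _) (norm_nonneg _)).mp h1
  let li : E →ₗᵢ[ℝ] E := ⟨f0, hn⟩
  let f : E ≃ₗᵢ[ℝ] E := li.toLinearIsometryEquiv rfl
  have h := stdGaussian_map f
  rw [← map_pi_eq_stdGaussian, Measure.map_map (by fun_prop) (by fun_prop)] at h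
  have h2 := congrArg (fun m => m.map (WithLp.ofLp (p := 2))) h
  simp only at h2
  rw [Measure.map_map (by fun_prop) (by fun_prop), Measure.map_map (by fun_prop) (by fun_prop)] at h2
  have e4 : (WithLp.ofLp (p := 2) ∘ ⇑f ∘ WithLp.toLp 2 : (κ → ℝ) → (κ → ℝ)) = fun v => Matrix.vecMul v Q := by
    funext v
    show Qᵀ *ᵥ v = _
    rw [Matrix.mulVec_transpose]
  have e5 : (WithLp.ofLp (p := 2) ∘ WithLp.toLp 2 : (κ → ℝ) → (κ → ℝ)) = id := rfl
  rw [e4, e5, Measure.map_id] at h2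
  exact h2

/-- B1a. `gArr` is invariant under right multiplication by an orthogonal matrix (rows are iid standard
Gaussian vectors: `map_pi_eq_stdGaussian`, `stdGaussian_map`). General index types. -/
theorem s5_gArr_rot {ι κ : Type} [Fintype ι] [Fintype κ] [DecidableEq κ] {Q : Matrix κ κ ℝ}
    (hQ : Q * Qᵀ = 1) : (gArr ι κ).map (fun g => g * Q) = gArr ι κ := by
  have hm : Measurable fun v : κ → ℝ => Matrix.vecMul v Q := by
    refine measurable_pi_lambda _ fun j => ?_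
    simp only [Matrix.vecMul, dotProduct]
    fun_prop
  have h := Measure.pi_map_pi (ι := ι) (μ := fun _ : ι => Measure.pi fun _ : κ => gaussianReal 0 1)
    (f := fun _ v => Matrix.vecMul v Q) (hμ := fun i => by rw [s5y_pi_rot hQ]; infer_instance)
    (fun _ => hm.aemeasurable)
  simp only [s5y_pi_rot hQ] at h
  exact h

/-- entries of a measurable family of matrices -/
theorem s5y_meas_of_entries {X ι κ R : Type} [MeasurableSpace X] [MeasurableSpace R]
    {f : X → Matrix ι κ R} (h : ∀ i j, Measurable fun x => f x i j) : Measurable f :=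
  measurable_pi_lambda _ fun i => measurable_pi_lambda _ fun j => h i j

theorem s5y_entry_meas {ι κ R : Type} [MeasurableSpace R] (i : ι) (j : κ) :
    Measurable fun M : Matrix ι κ R => M i j :=
  (measurable_pi_apply (X := fun _ : κ => R) j).comp (measurable_pi_apply (X := fun _ : ι => κ → R) i)

theorem s5y_mul_meas {X ι κ τ : Type} [Fintype κ] [MeasurableSpace X]
    {f : X → Matrix ι κ ℂ} {g : X → Matrix κ τ ℂ} (hf : Measurable f) (hg : Measurable g) :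
    Measurable fun x => f x * g x := by
  refine s5y_meas_of_entries fun i j => ?_
  simp only [Matrix.mul_apply]
  refine Finset.measurable_sum _ fun l _ => ?_
  exact ((s5y_entry_meas i l).comp hf).mul ((s5y_entry_meas l j).comp hg)

theorem s5y_swX_meas {p dinv mr : ℝ} (k L : ℕ) {b : ℕ} (z : Fin b → ℂ) :
    Measurable fun xg : Conf × Matrix (Win L) (Ch k) ℝ =>
      fun i => swX k L p dinv mr xg.1 xg.2 (z i) := by
  refine measurable_pi_lambda _ fun a => ?_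
  have hg : Measurable fun xg : Conf × Matrix (Win L) (Ch k) ℝ => toC xg.2 := by
    refine s5y_meas_of_entries fun i j => ?_
    exact Complex.measurable_ofReal.comp ((s5y_entry_meas i j).comp measurable_snd)
  have hgT : Measurable fun xg : Conf × Matrix (Win L) (Ch k) ℝ => (toC xg.2)ᵀ := by
    refine s5y_meas_of_entries fun i j => ?_
    exact Complex.measurable_ofReal.comp ((s5y_entry_meas j i).comp measurable_snd)
  have hR : ∀ e : ℕ, Measurable fun xg : Conf × Matrix (Win L) (Ch k) ℝ => cRes L xg.1 (z a) e := by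
    intro e
    refine s5y_meas_of_entries fun i j => ?_
    simp only [cRes, Matrix.diagonal_apply, cPos]
    by_cases hij : i = j
    · simp only [hij, if_true]
      have : Measurable fun xg : Conf × Matrix (Win L) (Ch k) ℝ => xg.1 (wIdx j) :=
        (measurable_pi_apply _).comp measurable_fst
      exact (((Complex.measurable_ofReal.comp this).sub_const _).inv).pow_const _
    · simp only [hij, if_false]
      exact measurable_const
  have hS : ∀ e : ℕ, Measurable fun xg : Conf × Matrix (Win L) (Ch k) ℝ =>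
      toC (chA k p) * (toC xg.2)ᵀ * cRes L xg.1 (z a) e * toC xg.2 * (toC (chA k p))ᵀ := fun e =>
    s5y_mul_meas (s5y_mul_meas (s5y_mul_meas (s5y_mul_meas measurable_const hgT) (hR e)) hg)
      measurable_const
  unfold swX
  refine Measurable.prodMk ?_ (Measurable.prodMk ?_ (hS 2))
  · refine measurable_const.add ?_
    simp only [Matrix.trace, Matrix.diag]
    exact Finset.measurable_sum _ fun i _ => (s5y_entry_meas i i).comp (hR 1)
  · refine s5y_meas_of_entries fun i j => ?_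
    simp only [Matrix.add_apply]
    exact measurable_const.add ((s5y_entry_meas i j).comp (hS 1))

theorem s5y_gArr_prob (ι κ : Type) [Fintype ι] [Fintype κ] : IsProbabilityMeasure (gArr ι κ) :=
  inferInstanceAs (IsProbabilityMeasure (α := ι → κ → ℝ)
    (Measure.pi fun _ : ι => Measure.pi fun _ : κ => gaussianReal 0 1))

theorem s5y_toC_mul {ι κ τ : Type} [Fintype κ] (A : Matrix ι κ ℝ) (B : Matrix κ τ ℝ) :
    toC (A * B) = toC A * toC B := by
  unfold toC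
  exact Matrix.map_mul (f := Complex.ofRealHom)

theorem s5y_toC_transpose {ι κ : Type} (A : Matrix ι κ ℝ) : toC Aᵀ = (toC A)ᵀ := rfl

theorem s5y_chQ_comm {k : ℕ} {U : Matrix (Fin k) (Fin k) ℝ} (hU : IsOrth U) (p dinv mr : ℝ) :
    (chQ U)ᵀ * chA k p = chA k p * (chQ U)ᵀ ∧ (chA k p)ᵀ * chQ U = chQ U * (chA k p)ᵀ ∧
      (chQ U)ᵀ * chK k p dinv mr * chQ U = chK k p dinv mr := by
  have hU' : Uᵀ * U = 1 := mul_eq_one_comm.mp hU
  refine ⟨?_, ?_, ?_⟩
  · simp [chQ, chA, Matrix.fromBlocks_transpose, Matrix.fromBlocks_multiply]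
  · simp [chQ, chA, Matrix.fromBlocks_transpose, Matrix.fromBlocks_multiply]
  · have h1 : (1 : Matrix (Ch k) (Ch k) ℝ) = Matrix.fromBlocks 1 0 0 1 := Matrix.fromBlocks_one.symm
    unfold chQ chK chC chJ
    rw [h1]
    simp only [Matrix.fromBlocks_transpose, Matrix.fromBlocks_multiply,
      Matrix.fromBlocks_smul, Matrix.fromBlocks_add]
    simp [hU', Matrix.mul_add, Matrix.add_mul]

theorem s5y_swR_swX {k : ℕ} {U : Matrix (Fin k) (Fin k) ℝ} (hU : IsOrth U) (p dinv mr : ℝ) (L : ℕ)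
    (x : Conf) (g : Matrix (Win L) (Ch k) ℝ) (z : ℂ) :
    swR U (swX k L p dinv mr x g z) = swX k L p dinv mr x (g * chQ U) z := by
  obtain ⟨h1, h2, h3⟩ := s5y_chQ_comm hU p dinv mr
  have c1 : (toC (chQ U))ᵀ * toC (chA k p) = toC (chA k p) * (toC (chQ U))ᵀ := by
    rw [← s5y_toC_transpose, ← s5y_toC_mul, h1, s5y_toC_mul]
  have c2 : (toC (chA k p))ᵀ * toC (chQ U) = toC (chQ U) * (toC (chA k p))ᵀ := by
    rw [← s5y_toC_transpose, ← s5y_toC_mul, h2, s5y_toC_mul]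
  have c3 : (toC (chQ U))ᵀ * toC (chK k p dinv mr) * toC (chQ U) = toC (chK k p dinv mr) := by
    rw [← s5y_toC_transpose, ← s5y_toC_mul, ← s5y_toC_mul, h3]
  have key : ∀ R : Matrix (Win L) (Win L) ℂ,
      (toC (chQ U))ᵀ * (toC (chA k p) * (toC g)ᵀ * R * toC g * (toC (chA k p))ᵀ) * toC (chQ U)
        = toC (chA k p) * (toC (g * chQ U))ᵀ * R * toC (g * chQ U) * (toC (chA k p))ᵀ := by
    intro R
    rw [s5y_toC_mul, Matrix.transpose_mul]
    calc (toC (chQ U))ᵀ * (toC (chA k p) * (toC g)ᵀ * R * toC g * (toC (chA k p))ᵀ) * toC (chQ U)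
        = ((toC (chQ U))ᵀ * toC (chA k p)) * (toC g)ᵀ * R * toC g
            * ((toC (chA k p))ᵀ * toC (chQ U)) := by simp only [Matrix.mul_assoc]
      _ = _ := by rw [c1, c2]; simp only [Matrix.mul_assoc]
  unfold swR swX
  simp only [Matrix.mul_add, Matrix.add_mul, c3, key]

theorem s5y_swRb_continuous (U : Matrix (Fin k) (Fin k) ℝ) : Continuous (swRb (k := k) (b := b) U) :=
  continuous_pi fun i => (s5_swR_continuous U).comp (continuous_apply i)

/-- B1. The marked model is `R_U` invariant: `swR U (swX .. x g z) = swX .. x (g * chQ U) z` because `chA`,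
`chK` commute with `chQ U` (blocks are scalar), then B1a. -/
theorem s5_swLaw_rot [IsProbabilityMeasure μ] (L : ℕ) (z : Fin b → ℂ) {U : Matrix (Fin k) (Fin k) ℝ}
    (hU : IsOrth U) :
    (swLaw μ k L p dinv mr z).map (swRb U) = swLaw μ k L p dinv mr z := by
  have := s5y_gArr_prob (Win L) (Ch k)
  have hQ : chQ U * (chQ U)ᵀ = 1 := by
    have hU1 : U * Uᵀ = 1 := hU
    simp [chQ, Matrix.fromBlocks_transpose, Matrix.fromBlocks_multiply, hU1]
  have hmQ : Measurable fun g : Matrix (Win L) (Ch k) ℝ => g * chQ U := by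
    refine s5y_meas_of_entries fun i j => ?_
    simp only [Matrix.mul_apply]
    exact Finset.measurable_sum _ fun l _ => (s5y_entry_meas i l).mul_const _
  unfold swLaw
  rw [Measure.map_map (s5y_swRb_continuous U).measurable (s5y_swX_meas k L z)]
  have e1 : (swRb U ∘ fun xg : Conf × Matrix (Win L) (Ch k) ℝ =>
        fun i => swX k L p dinv mr xg.1 xg.2 (z i))
      = (fun xg : Conf × Matrix (Win L) (Ch k) ℝ => fun i => swX k L p dinv mr xg.1 xg.2 (z i))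
        ∘ (Prod.map id fun g : Matrix (Win L) (Ch k) ℝ => g * chQ U) := by
    funext xg
    funext i
    exact s5y_swR_swX hU p dinv mr L xg.1 xg.2 (z i)
  rw [e1, ← Measure.map_map (s5y_swX_meas k L z) (measurable_id.prodMap hmQ),
    ← Measure.map_prod_map _ _ measurable_id hmQ, Measure.map_id, s5_gArr_rot hQ]

/-- B2. The limit law is `R_U` invariant: for `f` bounded continuous, `f ∘ swRb U` is bounded continuous,
`∫ f∘R dP = lim ∫ f∘R d swLaw = lim ∫ f d swLaw = ∫ f dP` (B1), then B0. -/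
theorem s5_P_rot [IsProbabilityMeasure μ] {z : Fin b → ℂ} {P : Measure (Fin b → SwSt k)}
    [IsProbabilityMeasure P]
    (hlim : ∀ f : BoundedContinuousFunction (Fin b → SwSt k) ℝ,
      Tendsto (fun L => ∫ v, f v ∂(swLaw μ k L p dinv mr z)) atTop (𝓝 (∫ v, f v ∂P)))
    {U : Matrix (Fin k) (Fin k) ℝ} (hU : IsOrth U) : P.map (swRb U) = P := by
  have hc := s5y_swRb_continuous (k := k) (b := b) U
  refine s5_map_eq_of_integral hc.measurable fun f => ?_
  have h1 := hlim (f.compContinuous ⟨swRb U, hc⟩)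
  have h2 := hlim f
  refine tendsto_nhds_unique h1 (h2.congr fun L => ?_)
  conv_lhs => rw [← s5_swLaw_rot (μ := μ) (p := p) (dinv := dinv) (mr := mr) L z hU]
  rw [integral_map hc.measurable.aemeasurable f.continuous.measurable.aestronglyMeasurable]
  rfl

theorem s5_swTb_meas (O : Matrix (Fin k) (Fin k) ℝ) : Measurable (swTb (k := k) (b := b) O) :=
  measurable_pi_lambda _ fun i => (s5_swT_measurable O).comp (measurable_pi_apply i)

theorem s5_swRb_meas (U : Matrix (Fin k) (Fin k) ℝ) : Measurable (swRb (k := k) (b := b) U) :=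
  measurable_pi_lambda _ fun i => (s5_swR_continuous U).measurable.comp (measurable_pi_apply i)

theorem s5_swT_one (s : SwSt k) : swT 1 s = s := by
  have hB : toC (chB (1 : Matrix (Fin k) (Fin k) ℝ)) = 0 := by
    unfold toC chB
    simp
  have hD : toC (chD (1 : Matrix (Fin k) (Fin k) ℝ)) = 1 := by
    unfold toC chD
    rw [Matrix.fromBlocks_one]
    simp
  unfold swT
  simp only [hB, hD]
  simp

/-- B4. Invariance under one reflection: A9, A4 (pointwise identity `swTb (reflM u) = swRb Uᵀ ∘ swTb σ ∘ swRb U`),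
`Measure.map_map`. -/
theorem s5_inv_refl (hk : 2 ≤ k) {P : Measure (Fin b → SwSt k)} [IsProbabilityMeasure P]
    (hrot : ∀ U : Matrix (Fin k) (Fin k) ℝ, IsOrth U → P.map (swRb U) = P)
    (hsw : P.map (swTb (swapMat k hk)) = P) {u : Fin k → ℝ} (hu : u ⬝ᵥ u = 1) :
    P.map (swTb (reflM u)) = P := by
  obtain ⟨U, hU, hUe⟩ := s5_refl_conj_swap hk hu
  have e : swTb (b := b) (reflM u) = swRb Uᵀ ∘ swTb (swapMat k hk) ∘ swRb U := by
    funext v i
    simp only [swTb, swRb, Function.comp]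
    rw [s5_swT_conj hU, hUe]
  rw [e, ← Measure.map_map (s5_swRb_meas _) ((s5_swTb_meas _).comp (s5_swRb_meas _)),
    ← Measure.map_map (s5_swTb_meas _) (s5_swRb_meas _), hrot U hU, hsw, hrot _ (s5_orth_T hU)]

/-- B5 (**Prop 5.1**). Invariance under every orthogonal switch: A10 and induction on the list; in the step
`swTb (O * reflM u) = swTb (reflM u) ∘ swTb O` holds `P`-a.e. (A3 on the domain), `Measure.map_congr`. -/
theorem s5_inv_all (hk : 2 ≤ k) {P : Measure (Fin b → SwSt k)} [IsProbabilityMeasure P]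
    (hdom : ∀ᵐ v ∂P, ∀ i, s5Dom (v i))
    (hrot : ∀ U : Matrix (Fin k) (Fin k) ℝ, IsOrth U → P.map (swRb U) = P)
    (hsw : P.map (swTb (swapMat k hk)) = P) {O : Matrix (Fin k) (Fin k) ℝ} (hO : IsOrth O) :
    P.map (swTb O) = P := by
  obtain ⟨l, hl, rfl⟩ := s5_orth_eq_prod_refl hO
  clear hO
  induction l with
  | nil =>
    have : swTb (b := b) (k := k) (List.map reflM []).prod = id := by
      funext v i
      simp only [swTb, List.map_nil, List.prod_nil, s5_swT_one, id]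
    rw [this, Measure.map_id]
  | cons u l ih =>
    have hl' : ∀ u ∈ l, u ⬝ᵥ u = 1 := fun w hw => hl w (List.mem_cons_of_mem _ hw)
    have hu : u ⬝ᵥ u = 1 := hl u List.mem_cons_self
    have hR : IsOrth (l.map reflM).prod := by
      clear ih hl
      induction l with
      | nil => simp [IsOrth]
      | cons w l ih2 =>
        rw [List.map_cons, List.prod_cons]
        exact s5_orth_mul (s5_refl_orth (hl' w List.mem_cons_self)) (ih2 fun x hx => hl' x (List.mem_cons_of_mem _ hx))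
    have e : swTb (b := b) ((u :: l).map reflM).prod =ᵐ[P] swTb (l.map reflM).prod ∘ swTb (reflM u) := by
      filter_upwards [hdom] with v hv
      funext i
      simp only [swTb, Function.comp, List.map_cons, List.prod_cons]
      exact (s5_swT_comp (s5_refl_orth hu) hR (hv i)).symm
    rw [Measure.map_congr e, ← Measure.map_map (s5_swTb_meas _) (s5_swTb_meas _), s5_inv_refl hk hrot hsw hu, ih hl']

end law

/-! ## C. Woodbury and the structure of `Γ_O` (F1, F2, F3) -/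

section woodbury
variable {p dinv mr : ℝ}

theorem s5w_ring_inv {R : Type*} [Ring R] {B M0 A At X E V : R} (hE : (1 + B * M0) * E = 1)
    (hV : (1 + At * E * B * A * X) * V = 1) :
    (1 + B * (M0 + A * X * At)) * ((1 - E * B * A * X * V * At) * E) = 1 := by
  linear_combination (norm := noncomm_ring) hE - hE * (B * A * X * V * At * E) - (B * A * X) * hV * (At * E)

/-- C1a (channel algebra). `Γ^ = (1+BM⁰)⁻¹B`, `Γ = AᵀΓ^A`: `1 + B(M⁰ + AXAᵀ) = (1+BM⁰)(1 + Γ^AXAᵀ)`,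
push-through `Aᵀ(1+Γ^AXAᵀ)⁻¹ = (1+ΓX)⁻¹Aᵀ` (`det (1+Γ^A·XAᵀ) = det (1+ΓX)` by `Matrix.det_one_add_mul_comm` twice), cyclicity. -/
theorem s5_wood_chan {n : Type} [Fintype n] [DecidableEq n] {B M0 A X X' : Matrix n n ℂ}
    (h0 : IsUnit (1 + B * M0).det) (h1 : IsUnit (1 + Aᵀ * (1 + B * M0)⁻¹ * B * A * X).det) :
    Matrix.trace ((1 + B * (M0 + A * X * Aᵀ))⁻¹ * B * (A * X' * Aᵀ))
      = Matrix.trace ((1 + Aᵀ * (1 + B * M0)⁻¹ * B * A * X)⁻¹ * (Aᵀ * (1 + B * M0)⁻¹ * B * A) * X') := by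
  have hE : (1 + B * M0) * (1 + B * M0)⁻¹ = 1 := Matrix.mul_nonsing_inv _ h0
  have hV : (1 + Aᵀ * (1 + B * M0)⁻¹ * B * A * X) * (1 + Aᵀ * (1 + B * M0)⁻¹ * B * A * X)⁻¹ = 1 :=
    Matrix.mul_nonsing_inv _ h1
  obtain ⟨E, hEdef⟩ : ∃ E, E = (1 + B * M0)⁻¹ := ⟨_, rfl⟩
  rw [← hEdef] at hE hV ⊢
  obtain ⟨V, hVdef⟩ : ∃ V, V = (1 + Aᵀ * E * B * A * X)⁻¹ := ⟨_, rfl⟩
  rw [← hVdef] at hV ⊢
  rw [Matrix.inv_eq_right_inv (s5w_ring_inv hE hV)]
  have e1 : (1 - E * B * A * X * V * Aᵀ) * E * B * (A * X' * Aᵀ)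
      = ((1 - E * B * A * X * V * Aᵀ) * E * B * A * X') * Aᵀ := by noncomm_ring
  rw [e1, Matrix.trace_mul_comm]
  congr 1
  linear_combination (norm := noncomm_ring) (-1 : Matrix n n ℂ) * hV * (Aᵀ * E * B * A * X')

theorem s5w_G_diag {ι : Type} [Fintype ι] [DecidableEq ι] (d : ι → ℝ) {z : ℂ} (hz : z.im ≠ 0) :
    rsG (Matrix.diagonal d) z = Matrix.diagonal fun i => ((d i : ℂ) - z)⁻¹ := by
  rw [rsG]
  apply Matrix.inv_eq_right_inv
  rw [rs_C_diagonal]
  have : (Matrix.diagonal fun i => (d i : ℂ)) - z • (1 : Matrix ι ι ℂ) = Matrix.diagonal fun i => (d i : ℂ) - z := by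
    ext i j
    by_cases h : i = j
    · subst h; simp
    · simp [h]
  rw [this, Matrix.diagonal_mul_diagonal]
  ext i j
  by_cases h : i = j
  · subst h; simp [mul_inv_cancel₀ (rs_ne (l := d i) hz)]
  · simp [h]

/-- C1b (Woodbury, trace form; kit `rs_woodbury`, `rs_W_isUnit` of `ResB.lean` with `A = diagonal d`, `U = g`, `B = Γ`;
`rsG (diagonal d) z = diagonal (1/(d-z))`; cyclicity: `Tr (R g W⁻¹Γ gᵀ R) = Tr (W⁻¹ Γ gᵀ R² g)`). -/
theorem s5_wood_tr {ι κ : Type} [Fintype ι] [DecidableEq ι] [Fintype κ] [DecidableEq κ]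
    {Γ : Matrix κ κ ℝ} (hΓ : Γᵀ = Γ) (d : ι → ℝ) (g : Matrix ι κ ℝ) {z : ℂ} (hz : 0 < z.im) :
    IsUnit (1 + toC Γ * ((toC g)ᵀ * (Matrix.diagonal fun i => ((d i : ℂ) - z)⁻¹) * toC g)).det ∧
    rTr (Matrix.diagonal d + g * Γ * gᵀ) z = ∑ i, ((d i : ℂ) - z)⁻¹
      - Matrix.trace ((1 + toC Γ * ((toC g)ᵀ * (Matrix.diagonal fun i => ((d i : ℂ) - z)⁻¹) * toC g))⁻¹
          * toC Γ * ((toC g)ᵀ * (Matrix.diagonal fun i => ((d i : ℂ) - z)⁻¹ ^ 2) * toC g)) := by
  have hz' : z.im ≠ 0 := hz.ne'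
  have hA : (Matrix.diagonal d).IsHermitian := by
    rw [Matrix.IsHermitian, Matrix.conjTranspose_eq_transpose_of_trivial, Matrix.diagonal_transpose]
  have hB : (Matrix.diagonal d + g * Γ * gᵀ).IsHermitian := by
    rw [Matrix.IsHermitian, Matrix.conjTranspose_eq_transpose_of_trivial, Matrix.transpose_add,
      Matrix.diagonal_transpose, Matrix.transpose_mul, Matrix.transpose_mul, Matrix.transpose_transpose, hΓ,
      Matrix.mul_assoc]
  have hW : rsW (Matrix.diagonal d) g Γ z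
      = 1 + toC Γ * ((toC g)ᵀ * (Matrix.diagonal fun i => ((d i : ℂ) - z)⁻¹) * toC g) := by
    rw [rsW, s5w_G_diag d hz']
    rfl
  have h1 := rs_W_isUnit hA g Γ hB hz'
  have h2 := rs_woodbury hA g Γ hB hz'
  rw [hW] at h1 h2
  refine ⟨h1, ?_⟩
  rw [rs_rTr, h2, s5w_G_diag d hz', Matrix.trace_sub, Matrix.trace_diagonal]
  congr 1
  obtain ⟨W, hWd⟩ : ∃ W, W = (1 + toC Γ * ((toC g)ᵀ * (Matrix.diagonal fun i => ((d i : ℂ) - z)⁻¹) * toC g))⁻¹ := ⟨_, rfl⟩
  rw [← hWd]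
  have hsq : (Matrix.diagonal fun i => ((d i : ℂ) - z)⁻¹ ^ 2)
      = (Matrix.diagonal fun i => ((d i : ℂ) - z)⁻¹) * (Matrix.diagonal fun i => ((d i : ℂ) - z)⁻¹) := by
    rw [Matrix.diagonal_mul_diagonal]
    congr 1
    funext i
    ring
  rw [hsq, rs_R_eq_toC, rs_R_eq_toC]
  obtain ⟨R, hR⟩ : ∃ R, R = (Matrix.diagonal fun i => ((d i : ℂ) - z)⁻¹) := ⟨_, rfl⟩
  rw [← hR]
  rw [Matrix.mul_assoc (R * toC g), Matrix.trace_mul_comm]
  congr 1
  simp only [Matrix.mul_assoc]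

theorem s5w_toC_det {n : Type} [Fintype n] [DecidableEq n] (M : Matrix n n ℝ) : (toC M).det = ((M.det : ℝ) : ℂ) :=
  (RingHom.map_det Complex.ofRealHom M).symm

theorem s5w_toC_inv {n : Type} [Fintype n] [DecidableEq n] {M : Matrix n n ℝ} (h : IsUnit M.det) :
    toC M⁻¹ = (toC M)⁻¹ := by
  symm
  apply Matrix.inv_eq_right_inv
  rw [← s5k_toC_mul, Matrix.mul_nonsing_inv _ h, s5k_toC_one]

/-- C1 (K7; P1 (5.15)). First component of the switched marked model = resolvent trace of the finite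
matrix `D + g Γ_O gᵀ`. Exact. With `R = (D-z)⁻¹`, `Γ^ = (1+BM⁰)⁻¹B`, `Γ = AᵀΓ^A`:
`1 + BM = (1+BM⁰)(1 + Γ^ A gᵀRg Aᵀ)`; push-through `Aᵀ(1+Γ^AXAᵀ)⁻¹ = (1+ΓX)⁻¹Aᵀ`;
`(D - z + gΓgᵀ)⁻¹ = R - R g (1+Γ gᵀRg)⁻¹ Γ gᵀ R`; traces. `1 + Γ gᵀRg` is invertible because
`det(1+Γ gᵀRg) = det(D + gΓgᵀ - z)/det(D - z) ≠ 0` (real symmetric matrix, `Im z > 0`).
GLUE of C1a, C1b (`toC` commutes with products, transposes and, for a unit determinant, inverses: `Matrix.map_inv`-type lemma). -/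
theorem s5_woodbury {ι : Type} [Fintype ι] [DecidableEq ι] {k : ℕ} {O : Matrix (Fin k) (Fin k) ℝ}
    (hdet : IsUnit (1 + chB O * chK k p dinv mr).det)
    (hsym : (chGam O p dinv mr)ᵀ = chGam O p dinv mr)
    (d : ι → ℝ) (g : Matrix ι (Ch k) ℝ) {z : ℂ} (hz : 0 < z.im) :
    (swT O (s5X k p dinv mr d g z)).1
      = (mr : ℂ) + rTr (Matrix.diagonal d + g * chGam O p dinv mr * gᵀ) z := by
  obtain ⟨u1, e1⟩ := s5_wood_tr hsym d g hz
  have hM : toC (1 + chB O * chK k p dinv mr) = 1 + toC (chB O) * toC (chK k p dinv mr) := by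
    rw [s5k_toC_add, s5k_toC_one, s5k_toC_mul]
  have h0 : IsUnit (1 + toC (chB O) * toC (chK k p dinv mr)).det := by
    rw [← hM, s5w_toC_det]
    exact hdet.map Complex.ofRealHom
  have hG : toC (chGam O p dinv mr)
      = (toC (chA k p))ᵀ * (1 + toC (chB O) * toC (chK k p dinv mr))⁻¹ * toC (chB O) * toC (chA k p) := by
    rw [chGam, s5k_toC_mul, s5k_toC_mul, s5k_toC_mul, s5w_toC_inv hdet, hM, s5k_toC_T]
  rw [e1]
  rw [hG] at u1 ⊢
  have h2 := s5_wood_chan (X' := (toC g)ᵀ * (Matrix.diagonal fun i => ((d i : ℂ) - z)⁻¹ ^ 2) * toC g) h0 u1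
  rw [← h2]
  have a1 : toC (chA k p) * (toC g)ᵀ * (Matrix.diagonal fun i => ((d i : ℂ) - z)⁻¹) * toC g * (toC (chA k p))ᵀ
      = toC (chA k p) * ((toC g)ᵀ * (Matrix.diagonal fun i => ((d i : ℂ) - z)⁻¹) * toC g) * (toC (chA k p))ᵀ := by
    simp only [Matrix.mul_assoc]
  have a2 : toC (chA k p) * (toC g)ᵀ * (Matrix.diagonal fun i => ((d i : ℂ) - z)⁻¹ ^ 2) * toC g * (toC (chA k p))ᵀ
      = toC (chA k p) * ((toC g)ᵀ * (Matrix.diagonal fun i => ((d i : ℂ) - z)⁻¹ ^ 2) * toC g) * (toC (chA k p))ᵀ := by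
    simp only [Matrix.mul_assoc]
  show ((mr : ℂ) + ∑ i, ((d i : ℂ) - z)⁻¹) - Matrix.trace ((1 + toC (chB O) * (toC (chK k p dinv mr) + toC (chA k p) * (toC g)ᵀ * (Matrix.diagonal fun i => ((d i : ℂ) - z)⁻¹) * toC g * (toC (chA k p))ᵀ))⁻¹ * toC (chB O) * (toC (chA k p) * (toC g)ᵀ * (Matrix.diagonal fun i => ((d i : ℂ) - z)⁻¹ ^ 2) * toC g * (toC (chA k p))ᵀ)) = _
  rw [a1, a2]
  ring

/-- blocks in the commutative algebra `ℝ[G]`, `G² = -g2` -/
def s5m {k : ℕ} (G : Matrix (Fin k) (Fin k) ℝ) (a b : ℝ) : Matrix (Fin k) (Fin k) ℝ := a • 1 + b • G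

theorem s5m_mul {k : ℕ} {G : Matrix (Fin k) (Fin k) ℝ} {g2 : ℝ} (hG : G * G = (-g2) • (1 : Matrix (Fin k) (Fin k) ℝ)) (a b a' b' : ℝ) :
    s5m G a b * s5m G a' b' = s5m G (a * a' - g2 * (b * b')) (a * b' + b * a') := by
  unfold s5m
  simp only [add_mul, mul_add, smul_mul_smul_comm, mul_one, one_mul, hG, smul_smul]
  rw [sub_smul, add_smul]
  have e : (b * b' * -g2) • (1 : Matrix (Fin k) (Fin k) ℝ) = -((g2 * (b * b')) • (1 : Matrix (Fin k) (Fin k) ℝ)) := by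
    rw [← neg_smul]; congr 1; ring
  rw [e]
  abel

theorem s5m_add {k : ℕ} (G : Matrix (Fin k) (Fin k) ℝ) (a b a' b' : ℝ) :
    s5m G a b + s5m G a' b' = s5m G (a + a') (b + b') := by
  unfold s5m
  rw [add_smul, add_smul]
  abel

theorem s5m_smul {k : ℕ} (G : Matrix (Fin k) (Fin k) ℝ) (t a b : ℝ) : t • s5m G a b = s5m G (t * a) (t * b) := by
  unfold s5m
  rw [smul_add, smul_smul, smul_smul]

theorem s5m_T {k : ℕ} {G : Matrix (Fin k) (Fin k) ℝ} (hT : Gᵀ = -G) (a b : ℝ) : (s5m G a b)ᵀ = s5m G a (-b) := by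
  unfold s5m
  rw [Matrix.transpose_add, Matrix.transpose_smul, Matrix.transpose_smul, Matrix.transpose_one, hT, smul_neg, neg_smul]

theorem s5m_tr {k : ℕ} {G : Matrix (Fin k) (Fin k) ℝ} (hT : Gᵀ = -G) (a b : ℝ) : Matrix.trace (s5m G a b) = a * k := by
  have h0 : Matrix.trace G = 0 := by
    have h1 : Matrix.trace Gᵀ = Matrix.trace G := Matrix.trace_transpose G
    rw [hT, Matrix.trace_neg] at h1
    linarith
  unfold s5m
  rw [Matrix.trace_add, Matrix.trace_smul, Matrix.trace_smul, h0, Matrix.trace_one]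
  simp

/-- C2 (F2, block computation over the commutative algebra `ℝ[Ω]`, `Ω = (O - Oᵀ)/(2s)`, `Ω² = -1`, `Ωᵀ = -Ω`).
If `O` is orthogonal with `O + Oᵀ = 2c`, `|c| < 1`, `s = √(1-c²)`, `γ = s/(2-2c)`, `m_r = p α`,
`α = m_r p + 1/d - 1/2`, `q = √(1-p²)`: `(O-1)⁻¹ = -1/2 - γΩ`; `N = B⁻¹ + M⁰ = [[pα, α-γΩ],[α+γΩ, pα]]`,
`N⁻¹ = D⁻¹ [[pα, -(α-γΩ)],[-(α+γΩ), pα]]`, `D = -(α²q²+γ²)`;
`Γ = AᵀN⁻¹A = (q/D) [[-pαq, -αq²+γΩ],[-αq²-γΩ, pαq]]`. Symmetric, traceless, `Γ² = q²/(α²q²+γ²)`.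
FROM C2a: with `t = wαq²`: `(Oᵀ-c+t)(O-c+t) = 1-c²+t²`; `Γ²₁₁ = δ⁻²q²(w²α²q²(p²+q²) + 1-c²) = q²w/δ` as `wδ = 1-c²+w²α²q²`; off-diagonal blocks cancel. -/
theorem s5_gam_invol {k : ℕ} {O : Matrix (Fin k) (Fin k) ℝ} (hO : IsOrth O) {c : ℝ} (hc : |c| < 1)
    (hOc : O + Oᵀ = (2 * c) • (1 : Matrix (Fin k) (Fin k) ℝ)) (hp : |p| < 1)
    (hf1 : mr = p * (mr * p + dinv - 1 / 2)) :
    IsUnit (1 + chB O * chK k p dinv mr).det ∧ (chGam O p dinv mr)ᵀ = chGam O p dinv mr ∧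
      Matrix.trace (chGam O p dinv mr) = 0 ∧
      chGam O p dinv mr * chGam O p dinv mr =
        ((1 - p ^ 2) / ((mr * p + dinv - 1 / 2) ^ 2 * (1 - p ^ 2) + (1 - c ^ 2) / (2 - 2 * c) ^ 2)) •
          (1 : Matrix (Ch k) (Ch k) ℝ) := by
  obtain ⟨hc1, hc2⟩ := abs_lt.1 hc
  obtain ⟨hp1, hp2⟩ := abs_lt.1 hp
  obtain ⟨δ, hδ⟩ : ∃ δ, δ = 2 - 2 * c := ⟨_, rfl⟩
  have hδ0 : 0 < δ := by rw [hδ]; linarith
  obtain ⟨α, hα⟩ : ∃ α, α = mr * p + dinv - 1 / 2 := ⟨_, rfl⟩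
  obtain ⟨g2, hg2⟩ : ∃ g2, g2 = (1 - c ^ 2) / δ ^ 2 := ⟨_, rfl⟩
  have hg20 : 0 < g2 := by rw [hg2]; exact div_pos (by nlinarith) (by positivity)
  have hq2 : 0 < 1 - p ^ 2 := by nlinarith
  obtain ⟨q, hq⟩ : ∃ q, q = Real.sqrt (1 - p ^ 2) := ⟨_, rfl⟩
  have hqq : q ^ 2 = 1 - p ^ 2 := by rw [hq, Real.sq_sqrt hq2.le]
  have hq0 : 0 < q := by rw [hq]; exact Real.sqrt_pos.2 hq2
  obtain ⟨G, hGd⟩ : ∃ G : Matrix (Fin k) (Fin k) ℝ, G = (1 / (2 * δ)) • (O - Oᵀ) := ⟨_, rfl⟩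
  have hOO : O * Oᵀ = 1 := hO
  have hOO' : Oᵀ * O = 1 := mul_eq_one_comm.1 hOO
  have hT : Gᵀ = -G := by
    rw [hGd, Matrix.transpose_smul, Matrix.transpose_sub, Matrix.transpose_transpose, ← smul_neg, neg_sub]
  have hsq : (O - Oᵀ) * (O - Oᵀ) = (4 * c ^ 2 - 4) • (1 : Matrix (Fin k) (Fin k) ℝ) := by
    have h1 : (O + Oᵀ) * (O + Oᵀ) = (4 * c ^ 2) • (1 : Matrix (Fin k) (Fin k) ℝ) := by
      rw [hOc, smul_mul_smul_comm, mul_one]; congr 1; ring
    have h2 : (O - Oᵀ) * (O - Oᵀ) = (O + Oᵀ) * (O + Oᵀ) - (4 : ℝ) • (1 : Matrix (Fin k) (Fin k) ℝ) := by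
      have e4 : (4 : ℝ) • (1 : Matrix (Fin k) (Fin k) ℝ) = 1 + 1 + 1 + 1 := by
        rw [show (4 : ℝ) = 1 + 1 + 1 + 1 by norm_num, add_smul, add_smul, add_smul, one_smul]
      rw [e4]
      simp only [sub_mul, mul_sub, add_mul, mul_add, hOO, hOO']
      abel
    rw [h2, h1, ← sub_smul]
  have hG : G * G = (-g2) • (1 : Matrix (Fin k) (Fin k) ℝ) := by
    rw [hGd, smul_mul_smul_comm, hsq, smul_smul]
    congr 1
    rw [hg2]
    field_simp
    ring
  have eO : O = s5m G c δ := by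
    unfold s5m
    rw [hGd, smul_smul]
    have e1 : δ * (1 / (2 * δ)) = 1 / 2 := by field_simp
    rw [e1]
    have e2 : c • (1 : Matrix (Fin k) (Fin k) ℝ) = (1 / 2 : ℝ) • (O + Oᵀ) := by
      rw [hOc, smul_smul]; congr 1; ring
    rw [e2, ← smul_add]
    have e3 : O + Oᵀ + (O - Oᵀ) = (2 : ℝ) • O := by rw [two_smul]; abel
    rw [e3, smul_smul]
    norm_num
  have eOT : Oᵀ = s5m G c (-δ) := by
    conv_lhs => rw [eO]
    exact s5m_T hT c δ
  have e1m : (1 : Matrix (Fin k) (Fin k) ℝ) = s5m G 1 0 := by unfold s5m; simp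
  have e0m : (0 : Matrix (Fin k) (Fin k) ℝ) = s5m G 0 0 := by unfold s5m; simp
  -- the matrices in block form
  have eB : chB O = Matrix.fromBlocks (s5m G 0 0) (s5m G (c - 1) (-δ)) (s5m G (c - 1) δ) (s5m G 0 0) := by
    unfold chB
    congr 1
    · rw [eOT, e1m, sub_eq_add_neg, ← neg_one_smul ℝ (s5m G 1 0), s5m_smul, s5m_add]; congr 1 <;> ring
    · conv_lhs => rw [eO]
      rw [e1m, sub_eq_add_neg, ← neg_one_smul ℝ (s5m G 1 0), s5m_smul, s5m_add]; congr 1 <;> ring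
  have eK : chK k p dinv mr = Matrix.fromBlocks (s5m G (p * α) 0) (s5m G (α + 1 / 2) 0) (s5m G (α + 1 / 2) 0) (s5m G (p * α) 0) := by
    unfold chK chC chJ
    rw [← Matrix.fromBlocks_one, Matrix.fromBlocks_smul, Matrix.fromBlocks_add, Matrix.fromBlocks_smul, Matrix.fromBlocks_smul,
      Matrix.fromBlocks_add]
    have hmr : mr = p * α := by rw [hα]; exact hf1
    congr 1
    · unfold s5m; simp [← hmr]
    · unfold s5m; simp only [smul_zero, zero_add, zero_smul, add_zero, smul_smul, ← add_smul]; congr 1; rw [hα]; ring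
    · unfold s5m; simp only [smul_zero, zero_add, zero_smul, add_zero, smul_smul, ← add_smul]; congr 1; rw [hα]; ring
    · unfold s5m; simp [← hmr]
  have eA : chA k p = Matrix.fromBlocks (s5m G 1 0) (s5m G 0 0) (s5m G p 0) (s5m G q 0) := by
    unfold chA
    rw [← hq]
    congr 1 <;> (unfold s5m; simp)
  have eAT : (chA k p)ᵀ = Matrix.fromBlocks (s5m G 1 0) (s5m G p 0) (s5m G 0 0) (s5m G q 0) := by
    rw [eA, Matrix.fromBlocks_transpose, s5m_T hT, s5m_T hT, s5m_T hT, s5m_T hT]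
    simp
  have e11 : (1 : Matrix (Ch k) (Ch k) ℝ) = Matrix.fromBlocks (s5m G 1 0) (s5m G 0 0) (s5m G 0 0) (s5m G 1 0) := by
    rw [← Matrix.fromBlocks_one, ← e1m, ← e0m]
  -- the determinant `D`
  obtain ⟨D, hD⟩ : ∃ D, D = α ^ 2 * q ^ 2 + g2 := ⟨_, rfl⟩
  have hD0 : 0 < D := by rw [hD]; positivity
  -- `Ninv`
  obtain ⟨Ni, hNi⟩ : ∃ Ni : Matrix (Ch k) (Ch k) ℝ, Ni = Matrix.fromBlocks (s5m G (-(p * α) / D) 0) (s5m G (α / D) (-1 / D))
      (s5m G (α / D) (1 / D)) (s5m G (-(p * α) / D) 0) := ⟨_, rfl⟩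
  have hδc : (c - 1) * (c - 1) + g2 * (δ * δ) = δ := by
    rw [hg2, hδ]
    have : (2 - 2 * c) ≠ 0 := by linarith
    field_simp
    ring
  have hBB : chB O * chB O = δ • (1 : Matrix (Ch k) (Ch k) ℝ) := by
    rw [eB, e11]
    simp only [Matrix.fromBlocks_multiply, Matrix.fromBlocks_smul, s5m_mul hG, s5m_add, s5m_smul]
    congr 1 <;> congr 1 <;> first | ring1 | linear_combination hδc
  obtain ⟨Nm, hNm⟩ : ∃ Nm : Matrix (Ch k) (Ch k) ℝ, Nm = (1 / δ) • chB O + chK k p dinv mr := ⟨_, rfl⟩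
  have hd1 : 1 / δ * δ = 1 := by field_simp
  have eN : Nm = Matrix.fromBlocks (s5m G (p * α) 0) (s5m G α (-1)) (s5m G α 1) (s5m G (p * α) 0) := by
    rw [hNm, eB, eK]
    simp only [Matrix.fromBlocks_smul, Matrix.fromBlocks_add, s5m_smul, s5m_add]
    have h1 : 1 / δ * (c - 1) = -1 / 2 := by
      rw [hδ]
      have : (2 - 2 * c) ≠ 0 := by linarith
      field_simp
      ring
    congr 1 <;> congr 1 <;> first | ring1 | linear_combination h1 | linear_combination hd1 | linear_combination -hd1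
  have hBN : 1 + chB O * chK k p dinv mr = chB O * Nm := by
    rw [hNm, mul_add, mul_smul_comm, hBB, smul_smul, hd1, one_smul]
  have hDi : D * (1 / D) = 1 := by field_simp
  have hNN : Nm * Ni = 1 := by
    rw [eN, hNi, e11]
    simp only [Matrix.fromBlocks_multiply, s5m_mul hG, s5m_add]
    congr 1 <;> congr 1 <;> (field_simp; try (rw [hD, hqq]; ring))
  have hinv : (1 + chB O * chK k p dinv mr) * (Ni * ((1 / δ) • chB O)) = 1 := by
    rw [hBN, ← mul_assoc, mul_assoc (chB O) Nm Ni, hNN, mul_one, mul_smul_comm, hBB, smul_smul, hd1, one_smul]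
  have hdet : IsUnit (1 + chB O * chK k p dinv mr).det := Matrix.isUnit_det_of_right_inverse hinv
  have hI : (1 + chB O * chK k p dinv mr)⁻¹ = Ni * ((1 / δ) • chB O) := Matrix.inv_eq_right_inv hinv
  have eΓ0 : chGam O p dinv mr = (chA k p)ᵀ * Ni * chA k p := by
    unfold chGam
    rw [hI, mul_assoc (chA k p)ᵀ (Ni * ((1 / δ) • chB O)) (chB O), mul_assoc Ni, smul_mul_assoc, hBB, smul_smul, hd1, one_smul, mul_one]
  obtain ⟨Γ0, hΓ0⟩ : ∃ Γ0 : Matrix (Ch k) (Ch k) ℝ, Γ0 = Matrix.fromBlocks (s5m G (p * α * q) 0) (s5m G (α * q ^ 2) (-1))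
      (s5m G (α * q ^ 2) 1) (s5m G (-(p * α * q)) 0) := ⟨_, rfl⟩
  have eΓ : chGam O p dinv mr = (q / D) • Γ0 := by
    rw [eΓ0, eAT, hNi, eA, hΓ0]
    simp only [Matrix.fromBlocks_multiply, Matrix.fromBlocks_smul, s5m_mul hG, s5m_add, s5m_smul]
    congr 1 <;> congr 1 <;> first | ring1 | linear_combination (-(p * α / D)) * hqq | linear_combination (-(q * α / D)) * hqq
  have hΓT : Γ0ᵀ = Γ0 := by
    rw [hΓ0, Matrix.fromBlocks_transpose, s5m_T hT, s5m_T hT, s5m_T hT, s5m_T hT]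
    simp
  have hΓtr : Matrix.trace Γ0 = 0 := by
    have htb : ∀ (X Y Z W : Matrix (Fin k) (Fin k) ℝ), Matrix.trace (Matrix.fromBlocks X Y Z W) = Matrix.trace X + Matrix.trace W := by
      intro X Y Z W
      simp [Matrix.trace, Fintype.sum_sum_type]
    rw [hΓ0, htb, s5m_tr hT, s5m_tr hT]
    ring
  have hΓsq : Γ0 * Γ0 = D • (1 : Matrix (Ch k) (Ch k) ℝ) := by
    rw [hΓ0, e11]
    simp only [Matrix.fromBlocks_multiply, Matrix.fromBlocks_smul, s5m_mul hG, s5m_add, s5m_smul]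
    congr 1 <;> congr 1 <;> first | ring1 | (rw [hD]; linear_combination (α ^ 2 * q ^ 2) * hqq)
  refine ⟨hdet, ?_, ?_, ?_⟩
  · rw [eΓ, Matrix.transpose_smul, hΓT]
  · rw [eΓ, Matrix.trace_smul, hΓtr, smul_zero]
  · rw [eΓ, smul_mul_smul_comm, hΓsq, smul_smul, ← hα, ← hδ, ← hg2, ← hqq, ← hD]
    congr 1
    field_simp

/-- C3. Existence of the rotation: on `Fin (2r)` there is an orthogonal `O` with `O + Oᵀ = 2c`
(reindex `fromBlocks c (-s) s c`, `s = √(1-c²)`, along `finSumFinEquiv` and `two_mul`). -/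
theorem s5_exists_rot (r : ℕ) {c : ℝ} (hc : |c| ≤ 1) :
    ∃ O : Matrix (Fin (2 * r)) (Fin (2 * r)) ℝ, IsOrth O ∧
      O + Oᵀ = (2 * c) • (1 : Matrix (Fin (2 * r)) (Fin (2 * r)) ℝ) := by
  obtain ⟨s, hs⟩ : ∃ s : ℝ, c ^ 2 + s ^ 2 = 1 := by
    refine ⟨Real.sqrt (1 - c ^ 2), ?_⟩
    rw [Real.sq_sqrt]
    · ring
    · have := abs_le.1 hc
      nlinarith
  let e : Fin r ⊕ Fin r ≃ Fin (2 * r) := finSumFinEquiv.trans (finCongr (two_mul r).symm)
  let M : Matrix (Fin r ⊕ Fin r) (Fin r ⊕ Fin r) ℝ :=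
    Matrix.fromBlocks (c • 1) (-s • 1) (s • 1) (c • 1)
  have hMT : Mᵀ = Matrix.fromBlocks (c • 1) (s • 1) (-s • 1) (c • 1) := by
    simp [M, Matrix.fromBlocks_transpose]
  have h1 : M * Mᵀ = 1 := by
    rw [hMT]
    simp only [M, Matrix.fromBlocks_multiply, smul_mul_smul_comm, mul_one, ← add_smul]
    rw [← Matrix.fromBlocks_one]
    congr 1
    · rw [show c * c + -s * -s = 1 by nlinarith, one_smul]
    · rw [show c * s + -s * c = 0 by ring, zero_smul]
    · rw [show s * c + c * -s = 0 by ring, zero_smul]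
    · rw [show s * s + c * c = 1 by nlinarith, one_smul]
  have h2 : M + Mᵀ = (2 * c) • (1 : Matrix (Fin r ⊕ Fin r) (Fin r ⊕ Fin r) ℝ) := by
    rw [hMT]
    simp only [M, Matrix.fromBlocks_add, ← add_smul]
    rw [← Matrix.fromBlocks_one, Matrix.fromBlocks_smul]
    congr 1
    · rw [two_mul]
    · simp
    · simp
    · rw [two_mul]
  refine ⟨M.submatrix e.symm e.symm, ?_, ?_⟩
  · unfold IsOrth
    rw [Matrix.transpose_submatrix, Matrix.submatrix_mul_equiv, h1, Matrix.submatrix_one_equiv]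
  · rw [Matrix.transpose_submatrix]
    have h3 : M.submatrix e.symm e.symm + Mᵀ.submatrix e.symm e.symm = (M + Mᵀ).submatrix e.symm e.symm := rfl
    rw [h3, h2]
    have h4 : ((2 * c) • (1 : Matrix (Fin r ⊕ Fin r) (Fin r ⊕ Fin r) ℝ)).submatrix e.symm e.symm
        = (2 * c) • ((1 : Matrix (Fin r ⊕ Fin r) (Fin r ⊕ Fin r) ℝ).submatrix e.symm e.symm) := rfl
    rw [h4, Matrix.submatrix_one_equiv]

/-- C4. Choice of the angle: `(1-c²)/(2-2c)² = (1+c)/(4(1-c))` takes every value `t > 0` at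
`c = (4t-1)/(4t+1)`; needed `t = (1-p²)(4r/Δ - α²) > 0`. -/
theorem s5_exists_angle {Δ α : ℝ} (hΔ : 0 < Δ) {r : ℕ} (hr1 : 1 ≤ r) (hr : Δ * α ^ 2 < 4 * r)
    (hp : |p| < 1) :
    ∃ c : ℝ, |c| < 1 ∧
      (1 - p ^ 2) / (α ^ 2 * (1 - p ^ 2) + (1 - c ^ 2) / (2 - 2 * c) ^ 2) = Δ / (4 * r) := by
  have hq : 0 < 1 - p ^ 2 := by
    have := abs_lt.1 hp
    nlinarith
  have hr0 : (0 : ℝ) < r := by exact_mod_cast hr1
  obtain ⟨t, ht⟩ : ∃ t, t = (1 - p ^ 2) * (4 * r / Δ - α ^ 2) := ⟨_, rfl⟩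
  have ht0 : 0 < t := by
    rw [ht]
    refine mul_pos hq ?_
    rw [sub_pos, lt_div_iff₀ hΔ]
    linarith
  refine ⟨(4 * t - 1) / (4 * t + 1), ?_, ?_⟩
  · rw [abs_lt]
    constructor
    · rw [lt_div_iff₀ (by positivity)]; linarith
    · rw [div_lt_one (by positivity)]; linarith
  · have h41 : (4 * t + 1) ≠ 0 := by positivity
    have e : (1 - ((4 * t - 1) / (4 * t + 1)) ^ 2) / (2 - 2 * ((4 * t - 1) / (4 * t + 1))) ^ 2 = t := by
      have e1 : 1 - ((4 * t - 1) / (4 * t + 1)) ^ 2 = 16 * t / (4 * t + 1) ^ 2 := by field_simp; ring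
      have e2 : (2 - 2 * ((4 * t - 1) / (4 * t + 1))) ^ 2 = 16 / (4 * t + 1) ^ 2 := by field_simp; ring
      rw [e1, e2]
      field_simp
    rw [e, ht]
    have e3 : α ^ 2 * (1 - p ^ 2) + (1 - p ^ 2) * (4 * r / Δ - α ^ 2) = (1 - p ^ 2) * (4 * r / Δ) := by ring
    rw [e3]
    field_simp

/-- signs `±β` with zero sum on `Fin m ⊕ Fin m` can be sorted -/
theorem s5d_sort {m : ℕ} {β : ℝ} (hβ : 0 < β) (l : Ch m → ℝ) (hl : ∀ i, l i = β ∨ l i = -β) (hs : ∑ i, l i = 0) :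
    ∃ σ : Ch m ≃ Ch m, l ∘ σ = Sum.elim (fun _ => β) (fun _ => -β) := by
  classical
  have h1 := Finset.sum_filter_add_sum_filter_not (Finset.univ : Finset (Ch m)) (fun i => l i = β) l
  have h2 : ∑ i ∈ Finset.univ.filter (fun i => l i = β), l i = (Finset.univ.filter (fun i => l i = β)).card * β := by
    rw [Finset.sum_congr rfl (fun i hi => (Finset.mem_filter.1 hi).2), Finset.sum_const, nsmul_eq_mul]
  have h3 : ∑ i ∈ Finset.univ.filter (fun i => ¬ l i = β), l i = (Finset.univ.filter (fun i => ¬ l i = β)).card * (-β) := by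
    rw [Finset.sum_congr rfl (fun i hi => (hl i).resolve_left (Finset.mem_filter.1 hi).2), Finset.sum_const, nsmul_eq_mul]
  have h4 := Finset.card_filter_add_card_filter_not (s := (Finset.univ : Finset (Ch m))) (fun i => l i = β)
  rw [h2, h3, hs] at h1
  have h5 : ((Finset.univ.filter (fun i => l i = β)).card : ℝ) = (Finset.univ.filter (fun i => ¬ l i = β)).card := by
    have : (((Finset.univ.filter (fun i => l i = β)).card : ℝ) - (Finset.univ.filter (fun i => ¬ l i = β)).card) * β = 0 := by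
      linarith
    rcases mul_eq_zero.1 this with h | h
    · linarith
    · exact absurd h hβ.ne'
  have h6 : (Finset.univ.filter (fun i => l i = β)).card = (Finset.univ.filter (fun i => ¬ l i = β)).card := by
    exact_mod_cast h5
  have h7 : (Finset.univ : Finset (Ch m)).card = m + m := by
    rw [Finset.card_univ, Fintype.card_sum, Fintype.card_fin]
  have ha : Fintype.card {i // l i = β} = m := by
    rw [Fintype.card_subtype]; omega
  have hb : Fintype.card {i // ¬ l i = β} = m := by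
    rw [Fintype.card_subtype]; omega
  refine ⟨(Equiv.sumCongr (Fintype.equivFinOfCardEq ha).symm (Fintype.equivFinOfCardEq hb).symm).trans
    (Equiv.sumCompl (fun i => l i = β)), ?_⟩
  funext j
  rcases j with j | j
  · simpa using ((Fintype.equivFinOfCardEq ha).symm j).2
  · simpa using (hl _).resolve_left ((Fintype.equivFinOfCardEq hb).symm j).2

/-- C5a. A real symmetric traceless `Γ` with `Γ² = β²` on `Fin m ⊕ Fin m` is `β V J Vᵀ`, `V` orthogonal,
`J = chJ m`. (Spectral theorem: eigenvalues `±β`, as many `+` as `-` by the trace; `J` has the same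
spectrum; compose the two eigenbases.) -/
theorem s5_invol_diag {m : ℕ} {Γ : Matrix (Ch m) (Ch m) ℝ} {β : ℝ} (hβ : 0 < β) (hsym : Γᵀ = Γ)
    (htr : Matrix.trace Γ = 0) (hsq : Γ * Γ = (β ^ 2) • (1 : Matrix (Ch m) (Ch m) ℝ)) :
    ∃ V : Matrix (Ch m) (Ch m) ℝ, V * Vᵀ = 1 ∧ Γ = β • (V * chJ m * Vᵀ) := by
  have hA : Γ.IsHermitian := by rw [Matrix.IsHermitian, Matrix.conjTranspose_eq_transpose_of_trivial, hsym]
  obtain ⟨U, hU⟩ : ∃ U, U = rsU hA := ⟨_, rfl⟩
  obtain ⟨l, hl⟩ : ∃ l, l = hA.eigenvalues := ⟨_, rfl⟩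
  have hUU : U * Uᵀ = 1 := by rw [hU]; exact rs_U_mul_T hA
  have hUU' : Uᵀ * U = 1 := by rw [hU]; exact rs_T_mul_U hA
  have hsp : Γ = U * Matrix.diagonal l * Uᵀ := by rw [hU, hl]; exact rs_spectral hA
  have hd : Matrix.diagonal l = Uᵀ * Γ * U := by
    rw [hsp]
    calc Matrix.diagonal l = (Uᵀ * U) * Matrix.diagonal l * (Uᵀ * U) := by rw [hUU', one_mul, mul_one]
      _ = _ := by simp only [Matrix.mul_assoc]
  have hl2 : ∀ i, l i ^ 2 = β ^ 2 := by
    have h : Matrix.diagonal l * Matrix.diagonal l = (β ^ 2) • (1 : Matrix (Ch m) (Ch m) ℝ) := by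
      rw [hd]
      calc Uᵀ * Γ * U * (Uᵀ * Γ * U) = Uᵀ * Γ * (U * Uᵀ) * Γ * U := by simp only [Matrix.mul_assoc]
        _ = Uᵀ * (Γ * Γ) * U := by rw [hUU, mul_one, Matrix.mul_assoc Uᵀ]
        _ = _ := by rw [hsq, mul_smul_comm, smul_mul_assoc, mul_one, hUU']
    intro i
    have := congrFun (congrFun h i) i
    simpa [Matrix.diagonal_mul_diagonal, sq] using this
  have hl3 : ∀ i, l i = β ∨ l i = -β := fun i => sq_eq_sq_iff_eq_or_eq_neg.1 (hl2 i)
  have hsum : ∑ i, l i = 0 := by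
    rw [← htr, hsp, Matrix.trace_mul_comm, ← Matrix.mul_assoc, hUU', one_mul, Matrix.trace_diagonal]
  obtain ⟨σ, hσ⟩ := s5d_sort hβ l hl3 hsum
  obtain ⟨s, hs⟩ : ∃ s : ℝ, s = (Real.sqrt 2)⁻¹ := ⟨_, rfl⟩
  have hss : s * s = 1 / 2 := by
    rw [hs, ← mul_inv, Real.mul_self_sqrt (by norm_num)]; norm_num
  obtain ⟨H, hH⟩ : ∃ H : Matrix (Ch m) (Ch m) ℝ, H = s • Matrix.fromBlocks 1 1 1 (-1) := ⟨_, rfl⟩
  have hHT : Hᵀ = H := by
    rw [hH, Matrix.transpose_smul, Matrix.fromBlocks_transpose]; simp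
  have e2 : (1 : Matrix (Fin m) (Fin m) ℝ) + 1 = (2 : ℝ) • 1 := by rw [two_smul]
  have hHH : H * H = 1 := by
    rw [hH, smul_mul_smul_comm, hss, Matrix.fromBlocks_multiply]
    simp only [mul_one, one_mul, mul_neg, neg_mul, neg_neg, add_neg_cancel, neg_add_cancel, e2]
    rw [Matrix.fromBlocks_smul, smul_smul, smul_zero]
    norm_num
  have hHJ : H * chJ m * H = Matrix.fromBlocks 1 0 0 (-1) := by
    rw [hH, chJ, smul_mul_assoc, mul_smul_comm, smul_mul_assoc, smul_smul, hss, Matrix.fromBlocks_multiply, Matrix.fromBlocks_multiply]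
    simp only [mul_one, one_mul, mul_zero, zero_add, add_zero, mul_neg, neg_mul, neg_neg, add_neg_cancel, neg_add_cancel, e2]
    rw [Matrix.fromBlocks_smul]
    congr 1
    · rw [smul_smul]; norm_num
    · simp
    · simp
    · rw [← neg_add, e2, smul_neg, smul_smul]; norm_num
  obtain ⟨U', hU'⟩ : ∃ U' : Matrix (Ch m) (Ch m) ℝ, U' = U.submatrix id σ := ⟨_, rfl⟩
  have hU'T : U'ᵀ = Uᵀ.submatrix σ id := by rw [hU']; rfl
  have hU'U' : U' * U'ᵀ = 1 := by
    rw [hU'T, hU', Matrix.submatrix_mul_equiv, hUU]; simp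
  have hdiag : (Matrix.diagonal l).submatrix σ σ = β • Matrix.fromBlocks 1 0 0 (-1) := by
    rw [Matrix.submatrix_diagonal_equiv, hσ, ← Matrix.fromBlocks_diagonal, Matrix.fromBlocks_smul]
    congr 1
    · ext i j; by_cases h : i = j <;> simp [h, Matrix.one_apply]
    · simp
    · simp
    · ext i j; by_cases h : i = j <;> simp [h, Matrix.one_apply]
  refine ⟨U' * H, ?_, ?_⟩
  · rw [Matrix.transpose_mul, hHT, Matrix.mul_assoc, ← Matrix.mul_assoc H, hHH, one_mul, hU'U']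
  · rw [Matrix.transpose_mul, hHT]
    have : U' * H * chJ m * (H * U'ᵀ) = U' * (H * chJ m * H) * U'ᵀ := by simp only [Matrix.mul_assoc]
    rw [this, hHJ, ← smul_mul_assoc, ← mul_smul_comm, ← hdiag, hU'T, hU', Matrix.submatrix_mul_equiv,
      Matrix.submatrix_mul_equiv, ← hsp]
    simp

/-- C5b. `gArr ι (Fin m ⊕ Fin m)` is the product of two `gArr ι (Fin m)` under `g ↦ (left block, right block)`,
and `g J gᵀ = bilN (left, right)`. -/
theorem s5_gArr_split {ι : Type} [Fintype ι] (m : ℕ) :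
    (gArr ι (Ch m)).map (fun g => ((Matrix.of fun i j => g i (Sum.inl j) : Matrix ι (Fin m) ℝ),
        (Matrix.of fun i j => g i (Sum.inr j) : Matrix ι (Fin m) ℝ)))
      = (gArr ι (Fin m)).prod (gArr ι (Fin m)) := by
  have h1 := measurePreserving_sumPiEquivProdPi (X := fun _ : Fin m ⊕ Fin m => ℝ)
    (fun _ => gaussianReal 0 1)
  have h2 := Measure.pi_map_pi (ι := ι)
    (μ := fun _ : ι => Measure.pi fun _ : Fin m ⊕ Fin m => gaussianReal 0 1)
    (f := fun _ => MeasurableEquiv.sumPiEquivProdPi (fun _ : Fin m ⊕ Fin m => ℝ))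
    (hμ := fun i => by rw [h1.map_eq]; infer_instance)
    (fun _ => h1.measurable.aemeasurable)
  simp only [h1.map_eq] at h2
  have h3 := measurePreserving_arrowProdEquivProdArrow (Fin m → ℝ) (Fin m → ℝ) ι
    (fun _ => Measure.pi fun _ : Fin m => gaussianReal 0 1)
    (fun _ => Measure.pi fun _ : Fin m => gaussianReal 0 1)
  have h4 := h3.map_eq
  have hm : Measurable fun (x : ι → (Fin m ⊕ Fin m) → ℝ) (i : ι) =>
      (MeasurableEquiv.sumPiEquivProdPi fun _ : Fin m ⊕ Fin m => ℝ) (x i) :=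
    measurable_pi_lambda _ fun i => h1.measurable.comp (measurable_pi_apply i)
  rw [← h2, Measure.map_map h3.measurable hm] at h4
  exact h4

theorem s5y_mul_measR {X ι κ τ : Type} [Fintype κ] [MeasurableSpace X]
    {f : X → Matrix ι κ ℝ} {g : X → Matrix κ τ ℝ} (hf : Measurable f) (hg : Measurable g) :
    Measurable fun x => f x * g x := by
  refine s5y_meas_of_entries fun i j => ?_
  simp only [Matrix.mul_apply]
  refine Finset.measurable_sum _ fun l _ => ?_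
  exact ((s5y_entry_meas i l).comp hf).mul ((s5y_entry_meas l j).comp hg)

theorem s5y_transpose_meas {X ι κ R : Type} [MeasurableSpace X] [MeasurableSpace R]
    {f : X → Matrix ι κ R} (hf : Measurable f) : Measurable fun x => (f x)ᵀ :=
  s5y_meas_of_entries fun i j => (s5y_entry_meas j i).comp hf

theorem s5y_bilN_meas {ι κ : Type} [Fintype κ] (β : ℝ) :
    Measurable fun P : Matrix ι κ ℝ × Matrix ι κ ℝ => β • bilN P := by
  have h1 : Measurable fun P : Matrix ι κ ℝ × Matrix ι κ ℝ => P.1 * P.2ᵀ :=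
    s5y_mul_measR measurable_fst (s5y_transpose_meas measurable_snd)
  have h2 : Measurable fun P : Matrix ι κ ℝ × Matrix ι κ ℝ => P.2 * P.1ᵀ :=
    s5y_mul_measR measurable_snd (s5y_transpose_meas measurable_fst)
  refine s5y_meas_of_entries fun i j => ?_
  simp only [bilN, Matrix.smul_apply, Matrix.add_apply, smul_eq_mul]
  exact (((s5y_entry_meas i j).comp h1).add ((s5y_entry_meas i j).comp h2)).const_mul β

theorem s5y_split_meas {ι : Type} (m : ℕ) :
    Measurable fun g : Matrix ι (Ch m) ℝ =>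
      ((Matrix.of fun i j => g i (Sum.inl j) : Matrix ι (Fin m) ℝ),
        (Matrix.of fun i j => g i (Sum.inr j) : Matrix ι (Fin m) ℝ)) :=
  Measurable.prodMk (s5y_meas_of_entries fun i j => s5y_entry_meas i (Sum.inl j))
    (s5y_meas_of_entries fun i j => s5y_entry_meas i (Sum.inr j))

theorem s5y_J_bilN {ι : Type} (m : ℕ) (g : Matrix ι (Ch m) ℝ) :
    g * chJ m * gᵀ = bilN ((Matrix.of fun i j => g i (Sum.inl j) : Matrix ι (Fin m) ℝ),
        (Matrix.of fun i j => g i (Sum.inr j) : Matrix ι (Fin m) ℝ)) := by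
  ext i i'
  simp [Matrix.mul_apply, Fintype.sum_sum_type, chJ, bilN, Matrix.one_apply]
  exact add_comm _ _

/-- C5 (F3). By C5a, B1a, C5b: `g Γ gᵀ` has the law of `β (P₊P₋ᵀ + P₋P₊ᵀ)`. -/
theorem s5_law_invol {ι : Type} [Fintype ι] [DecidableEq ι] {m : ℕ} {Γ : Matrix (Ch m) (Ch m) ℝ}
    {β : ℝ} (hβ : 0 < β) (hsym : Γᵀ = Γ) (htr : Matrix.trace Γ = 0)
    (hsq : Γ * Γ = (β ^ 2) • (1 : Matrix (Ch m) (Ch m) ℝ)) :
    (gArr ι (Ch m)).map (fun g => g * Γ * gᵀ)
      = ((gArr ι (Fin m)).prod (gArr ι (Fin m))).map (fun P => β • bilN P) := by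
  obtain ⟨V, hV, hΓ⟩ := s5_invol_diag hβ hsym htr hsq
  have hmV : Measurable fun g : Matrix ι (Ch m) ℝ => g * V :=
    s5y_mul_measR measurable_id measurable_const
  rw [← s5_gArr_split, Measure.map_map (s5y_bilN_meas β) (s5y_split_meas m)]
  conv_rhs => rw [← s5_gArr_rot (ι := ι) hV]
  rw [Measure.map_map ((s5y_bilN_meas β).comp (s5y_split_meas m)) hmV]
  congr 1
  funext g
  simp only [Function.comp]
  rw [← s5y_J_bilN, hΓ, Matrix.transpose_mul]
  simp only [Matrix.mul_smul, Matrix.smul_mul, Matrix.mul_assoc]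

end woodbury

/-! ## D. Identification of the integrals and the proof of `s5_exact` -/

section exact
variable {μ : Measure Conf} {ρ χ p dinv mr : ℝ}

theorem BLip.continuous {b : ℕ} {Φ : (Fin b → ℂ) → ℝ} (hΦ : BLip Φ) : Continuous Φ := by
  have : LipschitzWith 1 Φ := by
    refine LipschitzWith.of_dist_le_mul fun v w => ?_
    rw [Real.dist_eq, dist_eq_norm]
    simpa using hΦ.lip v w
  exact this.continuous

/-- D0. `rTr` is measurable in the matrix (total inverse; as A7). -/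
theorem s5_rTr_measurable {ι : Type} [Fintype ι] [DecidableEq ι] (z : ℂ) :
    Measurable fun H : Matrix ι ι ℝ => rTr H z := goe_rTr_measurable z

/-- D0'. `swX` is the general model at `d = cPos L x` (unfold; `trace (diagonal ..)`, `pow_one`). -/
theorem s5_swX_eq (k L : ℕ) (x : Conf) (g : Matrix (Win L) (Ch k) ℝ) (z : ℂ) :
    swX k L p dinv mr x g z = s5X k p dinv mr (cPos L x) g z := by
  unfold swX s5X cRes
  simp only [Matrix.trace_diagonal, pow_one]

/-- D3. The model map is measurable, hence `swLaw` is a probability measure. -/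
theorem s5_swX_measurable (k L : ℕ) {b : ℕ} (z : Fin b → ℂ) :
    Measurable fun xg : Conf × Matrix (Win L) (Ch k) ℝ =>
      fun i => swX k L p dinv mr xg.1 xg.2 (z i) :=
  s5y_swX_meas k L z

theorem s5_gArr_prob (ι κ : Type) [Fintype ι] [Fintype κ] : IsProbabilityMeasure (gArr ι κ) :=
  s5y_gArr_prob ι κ

theorem s5_swLaw_prob [IsProbabilityMeasure μ] (k L : ℕ) {b : ℕ} (z : Fin b → ℂ) :
    IsProbabilityMeasure (swLaw μ k L p dinv mr z) := by
  have := s5y_gArr_prob (Win L) (Ch k)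
  exact Measure.isProbabilityMeasure_map (s5y_swX_meas k L z).aemeasurable

theorem s5y_fst_meas {k b : ℕ} {Φ : (Fin b → ℂ) → ℝ} (hΦ : BLip Φ) :
    Measurable fun v : Fin b → SwSt k => Φ (fun i => (v i).1) :=
  hΦ.continuous.measurable.comp (measurable_pi_lambda _ fun i => (measurable_pi_apply i).fst)

/-- D1. The first components of the model integrate to `s5A` (`integral_map`, `integral_prod`, the marks
integrate out of a function of `x` alone). -/
theorem s5_law_A [IsProbabilityMeasure μ] (k L : ℕ) {b : ℕ} {z : Fin b → ℂ}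
    {Φ : (Fin b → ℂ) → ℝ} (hΦ : BLip Φ) :
    ∫ v, Φ (fun i => (v i).1) ∂(swLaw μ k L p dinv mr z) = s5A μ mr z Φ L := by
  have := s5y_gArr_prob (Win L) (Ch k)
  unfold swLaw s5A
  rw [integral_map (s5y_swX_meas k L z).aemeasurable (s5y_fst_meas hΦ).aestronglyMeasurable]
  have e : ∀ xg : Conf × Matrix (Win L) (Ch k) ℝ,
      Φ (fun i => (swX k L p dinv mr xg.1 xg.2 (z i)).1)
        = (fun x : Conf => Φ (fun i => (mr : ℂ) + cSK L x (z i))) xg.1 := by
    intro xg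
    simp only [swX, cRes, cSK, Matrix.trace_diagonal, pow_one]
  simp only [e]
  have h := integral_fun_fst (μ := μ) (ν := gArr (Win L) (Ch k))
    (fun x : Conf => Φ (fun i => (mr : ℂ) + cSK L x (z i)))
  rw [h]
  simp

theorem s5y_F_meas {ι : Type} [Fintype ι] [DecidableEq ι] {b : ℕ} (z : Fin b → ℂ)
    {Φ : (Fin b → ℂ) → ℝ} (hΦ : BLip Φ) (d : ι → ℝ) :
    Measurable fun N : Matrix ι ι ℝ => Φ (fun i => (mr : ℂ) + rTr (Matrix.diagonal d + N) (z i)) := by
  refine hΦ.continuous.measurable.comp (measurable_pi_lambda _ fun i => ?_)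
  refine measurable_const.add ((goe_rTr_measurable (z i)).comp ?_)
  refine s5y_meas_of_entries fun a c => ?_
  simp only [Matrix.add_apply]
  exact measurable_const.add (s5y_entry_meas a c)

/-- D2a. Channel representation of the inner integral (C1 + C5 + `integral_map`). General index type. -/
theorem s5_cx_chan {ι : Type} [Fintype ι] [DecidableEq ι] {r : ℕ}
    {O : Matrix (Fin (2 * r)) (Fin (2 * r)) ℝ}
    {β : ℝ} (hβ : 0 < β) (hdet : IsUnit (1 + chB O * chK (2 * r) p dinv mr).det)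
    (hsym : (chGam O p dinv mr)ᵀ = chGam O p dinv mr) (htr : Matrix.trace (chGam O p dinv mr) = 0)
    (hsq : chGam O p dinv mr * chGam O p dinv mr = (β ^ 2) • (1 : Matrix (Ch (2 * r)) (Ch (2 * r)) ℝ))
    {b : ℕ} {z : Fin b → ℂ} (hz : ∀ i, 0 < (z i).im) {Φ : (Fin b → ℂ) → ℝ} (hΦ : BLip Φ)
    (d : ι → ℝ) :
    ∫ g, Φ (fun i => (swT O (s5X (2 * r) p dinv mr d g (z i))).1) ∂(gArr ι (Ch (2 * r)))
      = s5cx mr z Φ β (2 * r) d := by
  have hmΓ : Measurable fun g : Matrix ι (Ch (2 * r)) ℝ => g * chGam O p dinv mr * gᵀ :=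
    s5y_mul_measR (s5y_mul_measR measurable_id measurable_const) (s5y_transpose_meas measurable_id)
  have hF := s5y_F_meas (mr := mr) z hΦ d
  simp only [s5_woodbury hdet hsym d _ (hz _)]
  unfold s5cx
  have h1 := integral_map (μ := gArr ι (Ch (2 * r))) hmΓ.aemeasurable hF.aestronglyMeasurable
  have h2 := integral_map (μ := (gArr ι (Fin (2 * r))).prod (gArr ι (Fin (2 * r))))
    (s5y_bilN_meas β).aemeasurable hF.aestronglyMeasurable
  rw [← h1, ← h2, s5_law_invol hβ hsym htr hsq]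

/-- D2. The first components of the switched model integrate to `s5C` (D2a, D0', Fubini). -/
theorem s5_law_C [IsProbabilityMeasure μ] {r : ℕ} (L : ℕ) {O : Matrix (Fin (2 * r)) (Fin (2 * r)) ℝ}
    {β : ℝ} (hβ : 0 < β) (hdet : IsUnit (1 + chB O * chK (2 * r) p dinv mr).det)
    (hsym : (chGam O p dinv mr)ᵀ = chGam O p dinv mr) (htr : Matrix.trace (chGam O p dinv mr) = 0)
    (hsq : chGam O p dinv mr * chGam O p dinv mr = (β ^ 2) • (1 : Matrix (Ch (2 * r)) (Ch (2 * r)) ℝ))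
    {b : ℕ} {z : Fin b → ℂ} (hz : ∀ i, 0 < (z i).im) {Φ : (Fin b → ℂ) → ℝ} (hΦ : BLip Φ) :
    ∫ v, Φ (fun i => (swT O (v i)).1) ∂(swLaw μ (2 * r) L p dinv mr z) = s5C μ mr z Φ β r L := by
  have := s5y_gArr_prob (Win L) (Ch (2 * r))
  have hm : Measurable fun v : Fin b → SwSt (2 * r) => Φ (fun i => (swT O (v i)).1) :=
    hΦ.continuous.measurable.comp (measurable_pi_lambda _ fun i =>
      ((s5_swT_measurable O).comp (measurable_pi_apply i)).fst)
  unfold swLaw s5C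
  rw [integral_map (s5y_swX_meas (2 * r) L z).aemeasurable hm.aestronglyMeasurable]
  rw [integral_prod]
  · refine integral_congr_ae (ae_of_all _ fun x => ?_)
    simp only [s5_swX_eq]
    exact s5_cx_chan hβ hdet hsym htr hsq hz hΦ (cPos L x)
  · refine Integrable.of_bound (hm.comp (s5y_swX_meas (2 * r) L z)).aestronglyMeasurable 1
      (ae_of_all _ fun xg => ?_)
    rw [Real.norm_eq_abs]
    exact hΦ.bdd _

/-- D4. A `BLip` function of the first components is a bounded continuous function. -/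
theorem s5_bcf_fst {k b : ℕ} {Φ : (Fin b → ℂ) → ℝ} (hΦ : BLip Φ) :
    ∃ f : BoundedContinuousFunction (Fin b → SwSt k) ℝ, ∀ v, f v = Φ (fun i => (v i).1) := by
  refine ⟨BoundedContinuousFunction.ofNormedAddCommGroup (fun v => Φ (fun i => (v i).1)) ?_ 1
    (fun v => by rw [Real.norm_eq_abs]; exact hΦ.bdd _), fun v => rfl⟩
  exact hΦ.continuous.comp (continuous_pi fun i => (continuous_apply i).fst)

/-- C6. `chB O` is invertible when `O + Oᵀ = 2c`, `c < 1`: `(O-1)(Oᵀ-1) = (2-2c)·1`, so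
`chB O * chB O = (2-2c)·1` (`fromBlocks_multiply`); `Matrix.isUnit_det_of_right_inverse`-type argument. -/
theorem s5_chB_unit {k : ℕ} {O : Matrix (Fin k) (Fin k) ℝ} (hO : IsOrth O) {c : ℝ} (hc : |c| < 1)
    (hOc : O + Oᵀ = (2 * c) • (1 : Matrix (Fin k) (Fin k) ℝ)) : IsUnit (chB O).det := by
  obtain ⟨-, hc2⟩ := abs_lt.1 hc
  have hw : (2 - 2 * c) ≠ 0 := by linarith
  have hOO : O * Oᵀ = 1 := hO
  have hOO' : Oᵀ * O = 1 := mul_eq_one_comm.1 hOO
  have e2 : (2 : ℝ) • (1 : Matrix (Fin k) (Fin k) ℝ) = 1 + 1 := by rw [two_smul]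
  have a1 : (Oᵀ - 1) * (O - 1) = (2 - 2 * c) • (1 : Matrix (Fin k) (Fin k) ℝ) := by
    rw [sub_smul, ← hOc, e2]
    simp only [sub_mul, mul_sub, hOO', one_mul, mul_one]
    abel
  have a2 : (O - 1) * (Oᵀ - 1) = (2 - 2 * c) • (1 : Matrix (Fin k) (Fin k) ℝ) := by
    rw [sub_smul, ← hOc, e2]
    simp only [sub_mul, mul_sub, hOO, one_mul, mul_one]
    abel
  have hsq : chB O * chB O = (2 - 2 * c) • (1 : Matrix (Ch k) (Ch k) ℝ) := by
    unfold chB
    rw [Matrix.fromBlocks_multiply, ← Matrix.fromBlocks_one, Matrix.fromBlocks_smul]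
    congr 1
    · simp [a1]
    · simp
    · simp
    · simp [a2]
  refine Matrix.isUnit_det_of_right_inverse (B := (2 - 2 * c)⁻¹ • chB O) ?_
  rw [Matrix.mul_smul, hsq, smul_smul, inv_mul_cancel₀ hw, one_smul]

/-- D5. The rotation with `Γ² = Δ/4r` (C2, C3, C4, C6 packed; used by T1 and by the first cut). -/
theorem s5_rot_pack (hp : |p| < 1) (hf1 : mr = p * (mr * p + dinv - 1 / 2)) {Δ : ℝ} (hΔ : 0 < Δ)
    {r : ℕ} (hr1 : 1 ≤ r) (hr : Δ * (mr * p + dinv - 1 / 2) ^ 2 < 4 * r) :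
    ∃ O : Matrix (Fin (2 * r)) (Fin (2 * r)) ℝ, IsOrth O ∧
      IsUnit (1 + chB O * chK (2 * r) p dinv mr).det ∧ (chGam O p dinv mr)ᵀ = chGam O p dinv mr ∧
      Matrix.trace (chGam O p dinv mr) = 0 ∧
      chGam O p dinv mr * chGam O p dinv mr
        = ((Real.sqrt (Δ / (4 * r))) ^ 2) • (1 : Matrix (Ch (2 * r)) (Ch (2 * r)) ℝ) ∧
      IsUnit (chB O).det := by
  obtain ⟨c, hc, hcβ⟩ := s5_exists_angle (p := p) hΔ hr1 hr hp
  obtain ⟨O, hO, hOc⟩ := s5_exists_rot r hc.le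
  obtain ⟨hdet, hsym, htr, hsq⟩ := s5_gam_invol hO hc hOc hp hf1
  have hrpos : (0 : ℝ) < 4 * r := by
    have : (1 : ℝ) ≤ r := by exact_mod_cast hr1
    linarith
  refine ⟨O, hO, hdet, hsym, htr, ?_, s5_chB_unit hO hc hOc⟩
  rw [hsq, hcβ, Real.sq_sqrt (div_pos hΔ hrpos).le]

/-- **T1** (Prop 5.1 + Woodbury + F1-F3): exact invariance, in the limit of the cut. -/
theorem s5_exact (h : S5In μ ρ χ p dinv mr) {Δ : ℝ} (hΔ : 0 < Δ) {r : ℕ} (hr1 : 1 ≤ r)
    (hr : Δ * (mr * p + dinv - 1 / 2) ^ 2 < 4 * r) {b : ℕ} {z : Fin b → ℂ}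
    (hz : ∀ i, 0 < (z i).im) {Φ : (Fin b → ℂ) → ℝ} (hΦ : BLip Φ) :
    Tendsto (fun L => s5C μ mr z Φ (Real.sqrt (Δ / (4 * r))) r L - s5A μ mr z Φ L)
      atTop (𝓝 0) := by
  have := h.prob
  have hk : 2 ≤ 2 * r := by omega
  obtain ⟨O, hO, hdet, hsym, htr, hsq', -⟩ := s5_rot_pack h.p_lt h.f1 hΔ hr1 hr
  have hrpos : (0 : ℝ) < 4 * r := by
    have : (1 : ℝ) ≤ r := by exact_mod_cast hr1
    linarith
  have hβ : 0 < Real.sqrt (Δ / (4 * r)) := Real.sqrt_pos.mpr (div_pos hΔ hrpos)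
  -- the limit law
  obtain ⟨P, hP, hlim, hdomSw, hswInt⟩ := h.sw (2 * r) hk b z hz
  have := hP
  have hdom : ∀ᵐ v ∂P, ∀ i, s5Dom (v i) := by
    filter_upwards [hdomSw] with v hv i using s5_dom_of_swDom (hv i)
  have hrot : ∀ U : Matrix (Fin (2 * r)) (Fin (2 * r)) ℝ, IsOrth U → P.map (swRb U) = P :=
    fun U hU => s5_P_rot hlim hU
  have hmeasTb : ∀ O' : Matrix (Fin (2 * r)) (Fin (2 * r)) ℝ, Measurable (swTb (b := b) O') :=
    fun O' => measurable_pi_lambda _ fun i => (s5_swT_measurable O').comp (measurable_pi_apply i)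
  have hsw : P.map (swTb (swapMat (2 * r) hk)) = P :=
    s5_map_eq_of_integral (hmeasTb _) fun f => hswInt f
  have hinv : P.map (swTb O) = P := s5_inv_all hk hdom hrot hsw hO
  have : ∀ L, IsProbabilityMeasure (swLaw μ (2 * r) L p dinv mr z) := fun L => s5_swLaw_prob _ _ _
  -- unswitched
  obtain ⟨f0, hf0⟩ := s5_bcf_fst (k := 2 * r) hΦ
  have l0 : Tendsto (fun L => s5A μ mr z Φ L) atTop (𝓝 (∫ v, Φ (fun i => (v i).1) ∂P)) := by
    have := hlim f0
    simp only [hf0] at this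
    refine this.congr fun L => ?_
    exact s5_law_A (2 * r) L hΦ
  -- switched
  have hmeasT := hmeasTb O
  have hmeasΦ : Measurable fun v : Fin b → SwSt (2 * r) => Φ (fun i => (v i).1) :=
    hΦ.continuous.measurable.comp
      (measurable_pi_lambda _ fun i => (measurable_pi_apply i).fst)
  have l1 : Tendsto (fun L => s5C μ mr z Φ (Real.sqrt (Δ / (4 * r))) r L) atTop
      (𝓝 (∫ v, Φ (fun i => (swT O (v i)).1) ∂P)) := by
    have hU : IsOpen {v : Fin b → SwSt (2 * r) | ∀ i, s5Dom (v i)} := by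
      have : {v : Fin b → SwSt (2 * r) | ∀ i, s5Dom (v i)}
          = ⋂ i, (fun v : Fin b → SwSt (2 * r) => v i) ⁻¹' {s | s5Dom s} := by
        ext v; simp
      rw [this]
      exact isOpen_iInter_of_finite fun i => s5_isOpen_dom.preimage (continuous_apply i)
    have hc : ContinuousOn (fun v : Fin b → SwSt (2 * r) => Φ (fun i => (swT O (v i)).1))
        {v | ∀ i, s5Dom (v i)} := by
      refine hΦ.continuous.comp_continuousOn (continuousOn_pi.mpr fun i => ?_)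
      refine continuous_fst.comp_continuousOn ?_
      exact (s5_swT_continuousOn hO).comp (continuous_apply i).continuousOn fun v hv => hv i
    have := s5_weak_of_continuousOn hlim hU hdom (hmeasΦ.comp hmeasT)
      (fun v => hΦ.bdd _) hc
    refine this.congr fun L => ?_
    exact s5_law_C L hβ hdet hsym htr hsq' hz hΦ
  have heq : ∫ v, Φ (fun i => (swT O (v i)).1) ∂P = ∫ v, Φ (fun i => (v i).1) ∂P := by
    conv_rhs => rw [← hinv]
    rw [integral_map hmeasT.aemeasurable hmeasΦ.aestronglyMeasurable]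
    rfl
  have := l1.sub l0
  rwa [heq, sub_self] at this

end exact

end Claimed.Agent.R287
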