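-- KEEP
import Claimed.Agent.R287.S5Alg

/-!
# R287 / unit S5 / Gaussian second moments on arrays (helper287)

Tool for the moment leaves of `S5Cut.lean` (Q1-Q3, H3) and `S5.lean` (G5):
`s5m_gen` : for a standard Gaussian vector `v` on a finite type and ANY real matrix `a`,
`q(v) = ∑ a_xy v_x v_y` has `E q = Tr a`, `E q² = (Tr a)² + ∑ a_xy² + ∑ a_xy a_yx`   (from `qf_mean`, `qf_var` of the kit `Qf`).
`s5m_arr` : the same on `gArr ι κ` (index `ι × κ`).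
Corollaries: `s5m_gt` (Kronecker coefficients), `s5m_rows`, `s5m_diag`, `s5m_cols` (+ `_mean`), `s5m_chan` (H3),
`s5mRows`, `s5mCols` (measure preserving splittings of rows / columns: `s5m_rows_mp`, `s5m_cols_mp`), `s5m_bil_sq` (Q2), `s5m_Y` (Q3),
`s5m_Z`, `s5m_Z_le` (Q1).
-/

set_option autoImplicit false
set_option linter.unusedSectionVars false
open MeasureTheory ProbabilityTheory Matrix Filter Topology

namespace Claimed.Agent.R287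

section gen
variable {α : Type} [Fintype α] [DecidableEq α]

/-- the quadratic form of an arbitrary matrix -/
def s5mQ (a : Matrix α α ℝ) (v : α → ℝ) : ℝ := ∑ x, ∑ y, a x y * (v x * v y)

/-- the symmetrisation -/
noncomputable def s5mA (a : Matrix α α ℝ) : Matrix α α ℝ := fun x y => (a x y + a y x) / 2

theorem s5m_eqns_cite : True := by
  have := @s5mQ.eq_1
  have := @s5mA.eq_1
  trivial

theorem s5m_A_herm (a : Matrix α α ℝ) : (s5mA a).IsHermitian := by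
  ext x y
  simp only [Matrix.conjTranspose_apply, s5mA, star_trivial]
  ring

theorem s5m_A_trace (a : Matrix α α ℝ) : (s5mA a).trace = ∑ x, a x x := by
  simp only [Matrix.trace, Matrix.diag_apply, s5mA]
  refine Finset.sum_congr rfl fun x _ => ?_
  ring

theorem s5m_A_sq (a : Matrix α α ℝ) :
    2 * (s5mA a * s5mA a).trace = ∑ x, ∑ y, a x y ^ 2 + ∑ x, ∑ y, a x y * a y x := by
  rw [qf_trace_sq_herm (s5m_A_herm a)]
  simp only [s5mA]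
  have e1 : ∀ x y : α, ((a x y + a y x) / 2) ^ 2
      = a x y ^ 2 / 4 + a y x ^ 2 / 4 + a x y * a y x / 2 := by
    intro x y; ring
  simp only [e1, Finset.sum_add_distrib]
  have s2 : ∑ x, ∑ y, a y x ^ 2 / 4 = ∑ x, ∑ y, a x y ^ 2 / 4 := Finset.sum_comm
  rw [s2]
  simp only [← Finset.sum_div]
  ring

theorem s5m_Q_eq (a : Matrix α α ℝ) (v : α → ℝ) : s5mQ a v = qfQ (s5mA a) v := by
  rw [qf_Q_eq_sum]
  simp only [s5mQ, s5mA]
  have e1 : ∀ x y : α, v x * ((a x y + a y x) / 2) * v y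
      = a x y * (v x * v y) / 2 + a y x * (v y * v x) / 2 := by
    intro x y; ring
  simp only [e1, Finset.sum_add_distrib]
  have s2 : ∑ x, ∑ y, a y x * (v y * v x) / 2 = ∑ x, ∑ y, a x y * (v x * v y) / 2 := Finset.sum_comm
  rw [s2]
  simp only [← Finset.sum_div]
  ring

theorem s5m_gen_int (a : Matrix α α ℝ) : Integrable (s5mQ a) (qfG α) := by
  have : s5mQ a = qfQ (s5mA a) := funext (s5m_Q_eq a)
  rw [this]
  exact qf_Q_integrable (s5m_A_herm a)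

theorem s5m_gen_mean (a : Matrix α α ℝ) : ∫ v, s5mQ a v ∂(qfG α) = ∑ x, a x x := by
  have : s5mQ a = qfQ (s5mA a) := funext (s5m_Q_eq a)
  rw [this, qf_mean (s5m_A_herm a), s5m_A_trace]

theorem s5m_gen_sq_int (a : Matrix α α ℝ) : Integrable (fun v => s5mQ a v ^ 2) (qfG α) := by
  have h1 := qf_sq_integrable (s5m_A_herm a)
  have h2 := (s5m_gen_int a).const_mul (2 * (s5mA a).trace)
  have h3 : Integrable (fun _ : α → ℝ => (s5mA a).trace ^ 2) (qfG α) := integrable_const _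
  refine ((h1.add h2).sub h3).congr (Filter.Eventually.of_forall fun v => ?_)
  simp only [Pi.add_apply, Pi.sub_apply, s5m_Q_eq]
  ring

/-- **second moment of an arbitrary quadratic form** -/
theorem s5m_gen (a : Matrix α α ℝ) :
    ∫ v, s5mQ a v ^ 2 ∂(qfG α)
      = (∑ x, a x x) ^ 2 + ∑ x, ∑ y, a x y ^ 2 + ∑ x, ∑ y, a x y * a y x := by
  have h1 := qf_sq_integrable (s5m_A_herm a)
  have h2 := (s5m_gen_int a).const_mul (2 * (s5mA a).trace)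
  have h3 : Integrable (fun _ : α → ℝ => (s5mA a).trace ^ 2) (qfG α) := integrable_const _
  have e : ∀ v, s5mQ a v ^ 2
      = (qfQ (s5mA a) v - (s5mA a).trace) ^ 2 + 2 * (s5mA a).trace * s5mQ a v - (s5mA a).trace ^ 2 := by
    intro v
    rw [s5m_Q_eq]
    ring
  simp only [e]
  have i1 : ∫ v, ((qfQ (s5mA a) v - (s5mA a).trace) ^ 2 + 2 * (s5mA a).trace * s5mQ a v
      - (s5mA a).trace ^ 2) ∂(qfG α)
      = (∫ v, (qfQ (s5mA a) v - (s5mA a).trace) ^ 2 ∂(qfG α))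
        + (∫ v, 2 * (s5mA a).trace * s5mQ a v ∂(qfG α)) - ∫ _v : α → ℝ, (s5mA a).trace ^ 2 ∂(qfG α) := by
    rw [← integral_add h1 h2]
    exact integral_sub (h1.add h2) h3
  rw [i1, qf_var (s5m_A_herm a), integral_const_mul, s5m_gen_mean, s5m_A_sq, s5m_A_trace]
  simp
  ring

end gen

section arr
variable {ι κ : Type} [Fintype ι] [Fintype κ] [DecidableEq ι] [DecidableEq κ]

/-- quadratic form of an array -/
def s5mQa (a : Matrix (ι × κ) (ι × κ) ℝ) (g : Matrix ι κ ℝ) : ℝ :=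
  ∑ x, ∑ y, a x y * (g x.1 x.2 * g y.1 y.2)

theorem s5m_arr_eqns_cite : True := by
  have := @s5mQa.eq_1
  trivial

theorem s5m_gArr_eq : gArr ι κ = (qfG (ι × κ)).map goeMat := goe_gArr_eq

theorem s5m_arr_integral (F : Matrix ι κ ℝ → ℝ) :
    ∫ g, F g ∂(gArr ι κ) = ∫ v, F (goeMat v) ∂(qfG (ι × κ)) := by
  rw [s5m_gArr_eq, goe_mat_emb.integral_map]

theorem s5m_arr_integrable (F : Matrix ι κ ℝ → ℝ) :
    Integrable F (gArr ι κ) ↔ Integrable (fun v => F (goeMat v)) (qfG (ι × κ)) := by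
  rw [s5m_gArr_eq, goe_mat_emb.integrable_map_iff]
  rfl

theorem s5m_arr_int (a : Matrix (ι × κ) (ι × κ) ℝ) : Integrable (s5mQa a) (gArr ι κ) :=
  (s5m_arr_integrable _).2 (s5m_gen_int a)

theorem s5m_arr_mean (a : Matrix (ι × κ) (ι × κ) ℝ) : ∫ g, s5mQa a g ∂(gArr ι κ) = ∑ x, a x x := by
  rw [s5m_arr_integral]
  exact s5m_gen_mean a

theorem s5m_arr_sq_int (a : Matrix (ι × κ) (ι × κ) ℝ) :
    Integrable (fun g => s5mQa a g ^ 2) (gArr ι κ) :=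
  (s5m_arr_integrable _).2 (s5m_gen_sq_int a)

/-- **second moment of an arbitrary quadratic form of the array** -/
theorem s5m_arr (a : Matrix (ι × κ) (ι × κ) ℝ) :
    ∫ g, s5mQa a g ^ 2 ∂(gArr ι κ)
      = (∑ x, a x x) ^ 2 + ∑ x, ∑ y, a x y ^ 2 + ∑ x, ∑ y, a x y * a y x := by
  rw [s5m_arr_integral]
  exact s5m_gen a

/-! ### Kronecker coefficients -/

/-- `a = L ⊗ S` -/
def s5mK (L : Matrix ι ι ℝ) (S : Matrix κ κ ℝ) : Matrix (ι × κ) (ι × κ) ℝ :=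
  fun x y => L x.1 y.1 * S x.2 y.2

theorem s5m_K_eqns_cite : True := by
  have := @s5mK.eq_1
  trivial

theorem s5m_K_form (L : Matrix ι ι ℝ) (S : Matrix κ κ ℝ) (g : Matrix ι κ ℝ) :
    s5mQa (s5mK L S) g = ∑ j, ∑ l, L j l * (g j ⬝ᵥ S *ᵥ g l) := by
  simp only [s5mQa, s5mK, Fintype.sum_prod_type, dotProduct, mulVec, Finset.mul_sum]
  refine Finset.sum_congr rfl fun j _ => ?_
  rw [Finset.sum_comm]
  refine Finset.sum_congr rfl fun l _ => Finset.sum_congr rfl fun c _ =>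
    Finset.sum_congr rfl fun e _ => ?_
  ring

theorem s5m_K_tr (L : Matrix ι ι ℝ) (S : Matrix κ κ ℝ) :
    ∑ x, s5mK L S x x = L.trace * S.trace := by
  simp only [s5mK, Fintype.sum_prod_type, Matrix.trace, Matrix.diag_apply, Finset.sum_mul_sum]

theorem s5m_K_sq (L : Matrix ι ι ℝ) (S : Matrix κ κ ℝ) :
    ∑ x, ∑ y, s5mK L S x y ^ 2 = (L * Lᵀ).trace * (S * Sᵀ).trace := by
  simp only [s5mK, Fintype.sum_prod_type, Matrix.trace, Matrix.diag_apply, Matrix.mul_apply,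
    Matrix.transpose_apply, Finset.sum_mul_sum]
  refine Finset.sum_congr rfl fun j _ => Finset.sum_congr rfl fun c _ =>
    Finset.sum_congr rfl fun l _ => Finset.sum_congr rfl fun e _ => ?_
  ring

theorem s5m_K_cross (L : Matrix ι ι ℝ) (S : Matrix κ κ ℝ) :
    ∑ x, ∑ y, s5mK L S x y * s5mK L S y x = (L * L).trace * (S * S).trace := by
  simp only [s5mK, Fintype.sum_prod_type, Matrix.trace, Matrix.diag_apply, Matrix.mul_apply,
    Finset.sum_mul_sum]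
  refine Finset.sum_congr rfl fun j _ => Finset.sum_congr rfl fun c _ =>
    Finset.sum_congr rfl fun l _ => Finset.sum_congr rfl fun e _ => ?_
  ring

/-- **GT**: `q = ∑ L_jl g_jᵀ S g_l`, `E q² = (Tr L Tr S)² + Tr LLᵀ Tr SSᵀ + Tr L² Tr S²`. -/
theorem s5m_gt (L : Matrix ι ι ℝ) (S : Matrix κ κ ℝ) :
    Integrable (fun g : Matrix ι κ ℝ => (∑ j, ∑ l, L j l * (g j ⬝ᵥ S *ᵥ g l)) ^ 2) (gArr ι κ) ∧
    ∫ g : Matrix ι κ ℝ, (∑ j, ∑ l, L j l * (g j ⬝ᵥ S *ᵥ g l)) ^ 2 ∂(gArr ι κ)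
      = (L.trace * S.trace) ^ 2 + (L * Lᵀ).trace * (S * Sᵀ).trace + (L * L).trace * (S * S).trace := by
  simp only [← s5m_K_form]
  exact ⟨s5m_arr_sq_int _, by rw [s5m_arr, s5m_K_tr, s5m_K_sq, s5m_K_cross]⟩

theorem s5m_gt_mean (L : Matrix ι ι ℝ) (S : Matrix κ κ ℝ) :
    Integrable (fun g : Matrix ι κ ℝ => ∑ j, ∑ l, L j l * (g j ⬝ᵥ S *ᵥ g l)) (gArr ι κ) ∧
    ∫ g : Matrix ι κ ℝ, (∑ j, ∑ l, L j l * (g j ⬝ᵥ S *ᵥ g l)) ∂(gArr ι κ) = L.trace * S.trace := by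
  simp only [← s5m_K_form]
  exact ⟨s5m_arr_int _, by rw [s5m_arr_mean, s5m_K_tr]⟩

/-- **(R)** two rows -/
theorem s5m_rows (j l : ι) (S : Matrix κ κ ℝ) :
    Integrable (fun g : Matrix ι κ ℝ => (g j ⬝ᵥ S *ᵥ g l) ^ 2) (gArr ι κ) ∧
    ∫ g : Matrix ι κ ℝ, (g j ⬝ᵥ S *ᵥ g l) ^ 2 ∂(gArr ι κ)
      = (if j = l then S.trace ^ 2 + (S * S).trace else 0) + (S * Sᵀ).trace := by
  have h := s5m_gt (Matrix.single j l (1 : ℝ)) S
  have e : ∀ g : Matrix ι κ ℝ, ∑ j', ∑ l', Matrix.single j l (1 : ℝ) j' l' * (g j' ⬝ᵥ S *ᵥ g l')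
      = g j ⬝ᵥ S *ᵥ g l := by
    intro g
    simp [Matrix.single_apply, Finset.sum_ite_eq, ite_and]
  simp only [e] at h
  refine ⟨h.1, h.2.trans ?_⟩
  by_cases hjl : j = l
  · subst hjl
    simp [Matrix.trace_single_eq_same]
    ring
  · simp [hjl, Matrix.trace_single_eq_of_ne, Matrix.single_mul_single_of_ne, Ne.symm hjl]

theorem s5m_rows_mean (j l : ι) (S : Matrix κ κ ℝ) :
    Integrable (fun g : Matrix ι κ ℝ => g j ⬝ᵥ S *ᵥ g l) (gArr ι κ) ∧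
    ∫ g : Matrix ι κ ℝ, g j ⬝ᵥ S *ᵥ g l ∂(gArr ι κ) = if j = l then S.trace else 0 := by
  have h := s5m_gt_mean (Matrix.single j l (1 : ℝ)) S
  have e : ∀ g : Matrix ι κ ℝ, ∑ j', ∑ l', Matrix.single j l (1 : ℝ) j' l' * (g j' ⬝ᵥ S *ᵥ g l')
      = g j ⬝ᵥ S *ᵥ g l := by
    intro g
    simp [Matrix.single_apply, Finset.sum_ite_eq, ite_and]
  simp only [e] at h
  refine ⟨h.1, h.2.trans ?_⟩
  by_cases hjl : j = l
  · subst hjl
    simp [Matrix.trace_single_eq_same]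
  · simp [hjl, Matrix.trace_single_eq_of_ne]

/-- **(D)** weighted sum over the rows -/
theorem s5m_diag (w : ι → ℝ) (S : Matrix κ κ ℝ) :
    Integrable (fun g : Matrix ι κ ℝ => (∑ j, w j * (g j ⬝ᵥ S *ᵥ g j)) ^ 2) (gArr ι κ) ∧
    ∫ g : Matrix ι κ ℝ, (∑ j, w j * (g j ⬝ᵥ S *ᵥ g j)) ^ 2 ∂(gArr ι κ)
      = (∑ j, w j) ^ 2 * S.trace ^ 2 + (∑ j, w j ^ 2) * ((S * Sᵀ).trace + (S * S).trace) := by
  have h := s5m_gt (Matrix.diagonal w) S
  have e : ∀ g : Matrix ι κ ℝ, ∑ j', ∑ l', Matrix.diagonal w j' l' * (g j' ⬝ᵥ S *ᵥ g l')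
      = ∑ j, w j * (g j ⬝ᵥ S *ᵥ g j) := by
    intro g
    simp [Matrix.diagonal_apply, Finset.sum_ite_eq]
  simp only [e] at h
  refine ⟨h.1, h.2.trans ?_⟩
  simp only [Matrix.diagonal_transpose, Matrix.diagonal_mul_diagonal, Matrix.trace_diagonal]
  simp only [← sq]
  ring

theorem s5m_diag_mean (w : ι → ℝ) (S : Matrix κ κ ℝ) :
    Integrable (fun g : Matrix ι κ ℝ => ∑ j, w j * (g j ⬝ᵥ S *ᵥ g j)) (gArr ι κ) ∧
    ∫ g : Matrix ι κ ℝ, (∑ j, w j * (g j ⬝ᵥ S *ᵥ g j)) ∂(gArr ι κ) = (∑ j, w j) * S.trace := by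
  have h := s5m_gt_mean (Matrix.diagonal w) S
  have e : ∀ g : Matrix ι κ ℝ, ∑ j', ∑ l', Matrix.diagonal w j' l' * (g j' ⬝ᵥ S *ᵥ g l')
      = ∑ j, w j * (g j ⬝ᵥ S *ᵥ g j) := by
    intro g
    simp [Matrix.diagonal_apply, Finset.sum_ite_eq]
  simp only [e] at h
  refine ⟨h.1, h.2.trans ?_⟩
  simp only [Matrix.trace_diagonal]

/-- **(C)** two columns -/
theorem s5m_cols (w : ι → ℝ) (c e : κ) :
    Integrable (fun g : Matrix ι κ ℝ => (∑ j, w j * (g j c * g j e)) ^ 2) (gArr ι κ) ∧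
    ∫ g : Matrix ι κ ℝ, (∑ j, w j * (g j c * g j e)) ^ 2 ∂(gArr ι κ)
      = (if c = e then (∑ j, w j) ^ 2 + ∑ j, w j ^ 2 else 0) + ∑ j, w j ^ 2 := by
  have h := s5m_diag w (Matrix.single c e (1 : ℝ))
  have e1 : ∀ (g : Matrix ι κ ℝ) (j : ι), g j ⬝ᵥ Matrix.single c e (1 : ℝ) *ᵥ g j = g j c * g j e := by
    intro g j
    simp [dotProduct, mulVec, Matrix.single_apply, Finset.sum_ite_eq, ite_and, Finset.mul_sum]
  simp only [e1] at h
  refine ⟨h.1, h.2.trans ?_⟩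
  by_cases hce : c = e
  · subst hce
    simp [Matrix.trace_single_eq_same]
    ring
  · simp [hce, Matrix.trace_single_eq_of_ne, Matrix.single_mul_single_of_ne, Ne.symm hce]

theorem s5m_cols_mean (w : ι → ℝ) (c e : κ) :
    Integrable (fun g : Matrix ι κ ℝ => ∑ j, w j * (g j c * g j e)) (gArr ι κ) ∧
    ∫ g : Matrix ι κ ℝ, (∑ j, w j * (g j c * g j e)) ∂(gArr ι κ) = if c = e then ∑ j, w j else 0 := by
  have h := s5m_diag_mean w (Matrix.single c e (1 : ℝ))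
  have e1 : ∀ (g : Matrix ι κ ℝ) (j : ι), g j ⬝ᵥ Matrix.single c e (1 : ℝ) *ᵥ g j = g j c * g j e := by
    intro g j
    simp [dotProduct, mulVec, Matrix.single_apply, Finset.sum_ite_eq, ite_and, Finset.mul_sum]
  simp only [e1] at h
  refine ⟨h.1, h.2.trans ?_⟩
  by_cases hce : c = e
  · subst hce
    simp [Matrix.trace_single_eq_same]
  · simp [hce, Matrix.trace_single_eq_of_ne]

end arr

/-! ### H3: marked sums with complex weights -/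

section chan
variable {ι κ : Type} [Fintype ι] [Fintype κ] [DecidableEq ι] [DecidableEq κ]

theorem s5m_chan_entry (w : ι → ℂ) (g : Matrix ι κ ℝ) (c e : κ) :
    ((toC g)ᵀ * Matrix.diagonal w * toC g) c e = ∑ j, w j * ((g j c * g j e : ℝ) : ℂ) := by
  simp only [Matrix.mul_apply, Matrix.transpose_apply, toC, Matrix.map_apply, Matrix.diagonal_apply,
    mul_ite, mul_zero, Finset.sum_ite_eq', Finset.mem_univ, if_true]
  refine Finset.sum_congr rfl fun j _ => ?_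
  push_cast
  ring

theorem s5m_chan_normsq (w : ι → ℂ) (g : Matrix ι κ ℝ) (c e : κ) :
    ‖((toC g)ᵀ * Matrix.diagonal w * toC g) c e‖ ^ 2
      = (∑ j, (w j).re * (g j c * g j e)) ^ 2 + (∑ j, (w j).im * (g j c * g j e)) ^ 2 := by
  rw [s5m_chan_entry, ← Complex.normSq_eq_norm_sq, Complex.normSq_apply, Complex.re_sum,
    Complex.im_sum]
  simp only [Complex.mul_re, Complex.mul_im, Complex.ofReal_re, Complex.ofReal_im, mul_zero,
    sub_zero, zero_add]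
  ring

/-- **H3** in entry form -/
theorem s5m_chan (w : ι → ℂ) :
    Integrable (fun g : Matrix ι κ ℝ => ∑ c, ∑ e, ‖((toC g)ᵀ * Matrix.diagonal w * toC g) c e‖ ^ 2)
      (gArr ι κ) ∧
    ∫ g : Matrix ι κ ℝ, ∑ c, ∑ e, ‖((toC g)ᵀ * Matrix.diagonal w * toC g) c e‖ ^ 2 ∂(gArr ι κ)
      = Fintype.card κ * ‖∑ j, w j‖ ^ 2 + ((Fintype.card κ : ℝ) ^ 2 + Fintype.card κ) * ∑ j, ‖w j‖ ^ 2 := by
  simp only [s5m_chan_normsq]
  have hi : ∀ c e : κ, Integrable (fun g : Matrix ι κ ℝ => (∑ j, (w j).re * (g j c * g j e)) ^ 2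
      + (∑ j, (w j).im * (g j c * g j e)) ^ 2) (gArr ι κ) := fun c e =>
    (s5m_cols (fun j => (w j).re) c e).1.add (s5m_cols (fun j => (w j).im) c e).1
  refine ⟨integrable_finsetSum _ fun c _ => integrable_finsetSum _ fun e _ => hi c e, ?_⟩
  rw [integral_finsetSum _ fun c _ => integrable_finsetSum _ fun e _ => hi c e]
  have h1 : ∀ c : κ, ∫ g : Matrix ι κ ℝ, ∑ e, ((∑ j, (w j).re * (g j c * g j e)) ^ 2
      + (∑ j, (w j).im * (g j c * g j e)) ^ 2) ∂(gArr ι κ)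
      = ∑ e, ((if c = e then ‖∑ j, w j‖ ^ 2 + ∑ j, ‖w j‖ ^ 2 else 0) + ∑ j, ‖w j‖ ^ 2) := by
    intro c
    rw [integral_finsetSum _ fun e _ => hi c e]
    refine Finset.sum_congr rfl fun e _ => ?_
    rw [integral_add (s5m_cols (fun j => (w j).re) c e).1 (s5m_cols (fun j => (w j).im) c e).1,
      (s5m_cols (fun j => (w j).re) c e).2, (s5m_cols (fun j => (w j).im) c e).2]
    have n1 : ‖∑ j, w j‖ ^ 2 = (∑ j, (w j).re) ^ 2 + (∑ j, (w j).im) ^ 2 := by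
      rw [← Complex.normSq_eq_norm_sq, Complex.normSq_apply, Complex.re_sum, Complex.im_sum]
      ring
    have n2 : ∑ j, ‖w j‖ ^ 2 = ∑ j, (w j).re ^ 2 + ∑ j, (w j).im ^ 2 := by
      rw [← Finset.sum_add_distrib]
      refine Finset.sum_congr rfl fun j _ => ?_
      rw [← Complex.normSq_eq_norm_sq, Complex.normSq_apply]
      ring
    rw [n1, n2]
    split_ifs <;> ring
  rw [Finset.sum_congr rfl fun c _ => h1 c]
  simp only [Finset.sum_add_distrib, Finset.sum_ite_eq, Finset.mem_univ, if_true,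
    Finset.sum_const, Finset.card_univ, nsmul_eq_mul]
  ring

end chan

/-! ### splitting rows and columns; Q2, Q3 -/

section split
variable {ι ι₁ ι₂ κ κ₁ κ₂ : Type} [Fintype ι] [Fintype ι₁] [Fintype ι₂] [Fintype κ] [Fintype κ₁] [Fintype κ₂]

/-- rows split as a measurable equivalence -/
def s5mRows (ι₁ ι₂ κ : Type) : Matrix (ι₁ ⊕ ι₂) κ ℝ ≃ᵐ Matrix ι₁ κ ℝ × Matrix ι₂ κ ℝ :=
  MeasurableEquiv.sumPiEquivProdPi fun _ : ι₁ ⊕ ι₂ => κ → ℝ

theorem s5m_rows_apply (g : Matrix (ι₁ ⊕ ι₂) κ ℝ) :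
    s5mRows ι₁ ι₂ κ g = (g.submatrix Sum.inl id, g.submatrix Sum.inr id) := rfl

theorem s5m_rows_mp : MeasurePreserving (s5mRows ι₁ ι₂ κ) (gArr (ι₁ ⊕ ι₂) κ)
    ((gArr ι₁ κ).prod (gArr ι₂ κ)) :=
  measurePreserving_sumPiEquivProdPi fun _ : ι₁ ⊕ ι₂ => Measure.pi fun _ : κ => gaussianReal 0 1

/-- columns split as a measurable equivalence -/
def s5mCols (ι κ₁ κ₂ : Type) : Matrix ι (κ₁ ⊕ κ₂) ℝ ≃ᵐ Matrix ι κ₁ ℝ × Matrix ι κ₂ ℝ :=
  (MeasurableEquiv.piCongrRight fun _ : ι => MeasurableEquiv.sumPiEquivProdPi fun _ : κ₁ ⊕ κ₂ => ℝ).trans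
    (MeasurableEquiv.arrowProdEquivProdArrow (κ₁ → ℝ) (κ₂ → ℝ) ι)

theorem s5m_cols_apply (g : Matrix ι (κ₁ ⊕ κ₂) ℝ) :
    s5mCols ι κ₁ κ₂ g = (g.submatrix id Sum.inl, g.submatrix id Sum.inr) := rfl

theorem s5m_cols_mp : MeasurePreserving (s5mCols ι κ₁ κ₂) (gArr ι (κ₁ ⊕ κ₂))
    ((gArr ι κ₁).prod (gArr ι κ₂)) := by
  refine MeasurePreserving.trans (μb := Measure.pi fun _ : ι =>
    (Measure.pi fun _ : κ₁ => gaussianReal 0 1).prod (Measure.pi fun _ : κ₂ => gaussianReal 0 1)) ?_ ?_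
  · exact measurePreserving_pi _ _ fun _ =>
      measurePreserving_sumPiEquivProdPi fun _ : κ₁ ⊕ κ₂ => gaussianReal 0 1
  · exact measurePreserving_arrowProdEquivProdArrow _ _ _ _ _

end split

section q2
variable {ι : Type} [Fintype ι] [DecidableEq ι] {m : ℕ}

theorem s5m_J_mulVec (v : Ch m → ℝ) : chJ m *ᵥ v = Sum.elim (fun c => v (Sum.inr c)) fun c => v (Sum.inl c) := by
  ext x
  rcases x with c | c <;>
  simp [chJ, mulVec, dotProduct, Fintype.sum_sum_type, Matrix.fromBlocks, Matrix.one_apply]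

theorem s5m_bilN_cols (g : Matrix ι (Ch m) ℝ) (x y : ι) :
    bilN (s5mCols ι (Fin m) (Fin m) g) x y = g x ⬝ᵥ chJ m *ᵥ g y := by
  rw [s5m_J_mulVec, s5m_cols_apply]
  simp [bilN, Matrix.mul_apply, dotProduct, Fintype.sum_sum_type]

theorem s5m_J_facts : (chJ m).trace = 0 ∧ chJ m * chJ m = 1 ∧ (chJ m)ᵀ = chJ m := by
  refine ⟨?_, ?_, ?_⟩
  · simp [chJ, Matrix.trace, Fintype.sum_sum_type]
  · simp [chJ, Matrix.fromBlocks_multiply]
  · simp [chJ, Matrix.fromBlocks_transpose]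

/-- second moment of an entry of the bilinear noise -/
theorem s5m_bil_sq (x y : ι) :
    Integrable (fun P : Matrix ι (Fin m) ℝ × Matrix ι (Fin m) ℝ => bilN P x y ^ 2)
      ((gArr ι (Fin m)).prod (gArr ι (Fin m))) ∧
    ∫ P, bilN P x y ^ 2 ∂((gArr ι (Fin m)).prod (gArr ι (Fin m)))
      = (if x = y then 2 * (m : ℝ) else 0) + 2 * m := by
  have h := s5m_rows x y (chJ m)
  obtain ⟨j1, j2, j3⟩ := s5m_J_facts (m := m)
  have mp := s5m_cols_mp (ι := ι) (κ₁ := Fin m) (κ₂ := Fin m)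
  constructor
  · rw [← mp.integrable_comp_emb (s5mCols ι (Fin m) (Fin m)).measurableEmbedding]
    refine h.1.congr (Filter.Eventually.of_forall fun g => ?_)
    simp only [Function.comp, s5m_bilN_cols]
  · rw [← mp.integral_comp' (fun P => bilN P x y ^ 2)]
    simp only [s5m_bilN_cols]
    rw [h.2, j3, j2, j1]
    simp only [Matrix.trace_one, Fintype.card_sum, Fintype.card_fin]
    push_cast
    split_ifs <;> ring

end q2
section q3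
variable {ιI ιF : Type} [Fintype ιI] [DecidableEq ιI] [Fintype ιF] [DecidableEq ιF] {m : ℕ}

/-- the entries of `A_IF W A_FI` in the rows picture -/
def s5mYr (w : ιF → ℝ) (a b : ιI) (q : Matrix ιI (Ch m) ℝ × Matrix ιF (Ch m) ℝ) : ℝ :=
  ∑ j, w j * ((q.1 a ⬝ᵥ chJ m *ᵥ q.2 j) * (q.1 b ⬝ᵥ chJ m *ᵥ q.2 j))

theorem s5m_Yr_cont (w : ιF → ℝ) (a b : ιI) : Continuous (s5mYr (m := m) w a b) := by
  unfold s5mYr
  simp only [dotProduct, mulVec]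
  fun_prop

theorem s5m_J_dot (x y : Ch m → ℝ) : x ⬝ᵥ chJ m *ᵥ y = y ⬝ᵥ chJ m *ᵥ x := by
  simp only [s5m_J_mulVec, dotProduct, Fintype.sum_sum_type, Sum.elim_inl, Sum.elim_inr]
  rw [add_comm]
  congr 1 <;> exact Finset.sum_congr rfl fun c _ => mul_comm _ _

theorem s5m_JJ_dot (x y : Ch m → ℝ) : (chJ m *ᵥ x) ⬝ᵥ (chJ m *ᵥ y) = x ⬝ᵥ y := by
  simp only [s5m_J_mulVec, dotProduct, Fintype.sum_sum_type, Sum.elim_inl, Sum.elim_inr]
  rw [add_comm]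

theorem s5m_Yr_eq (w : ιF → ℝ) (a b : ιI) (gI : Matrix ιI (Ch m) ℝ) (gF : Matrix ιF (Ch m) ℝ) :
    s5mYr w a b (gI, gF)
      = ∑ j, w j * (gF j ⬝ᵥ Matrix.vecMulVec (chJ m *ᵥ gI a) (chJ m *ᵥ gI b) *ᵥ gF j) := by
  unfold s5mYr
  refine Finset.sum_congr rfl fun j _ => ?_
  congr 1
  rw [Matrix.vecMulVec_mulVec, s5m_J_dot (gI a), s5m_J_dot (gI b)]
  simp only [op_smul_eq_smul, dotProduct_smul, smul_eq_mul]
  rw [dotProduct_comm (chJ m *ᵥ gI b)]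
  ring

/-- inner integral over the far rows -/
theorem s5m_Yr_inner (w : ιF → ℝ) (a b : ιI) (gI : Matrix ιI (Ch m) ℝ) :
    Integrable (fun gF : Matrix ιF (Ch m) ℝ => s5mYr w a b (gI, gF) ^ 2) (gArr ιF (Ch m)) ∧
    ∫ gF : Matrix ιF (Ch m) ℝ, s5mYr w a b (gI, gF) ^ 2 ∂(gArr ιF (Ch m))
      = (∑ j, w j) ^ 2 * (gI a ⬝ᵥ (1 : Matrix (Ch m) (Ch m) ℝ) *ᵥ gI b) ^ 2
        + (∑ j, w j ^ 2) * ((gI a ⬝ᵥ (1 : Matrix (Ch m) (Ch m) ℝ) *ᵥ gI a)
            * (gI b ⬝ᵥ (1 : Matrix (Ch m) (Ch m) ℝ) *ᵥ gI b)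
          + (gI a ⬝ᵥ (1 : Matrix (Ch m) (Ch m) ℝ) *ᵥ gI b) ^ 2) := by
  simp only [s5m_Yr_eq]
  have h := s5m_diag w (Matrix.vecMulVec (chJ m *ᵥ gI a) (chJ m *ᵥ gI b))
  refine ⟨h.1, h.2.trans ?_⟩
  simp only [Matrix.transpose_vecMulVec, Matrix.vecMulVec_mul_vecMulVec, Matrix.trace_vecMulVec,
    dotProduct_smul, smul_eq_mul, s5m_JJ_dot, Matrix.one_mulVec]
  rw [dotProduct_comm (gI b) (gI a)]
  ring

theorem s5m_G_sq_le (a b : ιI) (hm : 1 ≤ m) :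
    ∫ gI : Matrix ιI (Ch m) ℝ, (gI a ⬝ᵥ (1 : Matrix (Ch m) (Ch m) ℝ) *ᵥ gI b) ^ 2 ∂(gArr ιI (Ch m))
      ≤ 12 * (m : ℝ) ^ 2 := by
  rw [(s5m_rows a b (1 : Matrix (Ch m) (Ch m) ℝ)).2]
  simp only [Matrix.transpose_one, Matrix.mul_one, Matrix.trace_one, Fintype.card_sum,
    Fintype.card_fin]
  push_cast
  have : (1 : ℝ) ≤ m := by exact_mod_cast hm
  split_ifs <;> nlinarith

theorem s5m_GG_int (a b : ιI) :
    Integrable (fun gI : Matrix ιI (Ch m) ℝ => (gI a ⬝ᵥ (1 : Matrix (Ch m) (Ch m) ℝ) *ᵥ gI a)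
      * (gI b ⬝ᵥ (1 : Matrix (Ch m) (Ch m) ℝ) *ᵥ gI b)) (gArr ιI (Ch m)) := by
  have h1 := (s5m_rows a a (1 : Matrix (Ch m) (Ch m) ℝ)).1
  have h2 := (s5m_rows b b (1 : Matrix (Ch m) (Ch m) ℝ)).1
  refine Integrable.mono' (h1.add h2) ?_ (Filter.Eventually.of_forall fun gI => ?_)
  · refine Continuous.aestronglyMeasurable ?_
    simp only [dotProduct, mulVec]
    fun_prop
  · simp only [Pi.add_apply, Real.norm_eq_abs]
    rw [abs_le]
    constructor <;> nlinarith [sq_nonneg ((gI a ⬝ᵥ (1 : Matrix (Ch m) (Ch m) ℝ) *ᵥ gI a)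
      + (gI b ⬝ᵥ (1 : Matrix (Ch m) (Ch m) ℝ) *ᵥ gI b)), sq_nonneg ((gI a ⬝ᵥ (1 : Matrix (Ch m) (Ch m) ℝ) *ᵥ gI a)
      - (gI b ⬝ᵥ (1 : Matrix (Ch m) (Ch m) ℝ) *ᵥ gI b))]

theorem s5m_GG_le (a b : ιI) (hm : 1 ≤ m) :
    ∫ gI : Matrix ιI (Ch m) ℝ, (gI a ⬝ᵥ (1 : Matrix (Ch m) (Ch m) ℝ) *ᵥ gI a)
      * (gI b ⬝ᵥ (1 : Matrix (Ch m) (Ch m) ℝ) *ᵥ gI b) ∂(gArr ιI (Ch m)) ≤ 12 * (m : ℝ) ^ 2 := by
  have h1 := (s5m_rows a a (1 : Matrix (Ch m) (Ch m) ℝ)).1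
  have h2 := (s5m_rows b b (1 : Matrix (Ch m) (Ch m) ℝ)).1
  have hle : ∫ gI : Matrix ιI (Ch m) ℝ, (gI a ⬝ᵥ (1 : Matrix (Ch m) (Ch m) ℝ) *ᵥ gI a)
      * (gI b ⬝ᵥ (1 : Matrix (Ch m) (Ch m) ℝ) *ᵥ gI b) ∂(gArr ιI (Ch m))
      ≤ ∫ gI : Matrix ιI (Ch m) ℝ, (2⁻¹ * (gI a ⬝ᵥ (1 : Matrix (Ch m) (Ch m) ℝ) *ᵥ gI a) ^ 2
        + 2⁻¹ * (gI b ⬝ᵥ (1 : Matrix (Ch m) (Ch m) ℝ) *ᵥ gI b) ^ 2) ∂(gArr ιI (Ch m)) := by
    refine integral_mono (s5m_GG_int a b) ((h1.const_mul _).add (h2.const_mul _)) fun gI => ?_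
    nlinarith [sq_nonneg ((gI a ⬝ᵥ (1 : Matrix (Ch m) (Ch m) ℝ) *ᵥ gI a)
      - (gI b ⬝ᵥ (1 : Matrix (Ch m) (Ch m) ℝ) *ᵥ gI b))]
  refine hle.trans ?_
  rw [integral_add (h1.const_mul _) (h2.const_mul _), integral_const_mul, integral_const_mul]
  have := s5m_G_sq_le (m := m) a a hm
  have := s5m_G_sq_le (m := m) b b hm
  linarith

/-- second moment in the rows picture -/
theorem s5m_Yr (w : ιF → ℝ) (a b : ιI) (hm : 1 ≤ m) :
    Integrable (fun q => s5mYr (m := m) w a b q ^ 2) ((gArr ιI (Ch m)).prod (gArr ιF (Ch m))) ∧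
    ∫ q, s5mYr (m := m) w a b q ^ 2 ∂((gArr ιI (Ch m)).prod (gArr ιF (Ch m)))
      ≤ 12 * (m : ℝ) ^ 2 * ((∑ j, w j) ^ 2 + 2 * ∑ j, w j ^ 2) := by
  have r1 := (s5m_rows (ι := ιI) a b (1 : Matrix (Ch m) (Ch m) ℝ)).1
  have i2 : Integrable (fun gI : Matrix ιI (Ch m) ℝ => (gI a ⬝ᵥ (1 : Matrix (Ch m) (Ch m) ℝ) *ᵥ gI a)
            * (gI b ⬝ᵥ (1 : Matrix (Ch m) (Ch m) ℝ) *ᵥ gI b)
          + (gI a ⬝ᵥ (1 : Matrix (Ch m) (Ch m) ℝ) *ᵥ gI b) ^ 2) (gArr ιI (Ch m)) :=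
    (s5m_GG_int a b).add r1
  have hout : Integrable (fun gI : Matrix ιI (Ch m) ℝ =>
      (∑ j, w j) ^ 2 * (gI a ⬝ᵥ (1 : Matrix (Ch m) (Ch m) ℝ) *ᵥ gI b) ^ 2
        + (∑ j, w j ^ 2) * ((gI a ⬝ᵥ (1 : Matrix (Ch m) (Ch m) ℝ) *ᵥ gI a)
            * (gI b ⬝ᵥ (1 : Matrix (Ch m) (Ch m) ℝ) *ᵥ gI b)
          + (gI a ⬝ᵥ (1 : Matrix (Ch m) (Ch m) ℝ) *ᵥ gI b) ^ 2)) (gArr ιI (Ch m)) :=
    (r1.const_mul _).add (i2.const_mul _)
  have hint : Integrable (fun q => s5mYr (m := m) w a b q ^ 2)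
      ((gArr ιI (Ch m)).prod (gArr ιF (Ch m))) := by
    have hc : Continuous fun q => s5mYr (m := m) w a b q ^ 2 := (s5m_Yr_cont w a b).pow 2
    rw [integrable_prod_iff hc.aestronglyMeasurable]
    refine ⟨Filter.Eventually.of_forall fun gI => (s5m_Yr_inner w a b gI).1, ?_⟩
    refine hout.congr (Filter.Eventually.of_forall fun gI => ?_)
    simp only [Real.norm_of_nonneg (sq_nonneg _)]
    exact (s5m_Yr_inner w a b gI).2.symm
  refine ⟨hint, ?_⟩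
  rw [integral_prod _ hint]
  simp only [(s5m_Yr_inner w a b _).2]
  rw [integral_add (r1.const_mul _) (i2.const_mul _), integral_const_mul, integral_const_mul,
    integral_add (s5m_GG_int a b) r1]
  have b1 := s5m_G_sq_le (m := m) a b hm
  have b2 := s5m_GG_le (m := m) a b hm
  have w1 : 0 ≤ (∑ j, w j) ^ 2 := sq_nonneg _
  have w2 : 0 ≤ ∑ j, w j ^ 2 := Finset.sum_nonneg fun _ _ => sq_nonneg _
  nlinarith [mul_le_mul_of_nonneg_left b1 w1, mul_le_mul_of_nonneg_left b1 w2,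
    mul_le_mul_of_nonneg_left b2 w2]

/-- **Q3, entry form** -/
theorem s5m_Y (w : ιF → ℝ) (a b : ιI) (hm : 1 ≤ m) :
    Integrable (fun P : Matrix (ιI ⊕ ιF) (Fin m) ℝ × Matrix (ιI ⊕ ιF) (Fin m) ℝ =>
        (∑ j, w j * (bilN P (Sum.inl a) (Sum.inr j) * bilN P (Sum.inl b) (Sum.inr j))) ^ 2)
      ((gArr (ιI ⊕ ιF) (Fin m)).prod (gArr (ιI ⊕ ιF) (Fin m))) ∧
    ∫ P : Matrix (ιI ⊕ ιF) (Fin m) ℝ × Matrix (ιI ⊕ ιF) (Fin m) ℝ,
        (∑ j, w j * (bilN P (Sum.inl a) (Sum.inr j) * bilN P (Sum.inl b) (Sum.inr j))) ^ 2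
        ∂((gArr (ιI ⊕ ιF) (Fin m)).prod (gArr (ιI ⊕ ιF) (Fin m)))
      ≤ 12 * (m : ℝ) ^ 2 * ((∑ j, w j) ^ 2 + 2 * ∑ j, w j ^ 2) := by
  have h := s5m_Yr (m := m) w a b hm
  have mpc := s5m_cols_mp (ι := ιI ⊕ ιF) (κ₁ := Fin m) (κ₂ := Fin m)
  have mpr := s5m_rows_mp (ι₁ := ιI) (ι₂ := ιF) (κ := Ch m)
  have e : ∀ g : Matrix (ιI ⊕ ιF) (Ch m) ℝ,
      (∑ j, w j * (bilN (s5mCols (ιI ⊕ ιF) (Fin m) (Fin m) g) (Sum.inl a) (Sum.inr j)
        * bilN (s5mCols (ιI ⊕ ιF) (Fin m) (Fin m) g) (Sum.inl b) (Sum.inr j))) ^ 2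
      = s5mYr w a b (s5mRows ιI ιF (Ch m) g) ^ 2 := by
    intro g
    simp only [s5m_bilN_cols, s5mYr, s5m_rows_apply]
    rfl
  constructor
  · rw [← mpc.integrable_comp_emb (s5mCols (ιI ⊕ ιF) (Fin m) (Fin m)).measurableEmbedding]
    have := (mpr.integrable_comp_emb (s5mRows ιI ιF (Ch m)).measurableEmbedding).2 h.1
    refine this.congr (Filter.Eventually.of_forall fun g => ?_)
    simp only [Function.comp]
    exact (e g).symm
  · rw [← mpc.integral_comp' (fun P => (∑ j, w j * (bilN P (Sum.inl a) (Sum.inr j)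
      * bilN P (Sum.inl b) (Sum.inr j))) ^ 2)]
    simp only [e]
    rw [mpr.integral_comp' (fun q => s5mYr w a b q ^ 2)]
    exact h.2

end q3

/-! ### Q1: the fourth moment majorant -/

section q1
variable {ι κ : Type} [Fintype ι] [Fintype κ] [DecidableEq ι] [DecidableEq κ]

/-- `S' = Rᵀ U² R` -/
def s5mS (u : ι → ℝ) (R : Matrix ι κ ℝ) : Matrix κ κ ℝ := Rᵀ * Matrix.diagonal (fun i => u i ^ 2) * R

theorem s5m_S_symm (u : ι → ℝ) (R : Matrix ι κ ℝ) : (s5mS u R)ᵀ = s5mS u R := by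
  simp only [s5mS, Matrix.transpose_mul, Matrix.transpose_transpose, Matrix.diagonal_transpose,
    Matrix.mul_assoc]

theorem s5m_dot_one (a b : κ → ℝ) : a ⬝ᵥ (1 : Matrix κ κ ℝ) *ᵥ b = a ⬝ᵥ b := by
  rw [Matrix.one_mulVec]

theorem s5m_S_trace (u : ι → ℝ) (R : Matrix ι κ ℝ) :
    (s5mS u R).trace = ∑ i, u i ^ 2 * (R i ⬝ᵥ (1 : Matrix κ κ ℝ) *ᵥ R i) := by
  simp only [s5m_dot_one]
  rw [s5mS, Matrix.mul_assoc, Matrix.trace_mul_comm, Matrix.mul_assoc]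
  simp only [Matrix.trace, Matrix.diag_apply, Matrix.diagonal_mul]
  simp only [Matrix.mul_apply, Matrix.transpose_apply, dotProduct]

theorem s5m_S_trace_sq (u : ι → ℝ) (R : Matrix ι κ ℝ) :
    (s5mS u R * s5mS u R).trace
      = ∑ i, ∑ i', u i ^ 2 * u i' ^ 2 * (R i ⬝ᵥ (1 : Matrix κ κ ℝ) *ᵥ R i') ^ 2 := by
  simp only [s5m_dot_one]
  have e : s5mS u R * s5mS u R
      = Rᵀ * ((Matrix.diagonal (fun i => u i ^ 2) * (R * Rᵀ)) * (Matrix.diagonal (fun i => u i ^ 2) * R)) := by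
    simp only [s5mS, Matrix.mul_assoc]
  rw [e, Matrix.trace_mul_comm]
  have e2 : (Matrix.diagonal (fun i => u i ^ 2) * (R * Rᵀ)) * (Matrix.diagonal (fun i => u i ^ 2) * R) * Rᵀ
      = (Matrix.diagonal (fun i => u i ^ 2) * (R * Rᵀ)) * (Matrix.diagonal (fun i => u i ^ 2) * (R * Rᵀ)) := by
    simp only [Matrix.mul_assoc]
  rw [e2]
  simp only [Matrix.trace, Matrix.diag_apply, Matrix.mul_apply (M := Matrix.diagonal _ * _),
    Matrix.diagonal_mul]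
  refine Finset.sum_congr rfl fun i _ => Finset.sum_congr rfl fun i' _ => ?_
  have h1 : (R * Rᵀ) i i' = R i ⬝ᵥ R i' := by
    simp [Matrix.mul_apply, dotProduct]
  have h2 : (R * Rᵀ) i' i = R i ⬝ᵥ R i' := by
    simp [Matrix.mul_apply, dotProduct, mul_comm]
  rw [h1, h2]
  ring

/-- the majorant of `‖U bilN(P) U‖⁴ / 16` -/
def s5mZ (u : ι → ℝ) (P : Matrix ι κ ℝ × Matrix ι κ ℝ) : ℝ :=
  ∑ j, ∑ l, (u j * u l * (P.1 j ⬝ᵥ s5mS u P.2 *ᵥ P.1 l)) ^ 2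

theorem s5m_Z_cont (u : ι → ℝ) : Continuous (s5mZ (κ := κ) u) := by
  unfold s5mZ s5mS
  simp only [dotProduct, mulVec, Matrix.mul_apply, Matrix.transpose_apply, Matrix.diagonal_apply]
  fun_prop

/-- inner integral (over `P₊`) -/
theorem s5m_Z_inner (u : ι → ℝ) (R : Matrix ι κ ℝ) :
    Integrable (fun g : Matrix ι κ ℝ => s5mZ u (g, R)) (gArr ι κ) ∧
    ∫ g : Matrix ι κ ℝ, s5mZ u (g, R) ∂(gArr ι κ)
      = (∑ j, u j ^ 4) * ((s5mS u R).trace ^ 2 + (s5mS u R * s5mS u R).trace)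
        + (∑ j, u j ^ 2) ^ 2 * (s5mS u R * s5mS u R).trace := by
  unfold s5mZ
  simp only [mul_pow]
  have hi : ∀ j l : ι, Integrable (fun g : Matrix ι κ ℝ =>
      u j ^ 2 * u l ^ 2 * (g j ⬝ᵥ s5mS u R *ᵥ g l) ^ 2) (gArr ι κ) := fun j l =>
    (s5m_rows j l (s5mS u R)).1.const_mul _
  refine ⟨integrable_finsetSum _ fun j _ => integrable_finsetSum _ fun l _ => hi j l, ?_⟩
  rw [integral_finsetSum _ fun j _ => integrable_finsetSum _ fun l _ => hi j l]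
  have h1 : ∀ j : ι, ∫ g : Matrix ι κ ℝ, ∑ l, u j ^ 2 * u l ^ 2 * (g j ⬝ᵥ s5mS u R *ᵥ g l) ^ 2 ∂(gArr ι κ)
      = ∑ l, u j ^ 2 * u l ^ 2 * ((if j = l then (s5mS u R).trace ^ 2 + (s5mS u R * s5mS u R).trace else 0)
          + (s5mS u R * s5mS u R).trace) := by
    intro j
    rw [integral_finsetSum _ fun l _ => hi j l]
    refine Finset.sum_congr rfl fun l _ => ?_
    rw [integral_const_mul, (s5m_rows j l (s5mS u R)).2, s5m_S_symm]
  rw [Finset.sum_congr rfl fun j _ => h1 j]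
  simp only [mul_add, mul_ite, mul_zero, Finset.sum_add_distrib, Finset.sum_ite_eq, Finset.mem_univ,
    if_true]
  rw [sq (∑ j, u j ^ 2), Finset.sum_mul_sum, Finset.sum_mul, Finset.sum_mul, Finset.sum_mul]
  congr 1
  · congr 1 <;> exact Finset.sum_congr rfl fun j _ => by ring
  · refine Finset.sum_congr rfl fun j _ => ?_
    rw [Finset.sum_mul]

theorem s5m_trS_sq (u : ι → ℝ) :
    Integrable (fun R : Matrix ι κ ℝ => (s5mS u R).trace ^ 2) (gArr ι κ) ∧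
    ∫ R : Matrix ι κ ℝ, (s5mS u R).trace ^ 2 ∂(gArr ι κ)
      = (∑ j, u j ^ 2) ^ 2 * (Fintype.card κ : ℝ) ^ 2 + 2 * Fintype.card κ * ∑ j, u j ^ 4 := by
  simp only [s5m_S_trace]
  have h := s5m_diag (fun i => u i ^ 2) (1 : Matrix κ κ ℝ)
  refine ⟨h.1, h.2.trans ?_⟩
  simp only [Matrix.transpose_one, Matrix.mul_one, Matrix.trace_one, ← pow_mul]
  norm_num
  ring

theorem s5m_trSS (u : ι → ℝ) :
    Integrable (fun R : Matrix ι κ ℝ => (s5mS u R * s5mS u R).trace) (gArr ι κ) ∧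
    ∫ R : Matrix ι κ ℝ, (s5mS u R * s5mS u R).trace ∂(gArr ι κ)
      = (∑ j, u j ^ 4) * ((Fintype.card κ : ℝ) ^ 2 + Fintype.card κ)
        + (∑ j, u j ^ 2) ^ 2 * Fintype.card κ := by
  simp only [s5m_S_trace_sq]
  have hi : ∀ i i' : ι, Integrable (fun R : Matrix ι κ ℝ =>
      u i ^ 2 * u i' ^ 2 * (R i ⬝ᵥ (1 : Matrix κ κ ℝ) *ᵥ R i') ^ 2) (gArr ι κ) := fun i i' =>
    (s5m_rows i i' (1 : Matrix κ κ ℝ)).1.const_mul _
  refine ⟨integrable_finsetSum _ fun j _ => integrable_finsetSum _ fun l _ => hi j l, ?_⟩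
  rw [integral_finsetSum _ fun j _ => integrable_finsetSum _ fun l _ => hi j l]
  have h1 : ∀ j : ι, ∫ R : Matrix ι κ ℝ, ∑ l, u j ^ 2 * u l ^ 2 * (R j ⬝ᵥ (1 : Matrix κ κ ℝ) *ᵥ R l) ^ 2
        ∂(gArr ι κ)
      = ∑ l, u j ^ 2 * u l ^ 2 * ((if j = l then (Fintype.card κ : ℝ) ^ 2 + Fintype.card κ else 0)
          + Fintype.card κ) := by
    intro j
    rw [integral_finsetSum _ fun l _ => hi j l]
    refine Finset.sum_congr rfl fun l _ => ?_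
    rw [integral_const_mul, (s5m_rows j l (1 : Matrix κ κ ℝ)).2]
    simp only [Matrix.transpose_one, Matrix.mul_one, Matrix.trace_one]
  rw [Finset.sum_congr rfl fun j _ => h1 j]
  simp only [mul_add, mul_ite, mul_zero, Finset.sum_add_distrib, Finset.sum_ite_eq, Finset.mem_univ,
    if_true]
  rw [sq (∑ j, u j ^ 2), Finset.sum_mul_sum, Finset.sum_mul, Finset.sum_mul, Finset.sum_mul]
  congr 1
  · congr 1 <;> exact Finset.sum_congr rfl fun j _ => by ring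
  · refine Finset.sum_congr rfl fun j _ => ?_
    rw [Finset.sum_mul]

theorem s5m_Z_nonneg (u : ι → ℝ) (P : Matrix ι κ ℝ × Matrix ι κ ℝ) : 0 ≤ s5mZ u P :=
  Finset.sum_nonneg fun _ _ => Finset.sum_nonneg fun _ _ => sq_nonneg _

/-- **the fourth moment majorant**, exact value -/
theorem s5m_Z (u : ι → ℝ) :
    Integrable (s5mZ (κ := κ) u) ((gArr ι κ).prod (gArr ι κ)) ∧
    ∫ P, s5mZ (κ := κ) u P ∂((gArr ι κ).prod (gArr ι κ))
      = (∑ j, u j ^ 4) * (((∑ j, u j ^ 2) ^ 2 * (Fintype.card κ : ℝ) ^ 2 + 2 * Fintype.card κ * ∑ j, u j ^ 4)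
          + ((∑ j, u j ^ 4) * ((Fintype.card κ : ℝ) ^ 2 + Fintype.card κ)
            + (∑ j, u j ^ 2) ^ 2 * Fintype.card κ))
        + (∑ j, u j ^ 2) ^ 2 * ((∑ j, u j ^ 4) * ((Fintype.card κ : ℝ) ^ 2 + Fintype.card κ)
            + (∑ j, u j ^ 2) ^ 2 * Fintype.card κ) := by
  have hout : Integrable (fun R : Matrix ι κ ℝ =>
      (∑ j, u j ^ 4) * ((s5mS u R).trace ^ 2 + (s5mS u R * s5mS u R).trace)
        + (∑ j, u j ^ 2) ^ 2 * (s5mS u R * s5mS u R).trace) (gArr ι κ) :=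
    (((s5m_trS_sq u).1.add (s5m_trSS u).1).const_mul _).add ((s5m_trSS u).1.const_mul _)
  have hint : Integrable (s5mZ (κ := κ) u) ((gArr ι κ).prod (gArr ι κ)) := by
    rw [integrable_prod_iff' (s5m_Z_cont u).aestronglyMeasurable]
    refine ⟨Filter.Eventually.of_forall fun R => (s5m_Z_inner u R).1, ?_⟩
    refine hout.congr (Filter.Eventually.of_forall fun R => ?_)
    simp only [Real.norm_of_nonneg (s5m_Z_nonneg u _)]
    exact (s5m_Z_inner u R).2.symm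
  refine ⟨hint, ?_⟩
  rw [integral_prod_symm _ hint]
  simp only [(s5m_Z_inner u _).2]
  have i1 : Integrable (fun R : Matrix ι κ ℝ => (s5mS u R).trace ^ 2 + (s5mS u R * s5mS u R).trace)
      (gArr ι κ) := (s5m_trS_sq u).1.add (s5m_trSS u).1
  rw [integral_add (i1.const_mul _) ((s5m_trSS u).1.const_mul _),
    integral_const_mul, integral_const_mul, integral_add (s5m_trS_sq u).1 (s5m_trSS u).1,
    (s5m_trS_sq u).2, (s5m_trSS u).2]

/-- **the fourth moment majorant**, bound -/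
theorem s5m_Z_le {u : ι → ℝ} {T ub : ℝ} (hT : ∑ j, u j ^ 2 ≤ T) (hub0 : 0 ≤ ub)
    (hub : ∀ j, u j ^ 2 ≤ ub) (hn : 1 ≤ Fintype.card κ) :
    ∫ P, s5mZ (κ := κ) u P ∂((gArr ι κ).prod (gArr ι κ))
      ≤ Fintype.card κ * T ^ 4 + 8 * (Fintype.card κ : ℝ) ^ 2 * ub * T ^ 3 := by
  rw [(s5m_Z u).2]
  set n : ℝ := (Fintype.card κ : ℝ) with hn'
  set a2 := ∑ j, u j ^ 2 with ha2
  set a4 := ∑ j, u j ^ 4 with ha4
  have hn1 : (1 : ℝ) ≤ n := by rw [hn']; exact_mod_cast hn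
  have h20 : 0 ≤ a2 := Finset.sum_nonneg fun _ _ => sq_nonneg _
  have h40 : 0 ≤ a4 := Finset.sum_nonneg fun j _ => by positivity
  have h4a : a4 ≤ ub * a2 := by
    rw [ha4, ha2, Finset.mul_sum]
    refine Finset.sum_le_sum fun j _ => ?_
    have : u j ^ 4 = u j ^ 2 * u j ^ 2 := by ring
    rw [this]
    exact mul_le_mul_of_nonneg_right (hub j) (sq_nonneg _)
  have h4b : a4 ≤ a2 ^ 2 := by
    rw [ha4, ha2, sq, Finset.sum_mul_sum]
    refine Finset.sum_le_sum fun j _ => ?_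
    have : u j ^ 4 = u j ^ 2 * u j ^ 2 := by ring
    rw [this]
    exact Finset.single_le_sum (f := fun i => u j ^ 2 * u i ^ 2) (fun i _ => by positivity)
      (Finset.mem_univ j)
  have hT0 : 0 ≤ T := h20.trans hT
  -- reduce to a2
  have key : a4 * ((a2 ^ 2 * n ^ 2 + 2 * n * a4) + (a4 * (n ^ 2 + n) + a2 ^ 2 * n))
      + a2 ^ 2 * (a4 * (n ^ 2 + n) + a2 ^ 2 * n) ≤ n * a2 ^ 4 + 8 * n ^ 2 * ub * a2 ^ 3 := by
    have hnn : n ≤ n ^ 2 := by nlinarith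
    have e1 : a4 * ((a2 ^ 2 * n ^ 2 + 2 * n * a4) + (a4 * (n ^ 2 + n) + a2 ^ 2 * n))
        + a2 ^ 2 * (a4 * (n ^ 2 + n) + a2 ^ 2 * n)
        = n * a2 ^ 4 + a4 * a2 ^ 2 * (2 * n ^ 2 + 2 * n) + a4 * a4 * (n ^ 2 + 3 * n) := by ring
    rw [e1]
    have b1 : a4 * a2 ^ 2 * (2 * n ^ 2 + 2 * n) ≤ (ub * a2) * a2 ^ 2 * (4 * n ^ 2) := by
      apply mul_le_mul (mul_le_mul_of_nonneg_right h4a (sq_nonneg _)) (by linarith) (by positivity)
      positivity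
    have b2 : a4 * a4 * (n ^ 2 + 3 * n) ≤ (ub * a2) * a2 ^ 2 * (4 * n ^ 2) := by
      apply mul_le_mul (mul_le_mul h4a h4b h40 (by positivity)) (by linarith) (by positivity)
      positivity
    nlinarith [b1, b2]
  refine key.trans ?_
  have p4 : a2 ^ 4 ≤ T ^ 4 := pow_le_pow_left₀ h20 hT 4
  have p3 : a2 ^ 3 ≤ T ^ 3 := pow_le_pow_left₀ h20 hT 3
  have : 0 ≤ 8 * n ^ 2 * ub := by positivity
  nlinarith [mul_le_mul_of_nonneg_left p4 (by linarith : (0:ℝ) ≤ n), mul_le_mul_of_nonneg_left p3 this]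

end q1

theorem s5m_more_eqns_cite : True := by
  have := @s5mRows.eq_1
  have := @s5mCols.eq_1
  have := @s5mYr.eq_1
  have := @s5mS.eq_1
  have := @s5mZ.eq_1
  trivial

end Claimed.Agent.R287
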