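-- KEEP
import Claimed.Agent.R287.S5Alg
import Claimed.Agent.R287.Stj227
import Claimed.Agent.R287.S5Mom
import Claimed.Agent.R287.ResD

/-!
# R287 / unit S5 (P1 Sec. 5, head helper287) / part Cut  : `s5_cut` (T2)

T2 = T2a (first cut `L' → L(K)`, in CHANNEL space, P1 (5.11)-(5.14), uniform in `L' ≥ L(K)`)
   + T2b (far block `L(K) → K`, in POSITION space, P1 Lemmas 5.3-5.5 with F5 instead of matrix Bernstein).
Both are proved for FIXED regular positions (`CReg ρ χ C₀ J₀ x`), on general finite index types `ιI ⊕ ιF`,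
and then integrated over `μ`.  Norms `‖·‖` of matrices = L2 operator norm (scoped).  `hsq` = squared HS norm.
Hand proofs with all constants: `origin/helper287:notes/R287/A8_helper287.md` + docstrings below.
-/

set_option autoImplicit false
set_option linter.unusedSectionVars false
open MeasureTheory ProbabilityTheory Matrix Filter Topology
open scoped ComplexOrder Matrix.Norms.L2Operator

namespace Claimed.Agent.R287

/-! ## 0. Local definitions -/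

/-- squared Hilbert-Schmidt norm of a real matrix -/
def hsq {ι κ : Type} [Fintype ι] [Fintype κ] (A : Matrix ι κ ℝ) : ℝ := ∑ i, ∑ j, (A i j) ^ 2

/-- squared Hilbert-Schmidt norm of a complex matrix -/
noncomputable def hsqC {ι κ : Type} [Fintype ι] [Fintype κ] (A : Matrix ι κ ℂ) : ℝ := ∑ i, ∑ j, ‖A i j‖ ^ 2

/-- resolvent of a real matrix -/
noncomputable def s5G {ι : Type} [Fintype ι] [DecidableEq ι] (H : Matrix ι ι ℝ) (z : ℂ) :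
    Matrix ι ι ℂ := (toC H - z • (1 : Matrix ι ι ℂ))⁻¹

/-- inner weights `U_I = (|D_I| + h)^{-1/2}` -/
noncomputable def wI {ι : Type} [DecidableEq ι] (h : ℝ) (d : ι → ℝ) : Matrix ι ι ℝ :=
  Matrix.diagonal fun a => (Real.sqrt (|d a| + h))⁻¹

/-- far weights `U_F = |D_F|^{-1/2}` -/
noncomputable def wF {ι : Type} [DecidableEq ι] (d : ι → ℝ) : Matrix ι ι ℝ :=
  Matrix.diagonal fun j => (Real.sqrt |d j|)⁻¹

/-- the bound `ϱ(z,h)` of the weighted inner resolvent (Lemma 5.5) -/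
noncomputable def s5rho (h : ℝ) (z : ℂ) : ℝ :=
  3 + 9 * ‖z - (h : ℂ) * Complex.I‖ / h + 9 * ‖z - (h : ℂ) * Complex.I‖ ^ 2 / (h * z.im)

/-- the deterministic error of the far block removal -/
noncomputable def s5det (h κ ℓ τ₁ tF t0 tS : ℝ) (z : ℂ) : ℝ :=
  2 * s5rho h z ^ 2 * (tS + 2 * (tF + ‖z‖ / κ) * t0) * ℓ + τ₁ + 2 * (tF + ‖z‖ / κ) * ℓ
    + 8 * s5rho h z * t0 / κ

/-- far labels `K < |j| ≤ L` -/
abbrev Far (K L : ℕ) := {i : Win L // (K : ℤ) < |wIdx i|}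

/-- positions of the far labels -/
def farPos (K L : ℕ) (x : Conf) : Far K L → ℝ := fun i => x (wIdx i.1)

/-- the first cut `L(K) = ⌈K^{10000/χ}⌉` (`= r^{100/χ}`, `r = K^100`) -/
noncomputable def s5L (χ : ℝ) (K : ℕ) : ℕ := ⌈(K : ℝ) ^ (10000 / χ)⌉₊

theorem s5_cut_eqns_cite : True := by
  have := @hsq.eq_1
  have := @hsqC.eq_1
  have := @s5G.eq_1
  have := @wI.eq_1
  have := @wF.eq_1
  have := @s5rho.eq_1
  have := @s5det.eq_1
  have := @farPos.eq_1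
  have := @s5L.eq_1
  trivial

/-! ## 0b. General tools -/

/-- I2 (general). Two measurable functions bounded by 1 which are `ε`-close off a set of outer measure `≤ δ`. -/
theorem s5_int_split {X : Type} [MeasurableSpace X] {μ : Measure X} [IsProbabilityMeasure μ]
    {F G : X → ℝ} (hF : Measurable F) (hG : Measurable G) (hF1 : ∀ x, |F x| ≤ 1)
    (hG1 : ∀ x, |G x| ≤ 1) {S : Set X} {ε δ : ℝ} (hε : 0 ≤ ε) (hδ : 0 ≤ δ) (hS : μ Sᶜ ≤ ENNReal.ofReal δ)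
    (hFG : ∀ x ∈ S, |F x - G x| ≤ ε) : |∫ x, F x ∂μ - ∫ x, G x ∂μ| ≤ ε + 2 * δ := by
  have hFi : Integrable F μ :=
    Integrable.of_bound hF.aestronglyMeasurable 1 (Eventually.of_forall fun x => by simpa using hF1 x)
  have hGi : Integrable G μ :=
    Integrable.of_bound hG.aestronglyMeasurable 1 (Eventually.of_forall fun x => by simpa using hG1 x)
  set A : Set X := {x | ε < |F x - G x|} with hA
  have hAm : MeasurableSet A := measurableSet_lt measurable_const (hF.sub hG).abs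
  have hAS : A ⊆ Sᶜ := fun x hx hxS => absurd (hFG x hxS) (not_le.mpr hx)
  have hμA : μ.real A ≤ δ := by
    have h1 : μ A ≤ ENNReal.ofReal δ := (measure_mono hAS).trans hS
    have := ENNReal.toReal_mono ENNReal.ofReal_ne_top h1
    rwa [ENNReal.toReal_ofReal hδ] at this
  rw [← integral_sub hFi hGi]
  have hind : Integrable (A.indicator fun _ => (2 : ℝ)) μ := (integrable_const 2).indicator hAm
  calc |∫ x, (F x - G x) ∂μ| ≤ ∫ x, |F x - G x| ∂μ := abs_integral_le_integral_abs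
    _ ≤ ∫ x, (ε + A.indicator (fun _ => (2 : ℝ)) x) ∂μ := by
        refine integral_mono (hFi.sub hGi).abs ((integrable_const ε).add hind) fun x => ?_
        by_cases hx : x ∈ A
        · simp only [Set.indicator_of_mem hx]
          have := abs_sub (F x) (G x)
          have h1 := hF1 x
          have h2 := hG1 x
          linarith
        · simp only [Set.indicator_of_notMem hx, add_zero]
          exact not_lt.mp hx
    _ = ε + 2 * μ.real A := by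
        rw [integral_add (integrable_const ε) hind, integral_indicator hAm]
        simp [mul_comm]
    _ ≤ ε + 2 * δ := by linarith

/-- I0. A `BLip` function of resolvent traces of a measurable matrix is measurable (D0, `BLip.continuous`). -/
theorem s5_Phi_meas {X ι : Type} [MeasurableSpace X] [Fintype ι] [DecidableEq ι] {mr : ℝ} {b : ℕ}
    (z : Fin b → ℂ) {Φ : (Fin b → ℂ) → ℝ} (hΦ : BLip Φ) {f : X → Matrix ι ι ℝ} (hf : Measurable f) :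
    Measurable fun v => Φ (fun i => (mr : ℂ) + rTr (f v) (z i)) := by
  refine hΦ.continuous.measurable.comp (measurable_pi_lambda _ fun i => ?_)
  exact measurable_const.add ((s5_rTr_measurable (z i)).comp hf)

/-- I0'. `bilN` and its blocks are continuous, hence measurable (entries are polynomials). -/
theorem s5_bilN_meas {ι κ : Type} [Fintype ι] [Fintype κ] :
    Continuous (bilN : Matrix ι κ ℝ × Matrix ι κ ℝ → Matrix ι ι ℝ) ∧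
      Measurable (bilN : Matrix ι κ ℝ × Matrix ι κ ℝ → Matrix ι ι ℝ) := by
  have hc : Continuous (bilN : Matrix ι κ ℝ × Matrix ι κ ℝ → Matrix ι ι ℝ) := by
    unfold bilN
    fun_prop
  exact ⟨hc, hc.measurable⟩

section opn
variable {𝕜 : Type} [RCLike 𝕜] {m n : Type} [Fintype m] [Fintype n] [DecidableEq n]

/-- the L2 operator norm in coordinates: upper bound -/
theorem s5_opn_le (A : Matrix m n 𝕜) {c : ℝ} (hc : 0 ≤ c)
    (h : ∀ x : n → 𝕜, ∑ i, ‖(A *ᵥ x) i‖ ^ 2 ≤ c ^ 2 * ∑ j, ‖x j‖ ^ 2) : ‖A‖ ≤ c := by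
  rw [Matrix.l2_opNorm_def]
  refine ContinuousLinearMap.opNorm_le_bound _ hc fun x => ?_
  refine (sq_le_sq₀ (norm_nonneg _) (by positivity)).mp ?_
  rw [mul_pow, EuclideanSpace.norm_sq_eq, EuclideanSpace.norm_sq_eq]
  exact h x.ofLp

/-- the L2 operator norm in coordinates: lower bound -/
theorem s5_opn_mulVec (A : Matrix m n 𝕜) (x : n → 𝕜) :
    ∑ i, ‖(A *ᵥ x) i‖ ^ 2 ≤ ‖A‖ ^ 2 * ∑ j, ‖x j‖ ^ 2 := by
  have h := Matrix.l2_opNorm_mulVec A (WithLp.toLp 2 x)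
  have h2 := (sq_le_sq₀ (norm_nonneg _) (by positivity)).mpr h
  rw [mul_pow, EuclideanSpace.norm_sq_eq, EuclideanSpace.norm_sq_eq] at h2
  exact h2

/-- operator norm `≤` Hilbert-Schmidt norm -/
theorem s5_opn_sq_le_hs (A : Matrix m n 𝕜) : ‖A‖ ^ 2 ≤ ∑ i, ∑ j, ‖A i j‖ ^ 2 := by
  have h0 : 0 ≤ ∑ i, ∑ j, ‖A i j‖ ^ 2 := Finset.sum_nonneg fun _ _ => Finset.sum_nonneg fun _ _ => sq_nonneg _
  have h : ‖A‖ ≤ Real.sqrt (∑ i, ∑ j, ‖A i j‖ ^ 2) := by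
    refine s5_opn_le A (Real.sqrt_nonneg _) fun x => ?_
    rw [Real.sq_sqrt h0, Finset.sum_mul]
    refine Finset.sum_le_sum fun i _ => ?_
    calc ‖(A *ᵥ x) i‖ ^ 2 ≤ (∑ j, ‖A i j‖ * ‖x j‖) ^ 2 := by
          refine pow_le_pow_left₀ (norm_nonneg _) ?_ 2
          unfold Matrix.mulVec dotProduct
          refine (norm_sum_le _ _).trans (Finset.sum_le_sum fun j _ => ?_)
          rw [norm_mul]
      _ ≤ (∑ j, ‖A i j‖ ^ 2) * ∑ j, ‖x j‖ ^ 2 := Finset.sum_mul_sq_le_sq_mul_sq _ _ _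
  calc ‖A‖ ^ 2 ≤ Real.sqrt (∑ i, ∑ j, ‖A i j‖ ^ 2) ^ 2 := pow_le_pow_left₀ (norm_nonneg _) h 2
    _ = _ := Real.sq_sqrt h0

end opn

theorem s5_toC_mulVec {ι κ : Type} [Fintype κ] (A : Matrix ι κ ℝ) (x : κ → ℂ) (i : ι) :
    (toC A *ᵥ x) i = (((A *ᵥ fun j => (x j).re) i : ℝ) : ℂ) + (((A *ᵥ fun j => (x j).im) i : ℝ) : ℂ) * Complex.I := by
  unfold toC Matrix.mulVec dotProduct
  simp only [Matrix.map_apply]
  push_cast
  rw [Finset.sum_mul, ← Finset.sum_add_distrib]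
  refine Finset.sum_congr rfl fun j _ => ?_
  conv_lhs => rw [← Complex.re_add_im (x j)]
  ring

/-- E0. Complexification keeps the L2 operator norm (`‖A (x + i y)‖² = ‖A x‖² + ‖A y‖²`; kit `rs_op_C`), and the
operator norm is bounded by the HS norm. -/
theorem s5_norm_toC {ι κ : Type} [Fintype ι] [DecidableEq ι] [Fintype κ] [DecidableEq κ]
    (A : Matrix ι κ ℝ) : ‖toC A‖ = ‖A‖ ∧ ‖A‖ ^ 2 ≤ hsq A := by
  refine ⟨le_antisymm ?_ ?_, ?_⟩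
  · refine s5_opn_le _ (norm_nonneg _) fun x => ?_
    have h1 := s5_opn_mulVec A fun j => (x j).re
    have h2 := s5_opn_mulVec A fun j => (x j).im
    have e1 : ∀ i, ‖(toC A *ᵥ x) i‖ ^ 2
        = ‖(A *ᵥ fun j => (x j).re) i‖ ^ 2 + ‖(A *ᵥ fun j => (x j).im) i‖ ^ 2 := by
      intro i
      rw [s5_toC_mulVec, Complex.sq_norm, Complex.normSq_add_mul_I, Real.norm_eq_abs, Real.norm_eq_abs,
        sq_abs, sq_abs]
    have e2 : ∀ j, ‖x j‖ ^ 2 = ‖(x j).re‖ ^ 2 + ‖(x j).im‖ ^ 2 := by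
      intro j
      rw [Complex.sq_norm, Complex.normSq_apply, Real.norm_eq_abs, Real.norm_eq_abs, sq_abs, sq_abs]
      ring
    simp only [e1, e2, Finset.sum_add_distrib, mul_add]
    exact add_le_add h1 h2
  · refine s5_opn_le _ (norm_nonneg _) fun x => ?_
    have h1 := s5_opn_mulVec (toC A) fun j => ((x j : ℝ) : ℂ)
    have e1 : ∀ i, ‖(toC A *ᵥ fun j => ((x j : ℝ) : ℂ)) i‖ ^ 2 = ‖(A *ᵥ x) i‖ ^ 2 := by
      intro i
      rw [s5_toC_mulVec]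
      have h0 : (A *ᵥ fun _ : κ => (0 : ℝ)) i = 0 := by
        have : (fun _ : κ => (0 : ℝ)) = 0 := rfl
        rw [this, Matrix.mulVec_zero]; rfl
      simp only [Complex.ofReal_re, Complex.ofReal_im, h0, Complex.ofReal_zero, zero_mul, add_zero,
        Complex.norm_real]
    simp only [e1, Complex.norm_real] at h1
    exact h1
  · have := s5_opn_sq_le_hs A
    simpa [hsq] using this

/-- E0'. Complex form: `‖X‖² ≤ ‖X‖²_HS`. -/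
theorem s5_norm_le_hsC {ι κ : Type} [Fintype ι] [DecidableEq ι] [Fintype κ] [DecidableEq κ]
    (X : Matrix ι κ ℂ) : ‖X‖ ^ 2 ≤ hsqC X := s5_opn_sq_le_hs X

/-- E0''. The L2 operator norm is continuous for the entrywise topology, hence measurable (the scoped normed structure has
the product topology: `Matrix.instL2OpNormedAddCommGroup` replaces the uniformity; `continuous_norm`). -/
theorem s5_norm_meas {ι κ : Type} [Fintype ι] [DecidableEq ι] [Fintype κ] [DecidableEq κ] :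
    Measurable fun A : Matrix ι κ ℝ => ‖A‖ := 
  (continuous_norm (E := Matrix ι κ ℝ)).measurable

/-! ## 1. Far block, deterministic part (P1 Lemmas 5.4, 5.5) -/

/-! ### kit of helper252: L2 operator norm, Hilbert-Schmidt norm, weights (prefix `s5d_`) -/

section kit
variable {𝕜 : Type} [RCLike 𝕜] {l m n : Type} [Fintype l] [Fintype m] [Fintype n] [DecidableEq l] [DecidableEq m] [DecidableEq n]

theorem s5d_op_mulVec (A : Matrix m n 𝕜) (x : n → 𝕜) :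
    ∑ i, ‖(A *ᵥ x) i‖ ^ 2 ≤ ‖A‖ ^ 2 * ∑ j, ‖x j‖ ^ 2 := by
  have h := Matrix.l2_opNorm_mulVec A (WithLp.toLp 2 x)
  have h2 := pow_le_pow_left₀ (norm_nonneg _) h 2
  rw [mul_pow, EuclideanSpace.norm_sq_eq, EuclideanSpace.norm_sq_eq] at h2
  exact h2

theorem s5d_op_le_of (A : Matrix m n 𝕜) {c : ℝ} (hc : 0 ≤ c)
    (h : ∀ x : n → 𝕜, ∑ i, ‖(A *ᵥ x) i‖ ^ 2 ≤ c ^ 2 * ∑ j, ‖x j‖ ^ 2) : ‖A‖ ≤ c := by
  rw [Matrix.l2_opNorm_def]
  refine ContinuousLinearMap.opNorm_le_bound _ hc fun x => ?_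
  refine (sq_le_sq₀ (norm_nonneg _) (by positivity)).mp ?_
  rw [mul_pow, EuclideanSpace.norm_sq_eq, EuclideanSpace.norm_sq_eq]
  exact h x.ofLp

/-- complexification does not increase the operator norm -/
theorem s5d_op_toC (A : Matrix m n ℝ) : ‖toC A‖ ≤ ‖A‖ := by
  refine s5d_op_le_of _ (norm_nonneg _) fun x => ?_
  have h1 := s5d_op_mulVec A (fun j => (x j).re)
  have h2 := s5d_op_mulVec A (fun j => (x j).im)
  have e1 : ∀ i, ‖(toC A *ᵥ x) i‖ ^ 2 = ‖(A *ᵥ fun j => (x j).re) i‖ ^ 2 + ‖(A *ᵥ fun j => (x j).im) i‖ ^ 2 := by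
    intro i
    rw [← Complex.normSq_eq_norm_sq, Complex.normSq_apply, Real.norm_eq_abs, Real.norm_eq_abs, sq_abs, sq_abs]
    have hre : ((toC A *ᵥ x) i).re = (A *ᵥ fun j => (x j).re) i := by
      simp [Matrix.mulVec, dotProduct, toC, Complex.re_sum]
    have him : ((toC A *ᵥ x) i).im = (A *ᵥ fun j => (x j).im) i := by
      simp [Matrix.mulVec, dotProduct, toC, Complex.im_sum]
    rw [hre, him]; ring
  have e2 : ∀ j, ‖x j‖ ^ 2 = ‖(x j).re‖ ^ 2 + ‖(x j).im‖ ^ 2 := by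
    intro j
    rw [← Complex.normSq_eq_norm_sq, Complex.normSq_apply, Real.norm_eq_abs, Real.norm_eq_abs, sq_abs, sq_abs]; ring
  simp only [e1, e2, Finset.sum_add_distrib, mul_add]
  exact add_le_add h1 h2

/-- entries are bounded by the operator norm -/
theorem s5d_entry_le (X : Matrix m n 𝕜) (i : m) (j : n) : ‖X i j‖ ≤ ‖X‖ := by
  have h := s5d_op_mulVec X (Pi.single j 1)
  have e : ∑ k, ‖(Pi.single j (1 : 𝕜) : n → 𝕜) k‖ ^ 2 = 1 := by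
    rw [Finset.sum_eq_single j]
    · simp
    · intro k _ hk; simp [Pi.single_eq_of_ne hk]
    · simp
  rw [e, mul_one] at h
  have h3 : ‖X i j‖ ^ 2 ≤ ∑ k, ‖(X *ᵥ Pi.single j 1) k‖ ^ 2 := by
    have := Finset.single_le_sum (f := fun k => ‖(X *ᵥ Pi.single j 1) k‖ ^ 2) (fun k _ => by positivity) (Finset.mem_univ i)
    simpa using this
  exact (sq_le_sq₀ (norm_nonneg _) (norm_nonneg _)).mp (h3.trans h)

theorem s5d_hsqC_nonneg (A : Matrix m n ℂ) : 0 ≤ hsqC A :=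
  Finset.sum_nonneg fun _ _ => Finset.sum_nonneg fun _ _ => by positivity

theorem s5d_hsq_nonneg (A : Matrix m n ℝ) : 0 ≤ hsq A :=
  Finset.sum_nonneg fun _ _ => Finset.sum_nonneg fun _ _ => by positivity

theorem s5d_hsqC_toC (A : Matrix m n ℝ) : hsqC (toC A) = hsq A := by
  simp [hsqC, hsq, toC]

theorem s5d_hsqC_transpose (A : Matrix m n ℂ) : hsqC Aᵀ = hsqC A := by
  unfold hsqC
  rw [Finset.sum_comm]
  rfl

/-- `‖X M‖_HS ≤ ‖X‖ ‖M‖_HS` (columns) -/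
theorem s5d_hs_mul (X : Matrix l m ℂ) (M : Matrix m n ℂ) : hsqC (X * M) ≤ ‖X‖ ^ 2 * hsqC M := by
  unfold hsqC
  rw [Finset.sum_comm, Finset.sum_comm (f := fun i j => ‖M i j‖ ^ 2), Finset.mul_sum]
  refine Finset.sum_le_sum fun j _ => ?_
  have := s5d_op_mulVec X (fun k => M k j)
  simpa [Matrix.mul_apply, Matrix.mulVec, dotProduct] using this

/-- Cauchy-Schwarz for the trace -/
theorem s5d_tr_cs (A : Matrix m n ℂ) (B : Matrix n m ℂ) : ‖Matrix.trace (A * B)‖ ^ 2 ≤ hsqC A * hsqC B := by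
  have e : Matrix.trace (A * B) = ∑ p : m × n, A p.1 p.2 * B p.2 p.1 := by
    rw [Fintype.sum_prod_type]
    simp [Matrix.trace, Matrix.mul_apply]
  have h1 : ‖Matrix.trace (A * B)‖ ≤ ∑ p : m × n, ‖A p.1 p.2‖ * ‖B p.2 p.1‖ := by
    rw [e]
    refine (norm_sum_le _ _).trans (Finset.sum_le_sum fun p _ => ?_)
    rw [norm_mul]
  have h2 := Finset.sum_mul_sq_le_sq_mul_sq Finset.univ (fun p : m × n => ‖A p.1 p.2‖) (fun p : m × n => ‖B p.2 p.1‖)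
  have e1 : ∑ p : m × n, ‖A p.1 p.2‖ ^ 2 = hsqC A := by rw [Fintype.sum_prod_type]; rfl
  have e2 : ∑ p : m × n, ‖B p.2 p.1‖ ^ 2 = hsqC B := by
    rw [Fintype.sum_prod_type, Finset.sum_comm]; rfl
  rw [e1, e2] at h2
  exact (pow_le_pow_left₀ (norm_nonneg _) h1 2).trans h2

/-- operator norm `≤` Hilbert-Schmidt norm -/
theorem s5d_op_le_hs (A : Matrix m n ℂ) : ‖A‖ ^ 2 ≤ hsqC A := by
  have h : ‖A‖ ≤ Real.sqrt (hsqC A) := by
    refine s5d_op_le_of _ (Real.sqrt_nonneg _) fun x => ?_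
    rw [Real.sq_sqrt (s5d_hsqC_nonneg A)]
    unfold hsqC
    rw [Finset.sum_mul]
    refine Finset.sum_le_sum fun i _ => ?_
    have h1 : ‖(A *ᵥ x) i‖ ≤ ∑ j, ‖A i j‖ * ‖x j‖ := by
      simp only [Matrix.mulVec, dotProduct]
      refine (norm_sum_le _ _).trans (Finset.sum_le_sum fun p _ => ?_)
      rw [norm_mul]
    exact (pow_le_pow_left₀ (norm_nonneg _) h1 2).trans
      (Finset.sum_mul_sq_le_sq_mul_sq Finset.univ (fun j => ‖A i j‖) (fun j => ‖x j‖))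
  have := pow_le_pow_left₀ (norm_nonneg _) h 2
  rwa [Real.sq_sqrt (s5d_hsqC_nonneg A)] at this


/-- perturbation of an inverse, the invertibility being known -/
theorem s5d_pert {X Y L L' E : Matrix n n ℂ} (hYX : Y * X = 1) (hX : X = L + E) (hL : L * L' = 1) {a e : ℝ}
    (ha : ‖L'‖ ≤ a) (he : ‖E‖ ≤ e) (hae : a * e < 1) :
    ‖Y‖ ≤ a / (1 - a * e) ∧ ‖Y - L'‖ ≤ a ^ 2 * e / (1 - a * e) := by
  have h1 : Y - L' = -(Y * E * L') := by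
    have : Y * L = 1 - Y * E := by rw [hX, mul_add] at hYX; rw [← hYX]; abel
    calc Y - L' = Y * (L * L') - L' := by rw [hL, mul_one]
      _ = (Y * L) * L' - L' := by rw [mul_assoc]
      _ = -(Y * E * L') := by rw [this, sub_mul, one_mul]; abel
  have ha0 : 0 ≤ a := (norm_nonneg _).trans ha
  have he0 : 0 ≤ e := (norm_nonneg _).trans he
  have h2 : ‖Y - L'‖ ≤ ‖Y‖ * e * a := by
    rw [h1, norm_neg]
    calc ‖Y * E * L'‖ ≤ ‖Y * E‖ * ‖L'‖ := Matrix.l2_opNorm_mul _ _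
      _ ≤ (‖Y‖ * ‖E‖) * ‖L'‖ := by gcongr; exact Matrix.l2_opNorm_mul _ _
      _ ≤ ‖Y‖ * e * a := by gcongr
  have h3 : ‖Y‖ ≤ a + ‖Y‖ * e * a := by
    calc ‖Y‖ = ‖L' + (Y - L')‖ := by congr 1; abel
      _ ≤ ‖L'‖ + ‖Y - L'‖ := norm_add_le _ _
      _ ≤ a + ‖Y‖ * e * a := add_le_add ha h2
  have hpos : 0 < 1 - a * e := by linarith
  have h4 : ‖Y‖ ≤ a / (1 - a * e) := by
    rw [le_div_iff₀ hpos]; nlinarith
  refine ⟨h4, h2.trans ?_⟩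
  calc ‖Y‖ * e * a ≤ a / (1 - a * e) * e * a := by gcongr
    _ = a ^ 2 * e / (1 - a * e) := by ring

end kit

section kit2
variable {ι : Type} [Fintype ι] [DecidableEq ι]

theorem s5d_G_eq (H : Matrix ι ι ℝ) (z : ℂ) : s5G H z = rsG H z := rfl

theorem s5d_herm {H : Matrix ι ι ℝ} (hH : Hᵀ = H) : H.IsHermitian := by
  rw [Matrix.IsHermitian, Matrix.conjTranspose_eq_transpose_of_trivial, hH]

/-- operator norm of the resolvent -/
theorem s5d_G_norm {H : Matrix ι ι ℝ} (hH : Hᵀ = H) {z : ℂ} (hz : 0 < z.im) : ‖s5G H z‖ ≤ 1 / z.im := by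
  refine s5d_op_le_of _ (by positivity) fun x => ?_
  have := rsv_mulVec_sq_le (rs_C_herm (s5d_herm hH)) hz x
  rw [← rs_G_eq_rsv] at this
  unfold rsvSq at this
  rw [s5d_G_eq]
  calc _ ≤ _ := this
    _ = _ := by rw [one_div, inv_pow, div_eq_inv_mul]

theorem s5d_mul_G {H : Matrix ι ι ℝ} (hH : Hᵀ = H) {z : ℂ} (hz : 0 < z.im) :
    (toC H - z • (1 : Matrix ι ι ℂ)) * s5G H z = 1 := rs_mul_G (s5d_herm hH) hz.ne'

theorem s5d_G_mul {H : Matrix ι ι ℝ} (hH : Hᵀ = H) {z : ℂ} (hz : 0 < z.im) :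
    s5G H z * (toC H - z • (1 : Matrix ι ι ℂ)) = 1 := rs_G_mul (s5d_herm hH) hz.ne'

theorem s5d_toC_diag (v : ι → ℝ) : toC (Matrix.diagonal v) = Matrix.diagonal fun i => (v i : ℂ) := by
  ext i j
  by_cases h : i = j
  · subst h; simp [toC]
  · simp [toC, Matrix.diagonal_apply_ne _ h]

theorem s5d_toC_mul {a b c : Type} [Fintype b] (A : Matrix a b ℝ) (B : Matrix b c ℝ) : toC (A * B) = toC A * toC B := by
  ext i j
  simp [toC, Matrix.mul_apply]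

theorem s5d_toC_add {a b : Type} (A B : Matrix a b ℝ) : toC (A + B) = toC A + toC B := by
  ext i j
  simp [toC]

theorem s5d_toC_sub {a b : Type} (A B : Matrix a b ℝ) : toC (A - B) = toC A - toC B := by
  ext i j
  simp [toC]

theorem s5d_toC_smul {a b : Type} (c : ℝ) (A : Matrix a b ℝ) : toC (c • A) = (c : ℂ) • toC A := by
  ext i j
  simp [toC]

theorem s5d_toC_one : toC (1 : Matrix ι ι ℝ) = 1 := by
  ext i j
  by_cases h : i = j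
  · subst h; simp [toC]
  · simp [toC, Matrix.one_apply_ne h]

theorem s5d_toC_transpose {a b : Type} (A : Matrix a b ℝ) : toC Aᵀ = (toC A)ᵀ := rfl

theorem s5d_toC_conjT {a b : Type} (A : Matrix a b ℝ) : (toC A)ᴴ = (toC A)ᵀ := by
  ext i j
  simp [toC, Matrix.conjTranspose_apply]

theorem s5d_op_toC_T {a b : Type} [Fintype a] [Fintype b] [DecidableEq a] [DecidableEq b] (A : Matrix a b ℝ) :
    ‖(toC A)ᵀ‖ = ‖toC A‖ := by
  rw [← s5d_toC_conjT, Matrix.l2_opNorm_conjTranspose]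

end kit2

section detkit
variable {ιI ιF : Type} [Fintype ιI] [DecidableEq ιI] [Fintype ιF] [DecidableEq ιF]

theorem s5d_diag_norm_le {ι : Type} [Fintype ι] [DecidableEq ι] (w : ι → ℂ) {c : ℝ} (hc : 0 ≤ c)
    (h : ∀ j, ‖w j‖ ≤ c) : ‖Matrix.diagonal w‖ ≤ c := by
  rw [Matrix.l2_opNorm_diagonal]
  exact (pi_norm_le_iff_of_nonneg hc).2 h

theorem s5d_UV {ι : Type} [Fintype ι] [DecidableEq ι] {v : ι → ℝ} (hv : ∀ j, 0 < v j) :
    toC (Matrix.diagonal fun j => (v j)⁻¹) * toC (Matrix.diagonal v) = 1 ∧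
    toC (Matrix.diagonal v) * toC (Matrix.diagonal fun j => (v j)⁻¹) = 1 := by
  constructor
  · rw [← s5d_toC_mul, Matrix.diagonal_mul_diagonal]
    have : (fun i => (v i)⁻¹ * v i) = fun _ => (1 : ℝ) := by
      funext i; exact inv_mul_cancel₀ (hv i).ne'
    rw [this, Matrix.diagonal_one, s5d_toC_one]
  · rw [← s5d_toC_mul, Matrix.diagonal_mul_diagonal]
    have : (fun i => v i * (v i)⁻¹) = fun _ => (1 : ℝ) := by
      funext i; exact mul_inv_cancel₀ (hv i).ne'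
    rw [this, Matrix.diagonal_one, s5d_toC_one]

/-- conjugation of an inverse pair by the weights -/
theorem s5d_conj_inv {ι : Type} [Fintype ι] [DecidableEq ι] {v : ι → ℝ} (hv : ∀ j, 0 < v j) {M G : Matrix ι ι ℂ}
    (hGM : G * M = 1) :
    (toC (Matrix.diagonal v) * G * toC (Matrix.diagonal v))
      * (toC (Matrix.diagonal fun j => (v j)⁻¹) * M * toC (Matrix.diagonal fun j => (v j)⁻¹)) = 1 := by
  obtain ⟨h1, h2⟩ := s5d_UV hv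
  set U := toC (Matrix.diagonal fun j => (v j)⁻¹)
  set V := toC (Matrix.diagonal v)
  calc V * G * V * (U * M * U) = V * G * (V * U) * M * U := by simp only [Matrix.mul_assoc]
    _ = V * (G * M) * U := by rw [h2, Matrix.mul_one]; simp only [Matrix.mul_assoc]
    _ = 1 := by rw [hGM, Matrix.mul_one, h2]

/-- `G = U (V G V) U` -/
theorem s5d_conj_back {ι : Type} [Fintype ι] [DecidableEq ι] {v : ι → ℝ} (hv : ∀ j, 0 < v j) (G : Matrix ι ι ℂ) :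
    toC (Matrix.diagonal fun j => (v j)⁻¹) * (toC (Matrix.diagonal v) * G * toC (Matrix.diagonal v))
      * toC (Matrix.diagonal fun j => (v j)⁻¹) = G := by
  obtain ⟨h1, h2⟩ := s5d_UV hv
  set U := toC (Matrix.diagonal fun j => (v j)⁻¹)
  set V := toC (Matrix.diagonal v)
  calc U * (V * G * V) * U = (U * V) * G * (V * U) := by simp only [Matrix.mul_assoc]
    _ = G := by rw [h1, h2, Matrix.one_mul, Matrix.mul_one]

theorem s5d_far_pos {dF : ιF → ℝ} {κ : ℝ} (hκ : 0 < κ) (hd : ∀ j, κ ≤ |dF j|) (j : ιF) : 0 < Real.sqrt |dF j| :=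
  Real.sqrt_pos.2 (hκ.trans_le (hd j))

theorem s5d_inn_pos {dI : ιI → ℝ} {h : ℝ} (hh : 0 < h) (a : ιI) : 0 < Real.sqrt (|dI a| + h) :=
  Real.sqrt_pos.2 (by have := abs_nonneg (dI a); linarith)

theorem s5d_symm_add {ι : Type} [DecidableEq ι] (d : ι → ℝ) {A : Matrix ι ι ℝ} (hA : Aᵀ = A) :
    (Matrix.diagonal d + A)ᵀ = Matrix.diagonal d + A := by
  rw [Matrix.transpose_add, Matrix.diagonal_transpose, hA]

/-- `‖U_I‖² , ‖U_I²‖ ≤ 1/h` -/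
theorem s5d_wI_norm {dI : ιI → ℝ} {h : ℝ} (hh : 0 < h) :
    ‖toC (wI h dI) * toC (wI h dI)‖ ≤ 1 / h ∧ ‖toC (wI h dI)‖ ^ 2 ≤ 1 / h := by
  have hv := s5d_inn_pos (dI := dI) hh
  constructor
  · rw [wI, ← s5d_toC_mul, Matrix.diagonal_mul_diagonal, s5d_toC_diag]
    refine s5d_diag_norm_le _ (by positivity) fun j => ?_
    rw [Complex.norm_real, Real.norm_of_nonneg (by have := hv j; positivity), ← mul_inv,
      Real.mul_self_sqrt (by have := abs_nonneg (dI j); linarith), one_div]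
    exact inv_anti₀ hh (by have := abs_nonneg (dI j); linarith)
  · have h1 : ‖toC (wI h dI)‖ ≤ (Real.sqrt h)⁻¹ := by
      rw [wI, s5d_toC_diag]
      refine s5d_diag_norm_le _ (by positivity) fun j => ?_
      rw [Complex.norm_real, Real.norm_of_nonneg (by have := hv j; positivity)]
      exact inv_anti₀ (Real.sqrt_pos.2 hh) (Real.sqrt_le_sqrt (by have := abs_nonneg (dI j); linarith))
    calc ‖toC (wI h dI)‖ ^ 2 ≤ ((Real.sqrt h)⁻¹) ^ 2 := pow_le_pow_left₀ (norm_nonneg _) h1 2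
      _ = 1 / h := by rw [inv_pow, Real.sq_sqrt hh.le, one_div]

end detkit

section det
variable {ιI ιF : Type} [Fintype ιI] [DecidableEq ιI] [Fintype ιF] [DecidableEq ιF]

/-- E1 (P1 (5.24)). Far resolvent in the `sign(D_F)` picture. `U_F (D_F + A_FF - z) U_F = σ + E`,
`σ = sign D_F` (unitary diagonal), `‖E‖ ≤ tF + |z| ‖U_F²‖ ≤ δ ≤ 1/2`; Neumann: `‖(σ+E)⁻¹ - σ‖ ≤ δ/(1-δ) ≤ 2δ`;
`(σ+E)⁻¹ = U_F⁻¹ G_F U_F⁻¹`. -/
theorem s5_far_res {dF : ιF → ℝ} {AFF : Matrix ιF ιF ℝ} (hA : AFFᵀ = AFF) {κ tF : ℝ} (hκ : 0 < κ)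
    (hd : ∀ j, κ ≤ |dF j|) (ht : ‖wF dF * AFF * wF dF‖ ≤ tF) {z : ℂ} (hz : 0 < z.im)
    (hδ : tF + ‖z‖ / κ ≤ 1 / 2) :
    ‖toC (Matrix.diagonal fun j => Real.sqrt |dF j|) * s5G (Matrix.diagonal dF + AFF) z
        * toC (Matrix.diagonal fun j => Real.sqrt |dF j|)
      - toC (Matrix.diagonal fun j => SignType.sign (dF j))‖ ≤ 2 * (tF + ‖z‖ / κ) := by
  have hv := s5d_far_pos hκ hd
  have hH : (Matrix.diagonal dF + AFF)ᵀ = Matrix.diagonal dF + AFF := by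
    rw [Matrix.transpose_add, Matrix.diagonal_transpose, hA]
  have hinv := s5d_conj_inv hv (s5d_G_mul hH hz)
  set U := toC (Matrix.diagonal fun j => (Real.sqrt |dF j|)⁻¹) with hU
  set sg := toC (Matrix.diagonal fun j => ((SignType.sign (dF j) : ℝ))) with hsg
  have hne : ∀ j, dF j ≠ 0 := fun j h0 => by
    have := hd j; rw [h0, abs_zero] at this; linarith
  -- the decomposition
  have hX : U * (toC (Matrix.diagonal dF + AFF) - z • (1 : Matrix ιF ιF ℂ)) * U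
      = sg + (toC (wF dF * AFF * wF dF) - z • (U * U)) := by
    have e1 : U * toC (Matrix.diagonal dF) * U = sg := by
      rw [hU, hsg, ← s5d_toC_mul, ← s5d_toC_mul, Matrix.diagonal_mul_diagonal, Matrix.diagonal_mul_diagonal]
      congr 2
      funext j
      have h1 : Real.sqrt |dF j| * Real.sqrt |dF j| = |dF j| := Real.mul_self_sqrt (abs_nonneg _)
      have h2 : (SignType.sign (dF j) : ℝ) * |dF j| = dF j := sign_mul_abs (dF j)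
      have h3 := (hv j).ne'
      field_simp
      rw [sq, h1, mul_comm]; exact h2.symm
    have e2 : toC (wF dF * AFF * wF dF) = U * toC AFF * U := by
      rw [s5d_toC_mul, s5d_toC_mul]; rfl
    rw [s5d_toC_add, e2, ← e1]
    simp only [Matrix.mul_sub, Matrix.sub_mul, Matrix.mul_add, Matrix.add_mul, Matrix.mul_smul, Matrix.smul_mul,
      Matrix.mul_one]
    abel
  have hsg2 : sg * sg = 1 := by
    rw [hsg, ← s5d_toC_mul, Matrix.diagonal_mul_diagonal]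
    have : (fun j => (SignType.sign (dF j) : ℝ) * (SignType.sign (dF j) : ℝ)) = fun _ => (1 : ℝ) := by
      funext j
      rcases lt_or_gt_of_ne (hne j) with h | h
      · simp [sign_neg h]
      · simp [sign_pos h]
    rw [this, Matrix.diagonal_one, s5d_toC_one]
  have hsgn : ‖sg‖ ≤ 1 := by
    rw [hsg, s5d_toC_diag]
    refine s5d_diag_norm_le _ zero_le_one fun j => ?_
    rcases lt_or_gt_of_ne (hne j) with h | h
    · simp [sign_neg h]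
    · simp [sign_pos h]
  have hUU : ‖U * U‖ ≤ 1 / κ := by
    rw [hU, ← s5d_toC_mul, Matrix.diagonal_mul_diagonal, s5d_toC_diag]
    refine s5d_diag_norm_le _ (by positivity) fun j => ?_
    rw [Complex.norm_real, Real.norm_of_nonneg (by have := hv j; positivity), ← mul_inv,
      Real.mul_self_sqrt (abs_nonneg _), one_div]
    exact inv_anti₀ hκ (hd j)
  have hE : ‖toC (wF dF * AFF * wF dF) - z • (U * U)‖ ≤ tF + ‖z‖ / κ := by
    refine (norm_sub_le _ _).trans (add_le_add ((s5d_op_toC _).trans ht) ?_)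
    rw [norm_smul, div_eq_mul_one_div]
    exact mul_le_mul_of_nonneg_left hUU (norm_nonneg _)
  have hp := s5d_pert (a := 1) (e := tF + ‖z‖ / κ) hinv hX hsg2 hsgn hE (by linarith)
  have hδ0 : 0 ≤ tF + ‖z‖ / κ := (norm_nonneg _).trans hE
  refine hp.2.trans ?_
  rw [div_le_iff₀ (by linarith)]
  nlinarith

/-- E8. `|Tr (U X U)| = |∑ u_j² X_jj| ≤ ‖X‖ ∑ u_j²` for a real diagonal `U`. -/
theorem s5_tr_weight {ι : Type} [Fintype ι] [DecidableEq ι] (u : ι → ℝ) (X : Matrix ι ι ℂ) :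
    ‖Matrix.trace (toC (Matrix.diagonal u) * X * toC (Matrix.diagonal u))‖ ≤ ‖X‖ * ∑ j, u j ^ 2 := by
  rw [s5d_toC_diag]
  have e : Matrix.trace ((Matrix.diagonal fun i => (u i : ℂ)) * X * Matrix.diagonal fun i => (u i : ℂ))
      = ∑ j, ((u j ^ 2 : ℝ) : ℂ) * X j j := by
    simp only [Matrix.trace, Matrix.diag_apply, Matrix.mul_diagonal, Matrix.diagonal_mul]
    refine Finset.sum_congr rfl fun j _ => ?_
    push_cast; ring
  rw [e, Finset.mul_sum]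
  refine (norm_sum_le _ _).trans (Finset.sum_le_sum fun j _ => ?_)
  rw [norm_mul, Complex.norm_real, Real.norm_of_nonneg (by positivity), mul_comm]
  exact mul_le_mul_of_nonneg_right (s5d_entry_le X j j) (by positivity)

/-- E9. `|Tr (X P Y Pᵀ)| ≤ ‖X‖ ‖Y‖ ‖P‖²_HS`, and `‖P‖² ≤ ‖P‖²_HS`. -/
theorem s5_tr_hs (X : Matrix ιI ιI ℂ) (Y : Matrix ιF ιF ℂ) (P : Matrix ιI ιF ℝ) :
    ‖Matrix.trace (X * toC P * Y * (toC P)ᵀ)‖ ≤ ‖X‖ * ‖Y‖ * hsq P ∧ ‖toC P‖ ^ 2 ≤ hsq P := by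
  refine ⟨?_, by rw [← s5d_hsqC_toC]; exact s5d_op_le_hs _⟩
  have h1 := s5d_tr_cs (X * toC P) (Y * (toC P)ᵀ)
  have h2 := s5d_hs_mul X (toC P)
  have h3 := s5d_hs_mul Y (toC P)ᵀ
  rw [s5d_hsqC_transpose] at h3
  rw [s5d_hsqC_toC] at h2 h3
  have h0 := s5d_hsq_nonneg P
  have h4 : ‖Matrix.trace (X * toC P * Y * (toC P)ᵀ)‖ ^ 2 ≤ (‖X‖ * ‖Y‖ * hsq P) ^ 2 := by
    have e : X * toC P * Y * (toC P)ᵀ = (X * toC P) * (Y * (toC P)ᵀ) := by simp only [Matrix.mul_assoc]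
    rw [e]
    calc _ ≤ _ := h1
      _ ≤ (‖X‖ ^ 2 * hsq P) * (‖Y‖ ^ 2 * hsq P) := by
          apply mul_le_mul h2 h3 (s5d_hsqC_nonneg _) (by positivity)
      _ = _ := by ring
  exact (sq_le_sq₀ (norm_nonneg _) (by positivity)).mp h4

/-- (54) `U_F √|D_F| = 1` -/
theorem s5k_wF_sq {dF : ιF → ℝ} (hpos : ∀ j, 0 < |dF j|) :
    toC (wF dF) * toC (Matrix.diagonal fun j => Real.sqrt |dF j|) = 1 ∧
      toC (Matrix.diagonal fun j => Real.sqrt |dF j|) * toC (wF dF) = 1 := by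
  have h1 : wF dF * (Matrix.diagonal fun j => Real.sqrt |dF j|) = 1 := by
    unfold wF
    rw [Matrix.diagonal_mul_diagonal, ← Matrix.diagonal_one]
    congr 1
    funext j
    exact inv_mul_cancel₀ (Real.sqrt_pos.2 (hpos j)).ne'
  have h2 : toC (wF dF) * toC (Matrix.diagonal fun j => Real.sqrt |dF j|) = 1 := by
    rw [← s5k_toC_mul, h1, s5k_toC_one]
  exact ⟨h2, mul_eq_one_comm.1 h2⟩

/-- (54) `U_F σ U_F = D_F⁻¹` -/
theorem s5k_wF_sign {dF : ιF → ℝ} (hpos : ∀ j, 0 < |dF j|) :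
    toC (wF dF) * toC (Matrix.diagonal fun j => (SignType.sign (dF j) : ℝ)) * toC (wF dF)
      = toC (Matrix.diagonal fun j => (dF j)⁻¹) := by
  rw [← s5k_toC_mul, ← s5k_toC_mul]
  congr 1
  unfold wF
  rw [Matrix.diagonal_mul_diagonal, Matrix.diagonal_mul_diagonal]
  congr 1
  funext j
  have h0 := hpos j
  have hs : Real.sqrt |dF j| * Real.sqrt |dF j| = |dF j| := Real.mul_self_sqrt h0.le
  have hs0 := (Real.sqrt_pos.2 h0).ne'
  have hd0 : dF j ≠ 0 := abs_pos.1 h0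
  have e : (SignType.sign (dF j) : ℝ) * |dF j| = dF j := sign_mul_abs (dF j)
  field_simp
  rw [sq, hs]
  exact sign_mul_self (dF j)

/-- (54) `G = U_F (√|D_F| G √|D_F|) U_F` -/
theorem s5k_wF_conj {dF : ιF → ℝ} (hpos : ∀ j, 0 < |dF j|) (G : Matrix ιF ιF ℂ) :
    G = toC (wF dF) * (toC (Matrix.diagonal fun j => Real.sqrt |dF j|) * G * toC (Matrix.diagonal fun j => Real.sqrt |dF j|))
      * toC (wF dF) := by
  obtain ⟨h1, h2⟩ := s5k_wF_sq hpos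
  obtain ⟨U, hU⟩ : ∃ U, U = toC (wF dF) := ⟨_, rfl⟩
  obtain ⟨S, hS⟩ : ∃ S, S = toC (Matrix.diagonal fun j => Real.sqrt |dF j|) := ⟨_, rfl⟩
  rw [← hU, ← hS] at h1 h2 ⊢
  calc G = (U * S) * G * (S * U) := by rw [h1, h2, one_mul, mul_one]
    _ = U * (S * G * S) * U := by noncomm_ring

theorem s5k_trace_toC_diag {ι : Type} [Fintype ι] [DecidableEq ι] (v : ι → ℝ) :
    Matrix.trace (toC (Matrix.diagonal v)) = ((∑ j, v j : ℝ) : ℂ) := by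
  unfold toC Matrix.trace
  simp

/-- E2' (252; shifted form used by G2). `Tr G_F - ∑ 1/d_j = Tr(U_F (Q_F - σ) U_F)`, E1, E8. -/
theorem s5_far_tr' {dF : ιF → ℝ} {AFF : Matrix ιF ιF ℝ} (hA : AFFᵀ = AFF) {κ tF ℓ : ℝ} (hκ : 0 < κ)
    (hd : ∀ j, κ ≤ |dF j|) (ht : ‖wF dF * AFF * wF dF‖ ≤ tF) {z : ℂ} (hz : 0 < z.im)
    (hδ : tF + ‖z‖ / κ ≤ 1 / 2) (hℓ : ∑ j, |dF j|⁻¹ ≤ ℓ) :
    ‖Matrix.trace (s5G (Matrix.diagonal dF + AFF) z) - ((∑ j, (dF j)⁻¹ : ℝ) : ℂ)‖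
      ≤ 2 * (tF + ‖z‖ / κ) * ℓ := by
  have hpos : ∀ j, 0 < |dF j| := fun j => hκ.trans_le (hd j)
  have E1 := s5_far_res hA hκ hd ht hz hδ
  obtain ⟨G, hG⟩ : ∃ G, G = s5G (Matrix.diagonal dF + AFF) z := ⟨_, rfl⟩
  rw [← hG] at E1 ⊢
  have e1 := s5k_wF_conj hpos G
  have e2 := s5k_wF_sign hpos
  have e3 : Matrix.trace G - ((∑ j, (dF j)⁻¹ : ℝ) : ℂ)
      = Matrix.trace (toC (wF dF) * (toC (Matrix.diagonal fun j => Real.sqrt |dF j|) * G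
          * toC (Matrix.diagonal fun j => Real.sqrt |dF j|) - toC (Matrix.diagonal fun j => (SignType.sign (dF j) : ℝ))) * toC (wF dF)) := by
    rw [mul_sub, sub_mul, Matrix.trace_sub, ← e1, e2, s5k_trace_toC_diag]
  rw [e3]
  have h8 := s5_tr_weight (fun j => (Real.sqrt |dF j|)⁻¹) (toC (Matrix.diagonal fun j => Real.sqrt |dF j|) * G
          * toC (Matrix.diagonal fun j => Real.sqrt |dF j|) - toC (Matrix.diagonal fun j => (SignType.sign (dF j) : ℝ)))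
  have hsum : ∑ j, ((Real.sqrt |dF j|)⁻¹) ^ 2 = ∑ j, |dF j|⁻¹ := by
    refine Finset.sum_congr rfl fun j _ => ?_
    rw [inv_pow, Real.sq_sqrt (hpos j).le]
  rw [hsum] at h8
  have hs0 : 0 ≤ ∑ j, |dF j|⁻¹ := Finset.sum_nonneg fun j _ => (inv_pos.2 (hpos j)).le
  have hδ0 : 0 ≤ 2 * (tF + ‖z‖ / κ) := (norm_nonneg _).trans E1
  calc _ ≤ _ := h8
    _ ≤ 2 * (tF + ‖z‖ / κ) * ℓ := mul_le_mul E1 hℓ hs0 hδ0

/-- E2 (P1 Lemma 5.4). Far trace: `Tr G_F = ∑ 1/d_j + Tr(U_F (Q_F - σ) U_F)`, E1, E8. -/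
theorem s5_far_tr {dF : ιF → ℝ} {AFF : Matrix ιF ιF ℝ} (hA : AFFᵀ = AFF) {κ tF ℓ τ₁ : ℝ} (hκ : 0 < κ)
    (hd : ∀ j, κ ≤ |dF j|) (ht : ‖wF dF * AFF * wF dF‖ ≤ tF) {z : ℂ} (hz : 0 < z.im)
    (hδ : tF + ‖z‖ / κ ≤ 1 / 2) (hℓ : ∑ j, |dF j|⁻¹ ≤ ℓ) (hτ : |∑ j, (dF j)⁻¹| ≤ τ₁) :
    ‖Matrix.trace (s5G (Matrix.diagonal dF + AFF) z)‖ ≤ τ₁ + 2 * (tF + ‖z‖ / κ) * ℓ := by
  have h1 := s5_far_tr' hA hκ hd ht hz hδ hℓ
  have h2 : ‖((∑ j, (dF j)⁻¹ : ℝ) : ℂ)‖ ≤ τ₁ := by rw [Complex.norm_real]; exact hτ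
  calc ‖Matrix.trace (s5G (Matrix.diagonal dF + AFF) z)‖
      = ‖((∑ j, (dF j)⁻¹ : ℝ) : ℂ) + (Matrix.trace (s5G (Matrix.diagonal dF + AFF) z) - ((∑ j, (dF j)⁻¹ : ℝ) : ℂ))‖ := by
        congr 1; abel
    _ ≤ _ := (norm_add_le _ _).trans (add_le_add h2 h1)

theorem s5k_toC_sub {l m : Type} (A B : Matrix l m ℝ) : toC (A - B) = toC A - toC B := by
  unfold toC
  exact Matrix.map_sub _ Complex.ofReal_sub _ _

theorem s5k_toC_smul_one {ι : Type} [DecidableEq ι] (c : ℝ) : toC (c • (1 : Matrix ι ι ℝ)) = (c : ℂ) • (1 : Matrix ι ι ℂ) := by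
  ext i j
  by_cases h : i = j
  · subst h; simp [toC]
  · simp [toC, h]

theorem s5k_wF_T (dF : ιF → ℝ) : (toC (wF dF))ᵀ = toC (wF dF) := by
  rw [← s5k_toC_T]; unfold wF; rw [Matrix.diagonal_transpose]

theorem s5k_wI_T (h : ℝ) (dI : ιI → ℝ) : (toC (wI h dI))ᵀ = toC (wI h dI) := by
  rw [← s5k_toC_T]; unfold wI; rw [Matrix.diagonal_transpose]

/-- (54) `‖P X Pᵀ‖ ≤ ‖X‖ ‖P‖²_HS` -/
theorem s5k_sandwich (P : Matrix ιI ιF ℝ) (X : Matrix ιF ιF ℂ) : ‖toC P * X * (toC P)ᵀ‖ ≤ ‖X‖ * hsq P := by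
  obtain ⟨n1, n2⟩ := s5_norm_toC P
  have hT : ‖(toC P)ᵀ‖ = ‖toC P‖ := by rw [← s5k_toC_H, Matrix.l2_opNorm_conjTranspose]
  calc ‖toC P * X * (toC P)ᵀ‖ ≤ ‖toC P * X‖ * ‖(toC P)ᵀ‖ := Matrix.l2_opNorm_mul _ _
    _ ≤ (‖toC P‖ * ‖X‖) * ‖(toC P)ᵀ‖ := mul_le_mul_of_nonneg_right (Matrix.l2_opNorm_mul _ _) (norm_nonneg _)
    _ = ‖X‖ * ‖P‖ ^ 2 := by rw [hT, n1]; ring
    _ ≤ ‖X‖ * hsq P := mul_le_mul_of_nonneg_left n2 (norm_nonneg _)

/-- E3' (252; shifted form used by G2). `U_I (Σ - c) U_I = (P₀ σ P₀ᵀ - c U_I²) + P₀ (Q_F - σ) P₀ᵀ`, E1, E9. -/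
theorem s5_schur_small' {dI : ιI → ℝ} {dF : ιF → ℝ} {AIF : Matrix ιI ιF ℝ} {AFF : Matrix ιF ιF ℝ}
    (hA : AFFᵀ = AFF) {h κ tF t0 tS : ℝ} (c : ℝ) (hκ : 0 < κ) (hd : ∀ j, κ ≤ |dF j|)
    (ht : ‖wF dF * AFF * wF dF‖ ≤ tF) (h0 : hsq (wI h dI * AIF * wF dF) ≤ t0)
    (hS : ‖wI h dI * (AIF * (Matrix.diagonal fun j => (dF j)⁻¹) * AIFᵀ - c • (1 : Matrix ιI ιI ℝ))
      * wI h dI‖ ≤ tS)
    {z : ℂ} (hz : 0 < z.im) (hδ : tF + ‖z‖ / κ ≤ 1 / 2) :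
    ‖toC (wI h dI) * (toC AIF * s5G (Matrix.diagonal dF + AFF) z * (toC AIF)ᵀ
        - (c : ℂ) • (1 : Matrix ιI ιI ℂ)) * toC (wI h dI)‖
      ≤ tS + 2 * (tF + ‖z‖ / κ) * t0 := by
  have hpos : ∀ j, 0 < |dF j| := fun j => hκ.trans_le (hd j)
  have E1 := s5_far_res hA hκ hd ht hz hδ
  obtain ⟨G, hG⟩ : ∃ G, G = s5G (Matrix.diagonal dF + AFF) z := ⟨_, rfl⟩
  rw [← hG] at E1 ⊢
  have e1 := s5k_wF_conj hpos G
  have e2 := s5k_wF_sign hpos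
  obtain ⟨Q, hQ⟩ : ∃ Q, Q = toC (Matrix.diagonal fun j => Real.sqrt |dF j|) * G
      * toC (Matrix.diagonal fun j => Real.sqrt |dF j|) := ⟨_, rfl⟩
  obtain ⟨σ, hσ⟩ : ∃ σ, σ = toC (Matrix.diagonal fun j => (SignType.sign (dF j) : ℝ)) := ⟨_, rfl⟩
  rw [← hQ] at e1 E1
  rw [← hσ] at e2 E1
  have hP : toC (wI h dI * AIF * wF dF) = toC (wI h dI) * toC AIF * toC (wF dF) := by
    rw [s5k_toC_mul, s5k_toC_mul]
  have hPT : (toC (wI h dI * AIF * wF dF))ᵀ = toC (wF dF) * (toC AIF)ᵀ * toC (wI h dI) := by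
    rw [hP, Matrix.transpose_mul, Matrix.transpose_mul, s5k_wF_T, s5k_wI_T, Matrix.mul_assoc]
  have hR : toC (wI h dI * (AIF * (Matrix.diagonal fun j => (dF j)⁻¹) * AIFᵀ - c • (1 : Matrix ιI ιI ℝ)) * wI h dI)
      = toC (wI h dI) * (toC AIF * (toC (wF dF) * σ * toC (wF dF)) * (toC AIF)ᵀ - (c : ℂ) • (1 : Matrix ιI ιI ℂ)) * toC (wI h dI) := by
    rw [s5k_toC_mul, s5k_toC_mul, s5k_toC_sub, s5k_toC_mul, s5k_toC_mul, s5k_toC_smul_one, s5k_toC_T, e2]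
  have key : toC (wI h dI) * (toC AIF * G * (toC AIF)ᵀ - (c : ℂ) • (1 : Matrix ιI ιI ℂ)) * toC (wI h dI)
      = toC (wI h dI * (AIF * (Matrix.diagonal fun j => (dF j)⁻¹) * AIFᵀ - c • (1 : Matrix ιI ιI ℝ)) * wI h dI)
        + toC (wI h dI * AIF * wF dF) * (Q - σ) * (toC (wI h dI * AIF * wF dF))ᵀ := by
    rw [hR, hPT, hP]
    conv_lhs => rw [e1]
    simp only [Matrix.mul_sub, Matrix.sub_mul, Matrix.mul_assoc]
    abel
  rw [key]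
  have hδ0 : 0 ≤ 2 * (tF + ‖z‖ / κ) := (norm_nonneg _).trans E1
  have hh0 : 0 ≤ hsq (wI h dI * AIF * wF dF) := by
    unfold hsq
    exact Finset.sum_nonneg fun _ _ => Finset.sum_nonneg fun _ _ => sq_nonneg _
  calc _ ≤ ‖toC (wI h dI * (AIF * (Matrix.diagonal fun j => (dF j)⁻¹) * AIFᵀ - c • (1 : Matrix ιI ιI ℝ)) * wI h dI)‖
        + ‖toC (wI h dI * AIF * wF dF) * (Q - σ) * (toC (wI h dI * AIF * wF dF))ᵀ‖ := norm_add_le _ _
    _ ≤ tS + 2 * (tF + ‖z‖ / κ) * t0 := by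
        refine add_le_add ?_ ?_
        · rw [(s5_norm_toC _).1]; exact hS
        · exact (s5k_sandwich _ _).trans (mul_le_mul E1 h0 hh0 hδ0)

/-- E3 (P1 (5.25), (5.26)). Weighted Schur correction: `U_I Σ U_I = P₀ Q_F P₀ᵀ = P₀ σ P₀ᵀ + P₀ (Q_F - σ) P₀ᵀ`,
`P₀ = U_I A_IF U_F`, `P₀ σ P₀ᵀ = U_I A_IF D_F⁻¹ A_FI U_I`, E1, E9. -/
theorem s5_schur_small {dI : ιI → ℝ} {dF : ιF → ℝ} {AIF : Matrix ιI ιF ℝ} {AFF : Matrix ιF ιF ℝ}
    (hA : AFFᵀ = AFF) {h κ tF t0 tS : ℝ} (hκ : 0 < κ) (hd : ∀ j, κ ≤ |dF j|)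
    (ht : ‖wF dF * AFF * wF dF‖ ≤ tF) (h0 : hsq (wI h dI * AIF * wF dF) ≤ t0)
    (hS : ‖wI h dI * AIF * (Matrix.diagonal fun j => (dF j)⁻¹) * AIFᵀ * wI h dI‖ ≤ tS)
    {z : ℂ} (hz : 0 < z.im) (hδ : tF + ‖z‖ / κ ≤ 1 / 2) :
    ‖toC (wI h dI) * (toC AIF * s5G (Matrix.diagonal dF + AFF) z * (toC AIF)ᵀ) * toC (wI h dI)‖
      ≤ tS + 2 * (tF + ‖z‖ / κ) * t0 := by
  have := s5_schur_small' (dI := dI) (AIF := AIF) hA (h := h) (tS := tS) 0 hκ hd ht h0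
    (by simpa [Matrix.mul_assoc] using hS) hz hδ
  simpa using this

/-- E4 (P1 Lemma 5.5, first step). At the height `h`: `U_I (D_I + A_II - ih) U_I = Λ + E`, `Λ` diagonal with
`|Λ_aa| = |d - ih|/(|d|+h) ≥ 1/√2`, `‖E‖ ≤ tI ≤ 1/4`: `‖(Λ+E)⁻¹‖ ≤ √2/(1-√2/4) ≤ 3`. -/
theorem s5_inner_ih {dI : ιI → ℝ} {AII : Matrix ιI ιI ℝ} (hA : AIIᵀ = AII) {h tI : ℝ} (hh : 0 < h)
    (ht : ‖wI h dI * AII * wI h dI‖ ≤ tI) (htI : tI ≤ 1 / 4) :
    ‖toC (Matrix.diagonal fun a => Real.sqrt (|dI a| + h))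
        * s5G (Matrix.diagonal dI + AII) ((h : ℂ) * Complex.I)
        * toC (Matrix.diagonal fun a => Real.sqrt (|dI a| + h))‖ ≤ 3 := by
  have hv := s5d_inn_pos (dI := dI) hh
  have hz : 0 < ((h : ℂ) * Complex.I).im := by simpa using hh
  have hinv := s5d_conj_inv hv (s5d_G_mul (s5d_symm_add dI hA) hz)
  set U := toC (Matrix.diagonal fun j => (Real.sqrt (|dI j| + h))⁻¹) with hU
  set L : Matrix ιI ιI ℂ := Matrix.diagonal fun a => ((dI a : ℂ) - (h : ℂ) * Complex.I) / ((|dI a| + h : ℝ) : ℂ) with hL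
  set L' : Matrix ιI ιI ℂ := Matrix.diagonal fun a => ((|dI a| + h : ℝ) : ℂ) / ((dI a : ℂ) - (h : ℂ) * Complex.I) with hL'
  have hpos : ∀ a, 0 < |dI a| + h := fun a => by have := abs_nonneg (dI a); linarith
  have hne : ∀ a, (dI a : ℂ) - (h : ℂ) * Complex.I ≠ 0 := fun a h0 => by
    have := congrArg Complex.im h0
    simp at this
    exact hh.ne' this
  have hX : U * (toC (Matrix.diagonal dI + AII) - ((h : ℂ) * Complex.I) • (1 : Matrix ιI ιI ℂ)) * U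
      = L + toC (wI h dI * AII * wI h dI) := by
    have e1 : U * (toC (Matrix.diagonal dI) - ((h : ℂ) * Complex.I) • (1 : Matrix ιI ιI ℂ)) * U = L := by
      rw [hU, hL, s5d_toC_diag, s5d_toC_diag]
      ext a b
      rw [Matrix.mul_diagonal, Matrix.diagonal_mul]
      by_cases hab : a = b
      · subst hab
        have h1 : ((Real.sqrt (|dI a| + h) : ℝ) : ℂ) * ((Real.sqrt (|dI a| + h) : ℝ) : ℂ) = ((|dI a| + h : ℝ) : ℂ) := by
          rw [← Complex.ofReal_mul, Real.mul_self_sqrt (hpos a).le]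
        have h3 : ((Real.sqrt (|dI a| + h) : ℝ) : ℂ) ≠ 0 := by exact_mod_cast (hv a).ne'
        simp only [Matrix.sub_apply, Matrix.diagonal_apply_eq, Matrix.smul_apply, Matrix.one_apply_eq, smul_eq_mul,
          mul_one, Complex.ofReal_inv]
        rw [← h1]
        field_simp
      · simp [Matrix.diagonal_apply_ne _ hab, Matrix.one_apply_ne hab]
    have e2 : toC (wI h dI * AII * wI h dI) = U * toC AII * U := by
      rw [s5d_toC_mul, s5d_toC_mul]; rfl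
    rw [s5d_toC_add, e2, ← e1]
    simp only [Matrix.mul_sub, Matrix.sub_mul, Matrix.mul_add, Matrix.add_mul]
    abel
  have hLL : L * L' = 1 := by
    rw [hL, hL', Matrix.diagonal_mul_diagonal]
    have : (fun a => ((dI a : ℂ) - (h : ℂ) * Complex.I) / ((|dI a| + h : ℝ) : ℂ)
        * (((|dI a| + h : ℝ) : ℂ) / ((dI a : ℂ) - (h : ℂ) * Complex.I))) = fun _ => (1 : ℂ) := by
      funext a
      have h3 : ((|dI a| + h : ℝ) : ℂ) ≠ 0 := by exact_mod_cast (hpos a).ne'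
      have := hne a
      field_simp
    rw [this, Matrix.diagonal_one]
  have hL'n : ‖L'‖ ≤ Real.sqrt 2 := by
    refine s5d_diag_norm_le _ (Real.sqrt_nonneg _) fun a => ?_
    rw [norm_div, Complex.norm_real, Real.norm_of_nonneg (hpos a).le, div_le_iff₀ (norm_pos_iff.2 (hne a))]
    have e : ‖(dI a : ℂ) - (h : ℂ) * Complex.I‖ = Real.sqrt (dI a ^ 2 + h ^ 2) := by
      rw [Complex.norm_eq_sqrt_sq_add_sq]; simp
    rw [e, ← Real.sqrt_mul (by norm_num)]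
    refine Real.le_sqrt_of_sq_le ?_
    nlinarith [sq_abs (dI a), sq_nonneg (|dI a| - h)]
  have hs2 : Real.sqrt 2 ≤ 1.5 := by
    rw [Real.sqrt_le_left (by norm_num)]; norm_num
  have hs0 : 0 ≤ Real.sqrt 2 := Real.sqrt_nonneg _
  have hp := s5d_pert (a := Real.sqrt 2) (e := 1 / 4) hinv hX hLL hL'n ((s5d_op_toC _).trans (ht.trans htI))
    (by nlinarith)
  refine hp.1.trans ?_
  rw [div_le_iff₀ (by nlinarith)]
  nlinarith

/-- E5 (P1 (5.27)). At a fixed `z`: `G(z) = G(w) + (z-w) G(w)² + (z-w)² G(w) G(z) G(w)`, `w = ih`;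
`‖G(w) U_I⁻¹‖ ≤ ‖U_I‖ ‖U_I⁻¹ G(w) U_I⁻¹‖ ≤ 3 h^{-1/2}`, `‖G(z)‖ ≤ 1/Im z`. -/
theorem s5_inner_z {dI : ιI → ℝ} {AII : Matrix ιI ιI ℝ} (hA : AIIᵀ = AII) {h tI : ℝ} (hh : 0 < h)
    (ht : ‖wI h dI * AII * wI h dI‖ ≤ tI) (htI : tI ≤ 1 / 4) {z : ℂ} (hz : 0 < z.im) :
    ‖toC (Matrix.diagonal fun a => Real.sqrt (|dI a| + h)) * s5G (Matrix.diagonal dI + AII) z
        * toC (Matrix.diagonal fun a => Real.sqrt (|dI a| + h))‖ ≤ s5rho h z := by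
  have hv := s5d_inn_pos (dI := dI) hh
  have hw : 0 < ((h : ℂ) * Complex.I).im := by simpa using hh
  have hH := s5d_symm_add dI hA
  have h3 := s5_inner_ih hA hh ht htI
  obtain ⟨hUU, hU2⟩ := s5d_wI_norm (dI := dI) hh
  set w : ℂ := (h : ℂ) * Complex.I with hwdef
  set H := Matrix.diagonal dI + AII with hHdef
  set V := toC (Matrix.diagonal fun a => Real.sqrt (|dI a| + h)) with hV
  set U := toC (wI h dI) with hU
  set R := V * s5G H w * V with hR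
  have hback : U * R * U = s5G H w := s5d_conj_back hv (s5G H w)
  obtain ⟨hUV, hVU⟩ := s5d_UV hv
  have hUV' : U * V = 1 := hUV
  have hVU' : V * U = 1 := hVU
  -- resolvent identities
  have r1 : s5G H z - s5G H w = (z - w) • (s5G H z * s5G H w) := rs_res_z (s5d_herm hH) hz.ne' hw.ne'
  have r2 : s5G H w - s5G H z = (w - z) • (s5G H w * s5G H z) := rs_res_z (s5d_herm hH) hw.ne' hz.ne'
  have e1 : s5G H z = s5G H w + (z - w) • (s5G H w * s5G H w)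
      + ((z - w) ^ 2) • (s5G H w * s5G H z * s5G H w) := by
    have a1 : s5G H z = s5G H w + (z - w) • (s5G H w * s5G H z) := by
      have : (z - w) • (s5G H w * s5G H z) = -((w - z) • (s5G H w * s5G H z)) := by rw [← neg_smul, neg_sub]
      rw [this, ← r2]; abel
    have a2 : s5G H z = s5G H w + (z - w) • (s5G H z * s5G H w) := by rw [← r1]; abel
    calc s5G H z = s5G H w + (z - w) • (s5G H w * s5G H z) := a1
      _ = s5G H w + (z - w) • (s5G H w * (s5G H w + (z - w) • (s5G H z * s5G H w))) := by rw [← a2]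
      _ = _ := by
        rw [Matrix.mul_add, Matrix.mul_smul, smul_add, smul_smul, ← Matrix.mul_assoc, add_assoc, sq (z - w)]
  have e2 : V * s5G H z * V = R + (z - w) • (R * (U * U) * R) + ((z - w) ^ 2) • (R * (U * s5G H z * U) * R) := by
    have b1 : V * (s5G H w * s5G H w) * V = R * (U * U) * R := by
      rw [hR]
      calc V * (s5G H w * s5G H w) * V = V * s5G H w * 1 * 1 * s5G H w * V := by
            simp only [Matrix.mul_one, Matrix.mul_assoc]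
        _ = V * s5G H w * (V * U) * (U * V) * s5G H w * V := by rw [hVU', hUV']
        _ = _ := by simp only [Matrix.mul_assoc]
    have b2 : V * (s5G H w * s5G H z * s5G H w) * V = R * (U * s5G H z * U) * R := by
      rw [hR]
      calc V * (s5G H w * s5G H z * s5G H w) * V = V * s5G H w * 1 * s5G H z * 1 * s5G H w * V := by
            simp only [Matrix.mul_one, Matrix.mul_assoc]
        _ = V * s5G H w * (V * U) * s5G H z * (U * V) * s5G H w * V := by rw [hVU', hUV']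
        _ = _ := by simp only [Matrix.mul_assoc]
    conv_lhs => rw [e1]
    simp only [Matrix.mul_add, Matrix.add_mul, Matrix.mul_smul, Matrix.smul_mul]
    rw [b1, b2]
  have hG := s5d_G_norm hH hz
  have n1 : ‖R * (U * U) * R‖ ≤ 9 / h := by
    calc ‖R * (U * U) * R‖ ≤ ‖R * (U * U)‖ * ‖R‖ := Matrix.l2_opNorm_mul _ _
      _ ≤ (‖R‖ * ‖U * U‖) * ‖R‖ := by gcongr; exact Matrix.l2_opNorm_mul _ _
      _ ≤ (3 * (1 / h)) * 3 := by gcongr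
      _ = 9 / h := by ring
  have n2 : ‖R * (U * s5G H z * U) * R‖ ≤ 9 / (h * z.im) := by
    have n3 : ‖U * s5G H z * U‖ ≤ 1 / h * (1 / z.im) := by
      calc ‖U * s5G H z * U‖ ≤ ‖U * s5G H z‖ * ‖U‖ := Matrix.l2_opNorm_mul _ _
        _ ≤ (‖U‖ * ‖s5G H z‖) * ‖U‖ := by gcongr; exact Matrix.l2_opNorm_mul _ _
        _ = ‖U‖ ^ 2 * ‖s5G H z‖ := by ring
        _ ≤ 1 / h * (1 / z.im) := by gcongr
    calc ‖R * (U * s5G H z * U) * R‖ ≤ ‖R * (U * s5G H z * U)‖ * ‖R‖ := Matrix.l2_opNorm_mul _ _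
      _ ≤ (‖R‖ * ‖U * s5G H z * U‖) * ‖R‖ := by gcongr; exact Matrix.l2_opNorm_mul _ _
      _ ≤ (3 * (1 / h * (1 / z.im))) * 3 := by gcongr
      _ = 9 / (h * z.im) := by field_simp; ring
  rw [e2, s5rho]
  calc _ ≤ ‖R + (z - w) • (R * (U * U) * R)‖ + ‖((z - w) ^ 2) • (R * (U * s5G H z * U) * R)‖ := norm_add_le _ _
    _ ≤ (‖R‖ + ‖(z - w) • (R * (U * U) * R)‖) + ‖((z - w) ^ 2) • (R * (U * s5G H z * U) * R)‖ := by
        gcongr; exact norm_add_le _ _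
    _ ≤ (3 + ‖z - w‖ * (9 / h)) + ‖z - w‖ ^ 2 * (9 / (h * z.im)) := by
        rw [norm_smul, norm_smul, norm_pow]
        gcongr
    _ = _ := by ring

/-- E6 (abstract Neumann). `‖R‖ ≤ ϱ`, `‖S‖ ≤ s`, `ϱ s ≤ 1/2`, `R` invertible:
`(R⁻¹ - S)⁻¹ = (1 - R S)⁻¹ R` has norm `≤ 2ϱ` and differs from `R` by `≤ 2ϱ² s`. -/
theorem s5_schur_pert {ι : Type} [Fintype ι] [DecidableEq ι] {R S : Matrix ι ι ℂ} (hR : IsUnit R.det)
    {ϱ s : ℝ} (h1 : ‖R‖ ≤ ϱ) (h2 : ‖S‖ ≤ s) (h3 : ϱ * s ≤ 1 / 2) :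
    IsUnit (R⁻¹ - S).det ∧ ‖(R⁻¹ - S)⁻¹‖ ≤ 2 * ϱ ∧ ‖(R⁻¹ - S)⁻¹ - R‖ ≤ 2 * ϱ ^ 2 * s := by
  have hϱ : 0 ≤ ϱ := (norm_nonneg _).trans h1
  have hs : 0 ≤ s := (norm_nonneg _).trans h2
  have hRS : ‖R * S‖ ≤ 1 / 2 := by
    calc ‖R * S‖ ≤ ‖R‖ * ‖S‖ := Matrix.l2_opNorm_mul _ _
      _ ≤ ϱ * s := by gcongr
      _ ≤ 1 / 2 := h3
  have hu : IsUnit (1 - R * S) := isUnit_one_sub_of_norm_lt_one (by linarith)
  have hu' : IsUnit (R⁻¹ - S) := by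
    have e : R⁻¹ - S = R⁻¹ * (1 - R * S) := by
      rw [mul_sub, mul_one, ← mul_assoc, Matrix.nonsing_inv_mul _ hR, one_mul]
    rw [e]
    exact ((Matrix.isUnit_iff_isUnit_det _).2 (by rw [Matrix.det_nonsing_inv]; exact hR.ringInverse)).mul hu
  have hd : IsUnit (R⁻¹ - S).det := (Matrix.isUnit_iff_isUnit_det _).1 hu'
  have hp := s5d_pert (X := R⁻¹ - S) (Y := (R⁻¹ - S)⁻¹) (L := R⁻¹) (L' := R) (E := -S) (a := ϱ) (e := s)
    (Matrix.nonsing_inv_mul _ hd) (by abel) (Matrix.nonsing_inv_mul _ hR) h1 (by rw [norm_neg]; exact h2)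
    (by linarith)
  have hpos : (1 : ℝ) / 2 ≤ 1 - ϱ * s := by linarith
  refine ⟨hd, hp.1.trans ?_, hp.2.trans ?_⟩
  · rw [div_le_iff₀ (by linarith)]; nlinarith
  · rw [div_le_iff₀ (by linarith)]
    have : 0 ≤ ϱ ^ 2 * s := by positivity
    nlinarith

/-- E7 (block inverse; Mathlib `Matrix.invOf_fromBlocks₂₂_eq` / RES kit). Trace of the resolvent of the
block matrix through the Schur complement of the far block. -/
theorem s5_block_trace {HI : Matrix ιI ιI ℝ} {HF : Matrix ιF ιF ℝ} {AIF : Matrix ιI ιF ℝ}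
    (hI : HIᵀ = HI) (hF : HFᵀ = HF) {z : ℂ} (hz : 0 < z.im) :
    rTr (Matrix.fromBlocks HI AIF AIFᵀ HF) z
      = Matrix.trace (((s5G HI z)⁻¹ - toC AIF * s5G HF z * (toC AIF)ᵀ)⁻¹)
        + Matrix.trace (s5G HF z)
        + Matrix.trace (((s5G HI z)⁻¹ - toC AIF * s5G HF z * (toC AIF)ᵀ)⁻¹
            * toC AIF * (s5G HF z * s5G HF z) * (toC AIF)ᵀ) := by
  have hsym : (Matrix.fromBlocks HI AIF AIFᵀ HF)ᵀ = Matrix.fromBlocks HI AIF AIFᵀ HF := by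
    rw [Matrix.fromBlocks_transpose, hI, hF, Matrix.transpose_transpose]
  have uI : IsUnit (toC HI - z • (1 : Matrix ιI ιI ℂ)).det := rs_isUnit (s5d_herm hI) hz.ne'
  have uF : IsUnit (toC HF - z • (1 : Matrix ιF ιF ℂ)).det := rs_isUnit (s5d_herm hF) hz.ne'
  have uB : IsUnit (toC (Matrix.fromBlocks HI AIF AIFᵀ HF) - z • (1 : Matrix (ιI ⊕ ιF) (ιI ⊕ ιF) ℂ)).det :=
    rs_isUnit (s5d_herm hsym) hz.ne'
  have eB : toC (Matrix.fromBlocks HI AIF AIFᵀ HF) - z • (1 : Matrix (ιI ⊕ ιF) (ιI ⊕ ιF) ℂ)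
      = Matrix.fromBlocks (toC HI - z • (1 : Matrix ιI ιI ℂ)) (toC AIF) (toC AIF)ᵀ (toC HF - z • (1 : Matrix ιF ιF ℂ)) := by
    unfold toC
    rw [Matrix.fromBlocks_map, ← Matrix.fromBlocks_one, Matrix.fromBlocks_smul, sub_eq_add_neg, Matrix.fromBlocks_neg,
      Matrix.fromBlocks_add]
    simp [sub_eq_add_neg]
    rfl
  have eI : (s5G HI z)⁻¹ = toC HI - z • (1 : Matrix ιI ιI ℂ) := by
    unfold s5G
    exact Matrix.nonsing_inv_nonsing_inv _ uI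
  obtain ⟨A, hA⟩ : ∃ A, A = toC HI - z • (1 : Matrix ιI ιI ℂ) := ⟨_, rfl⟩
  obtain ⟨D, hD⟩ : ∃ D, D = toC HF - z • (1 : Matrix ιF ιF ℂ) := ⟨_, rfl⟩
  obtain ⟨B, hB⟩ : ∃ B, B = toC AIF := ⟨_, rfl⟩
  have eG : s5G HF z = D⁻¹ := by rw [hD]; rfl
  have eT : rTr (Matrix.fromBlocks HI AIF AIFᵀ HF) z = Matrix.trace ((Matrix.fromBlocks A B Bᵀ D)⁻¹) := by
    rw [hA, hB, hD, ← eB]; rfl
  rw [eT, eI, eG, ← hA, ← hB]
  rw [← hD] at uF
  rw [eB, ← hA, ← hB, ← hD] at uB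
  let _ : Invertible D := Matrix.invertibleOfIsUnitDet D uF
  let _ : Invertible (Matrix.fromBlocks A B Bᵀ D) := Matrix.invertibleOfIsUnitDet _ uB
  let _ : Invertible (A - B * ⅟D * Bᵀ) := Matrix.invertibleOfFromBlocks₂₂Invertible A B Bᵀ D
  have trB : ∀ (P : Matrix ιI ιI ℂ) (Q : Matrix ιI ιF ℂ) (R : Matrix ιF ιI ℂ) (S : Matrix ιF ιF ℂ),
      Matrix.trace (Matrix.fromBlocks P Q R S) = Matrix.trace P + Matrix.trace S := by
    intro P Q R S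
    simp [Matrix.trace, Fintype.sum_sum_type]
  rw [← Matrix.invOf_eq_nonsing_inv (Matrix.fromBlocks A B Bᵀ D), Matrix.invOf_fromBlocks₂₂_eq,
    trB, ← Matrix.invOf_eq_nonsing_inv D, ← Matrix.invOf_eq_nonsing_inv (A - B * ⅟D * Bᵀ),
    Matrix.trace_add, ← add_assoc]
  congr 1
  obtain ⟨X, hX⟩ : ∃ X, X = ⅟(A - B * ⅟D * Bᵀ) := ⟨_, rfl⟩
  obtain ⟨E, hE⟩ : ∃ E, E = ⅟D := ⟨_, rfl⟩
  rw [← hX, ← hE]
  calc Matrix.trace (E * Bᵀ * X * B * E) = Matrix.trace ((E * Bᵀ) * (X * B * E)) := by simp only [Matrix.mul_assoc]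
    _ = Matrix.trace ((X * B * E) * (E * Bᵀ)) := Matrix.trace_mul_comm _ _
    _ = Matrix.trace (X * B * (E * E) * Bᵀ) := by simp only [Matrix.mul_assoc]

/-- the deterministic error of the far block removal, shifted form (`z` = parameter of the big matrix,
`z'` = parameter of the inner one) -/
noncomputable def s5detS (h κ ℓ tF t0 tS : ℝ) (z z' : ℂ) : ℝ :=
  2 * s5rho h z' ^ 2 * (tS + 2 * (tF + ‖z‖ / κ) * t0) * ℓ + 2 * (tF + ‖z‖ / κ) * ℓ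
    + 8 * s5rho h z' * t0 / κ

theorem s5_detS_eqns_cite : True := by
  have := @s5detS.eq_1
  trivial

/-- (54) `U_I √(|D_I|+h) = 1` -/
theorem s5k_wI_sq {dI : ιI → ℝ} {h : ℝ} (hh : 0 < h) :
    toC (wI h dI) * toC (Matrix.diagonal fun a => Real.sqrt (|dI a| + h)) = 1 ∧
      toC (Matrix.diagonal fun a => Real.sqrt (|dI a| + h)) * toC (wI h dI) = 1 := by
  have h1 : wI h dI * (Matrix.diagonal fun a => Real.sqrt (|dI a| + h)) = 1 := by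
    unfold wI
    rw [Matrix.diagonal_mul_diagonal, ← Matrix.diagonal_one]
    congr 1
    funext a
    exact inv_mul_cancel₀ (Real.sqrt_pos.2 (by positivity)).ne'
  have h2 : toC (wI h dI) * toC (Matrix.diagonal fun a => Real.sqrt (|dI a| + h)) = 1 := by
    rw [← s5k_toC_mul, h1, s5k_toC_one]
  exact ⟨h2, mul_eq_one_comm.1 h2⟩

theorem s5k_toC_diag {ι : Type} [DecidableEq ι] (v : ι → ℝ) : toC (Matrix.diagonal v) = Matrix.diagonal fun i => ((v i : ℝ) : ℂ) := by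
  ext i j
  by_cases hij : i = j
  · subst hij; simp [toC]
  · simp [toC, hij]

/-- (54) operator norm of a real diagonal matrix, complexified -/
theorem s5k_norm_diag {ι : Type} [Fintype ι] [DecidableEq ι] (v : ι → ℝ) {c : ℝ} (hc : 0 ≤ c) (hv : ∀ i, |v i| ≤ c) :
    ‖toC (Matrix.diagonal v)‖ ≤ c := by
  rw [s5k_toC_diag, Matrix.l2_opNorm_diagonal, pi_norm_le_iff_of_nonneg hc]
  intro i
  rw [Complex.norm_real]
  exact hv i

theorem s5k_symm_herm {ι : Type} {H : Matrix ι ι ℝ} (hH : Hᵀ = H) : H.IsHermitian := by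
  unfold Matrix.IsHermitian
  rw [Matrix.conjTranspose_eq_transpose_of_trivial, hH]

theorem s5k_diag_add_symm {ι : Type} [DecidableEq ι] (d : ι → ℝ) {A : Matrix ι ι ℝ} (hA : Aᵀ = A) :
    (Matrix.diagonal d + A)ᵀ = Matrix.diagonal d + A := by
  rw [Matrix.transpose_add, Matrix.diagonal_transpose, hA]

/-- E10' (252; shifted form used by G2). The mean `c` of the Schur correction moves the spectral parameter of the
inner block, the far trace is `∑ 1/d_j`. Assembly of E1-E9 with `R = U_I⁻¹ G_I(z + c) U_I⁻¹`: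
`|Tr G(z) - Tr G_I(z+c) - ∑ 1/d_j| ≤ 2ϱ² s ℓ + 2δℓ + 2ϱ (4/κ) t0`, `s = tS + 2δ t0`, `δ = tF + |z|/κ`, `ϱ = ϱ(h, z+c)`. -/
theorem s5_block_det' {dI : ιI → ℝ} {dF : ιF → ℝ} {AII : Matrix ιI ιI ℝ} {AIF : Matrix ιI ιF ℝ}
    {AFF : Matrix ιF ιF ℝ} (hAI : AIIᵀ = AII) (hAF : AFFᵀ = AFF) {h κ ℓ tF tI t0 tS : ℝ} (c : ℝ)
    (hh : 0 < h) (hκ : 0 < κ) (hd : ∀ j, κ ≤ |dF j|)
    (htF : ‖wF dF * AFF * wF dF‖ ≤ tF) (htI : ‖wI h dI * AII * wI h dI‖ ≤ tI) (htI4 : tI ≤ 1 / 4)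
    (h0 : hsq (wI h dI * AIF * wF dF) ≤ t0)
    (hS : ‖wI h dI * (AIF * (Matrix.diagonal fun j => (dF j)⁻¹) * AIFᵀ - c • (1 : Matrix ιI ιI ℝ))
      * wI h dI‖ ≤ tS)
    (hℓI : ∑ a, (|dI a| + h)⁻¹ ≤ ℓ) (hℓF : ∑ j, |dF j|⁻¹ ≤ ℓ)
    {z : ℂ} (hz : 0 < z.im) (hδ : tF + ‖z‖ / κ ≤ 1 / 2)
    (hsm : s5rho h (z + (c : ℂ)) * (tS + 2 * (tF + ‖z‖ / κ) * t0) ≤ 1 / 2) :
    ‖rTr (Matrix.fromBlocks (Matrix.diagonal dI + AII) AIF AIFᵀ (Matrix.diagonal dF + AFF)) z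
        - rTr (Matrix.diagonal dI + AII) (z + (c : ℂ)) - ((∑ j, (dF j)⁻¹ : ℝ) : ℂ)‖
      ≤ s5detS h κ ℓ tF t0 tS z (z + (c : ℂ)) := by
  have hpos : ∀ j, 0 < |dF j| := fun j => hκ.trans_le (hd j)
  have hzc : 0 < (z + (c : ℂ)).im := by simpa using hz
  have hHI := s5k_diag_add_symm dI hAI
  have hHF := s5k_diag_add_symm dF hAF
  obtain ⟨HI, hHId⟩ : ∃ HI, HI = Matrix.diagonal dI + AII := ⟨_, rfl⟩
  obtain ⟨HF, hHFd⟩ : ∃ HF, HF = Matrix.diagonal dF + AFF := ⟨_, rfl⟩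
  have E1 := s5_far_res hAF hκ hd htF hz hδ
  have E2 := s5_far_tr' hAF hκ hd htF hz hδ hℓF
  have E3 := s5_schur_small' (dI := dI) (AIF := AIF) (h := h) hAF c hκ hd htF h0 hS hz hδ
  have E5 := s5_inner_z hAI hh htI htI4 hzc
  rw [← hHFd] at E1 E2 E3 hHF
  rw [← hHId] at E5 hHI
  rw [← hHId, ← hHFd]
  have E7 := s5_block_trace (AIF := AIF) hHI hHF hz
  obtain ⟨ϱ, hϱ⟩ : ∃ ϱ, ϱ = s5rho h (z + (c : ℂ)) := ⟨_, rfl⟩
  obtain ⟨δ, hδd⟩ : ∃ δ, δ = tF + ‖z‖ / κ := ⟨_, rfl⟩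
  obtain ⟨s, hs⟩ : ∃ s, s = tS + 2 * δ * t0 := ⟨_, rfl⟩
  rw [← hδd] at E1 E2 E3 hδ hsm
  rw [← hϱ] at E5 hsm
  rw [← hs] at E3 hsm
  obtain ⟨GF, hGF⟩ : ∃ GF, GF = s5G HF z := ⟨_, rfl⟩
  obtain ⟨A, hAd⟩ : ∃ A, A = toC AIF := ⟨_, rfl⟩
  obtain ⟨UI, hUI⟩ : ∃ UI, UI = toC (wI h dI) := ⟨_, rfl⟩
  obtain ⟨V, hV⟩ : ∃ V, V = toC (Matrix.diagonal fun a => Real.sqrt (|dI a| + h)) := ⟨_, rfl⟩
  obtain ⟨uv, vu⟩ := s5k_wI_sq (dI := dI) hh
  rw [← hUI, ← hV] at uv vu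
  rw [← hGF] at E1 E2 E3 E7
  rw [← hAd] at E3 E7
  rw [← hUI] at E3
  rw [← hV] at E5
  -- the inner resolvents
  obtain ⟨X, hX⟩ : ∃ X, X = toC HI - (z + (c : ℂ)) • (1 : Matrix ιI ιI ℂ) := ⟨_, rfl⟩
  obtain ⟨G1, hG1⟩ : ∃ G1, G1 = s5G HI (z + (c : ℂ)) := ⟨_, rfl⟩
  have hXG : X * G1 = 1 := by rw [hX, hG1]; exact rs_mul_G (s5k_symm_herm hHI) hzc.ne'
  have hGX : G1 * X = 1 := by rw [hX, hG1]; exact rs_G_mul (s5k_symm_herm hHI) hzc.ne'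
  have hinv : (s5G HI z)⁻¹ = toC HI - z • (1 : Matrix ιI ιI ℂ) :=
    Matrix.nonsing_inv_nonsing_inv _ (rs_isUnit (s5k_symm_herm hHI) hz.ne')
  rw [hinv] at E7
  rw [← hG1] at E5
  obtain ⟨R, hR⟩ : ∃ R, R = V * G1 * V := ⟨_, rfl⟩
  rw [← hR] at E5
  have hRr : R * (UI * X * UI) = 1 := by
    calc R * (UI * X * UI) = V * G1 * (V * UI) * X * UI := by rw [hR]; noncomm_ring
      _ = V * (G1 * X) * UI := by rw [vu]; noncomm_ring
      _ = 1 := by rw [hGX, mul_one, vu]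
  have hRu : IsUnit R.det := Matrix.isUnit_det_of_right_inverse hRr
  have hRi : R⁻¹ = UI * X * UI := Matrix.inv_eq_right_inv hRr
  obtain ⟨S, hSd⟩ : ∃ S, S = UI * (A * GF * Aᵀ - (c : ℂ) • (1 : Matrix ιI ιI ℂ)) * UI := ⟨_, rfl⟩
  rw [← hSd] at E3
  obtain ⟨u6, n6, d6⟩ := s5_schur_pert hRu E5 E3 hsm
  obtain ⟨W, hW⟩ : ∃ W, W = (R⁻¹ - S)⁻¹ := ⟨_, rfl⟩
  rw [← hW] at n6 d6
  obtain ⟨T, hT⟩ : ∃ T, T = toC HI - z • (1 : Matrix ιI ιI ℂ) - A * GF * Aᵀ := ⟨_, rfl⟩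
  rw [← hT] at E7
  have hRS : R⁻¹ - S = UI * T * UI := by
    rw [hRi, hSd, hT, hX, add_smul]
    noncomm_ring
  have hWr : (R⁻¹ - S) * W = 1 := by rw [hW]; exact Matrix.mul_nonsing_inv _ u6
  have hTi : T⁻¹ = UI * W * UI := by
    refine Matrix.inv_eq_right_inv ?_
    calc T * (UI * W * UI) = (V * UI) * T * UI * W * UI := by rw [vu]; noncomm_ring
      _ = V * ((UI * T * UI) * W) * UI := by noncomm_ring
      _ = 1 := by rw [← hRS, hWr, mul_one, vu]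
  rw [hTi] at E7
  have hG1R : G1 = UI * R * UI := by
    calc G1 = (UI * V) * G1 * (V * UI) := by rw [uv, vu, one_mul, mul_one]
      _ = UI * R * UI := by rw [hR]; noncomm_ring
  have hrT : rTr HI (z + (c : ℂ)) = Matrix.trace (UI * R * UI) := by
    rw [← hG1R, hG1]; rfl
  -- first term
  have hsumI : ∑ a, ((Real.sqrt (|dI a| + h))⁻¹) ^ 2 = ∑ a, (|dI a| + h)⁻¹ := by
    refine Finset.sum_congr rfl fun a _ => ?_
    rw [inv_pow, Real.sq_sqrt (by positivity)]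
  have hsI0 : 0 ≤ ∑ a, (|dI a| + h)⁻¹ := Finset.sum_nonneg fun a _ => by positivity
  have t1 : ‖Matrix.trace (UI * W * UI) - Matrix.trace (UI * R * UI)‖ ≤ 2 * ϱ ^ 2 * s * ℓ := by
    have e : Matrix.trace (UI * W * UI) - Matrix.trace (UI * R * UI) = Matrix.trace (UI * (W - R) * UI) := by
      rw [mul_sub, sub_mul, Matrix.trace_sub]
    have h8 := s5_tr_weight (fun a => (Real.sqrt (|dI a| + h))⁻¹) (W - R)
    rw [hsumI] at h8
    rw [e, hUI]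
    exact h8.trans (mul_le_mul d6 hℓI hsI0 ((norm_nonneg _).trans d6))
  -- third term
  obtain ⟨U, hU⟩ : ∃ U, U = toC (wF dF) := ⟨_, rfl⟩
  obtain ⟨Q, hQ⟩ : ∃ Q, Q = toC (Matrix.diagonal fun j => Real.sqrt |dF j|) * GF
      * toC (Matrix.diagonal fun j => Real.sqrt |dF j|) := ⟨_, rfl⟩
  have e1 := s5k_wF_conj hpos GF
  rw [← hQ, ← hU] at e1
  rw [← hQ] at E1
  have hδ0 : 0 ≤ 2 * δ := (norm_nonneg _).trans E1
  have hQn : ‖Q‖ ≤ 2 := by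
    have hσ : ‖toC (Matrix.diagonal fun j => (SignType.sign (dF j) : ℝ))‖ ≤ 1 := by
      refine s5k_norm_diag _ zero_le_one fun j => ?_
      rcases lt_trichotomy (dF j) 0 with hj | hj | hj
      · rw [sign_neg hj]; simp
      · rw [hj, sign_zero]; simp
      · rw [sign_pos hj]; simp
    calc ‖Q‖ = ‖(Q - toC (Matrix.diagonal fun j => (SignType.sign (dF j) : ℝ))) + toC (Matrix.diagonal fun j => (SignType.sign (dF j) : ℝ))‖ := by
          rw [sub_add_cancel]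
      _ ≤ 2 * δ + 1 := (norm_add_le _ _).trans (add_le_add E1 hσ)
      _ ≤ 2 := by linarith
  have hUU : ‖U * U‖ ≤ 1 / κ := by
    have : U * U = toC (Matrix.diagonal fun j => |dF j|⁻¹) := by
      rw [hU, ← s5k_toC_mul]
      congr 1
      unfold wF
      rw [Matrix.diagonal_mul_diagonal]
      congr 1
      funext j
      rw [← mul_inv, Real.mul_self_sqrt (hpos j).le]
    rw [this]
    refine s5k_norm_diag _ (by positivity) fun j => ?_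
    rw [abs_of_pos (inv_pos.2 (hpos j)), one_div]
    exact inv_anti₀ hκ (hd j)
  have hP : toC (wI h dI * AIF * wF dF) = UI * A * U := by
    rw [s5k_toC_mul, s5k_toC_mul, hUI, hAd, hU]
  have hPT : (toC (wI h dI * AIF * wF dF))ᵀ = U * Aᵀ * UI := by
    rw [hP, Matrix.transpose_mul, Matrix.transpose_mul, hU, hUI, s5k_wF_T, s5k_wI_T, Matrix.mul_assoc]
  have hϱ0 : 0 ≤ 2 * ϱ := (norm_nonneg _).trans n6
  have hh0 : 0 ≤ hsq (wI h dI * AIF * wF dF) := by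
    unfold hsq
    exact Finset.sum_nonneg fun _ _ => Finset.sum_nonneg fun _ _ => sq_nonneg _
  have t3 : ‖Matrix.trace (UI * W * UI * A * (GF * GF) * Aᵀ)‖ ≤ 8 * ϱ * t0 / κ := by
    have e : Matrix.trace (UI * W * UI * A * (GF * GF) * Aᵀ)
        = Matrix.trace (W * toC (wI h dI * AIF * wF dF) * (Q * (U * U) * Q) * (toC (wI h dI * AIF * wF dF))ᵀ) := by
      rw [hPT, hP]
      have a1 : UI * W * UI * A * (GF * GF) * Aᵀ = UI * (W * UI * A * (GF * GF) * Aᵀ) := by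
        simp only [Matrix.mul_assoc]
      rw [a1, Matrix.trace_mul_comm]
      congr 1
      conv_lhs => rw [e1]
      simp only [Matrix.mul_assoc]
    rw [e]
    have h9 := (s5_tr_hs W (Q * (U * U) * Q) (wI h dI * AIF * wF dF)).1
    have hY : ‖Q * (U * U) * Q‖ ≤ 4 / κ := by
      calc ‖Q * (U * U) * Q‖ ≤ ‖Q‖ * ‖U * U‖ * ‖Q‖ :=
            (norm_mul_le _ _).trans (mul_le_mul_of_nonneg_right (norm_mul_le _ _) (norm_nonneg _))
        _ ≤ 2 * (1 / κ) * 2 := by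
            refine mul_le_mul (mul_le_mul hQn hUU (norm_nonneg _) (by norm_num)) hQn (norm_nonneg _) (by positivity)
        _ = 4 / κ := by ring
    calc _ ≤ ‖W‖ * ‖Q * (U * U) * Q‖ * hsq (wI h dI * AIF * wF dF) := h9
      _ ≤ (2 * ϱ) * (4 / κ) * t0 := by
          refine mul_le_mul (mul_le_mul n6 hY (norm_nonneg _) hϱ0) h0 hh0 (by positivity)
      _ = 8 * ϱ * t0 / κ := by ring
  rw [E7, hrT]
  unfold s5detS
  rw [← hϱ, ← hδd, ← hs]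
  calc _ = ‖(Matrix.trace (UI * W * UI) - Matrix.trace (UI * R * UI)) + (Matrix.trace GF - ((∑ j, (dF j)⁻¹ : ℝ) : ℂ))
        + Matrix.trace (UI * W * UI * A * (GF * GF) * Aᵀ)‖ := by congr 1; ring
    _ ≤ 2 * ϱ ^ 2 * s * ℓ + 2 * δ * ℓ + 8 * ϱ * t0 / κ :=
        (norm_add_le _ _).trans (add_le_add ((norm_add_le _ _).trans (add_le_add t1 E2)) t3)

/-- E10 (**P1 Lemmas 5.4 + 5.5, deterministic**). Assembly of E1-E9:
`|Tr G - Tr G_I| ≤ |Tr G~_I - Tr G_I| + |Tr G_F| + |Tr(G~_I A_IF G_F² A_FI)|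
  ≤ 2ϱ² s ℓ + (τ₁ + 2δℓ) + 2ϱ (4/κ) t0`, `s = tS + 2δ t0`, `δ = tF + |z|/κ`. -/
theorem s5_block_det {dI : ιI → ℝ} {dF : ιF → ℝ} {AII : Matrix ιI ιI ℝ} {AIF : Matrix ιI ιF ℝ}
    {AFF : Matrix ιF ιF ℝ} (hAI : AIIᵀ = AII) (hAF : AFFᵀ = AFF) {h κ ℓ τ₁ tF tI t0 tS : ℝ}
    (hh : 0 < h) (hκ : 0 < κ) (hd : ∀ j, κ ≤ |dF j|)
    (htF : ‖wF dF * AFF * wF dF‖ ≤ tF) (htI : ‖wI h dI * AII * wI h dI‖ ≤ tI) (htI4 : tI ≤ 1 / 4)
    (h0 : hsq (wI h dI * AIF * wF dF) ≤ t0)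
    (hS : ‖wI h dI * AIF * (Matrix.diagonal fun j => (dF j)⁻¹) * AIFᵀ * wI h dI‖ ≤ tS)
    (hℓI : ∑ a, (|dI a| + h)⁻¹ ≤ ℓ) (hℓF : ∑ j, |dF j|⁻¹ ≤ ℓ) (hτ : |∑ j, (dF j)⁻¹| ≤ τ₁)
    {z : ℂ} (hz : 0 < z.im) (hδ : tF + ‖z‖ / κ ≤ 1 / 2)
    (hsm : s5rho h z * (tS + 2 * (tF + ‖z‖ / κ) * t0) ≤ 1 / 2) :
    ‖rTr (Matrix.fromBlocks (Matrix.diagonal dI + AII) AIF AIFᵀ (Matrix.diagonal dF + AFF)) z
        - rTr (Matrix.diagonal dI + AII) z‖ ≤ s5det h κ ℓ τ₁ tF t0 tS z := by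
  have hS' : ‖wI h dI * (AIF * (Matrix.diagonal fun j => (dF j)⁻¹) * AIFᵀ - (0 : ℝ) • (1 : Matrix ιI ιI ℝ)) * wI h dI‖ ≤ tS := by
    rw [zero_smul, sub_zero]
    simpa only [Matrix.mul_assoc] using hS
  have key := s5_block_det' hAI hAF (0 : ℝ) hh hκ hd htF htI htI4 h0 hS' hℓI hℓF hz hδ (by simpa using hsm)
  simp only [Complex.ofReal_zero, add_zero] at key
  have e : rTr (Matrix.fromBlocks (Matrix.diagonal dI + AII) AIF AIFᵀ (Matrix.diagonal dF + AFF)) z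
        - rTr (Matrix.diagonal dI + AII) z
      = (rTr (Matrix.fromBlocks (Matrix.diagonal dI + AII) AIF AIFᵀ (Matrix.diagonal dF + AFF)) z
        - rTr (Matrix.diagonal dI + AII) z - ((∑ j, (dF j)⁻¹ : ℝ) : ℂ)) + ((∑ j, (dF j)⁻¹ : ℝ) : ℂ) := by ring
  rw [e]
  refine (norm_add_le _ _).trans ?_
  rw [Complex.norm_real, Real.norm_eq_abs]
  unfold s5detS at key
  unfold s5det
  linarith

end det

/-! ## 2. Far block, moments of the bilinear noise (F5; P1 Lemma 5.3, Lemma 5.4 second half) -/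

section mom

/-- Q1a (deterministic). `‖U bilN(P) U‖⁴ ≤ 16 Tr[(a S' aᵀ)²]`. -/
theorem s5_q1_det {ι : Type} [Fintype ι] [DecidableEq ι] {m : ℕ} (u : ι → ℝ)
    (P : Matrix ι (Fin m) ℝ × Matrix ι (Fin m) ℝ) :
    ‖Matrix.diagonal u * bilN P * Matrix.diagonal u‖ ^ 4 ≤ 16 * s5mZ u P := by
  set Y : Matrix ι ι ℝ := Matrix.diagonal u * P.1 * (Matrix.diagonal u * P.2)ᵀ with hY
  have hX : Matrix.diagonal u * bilN P * Matrix.diagonal u = Y + Yᵀ := by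
    simp only [hY, bilN, Matrix.transpose_mul, Matrix.transpose_transpose, Matrix.diagonal_transpose,
      Matrix.mul_add, Matrix.add_mul, Matrix.mul_assoc]
  have hT : ‖Yᵀ‖ = ‖Y‖ := by
    rw [← Matrix.conjTranspose_eq_transpose_of_trivial, Matrix.l2_opNorm_conjTranspose]
  have h1 : ‖Matrix.diagonal u * bilN P * Matrix.diagonal u‖ ≤ 2 * ‖Y‖ := by
    rw [hX]
    refine (norm_add_le _ _).trans ?_
    rw [hT]; linarith
  have h2 : ‖Y * Yᵀ‖ = ‖Y‖ * ‖Y‖ := by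
    have := Matrix.l2_opNorm_conjTranspose_mul_self (Yᵀ)
    rw [Matrix.conjTranspose_eq_transpose_of_trivial, Matrix.transpose_transpose, hT] at this
    exact this
  have h3 : ‖Y * Yᵀ‖ ^ 2 ≤ hsq (Y * Yᵀ) := (s5_norm_toC (Y * Yᵀ)).2
  have h4 : hsq (Y * Yᵀ) = s5mZ u P := by
    have e : Y * Yᵀ = Matrix.diagonal u * (P.1 * s5mS u P.2 * P.1ᵀ) * Matrix.diagonal u := by
      have d2 : Matrix.diagonal (fun i => u i ^ 2) = Matrix.diagonal u * Matrix.diagonal u := by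
        rw [Matrix.diagonal_mul_diagonal]
        congr 1; funext i; ring
      simp only [hY, s5mS, d2, Matrix.transpose_mul, Matrix.transpose_transpose,
        Matrix.diagonal_transpose, Matrix.mul_assoc]
    rw [e]
    unfold hsq s5mZ
    refine Finset.sum_congr rfl fun j _ => Finset.sum_congr rfl fun l _ => ?_
    congr 1
    rw [Matrix.mul_diagonal, Matrix.diagonal_mul]
    have : (P.1 * s5mS u P.2 * P.1ᵀ) j l = P.1 j ⬝ᵥ s5mS u P.2 *ᵥ P.1 l := by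
      rw [Matrix.mul_assoc, Matrix.mul_apply, dotProduct]
      refine Finset.sum_congr rfl fun c _ => ?_
      congr 1
    rw [this]; ring
  calc ‖Matrix.diagonal u * bilN P * Matrix.diagonal u‖ ^ 4 ≤ (2 * ‖Y‖) ^ 4 :=
        pow_le_pow_left₀ (norm_nonneg _) h1 4
    _ = 16 * ‖Y * Yᵀ‖ ^ 2 := by rw [h2]; ring
    _ ≤ 16 * s5mZ u P := by rw [← h4]; linarith

/-- Q1 (**F5**, replaces truncation + Tropp's matrix Bernstein). `u ≥ 0` diagonal weights, `T = ∑ u²`,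
`u_j² ≤ ū`. With `a = U P₊`, `a' = U P₋`, `S' = a'ᵀ a'`: `‖U bilN(P) U‖ ≤ 2 ‖a a'ᵀ‖`,
`‖a a'ᵀ‖⁴ ≤ Tr[(a S' aᵀ)²] = ∑_{j,l} u_j² u_l² (p_jᵀ S' p_l)²`;
`E_{P₊} = ∑_{j≠l} u_j²u_l² Tr S'² + ∑_j u_j⁴ ((Tr S')² + 2 Tr S'²) ≤ 3T² Tr S'² + ū T (Tr S')²` (Q0);
`E Tr S'² ≤ m T² + (m²+2m) ū T`, `E (Tr S')² ≤ (m²+2m) T²` (Q0 again). Total `≤ 3mT⁴ + 12 m² ū T³`, times 16. -/
theorem s5_q1 {ι : Type} [Fintype ι] [DecidableEq ι] (m : ℕ) (hm : 1 ≤ m) {u : ι → ℝ}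
    (hu : ∀ j, 0 ≤ u j) {T ub : ℝ} (hT : ∑ j, u j ^ 2 ≤ T) (hub0 : 0 ≤ ub)
    (hub : ∀ j, u j ^ 2 ≤ ub) :
    Integrable (fun P => ‖Matrix.diagonal u * bilN P * Matrix.diagonal u‖ ^ 4)
        ((gArr ι (Fin m)).prod (gArr ι (Fin m))) ∧
    ∫ P, ‖Matrix.diagonal u * bilN P * Matrix.diagonal u‖ ^ 4
        ∂((gArr ι (Fin m)).prod (gArr ι (Fin m)))
      ≤ 48 * m * T ^ 4 + 192 * (m : ℝ) ^ 2 * ub * T ^ 3 := by
  have hZ := s5m_Z (κ := Fin m) u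
  have hmeas : Measurable fun P : Matrix ι (Fin m) ℝ × Matrix ι (Fin m) ℝ =>
      ‖Matrix.diagonal u * bilN P * Matrix.diagonal u‖ ^ 4 := by
    refine (s5_norm_meas.comp ?_).pow_const 4
    refine Continuous.measurable ?_
    exact (continuous_const.matrix_mul s5_bilN_meas.1).matrix_mul continuous_const
  have hint : Integrable (fun P => ‖Matrix.diagonal u * bilN P * Matrix.diagonal u‖ ^ 4)
      ((gArr ι (Fin m)).prod (gArr ι (Fin m))) := by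
    refine Integrable.mono' (hZ.1.const_mul 16) hmeas.aestronglyMeasurable
      (Filter.Eventually.of_forall fun P => ?_)
    rw [Real.norm_of_nonneg (by positivity)]
    exact s5_q1_det u P
  refine ⟨hint, ?_⟩
  have h1 : ∫ P, ‖Matrix.diagonal u * bilN P * Matrix.diagonal u‖ ^ 4
      ∂((gArr ι (Fin m)).prod (gArr ι (Fin m))) ≤ ∫ P, 16 * s5mZ u P
      ∂((gArr ι (Fin m)).prod (gArr ι (Fin m))) :=
    integral_mono hint (hZ.1.const_mul 16) fun P => s5_q1_det u P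
  refine h1.trans ?_
  rw [integral_const_mul]
  have h2 := s5m_Z_le (κ := Fin m) hT hub0 hub (by simpa using hm)
  simp only [Fintype.card_fin] at h2
  have hT0 : 0 ≤ T := (Finset.sum_nonneg fun _ _ => sq_nonneg _).trans hT
  have : 0 ≤ (m : ℝ) * T ^ 4 := by positivity
  have : 0 ≤ (m : ℝ) ^ 2 * ub * T ^ 3 := by positivity
  nlinarith

/-- Q2 (P1 (5.21)). Cross block: the entries `∑_c (P₊{ac} P₋{jc} + P₋{ac} P₊{jc})`, `a ∈ I`, `j ∈ F`, have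
variance `2m`. -/
theorem s5_q2 {ιI ιF : Type} [Fintype ιI] [DecidableEq ιI] [Fintype ιF] [DecidableEq ιF] (m : ℕ)
    (u : ιI → ℝ) (v : ιF → ℝ) :
    Integrable (fun P => hsq (Matrix.diagonal u * (bilN P).toBlocks₁₂ * Matrix.diagonal v))
        ((gArr (ιI ⊕ ιF) (Fin m)).prod (gArr (ιI ⊕ ιF) (Fin m))) ∧
    ∫ P, hsq (Matrix.diagonal u * (bilN P).toBlocks₁₂ * Matrix.diagonal v)
        ∂((gArr (ιI ⊕ ιF) (Fin m)).prod (gArr (ιI ⊕ ιF) (Fin m)))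
      = 2 * m * (∑ a, u a ^ 2) * ∑ j, v j ^ 2 := by
  have e : ∀ P : Matrix (ιI ⊕ ιF) (Fin m) ℝ × Matrix (ιI ⊕ ιF) (Fin m) ℝ,
      hsq (Matrix.diagonal u * (bilN P).toBlocks₁₂ * Matrix.diagonal v)
        = ∑ a, ∑ j, u a ^ 2 * v j ^ 2 * bilN P (Sum.inl a) (Sum.inr j) ^ 2 := by
    intro P
    unfold hsq
    refine Finset.sum_congr rfl fun a _ => Finset.sum_congr rfl fun j _ => ?_
    rw [Matrix.mul_diagonal, Matrix.diagonal_mul, Matrix.toBlocks₁₂]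
    simp only [Matrix.of_apply]
    ring
  simp only [e]
  have hi : ∀ (a : ιI) (j : ιF), Integrable (fun P : Matrix (ιI ⊕ ιF) (Fin m) ℝ × Matrix (ιI ⊕ ιF) (Fin m) ℝ =>
      u a ^ 2 * v j ^ 2 * bilN P (Sum.inl a) (Sum.inr j) ^ 2)
      ((gArr (ιI ⊕ ιF) (Fin m)).prod (gArr (ιI ⊕ ιF) (Fin m))) := fun a j =>
    (s5m_bil_sq (Sum.inl a) (Sum.inr j)).1.const_mul _
  refine ⟨integrable_finsetSum _ fun a _ => integrable_finsetSum _ fun j _ => hi a j, ?_⟩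
  rw [integral_finsetSum _ fun a _ => integrable_finsetSum _ fun j _ => hi a j]
  have h1 : ∀ a : ιI, ∫ P : Matrix (ιI ⊕ ιF) (Fin m) ℝ × Matrix (ιI ⊕ ιF) (Fin m) ℝ,
      ∑ j, u a ^ 2 * v j ^ 2 * bilN P (Sum.inl a) (Sum.inr j) ^ 2
      ∂((gArr (ιI ⊕ ιF) (Fin m)).prod (gArr (ιI ⊕ ιF) (Fin m))) = ∑ j, u a ^ 2 * v j ^ 2 * (2 * m) := by
    intro a
    rw [integral_finsetSum _ fun j _ => hi a j]
    refine Finset.sum_congr rfl fun j _ => ?_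
    rw [integral_const_mul, (s5m_bil_sq (Sum.inl a) (Sum.inr j)).2]
    simp
  rw [Finset.sum_congr rfl fun a _ => h1 a, mul_assoc, Finset.sum_mul_sum, Finset.mul_sum]
  refine Finset.sum_congr rfl fun a _ => ?_
  rw [Finset.mul_sum]
  refine Finset.sum_congr rfl fun j _ => ?_
  ring

/-- Q3 (P1 Lemma 5.4, main term of the Schur correction). `Y = A_IF D_F⁻¹ A_FI = ∑_j a_j a_jᵀ/d_j`; given the
inner rows the `a_j` are iid `N(0,Q)`, `Q = 𝒫_I 𝒫_Iᵀ` (`2m` columns):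
`E|Y_ab|² = E Q_ab² (∑ 1/d)² + E (Q_aa Q_bb + Q_ab²) ∑ 1/d² ≤ 3 (2m)² (τ₁² + 2τ₂)`. -/
theorem s5_q3 {ιI ιF : Type} [Fintype ιI] [DecidableEq ιI] [Fintype ιF] [DecidableEq ιF] (m : ℕ)
    (hm : 1 ≤ m) (u : ιI → ℝ) (dF : ιF → ℝ) {τ₁ τ₂ : ℝ} (h1 : |∑ j, (dF j)⁻¹| ≤ τ₁)
    (h2 : ∑ j, ((dF j)⁻¹) ^ 2 ≤ τ₂) :
    Integrable (fun P => hsq (Matrix.diagonal u * (bilN P).toBlocks₁₂
          * (Matrix.diagonal fun j => (dF j)⁻¹) * ((bilN P).toBlocks₁₂)ᵀ * Matrix.diagonal u))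
        ((gArr (ιI ⊕ ιF) (Fin m)).prod (gArr (ιI ⊕ ιF) (Fin m))) ∧
    ∫ P, hsq (Matrix.diagonal u * (bilN P).toBlocks₁₂ * (Matrix.diagonal fun j => (dF j)⁻¹)
          * ((bilN P).toBlocks₁₂)ᵀ * Matrix.diagonal u)
        ∂((gArr (ιI ⊕ ιF) (Fin m)).prod (gArr (ιI ⊕ ιF) (Fin m)))
      ≤ 12 * (m : ℝ) ^ 2 * (∑ a, u a ^ 2) ^ 2 * (τ₁ ^ 2 + 2 * τ₂) := by
  have e : ∀ P : Matrix (ιI ⊕ ιF) (Fin m) ℝ × Matrix (ιI ⊕ ιF) (Fin m) ℝ,
      hsq (Matrix.diagonal u * (bilN P).toBlocks₁₂ * (Matrix.diagonal fun j => (dF j)⁻¹)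
          * ((bilN P).toBlocks₁₂)ᵀ * Matrix.diagonal u)
        = ∑ a, ∑ b, u a ^ 2 * u b ^ 2 * (∑ j, (dF j)⁻¹ * (bilN P (Sum.inl a) (Sum.inr j)
            * bilN P (Sum.inl b) (Sum.inr j))) ^ 2 := by
    intro P
    unfold hsq
    refine Finset.sum_congr rfl fun a _ => Finset.sum_congr rfl fun b _ => ?_
    rw [Matrix.mul_diagonal, Matrix.mul_assoc (Matrix.diagonal u), Matrix.mul_assoc (Matrix.diagonal u),
      Matrix.diagonal_mul, Matrix.mul_apply]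
    have : ∑ j, ((bilN P).toBlocks₁₂ * Matrix.diagonal fun j => (dF j)⁻¹) a j * ((bilN P).toBlocks₁₂)ᵀ j b
        = ∑ j, (dF j)⁻¹ * (bilN P (Sum.inl a) (Sum.inr j) * bilN P (Sum.inl b) (Sum.inr j)) := by
      refine Finset.sum_congr rfl fun j _ => ?_
      rw [Matrix.mul_diagonal, Matrix.transpose_apply, Matrix.toBlocks₁₂]
      simp only [Matrix.of_apply]
      ring
    rw [this]
    ring
  simp only [e]
  have hi : ∀ (a b : ιI), Integrable (fun P : Matrix (ιI ⊕ ιF) (Fin m) ℝ × Matrix (ιI ⊕ ιF) (Fin m) ℝ =>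
      u a ^ 2 * u b ^ 2 * (∑ j, (dF j)⁻¹ * (bilN P (Sum.inl a) (Sum.inr j)
            * bilN P (Sum.inl b) (Sum.inr j))) ^ 2)
      ((gArr (ιI ⊕ ιF) (Fin m)).prod (gArr (ιI ⊕ ιF) (Fin m))) := fun a b =>
    (s5m_Y (fun j => (dF j)⁻¹) a b hm).1.const_mul _
  refine ⟨integrable_finsetSum _ fun a _ => integrable_finsetSum _ fun b _ => hi a b, ?_⟩
  rw [integral_finsetSum _ fun a _ => integrable_finsetSum _ fun b _ => hi a b]
  have hτ : (∑ j, (dF j)⁻¹) ^ 2 + 2 * ∑ j, ((dF j)⁻¹) ^ 2 ≤ τ₁ ^ 2 + 2 * τ₂ := by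
    have : (∑ j, (dF j)⁻¹) ^ 2 ≤ τ₁ ^ 2 := by
      rw [← sq_abs]
      exact pow_le_pow_left₀ (abs_nonneg _) h1 2
    linarith
  have hb : ∀ a : ιI, ∫ P : Matrix (ιI ⊕ ιF) (Fin m) ℝ × Matrix (ιI ⊕ ιF) (Fin m) ℝ,
      ∑ b, u a ^ 2 * u b ^ 2 * (∑ j, (dF j)⁻¹ * (bilN P (Sum.inl a) (Sum.inr j)
            * bilN P (Sum.inl b) (Sum.inr j))) ^ 2
      ∂((gArr (ιI ⊕ ιF) (Fin m)).prod (gArr (ιI ⊕ ιF) (Fin m)))
      ≤ ∑ b, u a ^ 2 * u b ^ 2 * (12 * (m : ℝ) ^ 2 * (τ₁ ^ 2 + 2 * τ₂)) := by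
    intro a
    rw [integral_finsetSum _ fun b _ => hi a b]
    refine Finset.sum_le_sum fun b _ => ?_
    rw [integral_const_mul]
    refine mul_le_mul_of_nonneg_left ?_ (by positivity)
    refine (s5m_Y (fun j => (dF j)⁻¹) a b hm).2.trans ?_
    exact mul_le_mul_of_nonneg_left hτ (by positivity)
  refine (Finset.sum_le_sum fun a _ => hb a).trans (le_of_eq ?_)
  rw [sq (∑ a, u a ^ 2), Finset.sum_mul_sum]
  simp only [Finset.mul_sum, Finset.sum_mul]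
  refine Finset.sum_congr rfl fun a _ => Finset.sum_congr rfl fun b _ => ?_
  ring

/-- rows: the upper rows of a Gaussian array are a Gaussian array -/
theorem s5_gArr_inl (ιI ιF κ : Type) [Fintype ιI] [Fintype ιF] [Fintype κ] :
    (gArr (ιI ⊕ ιF) κ).map (fun A : Matrix (ιI ⊕ ιF) κ ℝ => A.submatrix Sum.inl id) = gArr ιI κ := by
  have h := (measurePreserving_sumPiEquivProdPi (X := fun _ : ιI ⊕ ιF => κ → ℝ)
    (fun _ => Measure.pi fun _ : κ => gaussianReal 0 1))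
  have h2 : MeasurePreserving (Prod.fst : (ιI → κ → ℝ) × (ιF → κ → ℝ) → (ιI → κ → ℝ))
      ((Measure.pi fun _ : ιI => Measure.pi fun _ : κ => gaussianReal 0 1).prod
        (Measure.pi fun _ : ιF => Measure.pi fun _ : κ => gaussianReal 0 1))
      (Measure.pi fun _ : ιI => Measure.pi fun _ : κ => gaussianReal 0 1) :=
    measurePreserving_fst
  exact (h2.comp h).map_eq

theorem s5_gArr_inr (ιI ιF κ : Type) [Fintype ιI] [Fintype ιF] [Fintype κ] :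
    (gArr (ιI ⊕ ιF) κ).map (fun A : Matrix (ιI ⊕ ιF) κ ℝ => A.submatrix Sum.inr id) = gArr ιF κ := by
  have h := (measurePreserving_sumPiEquivProdPi (X := fun _ : ιI ⊕ ιF => κ → ℝ)
    (fun _ => Measure.pi fun _ : κ => gaussianReal 0 1))
  have h2 : MeasurePreserving (Prod.snd : (ιI → κ → ℝ) × (ιF → κ → ℝ) → (ιF → κ → ℝ))
      ((Measure.pi fun _ : ιI => Measure.pi fun _ : κ => gaussianReal 0 1).prod
        (Measure.pi fun _ : ιF => Measure.pi fun _ : κ => gaussianReal 0 1))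
      (Measure.pi fun _ : ιF => Measure.pi fun _ : κ => gaussianReal 0 1) :=
    measurePreserving_snd
  exact (h2.comp h).map_eq

theorem s5_submatrix_meas {α β γ δ : Type} (f : γ → α) (g : δ → β) :
    Measurable fun A : Matrix α β ℝ => A.submatrix f g :=
  measurable_pi_lambda _ fun i => measurable_pi_lambda _ fun j =>
    (measurable_pi_apply (g j)).comp (measurable_pi_apply (f i))

/-- Q4. Rows: `gArr (ιI ⊕ ιF) κ` is the product of `gArr ιI κ` and `gArr ιF κ`; the diagonal blocks of `bilN P`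
are `bilN` of the restricted rows. Consequence used below: the law of `(bilN P).toBlocks₁₁` under the big
product is the law of `bilN` under the small one (same for `₂₂`). -/
theorem s5_q4 {ιI ιF : Type} [Fintype ιI] [Fintype ιF] (m : ℕ) :
    (((gArr (ιI ⊕ ιF) (Fin m)).prod (gArr (ιI ⊕ ιF) (Fin m))).map fun P => (bilN P).toBlocks₁₁)
        = ((gArr ιI (Fin m)).prod (gArr ιI (Fin m))).map bilN ∧
    (((gArr (ιI ⊕ ιF) (Fin m)).prod (gArr (ιI ⊕ ιF) (Fin m))).map fun P => (bilN P).toBlocks₂₂)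
        = ((gArr ιF (Fin m)).prod (gArr ιF (Fin m))).map bilN := by
  have := s5_gArr_prob (ιI ⊕ ιF) (Fin m)
  have hmI := s5_submatrix_meas (α := ιI ⊕ ιF) (β := Fin m) (Sum.inl : ιI → ιI ⊕ ιF) (id : Fin m → Fin m)
  have hmF := s5_submatrix_meas (α := ιI ⊕ ιF) (β := Fin m) (Sum.inr : ιF → ιI ⊕ ιF) (id : Fin m → Fin m)
  constructor
  · conv_rhs => rw [← s5_gArr_inl ιI ιF (Fin m)]
    rw [Measure.map_prod_map _ _ hmI hmI, Measure.map_map s5_bilN_meas.2 (hmI.prodMap hmI)]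
    rfl
  · conv_rhs => rw [← s5_gArr_inr ιI ιF (Fin m)]
    rw [Measure.map_prod_map _ _ hmF hmF, Measure.map_map s5_bilN_meas.2 (hmF.prodMap hmF)]
    rfl

end mom

/-! ## 3. Far block, probabilistic statement for fixed positions -/

/-- the probability of the bad event of the far block removal (Markov with Q1-Q3; `Δ = 2 m β²`) -/
noncomputable def s5bad (Δ : ℝ) (m : ℕ) (h κ ℓ τ₁ τ₂ tF t0 tS : ℝ) : ℝ :=
  Δ ^ 2 * (12 * ℓ ^ 4 / m + 48 * ℓ ^ 3 / κ) / tF ^ 4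
    + Δ ^ 2 * (12 * ℓ ^ 4 / m + 48 * ℓ ^ 3 / h) * 4 ^ 4
    + Δ * ℓ ^ 2 / t0 + 3 * Δ ^ 2 * ℓ ^ 2 * (τ₁ ^ 2 + 2 * τ₂) / tS ^ 2

/-- the good event of the far block removal -/
def s5Good {ιI ιF : Type} [Fintype ιI] [DecidableEq ιI] [Fintype ιF] [DecidableEq ιF] {m : ℕ}
    (β h tF t0 tS : ℝ) (dI : ιI → ℝ) (dF : ιF → ℝ) :
    Set (Matrix (ιI ⊕ ιF) (Fin m) ℝ × Matrix (ιI ⊕ ιF) (Fin m) ℝ) :=
  {P | ‖wF dF * (β • (bilN P).toBlocks₂₂) * wF dF‖ ≤ tF ∧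
       ‖wI h dI * (β • (bilN P).toBlocks₁₁) * wI h dI‖ ≤ 1 / 4 ∧
       hsq (wI h dI * (β • (bilN P).toBlocks₁₂) * wF dF) ≤ t0 ∧
       ‖wI h dI * (β • (bilN P).toBlocks₁₂) * (Matrix.diagonal fun j => (dF j)⁻¹)
          * (β • (bilN P).toBlocks₁₂)ᵀ * wI h dI‖ ≤ tS}

theorem s5_good_eqns_cite : True := by
  have := @s5Good.eq_1
  have := @s5bad.eq_1
  trivial

section block
variable {ιI ιF : Type} [Fintype ιI] [DecidableEq ιI] [Fintype ιF] [DecidableEq ιF]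

/-- Markov in the form used below. -/
theorem s5_markov {X : Type} [MeasurableSpace X] {μ : Measure X} [IsProbabilityMeasure μ] {f : X → ℝ}
    (hf0 : ∀ x, 0 ≤ f x) (hfi : Integrable f μ) {B t : ℝ} (hB : ∫ x, f x ∂μ ≤ B) (ht : 0 < t) :
    μ {x | t < f x} ≤ ENNReal.ofReal (B / t) := by
  have h1 := mul_meas_ge_le_integral_of_nonneg (Eventually.of_forall hf0) hfi t
  have h2 : μ.real {x | t ≤ f x} ≤ B / t := by
    rw [le_div_iff₀ ht]; linarith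
  calc μ {x | t < f x} ≤ μ {x | t ≤ f x} := measure_mono fun x (hx : t < f x) => le_of_lt hx
    _ = ENNReal.ofReal (μ.real {x | t ≤ f x}) := by
        rw [Measure.real, ENNReal.ofReal_toReal (measure_ne_top _ _)]
    _ ≤ ENNReal.ofReal (B / t) := ENNReal.ofReal_le_ofReal h2

theorem s5_bilN_symm {ι κ : Type} [Fintype κ] (P : Matrix ι κ ℝ × Matrix ι κ ℝ) : (bilN P)ᵀ = bilN P := by
  unfold bilN
  rw [Matrix.transpose_add, Matrix.transpose_mul, Matrix.transpose_mul, Matrix.transpose_transpose,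
    Matrix.transpose_transpose, add_comm]

/-- M3a. On the good event: E10. `diagonal (Sum.elim dI dF) + β bilN P = fromBlocks (D_I + A₁₁) A₁₂ A₁₂ᵀ (D_F + A₂₂)`
(`Matrix.fromBlocks_toBlocks`, `bilN P` symmetric so `A₂₁ = A₁₂ᵀ`, `Matrix.fromBlocks_diagonal`). -/
theorem s5_block_good {m : ℕ} {β : ℝ} {dI : ιI → ℝ} {dF : ιF → ℝ} {h κ ℓ τ₁ tF t0 tS : ℝ}
    (hh : 0 < h) (hκ : 0 < κ) (hd : ∀ j, κ ≤ |dF j|)
    (hℓI : ∑ a, (|dI a| + h)⁻¹ ≤ ℓ) (hℓF : ∑ j, |dF j|⁻¹ ≤ ℓ) (hτ₁ : |∑ j, (dF j)⁻¹| ≤ τ₁)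
    {z : ℂ} (hz : 0 < z.im) (hδ : tF + ‖z‖ / κ ≤ 1 / 2)
    (hsm : s5rho h z * (tS + 2 * (tF + ‖z‖ / κ) * t0) ≤ 1 / 2)
    {P : Matrix (ιI ⊕ ιF) (Fin m) ℝ × Matrix (ιI ⊕ ιF) (Fin m) ℝ}
    (hP : P ∈ s5Good β h tF t0 tS dI dF) :
    ‖rTr (Matrix.diagonal (Sum.elim dI dF) + β • bilN P) z
        - rTr (Matrix.diagonal dI + β • (bilN P).toBlocks₁₁) z‖ ≤ s5det h κ ℓ τ₁ tF t0 tS z := by
  obtain ⟨h1, h2, h3, h4⟩ := hP
  have hs := s5_bilN_symm P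
  have e : Matrix.diagonal (Sum.elim dI dF) + β • bilN P
      = Matrix.fromBlocks (Matrix.diagonal dI + β • (bilN P).toBlocks₁₁) (β • (bilN P).toBlocks₁₂)
          (β • (bilN P).toBlocks₁₂)ᵀ (Matrix.diagonal dF + β • (bilN P).toBlocks₂₂) := by
    ext i j
    have hij := fun i j => congrFun (congrFun hs i) j
    rcases i with i | i <;> rcases j with j | j <;>
      simp [Matrix.diagonal_apply, Matrix.toBlocks₁₁, Matrix.toBlocks₁₂, Matrix.toBlocks₂₂]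
    have := hij (Sum.inl j) (Sum.inr i)
    rw [Matrix.transpose_apply] at this
    exact Or.inl this
  rw [e]
  refine s5_block_det (tI := 1 / 4) ?_ ?_ hh hκ hd h1 h2 le_rfl h3 h4 hℓI hℓF hτ₁ hz hδ hsm
  · ext i j
    have := congrFun (congrFun hs (Sum.inl i)) (Sum.inl j)
    simpa [Matrix.toBlocks₁₁] using Or.inl this
  · ext i j
    have := congrFun (congrFun hs (Sum.inr i)) (Sum.inr j)
    simpa [Matrix.toBlocks₂₂] using Or.inl this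

theorem s5_sqrt_pow4 {Δ : ℝ} (hΔ : 0 < Δ) {m : ℕ} (hm : 1 ≤ m) :
    0 ≤ Real.sqrt (Δ / (2 * m)) ∧ Real.sqrt (Δ / (2 * m)) ^ 2 = Δ / (2 * m) ∧
      Real.sqrt (Δ / (2 * m)) ^ 4 = Δ ^ 2 / (4 * (m : ℝ) ^ 2) := by
  have hm' : (0 : ℝ) < m := by exact_mod_cast hm
  have h0 : 0 ≤ Δ / (2 * m) := by positivity
  have h2 : Real.sqrt (Δ / (2 * m)) ^ 2 = Δ / (2 * m) := Real.sq_sqrt h0
  refine ⟨Real.sqrt_nonneg _, h2, ?_⟩
  have : Real.sqrt (Δ / (2 * m)) ^ 4 = (Real.sqrt (Δ / (2 * m)) ^ 2) ^ 2 := by ring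
  rw [this, h2]
  field_simp
  ring

/-- M3b0. Markov for a diagonal block on its own index type (Q1; `β⁴ = Δ²/4m²`; the set is measurable by E0''). -/
theorem s5_bad_diag {ι : Type} [Fintype ι] [DecidableEq ι] {Δ : ℝ} (hΔ : 0 < Δ) {m : ℕ} (hm : 1 ≤ m)
    {u : ι → ℝ} (hu : ∀ j, 0 ≤ u j) {T ub t : ℝ} (hT : ∑ j, u j ^ 2 ≤ T) (hub0 : 0 ≤ ub)
    (hub : ∀ j, u j ^ 2 ≤ ub) (ht : 0 < t) :
    ((gArr ι (Fin m)).prod (gArr ι (Fin m)))
        {P | t < ‖Matrix.diagonal u * (Real.sqrt (Δ / (2 * m)) • bilN P) * Matrix.diagonal u‖}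
      ≤ ENNReal.ofReal (Δ ^ 2 * (12 * T ^ 4 / m + 48 * T ^ 3 * ub) / t ^ 4) := by
  have := s5_gArr_prob ι (Fin m)
  obtain ⟨hc0, -, hc4⟩ := s5_sqrt_pow4 hΔ hm
  have hm' : (0 : ℝ) < m := by exact_mod_cast hm
  obtain ⟨hi, hb⟩ := s5_q1 m hm hu hT hub0 hub
  set c := Real.sqrt (Δ / (2 * m)) with hc
  have hM := s5_markov (μ := (gArr ι (Fin m)).prod (gArr ι (Fin m)))
    (f := fun P => c ^ 4 * ‖Matrix.diagonal u * bilN P * Matrix.diagonal u‖ ^ 4)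
    (fun P => by positivity) (hi.const_mul _)
    (B := c ^ 4 * (48 * m * T ^ 4 + 192 * (m : ℝ) ^ 2 * ub * T ^ 3))
    (by rw [integral_const_mul]; exact mul_le_mul_of_nonneg_left hb (by positivity))
    (t := t ^ 4) (by positivity)
  refine (measure_mono fun P hP => ?_).trans (hM.trans (ENNReal.ofReal_le_ofReal (le_of_eq ?_)))
  · have hP' : t < ‖Matrix.diagonal u * (c • bilN P) * Matrix.diagonal u‖ := hP
    rw [Matrix.mul_smul, Matrix.smul_mul, norm_smul, Real.norm_of_nonneg hc0] at hP'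
    show t ^ 4 < c ^ 4 * ‖Matrix.diagonal u * bilN P * Matrix.diagonal u‖ ^ 4
    rw [← mul_pow]
    exact pow_lt_pow_left₀ hP' ht.le (by norm_num)
  · rw [hc4]
    field_simp
    ring

theorem s5_wnorm_meas {ι : Type} [Fintype ι] [DecidableEq ι] (U : Matrix ι ι ℝ) (c : ℝ) :
    Measurable fun M : Matrix ι ι ℝ => ‖U * (c • M) * U‖ :=
  s5_norm_meas.comp ((goe_mul3_measurable U U).comp (goe_smul_measurable c))

theorem s5_inv_sqrt_sq {a : ℝ} (ha : 0 ≤ a) : ((Real.sqrt a)⁻¹) ^ 2 = a⁻¹ := by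
  rw [inv_pow, Real.sq_sqrt ha]

/-- M3b1. The two diagonal blocks inside the big product (M3b0 + Q4 + `Measure.map_apply`; `wF`: `u² = 1/|d| ≤ 1/κ`;
`wI`: `u² = 1/(|d|+h) ≤ 1/h`). -/
theorem s5_bad_blocks {Δ : ℝ} (hΔ : 0 < Δ) {m : ℕ} (hm : 1 ≤ m) {dI : ιI → ℝ} {dF : ιF → ℝ}
    {h κ ℓ tF : ℝ} (hh : 0 < h) (hκ : 0 < κ) (hd : ∀ j, κ ≤ |dF j|) (htF : 0 < tF)
    (hℓI : ∑ a, (|dI a| + h)⁻¹ ≤ ℓ) (hℓF : ∑ j, |dF j|⁻¹ ≤ ℓ) :
    ((gArr (ιI ⊕ ιF) (Fin m)).prod (gArr (ιI ⊕ ιF) (Fin m)))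
        {P | tF < ‖wF dF * (Real.sqrt (Δ / (2 * m)) • (bilN P).toBlocks₂₂) * wF dF‖}
      ≤ ENNReal.ofReal (Δ ^ 2 * (12 * ℓ ^ 4 / m + 48 * ℓ ^ 3 / κ) / tF ^ 4) ∧
    ((gArr (ιI ⊕ ιF) (Fin m)).prod (gArr (ιI ⊕ ιF) (Fin m)))
        {P | 1 / 4 < ‖wI h dI * (Real.sqrt (Δ / (2 * m)) • (bilN P).toBlocks₁₁) * wI h dI‖}
      ≤ ENNReal.ofReal (Δ ^ 2 * (12 * ℓ ^ 4 / m + 48 * ℓ ^ 3 / h) * 4 ^ 4) := by
  have hB1 : Measurable fun P : Matrix (ιI ⊕ ιF) (Fin m) ℝ × Matrix (ιI ⊕ ιF) (Fin m) ℝ =>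
      (bilN P).toBlocks₁₁ := (s5_submatrix_meas Sum.inl Sum.inl).comp s5_bilN_meas.2
  have hB2 : Measurable fun P : Matrix (ιI ⊕ ιF) (Fin m) ℝ × Matrix (ιI ⊕ ιF) (Fin m) ℝ =>
      (bilN P).toBlocks₂₂ := (s5_submatrix_meas Sum.inr Sum.inr).comp s5_bilN_meas.2
  obtain ⟨q1, q2⟩ := s5_q4 (ιI := ιI) (ιF := ιF) m
  constructor
  · have hS : MeasurableSet {M : Matrix ιF ιF ℝ | tF < ‖wF dF * (Real.sqrt (Δ / (2 * m)) • M) * wF dF‖} :=
      measurableSet_lt measurable_const (s5_wnorm_meas _ _)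
    have e1 := Measure.map_apply (μ := (gArr (ιI ⊕ ιF) (Fin m)).prod (gArr (ιI ⊕ ιF) (Fin m))) hB2 hS
    have e2 := Measure.map_apply (μ := (gArr ιF (Fin m)).prod (gArr ιF (Fin m))) s5_bilN_meas.2 hS
    rw [q2, e2] at e1
    have hb := s5_bad_diag hΔ hm (u := fun j => (Real.sqrt |dF j|)⁻¹) (fun j => by positivity)
      (T := ℓ) (ub := 1 / κ) (t := tF)
      (by simpa only [s5_inv_sqrt_sq (abs_nonneg _)] using hℓF) (by positivity)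
      (fun j => by
        rw [s5_inv_sqrt_sq (abs_nonneg _), one_div]
        exact inv_anti₀ hκ (hd j)) htF
    have e3 : Δ ^ 2 * (12 * ℓ ^ 4 / m + 48 * ℓ ^ 3 * (1 / κ)) / tF ^ 4
        = Δ ^ 2 * (12 * ℓ ^ 4 / m + 48 * ℓ ^ 3 / κ) / tF ^ 4 := by ring
    rw [e3] at hb
    exact (le_of_eq e1.symm).trans hb
  · have hS : MeasurableSet {M : Matrix ιI ιI ℝ | 1 / 4 < ‖wI h dI * (Real.sqrt (Δ / (2 * m)) • M) * wI h dI‖} :=
      measurableSet_lt measurable_const (s5_wnorm_meas _ _)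
    have e1 := Measure.map_apply (μ := (gArr (ιI ⊕ ιF) (Fin m)).prod (gArr (ιI ⊕ ιF) (Fin m))) hB1 hS
    have e2 := Measure.map_apply (μ := (gArr ιI (Fin m)).prod (gArr ιI (Fin m))) s5_bilN_meas.2 hS
    rw [q1, e2] at e1
    have hpos : ∀ a, 0 ≤ |dI a| + h := fun a => by positivity
    have hb := s5_bad_diag hΔ hm (u := fun a => (Real.sqrt (|dI a| + h))⁻¹) (fun j => by positivity)
      (T := ℓ) (ub := 1 / h) (t := 1 / 4)
      (by simpa only [s5_inv_sqrt_sq (hpos _)] using hℓI) (by positivity)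
      (fun a => by
        rw [s5_inv_sqrt_sq (hpos _), one_div]
        exact inv_anti₀ hh (by linarith [abs_nonneg (dI a)])) (by norm_num)
    have e3 : Δ ^ 2 * (12 * ℓ ^ 4 / m + 48 * ℓ ^ 3 * (1 / h)) / (1 / 4) ^ 4
        = Δ ^ 2 * (12 * ℓ ^ 4 / m + 48 * ℓ ^ 3 / h) * 4 ^ 4 := by ring
    rw [e3] at hb
    exact (le_of_eq e1.symm).trans hb

theorem s5_hsq_smul {ι κ : Type} [Fintype ι] [Fintype κ] (c : ℝ) (A : Matrix ι κ ℝ) :
    hsq (c • A) = c ^ 2 * hsq A := by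
  unfold hsq
  simp only [Matrix.smul_apply, smul_eq_mul, mul_pow, Finset.mul_sum]

theorem s5_hsq_nonneg {ι κ : Type} [Fintype ι] [Fintype κ] (A : Matrix ι κ ℝ) : 0 ≤ hsq A :=
  Finset.sum_nonneg fun _ _ => Finset.sum_nonneg fun _ _ => sq_nonneg _

/-- M3b2. Markov for the cross block (Q2; `β² · 2m = Δ`). -/
theorem s5_bad_cross {Δ : ℝ} (hΔ : 0 < Δ) {m : ℕ} (hm : 1 ≤ m) {dI : ιI → ℝ} {dF : ιF → ℝ}
    {h ℓ t0 : ℝ} (hh : 0 < h) (ht0 : 0 < t0)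
    (hℓI : ∑ a, (|dI a| + h)⁻¹ ≤ ℓ) (hℓF : ∑ j, |dF j|⁻¹ ≤ ℓ) :
    ((gArr (ιI ⊕ ιF) (Fin m)).prod (gArr (ιI ⊕ ιF) (Fin m)))
        {P | t0 < hsq (wI h dI * (Real.sqrt (Δ / (2 * m)) • (bilN P).toBlocks₁₂) * wF dF)}
      ≤ ENNReal.ofReal (Δ * ℓ ^ 2 / t0) := by
  have := s5_gArr_prob (ιI ⊕ ιF) (Fin m)
  obtain ⟨hc0, hc2, -⟩ := s5_sqrt_pow4 hΔ hm
  have hm' : (0 : ℝ) < m := by exact_mod_cast hm
  have hpos : ∀ a, 0 ≤ |dI a| + h := fun a => by positivity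
  obtain ⟨hi, hb⟩ := s5_q2 (ιI := ιI) (ιF := ιF) m (fun a => (Real.sqrt (|dI a| + h))⁻¹)
    (fun j => (Real.sqrt |dF j|)⁻¹)
  simp only [s5_inv_sqrt_sq (hpos _), s5_inv_sqrt_sq (abs_nonneg _)] at hb
  set c := Real.sqrt (Δ / (2 * m)) with hc
  have hI0 : 0 ≤ ∑ a, (|dI a| + h)⁻¹ := Finset.sum_nonneg fun a _ => inv_nonneg.mpr (hpos a)
  have hF0 : 0 ≤ ∑ j, |dF j|⁻¹ := Finset.sum_nonneg fun a _ => inv_nonneg.mpr (abs_nonneg _)
  have hM := s5_markov (μ := (gArr (ιI ⊕ ιF) (Fin m)).prod (gArr (ιI ⊕ ιF) (Fin m)))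
    (f := fun P => c ^ 2 * hsq (wI h dI * (bilN P).toBlocks₁₂ * wF dF))
    (fun P => mul_nonneg (sq_nonneg _) (s5_hsq_nonneg _)) (hi.const_mul _)
    (B := Δ * ℓ ^ 2)
    (by
      rw [integral_const_mul]
      unfold wI wF
      rw [hb, hc2]
      have : (∑ a, (|dI a| + h)⁻¹) * ∑ j, |dF j|⁻¹ ≤ ℓ ^ 2 := by
        rw [sq]; exact mul_le_mul hℓI hℓF hF0 (hI0.trans hℓI)
      calc Δ / (2 * m) * (2 * m * (∑ a, (|dI a| + h)⁻¹) * ∑ j, |dF j|⁻¹)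
          = Δ * ((∑ a, (|dI a| + h)⁻¹) * ∑ j, |dF j|⁻¹) := by field_simp
        _ ≤ Δ * ℓ ^ 2 := mul_le_mul_of_nonneg_left this hΔ.le)
    ht0
  refine (measure_mono fun P hP => ?_).trans hM
  have hP' : t0 < hsq (wI h dI * (c • (bilN P).toBlocks₁₂) * wF dF) := hP
  rw [Matrix.mul_smul, Matrix.smul_mul, s5_hsq_smul] at hP'
  exact hP'

/-- M3b3. Markov for the main term of the Schur correction (Q3, E0: `‖·‖² ≤ hsq`; `β⁴ · 12 m² = 3Δ²`). -/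
theorem s5_bad_schur {Δ : ℝ} (hΔ : 0 < Δ) {m : ℕ} (hm : 1 ≤ m) {dI : ιI → ℝ} {dF : ιF → ℝ}
    {h ℓ τ₁ τ₂ tS : ℝ} (hh : 0 < h) (htS : 0 < tS)
    (hℓI : ∑ a, (|dI a| + h)⁻¹ ≤ ℓ) (hτ₁ : |∑ j, (dF j)⁻¹| ≤ τ₁) (hτ₂ : ∑ j, ((dF j)⁻¹) ^ 2 ≤ τ₂) :
    ((gArr (ιI ⊕ ιF) (Fin m)).prod (gArr (ιI ⊕ ιF) (Fin m)))
        {P | tS < ‖wI h dI * (Real.sqrt (Δ / (2 * m)) • (bilN P).toBlocks₁₂)
          * (Matrix.diagonal fun j => (dF j)⁻¹)
          * (Real.sqrt (Δ / (2 * m)) • (bilN P).toBlocks₁₂)ᵀ * wI h dI‖}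
      ≤ ENNReal.ofReal (3 * Δ ^ 2 * ℓ ^ 2 * (τ₁ ^ 2 + 2 * τ₂) / tS ^ 2) := by
  have := s5_gArr_prob (ιI ⊕ ιF) (Fin m)
  obtain ⟨hc0, -, hc4⟩ := s5_sqrt_pow4 hΔ hm
  have hm' : (0 : ℝ) < m := by exact_mod_cast hm
  have hpos : ∀ a, 0 ≤ |dI a| + h := fun a => by positivity
  obtain ⟨hi, hb⟩ := s5_q3 (ιI := ιI) (ιF := ιF) m hm (fun a => (Real.sqrt (|dI a| + h))⁻¹) dF hτ₁ hτ₂
  simp only [s5_inv_sqrt_sq (hpos _)] at hb
  set c := Real.sqrt (Δ / (2 * m)) with hc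
  have hI0 : 0 ≤ ∑ a, (|dI a| + h)⁻¹ := Finset.sum_nonneg fun a _ => inv_nonneg.mpr (hpos a)
  have hτ0 : 0 ≤ τ₁ ^ 2 + 2 * τ₂ := by
    have : 0 ≤ τ₂ := le_trans (Finset.sum_nonneg fun _ _ => sq_nonneg _) hτ₂
    positivity
  have hM := s5_markov (μ := (gArr (ιI ⊕ ιF) (Fin m)).prod (gArr (ιI ⊕ ιF) (Fin m)))
    (f := fun P => c ^ 4 * hsq (wI h dI * (bilN P).toBlocks₁₂ * (Matrix.diagonal fun j => (dF j)⁻¹)
          * ((bilN P).toBlocks₁₂)ᵀ * wI h dI))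
    (fun P => mul_nonneg (by positivity) (s5_hsq_nonneg _)) (hi.const_mul _)
    (B := 3 * Δ ^ 2 * ℓ ^ 2 * (τ₁ ^ 2 + 2 * τ₂))
    (by
      rw [integral_const_mul]
      unfold wI
      have h2 : (∑ a, (|dI a| + h)⁻¹) ^ 2 ≤ ℓ ^ 2 := pow_le_pow_left₀ hI0 hℓI 2
      calc c ^ 4 * _ ≤ c ^ 4 * (12 * (m : ℝ) ^ 2 * (∑ a, (|dI a| + h)⁻¹) ^ 2 * (τ₁ ^ 2 + 2 * τ₂)) :=
            mul_le_mul_of_nonneg_left hb (by positivity)
        _ = 3 * Δ ^ 2 * ((∑ a, (|dI a| + h)⁻¹) ^ 2) * (τ₁ ^ 2 + 2 * τ₂) := by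
            rw [hc4]; field_simp; ring
        _ ≤ 3 * Δ ^ 2 * ℓ ^ 2 * (τ₁ ^ 2 + 2 * τ₂) := by gcongr)
    (t := tS ^ 2) (by positivity)
  refine (measure_mono fun P hP => ?_).trans hM
  have hP' : tS < ‖wI h dI * (c • (bilN P).toBlocks₁₂) * (Matrix.diagonal fun j => (dF j)⁻¹)
          * (c • (bilN P).toBlocks₁₂)ᵀ * wI h dI‖ := hP
  have e : wI h dI * (c • (bilN P).toBlocks₁₂) * (Matrix.diagonal fun j => (dF j)⁻¹)
          * (c • (bilN P).toBlocks₁₂)ᵀ * wI h dI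
      = (c ^ 2) • (wI h dI * (bilN P).toBlocks₁₂ * (Matrix.diagonal fun j => (dF j)⁻¹)
          * ((bilN P).toBlocks₁₂)ᵀ * wI h dI) := by
    simp only [Matrix.transpose_smul, Matrix.mul_smul, Matrix.smul_mul, smul_smul, sq]
  rw [e] at hP'
  have h3 := (s5_norm_toC ((c ^ 2) • (wI h dI * (bilN P).toBlocks₁₂ * (Matrix.diagonal fun j => (dF j)⁻¹)
          * ((bilN P).toBlocks₁₂)ᵀ * wI h dI))).2
  rw [s5_hsq_smul] at h3
  show tS ^ 2 < c ^ 4 * _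
  calc tS ^ 2 < _ := pow_lt_pow_left₀ hP' htS.le (by norm_num)
    _ ≤ _ := h3
    _ = _ := by ring

/-- M3b. Union bound (`measure_union_le`, `ENNReal.ofReal_add`; all four terms are nonnegative). -/
theorem s5_block_bad {Δ : ℝ} (hΔ : 0 < Δ) {m : ℕ} (hm : 1 ≤ m) {dI : ιI → ℝ} {dF : ιF → ℝ}
    {h κ ℓ τ₁ τ₂ tF t0 tS : ℝ} (hh : 0 < h) (hκ : 0 < κ) (hd : ∀ j, κ ≤ |dF j|)
    (htF : 0 < tF) (ht0 : 0 < t0) (htS : 0 < tS)
    (hℓI : ∑ a, (|dI a| + h)⁻¹ ≤ ℓ) (hℓF : ∑ j, |dF j|⁻¹ ≤ ℓ) (hτ₁ : |∑ j, (dF j)⁻¹| ≤ τ₁)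
    (hτ₂ : ∑ j, ((dF j)⁻¹) ^ 2 ≤ τ₂) :
    0 ≤ s5bad Δ m h κ ℓ τ₁ τ₂ tF t0 tS ∧
    ((gArr (ιI ⊕ ιF) (Fin m)).prod (gArr (ιI ⊕ ιF) (Fin m)))
        (s5Good (Real.sqrt (Δ / (2 * m))) h tF t0 tS dI dF)ᶜ
      ≤ ENNReal.ofReal (s5bad Δ m h κ ℓ τ₁ τ₂ tF t0 tS) := by
  have hm' : (0 : ℝ) < m := by exact_mod_cast hm
  have hℓ0 : 0 ≤ ℓ := le_trans (Finset.sum_nonneg fun a _ => inv_nonneg.mpr (abs_nonneg _)) hℓF
  have hτ0 : 0 ≤ τ₁ ^ 2 + 2 * τ₂ := by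
    have : 0 ≤ τ₂ := le_trans (Finset.sum_nonneg fun _ _ => sq_nonneg _) hτ₂
    positivity
  have a1 : 0 ≤ Δ ^ 2 * (12 * ℓ ^ 4 / m + 48 * ℓ ^ 3 / κ) / tF ^ 4 := by positivity
  have a2 : 0 ≤ Δ ^ 2 * (12 * ℓ ^ 4 / m + 48 * ℓ ^ 3 / h) * 4 ^ 4 := by positivity
  have a3 : 0 ≤ Δ * ℓ ^ 2 / t0 := by positivity
  have a4 : 0 ≤ 3 * Δ ^ 2 * ℓ ^ 2 * (τ₁ ^ 2 + 2 * τ₂) / tS ^ 2 := by positivity
  refine ⟨by unfold s5bad; linarith, ?_⟩
  obtain ⟨b1, b2⟩ := s5_bad_blocks hΔ hm hh hκ hd htF hℓI hℓF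
  have b3 := s5_bad_cross (dF := dF) hΔ hm hh ht0 hℓI hℓF
  have b4 := s5_bad_schur hΔ hm hh htS hℓI hτ₁ hτ₂
  unfold s5bad
  rw [ENNReal.ofReal_add (by linarith) a4, ENNReal.ofReal_add (by linarith) a3, ENNReal.ofReal_add a1 a2]
  refine (measure_mono ?_).trans ((measure_union_le _ _).trans (add_le_add ((measure_union_le _ _).trans
    (add_le_add ((measure_union_le _ _).trans (add_le_add b1 b2)) b3)) b4))
  intro P hP
  simp only [s5Good, Set.mem_compl_iff, Set.mem_setOf_eq, not_and_or, not_le] at hP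
  simp only [Set.mem_union, Set.mem_setOf_eq]
  tauto

/-- M3c. The inner integral is a marginal of the big one (Q4, `integral_map`, I0). -/
theorem s5_block_marg {mr : ℝ} {b : ℕ} (z : Fin b → ℂ) {Φ : (Fin b → ℂ) → ℝ} (hΦ : BLip Φ) (β : ℝ)
    (m : ℕ) (dI : ιI → ℝ) :
    s5cx mr z Φ β m dI
      = ∫ P, Φ (fun i => (mr : ℂ) + rTr (Matrix.diagonal dI + β • (bilN P).toBlocks₁₁) (z i))
          ∂((gArr (ιI ⊕ ιF) (Fin m)).prod (gArr (ιI ⊕ ιF) (Fin m))) := by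
  have hF : Measurable fun M : Matrix ιI ιI ℝ =>
      Φ (fun i => (mr : ℂ) + rTr (Matrix.diagonal dI + β • M) (z i)) :=
    s5_Phi_meas z hΦ (goe_add_measurable measurable_const (goe_smul_measurable β))
  have hB : Measurable fun P : Matrix (ιI ⊕ ιF) (Fin m) ℝ × Matrix (ιI ⊕ ιF) (Fin m) ℝ =>
      (bilN P).toBlocks₁₁ := (s5_submatrix_meas Sum.inl Sum.inl).comp s5_bilN_meas.2
  have e1 := integral_map (μ := (gArr ιI (Fin m)).prod (gArr ιI (Fin m))) s5_bilN_meas.2.aemeasurable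
    hF.aestronglyMeasurable
  have e2 := integral_map (μ := (gArr (ιI ⊕ ιF) (Fin m)).prod (gArr (ιI ⊕ ιF) (Fin m))) hB.aemeasurable
    hF.aestronglyMeasurable
  unfold s5cx
  rw [← e1, ← e2, (s5_q4 (ιI := ιI) (ιF := ιF) m).1]

/-- M3d. Measurability of the two matrix valued maps (I0'; `toBlocks₁₁` is a submatrix). -/
theorem s5_block_meas (β : ℝ) (m : ℕ) (dI : ιI → ℝ) (dF : ιF → ℝ) :
    (Measurable fun P : Matrix (ιI ⊕ ιF) (Fin m) ℝ × Matrix (ιI ⊕ ιF) (Fin m) ℝ =>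
      Matrix.diagonal (Sum.elim dI dF) + β • bilN P) ∧
    (Measurable fun P : Matrix (ιI ⊕ ιF) (Fin m) ℝ × Matrix (ιI ⊕ ιF) (Fin m) ℝ =>
      Matrix.diagonal dI + β • (bilN P).toBlocks₁₁) := by
  constructor
  · exact goe_add_measurable measurable_const ((goe_smul_measurable β).comp s5_bilN_meas.2)
  · exact goe_add_measurable measurable_const ((goe_smul_measurable β).comp
      ((s5_submatrix_meas Sum.inl Sum.inl).comp s5_bilN_meas.2))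

/-- M3e. Sup norm of a difference of shifted vectors. -/
theorem s5_pi_norm_le {b : ℕ} {c : ℂ} {v w : Fin b → ℂ} {ε : ℝ} (hε : 0 ≤ ε)
    (h : ∀ i, ‖v i - w i‖ ≤ ε) : ‖(fun i => c + v i) - fun i => c + w i‖ ≤ ε := by
  rw [pi_norm_le_iff_of_nonneg hε]
  intro i
  simpa using h i

/-- M3 (**far block for fixed positions**). On the good event E10 at every `z_i` and `Φ` is 1-Lipschitz in the sup norm; off it
`|Φ| ≤ 1` and `P(𝒢ᶜ) ≤ s5bad`. -/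
theorem s5_block
    {mr : ℝ} {b : ℕ} {z : Fin b → ℂ} (hz : ∀ i, 0 < (z i).im) {Φ : (Fin b → ℂ) → ℝ} (hΦ : BLip Φ)
    {Δ : ℝ} (hΔ : 0 < Δ) {m : ℕ} (hm : 1 ≤ m) {dI : ιI → ℝ} {dF : ιF → ℝ}
    {h κ ℓ τ₁ τ₂ tF t0 tS ε : ℝ} (hh : 0 < h) (hκ : 0 < κ) (hd : ∀ j, κ ≤ |dF j|)
    (htF : 0 < tF) (ht0 : 0 < t0) (htS : 0 < tS) (hε0 : 0 ≤ ε)
    (hℓI : ∑ a, (|dI a| + h)⁻¹ ≤ ℓ) (hℓF : ∑ j, |dF j|⁻¹ ≤ ℓ) (hτ₁ : |∑ j, (dF j)⁻¹| ≤ τ₁)
    (hτ₂ : ∑ j, ((dF j)⁻¹) ^ 2 ≤ τ₂)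
    (hδ : ∀ i, tF + ‖z i‖ / κ ≤ 1 / 2)
    (hsm : ∀ i, s5rho h (z i) * (tS + 2 * (tF + ‖z i‖ / κ) * t0) ≤ 1 / 2)
    (hε : ∀ i, s5det h κ ℓ τ₁ tF t0 tS (z i) ≤ ε) :
    |s5cx mr z Φ (Real.sqrt (Δ / (2 * m))) m (Sum.elim dI dF)
        - s5cx mr z Φ (Real.sqrt (Δ / (2 * m))) m dI| ≤ ε + 2 * s5bad Δ m h κ ℓ τ₁ τ₂ tF t0 tS := by
  have := s5_gArr_prob (ιI ⊕ ιF) (Fin m)
  rw [s5_block_marg (ιF := ιF) z hΦ _ m dI]
  have hM := s5_block_meas (Real.sqrt (Δ / (2 * m))) m dI dF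
  have hb := s5_block_bad hΔ hm hh hκ hd htF ht0 htS hℓI hℓF hτ₁ hτ₂
  unfold s5cx
  refine s5_int_split (s5_Phi_meas z hΦ hM.1) (s5_Phi_meas z hΦ hM.2) (fun _ => hΦ.bdd _)
    (fun _ => hΦ.bdd _) hε0 hb.1 hb.2 fun P hP => ?_
  refine (hΦ.lip _ _).trans (s5_pi_norm_le hε0 fun i => ?_)
  exact (s5_block_good hh hκ hd hℓI hℓF hτ₁ (hz i) (hδ i) (hsm i) hP).trans (hε i)

end block

/-! ## 4. Windows, reindexing, sums over regular configurations -/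

/-- the resolvent trace does not see the enumeration -/
theorem s5_rTr_submatrix {ι ι' : Type} [Fintype ι] [DecidableEq ι] [Fintype ι'] [DecidableEq ι'] (e : ι ≃ ι')
    (H : Matrix ι' ι' ℝ) (z : ℂ) : rTr (H.submatrix e e) z = rTr H z := by
  unfold rTr
  have h1 : (H.submatrix e e).map (fun t : ℝ => (t : ℂ)) - z • (1 : Matrix ι ι ℂ)
      = (H.map (fun t : ℝ => (t : ℂ)) - z • (1 : Matrix ι' ι' ℂ)).submatrix e e := by
    ext i j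
    simp [Matrix.one_apply, e.injective.eq_iff]
  rw [h1, Matrix.inv_submatrix_equiv]
  unfold Matrix.trace
  exact Equiv.sum_comp e fun i => ((H.map (fun t : ℝ => (t : ℂ)) - z • (1 : Matrix ι' ι' ℂ))⁻¹) i i

/-- W1. `s5cx` does not depend on the enumeration of the index type. -/
theorem s5_cx_reindex {ι ι' : Type} [Fintype ι] [DecidableEq ι] [Fintype ι'] [DecidableEq ι']
    (e : ι ≃ ι') {mr : ℝ} {b : ℕ} (z : Fin b → ℂ) (Φ : (Fin b → ℂ) → ℝ) (β : ℝ) (m : ℕ)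
    (d : ι' → ℝ) : s5cx mr z Φ β m (d ∘ e) = s5cx mr z Φ β m d := by
  let R : Matrix ι (Fin m) ℝ ≃ᵐ Matrix ι' (Fin m) ℝ := MeasurableEquiv.piCongrLeft (fun _ : ι' => Fin m → ℝ) e
  have hR : MeasurePreserving R (gArr ι (Fin m)) (gArr ι' (Fin m)) :=
    measurePreserving_piCongrLeft (fun _ : ι' => Measure.pi fun _ : Fin m => gaussianReal 0 1) e
  have hRa : ∀ (P : Matrix ι (Fin m) ℝ) (a : ι), R P (e a) = P a := fun P a =>
    Equiv.piCongrLeft_apply_apply (fun _ : ι' => Fin m → ℝ) e P a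
  have := s5_gArr_prob ι (Fin m)
  have := s5_gArr_prob ι' (Fin m)
  have hRR : MeasurePreserving (R.prodCongr R) ((gArr ι (Fin m)).prod (gArr ι (Fin m))) ((gArr ι' (Fin m)).prod (gArr ι' (Fin m))) :=
    hR.prod hR
  unfold s5cx
  rw [← hRR.integral_comp' (fun P => Φ (fun i => (mr : ℂ) + rTr (Matrix.diagonal d + β • bilN P) (z i)))]
  refine integral_congr_ae (Filter.Eventually.of_forall fun P => ?_)
  have hH : Matrix.diagonal (d ∘ e) + β • bilN P = (Matrix.diagonal d + β • bilN ((R.prodCongr R) P)).submatrix e e := by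
    ext i j
    have h1 : ((R.prodCongr R) P).1 = R P.1 := rfl
    have h2 : ((R.prodCongr R) P).2 = R P.2 := rfl
    simp only [bilN, Matrix.add_apply, Matrix.smul_apply, Matrix.submatrix_apply, Matrix.mul_apply, Matrix.transpose_apply,
      Matrix.diagonal_apply, e.injective.eq_iff, h1, h2, hRa, Function.comp]
  show Φ _ = Φ _
  congr 1
  funext i
  rw [hH, s5_rTr_submatrix]

/-- W2. The window `L` splits into the window `K` and the far labels, labels preserved. -/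
theorem s5_win_split {K L : ℕ} (hKL : K ≤ L) :
    ∃ e : Win K ⊕ Far K L ≃ Win L, ∀ x : Conf, cPos L x ∘ e = Sum.elim (cPos K x) (farPos K L x) := by
  let f : Win K ⊕ Far K L → Win L := Sum.elim (fun i => ⟨i.val + (L - K), by have := i.isLt; omega⟩) (fun i => i.1)
  have hf1 : ∀ i : Win K, wIdx (f (Sum.inl i)) = wIdx i := by
    intro i
    simp only [f, wIdx, Sum.elim_inl]
    push_cast [Nat.cast_sub hKL]
    ring
  have hin : ∀ i : Win K, |wIdx i| ≤ (K : ℤ) := by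
    intro i
    have := i.isLt
    simp only [wIdx]
    rw [abs_le]
    constructor <;> omega
  have hbij : Function.Bijective f := by
    constructor
    · rintro (i | i) (j | j) hij
      · have : (f (Sum.inl i)).val = (f (Sum.inl j)).val := by rw [hij]
        simp only [f, Sum.elim_inl] at this
        exact congrArg Sum.inl (Fin.ext (by omega))
      · exfalso
        have h1 := hf1 i
        rw [hij] at h1
        have h2 : wIdx (f (Sum.inr j)) = wIdx j.1 := rfl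
        have h3 := j.2
        have h4 := hin i
        rw [← h1, h2] at h4
        omega
      · exfalso
        have h1 := hf1 j
        rw [← hij] at h1
        have h2 : wIdx (f (Sum.inr i)) = wIdx i.1 := rfl
        have h3 := i.2
        have h4 := hin j
        rw [← h1, h2] at h4
        omega
      · exact congrArg Sum.inr (Subtype.ext hij)
    · intro w
      by_cases hw : (K : ℤ) < |wIdx w|
      · exact ⟨Sum.inr ⟨w, hw⟩, rfl⟩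
      · have hw' : |wIdx w| ≤ (K : ℤ) := not_lt.1 hw
        rw [abs_le] at hw'
        simp only [wIdx] at hw'
        have := w.isLt
        refine ⟨Sum.inl ⟨w.val - (L - K), by omega⟩, ?_⟩
        apply Fin.ext
        simp only [f, Sum.elim_inl]
        omega
  refine ⟨Equiv.ofBijective f hbij, fun x => ?_⟩
  funext a
  rcases a with i | i
  · show x (wIdx (f (Sum.inl i))) = x (wIdx i)
    rw [hf1]
  · rfl

/-- symmetric intervals of labels -/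
theorem s5_sum_sym (M : ℕ) (g : ℤ → ℝ) :
    ∑ j ∈ Finset.Icc (-(M : ℤ)) M, g j = g 0 + ∑ j ∈ Finset.Icc (1 : ℤ) M, (g j + g (-j)) := by
  induction M with
  | zero => simp
  | succ n ih =>
    have e1 : Finset.Icc (-((n + 1 : ℕ) : ℤ)) ((n + 1 : ℕ) : ℤ)
        = insert (((n + 1 : ℕ) : ℤ)) (insert (-((n + 1 : ℕ) : ℤ)) (Finset.Icc (-(n : ℤ)) n)) := by
      ext j
      simp only [Finset.mem_Icc, Finset.mem_insert]
      push_cast
      omega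
    have e2 : Finset.Icc (1 : ℤ) ((n + 1 : ℕ) : ℤ) = insert (((n + 1 : ℕ) : ℤ)) (Finset.Icc (1 : ℤ) n) := by
      ext j
      simp only [Finset.mem_Icc, Finset.mem_insert]
      push_cast
      omega
    rw [e1, e2, Finset.sum_insert, Finset.sum_insert, Finset.sum_insert, ih]
    · ring
    · simp only [Finset.mem_Icc]; push_cast; omega
    · simp only [Finset.mem_Icc]; push_cast; omega
    · simp only [Finset.mem_Icc, Finset.mem_insert]; push_cast; omega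

/-- W3. Sums over windows / far labels as sums over integer labels. -/
theorem s5_sum_far {K L : ℕ} (hKL : K ≤ L) (f : ℤ → ℝ) :
    (∑ i : Far K L, f (wIdx i.1) = ∑ j ∈ Finset.Icc (K + 1 : ℤ) L, (f j + f (-j))) ∧
    (∑ i : Win K, f (wIdx i) = f 0 + ∑ j ∈ Finset.Icc (1 : ℤ) K, (f j + f (-j))) := by
  constructor
  · have h1 : ∑ i : Far K L, f (wIdx i.1) = ∑ i : Win L, if (K : ℤ) < |wIdx i| then f (wIdx i) else 0 := by
      rw [← Finset.sum_filter]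
      exact (Finset.sum_subtype (Finset.univ.filter fun i : Win L => (K : ℤ) < |wIdx i|) (by simp) (fun i => f (wIdx i))).symm
    rw [h1, k9_sum_win L (fun j => if (K : ℤ) < |j| then f j else 0), s5_sum_sym]
    have h0 : ¬ ((K : ℤ) < |(0 : ℤ)|) := by simp
    rw [if_neg h0, zero_add]
    have h2 : ∀ j ∈ Finset.Icc (1 : ℤ) L, ((if (K : ℤ) < |j| then f j else 0) + (if (K : ℤ) < |-j| then f (-j) else 0))
        = if (K : ℤ) < j then f j + f (-j) else 0 := by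
      intro j hj
      rw [Finset.mem_Icc] at hj
      rw [abs_neg, abs_of_pos (by omega : 0 < j)]
      split_ifs <;> simp
    rw [Finset.sum_congr rfl h2, ← Finset.sum_filter]
    refine Finset.sum_congr ?_ fun _ _ => rfl
    ext j
    simp only [Finset.mem_filter, Finset.mem_Icc]
    omega
  · rw [k9_sum_win K f, s5_sum_sym]

/-- telescoping bound of a sum over integer labels -/
theorem s5_tel {a : ℤ → ℝ} {F : ℕ → ℝ} {K : ℕ} (h : ∀ n : ℕ, K ≤ n → a ((n : ℤ) + 1) ≤ F n - F (n + 1)) {L : ℕ} (hKL : K ≤ L) :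
    ∑ j ∈ Finset.Icc (K + 1 : ℤ) L, a j ≤ F K - F L := by
  induction L, hKL using Nat.le_induction with
  | base => simp
  | succ n hn ih =>
    have e : Finset.Icc (K + 1 : ℤ) ((n + 1 : ℕ) : ℤ) = insert ((n : ℤ) + 1) (Finset.Icc (K + 1 : ℤ) n) := by
      ext j
      simp only [Finset.mem_Icc, Finset.mem_insert]
      push_cast
      omega
    rw [e, Finset.sum_insert (by simp)]
    linarith [h n hn]

/-- `∑_{K < j ≤ L} 1/j ≤ log L - log K` -/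
theorem s5_tel_log {K L : ℕ} (hK : 1 ≤ K) (hKL : K ≤ L) :
    ∑ j ∈ Finset.Icc (K + 1 : ℤ) L, ((j : ℝ))⁻¹ ≤ Real.log L - Real.log K := by
  have := s5_tel (a := fun j => ((j : ℝ))⁻¹) (F := fun n => -Real.log n) (K := K) (fun n hn => ?_) hKL
  · simpa [sub_eq_add_neg, add_comm] using this
  · have hn0 : (0 : ℝ) < n := by exact_mod_cast (by omega : 0 < n)
    have h1 : Real.log ((n : ℝ) / (n + 1)) ≤ (n : ℝ) / (n + 1) - 1 := Real.log_le_sub_one_of_pos (by positivity)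
    rw [Real.log_div hn0.ne' (by positivity)] at h1
    have e : (n : ℝ) / (n + 1) - 1 = -((n : ℝ) + 1)⁻¹ := by field_simp; ring
    rw [e] at h1
    push_cast
    linarith

/-- `∑_{K < j ≤ L} 1/j² ≤ 1/K` -/
theorem s5_tel_sq {K L : ℕ} (hK : 1 ≤ K) (hKL : K ≤ L) :
    ∑ j ∈ Finset.Icc (K + 1 : ℤ) L, (((j : ℝ))⁻¹) ^ 2 ≤ 1 / K := by
  have := s5_tel (a := fun j => (((j : ℝ))⁻¹) ^ 2) (F := fun n => 1 / (n : ℝ)) (K := K) (fun n hn => ?_) hKL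
  · have hL : (0 : ℝ) ≤ 1 / (L : ℝ) := by positivity
    linarith
  · have hn0 : (0 : ℝ) < n := by exact_mod_cast (by omega : 0 < n)
    push_cast
    have e : 1 / (n : ℝ) - 1 / ((n : ℝ) + 1) = 1 / ((n : ℝ) * (n + 1)) := by field_simp; ring
    rw [e, inv_pow, ← one_div]
    exact one_div_le_one_div_of_le (by positivity) (by nlinarith)

/-- `∑_{K < j ≤ L} j^{-1-χ} ≤ K^{-χ}/χ` -/
theorem s5_tel_pow {χ : ℝ} (hχ : 0 < χ) (hχ1 : χ < 1) {K L : ℕ} (hK : 1 ≤ K) (hKL : K ≤ L) :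
    ∑ j ∈ Finset.Icc (K + 1 : ℤ) L, ((j : ℝ)) ^ (-1 - χ) ≤ (K : ℝ) ^ (-χ) / χ := by
  have := s5_tel (a := fun j => ((j : ℝ)) ^ (-1 - χ)) (F := fun n => (n : ℝ) ^ (-χ) / χ) (K := K) (fun n hn => ?_) hKL
  · have hL : (0 : ℝ) ≤ (L : ℝ) ^ (-χ) / χ := by positivity
    linarith
  · have hn0 : (0 : ℝ) < n := by exact_mod_cast (by omega : 0 < n)
    have hb : (0 : ℝ) < (n : ℝ) + 1 := by positivity
    push_cast
    have hB := rpow_one_add_le_one_add_mul_self (s := -((n : ℝ) + 1)⁻¹) (by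
      have : ((n : ℝ) + 1)⁻¹ ≤ 1 := inv_le_one_of_one_le₀ (by linarith)
      linarith) hχ.le hχ1.le
    have e1 : 1 + -((n : ℝ) + 1)⁻¹ = (n : ℝ) / (n + 1) := by field_simp; ring
    rw [e1, Real.div_rpow hn0.le hb.le] at hB
    have ha : 0 < (n : ℝ) ^ χ := Real.rpow_pos_of_pos hn0 _
    have hbb : 0 < ((n : ℝ) + 1) ^ χ := Real.rpow_pos_of_pos hb _
    rw [div_le_iff₀ hbb] at hB
    have hab : (n : ℝ) ^ χ ≤ ((n : ℝ) + 1) ^ χ := Real.rpow_le_rpow hn0.le (by linarith) hχ.le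
    have e2 : ((n : ℝ) + 1) ^ (-1 - χ) = (((n : ℝ) + 1) * ((n : ℝ) + 1) ^ χ)⁻¹ := by
      rw [show (-1 - χ) = -(1 + χ) by ring, Real.rpow_neg hb.le, Real.rpow_add hb, Real.rpow_one]
    rw [e2, Real.rpow_neg hn0.le, Real.rpow_neg hb.le, ← sub_div, le_div_iff₀ hχ]
    have e3 : ((n : ℝ) ^ χ)⁻¹ - (((n : ℝ) + 1) ^ χ)⁻¹ = (((n : ℝ) + 1) ^ χ - (n : ℝ) ^ χ) / ((n : ℝ) ^ χ * ((n : ℝ) + 1) ^ χ) := by
      field_simp
    rw [e3, le_div_iff₀ (by positivity)]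
    have e4 : (((n : ℝ) + 1) * ((n : ℝ) + 1) ^ χ)⁻¹ * χ * ((n : ℝ) ^ χ * ((n : ℝ) + 1) ^ χ) = χ * (n : ℝ) ^ χ / ((n : ℝ) + 1) := by
      field_simp
    rw [e4, div_le_iff₀ hb]
    have h5 : (1 + χ * -((n : ℝ) + 1)⁻¹) * ((n : ℝ) + 1) ^ χ * ((n : ℝ) + 1) = ((n : ℝ) + 1) ^ χ * ((n : ℝ) + 1) - χ * ((n : ℝ) + 1) ^ χ := by
      field_simp
      ring
    have h6 := mul_le_mul_of_nonneg_right hB hb.le
    rw [h5] at h6
    nlinarith

/-- one far pair of labels of a regular configuration -/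
theorem s5_reg_pt {ρ χ C₀ : ℝ} (hρ : 0 < ρ) {J₀ N : ℕ} (hJ : J₀ ≤ N) (hN1 : 1 ≤ N)
    (hN : ∀ t : ℝ, (N : ℝ) ≤ t → C₀ * t ^ (1 - χ) ≤ t / (2 * ρ)) {x : Conf} (hx : CReg ρ χ C₀ J₀ x) {j : ℤ} (hj : (N : ℤ) ≤ j) :
    (j : ℝ) / (2 * ρ) ≤ |x j| ∧ (j : ℝ) / (2 * ρ) ≤ |x (-j)| ∧ |x j + x (-j)| ≤ 2 * (C₀ * (j : ℝ) ^ (1 - χ)) := by
  have hj0 : (0 : ℤ) < j := by omega
  have hjR : (N : ℝ) ≤ (j : ℝ) := by exact_mod_cast hj
  have hjp : (0 : ℝ) < (j : ℝ) := by exact_mod_cast hj0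
  have h1 := hx.2 j (by rw [abs_of_pos hj0]; omega)
  have h2 := hx.2 (-j) (by rw [abs_neg, abs_of_pos hj0]; omega)
  push_cast at h2
  rw [abs_neg] at h2
  rw [abs_of_pos hjp] at h1 h2
  have h3 := hN j hjR
  have e : (j : ℝ) / ρ = 2 * ((j : ℝ) / (2 * ρ)) := by field_simp
  have hq : 0 < (j : ℝ) / (2 * ρ) := by positivity
  refine ⟨?_, ?_, ?_⟩
  · have := (abs_le.1 h1).1
    have h5 : (j : ℝ) / (2 * ρ) ≤ x j := by linarith
    exact h5.trans (le_abs_self _)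
  · have := (abs_le.1 h2).2
    have h5 : (j : ℝ) / (2 * ρ) ≤ -x (-j) := by
      have e' : -(j : ℝ) / ρ = -((j : ℝ) / ρ) := by ring
      rw [e'] at this
      linarith
    exact h5.trans (neg_le_abs _)
  · have e' : x j + x (-j) = (x j - (j : ℝ) / ρ) + (x (-j) - -(j : ℝ) / ρ) := by ring
    rw [e']
    exact (abs_add_le _ _).trans (by linarith)

/-- W4 (P1 (5.10), (5.19); one-liners under `CReg`). There are `C, K₁` depending on `(ρ, χ, C₀, J₀)` only with,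
for all regular `x`, `K₁ ≤ K ≤ L`, `h ≥ 1`... :
`|x_j| ≥ |j|/(2ρ)` for `|j| > K`; `∑_far 1/|x_j| ≤ C log L`; `|∑_far 1/x_j| ≤ C K^{-χ}`
(`1/x_j + 1/x_{-j} = (x_j + x_{-j})/(x_j x_{-j}) = O(j^{-1-χ})`); `∑_far 1/x_j² ≤ C/K`;
`∑_{|j| ≤ K} 1/(|x_j| + h) ≤ C (J₀ + K₁)/h + C log K`. -/
theorem s5_reg_sums {ρ χ C₀ : ℝ} (hρ : 0 < ρ) (hχ : 0 < χ) (hχ1 : χ < 1) (J₀ : ℕ) :
    ∃ (C : ℝ) (K₁ : ℕ), 0 < C ∧ 2 ≤ K₁ ∧ ∀ x : Conf, CReg ρ χ C₀ J₀ x → ∀ K L : ℕ, K₁ ≤ K → K ≤ L →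
      (∀ i : Far K L, (K : ℝ) / (2 * ρ) ≤ |farPos K L x i|) ∧
      (∑ i : Far K L, |farPos K L x i|⁻¹ ≤ C * Real.log L) ∧
      (|∑ i : Far K L, (farPos K L x i)⁻¹| ≤ C * (K : ℝ) ^ (-χ)) ∧
      (∑ i : Far K L, ((farPos K L x i)⁻¹) ^ 2 ≤ C / K) ∧
      (∀ h : ℝ, 1 ≤ h → ∑ i : Win K, (|cPos K x i| + h)⁻¹ ≤ C * Real.log K) := by
  obtain ⟨N₁, hN₁⟩ := eventually_atTop.1 ((tendsto_rpow_atTop hχ).eventually_ge_atTop (2 * ρ * C₀))
  obtain ⟨N, hNdef⟩ : ∃ N : ℕ, N = max J₀ (max 2 ⌈N₁⌉₊) := ⟨_, rfl⟩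
  have hJN : J₀ ≤ N := by rw [hNdef]; exact le_max_left _ _
  have hN2 : 2 ≤ N := by rw [hNdef]; exact (le_max_left _ _).trans (le_max_right _ _)
  have hNN : N₁ ≤ (N : ℝ) := by
    refine (Nat.le_ceil N₁).trans ?_
    rw [hNdef]
    exact_mod_cast (le_max_right 2 ⌈N₁⌉₊).trans (le_max_right _ _)
  have hN : ∀ t : ℝ, (N : ℝ) ≤ t → C₀ * t ^ (1 - χ) ≤ t / (2 * ρ) := by
    intro t ht
    have ht0 : 0 < t := lt_of_lt_of_le (by exact_mod_cast (by omega : 0 < N)) ht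
    have h5 : 2 * ρ * C₀ ≤ t ^ χ := hN₁ t (hNN.trans ht)
    have e1 : t ^ (1 - χ) = t / t ^ χ := by rw [Real.rpow_sub ht0, Real.rpow_one]
    have hp : 0 < t ^ χ := Real.rpow_pos_of_pos ht0 _
    rw [e1, mul_div_assoc', div_le_div_iff₀ hp (by positivity)]
    nlinarith
  have hlog2 : 0 < Real.log 2 := Real.log_pos (by norm_num)
  have hc1 : 0 ≤ 8 * ρ ^ 2 * |C₀| / χ := by positivity
  have hc2 : 0 ≤ (1 + 2 * (N : ℝ)) / Real.log 2 := by positivity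
  refine ⟨4 * ρ + 8 * ρ ^ 2 * |C₀| / χ + 8 * ρ ^ 2 + (1 + 2 * (N : ℝ)) / Real.log 2, N, by positivity, hN2, ?_⟩
  intro x hx K L hNK hKL
  have hK1 : 1 ≤ K := by omega
  have hKp : (0 : ℝ) < K := by exact_mod_cast (by omega : 0 < K)
  have hLp : (1 : ℝ) ≤ L := by exact_mod_cast (by omega : 1 ≤ L)
  have hK2 : (2 : ℝ) ≤ K := by exact_mod_cast (by omega : 2 ≤ K)
  have hlogK : Real.log 2 ≤ Real.log K := Real.log_le_log (by norm_num) hK2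
  have hlogL : 0 ≤ Real.log L := Real.log_nonneg hLp
  have hpt : ∀ j : ℤ, (N : ℤ) ≤ j → (j : ℝ) / (2 * ρ) ≤ |x j| ∧ (j : ℝ) / (2 * ρ) ≤ |x (-j)| ∧
      |x j + x (-j)| ≤ 2 * (C₀ * (j : ℝ) ^ (1 - χ)) := fun j hj => s5_reg_pt hρ hJN (by omega) hN hx hj
  have hinv : ∀ j : ℤ, (N : ℤ) ≤ j → |x j|⁻¹ ≤ 2 * ρ * ((j : ℝ))⁻¹ ∧ |x (-j)|⁻¹ ≤ 2 * ρ * ((j : ℝ))⁻¹ := by
    intro j hj
    have hjp : (0 : ℝ) < (j : ℝ) := by exact_mod_cast (by omega : (0 : ℤ) < j)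
    have hq : 0 < (j : ℝ) / (2 * ρ) := by positivity
    have e : ((j : ℝ) / (2 * ρ))⁻¹ = 2 * ρ * ((j : ℝ))⁻¹ := by field_simp
    obtain ⟨a1, a2, -⟩ := hpt j hj
    exact ⟨e ▸ inv_anti₀ hq a1, e ▸ inv_anti₀ hq a2⟩
  refine ⟨?_, ?_, ?_, ?_, ?_⟩
  · intro i
    have hi := i.2
    show (K : ℝ) / (2 * ρ) ≤ |x (wIdx i.1)|
    obtain ⟨j, hj⟩ : ∃ j : ℤ, j = wIdx i.1 := ⟨_, rfl⟩
    rw [← hj] at hi ⊢
    have hmono : ∀ k : ℤ, (K : ℤ) < k → (K : ℝ) / (2 * ρ) ≤ (k : ℝ) / (2 * ρ) := by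
      intro k hk
      have : (K : ℝ) ≤ (k : ℝ) := by exact_mod_cast hk.le
      exact div_le_div_of_nonneg_right this (by positivity)
    rcases le_total 0 j with h0 | h0
    · rw [abs_of_nonneg h0] at hi
      exact (hmono j hi).trans (hpt j (by omega)).1
    · rw [abs_of_nonpos h0] at hi
      have := (hpt (-j) (by omega)).2.1
      rw [neg_neg] at this
      exact (hmono (-j) hi).trans this
  · have e := (s5_sum_far hKL (fun j => |x j|⁻¹)).1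
    have e' : ∑ i : Far K L, |farPos K L x i|⁻¹ = ∑ i : Far K L, (fun j => |x j|⁻¹) (wIdx i.1) := rfl
    rw [e', e]
    calc ∑ j ∈ Finset.Icc (K + 1 : ℤ) L, (|x j|⁻¹ + |x (-j)|⁻¹)
        ≤ ∑ j ∈ Finset.Icc (K + 1 : ℤ) L, 4 * ρ * ((j : ℝ))⁻¹ := Finset.sum_le_sum fun j hj => by
          rw [Finset.mem_Icc] at hj
          obtain ⟨a1, a2⟩ := hinv j (by omega)
          linarith
      _ = 4 * ρ * ∑ j ∈ Finset.Icc (K + 1 : ℤ) L, ((j : ℝ))⁻¹ := by rw [Finset.mul_sum]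
      _ ≤ 4 * ρ * (Real.log L - Real.log K) := mul_le_mul_of_nonneg_left (s5_tel_log hK1 hKL) (by positivity)
      _ ≤ 4 * ρ * Real.log L := mul_le_mul_of_nonneg_left (by linarith) (by positivity)
      _ ≤ _ := mul_le_mul_of_nonneg_right (by nlinarith [sq_nonneg ρ]) hlogL
  · have e := (s5_sum_far hKL (fun j => (x j)⁻¹)).1
    have e' : ∑ i : Far K L, (farPos K L x i)⁻¹ = ∑ i : Far K L, (fun j => (x j)⁻¹) (wIdx i.1) := rfl
    rw [e', e]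
    have hKχ : 0 ≤ (K : ℝ) ^ (-χ) := Real.rpow_nonneg hKp.le _
    calc |∑ j ∈ Finset.Icc (K + 1 : ℤ) L, ((x j)⁻¹ + (x (-j))⁻¹)|
        ≤ ∑ j ∈ Finset.Icc (K + 1 : ℤ) L, |(x j)⁻¹ + (x (-j))⁻¹| := Finset.abs_sum_le_sum_abs _ _
      _ ≤ ∑ j ∈ Finset.Icc (K + 1 : ℤ) L, 8 * ρ ^ 2 * |C₀| * (j : ℝ) ^ (-1 - χ) := Finset.sum_le_sum fun j hj => by
          rw [Finset.mem_Icc] at hj
          have hjp : (0 : ℝ) < (j : ℝ) := by exact_mod_cast (by omega : (0 : ℤ) < j)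
          have hq : 0 < (j : ℝ) / (2 * ρ) := by positivity
          obtain ⟨a1, a2, a3⟩ := hpt j (by omega)
          have n1 : x j ≠ 0 := fun h => by rw [h, abs_zero] at a1; linarith
          have n2 : x (-j) ≠ 0 := fun h => by rw [h, abs_zero] at a2; linarith
          have e1 : (x j)⁻¹ + (x (-j))⁻¹ = (x j + x (-j)) / (x j * x (-j)) := by field_simp; ring
          rw [e1, abs_div, abs_mul]
          have hp : 0 ≤ (j : ℝ) ^ (1 - χ) := Real.rpow_nonneg hjp.le _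
          have a4 : |x j + x (-j)| ≤ 2 * (|C₀| * (j : ℝ) ^ (1 - χ)) :=
            a3.trans (by nlinarith [le_abs_self C₀])
          have a5 : (j : ℝ) / (2 * ρ) * ((j : ℝ) / (2 * ρ)) ≤ |x j| * |x (-j)| := mul_le_mul a1 a2 hq.le (abs_nonneg _)
          have e2 : (j : ℝ) ^ (-1 - χ) = (j : ℝ) ^ (1 - χ) / ((j : ℝ) * (j : ℝ)) := by
            rw [show (-1 - χ) = (1 - χ) - 2 by ring, Real.rpow_sub hjp]
            congr 1
            rw [show (2 : ℝ) = ((2 : ℕ) : ℝ) by norm_num, Real.rpow_natCast]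
            ring
          calc |x j + x (-j)| / (|x j| * |x (-j)|) ≤ 2 * (|C₀| * (j : ℝ) ^ (1 - χ)) / ((j : ℝ) / (2 * ρ) * ((j : ℝ) / (2 * ρ))) :=
                div_le_div₀ (by positivity) a4 (by positivity) a5
            _ = _ := by rw [e2]; field_simp; ring
      _ = 8 * ρ ^ 2 * |C₀| * ∑ j ∈ Finset.Icc (K + 1 : ℤ) L, (j : ℝ) ^ (-1 - χ) := by rw [Finset.mul_sum]
      _ ≤ 8 * ρ ^ 2 * |C₀| * ((K : ℝ) ^ (-χ) / χ) := mul_le_mul_of_nonneg_left (s5_tel_pow hχ hχ1 hK1 hKL) (by positivity)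
      _ = 8 * ρ ^ 2 * |C₀| / χ * (K : ℝ) ^ (-χ) := by ring
      _ ≤ _ := mul_le_mul_of_nonneg_right (by nlinarith [sq_nonneg ρ]) hKχ
  · have e := (s5_sum_far hKL (fun j => ((x j)⁻¹) ^ 2)).1
    have e' : ∑ i : Far K L, ((farPos K L x i)⁻¹) ^ 2 = ∑ i : Far K L, (fun j => ((x j)⁻¹) ^ 2) (wIdx i.1) := rfl
    rw [e', e]
    calc ∑ j ∈ Finset.Icc (K + 1 : ℤ) L, (((x j)⁻¹) ^ 2 + ((x (-j))⁻¹) ^ 2)
        ≤ ∑ j ∈ Finset.Icc (K + 1 : ℤ) L, 8 * ρ ^ 2 * (((j : ℝ))⁻¹) ^ 2 := Finset.sum_le_sum fun j hj => by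
          rw [Finset.mem_Icc] at hj
          obtain ⟨a1, a2⟩ := hinv j (by omega)
          have b1 : ((x j)⁻¹) ^ 2 = (|x j|⁻¹) ^ 2 := by rw [← abs_inv, sq_abs]
          have b2 : ((x (-j))⁻¹) ^ 2 = (|x (-j)|⁻¹) ^ 2 := by rw [← abs_inv, sq_abs]
          have c1 := pow_le_pow_left₀ (by positivity) a1 2
          have c2 := pow_le_pow_left₀ (by positivity) a2 2
          rw [b1, b2]
          have e3 : (2 * ρ * ((j : ℝ))⁻¹) ^ 2 = 4 * ρ ^ 2 * (((j : ℝ))⁻¹) ^ 2 := by ring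
          rw [e3] at c1 c2
          linarith
      _ = 8 * ρ ^ 2 * ∑ j ∈ Finset.Icc (K + 1 : ℤ) L, (((j : ℝ))⁻¹) ^ 2 := by rw [Finset.mul_sum]
      _ ≤ 8 * ρ ^ 2 * (1 / K) := mul_le_mul_of_nonneg_left (s5_tel_sq hK1 hKL) (by positivity)
      _ = 8 * ρ ^ 2 / K := by ring
      _ ≤ _ := div_le_div_of_nonneg_right (by nlinarith [sq_nonneg ρ]) hKp.le
  · intro h hh
    have e := (s5_sum_far (le_refl K) (fun j => (|x j| + h)⁻¹)).2
    have e' : ∑ i : Win K, (|cPos K x i| + h)⁻¹ = ∑ i : Win K, (fun j => (|x j| + h)⁻¹) (wIdx i) := rfl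
    rw [e', e]
    have hone : ∀ j : ℤ, (|x j| + h)⁻¹ ≤ 1 := fun j => inv_le_one_of_one_le₀ (by linarith [abs_nonneg (x j)])
    have hsplit : Finset.Icc (1 : ℤ) K = Finset.Icc (1 : ℤ) N ∪ Finset.Icc (N + 1 : ℤ) K := by
      ext j
      simp only [Finset.mem_Icc, Finset.mem_union]
      omega
    have hdisj : Disjoint (Finset.Icc (1 : ℤ) N) (Finset.Icc (N + 1 : ℤ) K) := by
      rw [Finset.disjoint_left]
      intro j h1 h2
      rw [Finset.mem_Icc] at h1 h2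
      omega
    rw [hsplit, Finset.sum_union hdisj]
    have s1 : ∑ j ∈ Finset.Icc (1 : ℤ) N, ((|x j| + h)⁻¹ + (|x (-j)| + h)⁻¹) ≤ 2 * (N : ℝ) := by
      calc _ ≤ ∑ _j ∈ Finset.Icc (1 : ℤ) N, (2 : ℝ) := Finset.sum_le_sum fun j _ => by linarith [hone j, hone (-j)]
        _ = 2 * (N : ℝ) := by
          rw [Finset.sum_const, Int.card_Icc]
          simp
          ring
    have s2 : ∑ j ∈ Finset.Icc (N + 1 : ℤ) K, ((|x j| + h)⁻¹ + (|x (-j)| + h)⁻¹) ≤ 4 * ρ * Real.log K := by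
      calc _ ≤ ∑ j ∈ Finset.Icc (N + 1 : ℤ) K, 4 * ρ * ((j : ℝ))⁻¹ := Finset.sum_le_sum fun j hj => by
            rw [Finset.mem_Icc] at hj
            have hjp : (0 : ℝ) < (j : ℝ) := by exact_mod_cast (by omega : (0 : ℤ) < j)
            have hq : 0 < (j : ℝ) / (2 * ρ) := by positivity
            obtain ⟨a1, a2⟩ := hinv j (by omega)
            obtain ⟨p1, p2, -⟩ := hpt j (by omega)
            have b1 : (|x j| + h)⁻¹ ≤ |x j|⁻¹ := inv_anti₀ (by linarith) (by linarith)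
            have b2 : (|x (-j)| + h)⁻¹ ≤ |x (-j)|⁻¹ := inv_anti₀ (by linarith) (by linarith)
            linarith
        _ = 4 * ρ * ∑ j ∈ Finset.Icc (N + 1 : ℤ) K, ((j : ℝ))⁻¹ := by rw [Finset.mul_sum]
        _ ≤ 4 * ρ * (Real.log K - Real.log N) := mul_le_mul_of_nonneg_left (s5_tel_log (by omega) hNK) (by positivity)
        _ ≤ 4 * ρ * Real.log K := by
            have : 0 ≤ Real.log N := Real.log_nonneg (by exact_mod_cast (by omega : 1 ≤ N))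
            exact mul_le_mul_of_nonneg_left (by linarith) (by positivity)
    have s3 : 1 + 2 * (N : ℝ) ≤ (1 + 2 * (N : ℝ)) / Real.log 2 * Real.log K := by
      rw [div_mul_eq_mul_div, le_div_iff₀ hlog2]
      exact mul_le_mul_of_nonneg_left hlogK (by positivity)
    have hlK : 0 ≤ Real.log K := hlog2.le.trans hlogK
    have s4 : 0 ≤ (8 * ρ ^ 2 * |C₀| / χ + 8 * ρ ^ 2) * Real.log K := by positivity
    have := hone 0
    nlinarith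

/-- W5. `K ≤ s5L χ K` for `χ ≤ 10000`, `K ≥ 1`. -/
theorem s5_le_L {χ : ℝ} (hχ : 0 < χ) (hχ4 : χ < 1 / 4) (K : ℕ) : K ≤ s5L χ K := by
  rcases Nat.eq_zero_or_pos K with rfl | hK
  · exact Nat.zero_le _
  have hK1 : (1 : ℝ) ≤ K := by exact_mod_cast hK
  have he : (1 : ℝ) ≤ 10000 / χ := by
    rw [le_div_iff₀ hχ]
    linarith
  have h1 : (K : ℝ) ≤ (K : ℝ) ^ (10000 / χ) := by
    calc (K : ℝ) = (K : ℝ) ^ (1 : ℝ) := (Real.rpow_one _).symm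
      _ ≤ _ := Real.rpow_le_rpow_of_exponent_le hK1 he
  have h2 : (K : ℝ) ≤ (s5L χ K : ℝ) := h1.trans (Nat.le_ceil _)
  exact_mod_cast h2

/-- `ϱ(z,h) ≤ c_z h` for `h ≥ 1` -/
theorem s5_rho_le {h : ℝ} (hh : 1 ≤ h) {z : ℂ} (hz : 0 < z.im) :
    0 ≤ s5rho h z ∧ s5rho h z ≤ (3 + 9 * (‖z‖ + 1) + 9 * (‖z‖ + 1) ^ 2 / z.im) * h := by
  have hh0 : 0 < h := by linarith
  obtain ⟨r, hr⟩ : ∃ r, r = ‖z - (h : ℂ) * Complex.I‖ := ⟨_, rfl⟩
  have hr0 : 0 ≤ r := by rw [hr]; exact norm_nonneg _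
  have hn0 : 0 ≤ ‖z‖ := norm_nonneg _
  have hr1 : r ≤ (‖z‖ + 1) * h := by
    have h1 : r ≤ ‖z‖ + ‖(h : ℂ) * Complex.I‖ := by rw [hr]; exact norm_sub_le _ _
    have h2 : ‖(h : ℂ) * Complex.I‖ = h := by
      rw [norm_mul, Complex.norm_I, mul_one, Complex.norm_real, Real.norm_eq_abs, abs_of_pos hh0]
    rw [h2] at h1
    nlinarith
  unfold s5rho
  rw [← hr]
  constructor
  · positivity
  · have a1 : 9 * r / h ≤ 9 * (‖z‖ + 1) := by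
      rw [div_le_iff₀ hh0]
      linarith
    have a2 : 9 * r ^ 2 / (h * z.im) ≤ 9 * (‖z‖ + 1) ^ 2 / z.im * h := by
      rw [div_le_iff₀ (by positivity)]
      have e : 9 * (‖z‖ + 1) ^ 2 / z.im * h * (h * z.im) = 9 * ((‖z‖ + 1) * h) ^ 2 := by field_simp
      rw [e]
      have := pow_le_pow_left₀ hr0 hr1 2
      linarith
    have a3 : 3 + 9 * (‖z‖ + 1) ≤ (3 + 9 * (‖z‖ + 1)) * h := le_mul_of_one_le_right (by positivity) hh
    nlinarith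

/-- the deterministic conditions of M3 in terms of one small parameter `y` -/
theorem s5_far_abs_z {A C : ℝ} (hA : 0 < A) (hC : 0 < C) {z : ℂ} (hz : 0 < z.im) {ε : ℝ} (hε : 0 < ε) :
    ∃ η : ℝ, 0 < η ∧ ∀ y ℓ κ τ₁ : ℝ, 0 < y → y ≤ η → y ≤ 1 → 0 < ℓ → ℓ ≤ y⁻¹ → 0 < κ → 1 / κ ≤ A * y ^ 64 → τ₁ ≤ C * y ^ 16 →
      y ^ 15 + ‖z‖ / κ ≤ 1 / 2 ∧
      s5rho ((y ^ 4)⁻¹) z * (y ^ 14 + 2 * (y ^ 15 + ‖z‖ / κ) * ℓ ^ 3) ≤ 1 / 2 ∧
      s5det ((y ^ 4)⁻¹) κ ℓ τ₁ (y ^ 15) (ℓ ^ 3) (y ^ 14) z ≤ ε := by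
  have hn0 : 0 ≤ ‖z‖ := norm_nonneg _
  obtain ⟨cz, hcz⟩ : ∃ cz, cz = 3 + 9 * (‖z‖ + 1) + 9 * (‖z‖ + 1) ^ 2 / z.im := ⟨_, rfl⟩
  have hcz0 : 0 < cz := by rw [hcz]; positivity
  obtain ⟨a₁, ha₁⟩ : ∃ a, a = 1 + ‖z‖ * A := ⟨_, rfl⟩
  have ha₁0 : 0 < a₁ := by rw [ha₁]; positivity
  obtain ⟨a₂, ha₂⟩ : ∃ a, a = 1 + 2 * a₁ := ⟨_, rfl⟩
  have ha₂0 : 0 < a₂ := by rw [ha₂]; positivity
  obtain ⟨M, hM⟩ : ∃ M, M = 2 * cz ^ 2 * a₂ + C + 2 * a₁ + 8 * cz * A := ⟨_, rfl⟩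
  have hM0 : 0 < M := by rw [hM]; positivity
  refine ⟨min (1 / (2 * a₁)) (min (1 / (2 * (cz * a₂))) (ε / M)), by positivity, ?_⟩
  intro y ℓ κ τ₁ hy hyη hy1 hℓ hℓy hκ hκy hτ
  have h1 : y ≤ 1 / (2 * a₁) := hyη.trans (min_le_left _ _)
  have h2 : y ≤ 1 / (2 * (cz * a₂)) := hyη.trans ((min_le_right _ _).trans (min_le_left _ _))
  have h3 : y ≤ ε / M := hyη.trans ((min_le_right _ _).trans (min_le_right _ _))
  rw [le_div_iff₀ (by positivity)] at h1 h2 h3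
  have hpow : ∀ k : ℕ, 1 ≤ k → y ^ k ≤ y := fun k hk => pow_le_of_le_one hy.le hy1 (by omega)
  have hyi : 0 < y⁻¹ := inv_pos.2 hy
  have hh1 : 1 ≤ (y ^ 4)⁻¹ := (one_le_inv₀ (by positivity)).2 (pow_le_one₀ hy.le hy1)
  obtain ⟨hϱ0, hϱ⟩ := s5_rho_le hh1 hz
  rw [← hcz] at hϱ
  obtain ⟨ϱ, hϱd⟩ : ∃ r, r = s5rho ((y ^ 4)⁻¹) z := ⟨_, rfl⟩
  obtain ⟨δ, hδd⟩ : ∃ d, d = y ^ 15 + ‖z‖ / κ := ⟨_, rfl⟩
  have hδ0 : 0 ≤ δ := by rw [hδd]; positivity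
  have hδ : δ ≤ a₁ * y ^ 15 := by
    have e1 : ‖z‖ / κ = ‖z‖ * (1 / κ) := by ring
    have e2 : ‖z‖ * (1 / κ) ≤ ‖z‖ * (A * y ^ 64) := mul_le_mul_of_nonneg_left hκy hn0
    have e3 : y ^ 64 ≤ y ^ 15 := pow_le_pow_of_le_one hy.le hy1 (by norm_num)
    have e4 : ‖z‖ * (A * y ^ 64) ≤ ‖z‖ * A * y ^ 15 := by
      rw [mul_assoc]
      exact mul_le_mul_of_nonneg_left (mul_le_mul_of_nonneg_left e3 hA.le) hn0
    rw [hδd, e1, ha₁]
    linarith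
  have ht0 : ℓ ^ 3 ≤ (y⁻¹) ^ 3 := pow_le_pow_left₀ hℓ.le hℓy 3
  obtain ⟨E, hEd⟩ : ∃ E, E = y ^ 14 + 2 * δ * ℓ ^ 3 := ⟨_, rfl⟩
  have hE0 : 0 ≤ E := by rw [hEd]; positivity
  have hE : E ≤ a₂ * y ^ 12 := by
    have e1 : 2 * δ * ℓ ^ 3 ≤ 2 * (a₁ * y ^ 15) * (y⁻¹) ^ 3 := by gcongr
    have e2 : 2 * (a₁ * y ^ 15) * (y⁻¹) ^ 3 = 2 * a₁ * y ^ 12 := by field_simp
    have e3 : y ^ 14 ≤ y ^ 12 := pow_le_pow_of_le_one hy.le hy1 (by norm_num)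
    rw [hEd, ha₂]
    linarith
  unfold s5det
  rw [← hϱd, ← hδd, ← hEd]
  rw [← hϱd] at hϱ0 hϱ
  refine ⟨?_, ?_, ?_⟩
  · have := hpow 15 (by norm_num)
    nlinarith
  · calc ϱ * E ≤ cz * (y ^ 4)⁻¹ * (a₂ * y ^ 12) := by gcongr
      _ = cz * a₂ * y ^ 8 := by field_simp
      _ ≤ cz * a₂ * y := mul_le_mul_of_nonneg_left (hpow 8 (by norm_num)) (by positivity)
      _ ≤ 1 / 2 := by linarith
  · have t1 : 2 * ϱ ^ 2 * E * ℓ ≤ 2 * cz ^ 2 * a₂ * y := by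
      calc 2 * ϱ ^ 2 * E * ℓ ≤ 2 * (cz * (y ^ 4)⁻¹) ^ 2 * (a₂ * y ^ 12) * y⁻¹ := by gcongr
        _ = 2 * cz ^ 2 * a₂ * y ^ 3 := by field_simp
        _ ≤ _ := mul_le_mul_of_nonneg_left (hpow 3 (by norm_num)) (by positivity)
    have t2 : τ₁ ≤ C * y := hτ.trans (mul_le_mul_of_nonneg_left (hpow 16 (by norm_num)) hC.le)
    have t3 : 2 * δ * ℓ ≤ 2 * a₁ * y := by
      calc 2 * δ * ℓ ≤ 2 * (a₁ * y ^ 15) * y⁻¹ := by gcongr
        _ = 2 * a₁ * y ^ 14 := by field_simp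
        _ ≤ _ := mul_le_mul_of_nonneg_left (hpow 14 (by norm_num)) (by positivity)
    have t4 : 8 * ϱ * ℓ ^ 3 / κ ≤ 8 * cz * A * y := by
      calc 8 * ϱ * ℓ ^ 3 / κ = 8 * ϱ * ℓ ^ 3 * (1 / κ) := by ring
        _ ≤ 8 * (cz * (y ^ 4)⁻¹) * (y⁻¹) ^ 3 * (A * y ^ 64) := by gcongr
        _ = 8 * cz * A * y ^ 57 := by field_simp
        _ ≤ _ := mul_le_mul_of_nonneg_left (hpow 57 (by norm_num)) (by positivity)
    calc 2 * ϱ ^ 2 * E * ℓ + τ₁ + 2 * δ * ℓ + 8 * ϱ * ℓ ^ 3 / κ ≤ M * y := by rw [hM]; linarith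
      _ ≤ ε := by linarith

/-- the probability of the bad event in terms of one small parameter `y` -/
theorem s5_far_abs_bad {A C Δ : ℝ} (hA : 0 < A) (hC : 0 < C) (hΔ : 0 < Δ) {ε : ℝ} (hε : 0 < ε) :
    ∃ η : ℝ, 0 < η ∧ ∀ (y ℓ κ τ₁ τ₂ : ℝ) (m : ℕ), 0 < y → y ≤ η → y ≤ 1 → 0 < ℓ → ℓ ≤ y⁻¹ → Δ / ℓ ≤ ε / 2 → 0 < κ →
      1 / κ ≤ A * y ^ 64 → 0 ≤ τ₁ → τ₁ ≤ C * y ^ 16 → τ₂ ≤ C * y ^ 64 → 1 / (m : ℝ) ≤ y ^ 128 →
      s5bad Δ m ((y ^ 4)⁻¹) κ ℓ τ₁ τ₂ (y ^ 15) (ℓ ^ 3) (y ^ 14) ≤ ε := by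
  obtain ⟨M, hM⟩ : ∃ M, M = Δ ^ 2 * (12 + 48 * A) + Δ ^ 2 * 60 * 4 ^ 4 + 3 * Δ ^ 2 * (C ^ 2 + 2 * C) := ⟨_, rfl⟩
  have hM0 : 0 < M := by rw [hM]; positivity
  refine ⟨ε / (2 * M), by positivity, ?_⟩
  intro y ℓ κ τ₁ τ₂ m hy hyη hy1 hℓ hℓy hΔℓ hκ hκy hτ0 hτ₁ hτ₂ hm
  rw [le_div_iff₀ (by positivity)] at hyη
  have hpow : ∀ k : ℕ, 1 ≤ k → y ^ k ≤ y := fun k hk => pow_le_of_le_one hy.le hy1 (by omega)
  have hyi : 0 < y⁻¹ := inv_pos.2 hy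
  have hm0 : 0 ≤ 1 / (m : ℝ) := by positivity
  have q1 : ℓ ^ 4 / m ≤ y ^ 124 := by
    calc ℓ ^ 4 / m = ℓ ^ 4 * (1 / (m : ℝ)) := by ring
      _ ≤ (y⁻¹) ^ 4 * y ^ 128 := by gcongr
      _ = y ^ 124 := by field_simp
  have q2 : ℓ ^ 3 / κ ≤ A * y ^ 61 := by
    calc ℓ ^ 3 / κ = ℓ ^ 3 * (1 / κ) := by ring
      _ ≤ (y⁻¹) ^ 3 * (A * y ^ 64) := by gcongr
      _ = A * y ^ 61 := by field_simp
  have q3 : ℓ ^ 3 / (y ^ 4)⁻¹ ≤ y := by
    calc ℓ ^ 3 / (y ^ 4)⁻¹ = ℓ ^ 3 * y ^ 4 := by rw [div_inv_eq_mul]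
      _ ≤ (y⁻¹) ^ 3 * y ^ 4 := by gcongr
      _ = y := by field_simp
  unfold s5bad
  have t1 : Δ ^ 2 * (12 * ℓ ^ 4 / m + 48 * ℓ ^ 3 / κ) / (y ^ 15) ^ 4 ≤ Δ ^ 2 * (12 + 48 * A) * y := by
    rw [div_le_iff₀ (by positivity)]
    have e1 : 12 * ℓ ^ 4 / m + 48 * ℓ ^ 3 / κ = 12 * (ℓ ^ 4 / m) + 48 * (ℓ ^ 3 / κ) := by ring
    have e2 : y ^ 124 ≤ y ^ 61 := pow_le_pow_of_le_one hy.le hy1 (by norm_num)
    have e3 : Δ ^ 2 * (12 + 48 * A) * y * (y ^ 15) ^ 4 = Δ ^ 2 * ((12 + 48 * A) * y ^ 61) := by ring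
    rw [e1, e3]
    refine mul_le_mul_of_nonneg_left ?_ (by positivity)
    nlinarith
  have t2 : Δ ^ 2 * (12 * ℓ ^ 4 / m + 48 * ℓ ^ 3 / (y ^ 4)⁻¹) * 4 ^ 4 ≤ Δ ^ 2 * 60 * 4 ^ 4 * y := by
    have e1 : 12 * ℓ ^ 4 / m + 48 * ℓ ^ 3 / (y ^ 4)⁻¹ = 12 * (ℓ ^ 4 / m) + 48 * (ℓ ^ 3 / (y ^ 4)⁻¹) := by ring
    have e2 := hpow 124 (by norm_num)
    have e3 : Δ ^ 2 * 60 * 4 ^ 4 * y = Δ ^ 2 * (60 * y) * 4 ^ 4 := by ring
    rw [e1, e3]
    refine mul_le_mul_of_nonneg_right (mul_le_mul_of_nonneg_left ?_ (by positivity)) (by positivity)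
    linarith
  have t3 : Δ * ℓ ^ 2 / ℓ ^ 3 ≤ ε / 2 := by
    have e : Δ * ℓ ^ 2 / ℓ ^ 3 = Δ / ℓ := by field_simp
    rw [e]
    exact hΔℓ
  have t4 : 3 * Δ ^ 2 * ℓ ^ 2 * (τ₁ ^ 2 + 2 * τ₂) / (y ^ 14) ^ 2 ≤ 3 * Δ ^ 2 * (C ^ 2 + 2 * C) * y := by
    rw [div_le_iff₀ (by positivity)]
    have e1 : τ₁ ^ 2 ≤ (C * y ^ 16) ^ 2 := pow_le_pow_left₀ hτ0 hτ₁ 2
    have e2 : y ^ 64 ≤ y ^ 32 := pow_le_pow_of_le_one hy.le hy1 (by norm_num)
    have e3 : τ₁ ^ 2 + 2 * τ₂ ≤ (C ^ 2 + 2 * C) * y ^ 32 := by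
      have : (C * y ^ 16) ^ 2 = C ^ 2 * y ^ 32 := by ring
      nlinarith
    have e4 : 0 ≤ (C ^ 2 + 2 * C) * y ^ 32 := by positivity
    have e5 : ℓ ^ 2 ≤ (y⁻¹) ^ 2 := pow_le_pow_left₀ hℓ.le hℓy 2
    calc 3 * Δ ^ 2 * ℓ ^ 2 * (τ₁ ^ 2 + 2 * τ₂) ≤ 3 * Δ ^ 2 * ℓ ^ 2 * ((C ^ 2 + 2 * C) * y ^ 32) :=
          mul_le_mul_of_nonneg_left e3 (by positivity)
      _ ≤ 3 * Δ ^ 2 * (y⁻¹) ^ 2 * ((C ^ 2 + 2 * C) * y ^ 32) := by gcongr
      _ = 3 * Δ ^ 2 * (C ^ 2 + 2 * C) * y ^ 30 := by field_simp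
      _ ≤ 3 * Δ ^ 2 * (C ^ 2 + 2 * C) * y ^ 29 :=
          mul_le_mul_of_nonneg_left (pow_le_pow_of_le_one hy.le hy1 (by norm_num)) (by positivity)
      _ = _ := by ring
  have : M * y ≤ ε / 2 := by linarith
  rw [hM] at this
  linarith

/-- M6p (parameters). With `ℓ = C log L`, `L = s5L χ K`, `κ = K/(2ρ)`, `τ₁ = C K^{-χ}`, `τ₂ = C/K`, `m = 2K^100`,
`h = K^{χ/8}`, `tF = K^{-1/8}`, `t0 = (log K)³ · …`, `tS = K^{-3χ/4}` all conditions of M3 hold and both errors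
are `≤ ε` for `K ≥ K₀`. (`log L ≤ (10000/χ) log K + 1`; `ϱ ≤ C_z K^{χ/8}`; every term is a negative power of `K`
times a power of `log K`, except `Δ ℓ²/t0`, which is `≤ C/log K`.) -/
theorem s5_far_params {ρ χ Δ C : ℝ} (hρ : 0 < ρ) (hχ : 0 < χ) (hχ4 : χ < 1 / 4) (hΔ : 0 < Δ)
    (hC : 0 < C) {b : ℕ} (z : Fin b → ℂ) (hz : ∀ i, 0 < (z i).im) {ε : ℝ} (hε : 0 < ε) :
    ∃ K₀ : ℕ, ∀ K : ℕ, K₀ ≤ K → ∃ h tF t0 tS : ℝ, 1 ≤ h ∧ 0 < tF ∧ 0 < t0 ∧ 0 < tS ∧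
      (∀ i, tF + ‖z i‖ / ((K : ℝ) / (2 * ρ)) ≤ 1 / 2) ∧
      (∀ i, s5rho h (z i) * (tS + 2 * (tF + ‖z i‖ / ((K : ℝ) / (2 * ρ))) * t0) ≤ 1 / 2) ∧
      (∀ i, s5det h ((K : ℝ) / (2 * ρ)) (C * Real.log (s5L χ K)) (C * (K : ℝ) ^ (-χ)) tF t0 tS (z i)
        ≤ ε) ∧
      s5bad Δ (2 * K ^ 100) h ((K : ℝ) / (2 * ρ)) (C * Real.log (s5L χ K)) (C * (K : ℝ) ^ (-χ))
        (C / K) tF t0 tS ≤ ε := by
  have hA : 0 < 2 * ρ := by positivity
  choose ηz hηz0 hηz using fun i => s5_far_abs_z hA hC (hz i) hε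
  obtain ⟨ηb, hηb0, hηb⟩ := s5_far_abs_bad hA hC hΔ hε
  have hr : 0 < χ / 16 := by positivity
  obtain ⟨a, ha⟩ : ∃ a, a = 10000 / χ := ⟨_, rfl⟩
  have ha0 : 0 < a := by rw [ha]; positivity
  -- the real variable
  have hcast : Tendsto (fun K : ℕ => (K : ℝ)) atTop atTop := tendsto_natCast_atTop_atTop
  have hy0 : Tendsto (fun t : ℝ => t ^ (-(χ / 16))) atTop (𝓝 0) := tendsto_rpow_neg_atTop hr
  have E1 : ∀ᶠ t : ℝ in atTop, ∀ i, t ^ (-(χ / 16)) ≤ ηz i :=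
    Filter.eventually_all.2 fun i => hy0.eventually_le_const (hηz0 i)
  have E2 : ∀ᶠ t : ℝ in atTop, t ^ (-(χ / 16)) ≤ ηb := hy0.eventually_le_const hηb0
  have E3 : ∀ᶠ t : ℝ in atTop, 2 * Δ / ε / C ≤ Real.log t := Real.tendsto_log_atTop.eventually_ge_atTop _
  have E4 : ∀ᶠ t : ℝ in atTop, ‖Real.log t‖ ≤ 1 / (2 * C * a) * ‖t ^ (χ / 16)‖ :=
    (isLittleO_log_rpow_atTop hr).bound (by positivity)
  have E5 : ∀ᶠ t : ℝ in atTop, 2 * (C * Real.log 2) ≤ t ^ (χ / 16) := (tendsto_rpow_atTop hr).eventually_ge_atTop _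
  have E6 : ∀ᶠ t : ℝ in atTop, (2 : ℝ) ≤ t := eventually_ge_atTop 2
  obtain ⟨K₀, hK₀⟩ := eventually_atTop.1 (hcast.eventually (E1.and (E2.and (E3.and (E4.and (E5.and E6))))))
  refine ⟨K₀, fun K hK => ?_⟩
  obtain ⟨e1, e2, e3, e4, e5, e6⟩ := hK₀ K hK
  obtain ⟨t, ht⟩ : ∃ t : ℝ, t = (K : ℝ) := ⟨_, rfl⟩
  rw [← ht] at e1 e2 e3 e4 e5 e6 ⊢
  have ht0 : 0 < t := by linarith
  have ht1 : 1 ≤ t := by linarith
  obtain ⟨y, hy⟩ : ∃ y, y = t ^ (-(χ / 16)) := ⟨_, rfl⟩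
  rw [← hy] at e1 e2
  have hy0' : 0 < y := by rw [hy]; exact Real.rpow_pos_of_pos ht0 _
  have hy1 : y ≤ 1 := by rw [hy]; exact Real.rpow_le_one_of_one_le_of_nonpos ht1 (by linarith)
  have hyinv : y⁻¹ = t ^ (χ / 16) := by rw [hy, Real.rpow_neg ht0.le, inv_inv]
  have hypow : ∀ n : ℕ, y ^ n = t ^ (-(χ / 16) * n) := fun n => by
    rw [hy, ← Real.rpow_natCast, ← Real.rpow_mul ht0.le]
  have hy16 : y ^ 16 = t ^ (-χ) := by rw [hypow]; congr 1; push_cast; ring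
  have hy64 : 1 / t ≤ y ^ 64 := by
    rw [hypow, one_div, ← Real.rpow_neg_one]
    refine Real.rpow_le_rpow_of_exponent_le ht1 ?_
    push_cast
    linarith
  -- the logarithm of the first cut
  have hL1 : t ≤ (s5L χ K : ℝ) := by rw [ht]; exact_mod_cast s5_le_L hχ hχ4 K
  have hta : 1 ≤ t ^ a := Real.one_le_rpow ht1 ha0.le
  have hL2 : (s5L χ K : ℝ) ≤ 2 * t ^ a := by
    have : (s5L χ K : ℝ) < t ^ a + 1 := by
      unfold s5L
      rw [← ha, ← ht]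
      exact Nat.ceil_lt_add_one (by positivity)
    linarith
  have hlogt : 0 < Real.log t := Real.log_pos (by linarith)
  have hlog1 : Real.log t ≤ Real.log (s5L χ K) := Real.log_le_log ht0 hL1
  have hlog2 : Real.log (s5L χ K) ≤ Real.log 2 + a * Real.log t := by
    calc Real.log (s5L χ K) ≤ Real.log (2 * t ^ a) := Real.log_le_log (by linarith) hL2
      _ = _ := by rw [Real.log_mul (by norm_num) (by positivity), Real.log_rpow ht0]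
  obtain ⟨ℓ, hℓ⟩ : ∃ l, l = C * Real.log (s5L χ K) := ⟨_, rfl⟩
  rw [← hℓ]
  have hℓ0 : 0 < ℓ := by rw [hℓ]; exact mul_pos hC (by linarith)
  have hℓy : ℓ ≤ y⁻¹ := by
    rw [hyinv, hℓ]
    have hp : 0 < t ^ (χ / 16) := Real.rpow_pos_of_pos ht0 _
    rw [Real.norm_eq_abs, Real.norm_eq_abs, abs_of_pos hlogt, abs_of_pos hp] at e4
    have h1 : C * (a * Real.log t) ≤ t ^ (χ / 16) / 2 := by
      have := mul_le_mul_of_nonneg_left e4 (by positivity : 0 ≤ C * a)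
      calc C * (a * Real.log t) = C * a * Real.log t := by ring
        _ ≤ C * a * (1 / (2 * C * a) * t ^ (χ / 16)) := this
        _ = _ := by field_simp
    have h2 := mul_le_mul_of_nonneg_left hlog2 hC.le
    linarith
  have hΔℓ : Δ / ℓ ≤ ε / 2 := by
    rw [div_le_iff₀ hℓ0]
    have h1 : 2 * Δ / ε ≤ ℓ := by
      rw [div_le_iff₀ hC] at e3
      rw [hℓ]
      nlinarith
    rw [div_le_iff₀ hε] at h1
    linarith
  have hκ : 0 < t / (2 * ρ) := by positivity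
  have hκy : 1 / (t / (2 * ρ)) ≤ 2 * ρ * y ^ 64 := by
    have e : 1 / (t / (2 * ρ)) = 2 * ρ * (1 / t) := by field_simp
    rw [e]
    exact mul_le_mul_of_nonneg_left hy64 hA.le
  have hτ₁ : C * t ^ (-χ) ≤ C * y ^ 16 := by rw [hy16]
  have hτ0 : 0 ≤ C * t ^ (-χ) := by positivity
  have hτ₂ : C / t ≤ C * y ^ 64 := by
    have e : C / t = C * (1 / t) := by ring
    rw [e]
    exact mul_le_mul_of_nonneg_left hy64 hC.le
  have hm : 1 / ((2 * K ^ 100 : ℕ) : ℝ) ≤ y ^ 128 := by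
    push_cast
    rw [← ht]
    have h1 : (1 / t) ^ 2 ≤ (y ^ 64) ^ 2 := pow_le_pow_left₀ (by positivity) hy64 2
    have h2 : (y ^ 64) ^ 2 = y ^ 128 := by ring
    have h3 : 1 / (2 * t ^ 100) ≤ (1 / t) ^ 2 := by
      rw [_root_.one_div_pow]
      refine one_div_le_one_div_of_le (by positivity) ?_
      have : t ^ 2 ≤ t ^ 100 := pow_le_pow_right₀ ht1 (by norm_num)
      have : 0 < t ^ 100 := by positivity
      linarith
    linarith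
  refine ⟨(y ^ 4)⁻¹, y ^ 15, ℓ ^ 3, y ^ 14, (one_le_inv₀ (by positivity)).2 (pow_le_one₀ hy0'.le hy1), by positivity,
    by positivity, by positivity, fun i => ?_, fun i => ?_, fun i => ?_, ?_⟩
  · exact (hηz i y ℓ _ _ hy0' (e1 i) hy1 hℓ0 hℓy hκ hκy hτ₁).1
  · exact (hηz i y ℓ _ _ hy0' (e1 i) hy1 hℓ0 hℓy hκ hκy hτ₁).2.1
  · exact (hηz i y ℓ _ _ hy0' (e1 i) hy1 hℓ0 hℓy hκ hκy hτ₁).2.2
  · exact hηb y ℓ _ _ _ _ hy0' e2 hy1 hℓ0 hℓy hΔℓ hκ hκy hτ0 hτ₁ hτ₂ hm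

/-- **T2b for fixed regular positions** (far block `L(K) → K`). Glue of W1, W2, W4, M6p, M3. -/
theorem s5_far {ρ χ C₀ : ℝ} (hρ : 0 < ρ) (hχ : 0 < χ) (hχ4 : χ < 1 / 4) (J₀ : ℕ) {mr Δ : ℝ}
    (hΔ : 0 < Δ) {b : ℕ} {z : Fin b → ℂ} (hz : ∀ i, 0 < (z i).im) {Φ : (Fin b → ℂ) → ℝ}
    (hΦ : BLip Φ) {ε : ℝ} (hε : 0 < ε) :
    ∃ K₀ : ℕ, ∀ K : ℕ, K₀ ≤ K → ∀ x : Conf, CReg ρ χ C₀ J₀ x →
      |s5cx mr z Φ (Real.sqrt (Δ / (4 * (K ^ 100 : ℕ)))) (2 * K ^ 100) (cPos (s5L χ K) x)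
        - s5cx mr z Φ (Real.sqrt (Δ / (4 * (K ^ 100 : ℕ)))) (2 * K ^ 100) (cPos K x)| ≤ ε := by
  obtain ⟨C, K₁, hC, hK₁, hreg⟩ := s5_reg_sums (C₀ := C₀) hρ hχ (by linarith) J₀
  have hε3 : 0 < ε / 3 := by positivity
  obtain ⟨K₂, hpar⟩ := s5_far_params hρ hχ hχ4 hΔ hC z hz hε3
  refine ⟨max K₁ K₂, fun K hK x hx => ?_⟩
  have hK1 : K₁ ≤ K := le_trans (le_max_left _ _) hK
  have hK2 : K₂ ≤ K := le_trans (le_max_right _ _) hK
  have hKL : K ≤ s5L χ K := s5_le_L hχ hχ4 K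
  obtain ⟨h, tF, t0, tS, hh1, htF, ht0, htS, hδ, hsm, hdet, hbad⟩ := hpar K hK2
  obtain ⟨r1, r2, r3, r4, r5⟩ := hreg x hx K (s5L χ K) hK1 hKL
  obtain ⟨e, he⟩ := s5_win_split hKL
  have hKpos : (0 : ℝ) < K := by
    have : 2 ≤ K := le_trans hK₁ hK1
    exact_mod_cast (by omega : 0 < K)
  have hm : 1 ≤ 2 * K ^ 100 := by
    have : 1 ≤ K ^ 100 := Nat.one_le_pow _ _ (by exact_mod_cast hKpos)
    omega
  have hβ : Real.sqrt (Δ / (4 * ((K ^ 100 : ℕ) : ℝ)))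
      = Real.sqrt (Δ / (2 * ((2 * K ^ 100 : ℕ) : ℝ))) := by
    congr 2
    push_cast
    ring
  have hlog : Real.log K ≤ Real.log (s5L χ K) :=
    Real.log_le_log hKpos (by exact_mod_cast hKL)
  have key := s5_block (mr := mr) hz hΦ hΔ hm (dI := cPos K x) (dF := farPos K (s5L χ K) x)
    (h := h) (κ := (K : ℝ) / (2 * ρ)) (ℓ := C * Real.log (s5L χ K)) (τ₁ := C * (K : ℝ) ^ (-χ))
    (τ₂ := C / K) (tF := tF) (t0 := t0) (tS := tS) (ε := ε / 3)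
    (by linarith) (by positivity) r1 htF ht0 htS hε3.le
    ((r5 h hh1).trans (mul_le_mul_of_nonneg_left hlog hC.le)) r2 r3 r4 hδ hsm hdet
  rw [← he x, s5_cx_reindex e, ← hβ] at key
  refine key.trans ?_
  linarith

/-! ## 5. First cut, in channel space (P1 (5.11)-(5.14)), uniform in the outer cut -/

section chan
variable {ι₁ ι₂ : Type} [Fintype ι₁] [DecidableEq ι₁] [Fintype ι₂] [DecidableEq ι₂]

/-- operator norm from a bound on `rsvSq` -/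
theorem s5_p8_norm_le_of_sq {ι κ : Type} [Fintype ι] [DecidableEq ι] [Fintype κ] [DecidableEq κ]
    {A : Matrix ι κ ℂ} {K : ℝ} (hK : 0 ≤ K)
    (h : ∀ w : κ → ℂ, rsvSq (A *ᵥ w) ≤ K ^ 2 * rsvSq w) : ‖A‖ ≤ K := by
  rw [Matrix.l2_opNorm_def]
  refine ContinuousLinearMap.opNorm_le_bound _ hK fun x => ?_
  have h1 := h x.ofLp
  have e1 : ∀ {α : Type} [Fintype α] (y : EuclideanSpace ℂ α), ‖y‖ ^ 2 = rsvSq y.ofLp := by
    intro α _ y
    rw [EuclideanSpace.norm_sq_eq]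
    rfl
  have e2 : ‖((Matrix.toEuclideanLin (𝕜 := ℂ) (m := ι) (n := κ)).trans
      LinearMap.toContinuousLinearMap A) x‖ ^ 2 = rsvSq (A *ᵥ x.ofLp) := by
    rw [e1]
    rfl
  have h3 : ‖((Matrix.toEuclideanLin (𝕜 := ℂ) (m := ι) (n := κ)).trans
      LinearMap.toContinuousLinearMap A) x‖ ^ 2 ≤ (K * ‖x‖) ^ 2 := by
    rw [e2, mul_pow, e1]
    exact h1
  exact abs_le_of_sq_le_sq' h3 (by positivity) |>.2

/-- H1 (RES kit part 2). `imH X ≥ c > 0` ⟹ `X` invertible and `‖X⁻¹‖ ≤ 1/c`. -/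
theorem s5_inv_le_of_im {ι : Type} [Fintype ι] [DecidableEq ι] {X : Matrix ι ι ℂ} {c : ℝ} (hc : 0 < c)
    (hX : (imH X - (c : ℂ) • (1 : Matrix ι ι ℂ)).PosSemidef) : IsUnit X.det ∧ ‖X⁻¹‖ ≤ 1 / c := by
  have hd := (s5_psd_iff_dis X c).1 hX
  refine ⟨(rs_dis_det_ne hc hd).isUnit, s5_p8_norm_le_of_sq (by positivity) fun w => ?_⟩
  refine (rs_dis_inv_le hc hd w).trans (le_of_eq ?_)
  field_simp

theorem s5_p8_toC_H {a b : Type} (A : Matrix a b ℝ) : (toC A)ᴴ = (toC A)ᵀ := by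
  ext i j
  simp [toC, Matrix.conjTranspose_apply]

theorem s5_p8_toC_T {a b : Type} (A : Matrix a b ℝ) : toC Aᵀ = (toC A)ᵀ := rfl

theorem s5_p8_toC_herm {a : Type} {A : Matrix a a ℝ} (hA : Aᵀ = A) : (toC A).IsHermitian := by
  unfold Matrix.IsHermitian
  rw [s5_p8_toC_H, ← s5_p8_toC_T, hA]

theorem s5_p8_toC_det {a : Type} [Fintype a] [DecidableEq a] (A : Matrix a a ℝ) :
    (toC A).det = ((A.det : ℝ) : ℂ) := by
  unfold toC
  exact (RingHom.map_det Complex.ofRealHom A).symm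

theorem s5_p8_tr_le {ι : Type} [Fintype ι] [DecidableEq ι] (X : Matrix ι ι ℂ) :
    ‖Matrix.trace X‖ ≤ Fintype.card ι * ‖X‖ := by
  have h := s5_tr_weight (fun _ : ι => (1 : ℝ)) X
  have e : toC (Matrix.diagonal fun _ : ι => (1 : ℝ)) = 1 := by
    ext i j
    simp [toC, Matrix.diagonal_apply, Matrix.one_apply]
    split_ifs <;> simp
  rw [e, one_mul, mul_one] at h
  simpa [mul_comm] using h

theorem s5_p8_chB_symm {k : ℕ} (O : Matrix (Fin k) (Fin k) ℝ) : (chB O)ᵀ = chB O := by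
  unfold chB
  rw [Matrix.fromBlocks_transpose]
  simp

/-- the Moebius form `(1 + B M)⁻¹ B = (M + B⁻¹)⁻¹` -/
theorem s5_p8_mob {n : Type} [Fintype n] [DecidableEq n] {B : Matrix n n ℂ} (hB : IsUnit B.det)
    (M : Matrix n n ℂ) : (1 + B * M)⁻¹ * B = (M + B⁻¹)⁻¹ := by
  have e : M + B⁻¹ = B⁻¹ * (1 + B * M) := by
    rw [Matrix.mul_add, mul_one, ← Matrix.mul_assoc, Matrix.nonsing_inv_mul _ hB, one_mul, add_comm]
  rw [e, Matrix.mul_inv_rev, Matrix.nonsing_inv_nonsing_inv _ hB]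

theorem s5_p8_inv_sub {n : Type} [Fintype n] [DecidableEq n] {X Y : Matrix n n ℂ}
    (hX : IsUnit X.det) (hY : IsUnit Y.det) : X⁻¹ - Y⁻¹ = X⁻¹ * (Y - X) * Y⁻¹ := by
  rw [Matrix.mul_sub, Matrix.sub_mul, Matrix.mul_assoc, Matrix.mul_nonsing_inv _ hY, mul_one,
    Matrix.nonsing_inv_mul _ hX, one_mul]

/-- H2 (deterministic comparison of two states). `B` real symmetric INVERTIBLE, `Y_i = (1+BM_i)⁻¹B = (B⁻¹+M_i)⁻¹`,
`‖Y_i‖ ≤ 1/c` (H1; `imH (B⁻¹ + M) = imH M`), `Y₁ - Y₂ = Y₁ (M₂ - M₁) Y₂`, `|Tr X| ≤ 2k ‖X‖`: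
`|Tr(Y₁M₁') - Tr(Y₂M₂')| ≤ 2k (‖M₁'-M₂'‖/c + ‖M₁-M₂‖ ‖M₂'‖/c²)`. -/
theorem s5_chan_det {k : ℕ} {O : Matrix (Fin k) (Fin k) ℝ} (hB : IsUnit (chB O).det) {s₁ s₂ : SwSt k}
    {c : ℝ} (hc : 0 < c)
    (h1 : (imH s₁.2.1 - (c : ℂ) • (1 : Matrix (Ch k) (Ch k) ℂ)).PosSemidef)
    (h2 : (imH s₂.2.1 - (c : ℂ) • (1 : Matrix (Ch k) (Ch k) ℂ)).PosSemidef) :
    ‖(swT O s₁).1 - (swT O s₂).1‖ ≤ ‖s₁.1 - s₂.1‖
      + 2 * k * (‖s₁.2.2 - s₂.2.2‖ / c + ‖s₁.2.1 - s₂.2.1‖ * ‖s₂.2.2‖ / c ^ 2) := by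
  obtain ⟨m₁, M₁, N₁⟩ := s₁
  obtain ⟨m₂, M₂, N₂⟩ := s₂
  simp only at h1 h2
  have hBC : IsUnit (toC (chB O)).det := by
    rw [s5_p8_toC_det]
    exact hB.map Complex.ofRealHom
  have hBh : ((toC (chB O))⁻¹).IsHermitian := (s5_p8_toC_herm (s5_p8_chB_symm O)).inv
  have d1 := rs_dis_add_herm ((s5_psd_iff_dis _ _).1 h1) hBh
  have d2 := rs_dis_add_herm ((s5_psd_iff_dis _ _).1 h2) hBh
  obtain ⟨u1, n1⟩ := s5_inv_le_of_im hc ((s5_psd_iff_dis _ _).2 d1)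
  obtain ⟨u2, n2⟩ := s5_inv_le_of_im hc ((s5_psd_iff_dis _ _).2 d2)
  set Y₁ := (M₁ + (toC (chB O))⁻¹)⁻¹ with hY₁
  set Y₂ := (M₂ + (toC (chB O))⁻¹)⁻¹ with hY₂
  have e1 : (swT O (m₁, M₁, N₁)).1 = m₁ - Matrix.trace (Y₁ * N₁) := by
    show m₁ - Matrix.trace ((1 + toC (chB O) * M₁)⁻¹ * toC (chB O) * N₁) = _
    rw [s5_p8_mob hBC]
  have e2 : (swT O (m₂, M₂, N₂)).1 = m₂ - Matrix.trace (Y₂ * N₂) := by
    show m₂ - Matrix.trace ((1 + toC (chB O) * M₂)⁻¹ * toC (chB O) * N₂) = _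
    rw [s5_p8_mob hBC]
  have e3 : Y₁ - Y₂ = Y₁ * (M₂ - M₁) * Y₂ := by
    rw [hY₁, hY₂, s5_p8_inv_sub u1 u2]
    congr 2
    abel
  have e4 : Matrix.trace (Y₁ * N₁) - Matrix.trace (Y₂ * N₂)
      = Matrix.trace (Y₁ * (N₁ - N₂)) + Matrix.trace (Y₁ * (M₂ - M₁) * Y₂ * N₂) := by
    rw [← e3, ← Matrix.trace_sub, ← Matrix.trace_add]
    congr 1
    noncomm_ring
  have hcard : (Fintype.card (Ch k) : ℝ) = 2 * k := by
    simp [Fintype.card_sum]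
    ring
  have b1 : ‖Matrix.trace (Y₁ * (N₁ - N₂))‖ ≤ 2 * k * (‖N₁ - N₂‖ / c) := by
    refine (s5_p8_tr_le _).trans ?_
    rw [hcard]
    refine mul_le_mul_of_nonneg_left ?_ (by positivity)
    calc ‖Y₁ * (N₁ - N₂)‖ ≤ ‖Y₁‖ * ‖N₁ - N₂‖ := norm_mul_le _ _
      _ ≤ 1 / c * ‖N₁ - N₂‖ := mul_le_mul_of_nonneg_right n1 (norm_nonneg _)
      _ = ‖N₁ - N₂‖ / c := by ring
  have b2 : ‖Matrix.trace (Y₁ * (M₂ - M₁) * Y₂ * N₂)‖ ≤ 2 * k * (‖M₁ - M₂‖ * ‖N₂‖ / c ^ 2) := by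
    refine (s5_p8_tr_le _).trans ?_
    rw [hcard]
    refine mul_le_mul_of_nonneg_left ?_ (by positivity)
    calc ‖Y₁ * (M₂ - M₁) * Y₂ * N₂‖ ≤ ‖Y₁ * (M₂ - M₁) * Y₂‖ * ‖N₂‖ := norm_mul_le _ _
      _ ≤ (‖Y₁ * (M₂ - M₁)‖ * ‖Y₂‖) * ‖N₂‖ :=
          mul_le_mul_of_nonneg_right (norm_mul_le _ _) (norm_nonneg _)
      _ ≤ ((‖Y₁‖ * ‖M₂ - M₁‖) * ‖Y₂‖) * ‖N₂‖ := by
          gcongr
          exact norm_mul_le _ _
      _ ≤ ((1 / c * ‖M₂ - M₁‖) * (1 / c)) * ‖N₂‖ := by gcongr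
      _ = ‖M₁ - M₂‖ * ‖N₂‖ / c ^ 2 := by
          rw [norm_sub_rev]
          field_simp
  rw [e1, e2]
  have e5 : m₁ - Matrix.trace (Y₁ * N₁) - (m₂ - Matrix.trace (Y₂ * N₂))
      = (m₁ - m₂) - (Matrix.trace (Y₁ * (N₁ - N₂)) + Matrix.trace (Y₁ * (M₂ - M₁) * Y₂ * N₂)) := by
    rw [← e4]; ring
  rw [e5]
  calc ‖(m₁ - m₂) - (Matrix.trace (Y₁ * (N₁ - N₂)) + Matrix.trace (Y₁ * (M₂ - M₁) * Y₂ * N₂))‖
      ≤ ‖m₁ - m₂‖ + ‖Matrix.trace (Y₁ * (N₁ - N₂)) + Matrix.trace (Y₁ * (M₂ - M₁) * Y₂ * N₂)‖ :=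
        norm_sub_le _ _
    _ ≤ ‖m₁ - m₂‖ + (‖Matrix.trace (Y₁ * (N₁ - N₂))‖ + ‖Matrix.trace (Y₁ * (M₂ - M₁) * Y₂ * N₂)‖) := by
        gcongr
        exact norm_add_le _ _
    _ ≤ _ := by
        simp only
        linarith

/-- H3 (second moments of the marked sums). For complex weights `w_j` and iid rows `g_j ∈ ℝ^{2k}`:
`E ‖∑ w_j g_j g_jᵀ‖²_HS = 2k |∑ w_j|² + (4k² + 2k) ∑ |w_j|²`. -/
theorem s5_chan_mom {ι : Type} [Fintype ι] [DecidableEq ι] (k : ℕ) (w : ι → ℂ) :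
    Integrable (fun g => hsqC ((toC g)ᵀ * Matrix.diagonal w * toC g)) (gArr ι (Ch k)) ∧
    ∫ g, hsqC ((toC g)ᵀ * Matrix.diagonal w * toC g) ∂(gArr ι (Ch k))
      = 2 * k * ‖∑ j, w j‖ ^ 2 + (4 * (k : ℝ) ^ 2 + 2 * k) * ∑ j, ‖w j‖ ^ 2 := by
  have h := s5m_chan (κ := Ch k) w
  refine ⟨h.1, h.2.trans ?_⟩
  simp only [Fintype.card_sum, Fintype.card_fin]
  push_cast
  ring

theorem s5_p8_toC_mul {a b c : Type} [Fintype b] (A : Matrix a b ℝ) (B : Matrix b c ℝ) :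
    toC (A * B) = toC A * toC B := by
  unfold toC
  exact Matrix.map_mul (f := Complex.ofRealHom)

/-- quadratic form of a marked sum -/
theorem s5_p8_quad {ι κ : Type} [Fintype ι] [DecidableEq ι] [Fintype κ] (R : Matrix ι κ ℝ)
    (w : ι → ℂ) (v : κ → ℂ) :
    star v ⬝ᵥ (((toC R)ᵀ * Matrix.diagonal w * toC R) *ᵥ v)
      = ∑ j, w j * ((‖(toC R *ᵥ v) j‖ ^ 2 : ℝ) : ℂ) := by
  rw [← s5_p8_toC_H, ← Matrix.mulVec_mulVec, ← Matrix.mulVec_mulVec, Matrix.dotProduct_mulVec,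
    ← Matrix.star_mulVec]
  unfold dotProduct
  refine Finset.sum_congr rfl fun j _ => ?_
  rw [Matrix.mulVec_diagonal, Pi.star_apply]
  set u := (toC R *ᵥ v) j
  have : star u * u = ((‖u‖ ^ 2 : ℝ) : ℂ) := by
    rw [Complex.star_def, Complex.conj_mul']
    push_cast
    rfl
  rw [← this]
  ring

/-- the conjugated marked sum as a marked sum -/
theorem s5_p8_conj {ι κ : Type} [Fintype ι] [DecidableEq ι] [Fintype κ] (A : Matrix κ κ ℝ)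
    (g : Matrix ι κ ℝ) (w : ι → ℂ) :
    toC A * (toC g)ᵀ * Matrix.diagonal w * toC g * (toC A)ᵀ
      = (toC (g * Aᵀ))ᵀ * Matrix.diagonal w * toC (g * Aᵀ) := by
  rw [s5_p8_toC_mul, Matrix.transpose_mul, s5_p8_toC_T, Matrix.transpose_transpose]
  simp only [Matrix.mul_assoc]

theorem s5_p8_im_inv {d : ℝ} {z : ℂ} (hz : 0 < z.im) : 0 < (((d : ℂ) - z)⁻¹).im := by
  rw [Complex.inv_im]
  have h1 : ((d : ℂ) - z).im = - z.im := by simp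
  have h2 : 0 < Complex.normSq ((d : ℂ) - z) := by
    rw [Complex.normSq_pos]
    intro h
    rw [h] at h1
    simp at h1
    linarith
  rw [h1, neg_neg]
  positivity

/-- Cauchy-Schwarz: `|⟨y, E y⟩|² ≤ ‖E‖²_HS |y|⁴` -/
theorem s5_p8_quad_le {κ : Type} [Fintype κ] [DecidableEq κ] (E : Matrix κ κ ℂ) (y : κ → ℂ) :
    ‖star y ⬝ᵥ (E *ᵥ y)‖ ^ 2 ≤ hsqC E * rsvSq y ^ 2 := by
  have h1 := rsv_cs (star y) (E *ᵥ y)
  rw [rsvSq_star] at h1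
  have h2 : rsvSq (E *ᵥ y) ≤ hsqC E * rsvSq y := by
    have : hsqC E * rsvSq y = ∑ i, rsvSq (E i) * rsvSq y := by
      rw [← Finset.sum_mul]
      rfl
    rw [this]
    exact Finset.sum_le_sum fun i _ => rsv_cs (E i) y
  nlinarith [rsvSq_nonneg y]

/-- normalised indicator weights -/
theorem s5_p8_ind_sums {ι : Type} [Fintype ι] [DecidableEq ι] (S : Finset ι) (hS : 0 < S.card) :
    ∑ j, (if j ∈ S then (S.card : ℝ)⁻¹ else 0) = 1 ∧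
    ∑ j, (if j ∈ S then (S.card : ℝ)⁻¹ else 0) ^ 2 = (S.card : ℝ)⁻¹ := by
  have hn : (S.card : ℝ) ≠ 0 := by exact_mod_cast hS.ne'
  constructor
  · rw [Finset.sum_ite_mem, Finset.univ_inter, Finset.sum_const, nsmul_eq_mul]
    field_simp
  · simp only [ite_pow, ne_eq, OfNat.ofNat_ne_zero, not_false_eq_true, zero_pow]
    rw [Finset.sum_ite_mem, Finset.univ_inter, Finset.sum_const, nsmul_eq_mul]
    field_simp

/-- second moment of the empirical covariance of the rows in `S`, centred -/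
theorem s5_p8_emp {ι κ : Type} [Fintype ι] [DecidableEq ι] [Fintype κ] [DecidableEq κ] (S : Finset ι)
    (hS : 0 < S.card) :
    Integrable (fun g : Matrix ι κ ℝ => ∑ c, ∑ e,
      (∑ j, (if j ∈ S then (S.card : ℝ)⁻¹ else 0) * (g j c * g j e) - if c = e then 1 else 0) ^ 2)
      (gArr ι κ) ∧
    ∫ g : Matrix ι κ ℝ, ∑ c, ∑ e,
      (∑ j, (if j ∈ S then (S.card : ℝ)⁻¹ else 0) * (g j c * g j e) - if c = e then 1 else 0) ^ 2
      ∂(gArr ι κ) = ((Fintype.card κ : ℝ) ^ 2 + Fintype.card κ) / S.card := by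
  have := s5_gArr_prob ι κ
  obtain ⟨s1, s2⟩ := s5_p8_ind_sums S hS
  set w : ι → ℝ := fun j => if j ∈ S then (S.card : ℝ)⁻¹ else 0 with hw
  have hone : ∀ c e : κ,
      Integrable (fun g : Matrix ι κ ℝ => (∑ j, w j * (g j c * g j e) - if c = e then 1 else 0) ^ 2)
        (gArr ι κ) ∧
      ∫ g : Matrix ι κ ℝ, (∑ j, w j * (g j c * g j e) - if c = e then 1 else 0) ^ 2 ∂(gArr ι κ)
        = (if c = e then (S.card : ℝ)⁻¹ else 0) + (S.card : ℝ)⁻¹ := by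
    intro c e
    obtain ⟨i2, v2⟩ := s5m_cols w c e
    obtain ⟨i1, v1⟩ := s5m_cols_mean w c e
    have ex : ∀ g : Matrix ι κ ℝ, (∑ j, w j * (g j c * g j e) - if c = e then 1 else 0) ^ 2
        = (∑ j, w j * (g j c * g j e)) ^ 2 - (2 * if c = e then 1 else 0) * (∑ j, w j * (g j c * g j e))
          + (if c = e then 1 else 0) ^ 2 := by
      intro g; ring
    simp only [ex]
    have I1 : Integrable (fun g : Matrix ι κ ℝ =>
        (2 * if c = e then (1 : ℝ) else 0) * ∑ j, w j * (g j c * g j e)) (gArr ι κ) := i1.const_mul _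
    have I2 : Integrable (fun g : Matrix ι κ ℝ => (∑ j, w j * (g j c * g j e)) ^ 2
        - (2 * if c = e then (1 : ℝ) else 0) * ∑ j, w j * (g j c * g j e)) (gArr ι κ) := i2.sub I1
    refine ⟨I2.add (integrable_const _), ?_⟩
    rw [integral_add I2 (integrable_const _), integral_sub i2 I1, integral_const_mul, v1, v2, s1, s2]
    by_cases hce : c = e
    · simp [hce]
      ring
    · simp [hce]
  refine ⟨integrable_finsetSum _ fun c _ => integrable_finsetSum _ fun e _ => (hone c e).1, ?_⟩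
  rw [integral_finsetSum _ fun c _ => integrable_finsetSum _ fun e _ => (hone c e).1]
  simp only [integral_finsetSum _ fun e _ => (hone _ e).1, (hone _ _).2]
  simp only [Finset.sum_add_distrib, Finset.sum_ite_eq, Finset.mem_univ, if_true, Finset.sum_const,
    Finset.card_univ, nsmul_eq_mul, smul_eq_mul]
  ring

theorem s5_p8_chAT_inl (k : ℕ) (p : ℝ) (v : Ch k → ℂ) (a : Fin k) :
    ((toC (chA k p))ᵀ *ᵥ v) (Sum.inl a) = v (Sum.inl a) + (p : ℂ) * v (Sum.inr a) := by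
  simp [Matrix.mulVec, dotProduct, toC, chA, Fintype.sum_sum_type, Matrix.one_apply,
    apply_ite (Complex.ofReal), ite_mul, eq_comm]

theorem s5_p8_chAT_inr (k : ℕ) (p : ℝ) (v : Ch k → ℂ) (a : Fin k) :
    ((toC (chA k p))ᵀ *ᵥ v) (Sum.inr a) = (Real.sqrt (1 - p ^ 2) : ℂ) * v (Sum.inr a) := by
  simp [Matrix.mulVec, dotProduct, toC, chA, Fintype.sum_sum_type, Matrix.one_apply,
    apply_ite (Complex.ofReal), ite_mul, eq_comm]

theorem s5_p8_low_real {p q : ℝ} (h : p ^ 2 + q ^ 2 = 1) (x y : ℝ) :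
    (1 - |p|) * (x ^ 2 + y ^ 2) ≤ (x + p * y) ^ 2 + (q * y) ^ 2 := by
  have e : (x + p * y) ^ 2 + (q * y) ^ 2 = x ^ 2 + 2 * p * x * y + (p ^ 2 + q ^ 2) * y ^ 2 := by ring
  rw [e, h]
  rcases le_total 0 p with hp | hp
  · rw [abs_of_nonneg hp]
    nlinarith [mul_nonneg hp (sq_nonneg (x + y))]
  · rw [abs_of_nonpos hp]
    nlinarith [mul_nonneg (neg_nonneg.2 hp) (sq_nonneg (x - y))]

theorem s5_p8_low_cplx {p q : ℝ} (h : p ^ 2 + q ^ 2 = 1) (a b : ℂ) :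
    (1 - |p|) * (‖a‖ ^ 2 + ‖b‖ ^ 2) ≤ ‖a + (p : ℂ) * b‖ ^ 2 + ‖(q : ℂ) * b‖ ^ 2 := by
  have h1 := s5_p8_low_real h a.re b.re
  have h2 := s5_p8_low_real h a.im b.im
  simp only [Complex.sq_norm, Complex.normSq_apply, Complex.add_re, Complex.add_im, Complex.mul_re,
    Complex.mul_im, Complex.ofReal_re, Complex.ofReal_im, zero_mul, sub_zero, add_zero]
  nlinarith

/-- `|Aᵀ v|² ≥ (1 - |p|) |v|²` -/
theorem s5_p8_chA_lower (k : ℕ) {p : ℝ} (hp : |p| < 1) (v : Ch k → ℂ) :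
    (1 - |p|) * rsvSq v ≤ rsvSq ((toC (chA k p))ᵀ *ᵥ v) := by
  have hq : p ^ 2 + Real.sqrt (1 - p ^ 2) ^ 2 = 1 := by
    rw [Real.sq_sqrt]
    · ring
    · have := abs_lt.1 hp
      nlinarith
  unfold rsvSq
  rw [Fintype.sum_sum_type, Fintype.sum_sum_type]
  simp only [s5_p8_chAT_inl, s5_p8_chAT_inr]
  rw [← Finset.sum_add_distrib, ← Finset.sum_add_distrib, Finset.mul_sum]
  exact Finset.sum_le_sum fun a _ => s5_p8_low_cplx hq _ _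

theorem s5_p8_chK_symm (k : ℕ) (p dinv m : ℝ) : (chK k p dinv m)ᵀ = chK k p dinv m := by
  have hJ : (chJ k)ᵀ = chJ k := by
    unfold chJ
    rw [Matrix.fromBlocks_transpose]
    simp
  unfold chK chC
  simp [Matrix.transpose_add, Matrix.transpose_smul, hJ]

theorem s5_p8_low_det {ι : Type} [Fintype ι] [DecidableEq ι] (k : ℕ) {p dinv mr : ℝ} (hp : |p| < 1)
    {d : ι → ℝ} {z : ℂ} (hz : 0 < z.im) {ω : ℝ} (hω : 0 < ω) (S : Finset ι)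
    (hw : ∀ j ∈ S, ω ≤ (((d j : ℂ) - z)⁻¹).im) (hS : 0 < S.card) (g : Matrix ι (Ch k) ℝ)
    (hg : ∑ c, ∑ e, (∑ j, (if j ∈ S then (S.card : ℝ)⁻¹ else 0) * (g j c * g j e)
      - if c = e then 1 else 0) ^ 2 < 1 / 4) :
    rsDis (s5X k p dinv mr d g z).2.1 (ω * S.card * (1 - |p|) / 2) := by
  have hn : (0 : ℝ) < S.card := by exact_mod_cast hS
  have e0 : (s5X k p dinv mr d g z).2.1
      = (toC (g * (chA k p)ᵀ))ᵀ * (Matrix.diagonal fun i => ((d i : ℂ) - z)⁻¹) * toC (g * (chA k p)ᵀ)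
        + toC (chK k p dinv mr) := by
    rw [← s5_p8_conj, add_comm]
    rfl
  rw [e0]
  refine rs_dis_add_herm ?_ (s5_p8_toC_herm (s5_p8_chK_symm k p dinv mr))
  intro v
  rw [s5_p8_quad, Complex.im_sum]
  simp only [Complex.im_mul_ofReal]
  set y : Ch k → ℂ := (toC (chA k p))ᵀ *ᵥ v with hy
  have ey : toC (g * (chA k p)ᵀ) *ᵥ v = toC g *ᵥ y := by
    rw [s5_p8_toC_mul, s5_p8_toC_T, hy, Matrix.mulVec_mulVec]
  rw [ey]
  set u : ι → ℝ := fun j => if j ∈ S then (S.card : ℝ)⁻¹ else 0 with hu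
  -- step 1: lower bound by the normalised indicator weights
  have s1 : ω * S.card * ∑ j, u j * ‖(toC g *ᵥ y) j‖ ^ 2
      ≤ ∑ j, (((d j : ℂ) - z)⁻¹).im * ‖(toC g *ᵥ y) j‖ ^ 2 := by
    rw [Finset.mul_sum]
    refine Finset.sum_le_sum fun j _ => ?_
    rw [← mul_assoc]
    refine mul_le_mul_of_nonneg_right ?_ (by positivity)
    by_cases hj : j ∈ S
    · simp only [hu, hj, if_true]
      rw [mul_assoc, mul_inv_cancel₀ hn.ne', mul_one]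
      exact hw j hj
    · simp only [hu, hj, if_false, mul_zero]
      exact (s5_p8_im_inv hz).le
  -- step 2: the empirical covariance
  set EC : Matrix (Ch k) (Ch k) ℂ := (toC g)ᵀ * (Matrix.diagonal fun j => (u j : ℂ)) * toC g - 1 with hEC
  have eE : ∀ c e, EC c e = ((∑ j, u j * (g j c * g j e) - if c = e then 1 else 0 : ℝ) : ℂ) := by
    intro c e
    rw [hEC, Matrix.sub_apply, Matrix.mul_apply]
    simp only [Matrix.mul_diagonal, Matrix.transpose_apply, Matrix.one_apply, toC, Matrix.map_apply]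
    push_cast
    congr 1
    · refine Finset.sum_congr rfl fun j _ => ?_
      ring
    · split_ifs <;> simp
  have hE : hsqC EC < 1 / 4 := by
    have : hsqC EC = ∑ c, ∑ e, (∑ j, u j * (g j c * g j e) - if c = e then 1 else 0) ^ 2 := by
      unfold hsqC
      refine Finset.sum_congr rfl fun c _ => Finset.sum_congr rfl fun e _ => ?_
      rw [eE, Complex.norm_real, Real.norm_eq_abs, sq_abs]
    rw [this]
    exact hg
  have q1 := s5_p8_quad g (fun j => (u j : ℂ)) y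
  have q2 : (toC g)ᵀ * (Matrix.diagonal fun j => (u j : ℂ)) * toC g = 1 + EC := by
    rw [hEC]; abel
  rw [q2, Matrix.add_mulVec, Matrix.one_mulVec, dotProduct_add, ← rsvSq_eq] at q1
  have q3 : rsvSq y + (star y ⬝ᵥ (EC *ᵥ y)).re = ∑ j, u j * ‖(toC g *ᵥ y) j‖ ^ 2 := by
    have := congrArg Complex.re q1
    rw [Complex.add_re, Complex.ofReal_re, Complex.re_sum] at this
    rw [this]
    refine Finset.sum_congr rfl fun j _ => ?_
    rw [← Complex.ofReal_mul, Complex.ofReal_re]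
  have q4 : ‖star y ⬝ᵥ (EC *ᵥ y)‖ ≤ 1 / 2 * rsvSq y := by
    have h5 := s5_p8_quad_le EC y
    have h6 : ‖star y ⬝ᵥ (EC *ᵥ y)‖ ^ 2 ≤ (1 / 2 * rsvSq y) ^ 2 := by
      nlinarith [sq_nonneg (rsvSq y)]
    exact abs_le_of_sq_le_sq' h6 (by have := rsvSq_nonneg y; positivity) |>.2
  have q5 : - ‖star y ⬝ᵥ (EC *ᵥ y)‖ ≤ (star y ⬝ᵥ (EC *ᵥ y)).re :=
    (abs_le.1 (Complex.abs_re_le_norm _)).1
  have q6 : 1 / 2 * rsvSq y ≤ ∑ j, u j * ‖(toC g *ᵥ y) j‖ ^ 2 := by linarith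
  have q7 := s5_p8_chA_lower k hp v
  rw [← hy] at q7
  have hωn : 0 < ω * S.card := mul_pos hω hn
  calc ω * S.card * (1 - |p|) / 2 * rsvSq v = ω * S.card * (1 / 2 * ((1 - |p|) * rsvSq v)) := by ring
    _ ≤ ω * S.card * (1 / 2 * rsvSq y) :=
        mul_le_mul_of_nonneg_left (mul_le_mul_of_nonneg_left q7 (by norm_num)) hωn.le
    _ ≤ ω * S.card * ∑ j, u j * ‖(toC g *ᵥ y) j‖ ^ 2 := mul_le_mul_of_nonneg_left q6 hωn.le
    _ ≤ _ := s1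

/-- the state of the marked model is always dissipative -/
theorem s5_p8_X_dis {ι : Type} [Fintype ι] [DecidableEq ι] (k : ℕ) (p dinv mr : ℝ) (d : ι → ℝ)
    (g : Matrix ι (Ch k) ℝ) {z : ℂ} (hz : 0 < z.im) : rsDis (s5X k p dinv mr d g z).2.1 0 := by
  have e0 : (s5X k p dinv mr d g z).2.1
      = (toC (g * (chA k p)ᵀ))ᵀ * (Matrix.diagonal fun i => ((d i : ℂ) - z)⁻¹) * toC (g * (chA k p)ᵀ)
        + toC (chK k p dinv mr) := by
    rw [← s5_p8_conj, add_comm]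
    rfl
  rw [e0]
  refine rs_dis_add_herm ?_ (s5_p8_toC_herm (s5_p8_chK_symm k p dinv mr))
  intro v
  rw [s5_p8_quad, Complex.im_sum, zero_mul]
  refine Finset.sum_nonneg fun j _ => ?_
  rw [Complex.im_mul_ofReal]
  exact mul_nonneg (s5_p8_im_inv hz).le (by positivity)

/-- H4 (P1 (5.13)). Lower bound of the imaginary part: if `Im w_j ≥ ω > 0` on a set `S` of `n` sites (and `Im w_j > 0` everywhere,
as `Im z > 0`), then off an event of probability `≤ 4 (4k²+2k)/n`: `∑ Im w_j g_j g_jᵀ ≥ ω ∑_S g_j g_jᵀ ≥ (ω n/2)·1`, hence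
`imH M ≥ ω n (1-|p|)/2` for `M = M⁰ + A (∑ w_j g_j g_jᵀ) Aᵀ` (`A Aᵀ = C_k ≥ 1 - |p|`, `M⁰` real symmetric).
(H3 with `w = 1_S/n`: `E‖(1/n)∑_S g gᵀ - 1‖²_HS = E‖·‖² - 2·2k + 2k = (4k²+2k)/n`; Markov at level `1/4`.) -/
theorem s5_chan_low {ι : Type} [Fintype ι] [DecidableEq ι] (k : ℕ) {p dinv mr : ℝ} (hp : |p| < 1)
    {d : ι → ℝ} {z : ℂ} (hz : 0 < z.im) {ω : ℝ} (hω : 0 < ω) (S : Finset ι)
    (hw : ∀ j ∈ S, ω ≤ (((d j : ℂ) - z)⁻¹).im) :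
    (gArr ι (Ch k)) {g | ¬ (imH (s5X k p dinv mr d g z).2.1
        - ((ω * S.card * (1 - |p|) / 2 : ℝ) : ℂ) • (1 : Matrix (Ch k) (Ch k) ℂ)).PosSemidef}
      ≤ ENNReal.ofReal (4 * (4 * (k : ℝ) ^ 2 + 2 * k) / S.card) := by
  rcases Nat.eq_zero_or_pos S.card with h0 | hS
  · have : {g : Matrix ι (Ch k) ℝ | ¬ (imH (s5X k p dinv mr d g z).2.1
        - ((ω * S.card * (1 - |p|) / 2 : ℝ) : ℂ) • (1 : Matrix (Ch k) (Ch k) ℂ)).PosSemidef} = ∅ := by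
      ext g
      simp only [Set.mem_ofPred_eq, Set.mem_empty_iff_false, iff_false, not_not]
      rw [s5_psd_iff_dis, h0]
      simpa using s5_p8_X_dis k p dinv mr d g hz
    rw [this]
    simp
  · obtain ⟨hint, hval⟩ := s5_p8_emp (κ := Ch k) S hS
    have := s5_gArr_prob ι (Ch k)
    have hsub : {g : Matrix ι (Ch k) ℝ | ¬ (imH (s5X k p dinv mr d g z).2.1
        - ((ω * S.card * (1 - |p|) / 2 : ℝ) : ℂ) • (1 : Matrix (Ch k) (Ch k) ℂ)).PosSemidef}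
        ⊆ {g | 1 / 4 ≤ ∑ c, ∑ e, (∑ j, (if j ∈ S then (S.card : ℝ)⁻¹ else 0) * (g j c * g j e)
            - if c = e then 1 else 0) ^ 2} := by
      intro g hg
      by_contra hcon
      simp only [Set.mem_ofPred_eq, not_le] at hcon hg
      exact hg ((s5_psd_iff_dis _ _).2 (s5_p8_low_det k hp hz hω S hw hS g hcon))
    refine (measure_mono hsub).trans ?_
    have hM := mul_meas_ge_le_integral_of_nonneg (μ := gArr ι (Ch k))
      (Filter.Eventually.of_forall fun g : Matrix ι (Ch k) ℝ =>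
        (Finset.sum_nonneg fun c _ => Finset.sum_nonneg fun e _ => sq_nonneg _ :
          0 ≤ ∑ c, ∑ e, (∑ j, (if j ∈ S then (S.card : ℝ)⁻¹ else 0) * (g j c * g j e)
            - if c = e then 1 else 0) ^ 2)) hint (1 / 4)
    rw [hval] at hM
    have hcard : (Fintype.card (Ch k) : ℝ) = 2 * k := by
      simp [Fintype.card_sum]
      ring
    rw [hcard] at hM
    rw [← ENNReal.ofReal_toReal (measure_ne_top _ _)]
    refine ENNReal.ofReal_le_ofReal ?_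
    have e : 4 * (4 * (k : ℝ) ^ 2 + 2 * k) / S.card = 4 * (((2 * (k : ℝ)) ^ 2 + 2 * k) / S.card) := by
      ring
    rw [e]
    have : ((gArr ι (Ch k)) {g : Matrix ι (Ch k) ℝ | 1 / 4 ≤ ∑ c, ∑ e,
        (∑ j, (if j ∈ S then (S.card : ℝ)⁻¹ else 0) * (g j c * g j e)
            - if c = e then 1 else 0) ^ 2}).toReal = (gArr ι (Ch k)).real {g : Matrix ι (Ch k) ℝ |
        1 / 4 ≤ ∑ c, ∑ e, (∑ j, (if j ∈ S then (S.card : ℝ)⁻¹ else 0) * (g j c * g j e)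
            - if c = e then 1 else 0) ^ 2} := rfl
    rw [this]
    linarith

/-- the contribution of a block of sites to the state (no constant part) -/
noncomputable def s5Tail {ι : Type} [Fintype ι] [DecidableEq ι] (k : ℕ) (p : ℝ) (d : ι → ℝ)
    (g : Matrix ι (Ch k) ℝ) (z : ℂ) : SwSt k :=
  (∑ i, ((d i : ℂ) - z)⁻¹,
   toC (chA k p) * (toC g)ᵀ * (Matrix.diagonal fun i => ((d i : ℂ) - z)⁻¹) * toC g
      * (toC (chA k p))ᵀ,
   toC (chA k p) * (toC g)ᵀ * (Matrix.diagonal fun i => ((d i : ℂ) - z)⁻¹ ^ 2) * toC g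
      * (toC (chA k p))ᵀ)

/-- the good event of the first cut at one spectral parameter (marks `g.1` on the near sites, `g.2` on the far sites) -/
def s5FGood (k : ℕ) (p dinv mr : ℝ) (d₁ : ι₁ → ℝ) (d₂ : ι₂ → ℝ) (z : ℂ) (c ta tb : ℝ) :
    Set (Matrix ι₁ (Ch k) ℝ × Matrix ι₂ (Ch k) ℝ) :=
  {g | (imH (s5X k p dinv mr d₁ g.1 z).2.1 - (c : ℂ) • (1 : Matrix (Ch k) (Ch k) ℂ)).PosSemidef ∧
       hsqC (s5Tail k p d₂ g.2 z).2.1 ≤ ta ^ 2 ∧ hsqC (s5Tail k p d₂ g.2 z).2.2 ≤ ta ^ 2 ∧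
       hsqC (s5X k p dinv mr d₁ g.1 z).2.2 ≤ tb ^ 2}

/-- probability of the bad event of the first cut -/
noncomputable def s5fbad (k n : ℕ) (σ₁ σ₂ σ₃ ta tb : ℝ) : ℝ :=
  4 * (4 * (k : ℝ) ^ 2 + 2 * k) / n
    + 4 * (2 * k * σ₁ ^ 2 + (4 * (k : ℝ) ^ 2 + 2 * k) * σ₂) / ta ^ 2
    + 4 * (2 * k * σ₂ ^ 2 + (4 * (k : ℝ) ^ 2 + 2 * k) * σ₂ ^ 2) / ta ^ 2
    + 4 * (2 * k * σ₃ ^ 2 + (4 * (k : ℝ) ^ 2 + 2 * k) * σ₃ ^ 2) / tb ^ 2

theorem s5_first_eqns_cite : True := by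
  have := @s5Tail.eq_1
  have := @s5FGood.eq_1
  have := @s5fbad.eq_1
  trivial

/-- marked sums are additive over a disjoint union of sites -/
theorem s5_p8_sum_split {κ : Type} [Fintype κ] (w₁ : ι₁ → ℂ) (w₂ : ι₂ → ℂ) (g : Matrix (ι₁ ⊕ ι₂) κ ℝ) :
    (toC g)ᵀ * Matrix.diagonal (Sum.elim w₁ w₂) * toC g
      = (toC (g.submatrix Sum.inl id))ᵀ * Matrix.diagonal w₁ * toC (g.submatrix Sum.inl id)
        + (toC (g.submatrix Sum.inr id))ᵀ * Matrix.diagonal w₂ * toC (g.submatrix Sum.inr id) := by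
  ext a b
  rw [Matrix.add_apply, Matrix.mul_apply, Matrix.mul_apply, Matrix.mul_apply, Fintype.sum_sum_type]
  simp only [Matrix.mul_diagonal, Matrix.transpose_apply, Sum.elim_inl, Sum.elim_inr]
  rfl

theorem s5_p8_conj_split {κ : Type} [Fintype κ] (A : Matrix κ κ ℂ) (w₁ : ι₁ → ℂ) (w₂ : ι₂ → ℂ)
    (g : Matrix (ι₁ ⊕ ι₂) κ ℝ) :
    A * (toC g)ᵀ * Matrix.diagonal (Sum.elim w₁ w₂) * toC g * Aᵀ
      = A * (toC (g.submatrix Sum.inl id))ᵀ * Matrix.diagonal w₁ * toC (g.submatrix Sum.inl id) * Aᵀ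
        + A * (toC (g.submatrix Sum.inr id))ᵀ * Matrix.diagonal w₂ * toC (g.submatrix Sum.inr id) * Aᵀ := by
  have h := s5_p8_sum_split w₁ w₂ g
  calc A * (toC g)ᵀ * Matrix.diagonal (Sum.elim w₁ w₂) * toC g * Aᵀ
      = A * ((toC g)ᵀ * Matrix.diagonal (Sum.elim w₁ w₂) * toC g) * Aᵀ := by
        simp only [Matrix.mul_assoc]
    _ = _ := by
        rw [h, Matrix.mul_add, Matrix.add_mul]
        simp only [Matrix.mul_assoc]

/-- F1. Additivity of the state over a disjoint union of sites (`Fintype.sum_sum_type`; entrywise for the matrices: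
`(gᵀ W g)_{ab} = ∑_j g_ja w_j g_jb`). -/
theorem s5_X_sum (k : ℕ) (p dinv mr : ℝ) (d₁ : ι₁ → ℝ) (d₂ : ι₂ → ℝ) (g : Matrix (ι₁ ⊕ ι₂) (Ch k) ℝ)
    (z : ℂ) :
    s5X k p dinv mr (Sum.elim d₁ d₂) g z
      = s5X k p dinv mr d₁ (g.submatrix Sum.inl id) z + s5Tail k p d₂ (g.submatrix Sum.inr id) z := by
  have e1 : (fun i : ι₁ ⊕ ι₂ => (((Sum.elim d₁ d₂ i : ℝ) : ℂ) - z)⁻¹)
      = Sum.elim (fun i => ((d₁ i : ℂ) - z)⁻¹) (fun i => ((d₂ i : ℂ) - z)⁻¹) := by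
    funext i; cases i <;> rfl
  have e2 : (fun i : ι₁ ⊕ ι₂ => (((Sum.elim d₁ d₂ i : ℝ) : ℂ) - z)⁻¹ ^ 2)
      = Sum.elim (fun i => ((d₁ i : ℂ) - z)⁻¹ ^ 2) (fun i => ((d₂ i : ℂ) - z)⁻¹ ^ 2) := by
    funext i; cases i <;> rfl
  unfold s5X s5Tail
  rw [e1, e2, s5_p8_conj_split, s5_p8_conj_split]
  refine Prod.ext ?_ (Prod.ext ?_ ?_)
  · simp only [Prod.fst_add, Fintype.sum_sum_type, Sum.elim_inl, Sum.elim_inr]
    ring
  · simp only [Prod.snd_add, Prod.fst_add]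
    rw [add_assoc]
  · simp only [Prod.snd_add]

/-- F2. Rows of an iid array over a disjoint union are independent iid arrays
(`MeasurableEquiv.sumPiEquivProdPi`, `measurePreserving_sumPiEquivProdPi`). -/
theorem s5_gArr_rows (κ : Type) [Fintype κ] :
    (gArr (ι₁ ⊕ ι₂) κ).map (fun g => (g.submatrix Sum.inl id, g.submatrix Sum.inr id))
      = (gArr ι₁ κ).prod (gArr ι₂ κ) := by
  exact (measurePreserving_sumPiEquivProdPi (X := fun _ : ι₁ ⊕ ι₂ => κ → ℝ)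
    (fun _ : ι₁ ⊕ ι₂ => Measure.pi fun _ : κ => gaussianReal 0 1)).map_eq

/-- F3. The tail has nonnegative imaginary part: `imH (A gᵀ W g Aᵀ) = (g Aᵀ)ᵀ (Im W) (g Aᵀ)`, `Im w_j > 0`. -/
theorem s5_tail_psd {ι : Type} [Fintype ι] [DecidableEq ι] (k : ℕ) (p : ℝ) (d : ι → ℝ)
    (g : Matrix ι (Ch k) ℝ) {z : ℂ} (hz : 0 < z.im) : (imH (s5Tail k p d g z).2.1).PosSemidef := by
  have h0 : rsDis (s5Tail k p d g z).2.1 0 := by
    intro v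
    show _ ≤ (star v ⬝ᵥ ((toC (chA k p) * (toC g)ᵀ * (Matrix.diagonal fun i => ((d i : ℂ) - z)⁻¹)
      * toC g * (toC (chA k p))ᵀ) *ᵥ v)).im
    rw [s5_p8_conj, s5_p8_quad, Complex.im_sum, zero_mul]
    refine Finset.sum_nonneg fun j _ => ?_
    rw [Complex.im_mul_ofReal]
    exact mul_nonneg (s5_p8_im_inv hz).le (by positivity)
  have := (s5_psd_iff_dis _ 0).2 h0
  simpa using this

theorem s5_p8_imH_add {ι : Type} (X Y : Matrix ι ι ℂ) : imH (X + Y) = imH X + imH Y := by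
  unfold imH
  rw [Matrix.conjTranspose_add, ← smul_add]
  congr 1
  abel

theorem s5_p8_norm_le {ι κ : Type} [Fintype ι] [DecidableEq ι] [Fintype κ] [DecidableEq κ]
    {X : Matrix ι κ ℂ} {t : ℝ} (ht : 0 ≤ t) (h : hsqC X ≤ t ^ 2) : ‖X‖ ≤ t :=
  abs_le_of_sq_le_sq' ((s5_norm_le_hsC X).trans h) ht |>.2

/-- F4. Deterministic comparison on the good event: H2 with `s₁ = s₂ + tail`; `imH` is additive, F3; `‖·‖ ≤ √hsqC` (E0'). -/
theorem s5_first_det {k : ℕ} {O : Matrix (Fin k) (Fin k) ℝ} (hB : IsUnit (chB O).det)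
    {p dinv mr : ℝ} {d₁ : ι₁ → ℝ} {d₂ : ι₂ → ℝ} {z : ℂ} (hz : 0 < z.im) {c ta tb σ₁ : ℝ} (hc : 0 < c)
    (hta : 0 ≤ ta) (htb : 0 ≤ tb) (hσ : ‖∑ j, ((d₂ j : ℂ) - z)⁻¹‖ ≤ σ₁)
    {g : Matrix ι₁ (Ch k) ℝ × Matrix ι₂ (Ch k) ℝ} (hg : g ∈ s5FGood k p dinv mr d₁ d₂ z c ta tb) :
    ‖(swT O (s5X k p dinv mr d₁ g.1 z + s5Tail k p d₂ g.2 z)).1 - (swT O (s5X k p dinv mr d₁ g.1 z)).1‖
      ≤ σ₁ + 2 * k * (ta / c + ta * tb / c ^ 2) := by
  obtain ⟨g1, g2, g3, g4⟩ := hg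
  have h1 : (imH (s5X k p dinv mr d₁ g.1 z + s5Tail k p d₂ g.2 z).2.1
      - (c : ℂ) • (1 : Matrix (Ch k) (Ch k) ℂ)).PosSemidef := by
    have e : imH (s5X k p dinv mr d₁ g.1 z + s5Tail k p d₂ g.2 z).2.1
        - (c : ℂ) • (1 : Matrix (Ch k) (Ch k) ℂ)
        = (imH (s5X k p dinv mr d₁ g.1 z).2.1 - (c : ℂ) • (1 : Matrix (Ch k) (Ch k) ℂ))
          + imH (s5Tail k p d₂ g.2 z).2.1 := by
      rw [Prod.snd_add, Prod.fst_add, s5_p8_imH_add]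
      abel
    rw [e]
    exact g1.add (s5_tail_psd k p d₂ g.2 hz)
  refine (s5_chan_det hB hc h1 g1).trans ?_
  have a1 : ‖(s5X k p dinv mr d₁ g.1 z + s5Tail k p d₂ g.2 z).1 - (s5X k p dinv mr d₁ g.1 z).1‖ ≤ σ₁ := by
    rw [Prod.fst_add, add_sub_cancel_left]
    exact hσ
  have a2 : ‖(s5X k p dinv mr d₁ g.1 z + s5Tail k p d₂ g.2 z).2.2 - (s5X k p dinv mr d₁ g.1 z).2.2‖
      ≤ ta := by
    rw [Prod.snd_add, Prod.snd_add, add_sub_cancel_left]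
    exact s5_p8_norm_le hta g3
  have a3 : ‖(s5X k p dinv mr d₁ g.1 z + s5Tail k p d₂ g.2 z).2.1 - (s5X k p dinv mr d₁ g.1 z).2.1‖
      ≤ ta := by
    rw [Prod.snd_add, Prod.fst_add, add_sub_cancel_left]
    exact s5_p8_norm_le hta g2
  have a4 : ‖(s5X k p dinv mr d₁ g.1 z).2.2‖ ≤ tb := s5_p8_norm_le htb g4
  gcongr

theorem s5_p8_chA_inl {κ : Type} (k : ℕ) (p : ℝ) (X : Matrix (Ch k) κ ℂ) (a : Fin k) (j : κ) :
    (toC (chA k p) * X) (Sum.inl a) j = X (Sum.inl a) j := by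
  simp [Matrix.mul_apply, toC, chA, Fintype.sum_sum_type, Matrix.one_apply, apply_ite (Complex.ofReal),
    ite_mul]

theorem s5_p8_chA_inr {κ : Type} (k : ℕ) (p : ℝ) (X : Matrix (Ch k) κ ℂ) (a : Fin k) (j : κ) :
    (toC (chA k p) * X) (Sum.inr a) j
      = (p : ℂ) * X (Sum.inl a) j + (Real.sqrt (1 - p ^ 2) : ℂ) * X (Sum.inr a) j := by
  simp [Matrix.mul_apply, toC, chA, Fintype.sum_sum_type, Matrix.one_apply, apply_ite (Complex.ofReal),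
    ite_mul]

theorem s5_p8_cs {p q : ℝ} (h : p ^ 2 + q ^ 2 = 1) (a b : ℂ) :
    ‖(p : ℂ) * a + (q : ℂ) * b‖ ^ 2 ≤ ‖a‖ ^ 2 + ‖b‖ ^ 2 := by
  have h1 : ‖(p : ℂ) * a + (q : ℂ) * b‖ ≤ |p| * ‖a‖ + |q| * ‖b‖ := by
    refine (norm_add_le _ _).trans ?_
    rw [norm_mul, norm_mul, Complex.norm_real, Complex.norm_real, Real.norm_eq_abs, Real.norm_eq_abs]
  have h2 : (|p| * ‖a‖ + |q| * ‖b‖) ^ 2 ≤ ‖a‖ ^ 2 + ‖b‖ ^ 2 := by
    have e1 : |p| ^ 2 = p ^ 2 := sq_abs p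
    have e2 : |q| ^ 2 = q ^ 2 := sq_abs q
    nlinarith [sq_nonneg (|p| * ‖b‖ - |q| * ‖a‖)]
  exact (pow_le_pow_left₀ (norm_nonneg _) h1 2).trans h2

theorem s5_p8_hs_left {κ : Type} [Fintype κ] (k : ℕ) {p : ℝ} (hp : |p| < 1) (X : Matrix (Ch k) κ ℂ) :
    hsqC (toC (chA k p) * X) ≤ 2 * hsqC X := by
  have hq : p ^ 2 + Real.sqrt (1 - p ^ 2) ^ 2 = 1 := by
    rw [Real.sq_sqrt]
    · ring
    · have := abs_lt.1 hp
      nlinarith
  unfold hsqC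
  rw [Fintype.sum_sum_type, Fintype.sum_sum_type]
  simp only [s5_p8_chA_inl, s5_p8_chA_inr]
  have h1 : ∑ a : Fin k, ∑ j, ‖(p : ℂ) * X (Sum.inl a) j + (Real.sqrt (1 - p ^ 2) : ℂ) * X (Sum.inr a) j‖ ^ 2
      ≤ ∑ a : Fin k, ∑ j, ‖X (Sum.inl a) j‖ ^ 2 + ∑ a : Fin k, ∑ j, ‖X (Sum.inr a) j‖ ^ 2 := by
    rw [← Finset.sum_add_distrib]
    refine Finset.sum_le_sum fun a _ => ?_
    rw [← Finset.sum_add_distrib]
    exact Finset.sum_le_sum fun j _ => s5_p8_cs hq _ _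
  have h2 : 0 ≤ ∑ a : Fin k, ∑ j, ‖X (Sum.inr a) j‖ ^ 2 :=
    Finset.sum_nonneg fun _ _ => Finset.sum_nonneg fun _ _ => by positivity
  linarith

theorem s5_p8_hs_T {ι κ : Type} [Fintype ι] [Fintype κ] (X : Matrix ι κ ℂ) : hsqC Xᵀ = hsqC X := by
  unfold hsqC
  rw [Finset.sum_comm]
  rfl

/-- F5. Conjugation by the Cholesky factor costs at most 4 in `hsqC`. Blocks: `A X Aᵀ =
[[X₁₁, pX₁₁+qX₁₂],[pX₁₁+qX₂₁, p²X₁₁+pq(X₂₁+X₁₂)+q²X₂₂]]`, `|pa+qb|² ≤ |a|²+|b|²` as `p²+q² = 1`. -/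
theorem s5_hs_conjA (k : ℕ) {p : ℝ} (hp : |p| < 1) (X : Matrix (Ch k) (Ch k) ℂ) :
    hsqC (toC (chA k p) * X * (toC (chA k p))ᵀ) ≤ 4 * hsqC X := by
  have e : toC (chA k p) * X * (toC (chA k p))ᵀ = (toC (chA k p) * (toC (chA k p) * X)ᵀ)ᵀ := by
    rw [Matrix.transpose_mul, Matrix.transpose_transpose]
  rw [e, s5_p8_hs_T]
  have h1 := s5_p8_hs_left k hp (toC (chA k p) * X)ᵀ
  rw [s5_p8_hs_T] at h1
  have h2 := s5_p8_hs_left k hp X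
  linarith

/-- F6. Markov for a marked sum with complex weights (H3, F5). -/
theorem s5_tail_bad {ι : Type} [Fintype ι] [DecidableEq ι] (k : ℕ) {p : ℝ} (hp : |p| < 1) (w : ι → ℂ)
    {s₁ s₂ t : ℝ} (h1 : ‖∑ j, w j‖ ≤ s₁) (h2 : ∑ j, ‖w j‖ ^ 2 ≤ s₂) (ht : 0 < t) :
    (gArr ι (Ch k)) {g | t ^ 2 < hsqC (toC (chA k p) * (toC g)ᵀ * Matrix.diagonal w * toC g
        * (toC (chA k p))ᵀ)}
      ≤ ENNReal.ofReal (4 * (2 * k * s₁ ^ 2 + (4 * (k : ℝ) ^ 2 + 2 * k) * s₂) / t ^ 2) := by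
  obtain ⟨hint, hval⟩ := s5_chan_mom k w
  have hnn : ∀ g : Matrix ι (Ch k) ℝ, 0 ≤ hsqC ((toC g)ᵀ * Matrix.diagonal w * toC g) := fun g =>
    Finset.sum_nonneg fun _ _ => Finset.sum_nonneg fun _ _ => by positivity
  have hsub : {g : Matrix ι (Ch k) ℝ | t ^ 2 < hsqC (toC (chA k p) * (toC g)ᵀ * Matrix.diagonal w * toC g
        * (toC (chA k p))ᵀ)} ⊆ {g | t ^ 2 / 4 ≤ hsqC ((toC g)ᵀ * Matrix.diagonal w * toC g)} := by
    intro g hg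
    have h := s5_hs_conjA k hp ((toC g)ᵀ * Matrix.diagonal w * toC g)
    have e : toC (chA k p) * ((toC g)ᵀ * Matrix.diagonal w * toC g) * (toC (chA k p))ᵀ
        = toC (chA k p) * (toC g)ᵀ * Matrix.diagonal w * toC g * (toC (chA k p))ᵀ := by
      simp only [Matrix.mul_assoc]
    rw [e] at h
    simp only [Set.mem_ofPred_eq] at hg ⊢
    linarith
  refine (measure_mono hsub).trans ?_
  have hM := mul_meas_ge_le_integral_of_nonneg (μ := gArr ι (Ch k)) (Filter.Eventually.of_forall hnn)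
    hint (t ^ 2 / 4)
  have := s5_gArr_prob ι (Ch k)
  rw [hval] at hM
  have ht2 : 0 < t ^ 2 / 4 := by positivity
  have h3 : (gArr ι (Ch k)).real {g | t ^ 2 / 4 ≤ hsqC ((toC g)ᵀ * Matrix.diagonal w * toC g)}
      ≤ 4 * (2 * k * s₁ ^ 2 + (4 * (k : ℝ) ^ 2 + 2 * k) * s₂) / t ^ 2 := by
    rw [le_div_iff₀ (by positivity)]
    have a1 : ‖∑ j, w j‖ ^ 2 ≤ s₁ ^ 2 := pow_le_pow_left₀ (norm_nonneg _) h1 2
    have a2 : 2 * (k : ℝ) * ‖∑ j, w j‖ ^ 2 ≤ 2 * k * s₁ ^ 2 := by gcongr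
    have a3 : (4 * (k : ℝ) ^ 2 + 2 * k) * ∑ j, ‖w j‖ ^ 2 ≤ (4 * (k : ℝ) ^ 2 + 2 * k) * s₂ := by gcongr
    nlinarith
  rw [← ENNReal.ofReal_toReal (measure_ne_top _ _)]
  exact ENNReal.ofReal_le_ofReal h3

/-- squares of the weights -/
theorem s5_p8_sq_weights {ι : Type} [Fintype ι] (w : ι → ℂ) {σ : ℝ} (h : ∑ j, ‖w j‖ ^ 2 ≤ σ) :
    0 ≤ σ ∧ ‖∑ j, w j ^ 2‖ ≤ σ ∧ ∑ j, ‖w j ^ 2‖ ^ 2 ≤ σ ^ 2 := by
  have h0 : 0 ≤ ∑ j, ‖w j‖ ^ 2 := Finset.sum_nonneg fun _ _ => by positivity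
  refine ⟨h0.trans h, ?_, ?_⟩
  · refine (norm_sum_le _ _).trans ?_
    simpa only [norm_pow] using h
  · simp only [norm_pow]
    refine (Finset.sum_sq_le_sq_sum_of_nonneg fun _ _ => by positivity).trans ?_
    exact pow_le_pow_left₀ h0 h 2

/-- F8. Union bound on the product space. The four events depend on one factor each (`Measure.prod` of a cylinder:
`Measure.prod_prod` / `measure_mono` into `A ×ˢ univ`); H4, F6 with `w`, `w²` on the far sites (`|∑ w²| ≤ ∑|w|² ≤ σ₂`,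
`∑|w²|² ≤ (∑|w|²)² ≤ σ₂²`), F6 with `w²` on the near sites. -/
theorem s5_first_bad (k : ℕ) {p dinv mr : ℝ} (hp : |p| < 1) {d₁ : ι₁ → ℝ} {d₂ : ι₂ → ℝ} {z : ℂ}
    (hz : 0 < z.im) {ω σ₁ σ₂ σ₃ ta tb : ℝ} (hω : 0 < ω) (hta : 0 < ta) (htb : 0 < tb) (S : Finset ι₁)
    (hS : ∀ j ∈ S, ω ≤ (((d₁ j : ℂ) - z)⁻¹).im) (h1 : ‖∑ j, ((d₂ j : ℂ) - z)⁻¹‖ ≤ σ₁)
    (h2 : ∑ j, ‖((d₂ j : ℂ) - z)⁻¹‖ ^ 2 ≤ σ₂) (h3 : ∑ j, ‖((d₁ j : ℂ) - z)⁻¹‖ ^ 2 ≤ σ₃) :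
    ((gArr ι₁ (Ch k)).prod (gArr ι₂ (Ch k)))
        (s5FGood k p dinv mr d₁ d₂ z (ω * S.card * (1 - |p|) / 2) ta tb)ᶜ
      ≤ ENNReal.ofReal (s5fbad k S.card σ₁ σ₂ σ₃ ta tb) := by
  have := s5_gArr_prob ι₁ (Ch k)
  have := s5_gArr_prob ι₂ (Ch k)
  obtain ⟨n2, a2, b2⟩ := s5_p8_sq_weights _ h2
  obtain ⟨n3, a3, b3⟩ := s5_p8_sq_weights _ h3
  have B1 := s5_chan_low k (dinv := dinv) (mr := mr) hp hz hω S hS
  have B2 := s5_tail_bad k hp (fun j => ((d₂ j : ℂ) - z)⁻¹) h1 h2 hta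
  have B3 := s5_tail_bad k hp (fun j => ((d₂ j : ℂ) - z)⁻¹ ^ 2) a2 b2 hta
  have B4 := s5_tail_bad k hp (fun j => ((d₁ j : ℂ) - z)⁻¹ ^ 2) a3 b3 htb
  set E1 : Set (Matrix ι₁ (Ch k) ℝ) := {g | ¬ (imH (s5X k p dinv mr d₁ g z).2.1
        - ((ω * S.card * (1 - |p|) / 2 : ℝ) : ℂ) • (1 : Matrix (Ch k) (Ch k) ℂ)).PosSemidef} with hE1
  set E2 : Set (Matrix ι₂ (Ch k) ℝ) := {g | ta ^ 2 < hsqC (toC (chA k p) * (toC g)ᵀ
        * (Matrix.diagonal fun j => ((d₂ j : ℂ) - z)⁻¹) * toC g * (toC (chA k p))ᵀ)} with hE2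
  set E3 : Set (Matrix ι₂ (Ch k) ℝ) := {g | ta ^ 2 < hsqC (toC (chA k p) * (toC g)ᵀ
        * (Matrix.diagonal fun j => ((d₂ j : ℂ) - z)⁻¹ ^ 2) * toC g * (toC (chA k p))ᵀ)} with hE3
  set E4 : Set (Matrix ι₁ (Ch k) ℝ) := {g | tb ^ 2 < hsqC (toC (chA k p) * (toC g)ᵀ
        * (Matrix.diagonal fun j => ((d₁ j : ℂ) - z)⁻¹ ^ 2) * toC g * (toC (chA k p))ᵀ)} with hE4
  have hsub : (s5FGood k p dinv mr d₁ d₂ z (ω * S.card * (1 - |p|) / 2) ta tb)ᶜ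
      ⊆ ((E1 ×ˢ Set.univ ∪ Set.univ ×ˢ E2) ∪ Set.univ ×ˢ E3) ∪ E4 ×ˢ Set.univ := by
    intro g hg
    by_contra hcon
    simp only [Set.mem_union, Set.mem_prod, Set.mem_univ, and_true, true_and, not_or] at hcon
    obtain ⟨⟨⟨c1, c2⟩, c3⟩, c4⟩ := hcon
    refine hg ⟨?_, ?_, ?_, ?_⟩
    · exact not_not.1 c1
    · exact not_lt.1 c2
    · exact not_lt.1 c3
    · exact not_lt.1 c4
  refine (measure_mono hsub).trans ?_
  have hk : (0 : ℝ) ≤ k := Nat.cast_nonneg k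
  have p1 : 0 ≤ 4 * (4 * (k : ℝ) ^ 2 + 2 * k) / S.card := by positivity
  have p2 : 0 ≤ 4 * (2 * k * σ₁ ^ 2 + (4 * (k : ℝ) ^ 2 + 2 * k) * σ₂) / ta ^ 2 := by positivity
  have p3 : 0 ≤ 4 * (2 * k * σ₂ ^ 2 + (4 * (k : ℝ) ^ 2 + 2 * k) * σ₂ ^ 2) / ta ^ 2 := by positivity
  have p4 : 0 ≤ 4 * (2 * k * σ₃ ^ 2 + (4 * (k : ℝ) ^ 2 + 2 * k) * σ₃ ^ 2) / tb ^ 2 := by positivity
  unfold s5fbad
  rw [ENNReal.ofReal_add (by positivity) p4, ENNReal.ofReal_add (by positivity) p3,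
    ENNReal.ofReal_add p1 p2]
  refine (measure_union_le _ _).trans (add_le_add ((measure_union_le _ _).trans
    (add_le_add ((measure_union_le _ _).trans (add_le_add ?_ ?_)) ?_)) ?_)
  · rw [Measure.prod_prod, measure_univ, mul_one]
    exact B1
  · rw [Measure.prod_prod, measure_univ, one_mul]
    exact B2
  · rw [Measure.prod_prod, measure_univ, one_mul]
    exact B3
  · rw [Measure.prod_prod, measure_univ, mul_one]
    exact B4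

theorem s5_p8_toC_meas {X ι κ : Type} [MeasurableSpace X] {f : X → Matrix ι κ ℝ} (hf : Measurable f) :
    Measurable fun x => toC (f x) :=
  s5y_meas_of_entries fun i j => Complex.measurable_ofReal.comp ((s5y_entry_meas i j).comp hf)

theorem s5_p8_add_meas {X ι κ : Type} [MeasurableSpace X] {f g : X → Matrix ι κ ℂ} (hf : Measurable f)
    (hg : Measurable g) : Measurable fun x => f x + g x :=
  s5y_meas_of_entries fun i j => ((s5y_entry_meas i j).comp hf).add ((s5y_entry_meas i j).comp hg)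

theorem s5_p8_marked_meas {X ι κ : Type} [MeasurableSpace X] [Fintype ι] [DecidableEq ι] [Fintype κ]
    {f : X → Matrix ι κ ℝ} (hf : Measurable f) (A : Matrix κ κ ℂ) (w : ι → ℂ) :
    Measurable fun x => A * (toC (f x))ᵀ * Matrix.diagonal w * toC (f x) * Aᵀ :=
  s5y_mul_meas (s5y_mul_meas (s5y_mul_meas (s5y_mul_meas measurable_const
    (s5y_transpose_meas (s5_p8_toC_meas hf))) measurable_const) (s5_p8_toC_meas hf)) measurable_const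

theorem s5_p8_X_meas {X ι : Type} [MeasurableSpace X] [Fintype ι] [DecidableEq ι] (k : ℕ)
    (p dinv mr : ℝ) (d : ι → ℝ) (z : ℂ) {f : X → Matrix ι (Ch k) ℝ} (hf : Measurable f) :
    Measurable fun x => s5X k p dinv mr d (f x) z :=
  Measurable.prodMk measurable_const (Measurable.prodMk
    (s5_p8_add_meas measurable_const (s5_p8_marked_meas hf _ _)) (s5_p8_marked_meas hf _ _))

theorem s5_p8_Tail_meas {X ι : Type} [MeasurableSpace X] [Fintype ι] [DecidableEq ι] (k : ℕ)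
    (p : ℝ) (d : ι → ℝ) (z : ℂ) {f : X → Matrix ι (Ch k) ℝ} (hf : Measurable f) :
    Measurable fun x => s5Tail k p d (f x) z :=
  Measurable.prodMk measurable_const (Measurable.prodMk
    (s5_p8_marked_meas hf _ _) (s5_p8_marked_meas hf _ _))

theorem s5_p8_St_add_meas {X : Type} [MeasurableSpace X] {k : ℕ} {f g : X → SwSt k}
    (hf : Measurable f) (hg : Measurable g) : Measurable fun x => f x + g x :=
  Measurable.prodMk (hf.fst.add hg.fst) (Measurable.prodMk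
    (s5_p8_add_meas hf.snd.fst hg.snd.fst) (s5_p8_add_meas hf.snd.snd hg.snd.snd))

/-- F9. Channel representations of the two inner integrals on the product space of the marks (D2a, F1, F2, `integral_map`;
for the small one the far marks integrate out: `integral_prod`/`integral_fun_fst`), and measurability of the integrands (A7, D3-type). -/
theorem s5_first_repr {p dinv mr : ℝ} {r : ℕ} {O : Matrix (Fin (2 * r)) (Fin (2 * r)) ℝ}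
    {β : ℝ} (hβ : 0 < β) (hdet : IsUnit (1 + chB O * chK (2 * r) p dinv mr).det)
    (hsym : (chGam O p dinv mr)ᵀ = chGam O p dinv mr) (htr : Matrix.trace (chGam O p dinv mr) = 0)
    (hsq : chGam O p dinv mr * chGam O p dinv mr = (β ^ 2) • (1 : Matrix (Ch (2 * r)) (Ch (2 * r)) ℝ))
    {b : ℕ} {z : Fin b → ℂ} (hz : ∀ i, 0 < (z i).im) {Φ : (Fin b → ℂ) → ℝ} (hΦ : BLip Φ)
    (d₁ : ι₁ → ℝ) (d₂ : ι₂ → ℝ) :
    (s5cx mr z Φ β (2 * r) (Sum.elim d₁ d₂)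
      = ∫ g, Φ (fun i => (swT O (s5X (2 * r) p dinv mr d₁ g.1 (z i)
            + s5Tail (2 * r) p d₂ g.2 (z i))).1)
          ∂((gArr ι₁ (Ch (2 * r))).prod (gArr ι₂ (Ch (2 * r))))) ∧
    (s5cx mr z Φ β (2 * r) d₁
      = ∫ g, Φ (fun i => (swT O (s5X (2 * r) p dinv mr d₁ g.1 (z i))).1)
          ∂((gArr ι₁ (Ch (2 * r))).prod (gArr ι₂ (Ch (2 * r))))) ∧
    (Measurable fun g : Matrix ι₁ (Ch (2 * r)) ℝ × Matrix ι₂ (Ch (2 * r)) ℝ =>
      Φ (fun i => (swT O (s5X (2 * r) p dinv mr d₁ g.1 (z i) + s5Tail (2 * r) p d₂ g.2 (z i))).1)) ∧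
    (Measurable fun g : Matrix ι₁ (Ch (2 * r)) ℝ × Matrix ι₂ (Ch (2 * r)) ℝ =>
      Φ (fun i => (swT O (s5X (2 * r) p dinv mr d₁ g.1 (z i))).1)) := by
  have := s5_gArr_prob ι₁ (Ch (2 * r))
  have := s5_gArr_prob ι₂ (Ch (2 * r))
  have m1 : Measurable fun g : Matrix ι₁ (Ch (2 * r)) ℝ × Matrix ι₂ (Ch (2 * r)) ℝ =>
      Φ (fun i => (swT O (s5X (2 * r) p dinv mr d₁ g.1 (z i) + s5Tail (2 * r) p d₂ g.2 (z i))).1) :=
    hΦ.continuous.measurable.comp (measurable_pi_lambda _ fun i =>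
      ((s5_swT_measurable O).comp (s5_p8_St_add_meas
        (s5_p8_X_meas (2 * r) p dinv mr d₁ (z i) measurable_fst)
        (s5_p8_Tail_meas (2 * r) p d₂ (z i) measurable_snd))).fst)
  have m2 : Measurable fun g : Matrix ι₁ (Ch (2 * r)) ℝ × Matrix ι₂ (Ch (2 * r)) ℝ =>
      Φ (fun i => (swT O (s5X (2 * r) p dinv mr d₁ g.1 (z i))).1) :=
    hΦ.continuous.measurable.comp (measurable_pi_lambda _ fun i =>
      ((s5_swT_measurable O).comp (s5_p8_X_meas (2 * r) p dinv mr d₁ (z i) measurable_fst)).fst)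
  refine ⟨?_, ?_, m1, m2⟩
  · rw [← s5_cx_chan hβ hdet hsym htr hsq hz hΦ (Sum.elim d₁ d₂), ← s5_gArr_rows]
    have hm : Measurable fun g : Matrix (ι₁ ⊕ ι₂) (Ch (2 * r)) ℝ =>
        (g.submatrix Sum.inl id, g.submatrix Sum.inr id) :=
      Measurable.prodMk (s5y_meas_of_entries fun i j => s5y_entry_meas (Sum.inl i) j)
        (s5y_meas_of_entries fun i j => s5y_entry_meas (Sum.inr i) j)
    rw [integral_map hm.aemeasurable m1.aestronglyMeasurable]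
    simp only [s5_X_sum]
  · rw [← s5_cx_chan hβ hdet hsym htr hsq hz hΦ d₁]
    have h := integral_fun_fst (μ := gArr ι₁ (Ch (2 * r))) (ν := gArr ι₂ (Ch (2 * r)))
      (fun g : Matrix ι₁ (Ch (2 * r)) ℝ => Φ (fun i => (swT O (s5X (2 * r) p dinv mr d₁ g (z i))).1))
    rw [h]
    simp

/-- F9'. Union bound over finitely many spectral parameters. -/
theorem s5_iInter_compl_le {X : Type} [MeasurableSpace X] (μ : Measure X) {b : ℕ} (G : Fin b → Set X)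
    {δ : ℝ} (hδ : 0 ≤ δ) (h : ∀ i, μ (G i)ᶜ ≤ ENNReal.ofReal δ) :
    μ (⋂ i, G i)ᶜ ≤ ENNReal.ofReal (b * δ) := by
  rw [Set.compl_iInter]
  calc μ (⋃ i, (G i)ᶜ) ≤ ∑ i, μ (G i)ᶜ := measure_iUnion_fintype_le μ _
    _ ≤ ∑ _i : Fin b, ENNReal.ofReal δ := Finset.sum_le_sum fun i _ => h i
    _ = ENNReal.ofReal (b * δ) := by
      rw [Finset.sum_const, Finset.card_univ, Fintype.card_fin, nsmul_eq_mul,
        ENNReal.ofReal_mul (by positivity), ENNReal.ofReal_natCast]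

/-- F10 (**first cut for fixed positions, abstract sites**). -/
theorem s5_first_fixed {p dinv mr : ℝ} {r : ℕ} {O : Matrix (Fin (2 * r)) (Fin (2 * r)) ℝ}
    {β : ℝ} (hβ : 0 < β) (hdet : IsUnit (1 + chB O * chK (2 * r) p dinv mr).det)
    (hsym : (chGam O p dinv mr)ᵀ = chGam O p dinv mr) (htr : Matrix.trace (chGam O p dinv mr) = 0)
    (hsq : chGam O p dinv mr * chGam O p dinv mr = (β ^ 2) • (1 : Matrix (Ch (2 * r)) (Ch (2 * r)) ℝ))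
    (hB : IsUnit (chB O).det)
    {b : ℕ} {z : Fin b → ℂ} (hz : ∀ i, 0 < (z i).im) {Φ : (Fin b → ℂ) → ℝ} (hΦ : BLip Φ)
    (d₁ : ι₁ → ℝ) (d₂ : ι₂ → ℝ) {c ta tb σ₁ ε δ : ℝ} (hc : 0 < c) (hta : 0 ≤ ta) (htb : 0 ≤ tb)
    (hε0 : 0 ≤ ε) (hδ0 : 0 ≤ δ) (hσ : ∀ i, ‖∑ j, ((d₂ j : ℂ) - z i)⁻¹‖ ≤ σ₁)
    (hε : σ₁ + 2 * ((2 * r : ℕ) : ℝ) * (ta / c + ta * tb / c ^ 2) ≤ ε)
    (hbad : ∀ i, ((gArr ι₁ (Ch (2 * r))).prod (gArr ι₂ (Ch (2 * r))))
        (s5FGood (2 * r) p dinv mr d₁ d₂ (z i) c ta tb)ᶜ ≤ ENNReal.ofReal δ) :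
    |s5cx mr z Φ β (2 * r) (Sum.elim d₁ d₂) - s5cx mr z Φ β (2 * r) d₁| ≤ ε + 2 * (b * δ) := by
  have := s5_gArr_prob ι₁ (Ch (2 * r))
  have := s5_gArr_prob ι₂ (Ch (2 * r))
  obtain ⟨e1, e2, m1, m2⟩ := s5_first_repr hβ hdet hsym htr hsq hz hΦ d₁ d₂
  rw [e1, e2]
  refine s5_int_split m1 m2 (fun _ => hΦ.bdd _) (fun _ => hΦ.bdd _) hε0 (by positivity)
    (s5_iInter_compl_le _ _ hδ0 hbad) fun g hg => ?_
  refine (hΦ.lip _ _).trans ?_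
  rw [pi_norm_le_iff_of_nonneg hε0]
  intro i
  exact (s5_first_det hB (hz i) hc hta htb (hσ i) (Set.mem_iInter.mp hg i)).trans hε

end chan

/-- (W7, needed already in W6) -/
theorem s5_card_sub51 {R L : ℕ} (h : R ≤ L) :
    (Finset.univ.filter fun i : Win L => |wIdx i| ≤ (R : ℤ)).card = 2 * R + 1 := by
  have e : (Finset.univ.filter fun i : Win L => |wIdx i| ≤ (R : ℤ)).map Fin.valEmbedding = Finset.Icc (L - R) (L + R) := by
    ext a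
    simp only [Finset.mem_map, Finset.mem_filter, Finset.mem_univ, true_and, Fin.valEmbedding_apply, Finset.mem_Icc, wIdx, abs_le]
    constructor
    · rintro ⟨i, hi, rfl⟩
      omega
    · intro ha
      exact ⟨⟨a, by omega⟩, by constructor <;> (simp only []; omega), rfl⟩
  rw [← Finset.card_map Fin.valEmbedding, e, Nat.card_Icc]
  omega

/-- sums over the far labels, paired (any commutative monoid, natural labels) -/
theorem s5_sum_far51 {M : Type} [AddCommMonoid M] (K L : ℕ) (f : ℤ → M) :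
    ∑ i : Far K L, f (wIdx i.1) = ∑ j ∈ Finset.Icc (K + 1) L, (f (j : ℤ) + f (-(j : ℤ))) := by
  classical
  have e0 : ∑ i : Far K L, f (wIdx i.1) = ∑ i ∈ Finset.univ.filter (fun i : Win L => (K : ℤ) < |wIdx i|), f (wIdx i) :=
    (Finset.sum_subtype (Finset.univ.filter fun i : Win L => (K : ℤ) < |wIdx i|) (by simp) fun i => f (wIdx i)).symm
  have e1 : Finset.univ.filter (fun i : Win L => (K : ℤ) < |wIdx i|)
      = Finset.univ.filter (fun i : Win L => (K : ℤ) < wIdx i) ∪ Finset.univ.filter (fun i : Win L => (K : ℤ) < -wIdx i) := by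
    rw [← Finset.filter_or]
    refine Finset.filter_congr fun i _ => lt_abs
  have hd : Disjoint (Finset.univ.filter (fun i : Win L => (K : ℤ) < wIdx i)) (Finset.univ.filter (fun i : Win L => (K : ℤ) < -wIdx i)) := by
    rw [Finset.disjoint_filter]
    intro i _ h1 h2
    omega
  rw [e0, e1, Finset.sum_union hd, Finset.sum_add_distrib]
  congr 1
  · refine Finset.sum_bij (fun i _ => i.val - L) (fun i hi => ?_) (fun i hi j hj hij => ?_) (fun j hj => ?_) (fun i hi => ?_)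
    · have := i.isLt
      simp only [Finset.mem_filter, Finset.mem_univ, true_and] at hi
      simp only [wIdx] at hi
      rw [Finset.mem_Icc]; omega
    · simp only [Finset.mem_filter, Finset.mem_univ, true_and] at hi hj
      simp only [wIdx] at hi hj
      exact Fin.ext (by omega)
    · rw [Finset.mem_Icc] at hj
      refine ⟨⟨j + L, by omega⟩, ?_, by simp⟩
      simp only [Finset.mem_filter, Finset.mem_univ, true_and]
      simp only [wIdx]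
      push_cast; omega
    · simp only [Finset.mem_filter, Finset.mem_univ, true_and] at hi
      simp only [wIdx] at hi
      congr 1
      simp only [wIdx]; omega
  · refine Finset.sum_bij (fun i _ => L - i.val) (fun i hi => ?_) (fun i hi j hj hij => ?_) (fun j hj => ?_) (fun i hi => ?_)
    · have := i.isLt
      simp only [Finset.mem_filter, Finset.mem_univ, true_and] at hi
      simp only [wIdx] at hi
      rw [Finset.mem_Icc]; omega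
    · simp only [Finset.mem_filter, Finset.mem_univ, true_and] at hi hj
      simp only [wIdx] at hi hj
      exact Fin.ext (by omega)
    · rw [Finset.mem_Icc] at hj
      refine ⟨⟨L - j, by omega⟩, ?_, by simp only []; omega⟩
      simp only [Finset.mem_filter, Finset.mem_univ, true_and]
      simp only [wIdx]
      omega
    · simp only [Finset.mem_filter, Finset.mem_univ, true_and] at hi
      simp only [wIdx] at hi
      congr 1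
      simp only [wIdx]; omega

/-- `∑_{L < j ≤ L'} 1/j² ≤ 1/L` -/
theorem s5_sum_sq51 {L : ℕ} (hL : 1 ≤ L) (L' : ℕ) : ∑ j ∈ Finset.Icc (L + 1) L', (1 / (j : ℝ)) ^ 2 ≤ 1 / (L : ℝ) := by
  rcases Nat.lt_or_ge L' L with h | h
  · rw [Finset.Icc_eq_empty (by omega)]; simp
  have key : ∑ j ∈ Finset.Icc (L + 1) L', (1 / (j : ℝ)) ^ 2 ≤ 1 / (L : ℝ) - 1 / (L' : ℝ) := by
    induction L', h using Nat.le_induction with
    | base => simp
    | succ n hn ih =>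
      rw [Finset.sum_Icc_succ_top (by omega)]
      have hn0 : (0 : ℝ) < n := by exact_mod_cast (by omega : 0 < n)
      have : (1 / ((n + 1 : ℕ) : ℝ)) ^ 2 ≤ 1 / (n : ℝ) - 1 / ((n + 1 : ℕ) : ℝ) := by
        push_cast
        rw [div_sub_div _ _ hn0.ne' (by positivity), div_pow, one_pow, div_le_div_iff₀ (by positivity) (by positivity)]
        nlinarith
      linarith
  have : (0 : ℝ) ≤ 1 / (L' : ℝ) := by positivity
  linarith

/-- one step of the comparison with the integral of `t^(-1-χ)` -/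
theorem s5_rpow_step51 {χ s : ℝ} (hχ : 0 < χ) (hs : 1 < s) : χ * s ^ (-1 - χ) + s ^ (-χ) ≤ (s - 1) ^ (-χ) := by
  have hs0 : 0 < s := by linarith
  set u : ℝ := (s - 1) / s with hu
  have hu0 : 0 < u := div_pos (by linarith) hs0
  have e1 : s - 1 = s * u := by rw [hu]; field_simp
  have h1 : Real.log u ≤ -(1 / s) := by
    have := Real.log_le_sub_one_of_pos hu0
    have e : u - 1 = -(1 / s) := by rw [hu]; field_simp; ring
    linarith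
  have h2 : 1 + χ / s ≤ u ^ (-χ) := by
    rw [Real.rpow_def_of_pos hu0]
    have := Real.add_one_le_exp (Real.log u * -χ)
    have h3 : χ / s ≤ Real.log u * -χ := by
      have := mul_le_mul_of_nonneg_right h1 hχ.le
      have e : -(1 / s) * χ = -(χ / s) := by ring
      nlinarith
    linarith
  rw [e1, Real.mul_rpow hs0.le hu0.le]
  have e2 : s ^ (-1 - χ) = s ^ (-χ) / s := by
    rw [show (-1 - χ) = -χ - 1 by ring, Real.rpow_sub hs0, Real.rpow_one]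
  have hp : 0 < s ^ (-χ) := Real.rpow_pos_of_pos hs0 _
  calc χ * s ^ (-1 - χ) + s ^ (-χ) = s ^ (-χ) * (1 + χ / s) := by rw [e2]; ring
    _ ≤ s ^ (-χ) * u ^ (-χ) := mul_le_mul_of_nonneg_left h2 hp.le

/-- `∑_{L < j ≤ L'} j^(-1-χ) ≤ L^(-χ)/χ` -/
theorem s5_sum_rpow51 {χ : ℝ} (hχ : 0 < χ) {L : ℕ} (hL : 1 ≤ L) (L' : ℕ) :
    ∑ j ∈ Finset.Icc (L + 1) L', (j : ℝ) ^ (-1 - χ) ≤ (L : ℝ) ^ (-χ) / χ := by
  have hL0 : (0 : ℝ) < L := by exact_mod_cast (by omega : 0 < L)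
  rcases Nat.lt_or_ge L' L with h | h
  · rw [Finset.Icc_eq_empty (by omega)]
    simp only [Finset.sum_empty]
    exact div_nonneg (Real.rpow_pos_of_pos hL0 _).le hχ.le
  have key : ∑ j ∈ Finset.Icc (L + 1) L', (j : ℝ) ^ (-1 - χ) ≤ ((L : ℝ) ^ (-χ) - (L' : ℝ) ^ (-χ)) / χ := by
    induction L', h using Nat.le_induction with
    | base => simp
    | succ n hn ih =>
      rw [Finset.sum_Icc_succ_top (by omega)]
      have hn1 : (1 : ℝ) ≤ n := by exact_mod_cast (by omega : 1 ≤ n)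
      have := s5_rpow_step51 (s := ((n + 1 : ℕ) : ℝ)) hχ (by push_cast; linarith)
      have e : ((n + 1 : ℕ) : ℝ) - 1 = n := by push_cast; ring
      rw [e] at this
      rw [le_div_iff₀ hχ] at ih ⊢
      nlinarith
  have h0 : 0 ≤ (L' : ℝ) ^ (-χ) := Real.rpow_nonneg (Nat.cast_nonneg _) _
  refine key.trans (div_le_div_of_nonneg_right (by linarith) hχ.le)


/-- the far labels of a regular configuration, uniformly in the configuration -/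
theorem s5_reg_far51 {ρ χ C₀ : ℝ} (hρ : 0 < ρ) (hχ : 0 < χ) (J₀ : ℕ) (z : ℂ) :
    ∃ N₁ : ℕ, 1 ≤ N₁ ∧ ∀ x : Conf, CReg ρ χ C₀ J₀ x → ∀ n : ℕ, N₁ ≤ n →
      (n : ℝ) / (2 * ρ) ≤ ‖((x (n : ℤ) : ℝ) : ℂ) - z‖ ∧ (n : ℝ) / (2 * ρ) ≤ ‖((x (-(n : ℤ)) : ℝ) : ℂ) - z‖ ∧
      |x (n : ℤ) + x (-(n : ℤ))| ≤ 2 * |C₀| * (n : ℝ) ^ (1 - χ) ∧
      x (n : ℤ) ≤ 5 * (n : ℝ) / (4 * ρ) ∧ -(5 * (n : ℝ) / (4 * ρ)) ≤ x (-(n : ℤ)) ∧ ‖z‖ ≤ (n : ℝ) / (4 * ρ) := by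
  obtain ⟨T, hT⟩ := eventually_atTop.1 ((tendsto_rpow_atTop hχ).eventually_ge_atTop (4 * ρ * |C₀|))
  refine ⟨max J₀ (max 1 (max ⌈T⌉₊ ⌈4 * ρ * ‖z‖⌉₊)), (le_max_left _ _).trans (le_max_right _ _), ?_⟩
  intro x hx n hn
  have hnJ : J₀ ≤ n := (le_max_left _ _).trans hn
  have hn1 : 1 ≤ n := ((le_max_left _ _).trans (le_max_right _ _)).trans hn
  have hnT : ⌈T⌉₊ ≤ n := ((le_max_left _ _).trans ((le_max_right _ _).trans (le_max_right _ _))).trans hn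
  have hnz : ⌈4 * ρ * ‖z‖⌉₊ ≤ n := ((le_max_right _ _).trans ((le_max_right _ _).trans (le_max_right _ _))).trans hn
  set t : ℝ := (n : ℝ) with ht
  have ht1 : 1 ≤ t := by rw [ht]; exact_mod_cast hn1
  have ht0 : 0 < t := by linarith
  have hTt : T ≤ t := (Nat.le_ceil T).trans (by rw [ht]; exact_mod_cast hnT)
  have hzt : 4 * ρ * ‖z‖ ≤ t := (Nat.le_ceil _).trans (by rw [ht]; exact_mod_cast hnz)
  have h5 : 4 * ρ * |C₀| ≤ t ^ χ := hT t hTt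
  have h6 : |C₀| * t ^ (1 - χ) ≤ t / (4 * ρ) := by
    have e1 : t ^ (1 - χ) = t / t ^ χ := by rw [Real.rpow_sub ht0, Real.rpow_one]
    have hp : 0 < t ^ χ := Real.rpow_pos_of_pos ht0 _
    rw [e1, mul_div_assoc', div_le_div_iff₀ hp (by positivity)]
    nlinarith
  have h7 : ‖z‖ ≤ t / (4 * ρ) := by
    rw [le_div_iff₀ (by positivity)]; linarith
  have hpw : 0 ≤ t ^ (1 - χ) := Real.rpow_nonneg ht0.le _
  have a1 : |x (n : ℤ) - t / ρ| ≤ |C₀| * t ^ (1 - χ) := by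
    have := hx.2 (n : ℤ) (by rw [abs_of_nonneg (by positivity)]; exact_mod_cast hnJ)
    simp only [Int.cast_natCast, Nat.abs_cast] at this
    exact this.trans (mul_le_mul_of_nonneg_right (le_abs_self _) hpw)
  have a2 : |x (-(n : ℤ)) + t / ρ| ≤ |C₀| * t ^ (1 - χ) := by
    have := hx.2 (-(n : ℤ)) (by rw [abs_neg, abs_of_nonneg (by positivity)]; exact_mod_cast hnJ)
    simp only [Int.cast_neg, Int.cast_natCast, abs_neg, Nat.abs_cast, neg_div, sub_neg_eq_add] at this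
    exact this.trans (mul_le_mul_of_nonneg_right (le_abs_self _) hpw)
  rw [abs_le] at a1 a2
  have e4 : t / ρ = 4 * (t / (4 * ρ)) := by field_simp
  have e5 : 5 * t / (4 * ρ) = 5 * (t / (4 * ρ)) := by ring
  have e2 : t / (2 * ρ) = 2 * (t / (4 * ρ)) := by field_simp; ring
  have hq : 0 < t / (4 * ρ) := by positivity
  refine ⟨?_, ?_, ?_, by rw [e5]; linarith [a1.2], by rw [e5]; linarith [a2.1], h7⟩
  · have h8 : ‖((x (n : ℤ) : ℝ) : ℂ)‖ - ‖z‖ ≤ ‖((x (n : ℤ) : ℝ) : ℂ) - z‖ := norm_sub_norm_le _ _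
    rw [Complex.norm_real, Real.norm_eq_abs] at h8
    have h9 : x (n : ℤ) ≤ |x (n : ℤ)| := le_abs_self _
    rw [e2]; linarith [a1.1]
  · have h8 : ‖((x (-(n : ℤ)) : ℝ) : ℂ)‖ - ‖z‖ ≤ ‖((x (-(n : ℤ)) : ℝ) : ℂ) - z‖ := norm_sub_norm_le _ _
    rw [Complex.norm_real, Real.norm_eq_abs] at h8
    have h9 : -x (-(n : ℤ)) ≤ |x (-(n : ℤ))| := neg_le_abs _
    rw [e2]; linarith [a2.2]
  · rw [abs_le]; constructor <;> linarith [a1.1, a1.2, a2.1, a2.2]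

/-- W6 (tails under `CReg`, complex weights). There are `C, K₁` (depending on `ρ, χ, C₀, J₀, z`) with, for all regular `x`,
`K₁ ≤ L ≤ L'`: `|∑_{L<|j|≤L'} 1/(x_j - z)| ≤ C L^{-χ}`, `∑_{L<|j|≤L'} 1/|x_j - z|² ≤ C/L`,
`∑_{|j| ≤ L'} 1/|x_j - z|² ≤ C`, and `Im 1/(x_j - z) ≥ 1/(C L²)` for `|j| ≤ L`. -/
theorem s5_reg_tails {ρ χ C₀ : ℝ} (hρ : 0 < ρ) (hχ : 0 < χ) (hχ1 : χ < 1) (J₀ : ℕ) {z : ℂ}
    (hz : 0 < z.im) :
    ∃ (C : ℝ) (K₁ : ℕ), 0 < C ∧ 1 ≤ K₁ ∧ ∀ x : Conf, CReg ρ χ C₀ J₀ x → ∀ L L' : ℕ, K₁ ≤ L → L ≤ L' →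
      (‖∑ i : Far L L', ((farPos L L' x i : ℂ) - z)⁻¹‖ ≤ C * (L : ℝ) ^ (-χ)) ∧
      (∑ i : Far L L', ‖((farPos L L' x i : ℂ) - z)⁻¹‖ ^ 2 ≤ C / L) ∧
      (∑ i : Win L', ‖((cPos L' x i : ℂ) - z)⁻¹‖ ^ 2 ≤ C) ∧
      (∀ j : ℤ, |j| ≤ (L : ℤ) → 1 / (C * (L : ℝ) ^ 2) ≤ (((x j : ℂ) - z)⁻¹).im) := by
  obtain ⟨N₁, hN1, hfar⟩ := s5_reg_far51 (C₀ := C₀) hρ hχ J₀ z
  set A₁ : ℝ := 4 * ρ ^ 2 * (2 * |C₀| + 2 * ‖z‖) with hA₁
  have hA₁0 : 0 ≤ A₁ := by positivity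
  set c1 : ℝ := A₁ / χ with hc1
  set c2 : ℝ := 8 * ρ ^ 2 with hc2
  set c3 : ℝ := (2 * (N₁ : ℝ) + 1) / z.im ^ 2 with hc3
  set c4 : ℝ := 9 / (4 * ρ ^ 2 * z.im) with hc4
  have hc10 : 0 ≤ c1 := by positivity
  have hc20 : 0 < c2 := by positivity
  have hc30 : 0 < c3 := by positivity
  have hc40 : 0 < c4 := by positivity
  -- the far sum of squares
  have hsq : ∀ x : Conf, CReg ρ χ C₀ J₀ x → ∀ L L' : ℕ, N₁ ≤ L →
      ∑ i : Far L L', ‖((farPos L L' x i : ℂ) - z)⁻¹‖ ^ 2 ≤ c2 / L := by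
    intro x hx L L' hL
    have e := s5_sum_far51 L L' fun j => ‖(((x j : ℝ) : ℂ) - z)⁻¹‖ ^ 2
    have e' : ∑ i : Far L L', ‖((farPos L L' x i : ℂ) - z)⁻¹‖ ^ 2 = ∑ i : Far L L', ‖(((x (wIdx i.1) : ℝ) : ℂ) - z)⁻¹‖ ^ 2 := rfl
    rw [e', e]
    have hb : ∀ j ∈ Finset.Icc (L + 1) L', ‖(((x (j : ℤ) : ℝ) : ℂ) - z)⁻¹‖ ^ 2 + ‖(((x (-(j : ℤ)) : ℝ) : ℂ) - z)⁻¹‖ ^ 2 ≤ c2 * (1 / (j : ℝ)) ^ 2 := by
      intro j hj
      rw [Finset.mem_Icc] at hj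
      obtain ⟨p1, p2, -, -, -, -⟩ := hfar x hx j (by omega)
      have hj0 : (0 : ℝ) < j := by exact_mod_cast (by omega : 0 < j)
      have hq : 0 < (j : ℝ) / (2 * ρ) := by positivity
      have i1 : ‖(((x (j : ℤ) : ℝ) : ℂ) - z)⁻¹‖ ≤ ((j : ℝ) / (2 * ρ))⁻¹ := by
        rw [norm_inv]; exact inv_anti₀ hq p1
      have i2 : ‖(((x (-(j : ℤ)) : ℝ) : ℂ) - z)⁻¹‖ ≤ ((j : ℝ) / (2 * ρ))⁻¹ := by
        rw [norm_inv]; exact inv_anti₀ hq p2
      have s1 := pow_le_pow_left₀ (norm_nonneg _) i1 2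
      have s2 := pow_le_pow_left₀ (norm_nonneg _) i2 2
      have e3 : c2 * (1 / (j : ℝ)) ^ 2 = (((j : ℝ) / (2 * ρ))⁻¹) ^ 2 + (((j : ℝ) / (2 * ρ))⁻¹) ^ 2 := by
        rw [hc2]; field_simp; ring
      rw [e3]; linarith
    refine (Finset.sum_le_sum hb).trans ?_
    rw [← Finset.mul_sum, div_eq_mul_one_div]
    exact mul_le_mul_of_nonneg_left (s5_sum_sq51 (by omega) L') hc20.le
  refine ⟨c1 + c2 + c3 + c4, N₁, by positivity, hN1, ?_⟩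
  intro x hx L L' hL hLL'
  have hL0 : (0 : ℝ) < L := by exact_mod_cast (by omega : 0 < L)
  have hL1 : (1 : ℝ) ≤ L := by exact_mod_cast (by omega : 1 ≤ L)
  refine ⟨?_, ?_, ?_, ?_⟩
  · -- the paired sum
    have e := s5_sum_far51 L L' fun j => (((x j : ℝ) : ℂ) - z)⁻¹
    have e' : ∑ i : Far L L', ((farPos L L' x i : ℂ) - z)⁻¹ = ∑ i : Far L L', (((x (wIdx i.1) : ℝ) : ℂ) - z)⁻¹ := rfl
    rw [e', e]
    have hb : ∀ j ∈ Finset.Icc (L + 1) L', ‖(((x (j : ℤ) : ℝ) : ℂ) - z)⁻¹ + (((x (-(j : ℤ)) : ℝ) : ℂ) - z)⁻¹‖ ≤ A₁ * (j : ℝ) ^ (-1 - χ) := by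
      intro j hj
      rw [Finset.mem_Icc] at hj
      obtain ⟨p1, p2, p3, -, -, -⟩ := hfar x hx j (by omega)
      have hj0 : (0 : ℝ) < j := by exact_mod_cast (by omega : 0 < j)
      have hj1 : (1 : ℝ) ≤ j := by exact_mod_cast (by omega : 1 ≤ j)
      have hq : 0 < (j : ℝ) / (2 * ρ) := by positivity
      set a : ℂ := ((x (j : ℤ) : ℝ) : ℂ) - z with ha
      set b : ℂ := ((x (-(j : ℤ)) : ℝ) : ℂ) - z with hb
      have ha0 : a ≠ 0 := norm_pos_iff.1 (hq.trans_le p1)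
      have hb0 : b ≠ 0 := norm_pos_iff.1 (hq.trans_le p2)
      have e1 : a⁻¹ + b⁻¹ = (a + b) / (a * b) := by field_simp; ring
      have hpw1 : 1 ≤ (j : ℝ) ^ (1 - χ) := Real.one_le_rpow hj1 (by linarith)
      have n1 : ‖a + b‖ ≤ (2 * |C₀| + 2 * ‖z‖) * (j : ℝ) ^ (1 - χ) := by
        have e2 : a + b = ((x (j : ℤ) + x (-(j : ℤ)) : ℝ) : ℂ) - 2 * z := by rw [ha, hb]; push_cast; ring
        rw [e2]
        refine (norm_sub_le _ _).trans ?_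
        rw [Complex.norm_real, Real.norm_eq_abs, norm_mul]
        have : ‖(2 : ℂ)‖ = 2 := by simp
        rw [this]
        nlinarith [norm_nonneg z]
      have n2 : ((j : ℝ) / (2 * ρ)) ^ 2 ≤ ‖a * b‖ := by
        rw [norm_mul, sq]; exact mul_le_mul p1 p2 hq.le (norm_nonneg _)
      rw [e1, norm_div]
      have hpos : 0 < ((j : ℝ) / (2 * ρ)) ^ 2 := by positivity
      calc ‖a + b‖ / ‖a * b‖ ≤ ((2 * |C₀| + 2 * ‖z‖) * (j : ℝ) ^ (1 - χ)) / ((j : ℝ) / (2 * ρ)) ^ 2 :=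
            div_le_div₀ (by positivity) n1 hpos n2
        _ = A₁ * (j : ℝ) ^ (-1 - χ) := by
            have e3 : (j : ℝ) ^ (-1 - χ) = (j : ℝ) ^ (1 - χ) / (j : ℝ) ^ 2 := by
              rw [show (-1 - χ) = (1 - χ) - (2 : ℕ) by push_cast; ring, Real.rpow_sub hj0, Real.rpow_natCast]
            rw [e3, hA₁]; field_simp; ring
    refine (norm_sum_le _ _).trans ((Finset.sum_le_sum hb).trans ?_)
    rw [← Finset.mul_sum]
    have h1 := mul_le_mul_of_nonneg_left (s5_sum_rpow51 hχ (by omega : 1 ≤ L) L') hA₁0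
    have hp : 0 < (L : ℝ) ^ (-χ) := Real.rpow_pos_of_pos hL0 _
    have e4 : A₁ * ((L : ℝ) ^ (-χ) / χ) = c1 * (L : ℝ) ^ (-χ) := by rw [hc1]; ring
    rw [e4] at h1
    refine h1.trans (mul_le_mul_of_nonneg_right (by linarith) hp.le)
  · refine (hsq x hx L L' hL).trans (div_le_div_of_nonneg_right (by linarith) hL0.le)
  · -- the whole window
    classical
    have hN0 : (0 : ℝ) < N₁ := by exact_mod_cast (by omega : 0 < N₁)
    have hN1' : (1 : ℝ) ≤ N₁ := by exact_mod_cast hN1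
    have e' : ∑ i : Win L', ‖((cPos L' x i : ℂ) - z)⁻¹‖ ^ 2 = ∑ i : Win L', ‖(((x (wIdx i) : ℝ) : ℂ) - z)⁻¹‖ ^ 2 := rfl
    rw [e', ← Finset.sum_filter_add_sum_filter_not Finset.univ (fun i : Win L' => |wIdx i| ≤ (N₁ : ℤ))]
    have t1 : ∑ i ∈ Finset.univ.filter (fun i : Win L' => |wIdx i| ≤ (N₁ : ℤ)), ‖(((x (wIdx i) : ℝ) : ℂ) - z)⁻¹‖ ^ 2 ≤ c3 := by
      have hb : ∀ i ∈ Finset.univ.filter (fun i : Win L' => |wIdx i| ≤ (N₁ : ℤ)), ‖(((x (wIdx i) : ℝ) : ℂ) - z)⁻¹‖ ^ 2 ≤ 1 / z.im ^ 2 := by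
        intro i _
        have h1 : z.im ≤ ‖((x (wIdx i) : ℝ) : ℂ) - z‖ := by
          have := Complex.abs_im_le_norm (((x (wIdx i) : ℝ) : ℂ) - z)
          simp only [Complex.sub_im, Complex.ofReal_im, zero_sub, abs_neg] at this
          exact (le_abs_self _).trans this
        rw [norm_inv, inv_pow, one_div]
        exact inv_anti₀ (by positivity) (pow_le_pow_left₀ hz.le h1 2)
      refine (Finset.sum_le_card_nsmul _ _ _ hb).trans (le_of_eq ?_)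
      rw [s5_card_sub51 (hL.trans hLL'), nsmul_eq_mul, hc3]
      push_cast; ring
    have t2 : ∑ i ∈ Finset.univ.filter (fun i : Win L' => ¬ |wIdx i| ≤ (N₁ : ℤ)), ‖(((x (wIdx i) : ℝ) : ℂ) - z)⁻¹‖ ^ 2 ≤ c2 := by
      have e2 : ∑ i ∈ Finset.univ.filter (fun i : Win L' => ¬ |wIdx i| ≤ (N₁ : ℤ)), ‖(((x (wIdx i) : ℝ) : ℂ) - z)⁻¹‖ ^ 2
          = ∑ i : Far N₁ L', ‖((farPos N₁ L' x i : ℂ) - z)⁻¹‖ ^ 2 :=
        Finset.sum_subtype _ (by intro i; simp) fun i => ‖(((x (wIdx i) : ℝ) : ℂ) - z)⁻¹‖ ^ 2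
      rw [e2]
      refine (hsq x hx N₁ L' le_rfl).trans ?_
      rw [div_le_iff₀ hN0]; nlinarith
    linarith
  · intro j hj
    obtain ⟨-, -, -, p4, p5, p6⟩ := hfar x hx L hL
    rw [abs_le] at hj
    have m1 : x j ≤ x (L : ℤ) := hx.1 hj.2
    have m2 : x (-(L : ℤ)) ≤ x j := hx.1 hj.1
    have hq : 0 < (L : ℝ) / (4 * ρ) := by positivity
    have e5 : 5 * (L : ℝ) / (4 * ρ) = 5 * ((L : ℝ) / (4 * ρ)) := by ring
    rw [e5] at p4 p5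
    have n1 : ‖((x j : ℝ) : ℂ) - z‖ ≤ 6 * ((L : ℝ) / (4 * ρ)) := by
      refine (norm_sub_le _ _).trans ?_
      rw [Complex.norm_real, Real.norm_eq_abs]
      have : |x j| ≤ 5 * ((L : ℝ) / (4 * ρ)) := abs_le.2 ⟨by linarith, by linarith⟩
      linarith
    have him : ((((x j : ℝ) : ℂ) - z)⁻¹).im = z.im / ‖((x j : ℝ) : ℂ) - z‖ ^ 2 := by
      rw [Complex.inv_im, Complex.normSq_eq_norm_sq]
      simp
    have hne : 0 < ‖((x j : ℝ) : ℂ) - z‖ := by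
      have := Complex.abs_im_le_norm (((x j : ℝ) : ℂ) - z)
      simp only [Complex.sub_im, Complex.ofReal_im, zero_sub, abs_neg] at this
      exact (hz.trans_le (le_abs_self _)).trans_le this
    rw [him, div_le_div_iff₀ (by positivity) (by positivity), one_mul]
    have n2 : ‖((x j : ℝ) : ℂ) - z‖ ^ 2 ≤ (6 * ((L : ℝ) / (4 * ρ))) ^ 2 := pow_le_pow_left₀ hne.le n1 2
    have e6 : z.im * (c4 * (L : ℝ) ^ 2) = (6 * ((L : ℝ) / (4 * ρ))) ^ 2 := by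
      rw [hc4]; field_simp; ring
    have h3 : z.im * (c4 * (L : ℝ) ^ 2) ≤ z.im * ((c1 + c2 + c3 + c4) * (L : ℝ) ^ 2) :=
      mul_le_mul_of_nonneg_left (mul_le_mul_of_nonneg_right (by linarith) (by positivity)) hz.le
    linarith


/-- W6'. The same for finitely many spectral parameters (induction on `b` or `Finset.sup`: all four bounds are monotone
in `C`, and in `K₁`). -/
theorem s5_reg_tails_fam {ρ χ C₀ : ℝ} (hρ : 0 < ρ) (hχ : 0 < χ) (hχ1 : χ < 1) (J₀ : ℕ) {b : ℕ}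
    {z : Fin b → ℂ} (hz : ∀ i, 0 < (z i).im) :
    ∃ (C : ℝ) (K₁ : ℕ), 0 < C ∧ 1 ≤ K₁ ∧ ∀ x : Conf, CReg ρ χ C₀ J₀ x → ∀ L L' : ℕ, K₁ ≤ L → L ≤ L' →
      ∀ i,
      (‖∑ j : Far L L', ((farPos L L' x j : ℂ) - z i)⁻¹‖ ≤ C * (L : ℝ) ^ (-χ)) ∧
      (∑ j : Far L L', ‖((farPos L L' x j : ℂ) - z i)⁻¹‖ ^ 2 ≤ C / L) ∧
      (∑ j : Win L', ‖((cPos L' x j : ℂ) - z i)⁻¹‖ ^ 2 ≤ C) ∧
      (∀ j : ℤ, |j| ≤ (L : ℤ) → 1 / (C * (L : ℝ) ^ 2) ≤ (((x j : ℂ) - z i)⁻¹).im) := by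
  choose Cf Kf hC hK H using fun i => s5_reg_tails (C₀ := C₀) hρ hχ hχ1 J₀ (hz i)
  have hCi : ∀ i, Cf i ≤ ∑ i, Cf i + 1 := fun i => by
    have := Finset.single_le_sum (f := Cf) (fun i _ => (hC i).le) (Finset.mem_univ i)
    linarith
  have hKi : ∀ i, Kf i ≤ ∑ i, Kf i + 1 := fun i => by
    have := Finset.single_le_sum (f := Kf) (fun i _ => Nat.zero_le _) (Finset.mem_univ i)
    omega
  have hCpos : 0 < ∑ i, Cf i + 1 := by
    have := Finset.sum_nonneg (s := Finset.univ) (f := Cf) fun i _ => (hC i).le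
    linarith
  refine ⟨∑ i, Cf i + 1, ∑ i, Kf i + 1, hCpos, by omega, ?_⟩
  intro x hx L L' hL hLL' i
  obtain ⟨h1, h2, h3, h4⟩ := H i x hx L L' ((hKi i).trans hL) hLL'
  have hL0 : (0 : ℝ) < L := by exact_mod_cast (by omega : 0 < L)
  refine ⟨h1.trans (mul_le_mul_of_nonneg_right (hCi i) (Real.rpow_pos_of_pos hL0 _).le),
    h2.trans (div_le_div_of_nonneg_right (hCi i) hL0.le), h3.trans (hCi i), fun j hj => le_trans ?_ (h4 j hj)⟩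
  have := hC i
  exact one_div_le_one_div_of_le (by positivity) (mul_le_mul_of_nonneg_right (hCi i) (by positivity))


/-- W7. The labels `|j| ≤ R` inside the window `L`. -/
theorem s5_card_sub {R L : ℕ} (h : R ≤ L) :
    (Finset.univ.filter fun i : Win L => |wIdx i| ≤ (R : ℤ)).card = 2 * R + 1 := by
  exact s5_card_sub51 h

/-- pure numbers of the first cut, in `u = 1/r` -/
theorem s5_first_num51 {C q r σ₁ σ₂ c kk nn : ℝ} (hC : 0 < C) (hq : 0 < q) (hr : 1 ≤ r) (hk : kk = 2 * r) (hn : 2 * r ^ 4 ≤ nn)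
    (h1 : 0 ≤ σ₁) (h1' : σ₁ ≤ C * r⁻¹ ^ 100) (h2 : 0 ≤ σ₂) (h2' : σ₂ ≤ C * r⁻¹ ^ 400) (hc : q / (C * r ^ 4) ≤ c) :
    σ₁ + 2 * kk * (r⁻¹ ^ 50 / c + r⁻¹ ^ 50 * r ^ 3 / c ^ 2) ≤ (C + 4 * C / q + 4 * C ^ 2 / q ^ 2) * r⁻¹ ∧
    4 * (4 * kk ^ 2 + 2 * kk) / nn + 4 * (2 * kk * σ₁ ^ 2 + (4 * kk ^ 2 + 2 * kk) * σ₂) / (r⁻¹ ^ 50) ^ 2
        + 4 * (2 * kk * σ₂ ^ 2 + (4 * kk ^ 2 + 2 * kk) * σ₂ ^ 2) / (r⁻¹ ^ 50) ^ 2
        + 4 * (2 * kk * C ^ 2 + (4 * kk ^ 2 + 2 * kk) * C ^ 2) / (r ^ 3) ^ 2 ≤ (40 + 80 * C + 208 * C ^ 2) * r⁻¹ ∧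
    0 ≤ 4 * (4 * kk ^ 2 + 2 * kk) / nn + 4 * (2 * kk * σ₁ ^ 2 + (4 * kk ^ 2 + 2 * kk) * σ₂) / (r⁻¹ ^ 50) ^ 2
        + 4 * (2 * kk * σ₂ ^ 2 + (4 * kk ^ 2 + 2 * kk) * σ₂ ^ 2) / (r⁻¹ ^ 50) ^ 2
        + 4 * (2 * kk * C ^ 2 + (4 * kk ^ 2 + 2 * kk) * C ^ 2) / (r ^ 3) ^ 2 := by
  have hr0 : 0 < r := by linarith
  set u : ℝ := r⁻¹ with hu
  have hu0 : 0 < u := inv_pos.2 hr0
  have hu1 : u ≤ 1 := inv_le_one_of_one_le₀ hr
  have hru : r * u = 1 := mul_inv_cancel₀ hr0.ne'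
  have hpw : ∀ a b : ℕ, a ≤ b → r ^ a * u ^ b = u ^ (b - a) := by
    intro a b hab
    obtain ⟨d, rfl⟩ := Nat.exists_eq_add_of_le hab
    rw [Nat.add_sub_cancel_left, pow_add, ← mul_assoc, ← mul_pow, hru, one_pow, one_mul]
  have hle : ∀ m : ℕ, 1 ≤ m → u ^ m ≤ u := fun m hm => pow_le_of_le_one hu0.le hu1 (by omega)
  have hkk0 : 0 < kk := by rw [hk]; positivity
  have hK2 : 4 * kk ^ 2 + 2 * kk ≤ 20 * r ^ 2 := by rw [hk]; nlinarith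
  have hK20 : 0 < 4 * kk ^ 2 + 2 * kk := by positivity
  have hnn0 : 0 < nn := lt_of_lt_of_le (by positivity) hn
  have hc0 : 0 < q / (C * r ^ 4) := by positivity
  have hcp : 0 < c := hc0.trans_le hc
  have hci : 1 / c ≤ C * r ^ 4 / q := by
    have := one_div_le_one_div_of_le hc0 hc
    rwa [one_div_div] at this
  have hci0 : 0 ≤ 1 / c := by positivity
  have hu50 : (u ^ 50) ^ 2 = u ^ 100 := by rw [← pow_mul]
  have hinv : ∀ X : ℝ, X / (u ^ 50) ^ 2 = X * r ^ 100 := by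
    intro X
    rw [hu50, hu, inv_pow, div_inv_eq_mul]
  have hinv3 : ∀ X : ℝ, X / (r ^ 3) ^ 2 = X * u ^ 6 := by
    intro X
    rw [← pow_mul, hu, inv_pow, div_eq_mul_inv]
  refine ⟨?_, ?_, by positivity⟩
  · -- deterministic error
    have d1 : σ₁ ≤ C * u := h1'.trans (mul_le_mul_of_nonneg_left (hle 100 (by norm_num)) hC.le)
    have d2 : 2 * kk * (u ^ 50 / c) ≤ 4 * C / q * u := by
      have e : 2 * kk * (u ^ 50 / c) = 4 * (r * u ^ 50) * (1 / c) := by rw [hk]; ring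
      rw [e]
      calc 4 * (r * u ^ 50) * (1 / c) ≤ 4 * (r * u ^ 50) * (C * r ^ 4 / q) := mul_le_mul_of_nonneg_left hci (by positivity)
        _ = 4 * C / q * (r ^ 5 * u ^ 50) := by ring
        _ = 4 * C / q * u ^ 45 := by rw [hpw 5 50 (by norm_num)]
        _ ≤ 4 * C / q * u := mul_le_mul_of_nonneg_left (hle 45 (by norm_num)) (by positivity)
    have d3 : 2 * kk * (u ^ 50 * r ^ 3 / c ^ 2) ≤ 4 * C ^ 2 / q ^ 2 * u := by
      have e : 2 * kk * (u ^ 50 * r ^ 3 / c ^ 2) = 4 * (r ^ 4 * u ^ 50) * (1 / c) ^ 2 := by rw [hk]; field_simp; ring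
      rw [e]
      calc 4 * (r ^ 4 * u ^ 50) * (1 / c) ^ 2 ≤ 4 * (r ^ 4 * u ^ 50) * (C * r ^ 4 / q) ^ 2 :=
            mul_le_mul_of_nonneg_left (pow_le_pow_left₀ hci0 hci 2) (by positivity)
        _ = 4 * C ^ 2 / q ^ 2 * (r ^ 12 * u ^ 50) := by ring
        _ = 4 * C ^ 2 / q ^ 2 * u ^ 38 := by rw [hpw 12 50 (by norm_num)]
        _ ≤ 4 * C ^ 2 / q ^ 2 * u := mul_le_mul_of_nonneg_left (hle 38 (by norm_num)) (by positivity)
    have e : σ₁ + 2 * kk * (u ^ 50 / c + u ^ 50 * r ^ 3 / c ^ 2) = σ₁ + 2 * kk * (u ^ 50 / c) + 2 * kk * (u ^ 50 * r ^ 3 / c ^ 2) := by ring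
    rw [e]; linarith
  · have hs1 : σ₁ ^ 2 ≤ C ^ 2 * u ^ 200 := by
      have := pow_le_pow_left₀ h1 h1' 2
      rwa [mul_pow, ← pow_mul] at this
    have hs2 : σ₂ ^ 2 ≤ C ^ 2 * u ^ 800 := by
      have := pow_le_pow_left₀ h2 h2' 2
      rwa [mul_pow, ← pow_mul] at this
    have hr2 : r ≤ r ^ 2 := by nlinarith
    have t1 : 4 * (4 * kk ^ 2 + 2 * kk) / nn ≤ 40 * u := by
      calc 4 * (4 * kk ^ 2 + 2 * kk) / nn ≤ 4 * (20 * r ^ 2) / (2 * r ^ 4) :=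
            div_le_div₀ (by positivity) (by linarith) (by positivity) hn
        _ = 40 * u ^ 2 := by rw [hu]; field_simp; ring
        _ ≤ 40 * u := by have := hle 2 (by norm_num); linarith
    have t2 : 4 * (2 * kk * σ₁ ^ 2 + (4 * kk ^ 2 + 2 * kk) * σ₂) / (u ^ 50) ^ 2 ≤ (16 * C ^ 2 + 80 * C) * u := by
      rw [hinv]
      have a1 : 2 * kk * σ₁ ^ 2 ≤ 4 * r * (C ^ 2 * u ^ 200) := by
        rw [hk]; nlinarith [mul_le_mul_of_nonneg_left hs1 hr0.le]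
      have a2 : (4 * kk ^ 2 + 2 * kk) * σ₂ ≤ 20 * r ^ 2 * (C * u ^ 400) := mul_le_mul hK2 h2' h2 (by positivity)
      calc 4 * (2 * kk * σ₁ ^ 2 + (4 * kk ^ 2 + 2 * kk) * σ₂) * r ^ 100
          ≤ 4 * (4 * r * (C ^ 2 * u ^ 200) + 20 * r ^ 2 * (C * u ^ 400)) * r ^ 100 :=
            mul_le_mul_of_nonneg_right (by linarith) (by positivity)
        _ = 16 * C ^ 2 * (r ^ 101 * u ^ 200) + 80 * C * (r ^ 102 * u ^ 400) := by ring
        _ = 16 * C ^ 2 * u ^ 99 + 80 * C * u ^ 298 := by rw [hpw 101 200 (by norm_num), hpw 102 400 (by norm_num)]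
        _ ≤ 16 * C ^ 2 * u + 80 * C * u :=
            add_le_add (mul_le_mul_of_nonneg_left (hle 99 (by norm_num)) (by positivity))
              (mul_le_mul_of_nonneg_left (hle 298 (by norm_num)) (by positivity))
        _ = (16 * C ^ 2 + 80 * C) * u := by ring
    have t3 : 4 * (2 * kk * σ₂ ^ 2 + (4 * kk ^ 2 + 2 * kk) * σ₂ ^ 2) / (u ^ 50) ^ 2 ≤ 96 * C ^ 2 * u := by
      rw [hinv]
      have a0 : 2 * kk + (4 * kk ^ 2 + 2 * kk) ≤ 24 * r ^ 2 := by rw [hk] at hK2 ⊢; nlinarith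
      have a1 : 2 * kk * σ₂ ^ 2 + (4 * kk ^ 2 + 2 * kk) * σ₂ ^ 2 ≤ 24 * r ^ 2 * (C ^ 2 * u ^ 800) := by
        have : 2 * kk * σ₂ ^ 2 + (4 * kk ^ 2 + 2 * kk) * σ₂ ^ 2 = (2 * kk + (4 * kk ^ 2 + 2 * kk)) * σ₂ ^ 2 := by ring
        rw [this]
        exact mul_le_mul a0 hs2 (sq_nonneg _) (by positivity)
      calc 4 * (2 * kk * σ₂ ^ 2 + (4 * kk ^ 2 + 2 * kk) * σ₂ ^ 2) * r ^ 100
          ≤ 4 * (24 * r ^ 2 * (C ^ 2 * u ^ 800)) * r ^ 100 := mul_le_mul_of_nonneg_right (by linarith) (by positivity)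
        _ = 96 * C ^ 2 * (r ^ 102 * u ^ 800) := by ring
        _ = 96 * C ^ 2 * u ^ 698 := by rw [hpw 102 800 (by norm_num)]
        _ ≤ 96 * C ^ 2 * u := mul_le_mul_of_nonneg_left (hle 698 (by norm_num)) (by positivity)
    have t4 : 4 * (2 * kk * C ^ 2 + (4 * kk ^ 2 + 2 * kk) * C ^ 2) / (r ^ 3) ^ 2 ≤ 96 * C ^ 2 * u := by
      rw [hinv3]
      have a0 : 2 * kk + (4 * kk ^ 2 + 2 * kk) ≤ 24 * r ^ 2 := by rw [hk] at hK2 ⊢; nlinarith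
      have a1 : 2 * kk * C ^ 2 + (4 * kk ^ 2 + 2 * kk) * C ^ 2 ≤ 24 * r ^ 2 * C ^ 2 := by
        have : 2 * kk * C ^ 2 + (4 * kk ^ 2 + 2 * kk) * C ^ 2 = (2 * kk + (4 * kk ^ 2 + 2 * kk)) * C ^ 2 := by ring
        rw [this]
        exact mul_le_mul_of_nonneg_right a0 (sq_nonneg _)
      calc 4 * (2 * kk * C ^ 2 + (4 * kk ^ 2 + 2 * kk) * C ^ 2) * u ^ 6
          ≤ 4 * (24 * r ^ 2 * C ^ 2) * u ^ 6 := mul_le_mul_of_nonneg_right (by linarith) (by positivity)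
        _ = 96 * C ^ 2 * (r ^ 2 * u ^ 6) := by ring
        _ = 96 * C ^ 2 * u ^ 4 := by rw [hpw 2 6 (by norm_num)]
        _ ≤ 96 * C ^ 2 * u := mul_le_mul_of_nonneg_left (hle 4 (by norm_num)) (by positivity)
    have : (40 + 80 * C + 208 * C ^ 2) * u = 40 * u + (16 * C ^ 2 + 80 * C) * u + 96 * C ^ 2 * u + 96 * C ^ 2 * u := by ring
    rw [this]; linarith

/-- F11 (numbers of the first cut). `r = K^100`, `R = r⁴ = K^400`, `c = (2R+1)(1-|p|)/(2CR²) ≥ (1-|p|)/(C r⁴)`, `t_a = r^{-50}`, `t_b = r³`,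
`L = s5L χ K ≥ K^{10000/χ}` so `L^{-χ} ≤ r^{-100}`, `1/L ≤ r^{-400}`. Deterministic error `≤ C r^{-100} + 4 r (r^{-46} C' + r^{-39} C'²)`;
`s5fbad ≤ 80 r²/(2r⁴) + 4 (4 C² r^{-199} + 20 C r^{-398}) r^{100} + 96 C² r^{-798} r^{100} + 96 C² r² / r⁶`. -/
theorem s5_first_params {χ C p : ℝ} (hχ : 0 < χ) (hχ4 : χ < 1 / 4) (hC : 0 < C) (hp : |p| < 1)
    (b : ℕ) {ε : ℝ} (hε : 0 < ε) :
    ∃ K₀ : ℕ, ∀ K : ℕ, K₀ ≤ K → ∃ ta tb : ℝ, 0 < ta ∧ 0 < tb ∧ K ^ 400 ≤ s5L χ K ∧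
      C * (s5L χ K : ℝ) ^ (-χ) + 2 * ((2 * K ^ 100 : ℕ) : ℝ)
          * (ta / (1 / (C * ((K ^ 400 : ℕ) : ℝ) ^ 2) * ((2 * K ^ 400 + 1 : ℕ) : ℝ) * (1 - |p|) / 2)
            + ta * tb / (1 / (C * ((K ^ 400 : ℕ) : ℝ) ^ 2) * ((2 * K ^ 400 + 1 : ℕ) : ℝ) * (1 - |p|) / 2) ^ 2)
        ≤ ε ∧
      (b : ℝ) * s5fbad (2 * K ^ 100) (2 * K ^ 400 + 1) (C * (s5L χ K : ℝ) ^ (-χ)) (C / (s5L χ K : ℝ)) C
          ta tb ≤ ε ∧
      0 ≤ s5fbad (2 * K ^ 100) (2 * K ^ 400 + 1) (C * (s5L χ K : ℝ) ^ (-χ)) (C / (s5L χ K : ℝ)) C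
          ta tb := by
  set q : ℝ := 1 - |p| with hq'
  have hq : 0 < q := by rw [hq']; linarith
  set M1 : ℝ := C + 4 * C / q + 4 * C ^ 2 / q ^ 2 with hM1
  set M2 : ℝ := 40 + 80 * C + 208 * C ^ 2 with hM2
  have hM10 : 0 < M1 := by positivity
  have hM20 : 0 < M2 := by positivity
  obtain ⟨K₀, hK₀⟩ := exists_nat_ge ((M1 + b * M2) / ε + 1)
  refine ⟨K₀, fun K hK => ?_⟩
  have hKK : (M1 + b * M2) / ε + 1 ≤ (K : ℝ) := hK₀.trans (by exact_mod_cast hK)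
  have hb0 : (0 : ℝ) ≤ b := Nat.cast_nonneg _
  have hK1 : (1 : ℝ) ≤ K := by
    have : 0 ≤ (M1 + b * M2) / ε := by positivity
    linarith
  have hK0 : (0 : ℝ) < K := by linarith
  set r : ℝ := (K : ℝ) ^ 100 with hr'
  have hr : 1 ≤ r := one_le_pow₀ hK1
  have hr0 : 0 < r := by linarith
  have hrK : (K : ℝ) ≤ r := le_self_pow₀ hK1 (by norm_num)
  have hεr : M1 + b * M2 ≤ ε * r := by
    have h1 : (M1 + b * M2) / ε ≤ r := by linarith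
    rw [div_le_iff₀ hε] at h1
    linarith
  set y : ℝ := (K : ℝ) ^ (10000 / χ) with hy
  have hy0 : 0 < y := Real.rpow_pos_of_pos hK0 _
  have hyL : y ≤ (s5L χ K : ℝ) := Nat.le_ceil _
  have hL0 : (0 : ℝ) < (s5L χ K : ℝ) := hy0.trans_le hyL
  have hry : r ^ 400 ≤ y := by
    rw [hr', ← pow_mul, hy, ← Real.rpow_natCast]
    refine Real.rpow_le_rpow_of_exponent_le hK1 ?_
    rw [le_div_iff₀ hχ]
    push_cast
    linarith
  have eR : ((K ^ 400 : ℕ) : ℝ) = r ^ 4 := by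
    rw [hr', ← pow_mul]; push_cast; rfl
  have ek : ((2 * K ^ 100 : ℕ) : ℝ) = 2 * r := by
    rw [hr']; push_cast; rfl
  have en : ((2 * K ^ 400 + 1 : ℕ) : ℝ) = 2 * r ^ 4 + 1 := by
    rw [← eR]; push_cast; rfl
  have hR4 : r ^ 4 ≤ r ^ 400 := pow_le_pow_right₀ hr (by norm_num)
  have s1 : (s5L χ K : ℝ) ^ (-χ) ≤ r⁻¹ ^ 100 := by
    have h1 : (s5L χ K : ℝ) ^ (-χ) ≤ y ^ (-χ) := Real.rpow_le_rpow_of_nonpos hy0 hyL (by linarith)
    have h2 : y ^ (-χ) = r⁻¹ ^ 100 := by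
      rw [hy, ← Real.rpow_mul hK0.le, inv_pow, hr', ← pow_mul]
      have : 10000 / χ * -χ = -((100 * 100 : ℕ) : ℝ) := by
        push_cast; field_simp
      rw [this, Real.rpow_neg hK0.le, Real.rpow_natCast]
    rw [← h2]; exact h1
  have s2 : C / (s5L χ K : ℝ) ≤ C * r⁻¹ ^ 400 := by
    rw [div_eq_mul_inv, inv_pow]
    exact mul_le_mul_of_nonneg_left (inv_anti₀ (by positivity) (hry.trans hyL)) hC.le
  have hc : q / (C * r ^ 4) ≤ 1 / (C * ((K ^ 400 : ℕ) : ℝ) ^ 2) * ((2 * K ^ 400 + 1 : ℕ) : ℝ) * q / 2 := by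
    rw [eR, en]
    have e : q / (C * r ^ 4) = 1 / (C * (r ^ 4) ^ 2) * (2 * r ^ 4) * q / 2 := by field_simp
    rw [e]
    have h0 : 0 ≤ 1 / (C * (r ^ 4) ^ 2) := by positivity
    have : 1 / (C * (r ^ 4) ^ 2) * (2 * r ^ 4) ≤ 1 / (C * (r ^ 4) ^ 2) * (2 * r ^ 4 + 1) :=
      mul_le_mul_of_nonneg_left (by linarith) h0
    have := mul_le_mul_of_nonneg_right this hq.le
    linarith
  obtain ⟨n1, n2, n3⟩ := s5_first_num51 (σ₁ := C * (s5L χ K : ℝ) ^ (-χ)) (σ₂ := C / (s5L χ K : ℝ))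
    (nn := ((2 * K ^ 400 + 1 : ℕ) : ℝ)) (kk := ((2 * K ^ 100 : ℕ) : ℝ))
    (c := 1 / (C * ((K ^ 400 : ℕ) : ℝ) ^ 2) * ((2 * K ^ 400 + 1 : ℕ) : ℝ) * q / 2) hC hq hr ek
    (by rw [en]; linarith) (by positivity) (mul_le_mul_of_nonneg_left s1 hC.le) (by positivity) s2 hc
  refine ⟨r⁻¹ ^ 50, r ^ 3, by positivity, by positivity, ?_, ?_, ?_, ?_⟩
  · have : ((K ^ 400 : ℕ) : ℝ) ≤ (s5L χ K : ℝ) := by rw [eR]; exact (hR4.trans hry).trans hyL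
    exact_mod_cast this
  · refine n1.trans ?_
    rw [← div_eq_mul_inv, div_le_iff₀ hr0]
    nlinarith [mul_nonneg hb0 hM20.le]
  · unfold s5fbad
    refine (mul_le_mul_of_nonneg_left n2 hb0).trans ?_
    rw [← mul_assoc, ← div_eq_mul_inv, div_le_iff₀ hr0]
    linarith
  · unfold s5fbad
    exact n3

/-- **T2a for fixed regular positions** (first cut, uniform in the outer cut `L ≥ L(K)`).
Channel representation of both `s5cx` (rotation `O` of D5, `k = 2r`, `r = K^100`); coupling = same marks on the labels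
`|j| ≤ L(K)`. Glue of D5, W1, W2, W6', W7, F8, F10, F11. -/
theorem s5_first {ρ χ C₀ p dinv mr : ℝ} (hρ : 0 < ρ) (hχ : 0 < χ) (hχ4 : χ < 1 / 4) (J₀ : ℕ)
    (hp : |p| < 1) (hf1 : mr = p * (mr * p + dinv - 1 / 2)) {Δ : ℝ}
    (hΔ : 0 < Δ) {b : ℕ} {z : Fin b → ℂ} (hz : ∀ i, 0 < (z i).im) {Φ : (Fin b → ℂ) → ℝ}
    (hΦ : BLip Φ) {ε : ℝ} (hε : 0 < ε) :
    ∃ K₀ : ℕ, ∀ K : ℕ, K₀ ≤ K → ∀ L : ℕ, s5L χ K ≤ L → ∀ x : Conf, CReg ρ χ C₀ J₀ x →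
      |s5cx mr z Φ (Real.sqrt (Δ / (4 * (K ^ 100 : ℕ)))) (2 * K ^ 100) (cPos L x)
        - s5cx mr z Φ (Real.sqrt (Δ / (4 * (K ^ 100 : ℕ)))) (2 * K ^ 100) (cPos (s5L χ K) x)| ≤ ε := by
  obtain ⟨C, K₁, hC, hK₁, hreg⟩ := s5_reg_tails_fam (C₀ := C₀) hρ hχ (by linarith) J₀ hz
  have hε3 : 0 < ε / 3 := by positivity
  obtain ⟨K₂, hpar⟩ := s5_first_params hχ hχ4 hC hp b hε3
  obtain ⟨K₃, hK₃⟩ : ∃ K₃ : ℕ, Δ * (mr * p + dinv - 1 / 2) ^ 2 < 4 * (K₃ : ℝ) := by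
    obtain ⟨n, hn⟩ := exists_nat_gt (Δ * (mr * p + dinv - 1 / 2) ^ 2)
    exact ⟨n, by nlinarith [Nat.cast_nonneg (α := ℝ) n]⟩
  refine ⟨max (max K₁ K₂) (K₃ + 1), fun K hK L hL x hx => ?_⟩
  have hK1 : K₁ ≤ K := le_trans (le_trans (le_max_left _ _) (le_max_left _ _)) hK
  have hK2 : K₂ ≤ K := le_trans (le_trans (le_max_right _ _) (le_max_left _ _)) hK
  have hK3 : K₃ + 1 ≤ K := le_trans (le_max_right _ _) hK
  have hr1 : 1 ≤ K ^ 100 := Nat.one_le_pow _ _ (by omega)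
  have hKle : ∀ n : ℕ, 1 ≤ n → K ≤ K ^ n := fun n hn => by
    calc K = K ^ 1 := (pow_one K).symm
      _ ≤ K ^ n := Nat.pow_le_pow_right (by omega) hn
  have hr : Δ * (mr * p + dinv - 1 / 2) ^ 2 < 4 * ((K ^ 100 : ℕ) : ℝ) := by
    have : (K₃ : ℝ) ≤ ((K ^ 100 : ℕ) : ℝ) := by
      exact_mod_cast (le_trans (by omega : K₃ ≤ K) (hKle 100 (by norm_num)))
    linarith
  obtain ⟨O, -, hdet, hsym, htr, hsq, hB⟩ := s5_rot_pack hp hf1 hΔ hr1 hr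
  have hrpos : (0 : ℝ) < 4 * ((K ^ 100 : ℕ) : ℝ) := by
    have : (1 : ℝ) ≤ ((K ^ 100 : ℕ) : ℝ) := by exact_mod_cast hr1
    linarith
  have hβ : 0 < Real.sqrt (Δ / (4 * ((K ^ 100 : ℕ) : ℝ))) := Real.sqrt_pos.mpr (div_pos hΔ hrpos)
  obtain ⟨ta, tb, hta, htb, hRL, hdetE, hbadE, hbad0⟩ := hpar K hK2
  obtain ⟨e, he⟩ := s5_win_split hL
  have hR1 : K₁ ≤ K ^ 400 := le_trans hK1 (hKle 400 (by norm_num))
  have hL1 : K₁ ≤ s5L χ K := le_trans hR1 hRL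
  have hRpos : (0 : ℝ) < ((K ^ 400 : ℕ) : ℝ) := by
    have : 1 ≤ K ^ 400 := Nat.one_le_pow _ _ (by omega)
    exact_mod_cast this
  have hω : 0 < 1 / (C * ((K ^ 400 : ℕ) : ℝ) ^ 2) := by positivity
  have hp1 : 0 < 1 - |p| := by linarith
  set S : Finset (Win (s5L χ K)) := Finset.univ.filter fun i => |wIdx i| ≤ ((K ^ 400 : ℕ) : ℤ) with hS
  have hcard : S.card = 2 * K ^ 400 + 1 := s5_card_sub hRL
  have hbad : ∀ i, ((gArr (Win (s5L χ K)) (Ch (2 * K ^ 100))).prod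
      (gArr (Far (s5L χ K) L) (Ch (2 * K ^ 100))))
        (s5FGood (2 * K ^ 100) p dinv mr (cPos (s5L χ K) x) (farPos (s5L χ K) L x) (z i)
          (1 / (C * ((K ^ 400 : ℕ) : ℝ) ^ 2) * ((2 * K ^ 400 + 1 : ℕ) : ℝ) * (1 - |p|) / 2) ta tb)ᶜ
      ≤ ENNReal.ofReal (s5fbad (2 * K ^ 100) (2 * K ^ 400 + 1) (C * (s5L χ K : ℝ) ^ (-χ))
          (C / (s5L χ K : ℝ)) C ta tb) := by
    intro i
    obtain ⟨t1, t2, -, -⟩ := hreg x hx (s5L χ K) L hL1 hL i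
    obtain ⟨-, -, t3, -⟩ := hreg x hx (s5L χ K) (s5L χ K) hL1 le_rfl i
    obtain ⟨-, -, -, t4⟩ := hreg x hx (K ^ 400) (K ^ 400) hR1 le_rfl i
    have := s5_first_bad (2 * K ^ 100) (dinv := dinv) (mr := mr) hp (hz i) hω hta htb S
      (fun j hj => t4 (wIdx j) (by simpa [hS] using hj)) t1 t2 t3
    rwa [hcard] at this
  have key := s5_first_fixed hβ hdet hsym htr hsq hB hz hΦ (cPos (s5L χ K) x)
    (farPos (s5L χ K) L x) (by positivity) hta.le htb.le hε3.le hbad0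
    (fun i => (hreg x hx (s5L χ K) L hL1 hL i).1) hdetE hbad
  rw [← he x, s5_cx_reindex e] at key
  refine key.trans ?_
  linarith

/-! ## 6. Integration over `μ` and the proof of `s5_cut` -/

/-- I1. `x ↦ s5cx .. (cPos L x)` is measurable and bounded by 1. -/
theorem s5_cx_meas {mr : ℝ} {b : ℕ} (z : Fin b → ℂ) {Φ : (Fin b → ℂ) → ℝ} (hΦ : BLip Φ) (β : ℝ)
    (m L : ℕ) :
    (Measurable fun x : Conf => s5cx mr z Φ β m (cPos L x)) ∧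
      ∀ x : Conf, |s5cx mr z Φ β m (cPos L x)| ≤ 1 := by
  have : IsProbabilityMeasure (gArr (Win L) (Fin m)) := s5_gArr_prob _ _
  constructor
  · have hf : Measurable fun v : Conf × (Matrix (Win L) (Fin m) ℝ × Matrix (Win L) (Fin m) ℝ) =>
        Matrix.diagonal (cPos L v.1) + β • bilN v.2 := by
      refine Measurable.add ?_ ((s5_bilN_meas.2.comp measurable_snd).const_smul β)
      refine measurable_pi_lambda _ fun i => measurable_pi_lambda _ fun j => ?_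
      by_cases hij : i = j
      · subst hij
        simp only [Matrix.diagonal_apply_eq]
        exact (measurable_pi_apply (wIdx i)).comp measurable_fst
      · simp only [Matrix.diagonal_apply_ne _ hij]
        exact measurable_const
    have hF := s5_Phi_meas (mr := mr) z hΦ hf
    exact (hF.stronglyMeasurable.integral_prod_right
      (ν := (gArr (Win L) (Fin m)).prod (gArr (Win L) (Fin m)))).measurable
  · intro x
    unfold s5cx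
    refine (abs_integral_le_integral_abs).trans ?_
    calc ∫ P, |Φ (fun i => (mr : ℂ) + rTr (Matrix.diagonal (cPos L x) + β • bilN P) (z i))|
          ∂((gArr (Win L) (Fin m)).prod (gArr (Win L) (Fin m)))
        ≤ ∫ _P, (1 : ℝ) ∂((gArr (Win L) (Fin m)).prod (gArr (Win L) (Fin m))) := by
          refine integral_mono_of_nonneg (Filter.Eventually.of_forall fun _ => abs_nonneg _) (integrable_const _)
            (Filter.Eventually.of_forall fun P => hΦ.bdd _)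
      _ = 1 := by simp

/-- **T2** (first cut in channel space + far block, P1 (5.11)-(5.14), Lemmas 5.3-5.5). -/
theorem s5_cut {μ : Measure Conf} {ρ χ p dinv mr : ℝ} (h : S5In μ ρ χ p dinv mr) {Δ : ℝ}
    (hΔ : 0 < Δ) {b : ℕ} {z : Fin b → ℂ}
    (hz : ∀ i, 0 < (z i).im) {Φ : (Fin b → ℂ) → ℝ} (hΦ : BLip Φ) :
    ∀ ε : ℝ, 0 < ε → ∃ K₀ : ℕ, ∀ K : ℕ, K₀ ≤ K → ∃ L₀ : ℕ, ∀ L : ℕ, L₀ ≤ L →
      |s5C μ mr z Φ (Real.sqrt (Δ / (4 * (K ^ 100 : ℕ)))) (K ^ 100) L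
        - s5C μ mr z Φ (Real.sqrt (Δ / (4 * (K ^ 100 : ℕ)))) (K ^ 100) K| ≤ ε := by
  intro ε hε
  have := h.prob
  have hε4 : 0 < ε / 4 := by positivity
  obtain ⟨C₀, J₀, hreg⟩ := h.reg (ε / 4) hε4
  obtain ⟨K1, h1⟩ := s5_far (C₀ := C₀) (mr := mr) h.rho_pos h.chi_pos h.chi_lt J₀ hΔ hz hΦ hε4
  obtain ⟨K2, h2⟩ := s5_first (C₀ := C₀) h.rho_pos h.chi_pos h.chi_lt J₀ h.p_lt h.f1 hΔ hz hΦ hε4
  refine ⟨max K1 K2, fun K hK => ⟨s5L χ K, fun L hL => ?_⟩⟩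
  have hK1 : K1 ≤ K := le_trans (le_max_left _ _) hK
  have hK2 : K2 ≤ K := le_trans (le_max_right _ _) hK
  have hm1 := s5_cx_meas (mr := mr) z hΦ (Real.sqrt (Δ / (4 * (K ^ 100 : ℕ)))) (2 * K ^ 100) L
  have hm2 := s5_cx_meas (mr := mr) z hΦ (Real.sqrt (Δ / (4 * (K ^ 100 : ℕ)))) (2 * K ^ 100) K
  have key := s5_int_split (μ := μ) hm1.1 hm2.1 hm1.2 hm2.2 (S := {x | CReg ρ χ C₀ J₀ x})
    (ε := ε / 2) (δ := ε / 4) (by positivity) hε4.le (by simpa [Set.compl_ofPred] using hreg) (fun x hx => by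
      have a1 := h1 K hK1 x hx
      have a2 := h2 K hK2 L hL x hx
      rw [abs_le] at a1 a2 ⊢
      constructor <;> linarith [a1.1, a1.2, a2.1, a2.2])
  unfold s5C
  linarith

end Claimed.Agent.R287
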