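-- KEEP
import Claimed.Agent.R287.S5Cut
import Claimed.Agent.R287.Goe233
import Claimed.Agent.R287.ResD
import Claimed.Agent.R287.Top274

/-!
# R287 / unit GOE (head helper250) / part G2 : the cut `n → K` for `D + √Δ W`      (helper252)

GOAL (`g2_cut_det`): for FIXED positions `d : J → ℝ` (`J` finite, any size) and a base set `e : ι₀ ↪ J` at the scale `2^q`,
`E Φ(Tr (D_J + √Δ W_J - z_a)⁻¹) - E Φ(Tr (D_{ι₀} + √Δ W_{ι₀} - z_a)⁻¹)` is small, UNIFORMLY in the size of `J`.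
Only three inputs on the positions (`G2Reg` + tail):
  `cnt`  counts at ONE energy, all scales: `#{|d_j| ≤ u} ≤ Cc u`, `u ≥ u₀`     (from `g1_moment` on the imaginary axis);
  `inn`/`out`  the base set sits at the scale `2^q`;
  tail   `|∑_{j ∉ base} 1/d_j| ≤ y^{2q}`   (PV tail at the base only).
NO weak law, NO rigidity beyond the base, NO cancellation in the shells.

METHOD = SHIFTED DYADIC CHAIN.  Levels `lv j = 0` on the base, `lv j = 1 + ⌊log₂(|d_j| A₁ / 2^q)⌋` outside.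
`σ_i = ∑_{lv j > i} 1/d_j`,   `T_i = E Φ(Tr (D_{≤ i} + √Δ W_{≤ i} - z - Δ σ_i)⁻¹ + σ_i)`   (`g2T`).
One step `T_{i+1} → T_i` = removal of ONE dyadic shell (`g2_step`): Schur complement, deterministic lemma `s5_block_det'`
(weights `U_I = (|D_I| + h)^{-1/2}`, `U_F = |D_F|^{-1/2}`; the MEAN `Δ ∑_F 1/d_j` of the Schur term moves the spectral parameter)
on a good event of four polynomial moments (`g2_p_norm` twice, `g2_p_cross`, `g2_p_schur`).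
At the scale `2^q`: `r = 2^{q/64}`, `h = r`, `tF = r⁻⁸`, `t0 = r`, `tS = r⁻¹⁶`, `ℓ ≲ q`, `|σ| ≲ q`: error `≲ q^12 / r`, summable over the scales.
Last step (`g2_unshift`): `σ_0` is tiny, remove the shift.      Written proof: `origin/helper252:notes/R287/G2_252.md` (v2).
-/

set_option autoImplicit false
open MeasureTheory ProbabilityTheory Matrix Filter Topology Claims.C0462
open scoped ComplexOrder Matrix.Norms.L2Operator

namespace Claimed.Agent.R287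

/-! ## 0. Definitions -/

/-- the shifted observable `(Tr (D + √Δ W - z_a - Δσ)⁻¹ + σ)_a` -/
noncomputable def g2Ob {ι : Type} [Fintype ι] [DecidableEq ι] {b : ℕ} (z : Fin b → ℂ) (Δ : ℝ) (d : ι → ℝ)
    (σ : ℝ) (W : Matrix ι ι ℝ) : Fin b → ℂ :=
  fun a => rTr (Matrix.diagonal d + Real.sqrt Δ • W) (z a + ((Δ * σ : ℝ) : ℂ)) + (σ : ℂ)

/-- its expectation against a test function -/
noncomputable def g2T {ι : Type} [Fintype ι] [DecidableEq ι] {b : ℕ} (Φ : (Fin b → ℂ) → ℝ) (z : Fin b → ℂ)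
    (Δ : ℝ) (d : ι → ℝ) (σ : ℝ) : ℝ :=
  ∫ W, Φ (g2Ob z Δ d σ W) ∂goeRaw ι

/-- probability of the bad event of one step -/
noncomputable def g2bad (Δ h κ ℓ τ₂ tF t0 tS : ℝ) : ℝ :=
  16 * Δ ^ 2 * ℓ ^ 3 / (κ * tF ^ 4) + 4096 * Δ ^ 2 * ℓ ^ 3 / h + Δ * ℓ ^ 2 / t0
    + 2 * Δ ^ 2 * ℓ ^ 2 * τ₂ / tS ^ 2

/-- the ratio of the geometric decay of the errors, `2^{-1/64}` -/
noncomputable def g2x : ℝ := ((2 : ℝ) ^ ((1 : ℝ) / 64))⁻¹

/-- tail sum beyond the level `i` -/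
noncomputable def g2sig {J : Type} [Fintype J] (d : J → ℝ) (lv : J → ℕ) (i : ℕ) : ℝ :=
  ∑ j, if i < lv j then (d j)⁻¹ else 0

/-- sites of level `≤ i` -/
abbrev G2Lv {J : Type} (lv : J → ℕ) (i : ℕ) := {j : J // lv j ≤ i}

/-- sites of level `= i` -/
abbrev G2Sh {J : Type} (lv : J → ℕ) (i : ℕ) := {j : J // lv j = i}

/-- regularity of the positions `d` around the base `e` at the scale `2^q` -/
structure G2Reg {J ι₀ : Type} [Fintype J] (Cc u₀ A₁ : ℝ) (q : ℕ) (d : J → ℝ) (e : ι₀ → J) : Prop where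
  cnt : ∀ u : ℝ, u₀ ≤ u → ((Finset.univ.filter fun j => |d j| ≤ u).card : ℝ) ≤ Cc * u
  inn : ∀ i, |d (e i)| ≤ 2 ^ q
  out : ∀ j, j ∉ Set.range e → 2 ^ q / A₁ ≤ |d j|

open Classical in
/-- the dyadic level of a site -/
noncomputable def g2lv {J ι₀ : Type} (A₁ : ℝ) (q : ℕ) (d : J → ℝ) (e : ι₀ → J) (j : J) : ℕ :=
  if j ∈ Set.range e then 0 else 1 + Nat.log 2 ⌊|d j| * A₁ / 2 ^ q⌋₊

theorem g2_eqns_cite : True := by
  have := @g2Ob.eq_1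
  have := @g2T.eq_1
  have := @g2bad.eq_1
  have := @g2x.eq_1
  have := @g2sig.eq_1
  have := @g2lv.eq_1
  trivial

/-! ## 1. Moments of the Gaussian blocks -/

section mom
variable {ι κ : Type} [Fintype ι] [DecidableEq ι] [Fintype κ] [DecidableEq κ]

/-- M0a. One row of the iid array. (`measurePreserving_eval` for `Measure.pi`.) -/
theorem g2_row (i : ι) : (gArr ι κ).map (fun G => G i) = qfG κ := by
  exact (measurePreserving_eval (fun _ : ι => qfG κ) i).map_eq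

/-- M0b. Two different rows are independent. (`iIndepFun_pi` + `indepFun_iff_map_prod_eq_prod_map_map`, M0a.) -/
theorem g2_rows {i k : ι} (hik : i ≠ k) :
    (gArr ι κ).map (fun G => (G i, G k)) = (qfG κ).prod (qfG κ) := by
  have h := iIndepFun_pi (μ := fun _ : ι => qfG κ) (X := fun _ => (id : (κ → ℝ) → (κ → ℝ))) (fun _ => aemeasurable_id)
  have h2 := h.indepFun hik
  have h3 := (indepFun_iff_map_prod_eq_prod_map_map (measurable_pi_apply i).aemeasurable (measurable_pi_apply k).aemeasurable).1 h2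
  have e1 : (Measure.pi fun _ : ι => qfG κ).map (fun ω => ω i) = qfG κ := (measurePreserving_eval (fun _ : ι => qfG κ) i).map_eq
  have e2 : (Measure.pi fun _ : ι => qfG κ).map (fun ω => ω k) = qfG κ := (measurePreserving_eval (fun _ : ι => qfG κ) k).map_eq
  rw [e1, e2] at h3
  exact h3

/-- M1a. Linear forms: `E (∑ a_j g_j)² = ∑ a_j²` (`qf_mean` for `vecMulVec a a`, or coordinates). -/
theorem g2_lin (a : κ → ℝ) :
    Integrable (fun g : κ → ℝ => (∑ j, a j * g j) ^ 2) (qfG κ) ∧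
      ∫ g, (∑ j, a j * g j) ^ 2 ∂qfG κ = ∑ j, a j ^ 2 := by
  have hA : (Matrix.vecMulVec a a).IsHermitian := by
    unfold Matrix.IsHermitian
    rw [Matrix.conjTranspose_vecMulVec]; simp
  have e : (fun g : κ → ℝ => (∑ j, a j * g j) ^ 2) = qfQ (Matrix.vecMulVec a a) := by
    funext g
    unfold qfQ
    rw [Matrix.vecMulVec_mulVec]
    simp only [dotProduct, Pi.smul_apply, MulOpposite.smul_eq_mul_unop, MulOpposite.unop_op]
    rw [sq, Finset.sum_mul]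
    exact Finset.sum_congr rfl fun j _ => by ring
  rw [e]
  refine ⟨qf_Q_integrable hA, ?_⟩
  rw [qf_mean hA, Matrix.trace_vecMulVec]
  simp only [dotProduct]
  exact Finset.sum_congr rfl fun j _ => by ring

theorem g2_row_mp (i : ι) : MeasurePreserving (fun G : Matrix ι κ ℝ => G i) (gArr ι κ) (qfG κ) :=
  measurePreserving_eval (fun _ : ι => qfG κ) i

theorem g2_row_integrable (i : ι) {F : (κ → ℝ) → ℝ} (hF : Integrable F (qfG κ)) :
    Integrable (fun G : Matrix ι κ ℝ => F (G i)) (gArr ι κ) :=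
  ((g2_row_mp i).integrable_comp hF.aestronglyMeasurable).2 hF

theorem g2_row_integral (i : ι) {F : (κ → ℝ) → ℝ} (hF : AEStronglyMeasurable F (qfG κ)) :
    ∫ G : Matrix ι κ ℝ, F (G i) ∂gArr ι κ = ∫ g, F g ∂qfG κ := by
  rw [← (g2_row_mp (ι := ι) i).map_eq] at hF ⊢
  exact (integral_map (g2_row_mp i).measurable.aemeasurable hF).symm

theorem g2_rows_mp {i k : ι} (hik : i ≠ k) :
    MeasurePreserving (fun G : Matrix ι κ ℝ => (G i, G k)) (gArr ι κ) ((qfG κ).prod (qfG κ)) :=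
  ⟨(g2_row_mp i).measurable.prodMk (g2_row_mp k).measurable, g2_rows hik⟩

theorem g2_sq_sum (a : κ → ℝ) : Integrable (fun x : κ → ℝ => ∑ j, (a j * x j) ^ 2) (qfG κ) ∧
    ∫ x : κ → ℝ, ∑ j, (a j * x j) ^ 2 ∂qfG κ = ∑ j, a j ^ 2 := by
  have hi : ∀ j, Integrable (fun x : κ → ℝ => (a j * x j) ^ 2) (qfG κ) := fun j => by
    have := (qf_coord_integrable (qf_g1_pow_integrable 2) j).const_mul (a j ^ 2)
    refine this.congr (Filter.Eventually.of_forall fun x => ?_)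
    simp only; ring
  refine ⟨integrable_finsetSum _ fun j _ => hi j, ?_⟩
  rw [integral_finsetSum _ fun j _ => hi j]
  refine Finset.sum_congr rfl fun j _ => ?_
  have : (fun x : κ → ℝ => (a j * x j) ^ 2) = fun x => a j ^ 2 * (fun y : ℝ => y ^ 2) (x j) := by funext x; simp only; ring
  rw [this, integral_const_mul, qf_coord_integral (f := fun y => y ^ 2) (by fun_prop), qf_g1_sq, mul_one]

theorem g2_bil_prod (s : κ → ℝ) :
    Integrable (fun p : (κ → ℝ) × (κ → ℝ) => (∑ j, s j * p.1 j * p.2 j) ^ 2) ((qfG κ).prod (qfG κ)) ∧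
      ∫ p : (κ → ℝ) × (κ → ℝ), (∑ j, s j * p.1 j * p.2 j) ^ 2 ∂((qfG κ).prod (qfG κ)) = ∑ j, s j ^ 2 := by
  have hm : Measurable fun p : (κ → ℝ) × (κ → ℝ) => (∑ j, s j * p.1 j * p.2 j) ^ 2 := by fun_prop
  have hin : ∀ x : κ → ℝ, ∫ y : κ → ℝ, (∑ j, s j * x j * y j) ^ 2 ∂qfG κ = ∑ j, (s j * x j) ^ 2 := fun x =>
    (g2_lin fun j => s j * x j).2
  have hI : Integrable (fun p : (κ → ℝ) × (κ → ℝ) => (∑ j, s j * p.1 j * p.2 j) ^ 2) ((qfG κ).prod (qfG κ)) := by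
    rw [integrable_prod_iff hm.aestronglyMeasurable]
    refine ⟨Filter.Eventually.of_forall fun x => (g2_lin fun j => s j * x j).1, ?_⟩
    have hn : ∀ x y : κ → ℝ, ‖(∑ j, s j * x j * y j) ^ 2‖ = (∑ j, s j * x j * y j) ^ 2 := fun x y => by
      rw [Real.norm_eq_abs, abs_of_nonneg (sq_nonneg _)]
    simp only [hn, hin]
    exact (g2_sq_sum s).1
  refine ⟨hI, ?_⟩
  rw [integral_prod _ hI]
  simp only [hin]
  exact (g2_sq_sum s).2

/-- M1b. Bilinear form of two different rows with diagonal weights: Fubini (M0b), M1a twice. -/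
theorem g2_bil_off (s : κ → ℝ) {i k : ι} (hik : i ≠ k) :
    Integrable (fun G : Matrix ι κ ℝ => (∑ j, s j * G i j * G k j) ^ 2) (gArr ι κ) ∧
      ∫ G, (∑ j, s j * G i j * G k j) ^ 2 ∂gArr ι κ = ∑ j, s j ^ 2 := by
  have h := g2_bil_prod s
  refine ⟨((g2_rows_mp hik).integrable_comp h.1.aestronglyMeasurable).2 h.1, ?_⟩
  have hmp := g2_rows_mp (ι := ι) (κ := κ) hik
  have hsm : AEStronglyMeasurable (fun p : (κ → ℝ) × (κ → ℝ) => (∑ j, s j * p.1 j * p.2 j) ^ 2)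
      ((gArr ι κ).map fun G : Matrix ι κ ℝ => (G i, G k)) := by
    rw [hmp.map_eq]; exact h.1.aestronglyMeasurable
  have := integral_map hmp.measurable.aemeasurable hsm
  rw [hmp.map_eq, h.2] at this
  exact this.symm

theorem g2_diag_herm (s : κ → ℝ) : (Matrix.diagonal s).IsHermitian := by
  unfold Matrix.IsHermitian
  rw [Matrix.diagonal_conjTranspose]; simp

theorem g2_diag_Q (s g : κ → ℝ) : qfQ (Matrix.diagonal s) g = ∑ j, s j * g j * g j := by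
  unfold qfQ
  simp only [dotProduct, Matrix.mulVec_diagonal]
  exact Finset.sum_congr rfl fun j _ => by ring

theorem g2_diag_tr2 (s : κ → ℝ) : (Matrix.diagonal s * Matrix.diagonal s).trace = ∑ j, s j ^ 2 := by
  rw [Matrix.diagonal_mul_diagonal, Matrix.trace_diagonal]
  exact Finset.sum_congr rfl fun j _ => by ring

/-- M1c. Quadratic form of one row, centred: M0a, `qf_var`, `qf_mean` for `diagonal s`. -/
theorem g2_bil_diag (s : κ → ℝ) (i : ι) :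
    Integrable (fun G : Matrix ι κ ℝ => (∑ j, s j * G i j * G i j - ∑ j, s j) ^ 2) (gArr ι κ) ∧
      ∫ G, (∑ j, s j * G i j * G i j - ∑ j, s j) ^ 2 ∂gArr ι κ = 2 * ∑ j, s j ^ 2 := by
  have hA := g2_diag_herm s
  have h1 := qf_sq_integrable hA
  have h2 := qf_var hA
  simp only [g2_diag_Q, Matrix.trace_diagonal, g2_diag_tr2] at h1 h2
  refine ⟨g2_row_integrable i h1, ?_⟩
  rw [← h2]
  exact g2_row_integral i h1.aestronglyMeasurable

/-- M1d. Quadratic form of one row, not centred: `(∑ s)² + 2 ∑ s²`. -/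
theorem g2_bil_diag' (s : κ → ℝ) (i : ι) :
    Integrable (fun G : Matrix ι κ ℝ => (∑ j, s j * G i j * G i j) ^ 2) (gArr ι κ) ∧
      ∫ G, (∑ j, s j * G i j * G i j) ^ 2 ∂gArr ι κ = (∑ j, s j) ^ 2 + 2 * ∑ j, s j ^ 2 := by
  have hA := g2_diag_herm s
  have h1 := g2_bil_diag (ι := ι) s i
  have h3 : Integrable (fun G : Matrix ι κ ℝ => ∑ j, s j * G i j * G i j) (gArr ι κ) := by
    have := qf_Q_integrable hA
    have e : qfQ (Matrix.diagonal s) = fun g => ∑ j, s j * g j * g j := funext (g2_diag_Q s)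
    rw [e] at this
    exact g2_row_integrable i this
  have h4 : ∫ G : Matrix ι κ ℝ, ∑ j, s j * G i j * G i j ∂gArr ι κ = ∑ j, s j := by
    have := qf_mean hA
    simp only [g2_diag_Q, Matrix.trace_diagonal] at this
    rw [← this]
    have h5 := qf_Q_integrable hA
    have e : qfQ (Matrix.diagonal s) = fun g => ∑ j, s j * g j * g j := funext (g2_diag_Q s)
    rw [e] at h5
    exact g2_row_integral i h5.aestronglyMeasurable
  set S := ∑ j, s j with hS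
  have e : (fun G : Matrix ι κ ℝ => (∑ j, s j * G i j * G i j) ^ 2)
      = fun G => (∑ j, s j * G i j * G i j - S) ^ 2 + (2 * S * (∑ j, s j * G i j * G i j) - S ^ 2) := by
    funext G; ring
  rw [e]
  refine ⟨h1.1.add ((h3.const_mul _).sub (integrable_const _)), ?_⟩
  have h6 : Integrable (fun G : Matrix ι κ ℝ => 2 * S * (∑ j, s j * G i j * G i j) - S ^ 2) (gArr ι κ) :=
    (h3.const_mul _).sub (integrable_const _)
  rw [integral_add h1.1 h6, integral_sub (h3.const_mul _) (integrable_const _),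
    integral_const_mul, h4, h1.2, integral_const]
  simp
  ring

/-- M2. Operator norm versus Hilbert-Schmidt norm, real matrices (Cauchy-Schwarz; same as the second half of `s5_tr_hs`). -/
theorem g2_op_le_hs (A : Matrix ι κ ℝ) : ‖A‖ ^ 2 ≤ hsq A := by
  have := s5_opn_sq_le_hs A
  simpa [hsq, Real.norm_eq_abs, sq_abs] using this

theorem g2_norm_T (Y : Matrix ι κ ℝ) : ‖Yᵀ‖ = ‖Y‖ := by
  have := Matrix.l2_opNorm_conjTranspose Y
  rwa [Matrix.conjTranspose_eq_transpose_of_trivial] at this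

/-- M3. `‖Y‖⁴ = ‖Y Yᵀ‖² ≤ ‖Y Yᵀ‖²_HS` (C*-identity `l2_opNorm_conjTranspose_mul_self`-type, M2). -/
theorem g2_op4_le (Y : Matrix ι κ ℝ) : ‖Y‖ ^ 4 ≤ hsq (Y * Yᵀ) := by
  have h1 : ‖Y * Yᵀ‖ = ‖Y‖ * ‖Y‖ := by
    have := Matrix.l2_opNorm_conjTranspose_mul_self Yᵀ
    rwa [Matrix.conjTranspose_eq_transpose_of_trivial, Matrix.transpose_transpose, g2_norm_T] at this
  calc ‖Y‖ ^ 4 = ‖Y * Yᵀ‖ ^ 2 := by rw [h1]; ring
    _ ≤ hsq (Y * Yᵀ) := g2_op_le_hs (Y * Yᵀ)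

/-- Markov's inequality in the form used below -/
theorem g2_markov {Ω : Type} [MeasurableSpace Ω] {μ : Measure Ω} [IsFiniteMeasure μ] {X : Ω → ℝ} (h0 : ∀ ω, 0 ≤ X ω)
    (hi : Integrable X μ) {M t : ℝ} (hM : ∫ ω, X ω ∂μ ≤ M) (ht : 0 < t) : μ {ω | t < X ω} ≤ ENNReal.ofReal (M / t) := by
  have h1 := mul_meas_ge_le_integral_of_nonneg (Filter.Eventually.of_forall h0) hi t
  have h2 : μ.real {ω | t ≤ X ω} ≤ M / t := by
    rw [le_div_iff₀ ht]; linarith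
  calc μ {ω | t < X ω} ≤ μ {ω | t ≤ X ω} := measure_mono fun ω (hω : t < X ω) => le_of_lt hω
    _ = ENNReal.ofReal (μ.real {ω | t ≤ X ω}) := (ofReal_measureReal (measure_ne_top _ _)).symm
    _ ≤ ENNReal.ofReal (M / t) := ENNReal.ofReal_le_ofReal h2

/-- second moment of a weighted Hilbert-Schmidt norm from the second moments of the entries -/
theorem g2_hs_mom {Ω : Type} [MeasurableSpace Ω] {μ : Measure Ω} (u : ι → ℝ) (X : ι → ι → Ω → ℝ) {a b : ℝ}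
    (hint : ∀ i k, Integrable (fun ω => X i k ω ^ 2) μ) (hoff : ∀ i k, i ≠ k → ∫ ω, X i k ω ^ 2 ∂μ ≤ a)
    (hdiag : ∀ i, ∫ ω, X i i ω ^ 2 ∂μ ≤ b) :
    Integrable (fun ω => ∑ i, ∑ k, (u i * u k * X i k ω) ^ 2) μ ∧
      ∫ ω, ∑ i, ∑ k, (u i * u k * X i k ω) ^ 2 ∂μ ≤ (∑ i, u i ^ 2) ^ 2 * a + (∑ i, u i ^ 4) * (b - a) := by
  have hI : ∀ i k, Integrable (fun ω => (u i * u k * X i k ω) ^ 2) μ := fun i k => by
    refine ((hint i k).const_mul ((u i * u k) ^ 2)).congr (Filter.Eventually.of_forall fun ω => ?_)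
    simp only; ring
  refine ⟨integrable_finsetSum _ fun i _ => integrable_finsetSum _ fun k _ => hI i k, ?_⟩
  rw [integral_finsetSum _ fun i _ => integrable_finsetSum _ fun k _ => hI i k]
  simp only [integral_finsetSum _ fun k _ => hI _ k]
  have hb : ∀ i k, ∫ ω, (u i * u k * X i k ω) ^ 2 ∂μ ≤ u i ^ 2 * u k ^ 2 * a + if i = k then u i ^ 4 * (b - a) else 0 := by
    intro i k
    have e : (fun ω => (u i * u k * X i k ω) ^ 2) = fun ω => (u i ^ 2 * u k ^ 2) * X i k ω ^ 2 := by funext ω; ring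
    rw [e, integral_const_mul]
    have hp : 0 ≤ u i ^ 2 * u k ^ 2 := by positivity
    by_cases h : i = k
    · subst h
      rw [if_pos rfl]
      have := mul_le_mul_of_nonneg_left (hdiag i) hp
      nlinarith
    · rw [if_neg h, add_zero]
      exact mul_le_mul_of_nonneg_left (hoff i k h) hp
  refine (Finset.sum_le_sum fun i _ => Finset.sum_le_sum fun k _ => hb i k).trans (le_of_eq ?_)
  simp only [Finset.sum_add_distrib, Finset.sum_ite_eq, Finset.mem_univ, if_true]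
  rw [sq (∑ i, u i ^ 2), Finset.sum_mul_sum, Finset.sum_mul, Finset.sum_mul]
  congr 1
  exact Finset.sum_congr rfl fun i _ => by rw [Finset.sum_mul]

/-- M4. Fourth moment of the weighted iid array. `(Y Yᵀ)_{ik} = u_i u_k ∑_j v_j² N_ij N_kj`; M1b off the diagonal, M1d on it:
`E ‖Y Yᵀ‖²_HS = ∑_{i≠k} u_i² u_k² ∑ v⁴ + ∑_i u_i⁴ ((∑ v²)² + 2 ∑ v⁴)`. -/
theorem g2_m4 (u : ι → ℝ) (v : κ → ℝ) :
    Integrable (fun N : Matrix ι κ ℝ => hsq ((Matrix.diagonal u * N * Matrix.diagonal v)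
        * (Matrix.diagonal u * N * Matrix.diagonal v)ᵀ)) (gArr ι κ) ∧
      ∫ N, hsq ((Matrix.diagonal u * N * Matrix.diagonal v) * (Matrix.diagonal u * N * Matrix.diagonal v)ᵀ)
          ∂gArr ι κ
        ≤ (∑ i, u i ^ 2) ^ 2 * ∑ j, v j ^ 4 + (∑ i, u i ^ 4) * ((∑ j, v j ^ 2) ^ 2 + 2 * ∑ j, v j ^ 4) := by
  have e : (fun N : Matrix ι κ ℝ => hsq ((Matrix.diagonal u * N * Matrix.diagonal v)
        * (Matrix.diagonal u * N * Matrix.diagonal v)ᵀ))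
      = fun N => ∑ i, ∑ k, (u i * u k * ∑ j, v j ^ 2 * N i j * N k j) ^ 2 := by
    funext N
    unfold hsq
    refine Finset.sum_congr rfl fun i _ => Finset.sum_congr rfl fun k _ => ?_
    congr 1
    rw [Matrix.mul_apply, Finset.mul_sum]
    refine Finset.sum_congr rfl fun j _ => ?_
    rw [Matrix.transpose_apply, Matrix.mul_diagonal, Matrix.mul_diagonal, Matrix.diagonal_mul, Matrix.diagonal_mul]
    ring
  have e4 : ∑ j, (v j ^ 2) ^ 2 = ∑ j, v j ^ 4 := Finset.sum_congr rfl fun j _ => by ring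
  have h := g2_hs_mom (μ := gArr ι κ) u (fun i k N => ∑ j, v j ^ 2 * N i j * N k j)
    (a := ∑ j, v j ^ 4) (b := (∑ j, v j ^ 2) ^ 2 + 2 * ∑ j, v j ^ 4)
    (fun i k => by
      by_cases h : i = k
      · subst h; exact (g2_bil_diag' (fun j => v j ^ 2) i).1
      · exact (g2_bil_off (fun j => v j ^ 2) h).1)
    (fun i k h => by rw [(g2_bil_off (fun j => v j ^ 2) h).2, e4])
    (fun i => by rw [(g2_bil_diag' (fun j => v j ^ 2) i).2, e4])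
  rw [e]
  refine ⟨h.1, h.2.trans ?_⟩
  have h1 : 0 ≤ ∑ i, u i ^ 4 := Finset.sum_nonneg fun i _ => by positivity
  have h2 : 0 ≤ ∑ j, v j ^ 4 := Finset.sum_nonneg fun i _ => by positivity
  nlinarith [mul_nonneg h1 h2]

/-- the norm is a measurable function of the matrix (the L2 operator norm induces the product topology) -/
theorem g2_norm_measurable : Measurable fun A : Matrix ι κ ℝ => ‖A‖ := by
  exact continuous_norm.measurable

/-- P1 (**weighted GOE is small in norm**). `W = (N + Nᵀ)/√2`: `‖U W U‖ ≤ √2 ‖U N U‖`, M3, M4 with `v = u`,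
`∑ u⁴ ≤ ub T`, `∑ u⁴ ≤ T²`: `E ‖U W U‖⁴ ≤ 16 ub T³`. Markov. -/
theorem g2_p_norm {u : ι → ℝ} {T ub c t : ℝ} (hT : ∑ j, u j ^ 2 ≤ T) (hub : ∀ j, u j ^ 2 ≤ ub)
    (ht : 0 < t) :
    goeRaw ι {W | t < ‖Matrix.diagonal u * (c • W) * Matrix.diagonal u‖}
      ≤ ENNReal.ofReal (16 * c ^ 4 * ub * T ^ 3 / t ^ 4) := by
  rcases isEmpty_or_nonempty ι with hE | hE
  · have : {W : Matrix ι ι ℝ | t < ‖Matrix.diagonal u * (c • W) * Matrix.diagonal u‖} = ∅ := by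
      ext W
      simp only [Set.mem_ofPred_eq, Set.mem_empty_iff_false, iff_false, not_lt]
      rw [Subsingleton.elim (Matrix.diagonal u * (c • W) * Matrix.diagonal u) 0, norm_zero]
      exact ht.le
    rw [this]; simp
  have hub0 : 0 ≤ ub := (sq_nonneg _).trans (hub hE.some)
  have hfm : Measurable fun W : Matrix ι ι ℝ => Matrix.diagonal u * (c • W) * Matrix.diagonal u := by
    have : Continuous fun W : Matrix ι ι ℝ => Matrix.diagonal u * (c • W) * Matrix.diagonal u := by fun_prop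
    exact this.measurable
  have hms : MeasurableSet {W : Matrix ι ι ℝ | t < ‖Matrix.diagonal u * (c • W) * Matrix.diagonal u‖} :=
    measurableSet_lt measurable_const (g2_norm_measurable.comp hfm)
  unfold goeRaw
  rw [Measure.map_apply goe_of_measurable hms]
  -- pointwise bound
  have hpt : ∀ N : Matrix ι ι ℝ, ‖Matrix.diagonal u * (c • goeOf N) * Matrix.diagonal u‖ ^ 4
      ≤ 4 * c ^ 4 * hsq ((Matrix.diagonal u * N * Matrix.diagonal u) * (Matrix.diagonal u * N * Matrix.diagonal u)ᵀ) := by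
    intro N
    set Y := Matrix.diagonal u * N * Matrix.diagonal u with hY
    have hYT : Yᵀ = Matrix.diagonal u * Nᵀ * Matrix.diagonal u := by
      rw [hY, Matrix.transpose_mul, Matrix.transpose_mul, Matrix.diagonal_transpose, Matrix.mul_assoc]
    have e : Matrix.diagonal u * (c • goeOf N) * Matrix.diagonal u = (c * (Real.sqrt 2)⁻¹) • (Y + Yᵀ) := by
      rw [hYT, hY]
      unfold goeOf
      rw [smul_smul, Matrix.mul_smul, Matrix.smul_mul, Matrix.mul_add, Matrix.add_mul]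
    have h1 : ‖Y + Yᵀ‖ ≤ 2 * ‖Y‖ := by
      refine (norm_add_le _ _).trans ?_
      rw [g2_norm_T]; linarith
    have h2 : (Real.sqrt 2)⁻¹ ^ 4 = 1 / 4 := by
      have : Real.sqrt 2 ^ 2 = 2 := Real.sq_sqrt (by norm_num)
      rw [inv_pow, show Real.sqrt 2 ^ 4 = (Real.sqrt 2 ^ 2) ^ 2 by ring, this]; norm_num
    rw [e, norm_smul, mul_pow, Real.norm_eq_abs]
    have h3 : |c * (Real.sqrt 2)⁻¹| ^ 4 = c ^ 4 / 4 := by
      rw [show |c * (Real.sqrt 2)⁻¹| ^ 4 = (|c * (Real.sqrt 2)⁻¹| ^ 2) ^ 2 by ring, sq_abs]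
      rw [show ((c * (Real.sqrt 2)⁻¹) ^ 2) ^ 2 = c ^ 4 * (Real.sqrt 2)⁻¹ ^ 4 by ring, h2]; ring
    rw [h3]
    have h4 : ‖Y + Yᵀ‖ ^ 4 ≤ 16 * ‖Y‖ ^ 4 := by
      have := pow_le_pow_left₀ (norm_nonneg _) h1 4
      calc _ ≤ (2 * ‖Y‖) ^ 4 := this
        _ = 16 * ‖Y‖ ^ 4 := by ring
    have h5 := g2_op4_le Y
    have hc4 : 0 ≤ c ^ 4 := by positivity
    nlinarith [mul_le_mul_of_nonneg_left (h4.trans (mul_le_mul_of_nonneg_left h5 (by norm_num : (0:ℝ) ≤ 16))) hc4]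
  have hm4 := g2_m4 u u
  set H : Matrix ι ι ℝ → ℝ := fun N => 4 * c ^ 4 * hsq ((Matrix.diagonal u * N * Matrix.diagonal u) * (Matrix.diagonal u * N * Matrix.diagonal u)ᵀ) with hH
  have hsub : goeOf ⁻¹' {W : Matrix ι ι ℝ | t < ‖Matrix.diagonal u * (c • W) * Matrix.diagonal u‖} ⊆ {N | t ^ 4 < H N} := by
    intro N hN
    have hN' : t < ‖Matrix.diagonal u * (c • goeOf N) * Matrix.diagonal u‖ := hN
    exact (pow_lt_pow_left₀ hN' ht.le (by norm_num)).trans_le (hpt N)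
  refine (measure_mono hsub).trans ?_
  refine g2_markov (fun N => ?_) (hm4.1.const_mul _) ?_ (by positivity)
  · exact mul_nonneg (by positivity) (Finset.sum_nonneg fun _ _ => Finset.sum_nonneg fun _ _ => sq_nonneg _)
  · rw [integral_const_mul]
    set S2 := ∑ j, u j ^ 2 with hS2
    set S4 := ∑ j, u j ^ 4 with hS4
    have a0 : 0 ≤ S2 := Finset.sum_nonneg fun _ _ => sq_nonneg _
    have a1 : 0 ≤ S4 := Finset.sum_nonneg fun _ _ => by positivity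
    have a2 : S4 ≤ S2 ^ 2 := by
      have : S4 = ∑ i, (u i ^ 2) ^ 2 := Finset.sum_congr rfl fun i _ => by ring
      rw [this]
      exact Finset.sum_sq_le_sq_sum_of_nonneg fun i _ => sq_nonneg _
    have a3 : S4 ≤ ub * S2 := by
      rw [hS4, hS2, Finset.mul_sum]
      refine Finset.sum_le_sum fun j _ => ?_
      have := mul_le_mul_of_nonneg_right (hub j) (sq_nonneg (u j))
      calc u j ^ 4 = u j ^ 2 * u j ^ 2 := by ring
        _ ≤ ub * u j ^ 2 := this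
    have a4 : S2 ^ 2 * S4 + S4 * (S2 ^ 2 + 2 * S4) ≤ 4 * (ub * T ^ 3) := by
      have b1 : S4 * S4 ≤ S4 * S2 ^ 2 := mul_le_mul_of_nonneg_left a2 a1
      have b2 : S2 ^ 2 * S4 ≤ S2 ^ 2 * (ub * S2) := mul_le_mul_of_nonneg_left a3 (sq_nonneg _)
      have b3 : S2 ^ 3 ≤ T ^ 3 := pow_le_pow_left₀ a0 hT 3
      have b4 : ub * S2 ^ 3 ≤ ub * T ^ 3 := mul_le_mul_of_nonneg_left b3 hub0
      nlinarith
    have hc4 : 0 ≤ 4 * c ^ 4 := by positivity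
    calc 4 * c ^ 4 * _ ≤ 4 * c ^ 4 * (4 * (ub * T ^ 3)) := mul_le_mul_of_nonneg_left (hm4.2.trans a4) hc4
      _ = 16 * c ^ 4 * ub * T ^ 3 := by ring

theorem g2_entry_sq (i : ι) (j : κ) : Integrable (fun G : Matrix ι κ ℝ => G i j ^ 2) (gArr ι κ) ∧
    ∫ G : Matrix ι κ ℝ, G i j ^ 2 ∂gArr ι κ = 1 := by
  have hmp : MeasurePreserving (fun G : Matrix ι κ ℝ => G i) (gArr ι κ) (qfG κ) := measurePreserving_eval (fun _ : ι => qfG κ) i
  have h1 : Integrable (fun g : κ → ℝ => g j ^ 2) (qfG κ) := qf_coord_integrable (qf_g1_pow_integrable 2) j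
  refine ⟨(hmp.integrable_comp h1.aestronglyMeasurable).2 h1, ?_⟩
  have hsm : AEStronglyMeasurable (fun g : κ → ℝ => g j ^ 2) ((gArr ι κ).map fun G : Matrix ι κ ℝ => G i) := by
    rw [hmp.map_eq]; exact h1.aestronglyMeasurable
  have := integral_map hmp.measurable.aemeasurable hsm
  rw [hmp.map_eq, qf_coord_integral (f := fun y => y ^ 2) (by fun_prop), qf_g1_sq] at this
  exact this.symm

/-- P2 (cross block). `E ‖U (cG) V‖²_HS = c² ∑ u² ∑ v²`. Markov. -/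
theorem g2_p_cross (u : ι → ℝ) (v : κ → ℝ) {c t : ℝ} (ht : 0 < t) :
    gArr ι κ {G | t < hsq (Matrix.diagonal u * (c • G) * Matrix.diagonal v)}
      ≤ ENNReal.ofReal (c ^ 2 * (∑ a, u a ^ 2) * (∑ j, v j ^ 2) / t) := by
  have e : (fun G : Matrix ι κ ℝ => hsq (Matrix.diagonal u * (c • G) * Matrix.diagonal v))
      = fun G => ∑ a, ∑ j, (c ^ 2 * u a ^ 2 * v j ^ 2) * G a j ^ 2 := by
    funext G
    unfold hsq
    refine Finset.sum_congr rfl fun i _ => Finset.sum_congr rfl fun k _ => ?_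
    rw [Matrix.mul_diagonal, Matrix.diagonal_mul, Matrix.smul_apply, smul_eq_mul]
    ring
  have hI : ∀ a j, Integrable (fun G : Matrix ι κ ℝ => (c ^ 2 * u a ^ 2 * v j ^ 2) * G a j ^ 2) (gArr ι κ) := fun a j =>
    (g2_entry_sq a j).1.const_mul _
  refine g2_markov (fun G => ?_) ?_ (le_of_eq ?_) ht
  · exact Finset.sum_nonneg fun _ _ => Finset.sum_nonneg fun _ _ => sq_nonneg _
  · rw [e]; exact integrable_finsetSum _ fun a _ => integrable_finsetSum _ fun j _ => hI a j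
  · rw [e, integral_finsetSum _ fun a _ => integrable_finsetSum _ fun j _ => hI a j]
    simp only [integral_finsetSum _ fun j _ => hI _ j, integral_const_mul, (g2_entry_sq _ _).2, mul_one]
    rw [mul_assoc, Finset.sum_mul_sum, Finset.mul_sum]
    refine Finset.sum_congr rfl fun a _ => ?_
    rw [Finset.mul_sum]
    exact Finset.sum_congr rfl fun j _ => by ring

/-- P3 (main term of the Schur correction, CENTRED). Entries `c² u_a u_b (∑_j s_j G_aj G_bj - δ_ab ∑ s)`; M1b, M1c: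
`E ‖·‖²_HS ≤ 2 c⁴ (∑ u²)² ∑ s²`. Markov. -/
theorem g2_p_schur (u : ι → ℝ) (s : κ → ℝ) {c t : ℝ} (ht : 0 < t) :
    gArr ι κ {G | t < hsq (Matrix.diagonal u * ((c • G) * Matrix.diagonal s * (c • G)ᵀ
        - (c ^ 2 * ∑ j, s j) • (1 : Matrix ι ι ℝ)) * Matrix.diagonal u)}
      ≤ ENNReal.ofReal (2 * c ^ 4 * (∑ a, u a ^ 2) ^ 2 * (∑ j, s j ^ 2) / t) := by
  have e : (fun G : Matrix ι κ ℝ => hsq (Matrix.diagonal u * ((c • G) * Matrix.diagonal s * (c • G)ᵀ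
        - (c ^ 2 * ∑ j, s j) • (1 : Matrix ι ι ℝ)) * Matrix.diagonal u))
      = fun G => ∑ i, ∑ k, (u i * u k * (c ^ 2 * (∑ j, s j * G i j * G k j - if i = k then ∑ j, s j else 0))) ^ 2 := by
    funext G
    unfold hsq
    refine Finset.sum_congr rfl fun i _ => Finset.sum_congr rfl fun k _ => ?_
    congr 1
    rw [Matrix.mul_diagonal, Matrix.diagonal_mul, Matrix.sub_apply, Matrix.smul_apply, Matrix.one_apply, Matrix.mul_apply]
    have : ∑ j, ((c • G) * Matrix.diagonal s) i j * (c • G)ᵀ j k = c ^ 2 * ∑ j, s j * G i j * G k j := by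
      rw [Finset.mul_sum]
      refine Finset.sum_congr rfl fun j _ => ?_
      rw [Matrix.mul_diagonal, Matrix.transpose_apply, Matrix.smul_apply, Matrix.smul_apply, smul_eq_mul, smul_eq_mul]
      ring
    rw [this, smul_eq_mul]
    by_cases h : i = k
    · simp only [h, if_true]; ring
    · simp only [h, if_false]; ring
  have hsq2 : ∀ (i k : ι) (G : Matrix ι κ ℝ), (c ^ 2 * (∑ j, s j * G i j * G k j - if i = k then ∑ j, s j else 0)) ^ 2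
      = c ^ 4 * (∑ j, s j * G i j * G k j - if i = k then ∑ j, s j else 0) ^ 2 := fun i k G => by ring
  have h := g2_hs_mom (μ := gArr ι κ) u
    (fun i k G => c ^ 2 * (∑ j, s j * G i j * G k j - if i = k then ∑ j, s j else 0))
    (a := c ^ 4 * ∑ j, s j ^ 2) (b := c ^ 4 * (2 * ∑ j, s j ^ 2))
    (fun i k => by
      simp only [hsq2]
      refine Integrable.const_mul ?_ _
      by_cases h : i = k
      · subst h; simp only [if_true]; exact (g2_bil_diag s i).1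
      · simp only [h, if_false, sub_zero]; exact (g2_bil_off s h).1)
    (fun i k h => by
      simp only [hsq2]
      rw [integral_const_mul]
      simp only [h, if_false, sub_zero]
      rw [(g2_bil_off s h).2])
    (fun i => by
      have e2 : (fun G : Matrix ι κ ℝ => (c ^ 2 * (∑ j, s j * G i j * G i j - if i = i then ∑ j, s j else 0)) ^ 2)
          = fun G => c ^ 4 * (∑ j, s j * G i j * G i j - ∑ j, s j) ^ 2 := by
        funext G; rw [if_pos rfl]; ring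
      rw [e2, integral_const_mul, (g2_bil_diag s i).2])
  refine g2_markov (fun G => ?_) ?_ ?_ ht
  · exact Finset.sum_nonneg fun _ _ => Finset.sum_nonneg fun _ _ => sq_nonneg _
  · rw [e]; exact h.1
  · rw [e]
    refine h.2.trans ?_
    have h4 : ∑ i, u i ^ 4 ≤ (∑ i, u i ^ 2) ^ 2 := by
      have : ∑ i, u i ^ 4 = ∑ i, (u i ^ 2) ^ 2 := Finset.sum_congr rfl fun i _ => by ring
      rw [this]
      exact Finset.sum_sq_le_sq_sum_of_nonneg fun i _ => sq_nonneg _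
    have h5 : 0 ≤ c ^ 4 * ∑ j, s j ^ 2 := mul_nonneg (by positivity) (Finset.sum_nonneg fun j _ => sq_nonneg _)
    nlinarith [mul_le_mul_of_nonneg_right h4 h5]

end mom

/-! ## 2. The functional `g2T`: measurability, bounds, reindexing, comparison of integrals -/

section fn
variable {b : ℕ} {z : Fin b → ℂ} {Φ : (Fin b → ℂ) → ℝ}

/-- F1. The observable is measurable in the noise (`rs_rTr_measurable`). -/
theorem g2_ob_measurable {ι : Type} [Fintype ι] [DecidableEq ι] (z : Fin b → ℂ) (Δ : ℝ) (d : ι → ℝ) (σ : ℝ) :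
    Measurable (g2Ob z Δ d σ) := by
  have hlin : Measurable fun W : Matrix ι ι ℝ => Matrix.diagonal d + Real.sqrt Δ • W := by
    refine goe_measurable_of_entries fun i j => ?_
    simp only [Matrix.add_apply, Matrix.smul_apply]
    exact ((goe_entry_measurable i j).const_smul (Real.sqrt Δ)).const_add _
  refine measurable_pi_iff.2 fun a => ?_
  exact ((rs_rTr_measurable (z a + ((Δ * σ : ℝ) : ℂ))).comp hlin).add_const _

instance g2_raw_prob {ι : Type} [Fintype ι] [DecidableEq ι] : IsProbabilityMeasure (goeRaw ι) := by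
  exact goe_raw_prob

/-- `rTr` of a relabelled matrix -/
theorem g2_rTr_reindex211 {ι ι' : Type} [Fintype ι] [DecidableEq ι] [Fintype ι'] [DecidableEq ι'] (e : ι ≃ ι')
    (H : Matrix ι ι ℝ) (w : ℂ) : rTr (Matrix.reindex e e H) w = rTr H w := by
  unfold rTr
  have h1 : (Matrix.reindex e e H).map (fun x : ℝ => (x : ℂ)) - w • (1 : Matrix ι' ι' ℂ)
      = (H.map (fun x : ℝ => (x : ℂ)) - w • (1 : Matrix ι ι ℂ)).submatrix e.symm e.symm := by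
    ext i j
    simp [Matrix.reindex_apply, Matrix.one_apply]
  rw [h1, Matrix.inv_submatrix_equiv]
  simp only [Matrix.trace, Matrix.diag_apply, Matrix.submatrix_apply]
  exact Equiv.sum_comp e.symm fun i => ((H.map (fun x : ℝ => (x : ℂ)) - w • (1 : Matrix ι ι ℂ))⁻¹) i i

/-- F2. Relabelling (`goe_raw_reindex`; `rTr` of a reindexed matrix). -/
theorem g2_T_reindex {ι ι' : Type} [Fintype ι] [DecidableEq ι] [Fintype ι'] [DecidableEq ι'] (e : ι ≃ ι')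
    (hΦ : Continuous Φ) (Δ : ℝ) (d : ι' → ℝ) (σ : ℝ) : g2T Φ z Δ (d ∘ e) σ = g2T Φ z Δ d σ := by
  have hre : Measurable (Matrix.reindex e e : Matrix ι ι ℝ → Matrix ι' ι' ℝ) := by
    refine goe_measurable_of_entries fun i j => ?_
    simp only [Matrix.reindex_apply, Matrix.submatrix_apply]
    exact goe_entry_measurable _ _
  have hm : Measurable fun W => Φ (g2Ob z Δ d σ W) := hΦ.measurable.comp (g2_ob_measurable z Δ d σ)
  unfold g2T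
  rw [← goe_raw_reindex e, integral_map hre.aemeasurable hm.aestronglyMeasurable]
  refine integral_congr_ae (Filter.Eventually.of_forall fun W => ?_)
  show Φ (g2Ob z Δ (d ∘ e) σ W) = Φ (g2Ob z Δ d σ (Matrix.reindex e e W))
  congr 1
  funext a
  unfold g2Ob
  have h1 : Matrix.diagonal d + Real.sqrt Δ • Matrix.reindex e e W
      = Matrix.reindex e e (Matrix.diagonal (d ∘ e) + Real.sqrt Δ • W) := by
    ext i j
    simp [Matrix.reindex_apply, Matrix.diagonal_apply]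
  rw [h1, g2_rTr_reindex211]

/-- F3 (general). Two measurable functions bounded by `B`, `ε`-close off a set of outer measure `≤ δ`. -/
theorem g2_int_split {X : Type} [MeasurableSpace X] {μ : Measure X} [IsProbabilityMeasure μ]
    {F G : X → ℝ} (hF : Measurable F) (hG : Measurable G) {B : ℝ} (hF1 : ∀ x, |F x| ≤ B)
    (hG1 : ∀ x, |G x| ≤ B) {S : Set X} {ε δ : ℝ} (hε : 0 ≤ ε) (hδ : 0 ≤ δ) (hS : μ Sᶜ ≤ ENNReal.ofReal δ)
    (hFG : ∀ x ∈ S, |F x - G x| ≤ ε) : |∫ x, F x ∂μ - ∫ x, G x ∂μ| ≤ ε + 2 * B * δ := by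
  have hiF : Integrable F μ := Integrable.of_bound hF.aestronglyMeasurable B
    (Filter.Eventually.of_forall fun x => by rw [Real.norm_eq_abs]; exact hF1 x)
  have hiG : Integrable G μ := Integrable.of_bound hG.aestronglyMeasurable B
    (Filter.Eventually.of_forall fun x => by rw [Real.norm_eq_abs]; exact hG1 x)
  have hB0 : 0 ≤ B := by
    obtain ⟨x⟩ : Nonempty X := by
      by_contra hne
      rw [not_nonempty_iff] at hne
      have h1 : μ Set.univ = 1 := measure_univ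
      rw [Set.univ_eq_empty_iff.2 hne, measure_empty] at h1
      exact zero_ne_one h1
    exact (abs_nonneg _).trans (hF1 x)
  -- measurable bad set
  set T : Set X := {x | ε < |F x - G x|} with hT
  have hTm : MeasurableSet T := measurableSet_lt measurable_const (hF.sub hG).abs
  have hTS : T ⊆ Sᶜ := fun x hx hxS => absurd (hFG x hxS) (not_le.2 hx)
  have hμT : μ T ≤ ENNReal.ofReal δ := (measure_mono hTS).trans hS
  have hμTr : μ.real T ≤ δ := by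
    have := ENNReal.toReal_mono ENNReal.ofReal_ne_top hμT
    rwa [ENNReal.toReal_ofReal hδ] at this
  have hpt : ∀ x, |F x - G x| ≤ ε + T.indicator (fun _ => 2 * B) x := by
    intro x
    by_cases hx : x ∈ T
    · rw [Set.indicator_of_mem hx]
      have h1 : |F x - G x| ≤ |F x| + |G x| := abs_sub _ _
      linarith [hF1 x, hG1 x]
    · rw [Set.indicator_of_notMem hx, add_zero]
      exact not_lt.1 hx
  have hind : Integrable (T.indicator fun _ : X => 2 * B) μ := (integrable_const _).indicator hTm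
  calc |∫ x, F x ∂μ - ∫ x, G x ∂μ| = |∫ x, (F x - G x) ∂μ| := by rw [integral_sub hiF hiG]
    _ ≤ ∫ x, |F x - G x| ∂μ := abs_integral_le_integral_abs
    _ ≤ ∫ x, (ε + T.indicator (fun _ => 2 * B) x) ∂μ :=
        integral_mono (hiF.sub hiG).abs ((integrable_const _).add hind) hpt
    _ = ε + 2 * B * μ.real T := by
        rw [integral_add (integrable_const _) hind, integral_indicator hTm]
        simp [mul_comm]
    _ ≤ ε + 2 * B * δ := by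
        have := mul_le_mul_of_nonneg_left hμTr (by positivity : 0 ≤ 2 * B)
        linarith

/-- F4. The form of `LStat`: `g2T` at `σ = 0` is the inner integral of `LStat`. -/
theorem g2_T_cutM (hΦ : Continuous Φ) (K : ℕ) (Δ : ℝ) (x : Conf) :
    ∫ N, Φ (fun a => rTr (cutM K Δ x N) (z a)) ∂(gArr (Win K) (Win K)) = g2T Φ z Δ (cPos K x) 0 := by
  have hm : Measurable fun W => Φ (g2Ob z Δ (cPos K x) 0 W) :=
    hΦ.measurable.comp (g2_ob_measurable z Δ (cPos K x) 0)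
  unfold g2T
  rw [goe_raw_integral _ hm]
  refine integral_congr_ae (Filter.Eventually.of_forall fun N => ?_)
  show Φ _ = Φ _
  congr 1
  funext a
  simp [g2Ob, cutM]

end fn

/-! ## 3. One step: removal of one shell, fixed positions, explicit thresholds -/

/-- B1a (deterministic part of one step). -/
theorem g2_step_det {ιI ιF : Type} [Fintype ιI] [DecidableEq ιI] [Fintype ιF] [DecidableEq ιF]
    {b : ℕ} {z : Fin b → ℂ} (hz : ∀ a, 0 < (z a).im) {Δ : ℝ} (hΔ : 0 < Δ) {dI : ιI → ℝ} {dF : ιF → ℝ} (σ' : ℝ)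
    {h κ ℓ tF t0 tS ε : ℝ} (hh : 0 < h) (hκ : 0 < κ) (hd : ∀ j, κ ≤ |dF j|) (htS : 0 < tS)
    (hℓI : ∑ a, (|dI a| + h)⁻¹ ≤ ℓ) (hℓF : ∑ j, |dF j|⁻¹ ≤ ℓ)
    (hδ : ∀ a, tF + ‖z a + ((Δ * σ' : ℝ) : ℂ)‖ / κ ≤ 1 / 2)
    (hsm : ∀ a, s5rho h (z a + ((Δ * σ' : ℝ) : ℂ) + ((Δ * ∑ j, (dF j)⁻¹ : ℝ) : ℂ))
      * (tS + 2 * (tF + ‖z a + ((Δ * σ' : ℝ) : ℂ)‖ / κ) * t0) ≤ 1 / 2)
    (hε : ∀ a, s5detS h κ ℓ tF t0 tS (z a + ((Δ * σ' : ℝ) : ℂ))
      (z a + ((Δ * σ' : ℝ) : ℂ) + ((Δ * ∑ j, (dF j)⁻¹ : ℝ) : ℂ)) ≤ ε)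
    {WI : Matrix ιI ιI ℝ} {G : Matrix ιI ιF ℝ} {WF : Matrix ιF ιF ℝ} (hWI : WIᵀ = WI) (hWF : WFᵀ = WF)
    (g1 : ‖wF dF * (Real.sqrt Δ • WF) * wF dF‖ ≤ tF) (g2 : ‖wI h dI * (Real.sqrt Δ • WI) * wI h dI‖ ≤ 1 / 4)
    (g3 : hsq (wI h dI * (Real.sqrt Δ • G) * wF dF) ≤ t0)
    (g4 : hsq (wI h dI * ((Real.sqrt Δ • G) * (Matrix.diagonal fun j => (dF j)⁻¹) * (Real.sqrt Δ • G)ᵀ
      - (Real.sqrt Δ ^ 2 * ∑ j, (dF j)⁻¹) • (1 : Matrix ιI ιI ℝ)) * wI h dI) ≤ tS ^ 2) (a : Fin b) :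
    ‖g2Ob z Δ (Sum.elim dI dF) σ' (Matrix.fromBlocks WI G Gᵀ WF) a - g2Ob z Δ dI (σ' + ∑ j, (dF j)⁻¹) WI a‖ ≤ ε := by
  have hsq2 : Real.sqrt Δ ^ 2 = Δ := Real.sq_sqrt hΔ.le
  rw [hsq2] at g4
  have hS : ‖wI h dI * ((Real.sqrt Δ • G) * (Matrix.diagonal fun j => (dF j)⁻¹) * (Real.sqrt Δ • G)ᵀ
      - (Δ * ∑ j, (dF j)⁻¹) • (1 : Matrix ιI ιI ℝ)) * wI h dI‖ ≤ tS :=
    abs_le_of_sq_le_sq' ((g2_op_le_hs _).trans g4) htS.le |>.2
  have him : 0 < (z a + ((Δ * σ' : ℝ) : ℂ)).im := by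
    rw [Complex.add_im, Complex.ofReal_im, add_zero]; exact hz a
  have key := s5_block_det' (dI := dI) (dF := dF) (AII := Real.sqrt Δ • WI) (AIF := Real.sqrt Δ • G)
    (AFF := Real.sqrt Δ • WF) (by rw [Matrix.transpose_smul, hWI]) (by rw [Matrix.transpose_smul, hWF])
    (Δ * ∑ j, (dF j)⁻¹) hh hκ hd g1 g2 le_rfl g3 hS hℓI hℓF him (hδ a) (hsm a)
  refine le_trans (le_of_eq ?_) (key.trans (hε a))
  have e1 : Matrix.diagonal (Sum.elim dI dF) + Real.sqrt Δ • Matrix.fromBlocks WI G Gᵀ WF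
      = Matrix.fromBlocks (Matrix.diagonal dI + Real.sqrt Δ • WI) (Real.sqrt Δ • G) (Real.sqrt Δ • G)ᵀ
        (Matrix.diagonal dF + Real.sqrt Δ • WF) := by
    rw [← Matrix.fromBlocks_diagonal, Matrix.fromBlocks_smul, Matrix.fromBlocks_add, zero_add, zero_add,
      Matrix.transpose_smul]
  unfold g2Ob
  rw [e1]
  congr 1
  push_cast
  ring_nf

section step297
variable {ιI ιF : Type} [Fintype ιI] [DecidableEq ιI] [Fintype ιF] [DecidableEq ιF]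

/-- the raw GOE is a.s. symmetric -/
theorem g2s_symm {ι : Type} [Fintype ι] [DecidableEq ι] : goeRaw ι {W | ¬ Wᵀ = W} = 0 := by
  have hm : MeasurableSet {W : Matrix ι ι ℝ | ¬ Wᵀ = W} := by
    have hc : IsClosed {W : Matrix ι ι ℝ | Wᵀ = W} := isClosed_eq (by fun_prop) continuous_id
    exact hc.measurableSet.compl
  unfold goeRaw
  rw [Measure.map_apply goe_of_measurable hm]
  have : goeOf ⁻¹' {W : Matrix ι ι ℝ | ¬ Wᵀ = W} = ∅ := by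
    ext N
    simp only [Set.mem_preimage, Set.mem_ofPred_eq, Set.mem_empty_iff_false, iff_false, not_not]
    exact goe_of_isSymm N
  rw [this, measure_empty]

theorem g2s_cyl1 (A : Set (Matrix ιI ιI ℝ)) :
    ((goeRaw ιI).prod ((gArr ιI ιF).prod (goeRaw ιF))) {p | p.1 ∈ A} = goeRaw ιI A := by
  have : {p : Matrix ιI ιI ℝ × Matrix ιI ιF ℝ × Matrix ιF ιF ℝ | p.1 ∈ A} = A ×ˢ Set.univ := by
    ext p; simp
  rw [this, Measure.prod_prod, measure_univ, mul_one]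

theorem g2s_cyl2 (A : Set (Matrix ιI ιF ℝ)) :
    ((goeRaw ιI).prod ((gArr ιI ιF).prod (goeRaw ιF))) {p | p.2.1 ∈ A} = gArr ιI ιF A := by
  have : {p : Matrix ιI ιI ℝ × Matrix ιI ιF ℝ × Matrix ιF ιF ℝ | p.2.1 ∈ A} = Set.univ ×ˢ (A ×ˢ Set.univ) := by
    ext p; simp
  rw [this, Measure.prod_prod, Measure.prod_prod, measure_univ, measure_univ, mul_one, one_mul]

theorem g2s_cyl3 (A : Set (Matrix ιF ιF ℝ)) :
    ((goeRaw ιI).prod ((gArr ιI ιF).prod (goeRaw ιF))) {p | p.2.2 ∈ A} = goeRaw ιF A := by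
  have : {p : Matrix ιI ιI ℝ × Matrix ιI ιF ℝ × Matrix ιF ιF ℝ | p.2.2 ∈ A} = Set.univ ×ˢ (Set.univ ×ˢ A) := by
    ext p; simp
  rw [this, Measure.prod_prod, Measure.prod_prod, measure_univ, measure_univ, one_mul, one_mul]

/-- the good event of one step -/
def g2sGood (Δ h tF t0 tS : ℝ) (dI : ιI → ℝ) (dF : ιF → ℝ) :
    Set (Matrix ιI ιI ℝ × Matrix ιI ιF ℝ × Matrix ιF ιF ℝ) :=
  {p | p.1ᵀ = p.1 ∧ p.2.2ᵀ = p.2.2 ∧ ‖wF dF * (Real.sqrt Δ • p.2.2) * wF dF‖ ≤ tF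
    ∧ ‖wI h dI * (Real.sqrt Δ • p.1) * wI h dI‖ ≤ 1 / 4
    ∧ hsq (wI h dI * (Real.sqrt Δ • p.2.1) * wF dF) ≤ t0
    ∧ hsq (wI h dI * ((Real.sqrt Δ • p.2.1) * (Matrix.diagonal fun j => (dF j)⁻¹) * (Real.sqrt Δ • p.2.1)ᵀ
        - (Real.sqrt Δ ^ 2 * ∑ j, (dF j)⁻¹) • (1 : Matrix ιI ιI ℝ)) * wI h dI) ≤ tS ^ 2}

theorem g2s_eqns_cite : True := by
  have := @g2sGood.eq_1
  trivial

theorem g2s_bad_nonneg {Δ h κ ℓ τ₂ tF t0 tS : ℝ} (hΔ : 0 < Δ) (hh : 0 < h) (hκ : 0 < κ) (hℓ : 0 ≤ ℓ) (hτ : 0 ≤ τ₂)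
    (htF : 0 < tF) (ht0 : 0 < t0) (htS : 0 < tS) : 0 ≤ g2bad Δ h κ ℓ τ₂ tF t0 tS := by
  unfold g2bad
  positivity

/-- (b) PROB: the bad event of one step -/
theorem g2s_prob {Δ : ℝ} (hΔ : 0 < Δ) {dI : ιI → ℝ} {dF : ιF → ℝ}
    {h κ ℓ τ₂ tF t0 tS : ℝ} (hh : 0 < h) (hκ : 0 < κ) (hd : ∀ j, κ ≤ |dF j|)
    (htF : 0 < tF) (ht0 : 0 < t0) (htS : 0 < tS)
    (hℓI : ∑ a, (|dI a| + h)⁻¹ ≤ ℓ) (hℓF : ∑ j, |dF j|⁻¹ ≤ ℓ) (hτ₂ : ∑ j, ((dF j)⁻¹) ^ 2 ≤ τ₂) :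
    ((goeRaw ιI).prod ((gArr ιI ιF).prod (goeRaw ιF))) (g2sGood Δ h tF t0 tS dI dF)ᶜ
      ≤ ENNReal.ofReal (g2bad Δ h κ ℓ τ₂ tF t0 tS) := by
  set μ := (goeRaw ιI).prod ((gArr ιI ιF).prod (goeRaw ιF)) with hμ
  set c := Real.sqrt Δ with hc
  have hc2 : c ^ 2 = Δ := Real.sq_sqrt hΔ.le
  have hc4 : c ^ 4 = Δ ^ 2 := by rw [show c ^ 4 = (c ^ 2) ^ 2 by ring, hc2]
  have huI : ∀ a, ((Real.sqrt (|dI a| + h))⁻¹) ^ 2 = (|dI a| + h)⁻¹ := fun a => by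
    rw [inv_pow, Real.sq_sqrt (by positivity)]
  have huF : ∀ j, ((Real.sqrt |dF j|)⁻¹) ^ 2 = |dF j|⁻¹ := fun j => by
    rw [inv_pow, Real.sq_sqrt (abs_nonneg _)]
  have hsI0 : 0 ≤ ∑ a, (|dI a| + h)⁻¹ := Finset.sum_nonneg fun a _ => by positivity
  have hsF0 : 0 ≤ ∑ j, |dF j|⁻¹ := Finset.sum_nonneg fun a _ => by positivity
  have hs20 : 0 ≤ ∑ j, ((dF j)⁻¹) ^ 2 := Finset.sum_nonneg fun a _ => by positivity
  have hℓ0 : 0 ≤ ℓ := hsF0.trans hℓF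
  have hτ0 : 0 ≤ τ₂ := hs20.trans hτ₂
  -- the six bad events
  have b1 : μ {p | p.1 ∈ {W : Matrix ιI ιI ℝ | ¬ Wᵀ = W}} = 0 := by rw [hμ, g2s_cyl1, g2s_symm]
  have b2 : μ {p | p.2.2 ∈ {W : Matrix ιF ιF ℝ | ¬ Wᵀ = W}} = 0 := by rw [hμ, g2s_cyl3, g2s_symm]
  have b3 : μ {p | p.2.2 ∈ {W : Matrix ιF ιF ℝ | tF < ‖wF dF * (c • W) * wF dF‖}}
      ≤ ENNReal.ofReal (16 * Δ ^ 2 * ℓ ^ 3 / (κ * tF ^ 4)) := by
    rw [hμ, g2s_cyl3]
    have := g2_p_norm (u := fun j => (Real.sqrt |dF j|)⁻¹) (T := ℓ) (ub := 1 / κ) (c := c) (t := tF)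
      (by simp only [huF]; exact hℓF)
      (fun j => by
        simp only [huF]
        rw [one_div]
        exact inv_anti₀ hκ (hd j)) htF
    refine this.trans (le_of_eq ?_)
    rw [hc4]
    congr 1
    field_simp
  have b4 : μ {p | p.1 ∈ {W : Matrix ιI ιI ℝ | 1 / 4 < ‖wI h dI * (c • W) * wI h dI‖}}
      ≤ ENNReal.ofReal (4096 * Δ ^ 2 * ℓ ^ 3 / h) := by
    rw [hμ, g2s_cyl1]
    have := g2_p_norm (u := fun a => (Real.sqrt (|dI a| + h))⁻¹) (T := ℓ) (ub := 1 / h) (c := c) (t := 1 / 4)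
      (by simp only [huI]; exact hℓI)
      (fun a => by
        simp only [huI]
        rw [one_div]
        exact inv_anti₀ hh (by linarith [abs_nonneg (dI a)])) (by norm_num)
    refine this.trans (le_of_eq ?_)
    rw [hc4]
    congr 1
    field_simp
    ring
  have b5 : μ {p | p.2.1 ∈ {G : Matrix ιI ιF ℝ | t0 < hsq (wI h dI * (c • G) * wF dF)}}
      ≤ ENNReal.ofReal (Δ * ℓ ^ 2 / t0) := by
    rw [hμ, g2s_cyl2]
    have := g2_p_cross (fun a => (Real.sqrt (|dI a| + h))⁻¹) (fun j => (Real.sqrt |dF j|)⁻¹) (c := c) ht0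
    refine this.trans (ENNReal.ofReal_le_ofReal ?_)
    simp only [huI, huF]
    rw [hc2]
    have : (∑ a, (|dI a| + h)⁻¹) * (∑ j, |dF j|⁻¹) ≤ ℓ * ℓ := mul_le_mul hℓI hℓF hsF0 hℓ0
    apply div_le_div_of_nonneg_right _ ht0.le
    nlinarith
  have b6 : μ {p | p.2.1 ∈ {G : Matrix ιI ιF ℝ | tS ^ 2 < hsq (wI h dI * ((c • G) * (Matrix.diagonal fun j => (dF j)⁻¹) * (c • G)ᵀ
        - (c ^ 2 * ∑ j, (dF j)⁻¹) • (1 : Matrix ιI ιI ℝ)) * wI h dI)}}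
      ≤ ENNReal.ofReal (2 * Δ ^ 2 * ℓ ^ 2 * τ₂ / tS ^ 2) := by
    rw [hμ, g2s_cyl2]
    have := g2_p_schur (fun a => (Real.sqrt (|dI a| + h))⁻¹) (fun j => (dF j)⁻¹) (c := c) (t := tS ^ 2) (by positivity)
    refine this.trans (ENNReal.ofReal_le_ofReal ?_)
    simp only [huI]
    rw [hc4]
    have h1 : (∑ a, (|dI a| + h)⁻¹) ^ 2 ≤ ℓ ^ 2 := pow_le_pow_left₀ hsI0 hℓI 2
    have h2 : (∑ a, (|dI a| + h)⁻¹) ^ 2 * (∑ j, ((dF j)⁻¹) ^ 2) ≤ ℓ ^ 2 * τ₂ := mul_le_mul h1 hτ₂ hs20 (by positivity)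
    apply div_le_div_of_nonneg_right _ (by positivity)
    have h3 : 0 ≤ 2 * Δ ^ 2 := by positivity
    nlinarith [mul_le_mul_of_nonneg_left h2 h3]
  have hsub : (g2sGood Δ h tF t0 tS dI dF)ᶜ ⊆
      ((((({p | p.1 ∈ {W : Matrix ιI ιI ℝ | ¬ Wᵀ = W}} ∪ {p | p.2.2 ∈ {W : Matrix ιF ιF ℝ | ¬ Wᵀ = W}})
        ∪ {p | p.2.2 ∈ {W : Matrix ιF ιF ℝ | tF < ‖wF dF * (c • W) * wF dF‖}})
        ∪ {p | p.1 ∈ {W : Matrix ιI ιI ℝ | 1 / 4 < ‖wI h dI * (c • W) * wI h dI‖}})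
        ∪ {p | p.2.1 ∈ {G : Matrix ιI ιF ℝ | t0 < hsq (wI h dI * (c • G) * wF dF)}})
        ∪ {p | p.2.1 ∈ {G : Matrix ιI ιF ℝ | tS ^ 2 < hsq (wI h dI * ((c • G) * (Matrix.diagonal fun j => (dF j)⁻¹) * (c • G)ᵀ
        - (c ^ 2 * ∑ j, (dF j)⁻¹) • (1 : Matrix ιI ιI ℝ)) * wI h dI)}}) := by
    intro p hp
    by_contra hn
    simp only [Set.mem_union, Set.mem_ofPred_eq, not_or, not_not, not_lt] at hn
    obtain ⟨⟨⟨⟨⟨n1, n2⟩, n3⟩, n4⟩, n5⟩, n6⟩ := hn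
    exact hp ⟨n1, n2, n3, n4, n5, n6⟩
  refine (measure_mono hsub).trans ?_
  refine (measure_union_le _ _).trans ?_
  refine (add_le_add ((measure_union_le _ _).trans (add_le_add ((measure_union_le _ _).trans (add_le_add
    ((measure_union_le _ _).trans (add_le_add ((measure_union_le _ _).trans (add_le_add b1.le b2.le)) b3)) b4)) b5)) b6).trans ?_
  rw [add_zero, zero_add, ← ENNReal.ofReal_add (by positivity) (by positivity),
    ← ENNReal.ofReal_add (by positivity) (by positivity), ← ENNReal.ofReal_add (by positivity) (by positivity)]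
  exact le_of_eq rfl

/-- (a) DET: on the good event the two observables are close -/
theorem g2s_det {b : ℕ} {z : Fin b → ℂ} (hz : ∀ a, 0 < (z a).im) {Δ : ℝ} (hΔ : 0 < Δ) {dI : ιI → ℝ} {dF : ιF → ℝ} (σ' : ℝ)
    {h κ ℓ tF t0 tS ε : ℝ} (hh : 0 < h) (hκ : 0 < κ) (hd : ∀ j, κ ≤ |dF j|) (htS : 0 < tS) (hε0 : 0 ≤ ε)
    (hℓI : ∑ a, (|dI a| + h)⁻¹ ≤ ℓ) (hℓF : ∑ j, |dF j|⁻¹ ≤ ℓ)
    (hδ : ∀ a, tF + ‖z a + ((Δ * σ' : ℝ) : ℂ)‖ / κ ≤ 1 / 2)
    (hsm : ∀ a, s5rho h (z a + ((Δ * σ' : ℝ) : ℂ) + ((Δ * ∑ j, (dF j)⁻¹ : ℝ) : ℂ))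
      * (tS + 2 * (tF + ‖z a + ((Δ * σ' : ℝ) : ℂ)‖ / κ) * t0) ≤ 1 / 2)
    (hε : ∀ a, s5detS h κ ℓ tF t0 tS (z a + ((Δ * σ' : ℝ) : ℂ))
      (z a + ((Δ * σ' : ℝ) : ℂ) + ((Δ * ∑ j, (dF j)⁻¹ : ℝ) : ℂ)) ≤ ε)
    {p : Matrix ιI ιI ℝ × Matrix ιI ιF ℝ × Matrix ιF ιF ℝ} (hp : p ∈ g2sGood Δ h tF t0 tS dI dF) :
    dist (g2Ob z Δ (Sum.elim dI dF) σ' (Matrix.fromBlocks p.1 p.2.1 p.2.1ᵀ p.2.2))
      (g2Ob z Δ dI (σ' + ∑ j, (dF j)⁻¹) p.1) ≤ ε := by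
  obtain ⟨n1, n2, n3, n4, n5, n6⟩ := hp
  rw [dist_pi_le_iff hε0]
  intro a
  refine le_trans ?_ (hε a)
  set c := Real.sqrt Δ with hc
  have hc2 : c ^ 2 = Δ := Real.sq_sqrt hΔ.le
  rw [hc2] at n6
  have hS : ‖wI h dI * ((c • p.2.1) * (Matrix.diagonal fun j => (dF j)⁻¹) * (c • p.2.1)ᵀ
      - (Δ * ∑ j, (dF j)⁻¹) • (1 : Matrix ιI ιI ℝ)) * wI h dI‖ ≤ tS := by
    have h1 := (g2_op_le_hs _).trans n6
    exact (abs_le_of_sq_le_sq' h1 htS.le).2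
  have key := s5_block_det' (dI := dI) (dF := dF) (AII := c • p.1) (AIF := c • p.2.1) (AFF := c • p.2.2)
    (by rw [Matrix.transpose_smul, n1]) (by rw [Matrix.transpose_smul, n2]) (tI := 1 / 4)
    (Δ * ∑ j, (dF j)⁻¹) hh hκ hd n3 n4 le_rfl n5 hS hℓI hℓF
    (z := z a + ((Δ * σ' : ℝ) : ℂ)) (by simpa using hz a) (hδ a) (hsm a)
  have e1 : Matrix.diagonal (Sum.elim dI dF) + c • Matrix.fromBlocks p.1 p.2.1 p.2.1ᵀ p.2.2
      = Matrix.fromBlocks (Matrix.diagonal dI + c • p.1) (c • p.2.1) (c • p.2.1)ᵀ (Matrix.diagonal dF + c • p.2.2) := by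
    rw [← Matrix.fromBlocks_diagonal, Matrix.fromBlocks_smul, Matrix.fromBlocks_add, zero_add, zero_add,
      Matrix.transpose_smul]
  rw [dist_eq_norm]
  unfold g2Ob
  rw [← hc, e1]
  refine le_of_eq_of_le ?_ key
  congr 1
  have e2 : z a + ((Δ * (σ' + ∑ j, (dF j)⁻¹) : ℝ) : ℂ)
      = z a + ((Δ * σ' : ℝ) : ℂ) + ((Δ * ∑ j, (dF j)⁻¹ : ℝ) : ℂ) := by
    push_cast; ring
  rw [e2]
  push_cast
  ring

theorem g2s_step
    {b : ℕ} {z : Fin b → ℂ} (hz : ∀ a, 0 < (z a).im) {Φ : (Fin b → ℂ) → ℝ} {B : ℝ} (hB : ∀ v, |Φ v| ≤ B)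
    {Lc : NNReal} (hL : LipschitzWith Lc Φ) {Δ : ℝ} (hΔ : 0 < Δ) {dI : ιI → ℝ} {dF : ιF → ℝ} (σ' : ℝ)
    {h κ ℓ τ₂ tF t0 tS ε : ℝ} (hh : 0 < h) (hκ : 0 < κ) (hd : ∀ j, κ ≤ |dF j|)
    (htF : 0 < tF) (ht0 : 0 < t0) (htS : 0 < tS) (hε0 : 0 ≤ ε)
    (hℓI : ∑ a, (|dI a| + h)⁻¹ ≤ ℓ) (hℓF : ∑ j, |dF j|⁻¹ ≤ ℓ) (hτ₂ : ∑ j, ((dF j)⁻¹) ^ 2 ≤ τ₂)
    (hδ : ∀ a, tF + ‖z a + ((Δ * σ' : ℝ) : ℂ)‖ / κ ≤ 1 / 2)
    (hsm : ∀ a, s5rho h (z a + ((Δ * σ' : ℝ) : ℂ) + ((Δ * ∑ j, (dF j)⁻¹ : ℝ) : ℂ))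
      * (tS + 2 * (tF + ‖z a + ((Δ * σ' : ℝ) : ℂ)‖ / κ) * t0) ≤ 1 / 2)
    (hε : ∀ a, s5detS h κ ℓ tF t0 tS (z a + ((Δ * σ' : ℝ) : ℂ))
      (z a + ((Δ * σ' : ℝ) : ℂ) + ((Δ * ∑ j, (dF j)⁻¹ : ℝ) : ℂ)) ≤ ε) :
    |g2T Φ z Δ (Sum.elim dI dF) σ' - g2T Φ z Δ dI (σ' + ∑ j, (dF j)⁻¹)|
      ≤ Lc * ε + 2 * B * g2bad Δ h κ ℓ τ₂ tF t0 tS := by
  have hsF0 : 0 ≤ ∑ j, |dF j|⁻¹ := Finset.sum_nonneg fun a _ => by positivity
  have hs20 : 0 ≤ ∑ j, ((dF j)⁻¹) ^ 2 := Finset.sum_nonneg fun a _ => by positivity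
  have hm1 : Measurable fun W => Φ (g2Ob z Δ (Sum.elim dI dF) σ' W) :=
    hL.continuous.measurable.comp (g2_ob_measurable z Δ (Sum.elim dI dF) σ')
  have hm2 : Measurable fun W => Φ (g2Ob z Δ dI (σ' + ∑ j, (dF j)⁻¹) W) :=
    hL.continuous.measurable.comp (g2_ob_measurable z Δ dI (σ' + ∑ j, (dF j)⁻¹))
  have e1 : g2T Φ z Δ (Sum.elim dI dF) σ'
      = ∫ p, Φ (g2Ob z Δ (Sum.elim dI dF) σ' (Matrix.fromBlocks p.1 p.2.1 p.2.1ᵀ p.2.2))
          ∂((goeRaw ιI).prod ((gArr ιI ιF).prod (goeRaw ιF))) := by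
    unfold g2T
    exact goe_raw_integral_block _ hm1
  have e2 : g2T Φ z Δ dI (σ' + ∑ j, (dF j)⁻¹)
      = ∫ p, Φ (g2Ob z Δ dI (σ' + ∑ j, (dF j)⁻¹) p.1)
          ∂((goeRaw ιI).prod ((gArr ιI ιF).prod (goeRaw ιF))) := by
    unfold g2T
    rw [integral_fun_fst (fun W => Φ (g2Ob z Δ dI (σ' + ∑ j, (dF j)⁻¹) W))]
    simp
  rw [e1, e2]
  refine g2_int_split (hm1.comp goe_block_measurable) (hm2.comp measurable_fst) (fun _ => hB _) (fun _ => hB _)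
    (S := g2sGood Δ h tF t0 tS dI dF) (by positivity)
    (g2s_bad_nonneg hΔ hh hκ (hsF0.trans hℓF) (hs20.trans hτ₂) htF ht0 htS)
    (g2s_prob hΔ hh hκ hd htF ht0 htS hℓI hℓF hτ₂) ?_
  intro p hp
  have h1 := g2s_det hz hΔ σ' hh hκ hd htS hε0 hℓI hℓF hδ hsm hε hp
  have h2 := hL.dist_le_mul (g2Ob z Δ (Sum.elim dI dF) σ' (Matrix.fromBlocks p.1 p.2.1 p.2.1ᵀ p.2.2))
    (g2Ob z Δ dI (σ' + ∑ j, (dF j)⁻¹) p.1)
  rw [Real.dist_eq] at h2
  exact h2.trans (mul_le_mul_of_nonneg_left h1 Lc.coe_nonneg)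

end step297

/-- B1 (**one step**). `goe_raw_block`: `W = fromBlocks W_I G Gᵀ W_F` with independent blocks; both integrals live on the product.
Good event `𝒢 = {‖U_F √Δ W_F U_F‖ ≤ tF, ‖U_I √Δ W_I U_I‖ ≤ 1/4, ‖U_I √Δ G U_F‖²_HS ≤ t0, ‖U_I (Δ G D_F⁻¹ Gᵀ - Δ s) U_I‖²_HS ≤ tS²}`.
On `𝒢`: `s5_block_det'` with `c = Δ s`, `z = z_a + Δ σ'` at every `a` (M2 for the last norm), `Φ` Lipschitz for the sup norm.
`P(𝒢ᶜ) ≤ g2bad`: P1 (`ub = 1/κ`), P1 (`ub = 1/h`, `t = 1/4`), P2, P3 (`t = tS²`). F3. -/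
theorem g2_step {ιI ιF : Type} [Fintype ιI] [DecidableEq ιI] [Fintype ιF] [DecidableEq ιF]
    {b : ℕ} {z : Fin b → ℂ} (hz : ∀ a, 0 < (z a).im) {Φ : (Fin b → ℂ) → ℝ} {B : ℝ} (hB : ∀ v, |Φ v| ≤ B)
    {Lc : NNReal} (hL : LipschitzWith Lc Φ) {Δ : ℝ} (hΔ : 0 < Δ) {dI : ιI → ℝ} {dF : ιF → ℝ} (σ' : ℝ)
    {h κ ℓ τ₂ tF t0 tS ε : ℝ} (hh : 0 < h) (hκ : 0 < κ) (hd : ∀ j, κ ≤ |dF j|)
    (htF : 0 < tF) (ht0 : 0 < t0) (htS : 0 < tS) (hε0 : 0 ≤ ε)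
    (hℓI : ∑ a, (|dI a| + h)⁻¹ ≤ ℓ) (hℓF : ∑ j, |dF j|⁻¹ ≤ ℓ) (hτ₂ : ∑ j, ((dF j)⁻¹) ^ 2 ≤ τ₂)
    (hδ : ∀ a, tF + ‖z a + ((Δ * σ' : ℝ) : ℂ)‖ / κ ≤ 1 / 2)
    (hsm : ∀ a, s5rho h (z a + ((Δ * σ' : ℝ) : ℂ) + ((Δ * ∑ j, (dF j)⁻¹ : ℝ) : ℂ))
      * (tS + 2 * (tF + ‖z a + ((Δ * σ' : ℝ) : ℂ)‖ / κ) * t0) ≤ 1 / 2)
    (hε : ∀ a, s5detS h κ ℓ tF t0 tS (z a + ((Δ * σ' : ℝ) : ℂ))
      (z a + ((Δ * σ' : ℝ) : ℂ) + ((Δ * ∑ j, (dF j)⁻¹ : ℝ) : ℂ)) ≤ ε) :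
    |g2T Φ z Δ (Sum.elim dI dF) σ' - g2T Φ z Δ dI (σ' + ∑ j, (dF j)⁻¹)|
      ≤ Lc * ε + 2 * B * g2bad Δ h κ ℓ τ₂ tF t0 tS :=
  g2s_step hz hB hL hΔ σ' hh hκ hd htF ht0 htS hε0 hℓI hℓF hτ₂ hδ hsm hε

/-! ## 4. One step at the scale `2^q` -/

/-- S0. `g2x ∈ (0,1)` and `(g2x⁻¹ ^ q) ^ 64 = 2 ^ q`. -/
theorem g2_x_facts : 0 < g2x ∧ g2x < 1 ∧ ∀ q : ℕ, ((g2x⁻¹) ^ q) ^ 64 = (2 : ℝ) ^ q := by
  have h1 : (1 : ℝ) < (2 : ℝ) ^ ((1 : ℝ) / 64) := Real.one_lt_rpow (by norm_num) (by norm_num)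
  have h0 : (0 : ℝ) < (2 : ℝ) ^ ((1 : ℝ) / 64) := by positivity
  refine ⟨inv_pos.2 h0, inv_lt_one_of_one_lt₀ h1, fun q => ?_⟩
  unfold g2x
  rw [inv_inv, ← pow_mul, mul_comm, pow_mul, ← Real.rpow_natCast ((2 : ℝ) ^ ((1 : ℝ) / 64)) 64, ← Real.rpow_mul (by norm_num)]
  norm_num

/-- S1 (bound of `s5rho`). `|w| ≤ W`, `1 ≤ r`, `η ≤ Im w`: `ϱ(r, w) ≤ (12 + 9 W + 9 (W+1)²/η) r`. -/
theorem g2_rho_le {w : ℂ} {W η r : ℝ} (hW : ‖w‖ ≤ W) (hη : 0 < η) (hw : η ≤ w.im) (hr : 1 ≤ r) :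
    0 ≤ s5rho r w ∧ s5rho r w ≤ (12 + 9 * W + 9 * (W + 1) ^ 2 / η) * r := by
  have hr0 : 0 < r := lt_of_lt_of_le one_pos hr
  have hW0 : 0 ≤ W := (norm_nonneg _).trans hW
  have him : 0 < w.im := lt_of_lt_of_le hη hw
  set N : ℝ := ‖w - (r : ℂ) * Complex.I‖ with hN
  have hN0 : 0 ≤ N := norm_nonneg _
  have hN1 : N ≤ W + r := by
    have h1 : N ≤ ‖w‖ + ‖(r : ℂ) * Complex.I‖ := norm_sub_le _ _
    have h2 : ‖(r : ℂ) * Complex.I‖ = r := by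
      rw [norm_mul, Complex.norm_I, mul_one, Complex.norm_real, Real.norm_eq_abs, abs_of_pos hr0]
    linarith
  have hN2 : N ≤ (W + 1) * r := by nlinarith
  unfold s5rho
  rw [← hN]
  constructor
  · positivity
  · have t1 : 9 * N / r ≤ 9 * (W + 1) := by
      rw [div_le_iff₀ hr0]; nlinarith
    have t2 : 9 * N ^ 2 / (r * w.im) ≤ 9 * (W + 1) ^ 2 / η * r := by
      rw [div_le_iff₀ (mul_pos hr0 him)]
      have a1 : N ^ 2 ≤ ((W + 1) * r) ^ 2 := pow_le_pow_left₀ hN0 hN2 2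
      have a2 : 9 * (W + 1) ^ 2 / η * r * (r * η) = 9 * ((W + 1) * r) ^ 2 := by field_simp
      have a3 : 9 * (W + 1) ^ 2 / η * r * (r * η) ≤ 9 * (W + 1) ^ 2 / η * r * (r * w.im) :=
        mul_le_mul_of_nonneg_left (mul_le_mul_of_nonneg_left hw hr0.le) (by positivity)
      linarith
    have t3 : 12 + 9 * W ≤ (12 + 9 * W) * r := by nlinarith
    have e : (12 + 9 * W + 9 * (W + 1) ^ 2 / η) * r = (12 + 9 * W) * r + 9 * (W + 1) ^ 2 / η * r := by ring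
    rw [e]
    linarith

theorem g2_mul4 {c m m' q q' t t' : ℝ} (hc : 0 ≤ c) (hm0 : 0 ≤ m) (hq0 : 0 ≤ q) (ht0 : 0 ≤ t) (hm : m ≤ m') (hq : q ≤ q')
    (ht : t ≤ t') : c * m * q * t ≤ c * m' * q' * t' := by
  have hm' : 0 ≤ m' := hm0.trans hm
  have hq' : 0 ≤ q' := hq0.trans hq
  have h1 : c * m ≤ c * m' := mul_le_mul_of_nonneg_left hm hc
  have h2 : c * m * q ≤ c * m' * q' := mul_le_mul h1 hq hq0 (mul_nonneg hc hm')
  exact mul_le_mul h2 ht ht0 (mul_nonneg (mul_nonneg hc hm') hq')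

/-- S2 (parameters; pure real analysis). With `M ≥ 1` a bound of all constants (`Δ, A, |z_a|, 1/Im z_a`), `Q = q ≥ 1`, `r ≥ 1`,
`κ = r^64/M`, `ℓ = M Q`, `τ₂ = M²/r^64`, `h = r`, `tF = r⁻⁸`, `t0 = r`, `tS = r⁻¹⁶`, `|w|, |w'| ≤ 3 M² Q`, `ϱ ≤ 200 M⁵ Q² r`
(S1): if `r ≥ C₁ Q^4` (true for large `q`) the two smallness conditions hold, and
`s5detS ≤ C Q^6 / r`, `g2bad ≤ C Q³ / r`. -/
theorem g2_params (M : ℝ) (hM : 1 ≤ M) :
    ∃ C : ℝ, 0 ≤ C ∧ ∀ (Q r ϱ W : ℝ), 1 ≤ Q → C * Q ^ 4 ≤ r → 0 ≤ ϱ → ϱ ≤ 200 * M ^ 5 * Q ^ 2 * r →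
      0 ≤ W → W ≤ 3 * M ^ 2 * Q →
      (r⁻¹ ^ 8 + W / (r ^ 64 / M) ≤ 1 / 2) ∧
      (ϱ * (r⁻¹ ^ 16 + 2 * (r⁻¹ ^ 8 + W / (r ^ 64 / M)) * r) ≤ 1 / 2) ∧
      (2 * ϱ ^ 2 * (r⁻¹ ^ 16 + 2 * (r⁻¹ ^ 8 + W / (r ^ 64 / M)) * r) * (M * Q)
          + 2 * (r⁻¹ ^ 8 + W / (r ^ 64 / M)) * (M * Q) + 8 * ϱ * r / (r ^ 64 / M) ≤ C * Q ^ 6 / r) ∧
      (g2bad M r (r ^ 64 / M) (M * Q) (M ^ 2 / r ^ 64) (r⁻¹ ^ 8) r (r⁻¹ ^ 16) ≤ C * Q ^ 3 / r) := by
  have hM0 : 0 < M := by linarith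
  refine ⟨10 ^ 6 * M ^ 14, by positivity, fun Q r ϱ W hQ hr hϱ0 hϱ hW0 hW => ?_⟩
  have hQ0 : 0 < Q := by linarith
  have hMp : ∀ k l : ℕ, k ≤ l → M ^ k ≤ M ^ l := fun k l h => pow_le_pow_right₀ hM h
  have hQp : ∀ k l : ℕ, k ≤ l → Q ^ k ≤ Q ^ l := fun k l h => pow_le_pow_right₀ hQ h
  have hM14 : 1 ≤ M ^ 14 := one_le_pow₀ hM
  have hQ4 : 1 ≤ Q ^ 4 := one_le_pow₀ hQ
  have hCr : 10 ^ 6 * M ^ 14 ≤ r := le_trans (le_mul_of_one_le_right (by positivity) hQ4) hr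
  have hQ4r : Q ^ 4 ≤ r := le_trans (le_mul_of_one_le_left (by positivity) (by linarith)) hr
  have hr1 : 1 ≤ r := hQ4.trans hQ4r
  have hr0 : 0 < r := by linarith
  obtain ⟨s, hs⟩ : ∃ s, s = r⁻¹ := ⟨_, rfl⟩
  have hs0 : 0 < s := by rw [hs]; positivity
  have hs1 : s ≤ 1 := by rw [hs]; exact inv_le_one_of_one_le₀ hr1
  have hrs : r * s = 1 := by rw [hs]; field_simp
  have hle : ∀ t : ℝ, t ≤ r → t * s ≤ 1 := fun t ht => by
    calc t * s ≤ r * s := mul_le_mul_of_nonneg_right ht hs0.le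
      _ = 1 := hrs
  have hQs : Q * s ≤ 1 := hle _ (by have := hQp 1 4 (by norm_num); rw [pow_one] at this; linarith)
  have hQ2s : Q ^ 2 * s ≤ 1 := hle _ ((hQp 2 4 (by norm_num)).trans hQ4r)
  have hCs : 10 ^ 6 * M ^ 14 * s ≤ 1 := hle _ hCr
  have hsp : ∀ k l : ℕ, k ≤ l → s ^ l ≤ s ^ k := fun k l h => pow_le_pow_of_le_one hs0.le hs1 h
  have hs' : ∀ l : ℕ, 1 ≤ l → s ^ l ≤ s := fun l h => by have := hsp 1 l h; rwa [pow_one] at this
  have e1 : W / (r ^ 64 / M) = W * M * s ^ 64 := by rw [hs]; field_simp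
  have e2 : 8 * ϱ * r / (r ^ 64 / M) = 8 * ϱ * r * M * s ^ 64 := by rw [hs]; field_simp
  have e3 : ∀ t : ℝ, t / r = t * s := fun t => by rw [hs]; rfl
  rw [← hs, e1, e2, e3, e3]
  obtain ⟨a, ha⟩ : ∃ a, a = s ^ 8 + W * M * s ^ 64 := ⟨_, rfl⟩
  rw [← ha]
  have ha0 : 0 ≤ a := by rw [ha]; positivity
  have ha1 : a ≤ 4 * M ^ 3 * s ^ 8 := by
    have h1 : W * M * s ^ 64 ≤ 3 * M ^ 3 * s ^ 8 := by
      calc W * M * s ^ 64 ≤ 3 * M ^ 2 * Q * M * s ^ 64 := by gcongr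
        _ = 3 * M ^ 3 * (Q * s) * s ^ 63 := by ring
        _ ≤ 3 * M ^ 3 * 1 * s ^ 8 :=
            g2_mul4 (by norm_num) (by positivity) (by positivity) (by positivity) le_rfl hQs (hsp 8 63 (by norm_num))
        _ = _ := by ring
    have h2 : s ^ 8 ≤ M ^ 3 * s ^ 8 := le_mul_of_one_le_left (by positivity) (one_le_pow₀ hM)
    rw [ha]; linarith
  have hMs : ∀ k : ℕ, k ≤ 14 → M ^ k * s ≤ 1 / 10 ^ 6 := fun k hk => by
    have h1 : M ^ k * s ≤ M ^ 14 * s := mul_le_mul_of_nonneg_right (hMp k 14 hk) hs0.le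
    linarith
  obtain ⟨bb, hb⟩ : ∃ bb, bb = s ^ 16 + 2 * a * r := ⟨_, rfl⟩
  rw [← hb]
  have hb0 : 0 ≤ bb := by rw [hb]; positivity
  have hb1 : bb ≤ 9 * M ^ 3 * s ^ 7 := by
    have h1 : 2 * a * r ≤ 8 * M ^ 3 * s ^ 7 := by
      calc 2 * a * r ≤ 2 * (4 * M ^ 3 * s ^ 8) * r := by gcongr
        _ = 8 * M ^ 3 * s ^ 7 * (r * s) := by ring
        _ = _ := by rw [hrs, mul_one]
    have h2 : s ^ 16 ≤ M ^ 3 * s ^ 7 :=
      (hsp 7 16 (by norm_num)).trans (le_mul_of_one_le_left (by positivity) (one_le_pow₀ hM))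
    rw [hb]; linarith
  refine ⟨?_, ?_, ?_, ?_⟩
  · have h1 : 4 * M ^ 3 * s ^ 8 ≤ 4 * (M ^ 3 * s) := by
      have := hsp 1 8 (by norm_num)
      rw [pow_one] at this
      calc 4 * M ^ 3 * s ^ 8 ≤ 4 * M ^ 3 * s := by gcongr
        _ = _ := by ring
    have := hMs 3 (by norm_num)
    linarith
  · calc ϱ * bb ≤ (200 * M ^ 5 * Q ^ 2 * r) * (9 * M ^ 3 * s ^ 7) := by gcongr
      _ = 1800 * (M ^ 8 * s) * (Q ^ 2 * s) * (r * s) * s ^ 4 := by ring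
      _ ≤ 1800 * (1 / 10 ^ 6) * 1 * 1 * 1 := by
          rw [hrs]
          gcongr
          · exact hMs 8 (by norm_num)
          · exact pow_le_one₀ hs0.le hs1
      _ ≤ 1 / 2 := by norm_num
  · have t1 : 2 * ϱ ^ 2 * bb * (M * Q) ≤ 720000 * M ^ 14 * Q ^ 6 * s := by
      calc 2 * ϱ ^ 2 * bb * (M * Q) ≤ 2 * (200 * M ^ 5 * Q ^ 2 * r) ^ 2 * (9 * M ^ 3 * s ^ 7) * (M * Q) := by gcongr
        _ = 720000 * M ^ 14 * Q ^ 5 * s ^ 5 * (r * s) ^ 2 := by ring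
        _ = 720000 * M ^ 14 * Q ^ 5 * s ^ 5 := by rw [hrs]; ring
        _ ≤ 720000 * M ^ 14 * Q ^ 6 * s :=
            g2_mul4 (by norm_num) (by positivity) (by positivity) (by positivity) le_rfl (hQp 5 6 (by norm_num)) (hs' 5 (by norm_num))
    have t2 : 2 * a * (M * Q) ≤ 8 * M ^ 14 * Q ^ 6 * s := by
      calc 2 * a * (M * Q) ≤ 2 * (4 * M ^ 3 * s ^ 8) * (M * Q) := by gcongr
        _ = 8 * M ^ 4 * Q ^ 1 * s ^ 8 := by ring
        _ ≤ 8 * M ^ 14 * Q ^ 6 * s :=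
            g2_mul4 (by norm_num) (by positivity) (by positivity) (by positivity) (hMp 4 14 (by norm_num)) (hQp 1 6 (by norm_num))
              (hs' 8 (by norm_num))
    have t3 : 8 * ϱ * r * M * s ^ 64 ≤ 1600 * M ^ 14 * Q ^ 6 * s := by
      calc 8 * ϱ * r * M * s ^ 64 ≤ 8 * (200 * M ^ 5 * Q ^ 2 * r) * r * M * s ^ 64 := by gcongr
        _ = 1600 * M ^ 6 * Q ^ 2 * s ^ 62 * (r * s) ^ 2 := by ring
        _ = 1600 * M ^ 6 * Q ^ 2 * s ^ 62 := by rw [hrs]; ring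
        _ ≤ 1600 * M ^ 14 * Q ^ 6 * s :=
            g2_mul4 (by norm_num) (by positivity) (by positivity) (by positivity) (hMp 6 14 (by norm_num)) (hQp 2 6 (by norm_num))
              (hs' 62 (by norm_num))
    have t4 : 0 ≤ M ^ 14 * Q ^ 6 * s := by positivity
    nlinarith
  · unfold g2bad
    have f1 : 16 * M ^ 2 * (M * Q) ^ 3 / (r ^ 64 / M * (s ^ 8) ^ 4) = 16 * M ^ 6 * Q ^ 3 * s ^ 32 := by
      rw [hs]; field_simp
    have f2 : 4096 * M ^ 2 * (M * Q) ^ 3 / r = 4096 * M ^ 5 * Q ^ 3 * s := by rw [hs]; field_simp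
    have f3 : M * (M * Q) ^ 2 / r = M ^ 3 * Q ^ 2 * s := by rw [hs]; field_simp
    have f4 : 2 * M ^ 2 * (M * Q) ^ 2 * (M ^ 2 / r ^ 64) / (s ^ 16) ^ 2 = 2 * M ^ 6 * Q ^ 2 * s ^ 32 := by
      rw [hs]; field_simp
    rw [f1, f2, f3, f4]
    have g1 : 16 * M ^ 6 * Q ^ 3 * s ^ 32 ≤ 16 * M ^ 14 * Q ^ 3 * s :=
      g2_mul4 (by norm_num) (by positivity) (by positivity) (by positivity) (hMp 6 14 (by norm_num)) le_rfl (hs' 32 (by norm_num))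
    have g2 : 4096 * M ^ 5 * Q ^ 3 * s ≤ 4096 * M ^ 14 * Q ^ 3 * s :=
      g2_mul4 (by norm_num) (by positivity) (by positivity) (by positivity) (hMp 5 14 (by norm_num)) le_rfl le_rfl
    have g3 : 1 * M ^ 3 * Q ^ 2 * s ≤ 1 * M ^ 14 * Q ^ 3 * s :=
      g2_mul4 (by norm_num) (by positivity) (by positivity) (by positivity) (hMp 3 14 (by norm_num)) (hQp 2 3 (by norm_num)) le_rfl
    have g4 : 2 * M ^ 6 * Q ^ 2 * s ^ 32 ≤ 2 * M ^ 14 * Q ^ 3 * s :=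
      g2_mul4 (by norm_num) (by positivity) (by positivity) (by positivity) (hMp 6 14 (by norm_num)) (hQp 2 3 (by norm_num))
        (hs' 32 (by norm_num))
    have t4 : 0 ≤ M ^ 14 * Q ^ 3 * s := by positivity
    nlinarith

/-- `g2bad` is monotone in `Δ`. -/
theorem g2_bad_mono {Δ M h κ ℓ τ₂ tF t0 tS : ℝ} (hΔ : 0 ≤ Δ) (hM : Δ ≤ M) (hh : 0 < h) (hκ : 0 < κ) (hℓ : 0 ≤ ℓ)
    (hτ : 0 ≤ τ₂) (htF : 0 < tF) (ht0 : 0 < t0) (htS : 0 < tS) :
    g2bad Δ h κ ℓ τ₂ tF t0 tS ≤ g2bad M h κ ℓ τ₂ tF t0 tS := by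
  unfold g2bad
  have h2 : Δ ^ 2 ≤ M ^ 2 := pow_le_pow_left₀ hΔ hM 2
  gcongr

/-- the constant `M` bounding all the data -/
theorem g2_M_exists {b : ℕ} {z : Fin b → ℂ} (hz : ∀ a, 0 < (z a).im) (Δ A : ℝ) (hΔ : 0 < Δ) (hA : 1 ≤ A) :
    ∃ M : ℝ, 1 ≤ M ∧ Δ ≤ M ∧ A ≤ M ∧ (∀ a, ‖z a‖ ≤ M) ∧ ∀ a, 1 / M ≤ (z a).im := by
  have h1 : 0 ≤ ∑ a, ‖z a‖ := Finset.sum_nonneg fun a _ => norm_nonneg _
  have h2 : 0 ≤ ∑ a, ((z a).im)⁻¹ := Finset.sum_nonneg fun a _ => (inv_pos.2 (hz a)).le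
  refine ⟨1 + Δ + A + ∑ a, ‖z a‖ + ∑ a, ((z a).im)⁻¹, by linarith, by linarith, by linarith, fun a => ?_, fun a => ?_⟩
  · have := Finset.single_le_sum (f := fun a => ‖z a‖) (fun a _ => norm_nonneg _) (Finset.mem_univ a)
    linarith
  · have := Finset.single_le_sum (f := fun a => ((z a).im)⁻¹) (fun a _ => (inv_pos.2 (hz a)).le) (Finset.mem_univ a)
    rw [one_div]
    refine inv_le_of_inv_le₀ (hz a) ?_
    linarith

/-- `C q^4 ≤ (1/x)^q` for large `q`. -/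
theorem g2_r_large (C : ℝ) : ∃ q₀ : ℕ, ∀ q : ℕ, q₀ ≤ q → C * (q : ℝ) ^ 4 ≤ (g2x⁻¹) ^ q := by
  obtain ⟨hx0, hx1, -⟩ := g2_x_facts
  have ht : Tendsto (fun n : ℕ => (n : ℝ) ^ 4 * g2x ^ n) atTop (𝓝 0) :=
    tendsto_pow_const_mul_const_pow_of_abs_lt_one 4 (by rw [abs_of_pos hx0]; exact hx1)
  have ht2 := ht.const_mul C
  rw [mul_zero] at ht2
  obtain ⟨q₀, hq₀⟩ := eventually_atTop.1 (ht2.eventually (gt_mem_nhds one_pos))
  refine ⟨q₀, fun q hq => ?_⟩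
  have h1 := (hq₀ q hq).le
  have h2 : 0 < g2x ^ q := by positivity
  rw [inv_pow, ← one_div, le_div_iff₀ h2]
  linarith

/-- S3 (**one step at the scale `2^q`**). B1 with the thresholds of S2; `g2bad` is monotone in `Δ ≤ M`. -/
theorem g2_step_q {b : ℕ} {z : Fin b → ℂ} (hz : ∀ a, 0 < (z a).im) {Φ : (Fin b → ℂ) → ℝ} {B : ℝ}
    (hB : ∀ v, |Φ v| ≤ B) {Lc : NNReal} (hL : LipschitzWith Lc Φ) {Δ : ℝ} (hΔ : 0 < Δ) (A : ℝ) (hA : 1 ≤ A) :
    ∃ (C : ℝ) (q₀ : ℕ), 0 ≤ C ∧ ∀ q : ℕ, q₀ ≤ q → ∀ (ιI ιF : Type) [Fintype ιI] [DecidableEq ιI] [Fintype ιF]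
      [DecidableEq ιF] (dI : ιI → ℝ) (dF : ιF → ℝ) (σ' : ℝ),
      (∀ j, 2 ^ q / A ≤ |dF j|) → (∑ j, |dF j|⁻¹ ≤ A) →
      (∀ h : ℝ, 1 ≤ h → ∑ a, (|dI a| + h)⁻¹ ≤ A * q) → |σ'| ≤ A * q →
      |g2T Φ z Δ (Sum.elim dI dF) σ' - g2T Φ z Δ dI (σ' + ∑ j, (dF j)⁻¹)| ≤ C * (q : ℝ) ^ 6 * g2x ^ q := by
  obtain ⟨M, hM1, hΔM, hAM, hzM, hzI⟩ := g2_M_exists hz Δ A hΔ hA
  obtain ⟨C₀, hC₀, hP⟩ := g2_params M hM1
  obtain ⟨q₀, hq₀⟩ := g2_r_large C₀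
  obtain ⟨hx0, hx1, hx64⟩ := g2_x_facts
  have hB0 : 0 ≤ B := (abs_nonneg _).trans (hB 0)
  have hM0 : 0 < M := by linarith
  have hA0 : 0 < A := by linarith
  refine ⟨Lc * C₀ + 2 * B * C₀, max q₀ 1, by positivity, ?_⟩
  intro q hq ιI ιF _ _ _ _ dI dF σ' hd hF hI hσ
  have hq1 : 1 ≤ q := (le_max_right _ _).trans hq
  have hQ : (1 : ℝ) ≤ (q : ℝ) := by exact_mod_cast hq1
  have hQ0 : (0 : ℝ) < (q : ℝ) := by linarith
  obtain ⟨r, hr⟩ : ∃ r : ℝ, r = (g2x⁻¹) ^ q := ⟨_, rfl⟩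
  have hrC : C₀ * (q : ℝ) ^ 4 ≤ r := by rw [hr]; exact hq₀ q ((le_max_left _ _).trans hq)
  have hr1 : 1 ≤ r := by rw [hr]; exact one_le_pow₀ ((one_le_inv₀ hx0).2 hx1.le)
  have hr0 : 0 < r := by linarith
  have hr64 : r ^ 64 = 2 ^ q := by rw [hr]; exact hx64 q
  have hrinv : r⁻¹ = g2x ^ q := by rw [hr, inv_pow, inv_inv]
  have h2q : (0 : ℝ) < 2 ^ q := by positivity
  -- bounds on the spectral parameters
  have hsF : |∑ j, (dF j)⁻¹| ≤ A := by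
    refine (Finset.abs_sum_le_sum_abs _ _).trans ?_
    simpa [abs_inv] using hF
  have hMM : M ≤ M ^ 2 := by nlinarith
  have hMQ : M ^ 2 ≤ M ^ 2 * q := le_mul_of_one_le_right (by positivity) hQ
  have hw : ∀ a, ‖z a + ((Δ * σ' : ℝ) : ℂ)‖ ≤ 3 * M ^ 2 * q := fun a => by
    have h1 : ‖z a + ((Δ * σ' : ℝ) : ℂ)‖ ≤ ‖z a‖ + ‖((Δ * σ' : ℝ) : ℂ)‖ := norm_add_le _ _
    have h2 : ‖((Δ * σ' : ℝ) : ℂ)‖ ≤ M * (M * q) := by
      rw [Complex.norm_real, Real.norm_eq_abs, abs_mul, abs_of_pos hΔ]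
      exact mul_le_mul hΔM (hσ.trans (mul_le_mul_of_nonneg_right hAM hQ0.le)) (abs_nonneg _) hM0.le
    have := hzM a
    nlinarith
  have hw' : ∀ a, ‖z a + ((Δ * σ' : ℝ) : ℂ) + ((Δ * ∑ j, (dF j)⁻¹ : ℝ) : ℂ)‖ ≤ 3 * M ^ 2 * q := fun a => by
    have h0 := norm_add_le (z a + ((Δ * σ' : ℝ) : ℂ)) ((Δ * ∑ j, (dF j)⁻¹ : ℝ) : ℂ)
    have h1 : ‖z a + ((Δ * σ' : ℝ) : ℂ)‖ ≤ ‖z a‖ + ‖((Δ * σ' : ℝ) : ℂ)‖ := norm_add_le _ _
    have h2 : ‖((Δ * σ' : ℝ) : ℂ)‖ ≤ M * (M * q) := by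
      rw [Complex.norm_real, Real.norm_eq_abs, abs_mul, abs_of_pos hΔ]
      exact mul_le_mul hΔM (hσ.trans (mul_le_mul_of_nonneg_right hAM hQ0.le)) (abs_nonneg _) hM0.le
    have h3 : ‖((Δ * ∑ j, (dF j)⁻¹ : ℝ) : ℂ)‖ ≤ M * M := by
      rw [Complex.norm_real, Real.norm_eq_abs, abs_mul, abs_of_pos hΔ]
      exact mul_le_mul hΔM (hsF.trans hAM) (abs_nonneg _) hM0.le
    have := hzM a
    nlinarith
  have him : ∀ a, 1 / M ≤ (z a + ((Δ * σ' : ℝ) : ℂ) + ((Δ * ∑ j, (dF j)⁻¹ : ℝ) : ℂ)).im := fun a => by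
    rw [Complex.add_im, Complex.add_im, Complex.ofReal_im, Complex.ofReal_im, add_zero, add_zero]
    exact hzI a
  have hρ : ∀ a, 0 ≤ s5rho r (z a + ((Δ * σ' : ℝ) : ℂ) + ((Δ * ∑ j, (dF j)⁻¹ : ℝ) : ℂ)) ∧
      s5rho r (z a + ((Δ * σ' : ℝ) : ℂ) + ((Δ * ∑ j, (dF j)⁻¹ : ℝ) : ℂ)) ≤ 200 * M ^ 5 * (q : ℝ) ^ 2 * r := fun a => by
    obtain ⟨h1, h2⟩ := g2_rho_le (hw' a) (by positivity : 0 < 1 / M) (him a) hr1
    refine ⟨h1, h2.trans (mul_le_mul_of_nonneg_right ?_ hr0.le)⟩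
    have e : 9 * (3 * M ^ 2 * (q : ℝ) + 1) ^ 2 / (1 / M) = 9 * (3 * M ^ 2 * (q : ℝ) + 1) ^ 2 * M := by field_simp
    rw [e]
    have a1 : (1 : ℝ) ≤ M ^ 2 * q := by nlinarith
    have a2 : 3 * M ^ 2 * (q : ℝ) + 1 ≤ 4 * (M ^ 2 * q) := by linarith
    have a3 : (3 * M ^ 2 * (q : ℝ) + 1) ^ 2 ≤ (4 * (M ^ 2 * q)) ^ 2 := pow_le_pow_left₀ (by positivity) a2 2
    have a4 : 9 * (3 * M ^ 2 * (q : ℝ) + 1) ^ 2 * M ≤ 144 * (M ^ 5 * (q : ℝ) ^ 2) := by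
      calc 9 * (3 * M ^ 2 * (q : ℝ) + 1) ^ 2 * M ≤ 9 * (4 * (M ^ 2 * q)) ^ 2 * M := by gcongr
        _ = _ := by ring
    have a5 : (1 : ℝ) ≤ M ^ 5 * (q : ℝ) ^ 2 := one_le_mul_of_one_le_of_one_le (one_le_pow₀ hM1) (one_le_pow₀ hQ)
    have a6 : M ^ 2 * (q : ℝ) ≤ M ^ 5 * (q : ℝ) ^ 2 :=
      mul_le_mul (pow_le_pow_right₀ hM1 (by norm_num)) (by nlinarith) hQ0.le (by positivity)
    nlinarith
  have hPa := fun a => hP q r _ _ hQ hrC (hρ a).1 (hρ a).2 (norm_nonneg (z a + ((Δ * σ' : ℝ) : ℂ))) (hw a)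
  have hκ0 : 0 < r ^ 64 / M := by positivity
  have hmain := g2_step hz hB hL hΔ (dI := dI) (dF := dF) σ' (h := r) (κ := r ^ 64 / M) (ℓ := M * q)
    (τ₂ := M ^ 2 / r ^ 64) (tF := r⁻¹ ^ 8) (t0 := r) (tS := r⁻¹ ^ 16) (ε := C₀ * (q : ℝ) ^ 6 / r)
    hr0 hκ0
    (fun j => by
      rw [hr64]
      exact (div_le_div_of_nonneg_left h2q.le hA0 hAM).trans (hd j))
    (by positivity) hr0 (by positivity) (by positivity)
    ((hI r hr1).trans (mul_le_mul_of_nonneg_right hAM hQ0.le))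
    (hF.trans (hAM.trans (le_mul_of_one_le_right hM0.le hQ)))
    (by
      rw [hr64]
      have h1 : ∀ j, ((dF j)⁻¹) ^ 2 ≤ |dF j|⁻¹ * (A / 2 ^ q) := fun j => by
        have hdj : 0 < |dF j| := lt_of_lt_of_le (by positivity) (hd j)
        have h2 : |dF j|⁻¹ ≤ A / 2 ^ q := by
          rw [inv_le_comm₀ hdj (by positivity), inv_div]
          exact hd j
        rw [← sq_abs, abs_inv, sq]
        exact mul_le_mul_of_nonneg_left h2 (inv_nonneg.2 hdj.le)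
      calc ∑ j, ((dF j)⁻¹) ^ 2 ≤ ∑ j, |dF j|⁻¹ * (A / 2 ^ q) := Finset.sum_le_sum fun j _ => h1 j
        _ = (∑ j, |dF j|⁻¹) * (A / 2 ^ q) := by rw [Finset.sum_mul]
        _ ≤ A * (A / 2 ^ q) := mul_le_mul_of_nonneg_right hF (by positivity)
        _ = A ^ 2 / 2 ^ q := by ring
        _ ≤ M ^ 2 / 2 ^ q := by gcongr)
    (fun a => (hPa a).1) (fun a => (hPa a).2.1)
    (fun a => by unfold s5detS; exact (hPa a).2.2.1)
  have hbad : g2bad Δ r (r ^ 64 / M) (M * q) (M ^ 2 / r ^ 64) (r⁻¹ ^ 8) r (r⁻¹ ^ 16) ≤ C₀ * (q : ℝ) ^ 3 / r :=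
    (g2_bad_mono hΔ.le hΔM hr0 hκ0 (by positivity) (by positivity) (by positivity) hr0 (by positivity)).trans
      (hP q r 0 0 hQ hrC le_rfl (by positivity) le_rfl (by positivity)).2.2.2
  have hq36 : (q : ℝ) ^ 3 ≤ (q : ℝ) ^ 6 := pow_le_pow_right₀ hQ (by norm_num)
  calc |g2T Φ z Δ (Sum.elim dI dF) σ' - g2T Φ z Δ dI (σ' + ∑ j, (dF j)⁻¹)|
      ≤ Lc * (C₀ * (q : ℝ) ^ 6 / r) + 2 * B * g2bad Δ r (r ^ 64 / M) (M * q) (M ^ 2 / r ^ 64) (r⁻¹ ^ 8) r (r⁻¹ ^ 16) := hmain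
    _ ≤ Lc * (C₀ * (q : ℝ) ^ 6 / r) + 2 * B * (C₀ * (q : ℝ) ^ 6 / r) := by
        have h1 : C₀ * (q : ℝ) ^ 3 / r ≤ C₀ * (q : ℝ) ^ 6 / r := by gcongr
        have h2 := mul_le_mul_of_nonneg_left (hbad.trans h1) (by positivity : 0 ≤ 2 * B)
        linarith
    _ = (Lc * C₀ + 2 * B * C₀) * (q : ℝ) ^ 6 * r⁻¹ := by rw [div_eq_mul_inv]; ring
    _ = _ := by rw [hrinv]

/-- S4 (tails of the series). `∑ q^6 x^q` is summable (`summable_pow_mul_geometric_of_norm_lt_one`). -/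
theorem g2_tail_small (C : ℝ) {ε : ℝ} (hε : 0 < ε) :
    ∃ q₁ : ℕ, ∀ q : ℕ, q₁ ≤ q → ∀ m : ℕ,
      ∑ i ∈ Finset.range m, C * ((q + i : ℕ) : ℝ) ^ 6 * g2x ^ (q + i) ≤ ε := by
  obtain ⟨hx0, hx1, -⟩ := g2_x_facts
  have hs : Summable fun n : ℕ => (n : ℝ) ^ 6 * g2x ^ n :=
    summable_pow_mul_geometric_of_norm_lt_one 6 (by rw [Real.norm_eq_abs, abs_of_pos hx0]; exact hx1)
  have ht := (tendsto_sum_nat_add fun n : ℕ => (n : ℝ) ^ 6 * g2x ^ n).const_mul |C|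
  rw [mul_zero] at ht
  obtain ⟨q₁, hq₁⟩ := eventually_atTop.1 (ht.eventually (gt_mem_nhds hε))
  refine ⟨q₁, fun q hq m => ?_⟩
  have h1 : ∑ i ∈ Finset.range m, ((i + q : ℕ) : ℝ) ^ 6 * g2x ^ (i + q) ≤ ∑' k : ℕ, ((k + q : ℕ) : ℝ) ^ 6 * g2x ^ (k + q) :=
    ((summable_nat_add_iff q).2 hs).sum_le_tsum _ fun i _ => by positivity
  calc ∑ i ∈ Finset.range m, C * ((q + i : ℕ) : ℝ) ^ 6 * g2x ^ (q + i)
      ≤ ∑ i ∈ Finset.range m, |C| * (((i + q : ℕ) : ℝ) ^ 6 * g2x ^ (i + q)) := by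
        refine Finset.sum_le_sum fun i _ => ?_
        rw [add_comm q i, mul_assoc]
        exact mul_le_mul_of_nonneg_right (le_abs_self C) (by positivity)
    _ = |C| * ∑ i ∈ Finset.range m, ((i + q : ℕ) : ℝ) ^ 6 * g2x ^ (i + q) := by rw [Finset.mul_sum]
    _ ≤ |C| * ∑' k : ℕ, ((k + q : ℕ) : ℝ) ^ 6 * g2x ^ (k + q) := mul_le_mul_of_nonneg_left h1 (abs_nonneg C)
    _ ≤ ε := (hq₁ q hq).le

/-! ## 5. Sums over regular positions, levels -/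

section lev
variable {J ι₀ : Type} [Fintype J] [DecidableEq J]

/-- L1 (dyadic summation). Counts `⟹` `∑_{|d_j| ≤ 2^p} 1/(|d_j| + h) ≤ Cc 2^{p₁} + 2 Cc p` for `h ≥ 1`, `2^{p₁} ≥ u₀`, `p ≥ p₁`.
Induction on `p`: the points with `2^p < |d| ≤ 2^{p+1}` are at most `Cc 2^{p+1}` and each term is `≤ 2^{-p}`. -/
theorem g2_sum_inner {d : J → ℝ} {Cc u₀ : ℝ} (hCc : 0 ≤ Cc)
    (cnt : ∀ u : ℝ, u₀ ≤ u → ((Finset.univ.filter fun j => |d j| ≤ u).card : ℝ) ≤ Cc * u)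
    {p₁ : ℕ} (hp₁ : u₀ ≤ 2 ^ p₁) {h : ℝ} (hh : 1 ≤ h) (p : ℕ) (hp : p₁ ≤ p) :
    ∑ j ∈ Finset.univ.filter (fun j => |d j| ≤ 2 ^ p), (|d j| + h)⁻¹ ≤ Cc * 2 ^ p₁ + 2 * Cc * p := by
  induction p, hp using Nat.le_induction with
  | base =>
    have h1 : ∑ j ∈ Finset.univ.filter (fun j => |d j| ≤ 2 ^ p₁), (|d j| + h)⁻¹
        ≤ ∑ _j ∈ Finset.univ.filter (fun j => |d j| ≤ 2 ^ p₁), (1 : ℝ) :=
      Finset.sum_le_sum fun j _ => inv_le_one_of_one_le₀ (by linarith [abs_nonneg (d j)])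
    rw [Finset.sum_const, nsmul_eq_mul, mul_one] at h1
    have h2 := cnt _ hp₁
    have h3 : 0 ≤ 2 * Cc * (p₁ : ℝ) := by positivity
    linarith
  | succ p hp ih =>
    have hsplit : Finset.univ.filter (fun j => |d j| ≤ 2 ^ (p + 1))
        = Finset.univ.filter (fun j => |d j| ≤ 2 ^ p) ∪ Finset.univ.filter (fun j => 2 ^ p < |d j| ∧ |d j| ≤ 2 ^ (p + 1)) := by
      ext j
      simp only [Finset.mem_union, Finset.mem_filter, Finset.mem_univ, true_and]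
      constructor
      · intro hj
        rcases le_or_gt (|d j|) (2 ^ p) with h1 | h1
        · exact Or.inl h1
        · exact Or.inr ⟨h1, hj⟩
      · rintro (h1 | h1)
        · exact h1.trans (pow_le_pow_right₀ (by norm_num) (Nat.le_succ p))
        · exact h1.2
    have hdisj : Disjoint (Finset.univ.filter (fun j => |d j| ≤ 2 ^ p))
        (Finset.univ.filter (fun j => 2 ^ p < |d j| ∧ |d j| ≤ 2 ^ (p + 1))) := by
      rw [Finset.disjoint_left]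
      intro j h1 h2
      simp only [Finset.mem_filter, Finset.mem_univ, true_and] at h1 h2
      linarith [h2.1]
    rw [hsplit, Finset.sum_union hdisj]
    have h2p : (0 : ℝ) < 2 ^ p := by positivity
    have h1 : ∑ j ∈ Finset.univ.filter (fun j => 2 ^ p < |d j| ∧ |d j| ≤ 2 ^ (p + 1)), (|d j| + h)⁻¹
        ≤ ∑ _j ∈ Finset.univ.filter (fun j => 2 ^ p < |d j| ∧ |d j| ≤ 2 ^ (p + 1)), ((2 : ℝ) ^ p)⁻¹ := by
      refine Finset.sum_le_sum fun j hj => ?_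
      simp only [Finset.mem_filter, Finset.mem_univ, true_and] at hj
      exact inv_anti₀ h2p (by linarith [hj.1])
    rw [Finset.sum_const, nsmul_eq_mul] at h1
    have h2 : ((Finset.univ.filter (fun j => 2 ^ p < |d j| ∧ |d j| ≤ 2 ^ (p + 1))).card : ℝ) ≤ Cc * 2 ^ (p + 1) := by
      refine le_trans ?_ (cnt (2 ^ (p + 1)) (hp₁.trans (pow_le_pow_right₀ (by norm_num) (by omega))))
      exact_mod_cast Finset.card_le_card fun j hj => by
        simp only [Finset.mem_filter, Finset.mem_univ, true_and] at hj ⊢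
        exact hj.2
    have h3 : ((Finset.univ.filter (fun j => 2 ^ p < |d j| ∧ |d j| ≤ 2 ^ (p + 1))).card : ℝ) * ((2 : ℝ) ^ p)⁻¹ ≤ 2 * Cc := by
      calc _ ≤ Cc * 2 ^ (p + 1) * ((2 : ℝ) ^ p)⁻¹ := mul_le_mul_of_nonneg_right h2 (by positivity)
        _ = 2 * Cc := by rw [pow_succ]; field_simp
    push_cast
    linarith

/-- L2. Levels: `lv j = 0` iff `j` is in the base; `lv j = i + 1` iff outside and `2^{q+i}/A₁ ≤ |d_j| < 2^{q+i+1}/A₁`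
(`Nat.pow_log_le_self`, `Nat.lt_pow_succ_log_self`, `Nat.floor`). -/
theorem g2_lv_facts {A₁ : ℝ} (hA₁ : 1 ≤ A₁) {q : ℕ} {d : J → ℝ} {e : ι₀ → J}
    (out : ∀ j, j ∉ Set.range e → 2 ^ q / A₁ ≤ |d j|) (j : J) :
    (g2lv A₁ q d e j = 0 ↔ j ∈ Set.range e) ∧
      ∀ i : ℕ, g2lv A₁ q d e j = i + 1 → 2 ^ (q + i) / A₁ ≤ |d j| ∧ |d j| < 2 ^ (q + i + 1) / A₁ := by
  have hA0 : 0 < A₁ := by linarith
  have h2q : (0 : ℝ) < 2 ^ q := by positivity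
  by_cases hj : j ∈ Set.range e
  · have e0 : g2lv A₁ q d e j = 0 := by unfold g2lv; rw [if_pos hj]
    exact ⟨⟨fun _ => hj, fun _ => e0⟩, fun i hi => by rw [e0] at hi; omega⟩
  · have e1 : g2lv A₁ q d e j = 1 + Nat.log 2 ⌊|d j| * A₁ / 2 ^ q⌋₊ := by unfold g2lv; rw [if_neg hj]
    refine ⟨⟨fun h => by rw [e1] at h; omega, fun h => absurd h hj⟩, fun i hi => ?_⟩
    rw [e1] at hi
    have hlog : Nat.log 2 ⌊|d j| * A₁ / 2 ^ q⌋₊ = i := by omega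
    obtain ⟨t, ht⟩ : ∃ t, t = |d j| * A₁ / 2 ^ q := ⟨_, rfl⟩
    rw [← ht] at hlog
    have ht1 : 1 ≤ t := by
      rw [ht, le_div_iff₀ h2q, one_mul]
      have := out j hj
      rwa [div_le_iff₀ hA0] at this
    have ht0 : 0 ≤ t := by linarith
    have hfl : ⌊t⌋₊ ≠ 0 := by
      have : 1 ≤ ⌊t⌋₊ := Nat.le_floor (by simpa using ht1)
      omega
    have b1 : 2 ^ i ≤ ⌊t⌋₊ := by rw [← hlog]; exact Nat.pow_log_le_self 2 hfl
    have b2 : ⌊t⌋₊ < 2 ^ (i + 1) := by rw [← hlog]; exact Nat.lt_pow_succ_log_self (by norm_num) _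
    have c1 : (2 : ℝ) ^ i ≤ t := by
      have : ((2 ^ i : ℕ) : ℝ) ≤ t := le_trans (by exact_mod_cast b1) (Nat.floor_le ht0)
      simpa using this
    have c2 : t < (2 : ℝ) ^ (i + 1) := by
      have : t < ((2 ^ (i + 1) : ℕ) : ℝ) := (Nat.floor_lt ht0).1 b2
      simpa using this
    rw [ht] at c1 c2
    rw [le_div_iff₀ h2q] at c1
    rw [div_lt_iff₀ h2q] at c2
    constructor
    · rw [div_le_iff₀ hA0, pow_add]
      linarith
    · rw [lt_div_iff₀ hA0, add_assoc, pow_add]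
      linarith

/-- L3. Splitting of the level sets, positions preserved. -/
theorem g2_lv_split (lv : J → ℕ) (i : ℕ) :
    ∃ e : G2Lv lv i ⊕ G2Sh lv (i + 1) ≃ G2Lv lv (i + 1), ∀ d : J → ℝ,
      (fun j : G2Lv lv (i + 1) => d j.1) ∘ e = Sum.elim (fun j => d j.1) (fun j => d j.1) := by
  refine ⟨⟨Sum.elim (fun j => ⟨j.1, Nat.le_succ_of_le j.2⟩) (fun j => ⟨j.1, j.2.le⟩),
    fun j => if h : lv j.1 ≤ i then Sum.inl ⟨j.1, h⟩ else Sum.inr ⟨j.1, by have := j.2; omega⟩, ?_, ?_⟩, fun d => ?_⟩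
  · rintro (j | j)
    · simp [j.2]
    · have : ¬ lv j.1 ≤ i := by have := j.2; omega
      simp [this]
  · intro j
    by_cases h : lv j.1 ≤ i
    · simp [h]
    · simp [h]
  · funext j
    rcases j with j | j <;> rfl

/-- L4. `σ_i = σ_{i+1} + ∑_{shell i+1} 1/d_j`. -/
theorem g2_sig_succ (d : J → ℝ) (lv : J → ℕ) (i : ℕ) :
    g2sig d lv i = g2sig d lv (i + 1) + ∑ j : G2Sh lv (i + 1), (d j.1)⁻¹ := by
  have h1 : ∑ j : G2Sh lv (i + 1), (d j.1)⁻¹ = ∑ j, if lv j = i + 1 then (d j)⁻¹ else 0 := by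
    rw [← Finset.sum_filter]
    exact (Finset.sum_subtype (Finset.univ.filter fun j => lv j = i + 1) (fun x => by simp) fun j => (d j)⁻¹).symm
  unfold g2sig
  rw [h1, ← Finset.sum_add_distrib]
  refine Finset.sum_congr rfl fun j _ => ?_
  by_cases a : i + 1 < lv j
  · rw [if_pos (by omega), if_pos a, if_neg (by omega), add_zero]
  · by_cases b : lv j = i + 1
    · rw [if_pos (by omega), if_neg a, if_pos b, zero_add]
    · rw [if_neg (by omega), if_neg a, if_neg b, add_zero]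

/-- sums over a subtype of a level condition -/
theorem g2_sum_sub (p : J → Prop) [DecidablePred p] (f : J → ℝ) : ∑ j : {j : J // p j}, f j.1 = ∑ j ∈ Finset.univ.filter p, f j :=
  (Finset.sum_subtype (Finset.univ.filter p) (fun x => by simp) f).symm

/-- L5 (the hypotheses of S3 for the level sets). `A = max(A₁, 2 Cc + 1, Cc 2^{p₁} + 2 Cc)`-type constant, depending on
`(Cc, u₀, A₁)` only: shell `i+1`: `#  ≤ Cc 2^{q+i+1}/A₁`, each `1/|d| ≤ A₁/2^{q+i}`; inner sites have `|d| ≤ 2^{q+i}` (L1);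
`|σ_{i+1}| ≤ |σ_0| + 2 Cc (i+1)` (L4). -/
theorem g2_lv_reg (Cc u₀ A₁ : ℝ) (hCc : 0 ≤ Cc) (hA₁ : 1 ≤ A₁) :
    ∃ (A : ℝ) (q₀ : ℕ), 1 ≤ A ∧ ∀ q : ℕ, q₀ ≤ q → ∀ (J ι₀ : Type) [Fintype J] [DecidableEq J] (d : J → ℝ)
      (e : ι₀ → J), G2Reg Cc u₀ A₁ q d e → |g2sig d (g2lv A₁ q d e) 0| ≤ 1 → ∀ i : ℕ,
      (∀ j : G2Sh (g2lv A₁ q d e) (i + 1), 2 ^ (q + i) / A ≤ |d j.1|) ∧
      (∑ j : G2Sh (g2lv A₁ q d e) (i + 1), |d j.1|⁻¹ ≤ A) ∧
      (∀ h : ℝ, 1 ≤ h → ∑ a : G2Lv (g2lv A₁ q d e) i, (|d a.1| + h)⁻¹ ≤ A * ((q + i : ℕ) : ℝ)) ∧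
      |g2sig d (g2lv A₁ q d e) (i + 1)| ≤ A * ((q + i : ℕ) : ℝ) := by
  have hA0 : 0 < A₁ := by linarith
  obtain ⟨p₁, hp₁⟩ := pow_unbounded_of_one_lt u₀ (one_lt_two : (1 : ℝ) < 2)
  obtain ⟨p₂, hp₂⟩ := pow_unbounded_of_one_lt (u₀ * A₁) (one_lt_two : (1 : ℝ) < 2)
  have hc0 : 0 ≤ Cc * 2 ^ p₁ := by positivity
  refine ⟨max A₁ (Cc * 2 ^ p₁ + 2 * Cc + 1), max (max p₁ p₂) 1, hA₁.trans (le_max_left _ _), ?_⟩
  intro q hq J ι₀ _ _ d e hR hσ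
  obtain ⟨A, hAdef⟩ : ∃ A, A = max A₁ (Cc * 2 ^ p₁ + 2 * Cc + 1) := ⟨_, rfl⟩
  rw [← hAdef]
  have hAA : A₁ ≤ A := by rw [hAdef]; exact le_max_left _ _
  have hAc : Cc * 2 ^ p₁ + 2 * Cc + 1 ≤ A := by rw [hAdef]; exact le_max_right _ _
  have hApos : 0 < A := by linarith
  have hq1 : p₁ ≤ q := le_trans (le_trans (le_max_left _ _) (le_max_left _ _)) hq
  have hq2 : p₂ ≤ q := le_trans (le_trans (le_max_right _ _) (le_max_left _ _)) hq
  have hq3 : 1 ≤ q := le_trans (le_max_right _ _) hq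
  obtain ⟨lv, hlv⟩ : ∃ lv, lv = g2lv A₁ q d e := ⟨_, rfl⟩
  rw [← hlv] at hσ ⊢
  have hfacts : ∀ j, (lv j = 0 ↔ j ∈ Set.range e) ∧
      ∀ i : ℕ, lv j = i + 1 → 2 ^ (q + i) / A₁ ≤ |d j| ∧ |d j| < 2 ^ (q + i + 1) / A₁ := by
    intro j; rw [hlv]; exact g2_lv_facts hA₁ hR.out j
  -- one shell
  have hshell : ∀ i : ℕ, ∑ j : G2Sh lv (i + 1), |d j.1|⁻¹ ≤ 2 * Cc := by
    intro i
    have h2 : (0 : ℝ) < 2 ^ (q + i) := by positivity
    have hu : u₀ ≤ 2 ^ (q + i + 1) / A₁ := by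
      rw [le_div_iff₀ hA0]
      exact hp₂.le.trans (pow_le_pow_right₀ (by norm_num) (by omega))
    have hcard : ((Finset.univ.filter fun j => lv j = i + 1).card : ℝ) ≤ Cc * (2 ^ (q + i + 1) / A₁) := by
      refine le_trans ?_ (hR.cnt _ hu)
      have hsub : (Finset.univ.filter fun j => lv j = i + 1) ⊆ Finset.univ.filter fun j => |d j| ≤ 2 ^ (q + i + 1) / A₁ := by
        intro j hj
        simp only [Finset.mem_filter, Finset.mem_univ, true_and] at hj ⊢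
        exact ((hfacts j).2 i hj).2.le
      exact_mod_cast Finset.card_le_card hsub
    rw [g2_sum_sub (fun j => lv j = i + 1) fun j => |d j|⁻¹]
    calc ∑ j ∈ Finset.univ.filter (fun j => lv j = i + 1), |d j|⁻¹
        ≤ ∑ _j ∈ Finset.univ.filter (fun j => lv j = i + 1), (2 ^ (q + i) / A₁)⁻¹ := by
          refine Finset.sum_le_sum fun j hj => ?_
          simp only [Finset.mem_filter, Finset.mem_univ, true_and] at hj
          exact inv_anti₀ (by positivity) ((hfacts j).2 i hj).1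
      _ = ((Finset.univ.filter fun j => lv j = i + 1).card : ℝ) * (2 ^ (q + i) / A₁)⁻¹ := by
          rw [Finset.sum_const, nsmul_eq_mul]
      _ ≤ Cc * (2 ^ (q + i + 1) / A₁) * (2 ^ (q + i) / A₁)⁻¹ := mul_le_mul_of_nonneg_right hcard (by positivity)
      _ = 2 * Cc := by rw [pow_succ]; field_simp
  -- the tails
  have hsig : ∀ i : ℕ, |g2sig d lv i| ≤ 1 + 2 * Cc * i := by
    intro i
    induction i with
    | zero => simpa using hσ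
    | succ i ih =>
      have h1 := g2_sig_succ d lv i
      have h2 : |∑ j : G2Sh lv (i + 1), (d j.1)⁻¹| ≤ 2 * Cc := by
        refine (Finset.abs_sum_le_sum_abs _ _).trans (le_trans (le_of_eq ?_) (hshell i))
        exact Finset.sum_congr rfl fun j _ => abs_inv _
      have h3 : g2sig d lv (i + 1) = g2sig d lv i - ∑ j : G2Sh lv (i + 1), (d j.1)⁻¹ := by linarith
      rw [h3]
      refine (abs_sub _ _).trans ?_
      push_cast
      linarith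
  intro i
  have hqi : (1 : ℝ) ≤ ((q + i : ℕ) : ℝ) := by exact_mod_cast (show 1 ≤ q + i by omega)
  refine ⟨fun j => ?_, (hshell i).trans (by linarith), fun h hh => ?_, ?_⟩
  · refine le_trans ?_ ((hfacts j.1).2 i j.2).1
    exact div_le_div_of_nonneg_left (by positivity) hA0 hAA
  · rw [g2_sum_sub (fun j => lv j ≤ i) fun j => (|d j| + h)⁻¹]
    have hsub : Finset.univ.filter (fun j => lv j ≤ i) ⊆ Finset.univ.filter (fun j => |d j| ≤ 2 ^ (q + i)) := by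
      intro j hj
      simp only [Finset.mem_filter, Finset.mem_univ, true_and] at hj ⊢
      rcases Nat.eq_zero_or_pos (lv j) with h0 | h0
      · obtain ⟨a, rfl⟩ := (hfacts j).1.1 h0
        exact (hR.inn a).trans (pow_le_pow_right₀ (by norm_num) (by omega))
      · obtain ⟨k, hk⟩ : ∃ k, lv j = k + 1 := ⟨lv j - 1, by omega⟩
        have h1 := ((hfacts j).2 k hk).2.le
        refine h1.trans ((div_le_self (by positivity) hA₁).trans (pow_le_pow_right₀ (by norm_num) (by omega)))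
    have h1 : ∑ j ∈ Finset.univ.filter (fun j => lv j ≤ i), (|d j| + h)⁻¹
        ≤ ∑ j ∈ Finset.univ.filter (fun j => |d j| ≤ 2 ^ (q + i)), (|d j| + h)⁻¹ :=
      Finset.sum_le_sum_of_subset_of_nonneg hsub fun j _ _ => by
        have := abs_nonneg (d j)
        positivity
    have h2 := g2_sum_inner hCc hR.cnt hp₁.le hh (q + i) (by omega)
    have h3 : Cc * 2 ^ p₁ ≤ Cc * 2 ^ p₁ * ((q + i : ℕ) : ℝ) := le_mul_of_one_le_right hc0 hqi
    have h4 : (Cc * 2 ^ p₁ + 2 * Cc + 1) * ((q + i : ℕ) : ℝ) ≤ A * ((q + i : ℕ) : ℝ) :=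
      mul_le_mul_of_nonneg_right hAc (by linarith)
    nlinarith
  · have h1 := hsig (i + 1)
    have h2 : ((i + 1 : ℕ) : ℝ) ≤ ((q + i : ℕ) : ℝ) := by exact_mod_cast (show i + 1 ≤ q + i by omega)
    have h4 : (Cc * 2 ^ p₁ + 2 * Cc + 1) * ((q + i : ℕ) : ℝ) ≤ A * ((q + i : ℕ) : ℝ) :=
      mul_le_mul_of_nonneg_right hAc (by linarith)
    have h5 : 2 * Cc * ((i + 1 : ℕ) : ℝ) ≤ 2 * Cc * ((q + i : ℕ) : ℝ) := mul_le_mul_of_nonneg_left h2 (by positivity)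
    have h6 : 0 ≤ Cc * 2 ^ p₁ * ((q + i : ℕ) : ℝ) := by positivity
    nlinarith

end lev

/-! ## 6. The chain, the last step, the theorem for fixed positions -/

section chain
variable {b : ℕ} {z : Fin b → ℂ} {Φ : (Fin b → ℂ) → ℝ}

/-- C1 (telescoping; abstract). -/
theorem g2_chain {J : Type} [Fintype J] [DecidableEq J] (hΦ : Continuous Φ) (Δ : ℝ) (d : J → ℝ) (lv : J → ℕ)
    (E : ℕ → ℝ)
    (hE : ∀ i, |g2T Φ z Δ (Sum.elim (fun j : G2Lv lv i => d j.1) (fun j : G2Sh lv (i + 1) => d j.1))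
        (g2sig d lv (i + 1))
      - g2T Φ z Δ (fun j : G2Lv lv i => d j.1) (g2sig d lv (i + 1) + ∑ j : G2Sh lv (i + 1), (d j.1)⁻¹)| ≤ E i)
    (m : ℕ) :
    |g2T Φ z Δ (fun j : G2Lv lv m => d j.1) (g2sig d lv m) - g2T Φ z Δ (fun j : G2Lv lv 0 => d j.1) (g2sig d lv 0)|
      ≤ ∑ i ∈ Finset.range m, E i := by
  induction m with
  | zero => simp
  | succ m ih =>
    rw [Finset.sum_range_succ]
    obtain ⟨e, he⟩ := g2_lv_split lv m
    have h1 := g2_T_reindex (z := z) e hΦ Δ (fun j : G2Lv lv (m + 1) => d j.1) (g2sig d lv (m + 1))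
    rw [he d] at h1
    have h2 := hE m
    rw [h1, ← g2_sig_succ d lv m] at h2
    have h3 := abs_sub_le (g2T Φ z Δ (fun j : G2Lv lv (m + 1) => d j.1) (g2sig d lv (m + 1)))
      (g2T Φ z Δ (fun j : G2Lv lv m => d j.1) (g2sig d lv m)) (g2T Φ z Δ (fun j : G2Lv lv 0 => d j.1) (g2sig d lv 0))
    linarith

/-- C2 (top of the chain). If all levels are `≤ m`: `G2Lv lv m ≃ J`, `σ_m = 0`. -/
theorem g2_chain_top {J : Type} [Fintype J] [DecidableEq J] (hΦ : Continuous Φ) (Δ : ℝ) (d : J → ℝ) (lv : J → ℕ)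
    {m : ℕ} (hm : ∀ j, lv j ≤ m) :
    g2T Φ z Δ (fun j : G2Lv lv m => d j.1) (g2sig d lv m) = g2T Φ z Δ d 0 := by
  have h0 : g2sig d lv m = 0 := by
    unfold g2sig
    exact Finset.sum_eq_zero fun j _ => if_neg (by have := hm j; omega)
  rw [h0]
  exact g2_T_reindex (Equiv.subtypeUnivEquiv hm) hΦ Δ d 0

/-- C3 (bottom of the chain). `G2Lv lv 0 ≃ ι₀` through the injective `e`. -/
theorem g2_chain_bot {J ι₀ : Type} [Fintype J] [DecidableEq J] [Fintype ι₀] [DecidableEq ι₀] (hΦ : Continuous Φ)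
    (Δ : ℝ) (d : J → ℝ) (lv : J → ℕ) {e : ι₀ → J} (he : Function.Injective e)
    (hlv : ∀ j, lv j = 0 ↔ j ∈ Set.range e) (σ : ℝ) :
    g2T Φ z Δ (fun j : G2Lv lv 0 => d j.1) σ = g2T Φ z Δ (d ∘ e) σ := by
  have key := g2_T_reindex (z := z) (Φ := Φ) ((Equiv.ofInjective e he).trans
    (Equiv.subtypeEquivRight fun j => by rw [Nat.le_zero, hlv j] : {j // j ∈ Set.range e} ≃ G2Lv lv 0)) hΦ Δ
    (fun j : G2Lv lv 0 => d j.1) σ
  rw [← key]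
  rfl

/-- resolvent identity for a real shift of the spectral parameter -/
theorem g2_res_shift {ι : Type} [Fintype ι] [DecidableEq ι] {H : Matrix ι ι ℝ} (hH : Hᵀ = H) {z : ℂ} (hz : 0 < z.im) (c : ℝ) :
    s5G H (z + (c : ℂ)) - s5G H z = (c : ℂ) • (s5G H (z + (c : ℂ)) * s5G H z) := by
  have hz' : 0 < (z + (c : ℂ)).im := by simpa using hz
  have h1 := s5d_G_mul hH hz'
  have h2 := s5d_mul_G hH hz
  calc s5G H (z + (c : ℂ)) - s5G H z
      = s5G H (z + (c : ℂ)) * ((toC H - z • (1 : Matrix ι ι ℂ)) * s5G H z)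
        - (s5G H (z + (c : ℂ)) * (toC H - (z + (c : ℂ)) • (1 : Matrix ι ι ℂ))) * s5G H z := by
          rw [h1, h2, Matrix.mul_one, Matrix.one_mul]
    _ = s5G H (z + (c : ℂ)) * (((toC H - z • (1 : Matrix ι ι ℂ)) - (toC H - (z + (c : ℂ)) • (1 : Matrix ι ι ℂ))) * s5G H z) := by
          rw [Matrix.mul_assoc (s5G H (z + (c : ℂ))) (toC H - (z + (c : ℂ)) • (1 : Matrix ι ι ℂ)) (s5G H z), ← Matrix.mul_sub, ← Matrix.sub_mul]
    _ = (c : ℂ) • (s5G H (z + (c : ℂ)) * s5G H z) := by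
          have e : (toC H - z • (1 : Matrix ι ι ℂ)) - (toC H - (z + (c : ℂ)) • (1 : Matrix ι ι ℂ)) = (c : ℂ) • (1 : Matrix ι ι ℂ) := by
            rw [add_smul]; abel
          rw [e, Matrix.smul_mul, Matrix.one_mul, Matrix.mul_smul]

/-- C4 (deterministic; removal of a small real shift). On `‖U √Δ W U‖ ≤ 1/4` (`U = wI h d`):
`G(z+c) - G(z) = c G(z+c) G(z)`, `Tr (G G') = Tr (U (R U² R') U)`, `s5_inner_z`, `s5_tr_weight`:
`|Tr G(z + c) - Tr G(z)| ≤ |c| ϱ(h,z) ϱ(h,z+c) ℓ / h`. -/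
theorem g2_shift_det {ι : Type} [Fintype ι] [DecidableEq ι] {d : ι → ℝ} {A : Matrix ι ι ℝ} (hA : Aᵀ = A)
    {h ℓ : ℝ} (hh : 0 < h) (ht : ‖wI h d * A * wI h d‖ ≤ 1 / 4) (hℓ : ∑ a, (|d a| + h)⁻¹ ≤ ℓ) {z : ℂ}
    (hz : 0 < z.im) (c : ℝ) :
    ‖rTr (Matrix.diagonal d + A) (z + (c : ℂ)) - rTr (Matrix.diagonal d + A) z‖
      ≤ |c| * s5rho h z * s5rho h (z + (c : ℂ)) * ℓ / h := by
  have hz' : 0 < (z + (c : ℂ)).im := by simpa using hz
  have hH := s5d_symm_add d hA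
  have hv := s5d_inn_pos (dI := d) hh
  have hR := s5_inner_z hA hh ht le_rfl hz
  have hR' := s5_inner_z hA hh ht le_rfl hz'
  obtain ⟨hUU, -⟩ := s5d_wI_norm (dI := d) hh
  have e0 : ∀ w : ℂ, rTr (Matrix.diagonal d + A) w = Matrix.trace (s5G (Matrix.diagonal d + A) w) := fun w => rfl
  rw [e0, e0, ← Matrix.trace_sub, g2_res_shift hH hz c, Matrix.trace_smul, norm_smul, Complex.norm_real, Real.norm_eq_abs]
  set H := Matrix.diagonal d + A with hHdef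
  set V := toC (Matrix.diagonal fun a => Real.sqrt (|d a| + h)) with hV
  set U := toC (Matrix.diagonal fun a => (Real.sqrt (|d a| + h))⁻¹) with hU
  have hUw : toC (wI h d) = U := rfl
  rw [hUw] at hUU
  have b1 : U * (V * s5G H z * V) * U = s5G H z := s5d_conj_back hv _
  have b2 : U * (V * s5G H (z + (c : ℂ)) * V) * U = s5G H (z + (c : ℂ)) := s5d_conj_back hv _
  set R := V * s5G H z * V with hRdef
  set R' := V * s5G H (z + (c : ℂ)) * V with hR'def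
  have e1 : s5G H (z + (c : ℂ)) * s5G H z = U * (R' * (U * U) * R) * U := by
    rw [← b1, ← b2]; simp only [Matrix.mul_assoc]
  have hρ0 : 0 ≤ s5rho h z := (norm_nonneg _).trans hR
  have hρ0' : 0 ≤ s5rho h (z + (c : ℂ)) := (norm_nonneg _).trans hR'
  have hX : ‖R' * (U * U) * R‖ ≤ s5rho h (z + (c : ℂ)) * (1 / h) * s5rho h z := by
    refine (Matrix.l2_opNorm_mul _ _).trans (mul_le_mul ((Matrix.l2_opNorm_mul _ _).trans (mul_le_mul hR' hUU (norm_nonneg _) hρ0')) hR (norm_nonneg _) (by positivity))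
  have hsum : ∑ j, ((Real.sqrt (|d j| + h))⁻¹) ^ 2 = ∑ a, (|d a| + h)⁻¹ := by
    refine Finset.sum_congr rfl fun j _ => ?_
    rw [inv_pow, Real.sq_sqrt (by have := abs_nonneg (d j); linarith)]
  have hsum0 : 0 ≤ ∑ a, (|d a| + h)⁻¹ := Finset.sum_nonneg fun a _ => by have := abs_nonneg (d a); positivity
  have htr := s5_tr_weight (fun a => (Real.sqrt (|d a| + h))⁻¹) (R' * (U * U) * R)
  rw [hsum] at htr
  rw [e1]
  have h5 : ‖Matrix.trace (U * (R' * (U * U) * R) * U)‖ ≤ s5rho h (z + (c : ℂ)) * (1 / h) * s5rho h z * ℓ :=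
    htr.trans (mul_le_mul hX hℓ hsum0 (by positivity))
  calc |c| * ‖Matrix.trace (U * (R' * (U * U) * R) * U)‖ ≤ |c| * (s5rho h (z + (c : ℂ)) * (1 / h) * s5rho h z * ℓ) :=
        mul_le_mul_of_nonneg_left h5 (abs_nonneg _)
    _ = |c| * s5rho h z * s5rho h (z + (c : ℂ)) * ℓ / h := by ring

/-- C5 (**last step**). `h = y^{-q}`: `P(bad) ≤ 4096 Δ² (A q)³ y^q` (P1), on the good event C4 + S1:
`|σ| (1 + Δ C² h A q) ≤ C' q y^q`. F3. -/
theorem g2_unshift (hz : ∀ a, 0 < (z a).im) {B : ℝ} (hB : ∀ v, |Φ v| ≤ B) {Lc : NNReal}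
    (hL : LipschitzWith Lc Φ) {Δ : ℝ} (hΔ : 0 < Δ) (A : ℝ) (hA : 1 ≤ A) {y : ℝ} (hy : 0 < y) (hy1 : y < 1) :
    ∃ C : ℝ, 0 ≤ C ∧ ∀ q : ℕ, 1 ≤ q → ∀ (ι : Type) [Fintype ι] [DecidableEq ι] (d : ι → ℝ) (σ : ℝ),
      (∀ h : ℝ, 1 ≤ h → ∑ a, (|d a| + h)⁻¹ ≤ A * q) → |σ| ≤ y ^ (2 * q) →
      |g2T Φ z Δ d σ - g2T Φ z Δ d 0| ≤ C * (q : ℝ) ^ 3 * y ^ q := by
  obtain ⟨M, hM1, hΔM, hAM, hzM, hzI⟩ := g2_M_exists hz Δ A hΔ hA
  have hB0 : 0 ≤ B := (abs_nonneg _).trans (hB 0)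
  have hM0 : 0 < M := by linarith
  have hA0 : 0 < A := by linarith
  have hΦ : Continuous Φ := hL.continuous
  obtain ⟨K, hK⟩ : ∃ K : ℝ, K = 12 + 9 * (2 * M) + 9 * (2 * M + 1) ^ 2 / (1 / M) := ⟨_, rfl⟩
  have hK0 : 0 ≤ K := by rw [hK]; positivity
  refine ⟨Lc * (M * K ^ 2 * A + 1) + 2 * B * (4096 * Δ ^ 2 * A ^ 3), by positivity, ?_⟩
  intro q hq1 ι _ _ d σ hI hσ
  have hQ : (1 : ℝ) ≤ (q : ℝ) := by exact_mod_cast hq1
  have hQ0 : (0 : ℝ) < (q : ℝ) := by linarith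
  have hyq : 0 < y ^ q := by positivity
  have hyq1 : y ^ q ≤ 1 := pow_le_one₀ hy.le hy1.le
  obtain ⟨h, hh⟩ : ∃ h : ℝ, h = (y ^ q)⁻¹ := ⟨_, rfl⟩
  have hh1 : 1 ≤ h := by rw [hh]; exact (one_le_inv₀ hyq).2 hyq1
  have hh0 : 0 < h := by linarith
  have hhy : h * y ^ q = 1 := by rw [hh]; exact inv_mul_cancel₀ hyq.ne'
  have hσ2 : |σ| ≤ y ^ q * y ^ q := by rw [← pow_add, ← two_mul]; exact hσ
  have hσ1 : |σ| ≤ 1 := hσ2.trans (mul_le_one₀ hyq1 hyq.le hyq1)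
  have hσy : |σ| ≤ y ^ q := hσ2.trans (mul_le_of_le_one_left hyq.le hyq1)
  -- measurability
  have hmF : ∀ s : ℝ, Measurable fun N : Matrix ι ι ℝ => Φ (g2Ob z Δ d s (goeOf N)) := fun s =>
    hΦ.measurable.comp ((g2_ob_measurable z Δ d s).comp goe_of_measurable)
  have hmW : ∀ s : ℝ, Measurable fun W : Matrix ι ι ℝ => Φ (g2Ob z Δ d s W) := fun s =>
    hΦ.measurable.comp (g2_ob_measurable z Δ d s)
  unfold g2T
  rw [goe_raw_integral _ (hmW σ), goe_raw_integral _ (hmW 0)]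
  -- the bad event
  have hbad : gArr ι ι {N : Matrix ι ι ℝ | ‖wI h d * (Real.sqrt Δ • goeOf N) * wI h d‖ ≤ 1 / 4}ᶜ
      ≤ ENNReal.ofReal (4096 * Δ ^ 2 * A ^ 3 * (q : ℝ) ^ 3 * y ^ q) := by
    have h1 := g2_p_norm (ι := ι) (u := fun a => (Real.sqrt (|d a| + h))⁻¹) (T := A * q) (ub := y ^ q)
      (c := Real.sqrt Δ) (t := 1 / 4)
      (by
        refine le_trans (le_of_eq ?_) (hI h hh1)
        refine Finset.sum_congr rfl fun a _ => ?_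
        rw [inv_pow, Real.sq_sqrt (by positivity)])
      (fun a => by
        rw [inv_pow, Real.sq_sqrt (by positivity)]
        have : (y ^ q) = h⁻¹ := by rw [hh, inv_inv]
        rw [this]
        exact inv_anti₀ hh0 (by linarith [abs_nonneg (d a)]))
      (by norm_num)
    have h2 : Real.sqrt Δ ^ 4 = Δ ^ 2 := by
      have : Real.sqrt Δ ^ 4 = (Real.sqrt Δ ^ 2) ^ 2 := by ring
      rw [this, Real.sq_sqrt hΔ.le]
    have h3 : 16 * Real.sqrt Δ ^ 4 * y ^ q * (A * q) ^ 3 / (1 / 4) ^ 4 = 4096 * Δ ^ 2 * A ^ 3 * (q : ℝ) ^ 3 * y ^ q := by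
      rw [h2]; ring
    rw [h3] at h1
    refine le_trans ?_ h1
    refine le_trans (le_of_eq ?_) (Measure.le_map_apply goe_of_measurable.aemeasurable _)
    congr 1
    ext N
    simp only [Set.mem_compl_iff, Set.mem_ofPred_eq, Set.mem_preimage, not_le]
    rfl
  have hρ : ∀ (a : Fin b) (c : ℝ), |c| ≤ M → 0 ≤ s5rho h (z a + (c : ℂ)) ∧ s5rho h (z a + (c : ℂ)) ≤ K * h := fun a c hc => by
    rw [hK]
    refine g2_rho_le ?_ (by positivity : 0 < 1 / M) ?_ hh1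
    · have h1 := norm_add_le (z a) (c : ℂ)
      rw [Complex.norm_real, Real.norm_eq_abs] at h1
      linarith [hzM a]
    · rw [Complex.add_im, Complex.ofReal_im, add_zero]; exact hzI a
  have hΔσ : |Δ * σ| ≤ M * (y ^ q * y ^ q) := by
    rw [abs_mul, abs_of_pos hΔ]
    exact mul_le_mul hΔM hσ2 (abs_nonneg _) hM0.le
  have hΔσM : |Δ * σ| ≤ M := hΔσ.trans (mul_le_of_le_one_right hM0.le (mul_le_one₀ hyq1 hyq.le hyq1))
  have hgood : ∀ N ∈ {N : Matrix ι ι ℝ | ‖wI h d * (Real.sqrt Δ • goeOf N) * wI h d‖ ≤ 1 / 4},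
      |Φ (g2Ob z Δ d σ (goeOf N)) - Φ (g2Ob z Δ d 0 (goeOf N))| ≤ Lc * ((M * K ^ 2 * A + 1) * (q : ℝ) ^ 3 * y ^ q) := by
    intro N hN
    have h1 := hL.dist_le_mul (g2Ob z Δ d σ (goeOf N)) (g2Ob z Δ d 0 (goeOf N))
    rw [Real.dist_eq] at h1
    refine h1.trans (mul_le_mul_of_nonneg_left ?_ Lc.2)
    refine (dist_pi_le_iff (by positivity)).2 fun a => ?_
    have hsym : (Real.sqrt Δ • goeOf N)ᵀ = Real.sqrt Δ • goeOf N := by
      rw [Matrix.transpose_smul, (goe_of_isSymm N).eq]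
    have h2 := g2_shift_det hsym hh0 hN (hI h hh1) (hz a) (Δ * σ)
    have e0 : g2Ob z Δ d 0 (goeOf N) a = rTr (Matrix.diagonal d + Real.sqrt Δ • goeOf N) (z a) := by
      simp [g2Ob]
    have e1 : g2Ob z Δ d σ (goeOf N) a
        = rTr (Matrix.diagonal d + Real.sqrt Δ • goeOf N) (z a + ((Δ * σ : ℝ) : ℂ)) + (σ : ℂ) := rfl
    rw [dist_eq_norm, e0, e1]
    have h3 : ‖rTr (Matrix.diagonal d + Real.sqrt Δ • goeOf N) (z a + ((Δ * σ : ℝ) : ℂ)) + (σ : ℂ)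
        - rTr (Matrix.diagonal d + Real.sqrt Δ • goeOf N) (z a)‖
        ≤ ‖rTr (Matrix.diagonal d + Real.sqrt Δ • goeOf N) (z a + ((Δ * σ : ℝ) : ℂ))
          - rTr (Matrix.diagonal d + Real.sqrt Δ • goeOf N) (z a)‖ + |σ| := by
      have := norm_add_le (rTr (Matrix.diagonal d + Real.sqrt Δ • goeOf N) (z a + ((Δ * σ : ℝ) : ℂ))
          - rTr (Matrix.diagonal d + Real.sqrt Δ • goeOf N) (z a)) (σ : ℂ)
      rw [Complex.norm_real, Real.norm_eq_abs] at this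
      refine le_trans (le_of_eq ?_) this
      congr 1; ring
    have r0 := hρ a 0 (by rw [abs_zero]; exact hM0.le)
    rw [Complex.ofReal_zero, add_zero] at r0
    have r1 := hρ a (Δ * σ) hΔσM
    have h4 : |Δ * σ| * s5rho h (z a) * s5rho h (z a + ((Δ * σ : ℝ) : ℂ)) * (A * q) / h
        ≤ M * K ^ 2 * A * q * y ^ q := by
      rw [div_le_iff₀ hh0]
      calc |Δ * σ| * s5rho h (z a) * s5rho h (z a + ((Δ * σ : ℝ) : ℂ)) * (A * q)
          ≤ (M * (y ^ q * y ^ q)) * (K * h) * (K * h) * (A * q) := by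
            have := r0.1; have := r1.1
            gcongr
            · exact r0.2
            · exact r1.2
        _ = M * K ^ 2 * A * q * (h * y ^ q) * (h * y ^ q) := by ring
        _ = M * K ^ 2 * A * q * (h * y ^ q) := by rw [hhy]; ring
        _ = _ := by ring
    have hq3 : (q : ℝ) ≤ (q : ℝ) ^ 3 := by
      calc (q : ℝ) = (q : ℝ) ^ 1 := (pow_one _).symm
        _ ≤ _ := pow_le_pow_right₀ hQ (by norm_num)
    have h5 : M * K ^ 2 * A * q * y ^ q ≤ M * K ^ 2 * A * (q : ℝ) ^ 3 * y ^ q := by gcongr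
    have h6 : y ^ q ≤ (q : ℝ) ^ 3 * y ^ q := le_mul_of_one_le_left hyq.le (one_le_pow₀ hQ)
    have e : (M * K ^ 2 * A + 1) * (q : ℝ) ^ 3 * y ^ q = M * K ^ 2 * A * (q : ℝ) ^ 3 * y ^ q + (q : ℝ) ^ 3 * y ^ q := by ring
    rw [e]
    linarith
  have hfin := g2_int_split (μ := gArr ι ι) (hmF σ) (hmF 0) (fun N => hB _) (fun N => hB _)
    (ε := Lc * ((M * K ^ 2 * A + 1) * (q : ℝ) ^ 3 * y ^ q)) (δ := 4096 * Δ ^ 2 * A ^ 3 * (q : ℝ) ^ 3 * y ^ q)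
    (by positivity) (by positivity) hbad hgood
  refine hfin.trans (le_of_eq ?_)
  ring

/-- C6. `q³ y^q → 0`. -/
theorem g2_geo_small (C : ℝ) {y : ℝ} (hy : 0 < y) (hy1 : y < 1) {ε : ℝ} (hε : 0 < ε) :
    ∃ q₁ : ℕ, ∀ q : ℕ, q₁ ≤ q → C * (q : ℝ) ^ 3 * y ^ q ≤ ε ∧ y ^ (2 * q) ≤ 1 := by
  have ht := (tendsto_pow_const_mul_const_pow_of_abs_lt_one 3 (by rw [abs_of_pos hy]; exact hy1 : |y| < 1)).const_mul C
  rw [mul_zero] at ht
  obtain ⟨q₁, hq₁⟩ := eventually_atTop.1 (ht.eventually (gt_mem_nhds hε))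
  refine ⟨q₁, fun q hq => ⟨?_, pow_le_one₀ hy.le hy1.le⟩⟩
  have := (hq₁ q hq).le
  rwa [← mul_assoc] at this

/-- **G2 for fixed positions.** Uniform in the size of `J`. -/
theorem g2_cut_det (hz : ∀ a, 0 < (z a).im) {B : ℝ} (hB : ∀ v, |Φ v| ≤ B) {Lc : NNReal}
    (hL : LipschitzWith Lc Φ) {Δ : ℝ} (hΔ : 0 < Δ) (Cc u₀ A₁ : ℝ) (hCc : 0 ≤ Cc) (hA₁ : 1 ≤ A₁) {y : ℝ}
    (hy : 0 < y) (hy1 : y < 1) {ε : ℝ} (hε : 0 < ε) :
    ∃ q₀ : ℕ, ∀ q : ℕ, q₀ ≤ q → ∀ (J ι₀ : Type) [Fintype J] [DecidableEq J] [Fintype ι₀] [DecidableEq ι₀]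
      (d : J → ℝ) (e : ι₀ → J), Function.Injective e → G2Reg Cc u₀ A₁ q d e →
      |g2sig d (g2lv A₁ q d e) 0| ≤ y ^ (2 * q) →
      |g2T Φ z Δ d 0 - g2T Φ z Δ (d ∘ e) 0| ≤ ε := by
  have hΦ : Continuous Φ := hL.continuous
  have hε2 : 0 < ε / 2 := by positivity
  obtain ⟨A, qa, hA1, hreg⟩ := g2_lv_reg Cc u₀ A₁ hCc hA₁
  obtain ⟨C, qb, -, hstep⟩ := g2_step_q hz hB hL hΔ A hA1
  obtain ⟨qc, htail⟩ := g2_tail_small C hε2
  obtain ⟨C', -, hun⟩ := g2_unshift hz hB hL hΔ A hA1 hy hy1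
  obtain ⟨qd, hgeo⟩ := g2_geo_small C' hy hy1 hε2
  refine ⟨max (max qa qb) (max (max qc qd) 1), fun q hq J ι₀ _ _ _ _ d e he hR htl => ?_⟩
  have hqa : qa ≤ q := le_trans (le_trans (le_max_left _ _) (le_max_left _ _)) hq
  have hqb : qb ≤ q := le_trans (le_trans (le_max_right _ _) (le_max_left _ _)) hq
  have hqc : qc ≤ q := le_trans (le_trans (le_trans (le_max_left _ _) (le_max_left _ _)) (le_max_right _ _)) hq
  have hqd : qd ≤ q := le_trans (le_trans (le_trans (le_max_right _ _) (le_max_left _ _)) (le_max_right _ _)) hq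
  have hq1 : 1 ≤ q := le_trans (le_trans (le_max_right _ _) (le_max_right _ _)) hq
  set lv := g2lv A₁ q d e with hlv
  have hσ0 : |g2sig d lv 0| ≤ 1 := htl.trans (hgeo q hqd).2
  have hr := hreg q hqa J ι₀ d e hR hσ0
  have hch := g2_chain (z := z) hΦ Δ d lv (fun i => C * ((q + i : ℕ) : ℝ) ^ 6 * g2x ^ (q + i)) (fun i => by
    obtain ⟨h1, h2, h3, h4⟩ := hr i
    exact hstep (q + i) (by omega) _ _ _ _ _ h1 h2 h3 h4) (Finset.univ.sup lv)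
  rw [g2_chain_top hΦ Δ d lv (fun j => Finset.le_sup (Finset.mem_univ j))] at hch
  have h5 := hch.trans (htail q hqc _)
  have h6 := hun q hq1 _ (fun j : G2Lv lv 0 => d j.1) (g2sig d lv 0) (fun h hh => by
    have := (hr 0).2.2.1 h hh
    simpa using this) htl
  have h7 := h6.trans (hgeo q hqd).1
  rw [g2_chain_bot hΦ Δ d lv he (fun j => (g2_lv_facts hA₁ hR.out j).1) 0] at h7
  rw [abs_le] at h5 h7 ⊢
  constructor <;> linarith [h5.1, h5.2, h7.1, h7.2]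

end chain

/-! ## 7. W2: the producer of `G2Reg` from a labelled family (helper131) -/

/-- the window index with a given label -/
theorem g2_wIdx_surj {K : ℕ} {j : ℤ} (hj : |j| ≤ K) : ∃ w : Win K, wIdx w = j := by
  rw [abs_le] at hj
  refine ⟨⟨(j + K).toNat, by omega⟩, ?_⟩
  unfold wIdx
  simp only
  omega

theorem g2_wIdx_abs {K : ℕ} (w : Win K) : |wIdx w| ≤ K := by
  have := w.2
  unfold wIdx
  rw [abs_le]
  constructor <;> omega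

/-- **W2 (producer of `G2Reg`)**: a family `d` with an injective monotone labelling `L`, window `e`, two-sided linear bounds of the labelled positions. -/
theorem g2_reg_lab {J : Type} [Fintype J] [DecidableEq J] {K J₀ q : ℕ} {c C A₁ : ℝ} (hc : 0 < c) (hC : 0 < C)
    (d : J → ℝ) (L : J → ℤ) (hL : Function.Injective L) (hmono : ∀ i i', L i ≤ L i' → d i ≤ d i')
    (e : Win K → J) (he : ∀ w, L (e w) = wIdx w) (hr : ∀ i, i ∈ Set.range e ↔ |L i| ≤ K)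
    (lo : ∀ i, (J₀ : ℤ) ≤ |L i| → c * |(L i : ℝ)| ≤ |d i|)
    (hi : ∀ i, (J₀ : ℤ) ≤ |L i| → |L i| ≤ K → |d i| ≤ C * |(L i : ℝ)|)
    (hJK : J₀ ≤ K) (hA : 2 * C / c ≤ A₁) (hq1 : C * K ≤ 2 ^ q) (hq2 : (2 : ℝ) ^ q ≤ 2 * C * K) :
    G2Reg (2 + 2 / c) ((J₀ : ℝ) + 1) A₁ q d e := by
  have hA0 : 0 < A₁ := lt_of_lt_of_le (by positivity) hA
  refine ⟨fun u hu => ?_, fun w => ?_, fun i hi' => ?_⟩
  · -- counts
    have hJ0 : (0 : ℝ) ≤ J₀ := Nat.cast_nonneg _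
    have hu0 : 0 ≤ u := by linarith
    set M : ℕ := max J₀ ⌊u / c⌋₊ with hM
    have hsub : ((Finset.univ.filter fun j => |d j| ≤ u).image L) ⊆ Finset.Icc (-(M : ℤ)) M := by
      intro j hj
      obtain ⟨i, hi1, rfl⟩ := Finset.mem_image.1 hj
      simp only [Finset.mem_filter, Finset.mem_univ, true_and] at hi1
      rw [Finset.mem_Icc, ← abs_le]
      rcases lt_or_ge |L i| (J₀ : ℤ) with h | h
      · exact h.le.trans (by exact_mod_cast le_max_left _ _)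
      · have h1 := (lo i h).trans hi1
        have h2 : |(L i : ℝ)| ≤ u / c := by rw [le_div_iff₀ hc]; linarith
        have h3 : ((L i).natAbs : ℝ) ≤ u / c := by
          rw [Nat.cast_natAbs]; exact_mod_cast h2
        have h4 : (L i).natAbs ≤ ⌊u / c⌋₊ := Nat.le_floor h3
        rw [Int.abs_eq_natAbs]
        exact_mod_cast h4.trans (le_max_right _ _)
    have hcard := Finset.card_le_card hsub
    rw [Finset.card_image_of_injective _ hL, Int.card_Icc] at hcard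
    have h5 : ((Finset.univ.filter fun j => |d j| ≤ u).card : ℝ) ≤ 2 * (M : ℝ) + 1 := by
      have : (Finset.univ.filter fun j => |d j| ≤ u).card ≤ 2 * M + 1 := by omega
      exact_mod_cast this
    have h6 : (M : ℝ) ≤ J₀ + u / c := by
      rw [hM, Nat.cast_max]
      refine max_le (by have : 0 ≤ u / c := by positivity
                        linarith) ?_
      exact (Nat.floor_le (by positivity)).trans (by linarith)
    have h7 : (2 + 2 / c) * u = 2 * u + 2 * (u / c) := by ring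
    rw [h7]
    linarith
  · -- the window
    have hw := g2_wIdx_abs w
    have hK0 : (J₀ : ℝ) ≤ K := by exact_mod_cast hJK
    rcases lt_or_ge |wIdx w| (J₀ : ℤ) with h | h
    · obtain ⟨wp, hwp⟩ := g2_wIdx_surj (K := K) (j := (J₀ : ℤ)) (by rw [abs_of_nonneg (by positivity)]; exact_mod_cast hJK)
      obtain ⟨wm, hwm⟩ := g2_wIdx_surj (K := K) (j := -(J₀ : ℤ)) (by rw [abs_neg, abs_of_nonneg (by positivity)]; exact_mod_cast hJK)
      rw [abs_lt] at h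
      have u1 : d (e w) ≤ d (e wp) := hmono _ _ (by rw [he, he, hwp]; exact h.2.le)
      have u2 : d (e wm) ≤ d (e w) := hmono _ _ (by rw [he, he, hwm]; exact h.1.le)
      have b1 := hi (e wp) (by rw [he, hwp, abs_of_nonneg (by positivity)]) (by rw [he]; exact g2_wIdx_abs wp)
      have b2 := hi (e wm) (by rw [he, hwm, abs_neg, abs_of_nonneg (by positivity)]) (by rw [he]; exact g2_wIdx_abs wm)
      rw [he, hwp] at b1
      rw [he, hwm] at b2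
      have e1 : |((J₀ : ℤ) : ℝ)| = J₀ := by simp
      have e2 : |((-(J₀ : ℤ) : ℤ) : ℝ)| = J₀ := by simp
      rw [e1] at b1
      rw [e2] at b2
      have hCJ : C * (J₀ : ℝ) ≤ 2 ^ q := (mul_le_mul_of_nonneg_left hK0 hC.le).trans hq1
      rw [abs_le] at b1 b2 ⊢
      constructor <;> linarith [b1.1, b1.2, b2.1, b2.2]
    · have b := hi (e w) (by rw [he]; exact h) (by rw [he]; exact hw)
      rw [he] at b
      have h8 : |((wIdx w : ℤ) : ℝ)| ≤ K := by exact_mod_cast hw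
      exact b.trans ((mul_le_mul_of_nonneg_left h8 hC.le).trans hq1)
  · -- outside
    have h1 : (K : ℤ) < |L i| := by
      by_contra hcon
      exact hi' ((hr i).2 (not_lt.1 hcon))
    have h2 := lo i (le_trans (by exact_mod_cast hJK) h1.le)
    have h3 : (K : ℝ) ≤ |(L i : ℝ)| := by exact_mod_cast h1.le
    have h4 : c * (K : ℝ) ≤ |d i| := (mul_le_mul_of_nonneg_left h3 hc.le).trans h2
    rw [div_le_iff₀ hA0]
    have h5 : 2 * C ≤ A₁ * c := by rwa [div_le_iff₀ hc] at hA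
    have hK0 : (0 : ℝ) ≤ K := Nat.cast_nonneg _
    calc (2 : ℝ) ^ q ≤ 2 * C * K := hq2
      _ ≤ A₁ * c * K := mul_le_mul_of_nonneg_right h5 hK0
      _ = (c * K) * A₁ := by ring
      _ ≤ |d i| * A₁ := mul_le_mul_of_nonneg_right h4 hA0.le

/-- **W2 (numerics)**: the dyadic scale `2^q ≍ C K` of the window `K`, and the tail `C K^{-1/8}` is below `g2x^{2q} = 2^{-q/32}`. -/
theorem g2_q_exists (C : ℝ) (hC : 0 < C) (q₀ : ℕ) : ∃ K₁ : ℕ, ∀ K : ℕ, K₁ ≤ K → ∃ q : ℕ, q₀ ≤ q ∧ C * K ≤ 2 ^ q ∧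
    (2 : ℝ) ^ q ≤ 2 * C * K ∧ C * (K : ℝ) ^ (-((1 : ℝ) / 8)) ≤ g2x ^ (2 * q) := by
  obtain ⟨hx0, hx1, hx64⟩ := g2_x_facts
  have hinv1 : 1 < g2x⁻¹ := (one_lt_inv₀ hx0).2 hx1
  have hb1 : 1 < (g2x⁻¹) ^ 48 := one_lt_pow₀ hinv1 (by norm_num)
  obtain ⟨q₁, hq₁⟩ := pow_unbounded_of_one_lt (2 * C ^ 9) hb1
  set q₂ : ℕ := max q₀ q₁ with hq₂
  obtain ⟨K₁, hK₁⟩ := exists_nat_ge ((2 : ℝ) ^ q₂ / C)
  refine ⟨K₁ + 1, fun K hK => ?_⟩
  have hKr : (K₁ : ℝ) + 1 ≤ K := by exact_mod_cast hK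
  have hK0 : (0 : ℝ) < K := by have : (0 : ℝ) ≤ K₁ := Nat.cast_nonneg _
                               linarith
  have h2q : (2 : ℝ) ^ q₂ ≤ C * K := by
    rw [div_le_iff₀ hC] at hK₁
    nlinarith
  have h1 : (1 : ℝ) ≤ C * K := le_trans (one_le_pow₀ (by norm_num)) h2q
  obtain ⟨m, hm1, hm2⟩ := exists_nat_pow_near h1 (by norm_num : (1 : ℝ) < 2)
  have hq2m : q₂ ≤ m + 1 := by
    have : (2 : ℝ) ^ q₂ < 2 ^ (m + 1) := lt_of_le_of_lt h2q hm2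
    exact ((pow_lt_pow_iff_right₀ (by norm_num : (1 : ℝ) < 2)).1 this).le
  refine ⟨m + 1, (le_max_left _ _).trans hq2m, hm2.le, ?_, ?_⟩
  · rw [pow_succ]; linarith
  · set q := m + 1 with hq
    set r : ℝ := (g2x⁻¹) ^ q with hr
    have hr0 : 0 < r := by positivity
    have hr64 : r ^ 64 = 2 ^ q := hx64 q
    have hr48 : 2 * C ^ 9 ≤ r ^ 48 := by
      have e : r ^ 48 = ((g2x⁻¹) ^ 48) ^ q := by rw [hr, ← pow_mul, ← pow_mul, mul_comm]
      rw [e]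
      exact hq₁.le.trans (pow_le_pow_right₀ hb1.le ((le_max_right _ _).trans hq2m))
    have hup : r ^ 64 ≤ 2 * C * K := by rw [hr64, hq, pow_succ]; linarith
    -- `C^8 r^16 ≤ K`
    have hkey : C ^ 8 * r ^ 16 ≤ K := by
      have a1 : 2 * C ^ 9 * r ^ 16 ≤ r ^ 48 * r ^ 16 := mul_le_mul_of_nonneg_right hr48 (by positivity)
      have a2 : r ^ 48 * r ^ 16 = r ^ 64 := by ring
      have a3 : 2 * C * (C ^ 8 * r ^ 16) ≤ 2 * C * K := by
        calc 2 * C * (C ^ 8 * r ^ 16) = 2 * C ^ 9 * r ^ 16 := by ring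
          _ ≤ r ^ 64 := by rw [← a2]; exact a1
          _ ≤ 2 * C * K := hup
      exact le_of_mul_le_mul_left a3 (by positivity)
    set t : ℝ := (K : ℝ) ^ (-((1 : ℝ) / 8)) with ht
    have ht0 : 0 ≤ t := Real.rpow_nonneg hK0.le _
    have ht8 : t ^ 8 = (K : ℝ)⁻¹ := by
      rw [ht, ← Real.rpow_natCast, ← Real.rpow_mul hK0.le]
      norm_num
      exact Real.rpow_neg_one _
    have hs : g2x ^ (2 * q) = (r ^ 2)⁻¹ := by
      rw [hr, ← pow_mul, inv_pow, inv_inv, mul_comm]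
    rw [hs]
    refine le_of_pow_le_pow_left₀ (n := 8) (by norm_num) (by positivity) ?_
    rw [mul_pow, ht8, inv_pow, ← pow_mul]
    rw [← div_eq_mul_inv, div_le_iff₀ hK0, ← div_eq_inv_mul, le_div_iff₀ (by positivity)]
    exact hkey

end Claimed.Agent.R287
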