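-- KEEP
import Claimed.Agent.R287.GoeG2
import Claimed.Agent.R287.GoeG1F
import Claimed.Agent.R287.LimTr
import Claimed.Agent.R287.S4

/-!
# Row 287 (S0534), unit GOE, block G2W: THE WRAPPER between `g2_cut_det` (fixed positions, helper252), `gf_main` (`GfReg`, helper273) and the exit `gx_cut` of `Goe.lean`
(helper174, prefix `g2w_`, defs `g2wD g2wL`)

W1  `g2w_lab`: a finite real family has an injective labelling by `ℤ` compatible with `tpLab`, onto the finite labels.      `g2wD ρ x` = rescaled eigenvalues, `g2wL ρ x` = their labels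
    (`g2w_L_inj`, `g2w_L_val`, `g2w_L_surj`, `g2w_L_real`);   `g2w_emb`: the embedding `e : Win K → Fin n` of the window, `range e = {|label| ≤ K}`, `d ∘ e = cPos K (gxCf ρ x)`.
W3  `g2w_full`: `E_N Φ(rTr (gxFull ρ Δ x N) z) = g2T Φ z Δ (g2wD ρ x) 0`;   `g2w_cutT`: `E_N Φ(rTr (cutM K Δ (gxCf ρ x) N) z) = g2T Φ z Δ (g2wD ρ x ∘ e) 0`.
W2t `g2w_tail`: `g2sig d (g2lv A₁ q d e) 0 = ltS (gxY ρ x) 0 - ltSK K (gxY ρ x) 0`.
W2  `g2w_reg`: `GfReg ⟹ G2Reg` + smallness of the tail.      W4 `g2w_cut` = text of `gx_cut`.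
-/

set_option autoImplicit false

open MeasureTheory ProbabilityTheory Matrix Filter Topology Claims.C0462

namespace Claimed.Agent.R287

/-- W1a: option form of the labelling of a finite family (copy of `s4_lab_exists`) -/
theorem g2w_lab_opt {ι : Type} [Fintype ι] (f : ι → ℝ) :
    ∃ idx : ℤ → Option ι, (∀ j j' i, idx j = some i → idx j' = some i → j = j') ∧ (∀ i, ∃ j, idx j = some i) ∧
      (∀ j i, idx j = some i → tpLab (Finset.univ.val.map f) j = ((f i : ℝ) : EReal)) ∧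
      ∀ j, idx j = none → tpLab (Finset.univ.val.map f) j = ⊤ ∨ tpLab (Finset.univ.val.map f) j = ⊥ := by
  classical
  obtain ⟨tP, hP1, hP2, hP3⟩ := s4_lift_list f (· ≤ ·) (Finset.univ.filter fun i => 0 ≤ f i) (tpPos (Finset.univ.val.map f))
    (tp_pos_pairwise _) (by
      unfold tpPos
      rw [Multiset.sort_eq, Multiset.filter_map]
      rfl)
  obtain ⟨tN, hN1, hN2, hN3⟩ := s4_lift_list f (· ≥ ·) (Finset.univ.filter fun i => f i < 0) (tpNeg (Finset.univ.val.map f))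
    (tp_neg_pairwise _) (by
      unfold tpNeg
      rw [Multiset.sort_eq, Multiset.filter_map]
      rfl)
  simp only [Finset.mem_filter, Finset.mem_univ, true_and] at hP2 hN2
  refine ⟨fun j => if 0 ≤ j then tP[j.toNat]? else tN[(-j - 1).toNat]?, ?_, ?_, ?_, ?_⟩
  · intro j j' i h1 h2
    by_cases hj : 0 ≤ j <;> by_cases hj' : 0 ≤ j'
    · simp only [if_pos hj, if_pos hj'] at h1 h2
      have := (List.getElem?_inj (List.getElem?_eq_some_iff.1 h1).1 hP1).1 (h1.trans h2.symm)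
      omega
    · simp only [if_pos hj, if_neg hj'] at h1 h2
      have a1 := (hP2 i).1 (List.mem_of_getElem? h1)
      have a2 := (hN2 i).1 (List.mem_of_getElem? h2)
      linarith
    · simp only [if_neg hj, if_pos hj'] at h1 h2
      have a1 := (hN2 i).1 (List.mem_of_getElem? h1)
      have a2 := (hP2 i).1 (List.mem_of_getElem? h2)
      linarith
    · simp only [if_neg hj, if_neg hj'] at h1 h2
      have := (List.getElem?_inj (List.getElem?_eq_some_iff.1 h1).1 hN1).1 (h1.trans h2.symm)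
      omega
  · intro i
    rcases le_or_gt 0 (f i) with h | h
    · obtain ⟨a, ha⟩ := List.mem_iff_getElem?.1 ((hP2 i).2 h)
      refine ⟨(a : ℤ), ?_⟩
      simp only [Int.natCast_nonneg, if_true, Int.toNat_natCast]
      exact ha
    · obtain ⟨a, ha⟩ := List.mem_iff_getElem?.1 ((hN2 i).2 h)
      refine ⟨-(a : ℤ) - 1, ?_⟩
      have h1 : ¬ (0 : ℤ) ≤ -(a : ℤ) - 1 := by omega
      have h2 : (-(-(a : ℤ) - 1) - 1).toNat = a := by omega
      simp only [if_neg h1, h2]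
      exact ha
  · intro j i h
    unfold tpLab
    by_cases hj : 0 ≤ j
    · simp only [if_pos hj] at h ⊢
      rw [← hP3, s4_get_map, h]
      rfl
    · simp only [if_neg hj] at h ⊢
      rw [← hN3, s4_get_map, h]
      rfl
  · intro j h
    unfold tpLab
    by_cases hj : 0 ≤ j
    · simp only [if_pos hj] at h ⊢
      left
      rw [← hP3, s4_get_map, h]
      rfl
    · simp only [if_neg hj] at h ⊢
      right
      rw [← hN3, s4_get_map, h]
      rfl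

/-- **W1**: every finite real family has an injective labelling by `ℤ` compatible with `tpLab`, onto the finite labels -/
theorem g2w_lab {ι : Type} [Fintype ι] (f : ι → ℝ) :
    ∃ lab : ι → ℤ, Function.Injective lab ∧ (∀ i, tpLab (Finset.univ.val.map f) (lab i) = ((f i : ℝ) : EReal)) ∧
      ∀ j, tpLab (Finset.univ.val.map f) j ≠ ⊤ → tpLab (Finset.univ.val.map f) j ≠ ⊥ → j ∈ Set.range lab := by
  obtain ⟨idx, h1, h2, h3, h4⟩ := g2w_lab_opt f
  choose lab hlab using h2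
  refine ⟨lab, fun i i' h => ?_, fun i => h3 _ _ (hlab i), fun j ht hb => ?_⟩
  · have a := hlab i
    rw [h, hlab i'] at a
    exact (Option.some.inj a).symm
  · rcases hj : idx j with _ | i
    · rcases h4 j hj with h | h
      · exact absurd h ht
      · exact absurd h hb
    · exact ⟨i, h1 _ _ i (hlab i) hj⟩


/-! ## 2. the positions, their labels -/

/-- the positions: rescaled eigenvalues of `goeMatrix x`, in the order of Mathlib -/
noncomputable def g2wD (ρ : ℝ) {n : ℕ} (x : Fin n × Fin n → ℝ) : Fin n → ℝ :=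
  fun i => ((n : ℝ) / (Real.pi * ρ)) * (tp_goeMatrix_herm x).eigenvalues i

theorem g2w_spec (ρ : ℝ) {n : ℕ} (x : Fin n × Fin n → ℝ) :
    tpSpecW ((n : ℝ) / (Real.pi * ρ)) x = Finset.univ.val.map (g2wD ρ x) := by
  unfold tpSpecW g2wD
  rw [(tp_goeMatrix_herm x).roots_charpoly_eq_eigenvalues, Multiset.map_map]
  rfl

/-- the label of a position -/
noncomputable def g2wL (ρ : ℝ) {n : ℕ} (x : Fin n × Fin n → ℝ) : Fin n → ℤ := Classical.choose (g2w_lab (g2wD ρ x))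

theorem g2w_eqns_cite : True := by
  have := @g2wD.eq_1
  have := @g2wL.eq_1
  trivial

theorem g2w_L_inj (ρ : ℝ) {n : ℕ} (x : Fin n × Fin n → ℝ) : Function.Injective (g2wL ρ x) :=
  (Classical.choose_spec (g2w_lab (g2wD ρ x))).1

theorem g2w_L_val (ρ : ℝ) {n : ℕ} (x : Fin n × Fin n → ℝ) (i : Fin n) : gxY ρ x (g2wL ρ x i) = ((g2wD ρ x i : ℝ) : EReal) := by
  unfold gxY
  rw [g2w_spec]
  exact (Classical.choose_spec (g2w_lab (g2wD ρ x))).2.1 i

theorem g2w_L_surj (ρ : ℝ) {n : ℕ} (x : Fin n × Fin n → ℝ) {j : ℤ} (h1 : gxY ρ x j ≠ ⊤) (h2 : gxY ρ x j ≠ ⊥) :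
    ∃ i, g2wL ρ x i = j := by
  unfold gxY at h1 h2
  rw [g2w_spec] at h1 h2
  exact (Classical.choose_spec (g2w_lab (g2wD ρ x))).2.2 j h1 h2

theorem g2w_L_real (ρ : ℝ) {n : ℕ} (x : Fin n × Fin n → ℝ) (i : Fin n) : gxCf ρ x (g2wL ρ x i) = g2wD ρ x i := by
  unfold gxCf tpReal
  rw [g2w_L_val]
  rfl

/-- diagonalisation -/
theorem g2w_diag (ρ : ℝ) {n : ℕ} (x : Fin n × Fin n → ℝ) :
    ∃ O : Matrix (Fin n) (Fin n) ℝ, O * Oᵀ = 1 ∧ ((n : ℝ) / (Real.pi * ρ)) • goeMatrix x = O * Matrix.diagonal (g2wD ρ x) * Oᵀ := by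
  obtain ⟨O, hO, h⟩ := goe_diag_perm (tp_goeMatrix_herm x) (Equiv.refl _)
  refine ⟨O, hO, ?_⟩
  conv_lhs => rw [h]
  have e : Matrix.diagonal (g2wD ρ x) = ((n : ℝ) / (Real.pi * ρ)) • Matrix.diagonal (fun k => (tp_goeMatrix_herm x).eigenvalues ((Equiv.refl _) k)) := by
    ext i j
    by_cases hij : i = j
    · subst hij; simp [g2wD]
    · simp [hij]
  rw [e, Matrix.mul_smul, Matrix.smul_mul]

/-! ## 3. the two inner integrals -/

section fn
variable {b : ℕ} {z : Fin b → ℂ} {Φ : (Fin b → ℂ) → ℝ}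

/-- **W3a**: the full inner integral, in the eigenbasis -/
theorem g2w_full (hΦ : Continuous Φ) (ρ Δ : ℝ) {n : ℕ} (x : Fin n × Fin n → ℝ) :
    ∫ N, Φ (fun a => rTr (gxFull ρ Δ x N) (z a)) ∂(gArr (Fin n) (Fin n)) = g2T Φ z Δ (g2wD ρ x) 0 := by
  set F : Matrix (Fin n) (Fin n) ℝ → ℝ := fun M => Φ fun i => rTr M (z i) with hFdef
  have hFm : Measurable F := hΦ.measurable.comp (measurable_pi_lambda _ fun i => goe_rTr_measurable (z i))
  have hFs : Measurable fun M => F (goeSym M) := hFm.comp goe_sym_measurable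
  have hinv : ∀ U M : Matrix (Fin n) (Fin n) ℝ, U * Uᵀ = 1 → F (U * M * Uᵀ) = F M := fun U M hU => by
    simp only [hFdef, goe_rTr_conj U M hU]
  obtain ⟨O, hO, hx⟩ := g2w_diag ρ x
  have h1 := goe_int_diag O hO (g2wD ρ x) (Real.sqrt Δ) F hFs hinv
  rw [← hx] at h1
  have hm : Measurable fun W => Φ (g2Ob z Δ (g2wD ρ x) 0 W) :=
    hΦ.measurable.comp (g2_ob_measurable z Δ (g2wD ρ x) 0)
  unfold g2T
  rw [goe_raw_integral _ hm]
  refine Eq.trans h1.symm ?_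
  refine integral_congr_ae (Filter.Eventually.of_forall fun N => ?_)
  show Φ _ = Φ _
  congr 1
  funext a
  simp [g2Ob]

/-- **W1b**: the embedding of the window -/
theorem g2w_emb (ρ : ℝ) {n : ℕ} (x : Fin n × Fin n → ℝ) (K : ℕ) (h : ∀ w : Win K, gxY ρ x (wIdx w) ≠ ⊤ ∧ gxY ρ x (wIdx w) ≠ ⊥) :
    ∃ e : Win K → Fin n, Function.Injective e ∧ (∀ w, g2wL ρ x (e w) = wIdx w) ∧ g2wD ρ x ∘ e = cPos K (gxCf ρ x) ∧
      ∀ i, i ∈ Set.range e ↔ |g2wL ρ x i| ≤ K := by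
  choose e he using fun w => g2w_L_surj ρ x (h w).1 (h w).2
  refine ⟨e, fun w w' hw => ?_, he, ?_, fun i => ⟨?_, fun hi => ?_⟩⟩
  · have := (he w).symm.trans ((congrArg (g2wL ρ x) hw).trans (he w'))
    unfold wIdx at this
    exact Fin.ext (by omega)
  · funext w
    simp only [Function.comp, cPos]
    rw [← he w, g2w_L_real]
  · rintro ⟨w, rfl⟩
    rw [he w]
    unfold wIdx
    have := w.2
    rw [abs_le]
    constructor <;> omega
  · rw [abs_le] at hi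
    refine ⟨⟨(g2wL ρ x i + K).toNat, by omega⟩, g2w_L_inj ρ x ?_⟩
    rw [he]
    unfold wIdx
    simp only
    omega

/-- **W3b**: the cut inner integral -/
theorem g2w_cutT (hΦ : Continuous Φ) (ρ Δ : ℝ) {n : ℕ} (x : Fin n × Fin n → ℝ) (K : ℕ) {e : Win K → Fin n}
    (he : g2wD ρ x ∘ e = cPos K (gxCf ρ x)) :
    ∫ N, Φ (fun a => rTr (cutM K Δ (gxCf ρ x) N) (z a)) ∂(gArr (Win K) (Win K)) = g2T Φ z Δ (g2wD ρ x ∘ e) 0 := by
  rw [he]
  exact g2_T_cutM hΦ K Δ _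

end fn

/-- **W2t**: the tail of `g2_cut_det` is the principal value tail of `GfReg.pv` -/
theorem g2w_tail (ρ : ℝ) {n : ℕ} (x : Fin n × Fin n → ℝ) (K : ℕ) {e : Win K → Fin n} (hinj : Function.Injective e)
    (he : ∀ w, g2wL ρ x (e w) = wIdx w) (A₁ : ℝ) (q : ℕ) :
    ((g2sig (g2wD ρ x) (g2lv A₁ q (g2wD ρ x) e) 0 : ℝ) : ℂ) = ltS (gxY ρ x) 0 - ltSK K (gxY ρ x) 0 := by
  classical
  have h1 : ltS (gxY ρ x) 0 = ∑ i, ((g2wD ρ x i : ℝ) : ℂ)⁻¹ := by
    unfold gxY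
    rw [lt_S_lab, g2w_spec, Multiset.map_map]
    simp only [Function.comp, sub_zero]
    rfl
  have h2 : ltSK K (gxY ρ x) 0 = ∑ i, if i ∈ Set.range e then ((g2wD ρ x i : ℝ) : ℂ)⁻¹ else 0 := by
    unfold ltSK
    have a : ∀ w : Win K, ltW (gxY ρ x (wIdx w)) 0 = ((g2wD ρ x (e w) : ℝ) : ℂ)⁻¹ := by
      intro w
      rw [← he w, g2w_L_val]
      unfold ltW
      rw [if_neg (by simp)]
      simp
    simp only [a]
    rw [← Finset.sum_filter]
    have : (Finset.univ.filter fun i => i ∈ Set.range e) = Finset.univ.image e := by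
      ext i; simp
    rw [this, Finset.sum_image fun a _ b _ h => hinj h]
  rw [h1, h2, ← Finset.sum_sub_distrib]
  unfold g2sig
  push_cast
  refine Finset.sum_congr rfl fun i _ => ?_
  by_cases hi : i ∈ Set.range e
  · have : g2lv A₁ q (g2wD ρ x) e i = 0 := by unfold g2lv; rw [if_pos hi]
    rw [this, if_pos hi]
    simp
  · have : 0 < g2lv A₁ q (g2wD ρ x) e i := by unfold g2lv; rw [if_neg hi]; omega
    rw [if_pos this, if_neg hi]
    simp

/-! ## 4. `GfReg ⟹ G2Reg` -/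

theorem g2w_Y_mono (ρ : ℝ) {n : ℕ} (x : Fin n × Fin n → ℝ) : Monotone (gxY ρ x) := tp_lab_mono _

/-- choice of the dyadic scale -/
theorem g2w_scale {C : ℝ} (hC : 0 < C) (q₀ : ℕ) :
    ∃ K₀ : ℕ, ∀ K : ℕ, K₀ ≤ K → ∃ q, q₀ ≤ q ∧ C * K ≤ (2 : ℝ) ^ q ∧ (2 : ℝ) ^ q ≤ 2 * (C + 1) * K ∧
      C * (K : ℝ) ^ (-((1 : ℝ) / 8)) ≤ (g2x ^ 2) ^ (2 * q) := by
  obtain ⟨m1, hm1⟩ := exists_nat_ge ((2 : ℝ) ^ q₀ / C)
  obtain ⟨m2, hm2⟩ := exists_nat_ge (C ^ 16 * (2 * (C + 1)))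
  obtain ⟨m3, hm3⟩ := exists_nat_ge (2 / C)
  refine ⟨m1 + m2 + m3 + 1, fun K hK => ?_⟩
  have hKr : (m1 : ℝ) + m2 + m3 + 1 ≤ K := by exact_mod_cast hK
  have hK1 : (1 : ℝ) ≤ K := by
    have : (0 : ℝ) ≤ (m1 : ℝ) + m2 + m3 := by positivity
    linarith
  have hK0 : (0 : ℝ) < K := by linarith
  have hCK : 2 ≤ C * K := by
    have : 2 / C ≤ K := by
      have : (0 : ℝ) ≤ (m1 : ℝ) + m2 := by positivity
      linarith
    rwa [div_le_iff₀ hC, mul_comm] at this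
  have hq0K : (2 : ℝ) ^ q₀ ≤ C * K := by
    have : (2 : ℝ) ^ q₀ / C ≤ K := by
      have : (0 : ℝ) ≤ (m2 : ℝ) + m3 := by positivity
      linarith
    rwa [div_le_iff₀ hC, mul_comm] at this
  have hbig : C ^ 16 * (2 * (C + 1)) ≤ K := by
    have : (0 : ℝ) ≤ (m1 : ℝ) + m3 := by positivity
    linarith
  have hN : 1 < ⌈C * K⌉₊ := by
    have : (2 : ℝ) ≤ (⌈C * K⌉₊ : ℝ) := hCK.trans (Nat.le_ceil _)
    have : 2 ≤ ⌈C * K⌉₊ := by exact_mod_cast this
    omega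
  have hq1 : ((⌈C * K⌉₊ : ℕ) : ℝ) ≤ (2 : ℝ) ^ (Nat.clog 2 ⌈C * K⌉₊) := by
    exact_mod_cast Nat.le_pow_clog one_lt_two ⌈C * K⌉₊
  have hlow : C * K ≤ (2 : ℝ) ^ (Nat.clog 2 ⌈C * K⌉₊) := (Nat.le_ceil _).trans hq1
  have hq2 : (2 : ℝ) ^ (Nat.clog 2 ⌈C * K⌉₊) ≤ 2 * (C + 1) * K := by
    have h1 := Nat.pow_pred_clog_lt_self one_lt_two hN
    have hpos : 0 < Nat.clog 2 ⌈C * K⌉₊ := Nat.clog_pos one_lt_two (by omega)
    have h2 : (2 : ℝ) ^ (Nat.clog 2 ⌈C * K⌉₊) = 2 * (2 : ℝ) ^ (Nat.clog 2 ⌈C * K⌉₊).pred := by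
      rw [← pow_succ']
      congr 1
      exact (Nat.succ_pred_eq_of_pos hpos).symm
    have h3 : (2 : ℝ) ^ (Nat.clog 2 ⌈C * K⌉₊).pred ≤ (⌈C * K⌉₊ : ℝ) := by exact_mod_cast h1.le
    have h4 : (⌈C * K⌉₊ : ℝ) ≤ C * K + 1 := (Nat.ceil_lt_add_one (by positivity)).le
    rw [h2]
    nlinarith
  refine ⟨Nat.clog 2 ⌈C * K⌉₊, ?_, hlow, hq2, ?_⟩
  · exact (pow_le_pow_iff_right₀ (one_lt_two : (1 : ℝ) < 2)).1 (hq0K.trans hlow)
  · obtain ⟨hx0, hx1, hx2⟩ := g2_x_facts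
    set q := Nat.clog 2 ⌈C * K⌉₊ with hq
    refine le_of_pow_le_pow_left₀ (n := 16) (by norm_num) (by positivity) ?_
    have e1 : ((g2x ^ 2) ^ (2 * q)) ^ 16 = ((2 : ℝ) ^ q)⁻¹ := by
      rw [← hx2 q, inv_pow, inv_pow, inv_inv, ← pow_mul, ← pow_mul, ← pow_mul]
      congr 1
      ring
    have e2 : (C * (K : ℝ) ^ (-((1 : ℝ) / 8))) ^ 16 = C ^ 16 * ((K : ℝ) ^ 2)⁻¹ := by
      rw [mul_pow, ← Real.rpow_natCast ((K : ℝ) ^ (-((1 : ℝ) / 8))) 16, ← Real.rpow_mul hK0.le]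
      have : -((1 : ℝ) / 8) * ((16 : ℕ) : ℝ) = -((2 : ℕ) : ℝ) := by norm_num
      rw [this, Real.rpow_neg hK0.le, Real.rpow_natCast]
    rw [e1, e2]
    have h2q : (0 : ℝ) < 2 ^ q := by positivity
    rw [← div_eq_mul_inv, div_le_iff₀ (by positivity), inv_mul_eq_div, le_div_iff₀ h2q]
    have hC16 : 0 ≤ C ^ 16 := by positivity
    calc C ^ 16 * 2 ^ q ≤ C ^ 16 * (2 * (C + 1) * K) := mul_le_mul_of_nonneg_left hq2 hC16
      _ = (C ^ 16 * (2 * (C + 1))) * K := by ring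
      _ ≤ K * K := mul_le_mul_of_nonneg_right hbig hK0.le
      _ = (K : ℝ) ^ 2 := by ring

/-- **W2** -/
theorem g2w_reg {c C : ℝ} (hc : 0 < c) (hC : 0 < C) (J₀ q₀ : ℕ) :
    ∃ K₀ : ℕ, ∀ K, K₀ ≤ K → ∃ q, q₀ ≤ q ∧ ∀ (ρ : ℝ) (n : ℕ) (x : Fin n × Fin n → ℝ), 1000 * (K + 1) ≤ n → GfReg c C J₀ n (gxY ρ x) →
      ∀ e : Win K → Fin n, (∀ i, i ∈ Set.range e ↔ |g2wL ρ x i| ≤ K) →
        G2Reg (3 / c) (c * (J₀ + 1)) (1 + 2 * (C + 1) / c) q (g2wD ρ x) e ∧ C * (K : ℝ) ^ (-((1 : ℝ) / 8)) ≤ (g2x ^ 2) ^ (2 * q) := by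
  obtain ⟨K₀, hK₀⟩ := g2w_scale hC q₀
  refine ⟨K₀ + J₀, fun K hK => ?_⟩
  obtain ⟨q, hq, hlow, hup, htail⟩ := hK₀ K (by omega)
  have hKJ : J₀ ≤ K := by omega
  refine ⟨q, hq, fun ρ n x hn hx e he => ⟨⟨fun u hu => ?_, fun w => ?_, fun j hj => ?_⟩, htail⟩⟩
  · classical
    have huc : (J₀ + 1 : ℝ) ≤ u / c := by
      rw [le_div_iff₀ hc]; linarith
    have hsub : (Finset.univ.filter fun j => |g2wD ρ x j| ≤ u).card ≤ (Finset.Icc (-⌊u / c⌋) ⌊u / c⌋).card := by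
      refine Finset.card_le_card_of_injOn (g2wL ρ x) ?_ (g2w_L_inj ρ x).injOn
      intro i hi
      have hi' : |g2wD ρ x i| ≤ u := by simpa using hi
      have : |g2wL ρ x i| ≤ ⌊u / c⌋ := by
        rw [Int.le_floor]
        by_cases h : (J₀ : ℤ) ≤ |g2wL ρ x i|
        · have h1 := hx.lo (g2wL ρ x i) h (by rw [g2w_L_val]; exact EReal.coe_ne_top _) (by rw [g2w_L_val]; exact EReal.coe_ne_bot _)
          rw [g2w_L_val, EReal.toReal_coe] at h1
          rw [le_div_iff₀ hc]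
          push_cast
          linarith
        · have h1 : |g2wL ρ x i| ≤ (J₀ : ℤ) := by omega
          have h2 : ((|g2wL ρ x i| : ℤ) : ℝ) ≤ (J₀ : ℝ) := by exact_mod_cast h1
          linarith
      rw [abs_le] at this
      simpa using this
    rw [Int.card_Icc] at hsub
    have hfl : (0 : ℤ) ≤ ⌊u / c⌋ := Int.floor_nonneg.2 (by linarith [Nat.cast_nonneg (α := ℝ) J₀])
    have h1 : (((⌊u / c⌋ + 1 - -⌊u / c⌋).toNat : ℕ) : ℝ) = 2 * (⌊u / c⌋ : ℝ) + 1 := by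
      have : (((⌊u / c⌋ + 1 - -⌊u / c⌋).toNat : ℕ) : ℤ) = 2 * ⌊u / c⌋ + 1 := by omega
      exact_mod_cast this
    have h2 : ((Finset.univ.filter fun j => |g2wD ρ x j| ≤ u).card : ℝ) ≤ 2 * (⌊u / c⌋ : ℝ) + 1 := by
      rw [← h1]; exact_mod_cast hsub
    have h3 : (⌊u / c⌋ : ℝ) ≤ u / c := Int.floor_le _
    have h4 : 3 / c * u = 3 * (u / c) := by ring
    rw [h4]
    have : (0 : ℝ) ≤ J₀ := Nat.cast_nonneg _
    linarith
  · have hw : |g2wL ρ x (e w)| ≤ K := (he _).1 ⟨w, rfl⟩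
    rw [abs_le] at hw
    have hn' : (1000 * (K + 1) : ℤ) ≤ n := by exact_mod_cast hn
    have aK : |(K : ℤ)| = K := abs_of_nonneg (by positivity)
    have aK' : |(-(K : ℤ))| = K := by rw [abs_neg, aK]
    have hJ' : (J₀ : ℤ) ≤ K := by exact_mod_cast hKJ
    have f1 := hx.ex (K : ℤ) (by rw [aK]; linarith)
    have f2 := hx.ex (-(K : ℤ)) (by rw [aK']; linarith)
    have b1 := hx.hi (K : ℤ) (by rw [aK]; exact hJ') (by rw [aK]; linarith)
    have b2 := hx.hi (-(K : ℤ)) (by rw [aK']; exact hJ') (by rw [aK']; linarith)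
    have m1 := g2w_Y_mono ρ x hw.2
    have m2 := g2w_Y_mono ρ x hw.1
    rw [g2w_L_val, ← EReal.coe_toReal f1.1 f1.2, EReal.coe_le_coe_iff] at m1
    rw [g2w_L_val, ← EReal.coe_toReal f2.1 f2.2, EReal.coe_le_coe_iff] at m2
    have c1 : |((K : ℤ) : ℝ)| = K := by simp
    have c2 : |((-(K : ℤ) : ℤ) : ℝ)| = K := by simp
    rw [c1] at b1
    rw [c2] at b2
    rw [abs_le] at b1 b2 ⊢
    constructor <;> linarith [b1.1, b1.2, b2.1, b2.2]
  · have hj' : (K : ℤ) + 1 ≤ |g2wL ρ x j| := by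
      have := (not_congr (he j)).1 hj
      omega
    have h1 := hx.lo (g2wL ρ x j) (by omega) (by rw [g2w_L_val]; exact EReal.coe_ne_top _) (by rw [g2w_L_val]; exact EReal.coe_ne_bot _)
    rw [g2w_L_val, EReal.toReal_coe] at h1
    have h2 : ((K : ℝ) + 1) ≤ |(g2wL ρ x j : ℝ)| := by exact_mod_cast hj'
    have hA : 0 < 1 + 2 * (C + 1) / c := by positivity
    rw [div_le_iff₀ hA]
    have h3 : c * ((K : ℝ) + 1) ≤ |g2wD ρ x j| := (mul_le_mul_of_nonneg_left h2 hc.le).trans h1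
    have h4 : c * ((K : ℝ) + 1) * (1 + 2 * (C + 1) / c) ≤ |g2wD ρ x j| * (1 + 2 * (C + 1) / c) := mul_le_mul_of_nonneg_right h3 hA.le
    have h5 : c * ((K : ℝ) + 1) * (1 + 2 * (C + 1) / c) = c * (K + 1) + 2 * (C + 1) * (K + 1) := by field_simp
    have hK0 : (0 : ℝ) ≤ K := Nat.cast_nonneg _
    nlinarith

/-! ## 5. the integral over `x` -/

section fn
variable {b : ℕ} {z : Fin b → ℂ} {Φ : (Fin b → ℂ) → ℝ}

theorem g2w_full_meas (hΦ : Continuous Φ) (ρ Δ : ℝ) (n : ℕ) :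
    Measurable fun x : Fin n × Fin n → ℝ => ∫ N, Φ (fun a => rTr (gxFull ρ Δ x N) (z a)) ∂(gArr (Fin n) (Fin n)) := by
  have hj : Measurable fun p : (Fin n × Fin n → ℝ) × Matrix (Fin n) (Fin n) ℝ => Φ (fun a => rTr (gxFull ρ Δ p.1 p.2) (z a)) := by
    refine hΦ.measurable.comp (measurable_pi_lambda _ fun a => (goe_rTr_measurable (z a)).comp ?_)
    unfold gxFull
    exact goe_add_measurable ((goe_smul_measurable _).comp (goe_matrix_measurable.comp measurable_fst))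
      ((goe_smul_measurable _).comp (goe_of_measurable.comp measurable_snd))
  exact (hj.stronglyMeasurable.integral_prod_right' (ν := gArr (Fin n) (Fin n))).measurable

theorem g2w_cut_meas (hΦ : Continuous Φ) (ρ Δ : ℝ) (n K : ℕ) :
    Measurable fun x : Fin n × Fin n → ℝ => ∫ N, Φ (fun a => rTr (cutM K Δ (gxCf ρ x) N) (z a)) ∂(gArr (Win K) (Win K)) := by
  have hj : Measurable fun p : (Fin n × Fin n → ℝ) × Matrix (Win K) (Win K) ℝ => Φ (fun a => rTr (cutM K Δ (gxCf ρ p.1) p.2) (z a)) := by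
    refine hΦ.measurable.comp (measurable_pi_lambda _ fun a => (goe_rTr_measurable (z a)).comp ?_)
    unfold cutM
    refine goe_add_measurable ?_ ((goe_smul_measurable _).comp (goe_of_measurable.comp measurable_snd))
    refine goe_measurable_of_entries fun i j => ?_
    by_cases hij : i = j
    · subst hij
      simp only [Matrix.diagonal_apply_eq, cPos, gxCf, tpReal]
      exact (((measurable_pi_apply (wIdx i)).comp (gx_Y_measurable ρ n)).comp measurable_fst).ereal_toReal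
    · simp only [Matrix.diagonal_apply_ne _ hij]
      exact measurable_const
  exact (hj.stronglyMeasurable.integral_prod_right' (ν := gArr (Win K) (Win K))).measurable

theorem g2w_int_le {X : Type} [MeasurableSpace X] (μ : Measure X) [IsProbabilityMeasure μ] {B : ℝ} (f : X → ℝ) (hB : ∀ x, |f x| ≤ B) :
    |∫ x, f x ∂μ| ≤ B := by
  have := norm_integral_le_of_norm_le_const (μ := μ) (f := f) (C := B) (Filter.Eventually.of_forall fun x => by simpa using hB x)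
  simpa using this

end fn

/-- **BLOCK G2, exit** (text of `gx_cut`) -/
theorem g2w_cut (ρ : ℝ) (hρ : 0 < ρ) (Δ : ℝ) (hΔ : 0 < Δ) {b : ℕ} (z : Fin b → ℂ) (hz : ∀ a, 0 < (z a).im) (Φ : (Fin b → ℂ) → ℝ) (hb : ∃ B : ℝ, ∀ v, |Φ v| ≤ B) (hl : ∃ Lc : NNReal, LipschitzWith Lc Φ)
    (ε : ℝ) (hε : 0 < ε) : ∃ K₀ : ℕ, ∀ K, K₀ ≤ K → ∀ᶠ n : ℕ in atTop,
      |(∫ x, ∫ N, Φ (fun a => rTr (gxFull ρ Δ x N) (z a)) ∂(gArr (Fin n) (Fin n)) ∂(goeArray n))
        - ∫ x, ∫ N, Φ (fun a => rTr (cutM K Δ (gxCf ρ x) N) (z a)) ∂(gArr (Win K) (Win K)) ∂(goeArray n)| ≤ ε := by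
  obtain ⟨B, hB⟩ := hb
  obtain ⟨Lc, hL⟩ := hl
  have hΦ : Continuous Φ := hL.continuous
  have hB0 : 0 ≤ B := (abs_nonneg _).trans (hB 0)
  obtain ⟨c, C, hc, hC, hmain⟩ := gf_main ρ hρ
  have hδ : 0 < ε / (4 * (B + 1)) := by positivity
  obtain ⟨J₀, hJ⟩ := hmain _ hδ
  obtain ⟨hx0, hx1, -⟩ := g2_x_facts
  obtain ⟨q₀, hq₀⟩ := g2_cut_det (z := z) hz hB hL hΔ (3 / c) (c * (J₀ + 1)) (1 + 2 * (C + 1) / c) (by positivity)
    (le_add_of_nonneg_right (by positivity)) (y := g2x ^ 2) (by positivity) (pow_lt_one₀ hx0.le hx1 two_ne_zero) (half_pos hε)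
  obtain ⟨K₀, hK₀⟩ := g2w_reg hc hC J₀ q₀
  refine ⟨max K₀ J₀, fun K hK => ?_⟩
  obtain ⟨q, hq, hreg⟩ := hK₀ K (le_trans (le_max_left _ _) hK)
  have hKJ : J₀ ≤ K := le_trans (le_max_right _ _) hK
  filter_upwards [hJ, eventually_ge_atTop (1000 * (K + 1))] with n hn1 hn2
  have key := g2_int_split (μ := goeArray n) (g2w_full_meas (z := z) hΦ ρ Δ n) (g2w_cut_meas (z := z) hΦ ρ Δ n K) (B := B)
    (fun x => g2w_int_le _ _ fun N => hB _) (fun x => g2w_int_le _ _ fun N => hB _) (S := {x | GfReg c C J₀ n (gxY ρ x)})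
    (ε := ε / 2) (δ := ε / (4 * (B + 1))) (half_pos hε).le hδ.le hn1 (fun x hx => ?_)
  · refine key.trans ?_
    have : 2 * B * (ε / (4 * (B + 1))) ≤ ε / 2 := by
      rw [show 2 * B * (ε / (4 * (B + 1))) = (ε / 2) * (B / (B + 1)) by field_simp; ring]
      exact mul_le_of_le_one_right (half_pos hε).le ((div_le_one (by positivity)).2 (by linarith))
    linarith
  · have hx' : GfReg c C J₀ n (gxY ρ x) := hx
    obtain ⟨e, hinj, he1, he2, he3⟩ := g2w_emb ρ x K (fun w => hx'.ex _ (by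
      have := w.2
      have h1 : |wIdx w| ≤ K := by
        unfold wIdx
        rw [abs_le]
        constructor <;> omega
      have h2 : (1000 * (K + 1) : ℤ) ≤ n := by exact_mod_cast hn2
      linarith))
    obtain ⟨hR, ht⟩ := hreg ρ n x hn2 hx' e he3
    rw [g2w_full hΦ, g2w_cutT hΦ ρ Δ x K he2]
    refine hq₀ q hq _ _ _ e hinj hR (le_trans ?_ ht)
    have h3 := hx'.pv K hKJ (by omega)
    rw [← g2w_tail ρ x K hinj he1 (1 + 2 * (C + 1) / c) q] at h3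
    simpa using h3

end Claimed.Agent.R287
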