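-- KEEP
import Claimed.Agent.R287.LimTr

/-!
# Row 287 (S0534): RIGIDITY OF THE LABELS AT FINITE `n` AND THE EXIT OF THE ABSTRACT LAYER      (helper250, prefix `lr_`; `lt_rigid_n`, `lt_pos`, `lt_main`)

Continuation of `LimTr.lean`.   The contour kit of helper186 (`Ct.lean`, 0 sorry) is applied to ONE finite labelled configuration `y ∈ ltFin`:
* E1 `lr_sys`: monotone real extension `x` of `y` (values `±T` beyond the range, `T` larger than everything), `CtSys x (fun _ => support) (ltS y)`;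
* E2 `lr_gap`: `ct_gap_win` in terms of `y` (the labels `|j| ≤ J` are finite points, gap form);
* E3 `lr_rigid_det`: parameters for the label `±m`: `B = ⌈2m/ρ⌉`, `m₀ = √m + 1`, `U0 = ⌊m₀^{1-ξ}⌋`, `U1 = B + m`; gap `(0, m)`, `(-m, m)` and `(-1, m₀)` (the last one bounds `0 ≤ y_0 ≤ c √m`): `|y_{±m} ∓ m/ρ| ≤ C₀ m^{1-χ}`, `χ = min ξ (1/2)`;
* E4 `lr_grid_prob`: union bound over the integer grid.
-/

set_option autoImplicit false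

namespace Claimed.Agent.R287

open MeasureTheory ProbabilityTheory Filter Topology
open scoped ENNReal

/-! ## 1. one finite configuration and the contour kit -/

/-- E1: the monotone real extension of a finite labelled configuration -/
theorem lr_sys {y : TpCf} (hy : y ∈ ltFin) (B : ℝ) :
    ∃ (x : ℤ → ℝ) (s : Finset ℤ), Monotone x ∧ x (-1) ≤ 0 ∧ 0 ≤ x 0 ∧ CtSys x (fun _ => s) (ltS y) ∧
      (∀ j, j ∈ s ↔ (y j ≠ ⊤ ∧ y j ≠ ⊥)) ∧ (∀ j ∈ s, x j = (y j).toReal) ∧ ∀ j, j ∉ s → B < |x j| := by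
  classical
  obtain ⟨hm, hlab, J, hJ⟩ := hy
  set s : Finset ℤ := (Finset.Icc (-(J:ℤ)) J).filter (fun j => y j ≠ ⊤ ∧ y j ≠ ⊥) with hs
  set T : ℝ := 1 + |B| + ∑ j ∈ s, |(y j).toReal| with hT
  set x : ℤ → ℝ := fun j => if y j = ⊤ then T else if y j = ⊥ then -T else (y j).toReal with hx
  have hmem : ∀ j, j ∈ s ↔ (y j ≠ ⊤ ∧ y j ≠ ⊥) := by
    intro j
    rw [hs, Finset.mem_filter, Finset.mem_Icc]
    constructor
    · exact fun h => h.2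
    · intro h
      refine ⟨?_, h⟩
      by_contra hc
      have h1 : (J:ℤ) ≤ |j| := by
        by_contra h2
        rw [not_le] at h2
        rw [abs_lt] at h2
        exact hc ⟨by linarith [h2.1], by linarith [h2.2]⟩
      rcases hJ j h1 with h3 | h3
      · exact h.1 h3
      · exact h.2 h3
  have hsum0 : 0 ≤ ∑ j ∈ s, |(y j).toReal| := Finset.sum_nonneg fun _ _ => abs_nonneg _
  have hT0 : 0 < T := by have := abs_nonneg B; linarith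
  have hle : ∀ j ∈ s, |(y j).toReal| ≤ T - 1 := by
    intro j hj
    have := Finset.single_le_sum (f := fun j => |(y j).toReal|) (fun _ _ => abs_nonneg _) hj
    have h2 := abs_nonneg B
    linarith
  have hxs : ∀ j ∈ s, x j = (y j).toReal := by
    intro j hj
    have := (hmem j).1 hj
    simp only [hx, if_neg this.1, if_neg this.2]
  have hxT : ∀ j, |x j| ≤ T := by
    intro j
    by_cases h1 : y j = ⊤
    · simp only [hx, if_pos h1, abs_of_pos hT0, le_refl]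
    · by_cases h2 : y j = ⊥
      · simp only [hx, if_neg h1, if_pos h2, abs_neg, abs_of_pos hT0, le_refl]
      · have := hle j ((hmem j).2 ⟨h1, h2⟩)
        simp only [hx, if_neg h1, if_neg h2]
        linarith
  refine ⟨x, s, ?_, ?_, ?_, ⟨monotone_const, fun z _ => ?_⟩, hmem, hxs, ?_⟩
  · intro i j hij
    have h := hm hij
    by_cases h1 : y j = ⊤
    · have : x j = T := by simp only [hx, if_pos h1]
      rw [this]; exact (le_abs_self _).trans (hxT i)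
    · by_cases h2 : y i = ⊥
      · have h3 : y i ≠ ⊤ := by rw [h2]; exact bot_ne_top
        have : x i = -T := by simp only [hx, if_neg h3, if_pos h2]
        rw [this]; exact (abs_le.1 (hxT j)).1
      · have h3 : y i ≠ ⊤ := fun h4 => h1 (top_le_iff.1 (h4 ▸ h))
        have h4 : y j ≠ ⊥ := fun h5 => h2 (le_bot_iff.1 (h5 ▸ h))
        rw [hxs i ((hmem i).2 ⟨h3, h2⟩), hxs j ((hmem j).2 ⟨h1, h4⟩)]
        exact EReal.toReal_le_toReal h h2 h1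
  · have h := hlab.1
    by_cases h2 : y (-1) = ⊥
    · have h3 : y (-1) ≠ ⊤ := by rw [h2]; exact bot_ne_top
      have : x (-1) = -T := by simp only [hx, if_neg h3, if_pos h2]
      rw [this]; linarith
    · have h3 : y (-1) ≠ ⊤ := fun h4 => by rw [h4] at h; exact absurd h (not_le.2 (EReal.coe_lt_top 0))
      rw [hxs _ ((hmem _).2 ⟨h3, h2⟩)]
      exact EReal.toReal_nonpos h
  · have h := hlab.2
    by_cases h1 : y 0 = ⊤
    · have : x 0 = T := by simp only [hx, if_pos h1]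
      rw [this]; exact hT0.le
    · have h3 : y 0 ≠ ⊥ := fun h4 => by rw [h4] at h; exact absurd h (not_le.2 (EReal.bot_lt_coe 0))
      rw [hxs _ ((hmem _).2 ⟨h1, h3⟩)]
      exact EReal.toReal_nonneg h
  · have e : ctS x s z = ltS y z := by
      rw [lt_S_fin hJ z le_rfl]
      unfold ltSK ctS
      rw [k9_sum_win J (fun j => ltW (y j) z), hs, Finset.sum_filter]
      refine Finset.sum_congr rfl fun j _ => ?_
      unfold ltW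
      by_cases h1 : y j = ⊤
      · simp [h1]
      · by_cases h2 : y j = ⊥
        · simp [h2]
        · simp [h1, h2, hx]
    simp only [e]
    exact tendsto_const_nhds
  · intro j hj
    have h1 : ¬ (y j ≠ ⊤ ∧ y j ≠ ⊥) := fun h => hj ((hmem j).2 h)
    have h2 : |x j| = T := by
      by_cases h3 : y j = ⊤
      · simp only [hx, if_pos h3, abs_of_pos hT0]
      · have h4 : y j = ⊥ := by by_contra h5; exact h1 ⟨h3, h5⟩
        simp only [hx, if_neg h3, if_pos h4, abs_neg, abs_of_pos hT0]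
    rw [h2]
    have := le_abs_self B
    linarith

/-- E2: `ct_gap_win` for a finite labelled configuration -/
theorem lr_gap {y : TpCf} (hy : y ∈ ltFin) {w : ℂ} {C ξ B U0 U1 : ℝ} (hp : 0 < w.im) (hC : 0 ≤ C) (hξ0 : 0 < ξ) (hξ1 : ξ < 1)
    (hU0 : 0 < U0) (hUB : U0 ≤ B) (hBU : B ≤ U1) (box : CtBox (ltS y) w C ξ (-B) B U0 U1) {J : ℕ}
    (hJ : Real.pi * J < w.im * B - ctErr C ξ w.im B U0 B) :
    (∀ j : ℤ, -(J : ℤ) ≤ j → j ≤ J → y j ≠ ⊤ ∧ y j ≠ ⊥) ∧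
    ∀ (j0 : ℤ) (m : ℕ), -(J : ℤ) ≤ j0 → j0 + m ≤ J → U0 ≤ (m : ℝ) ^ (1 - ξ) → (m : ℝ) ≤ U1 → C * (m : ℝ) ^ (-ξ) ≤ w.im / 2 →
      |w.im * ((y (j0 + m)).toReal - (y j0).toReal) - Real.pi * m| ≤ ctGapC C ξ w.im * (m : ℝ) ^ (1 - ξ) := by
  obtain ⟨x, s, hx, hl1, hl0, hsys, hmem, hxs, hout⟩ := lr_sys hy B
  have hB0 : 0 < B := lt_of_lt_of_le hU0 hUB
  have r1 : CtRect (ltS y) w C ξ 0 B U0 B := box.rect hC hξ0 hξ1 (by linarith) hB0.le le_rfl hU0 le_rfl hUB hBU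
  have r2 : CtRect (ltS y) w C ξ (-B) 0 U0 B := box.rect hC hξ0 hξ1 le_rfl (by linarith) hB0.le hU0 le_rfl hUB hBU
  have p1 := ct_pos_right hx hsys hl1 r1 hJ
  have p2 := ct_pos_left hx hsys hl0 r2 hJ
  have hin : ∀ j : ℤ, -(J:ℤ) ≤ j → j ≤ J → j ∈ s := by
    intro j h1 h2
    by_contra hc
    have h3 := hout j hc
    have h4 : x j < B := lt_of_le_of_lt (hx h2) p1
    have h5 : -B < x j := lt_of_lt_of_le p2 (hx h1)
    exact absurd (abs_lt.2 ⟨h5, h4⟩) (not_lt.2 h3.le)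
  have hs : ∃ K : ℕ, Finset.Icc (-(J:ℤ)) J ⊆ (fun _ : ℕ => s) K :=
    ⟨0, fun j hj => by rw [Finset.mem_Icc] at hj; exact hin j hj.1 hj.2⟩
  have g := ct_gap_win hx hsys ⟨hl1, hl0⟩ hp hC hξ0 hξ1 hU0 hUB hBU box hs hJ
  refine ⟨fun j h1 h2 => (hmem j).1 (hin j h1 h2), fun j0 m h1 h2 h3 h4 h5 => ?_⟩
  have := g.2 j0 m h1 h2 h3 h4 h5
  rwa [hxs _ (hin _ (by omega) h2), hxs _ (hin _ h1 (by omega))] at this

/-- integer grid ⟹ box, for a finite labelled configuration -/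
theorem lr_box {y : TpCf} (hy : y ∈ ltFin) {w : ℂ} {C ξ : ℝ} (hw : 0 ≤ w.im) (hC : 0 ≤ C) (hξ0 : 0 ≤ ξ) (hξ1 : ξ ≤ 1)
    {A B : ℤ} {U0 U1 : ℕ} (hU0 : 1 ≤ U0) (g : CtGrid (ltS y) w C ξ A B U0 U1) : CtBox (ltS y) w (7 * C + 6 * w.im) ξ A B U0 U1 := by
  obtain ⟨x, s, -, -, -, h, -⟩ := lr_sys hy 0
  exact ct_box_of_grid h hw hC hξ0 hξ1 hU0 g

/-! ## 2. the parameters of the label `±m` -/

/-- half width of the box -/
noncomputable def lrB (ρ : ℝ) (m : ℕ) : ℕ := ⌈2 * (m : ℝ) / ρ⌉₊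
/-- the short gap -/
def lrM (m : ℕ) : ℕ := Nat.sqrt m + 1
/-- lowest height -/
noncomputable def lrU (ξ : ℝ) (m : ℕ) : ℕ := ⌊((lrM m : ℕ) : ℝ) ^ (1 - ξ)⌋₊
/-- the grid event of the label `±m` -/
def LrGrid (ρ ξ mr : ℝ) (m : ℕ) (y : TpCf) : Prop :=
  CtGrid (ltS y) (ltT ρ mr) 1 ξ (-(lrB ρ m : ℤ)) (lrB ρ m) (lrU ξ m) (lrB ρ m + m)

theorem lr_eqns_cite : True := by
  have := @lrB.eq_1
  have := @lrM.eq_1
  have := @lrU.eq_1
  have := @LrGrid.eq_1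
  trivial

theorem lr_ev (A a δ : ℝ) (ha : a < 1) (hδ : 0 < δ) : ∀ᶠ t : ℝ in atTop, A * t ^ a ≤ δ * t := by
  have h1 : Tendsto (fun t : ℝ => A * t ^ (-(1 - a))) atTop (𝓝 (A * 0)) := (tendsto_rpow_neg_atTop (by linarith)).const_mul A
  rw [mul_zero] at h1
  filter_upwards [h1.eventually (eventually_le_nhds hδ), eventually_gt_atTop 0] with t ht ht0
  have e : t ^ a = t ^ (-(1 - a)) * t := by
    rw [← Real.rpow_add_one ht0.ne']; congr 1; ring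
  rw [e, ← mul_assoc]
  exact mul_le_mul_of_nonneg_right ht ht0.le

theorem lr_ev0 (A a δ : ℝ) (ha : 0 < a) (hδ : 0 < δ) : ∀ᶠ t : ℝ in atTop, A * t ^ (-a) ≤ δ := by
  have h1 : Tendsto (fun t : ℝ => A * t ^ (-a)) atTop (𝓝 (A * 0)) := (tendsto_rpow_neg_atTop ha).const_mul A
  rw [mul_zero] at h1
  exact h1.eventually (eventually_le_nhds hδ)

/-- E3a (arithmetic of the parameters, `m` large): everything `lr_gap` asks for.   `C = 7 + 6πρ`, `p = πρ`. -/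
theorem lr_param {ρ ξ : ℝ} (hρ : 0 < ρ) (hξ0 : 0 < ξ) (hξ1 : ξ < 1) (C u₀ : ℝ) (hC : 0 ≤ C) : ∃ J₁ : ℕ, 4 ≤ J₁ ∧ ∀ m : ℕ, J₁ ≤ m →
    1 ≤ lrU ξ m ∧ u₀ ≤ (lrU ξ m : ℝ) ∧ (lrU ξ m : ℝ) ≤ (lrB ρ m : ℝ) ∧ lrM m ≤ m ∧ ((lrM m : ℕ) : ℝ) ≤ 2 * Real.sqrt m ∧
    (m : ℝ) ^ ((1 - ξ) / 2) / 2 ≤ (lrU ξ m : ℝ) ∧ (lrB ρ m : ℝ) ≤ (2 / ρ + 1) * m ∧
    Real.pi * m < Real.pi * ρ * (lrB ρ m : ℝ) - ctErr C ξ (Real.pi * ρ) (lrB ρ m) (lrU ξ m) (lrB ρ m) ∧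
    C * (m : ℝ) ^ (-ξ) ≤ Real.pi * ρ / 2 ∧ C * ((lrM m : ℕ) : ℝ) ^ (-ξ) ≤ Real.pi * ρ / 2 := by
  have hpi := Real.pi_pos
  set p : ℝ := Real.pi * ρ with hp
  have hp0 : 0 < p := by positivity
  have hx1 : 0 < 1 - ξ := by linarith
  set c : ℝ := 2 / ρ + 1 with hc
  have hc0 : 0 < c := by positivity
  set K₁ : ℝ := C * (1 + (2 / (1 - ξ) + 2 * Real.pi)) with hK
  have hK0 : 0 ≤ K₁ := by positivity
  have ev : ∀ᶠ t : ℝ in atTop, 4 ≤ t ∧ ρ ^ 2 ≤ t ∧ 2 ≤ t ^ ((1 - ξ) / 2) ∧ 2 * u₀ ≤ t ^ ((1 - ξ) / 2) ∧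
      K₁ * c ^ (1 - ξ) * t ^ (1 - ξ) ≤ Real.pi / 4 * t ∧ 4 * Real.pi * p * t ^ (1 / 2 : ℝ) ≤ Real.pi / 4 * t ∧
      C * t ^ (-ξ) ≤ p / 2 ∧ C * t ^ (-(ξ / 2)) ≤ p / 2 := by
    have t1 : Tendsto (fun t : ℝ => t ^ ((1 - ξ) / 2)) atTop atTop := tendsto_rpow_atTop (by linarith)
    filter_upwards [eventually_ge_atTop 4, eventually_ge_atTop (ρ ^ 2), t1.eventually_ge_atTop 2, t1.eventually_ge_atTop (2 * u₀),
      lr_ev (K₁ * c ^ (1 - ξ)) (1 - ξ) (Real.pi / 4) (by linarith) (by positivity),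
      lr_ev (4 * Real.pi * p) (1 / 2) (Real.pi / 4) (by norm_num) (by positivity),
      lr_ev0 C ξ (p / 2) hξ0 (by positivity), lr_ev0 C (ξ / 2) (p / 2) (by positivity) (by positivity)] with t h1 h2 h3 h4 h5 h6 h7 h8
    exact ⟨h1, h2, h3, h4, h5, h6, h7, h8⟩
  obtain ⟨J, hJ⟩ := eventually_atTop.1 (tendsto_natCast_atTop_atTop.eventually ev)
  refine ⟨max J 4, le_max_right _ _, fun m hm => ?_⟩
  obtain ⟨h1, h2, h3, h4, h5, h6, h7, h8⟩ := hJ m (le_trans (le_max_left _ _) hm)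
  set t : ℝ := (m : ℝ) with ht
  have ht0 : 0 < t := by linarith
  set s : ℝ := Real.sqrt t with hs
  have hss : s * s = t := Real.mul_self_sqrt ht0.le
  have hs2 : 2 ≤ s := by
    rw [hs]; apply Real.le_sqrt_of_sq_le; linarith
  -- M
  have hMlo : s ≤ ((lrM m : ℕ) : ℝ) := by
    have h := Nat.lt_succ_sqrt' m
    have h' : t < ((lrM m : ℕ) : ℝ) ^ 2 := by
      have : m < (lrM m) ^ 2 := by unfold lrM; exact h
      rw [ht]; exact_mod_cast this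
    rw [hs]
    exact (Real.sqrt_le_left (by positivity)).2 h'.le
  have hMhi : ((lrM m : ℕ) : ℝ) ≤ s + 1 := by
    unfold lrM
    push_cast
    have := Real.nat_sqrt_le_real_sqrt (a := m)
    linarith
  have hM2 : ((lrM m : ℕ) : ℝ) ≤ 2 * s := by linarith
  have hMt : ((lrM m : ℕ) : ℝ) ≤ t := by nlinarith
  have hM1 : (1 : ℝ) ≤ ((lrM m : ℕ) : ℝ) := by linarith
  -- r
  have hr : t ^ ((1 - ξ) / 2) ≤ ((lrM m : ℕ) : ℝ) ^ (1 - ξ) := by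
    have e : t ^ ((1 - ξ) / 2) = s ^ (1 - ξ) := by
      rw [hs, Real.sqrt_eq_rpow, ← Real.rpow_mul ht0.le]; congr 1; ring
    rw [e]
    exact Real.rpow_le_rpow (by linarith) hMlo hx1.le
  have hUlo : ((lrM m : ℕ) : ℝ) ^ (1 - ξ) - 1 < (lrU ξ m : ℝ) := by
    have := Nat.lt_floor_add_one (((lrM m : ℕ) : ℝ) ^ (1 - ξ))
    unfold lrU; linarith
  have hUhi : (lrU ξ m : ℝ) ≤ ((lrM m : ℕ) : ℝ) ^ (1 - ξ) := Nat.floor_le (by positivity)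
  have hMpow : ((lrM m : ℕ) : ℝ) ^ (1 - ξ) ≤ ((lrM m : ℕ) : ℝ) := by
    calc ((lrM m : ℕ) : ℝ) ^ (1 - ξ) ≤ ((lrM m : ℕ) : ℝ) ^ (1 : ℝ) := Real.rpow_le_rpow_of_exponent_le hM1 (by linarith)
      _ = _ := Real.rpow_one _
  have hU6 : t ^ ((1 - ξ) / 2) / 2 ≤ (lrU ξ m : ℝ) := by linarith
  have hBlo : 2 * t / ρ ≤ (lrB ρ m : ℝ) := Nat.le_ceil _
  have hBhi : (lrB ρ m : ℝ) ≤ c * t := by
    have := (Nat.ceil_lt_add_one (by positivity : 0 ≤ 2 * t / ρ)).le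
    have e : c * t = 2 * t / ρ + t := by rw [hc]; field_simp
    unfold lrB
    rw [e]; linarith
  have hsρ : ρ ≤ s := by
    rw [hs]; exact Real.le_sqrt_of_sq_le h2
  have hU3 : (lrU ξ m : ℝ) ≤ (lrB ρ m : ℝ) := by
    have : 2 * s ≤ 2 * t / ρ := by
      rw [le_div_iff₀ hρ]; nlinarith
    linarith
  have hB0 : 0 < (lrB ρ m : ℝ) := lt_of_lt_of_le (by positivity) hBlo
  have hMm : lrM m ≤ m := by rw [ht] at hMt; exact_mod_cast hMt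
  refine ⟨?_, by linarith, hU3, hMm, hM2, hU6, hBhi, ?_, h7, ?_⟩
  · have : (1 : ℝ) ≤ (lrU ξ m : ℝ) := by linarith
    exact_mod_cast this
  · have e1 : ctErr C ξ p (lrB ρ m) (lrU ξ m) (lrB ρ m) = K₁ * (lrB ρ m : ℝ) ^ (1 - ξ) + 2 * Real.pi * (lrU ξ m : ℝ) * p := by
      unfold ctErr
      have : (lrB ρ m : ℝ) ^ (-ξ) * (lrB ρ m : ℝ) = (lrB ρ m : ℝ) ^ (1 - ξ) := by
        rw [← Real.rpow_add_one hB0.ne']; congr 1; ring
      rw [hK, mul_assoc C, this]; ring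
    rw [e1]
    have e2 : (lrB ρ m : ℝ) ^ (1 - ξ) ≤ c ^ (1 - ξ) * t ^ (1 - ξ) := by
      rw [← Real.mul_rpow hc0.le ht0.le]
      exact Real.rpow_le_rpow hB0.le hBhi hx1.le
    have e3 : K₁ * (lrB ρ m : ℝ) ^ (1 - ξ) ≤ Real.pi / 4 * t := by
      refine le_trans (mul_le_mul_of_nonneg_left e2 hK0) ?_
      rw [← mul_assoc]; exact h5
    have e4 : 2 * Real.pi * (lrU ξ m : ℝ) * p ≤ Real.pi / 4 * t := by
      have : (lrU ξ m : ℝ) ≤ 2 * t ^ (1 / 2 : ℝ) := by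
        rw [← Real.sqrt_eq_rpow]; linarith
      calc 2 * Real.pi * (lrU ξ m : ℝ) * p ≤ 2 * Real.pi * (2 * t ^ (1 / 2 : ℝ)) * p := by gcongr
        _ = 4 * Real.pi * p * t ^ (1 / 2 : ℝ) := by ring
        _ ≤ _ := h6
    have e5 : 2 * Real.pi * t ≤ p * (lrB ρ m : ℝ) := by
      have : p * (2 * t / ρ) = 2 * Real.pi * t := by rw [hp]; field_simp
      rw [← this]; exact mul_le_mul_of_nonneg_left hBlo hp0.le
    have e6 : 0 < Real.pi * t := by positivity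
    linarith
  · have e : ((lrM m : ℕ) : ℝ) ^ (-ξ) ≤ t ^ (-(ξ / 2)) := by
      have e1 : t ^ (-(ξ / 2)) = s ^ (-ξ) := by
        rw [hs, Real.sqrt_eq_rpow, ← Real.rpow_mul ht0.le]; congr 1; ring
      rw [e1]
      exact Real.rpow_le_rpow_of_nonpos (by linarith) hMlo (by linarith)
    exact le_trans (mul_le_mul_of_nonneg_left e hC) h8

theorem lr_T_im (ρ mr : ℝ) : (ltT ρ mr).im = Real.pi * ρ := by
  simp [ltT]

/-- E3 (**deterministic rigidity of the labels `±m`**) -/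
theorem lr_rigid_det {ρ ξ : ℝ} (mr : ℝ) (hρ : 0 < ρ) (hξ0 : 0 < ξ) (hξ1 : ξ < 1) : ∃ (C₀ : ℝ) (J₁ : ℕ), ∀ m : ℕ, J₁ ≤ m → ∀ y ∈ ltFin, LrGrid ρ ξ mr m y →
    |(y (m : ℤ)).toReal - m / ρ| ≤ C₀ * (m : ℝ) ^ (1 - min ξ (1 / 2)) ∧ |(y (-(m : ℤ))).toReal + m / ρ| ≤ C₀ * (m : ℝ) ^ (1 - min ξ (1 / 2)) := by
  have hpi := Real.pi_pos
  set p : ℝ := Real.pi * ρ with hp
  have hp0 : 0 < p := by positivity
  set C : ℝ := 7 * 1 + 6 * p with hC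
  have hC0 : 0 ≤ C := by positivity
  set G : ℝ := ctGapC C ξ p with hG
  have hG0 : 0 ≤ G := by
    have : 0 < 1 - ξ := by linarith
    rw [hG]; unfold ctGapC; positivity
  obtain ⟨J₁, hJ4, hpar⟩ := lr_param hρ hξ0 hξ1 C 0 hC0
  refine ⟨(G + 2 * (Real.pi + G)) / p, J₁, fun m hm y hy g => ?_⟩
  obtain ⟨hU1, -, hUB, hMm, hM2, -, -, hJ, hc1, hc2⟩ := hpar m hm
  have hm4 : 4 ≤ m := le_trans hJ4 hm
  have hm1 : (1 : ℝ) ≤ m := by exact_mod_cast (by omega : 1 ≤ m)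
  have him : (ltT ρ mr).im = p := lr_T_im ρ mr
  have box0 := lr_box hy (by rw [him]; exact hp0.le) zero_le_one hξ0.le hξ1.le hU1 g
  rw [him] at box0
  have box : CtBox (ltS y) (ltT ρ mr) C ξ (-(lrB ρ m : ℝ)) (lrB ρ m : ℝ) (lrU ξ m : ℝ) ((lrB ρ m + m : ℕ) : ℝ) := by
    have e7 : C = 7 + 6 * p := by rw [hC]; ring
    rw [e7]
    simpa using box0
  have hU0 : (0 : ℝ) < (lrU ξ m : ℝ) := by exact_mod_cast (by omega : 0 < lrU ξ m)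
  have hBU : (lrB ρ m : ℝ) ≤ ((lrB ρ m + m : ℕ) : ℝ) := by push_cast; linarith
  obtain ⟨hfin, gap⟩ := lr_gap hy (w := ltT ρ mr) (by rw [him]; exact hp0) hC0 hξ0 hξ1 hU0 hUB hBU box (J := m) (by rw [him]; exact hJ)
  rw [him] at gap
  have hM1 : 1 ≤ lrM m := by unfold lrM; omega
  have hM1r : (1 : ℝ) ≤ ((lrM m : ℕ) : ℝ) := by exact_mod_cast hM1
  have hMmr : ((lrM m : ℕ) : ℝ) ≤ (m : ℝ) := by exact_mod_cast hMm
  have hx1 : 0 < 1 - ξ := by linarith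
  have hUM : (lrU ξ m : ℝ) ≤ ((lrM m : ℕ) : ℝ) ^ (1 - ξ) := Nat.floor_le (by positivity)
  have hUm : (lrU ξ m : ℝ) ≤ (m : ℝ) ^ (1 - ξ) := hUM.trans (Real.rpow_le_rpow (by positivity) hMmr hx1.le)
  have hmU : (m : ℝ) ≤ ((lrB ρ m + m : ℕ) : ℝ) := by push_cast; linarith [(Nat.cast_nonneg (lrB ρ m) : (0 : ℝ) ≤ _)]
  have gap1 := gap 0 m (by omega) (by omega) hUm hmU hc1
  have gap2 := gap (-1) (lrM m) (by omega) (by omega) hUM (hMmr.trans hmU) hc2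
  have gap3 := gap (-(m : ℤ)) m le_rfl (by omega) hUm hmU hc1
  rw [zero_add] at gap1
  rw [neg_add_cancel] at gap3
  obtain ⟨hmono, hlab, -⟩ := hy
  have a0 : 0 ≤ (y 0).toReal := EReal.toReal_nonneg hlab.2
  have b0 : (y (-1)).toReal ≤ 0 := EReal.toReal_nonpos hlab.1
  have c0 : (y 0).toReal ≤ (y (-1 + (lrM m : ℤ))).toReal :=
    EReal.toReal_le_toReal (hmono (by omega)) (hfin 0 (by omega) (by omega)).2 (hfin _ (by omega) (by omega)).1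
  have hMpow : ((lrM m : ℕ) : ℝ) ^ (1 - ξ) ≤ ((lrM m : ℕ) : ℝ) := by
    calc ((lrM m : ℕ) : ℝ) ^ (1 - ξ) ≤ ((lrM m : ℕ) : ℝ) ^ (1 : ℝ) := Real.rpow_le_rpow_of_exponent_le hM1r (by linarith)
      _ = _ := Real.rpow_one _
  have hpa0 : p * (y 0).toReal ≤ 2 * (Real.pi + G) * Real.sqrt m := by
    have h1 := (abs_le.1 gap2).2
    have h2 : G * ((lrM m : ℕ) : ℝ) ^ (1 - ξ) ≤ G * ((lrM m : ℕ) : ℝ) := mul_le_mul_of_nonneg_left hMpow hG0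
    have h3 : p * (y 0).toReal ≤ p * ((y (-1 + (lrM m : ℤ))).toReal - (y (-1)).toReal) :=
      mul_le_mul_of_nonneg_left (by linarith) hp0.le
    have h4 : (Real.pi + G) * ((lrM m : ℕ) : ℝ) ≤ (Real.pi + G) * (2 * Real.sqrt m) :=
      mul_le_mul_of_nonneg_left hM2 (by positivity)
    nlinarith
  set χ : ℝ := min ξ (1 / 2) with hχ
  have hpw1 : (m : ℝ) ^ (1 - ξ) ≤ (m : ℝ) ^ (1 - χ) :=
    Real.rpow_le_rpow_of_exponent_le hm1 (by have := min_le_left ξ (1 / 2 : ℝ); linarith)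
  have hpw2 : Real.sqrt m ≤ (m : ℝ) ^ (1 - χ) := by
    rw [Real.sqrt_eq_rpow]
    exact Real.rpow_le_rpow_of_exponent_le hm1 (by have := min_le_right ξ (1 / 2 : ℝ); linarith)
  have hpa0' : 0 ≤ p * (y 0).toReal := by positivity
  have key : G * (m : ℝ) ^ (1 - ξ) + p * (y 0).toReal ≤ (G + 2 * (Real.pi + G)) * (m : ℝ) ^ (1 - χ) := by
    have h1 : G * (m : ℝ) ^ (1 - ξ) ≤ G * (m : ℝ) ^ (1 - χ) := mul_le_mul_of_nonneg_left hpw1 hG0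
    have h2 : 2 * (Real.pi + G) * Real.sqrt m ≤ 2 * (Real.pi + G) * (m : ℝ) ^ (1 - χ) :=
      mul_le_mul_of_nonneg_left hpw2 (by positivity)
    linarith
  have hdiv : ∀ t : ℝ, |p * t| ≤ (G + 2 * (Real.pi + G)) * (m : ℝ) ^ (1 - χ) → |t| ≤ (G + 2 * (Real.pi + G)) / p * (m : ℝ) ^ (1 - χ) := by
    intro t ht
    rw [abs_mul, abs_of_pos hp0] at ht
    rw [div_mul_eq_mul_div, le_div_iff₀ hp0]
    linarith
  constructor
  · apply hdiv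
    have e : p * ((y (m : ℤ)).toReal - m / ρ) = (p * ((y (m : ℤ)).toReal - (y 0).toReal) - Real.pi * m) + p * (y 0).toReal := by
      rw [hp]; field_simp; ring
    rw [e]
    refine (abs_add_le _ _).trans ?_
    rw [abs_of_nonneg hpa0']
    linarith
  · apply hdiv
    have e : p * ((y (-(m : ℤ))).toReal + m / ρ) = -(p * ((y 0).toReal - (y (-(m : ℤ))).toReal) - Real.pi * m) + p * (y 0).toReal := by
      rw [hp]; field_simp; ring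
    rw [e]
    refine (abs_add_le _ _).trans ?_
    rw [abs_neg, abs_of_nonneg hpa0']
    linarith

/-! ## 3. probability -/

/-- E4: union bound over an integer grid -/
theorem lr_grid_prob {P : Measure TpCf} {w : ℂ} {ξ c : ℝ} (_hc : 0 ≤ c) {B U0 U1 : ℕ}
    (h : ∀ p : ℤ, -(B : ℤ) ≤ p → p ≤ B → ∀ q : ℕ, U0 ≤ q → q ≤ U1 → P {y | (q : ℝ) ^ (-ξ) < ‖ltS y (ctZ p q) - w‖} ≤ ENNReal.ofReal c) :
    P {y | ¬ CtGrid (ltS y) w 1 ξ (-(B : ℤ)) B U0 U1} ≤ ENNReal.ofReal ((2 * B + 1) * (U1 + 1) * c) := by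
  have hsub : {y | ¬ CtGrid (ltS y) w 1 ξ (-(B : ℤ)) B U0 U1} ⊆
      ⋃ p ∈ Finset.Icc (-(B:ℤ)) B, ⋃ q ∈ Finset.Icc U0 U1, {y | (q : ℝ) ^ (-ξ) < ‖ltS y (ctZ p q) - w‖} := by
    intro y hy
    have hy' : ¬ CtGrid (ltS y) w 1 ξ (-(B : ℤ)) B U0 U1 := hy
    unfold CtGrid at hy'
    simp only [not_forall, not_le, one_mul] at hy'
    obtain ⟨p, hp1, hp2, q, hq1, hq2, hb⟩ := hy'
    simp only [Set.mem_iUnion]
    exact ⟨p, Finset.mem_Icc.2 ⟨hp1, hp2⟩, q, Finset.mem_Icc.2 ⟨hq1, hq2⟩, hb⟩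
  refine (measure_mono hsub).trans ((measure_biUnion_finset_le _ _).trans ?_)
  have h1 : ∀ p ∈ Finset.Icc (-(B:ℤ)) B, P (⋃ q ∈ Finset.Icc U0 U1, {y | (q : ℝ) ^ (-ξ) < ‖ltS y (ctZ p q) - w‖})
      ≤ ((U1 + 1 : ℕ) : ℝ≥0∞) * ENNReal.ofReal c := by
    intro p hp
    rw [Finset.mem_Icc] at hp
    refine (measure_biUnion_finset_le _ _).trans ?_
    refine (Finset.sum_le_sum fun q hq => h p hp.1 hp.2 q (Finset.mem_Icc.1 hq).1 (Finset.mem_Icc.1 hq).2).trans ?_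
    rw [Finset.sum_const, nsmul_eq_mul]
    gcongr
    rw [Nat.card_Icc]
    omega
  refine (Finset.sum_le_sum h1).trans ?_
  rw [Finset.sum_const, nsmul_eq_mul, Int.card_Icc]
  have e1 : ((B : ℤ) + 1 - -(B : ℤ)).toNat = 2 * B + 1 := by omega
  rw [e1, ENNReal.ofReal_mul (by positivity), ENNReal.ofReal_mul (by positivity), mul_assoc]
  have e2 : ENNReal.ofReal (2 * (B : ℝ) + 1) = ((2 * B + 1 : ℕ) : ℝ≥0∞) := by
    rw [← ENNReal.ofReal_natCast]; push_cast; rfl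
  have e3 : ENNReal.ofReal ((U1 : ℝ) + 1) = ((U1 + 1 : ℕ) : ℝ≥0∞) := by
    rw [← ENNReal.ofReal_natCast]; push_cast; rfl
  rw [e2, e3]

/-- E5 (arithmetic of the union bound): `(2B+1)(U1+1) C U0^{-D} ≤ C₁ m^{-2}` when `D (1-ξ)/2 ≥ 4` -/
theorem lr_sum_le {ρ ξ : ℝ} (hρ : 0 < ρ) (_hξ1 : ξ < 1) (C : ℝ) (D : ℕ) (hD : 8 ≤ (D : ℝ) * (1 - ξ)) : ∃ C₁ : ℝ, ∀ (m B U0 : ℕ), 1 ≤ m →
    (B : ℝ) ≤ (2 / ρ + 1) * m → (m : ℝ) ^ ((1 - ξ) / 2) / 2 ≤ (U0 : ℝ) →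
    (2 * (B : ℝ) + 1) * (((B + m : ℕ) : ℝ) + 1) * (|C| * (U0 : ℝ) ^ (-(D : ℝ))) ≤ C₁ * (m : ℝ) ^ (-(2 : ℝ)) := by
  set c : ℝ := 2 / ρ + 1 with hc
  have hc0 : 0 < c := by positivity
  refine ⟨(2 * c + 1) * (c + 2) * (|C| * (2 : ℝ) ^ (D : ℝ)), fun m B U0 hm hB hU => ?_⟩
  have hm1 : (1 : ℝ) ≤ m := by exact_mod_cast hm
  have hm0 : (0 : ℝ) < m := by linarith
  set t : ℝ := (m : ℝ) with ht
  have ha0 : 0 < t ^ ((1 - ξ) / 2) := Real.rpow_pos_of_pos hm0 _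
  have h1 : (U0 : ℝ) ^ (-(D : ℝ)) ≤ (t ^ ((1 - ξ) / 2) / 2) ^ (-(D : ℝ)) :=
    Real.rpow_le_rpow_of_nonpos (by positivity) hU (by simp)
  have h2 : (t ^ ((1 - ξ) / 2) / 2) ^ (-(D : ℝ)) = t ^ (-((1 - ξ) / 2 * D)) * (2 : ℝ) ^ (D : ℝ) := by
    rw [Real.div_rpow ha0.le (by norm_num), ← Real.rpow_mul hm0.le, Real.rpow_neg (by norm_num : (0 : ℝ) ≤ 2), div_inv_eq_mul]
    congr 2; ring
  have h3 : t ^ (-((1 - ξ) / 2 * D)) ≤ t ^ (-(4 : ℝ)) := Real.rpow_le_rpow_of_exponent_le hm1 (by linarith)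
  have h4 : t ^ (-(4 : ℝ)) * (t * t) = t ^ (-(2 : ℝ)) := by
    have e : t * t = t ^ (2 : ℝ) := by rw [Real.rpow_two]; ring
    rw [e, ← Real.rpow_add hm0]; norm_num
  have h5 : 2 * (B : ℝ) + 1 ≤ (2 * c + 1) * t := by nlinarith
  have h6 : ((B + m : ℕ) : ℝ) + 1 ≤ (c + 2) * t := by push_cast; nlinarith
  have hB0 : (0 : ℝ) ≤ B := Nat.cast_nonneg _
  have h7 : |C| * (U0 : ℝ) ^ (-(D : ℝ)) ≤ |C| * (2 : ℝ) ^ (D : ℝ) * t ^ (-(4 : ℝ)) := by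
    have : (U0 : ℝ) ^ (-(D : ℝ)) ≤ t ^ (-(4 : ℝ)) * (2 : ℝ) ^ (D : ℝ) := by
      rw [h2] at h1
      exact h1.trans (mul_le_mul_of_nonneg_right h3 (by positivity))
    calc |C| * (U0 : ℝ) ^ (-(D : ℝ)) ≤ |C| * (t ^ (-(4 : ℝ)) * (2 : ℝ) ^ (D : ℝ)) := mul_le_mul_of_nonneg_left this (abs_nonneg _)
      _ = _ := by ring
  calc (2 * (B : ℝ) + 1) * (((B + m : ℕ) : ℝ) + 1) * (|C| * (U0 : ℝ) ^ (-(D : ℝ)))
      ≤ ((2 * c + 1) * t) * ((c + 2) * t) * (|C| * (2 : ℝ) ^ (D : ℝ) * t ^ (-(4 : ℝ))) := by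
        apply mul_le_mul (mul_le_mul h5 h6 (by positivity) (by positivity)) h7 (by positivity) (by positivity)
    _ = (2 * c + 1) * (c + 2) * (|C| * (2 : ℝ) ^ (D : ℝ)) * (t ^ (-(4 : ℝ)) * (t * t)) := by ring
    _ = _ := by rw [h4]

section lim

variable {ρ ξ mr : ℝ} {U : Ultrafilter ℕ} {Λ : ℕ → ProbabilityMeasure TpCf}

/-- the grid event fails with probability `≤ C₁ m^{-2}`, eventually along `U` -/
theorem lr_grid_n (hρ : 0 < ρ) (hξ : 0 < ξ) (hξ1 : ξ < 1) (H : LtTr ρ ξ mr U Λ) : ∃ (C₁ : ℝ) (J₁ : ℕ), ∀ m : ℕ, J₁ ≤ m → ∀ᶠ n in (U : Filter ℕ),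
    (Λ n : Measure TpCf) {y | ¬ LrGrid ρ ξ mr m y} ≤ ENNReal.ofReal (C₁ * (m : ℝ) ^ (-(2 : ℝ))) := by
  have hx1 : 0 < 1 - ξ := by linarith
  set D : ℕ := ⌈8 / (1 - ξ)⌉₊ with hDdef
  have hD : 8 ≤ (D : ℝ) * (1 - ξ) := by
    have := Nat.le_ceil (8 / (1 - ξ))
    rw [div_le_iff₀ hx1] at this
    exact this
  obtain ⟨C, u₀, htr⟩ := H.tr D
  obtain ⟨C₁, hsum⟩ := lr_sum_le hρ hξ1 C D hD
  obtain ⟨J₁, h4, hpar⟩ := lr_param hρ hξ hξ1 0 u₀ le_rfl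
  refine ⟨C₁, J₁, fun m hm => ?_⟩
  obtain ⟨hU1, hUu, -, -, -, hU6, hB7, -, -, -⟩ := hpar m hm
  have hU0 : (0 : ℝ) < (lrU ξ m : ℝ) := by exact_mod_cast (by omega : 0 < lrU ξ m)
  set c : ℝ := |C| * (lrU ξ m : ℝ) ^ (-(D : ℝ)) with hc
  have hc0 : 0 ≤ c := by positivity
  have ev : ∀ᶠ n in (U : Filter ℕ), ∀ p ∈ Finset.Icc (-(lrB ρ m : ℤ)) (lrB ρ m), ∀ q ∈ Finset.Icc (lrU ξ m) (lrB ρ m + m),
      (Λ n : Measure TpCf) {y | (q : ℝ) ^ (-ξ) < ‖ltS y (ctZ p q) - ltT ρ mr‖} ≤ ENNReal.ofReal c := by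
    refine (Filter.eventually_all_finset _).2 fun p _ => (Filter.eventually_all_finset _).2 fun q hq => ?_
    rw [Finset.mem_Icc] at hq
    have hq1 : (lrU ξ m : ℝ) ≤ (q : ℝ) := by exact_mod_cast hq.1
    filter_upwards [htr (p : ℝ) (q : ℝ) (hUu.trans hq1)] with n hn
    refine le_trans hn (ENNReal.ofReal_le_ofReal ?_)
    have h1 : (q : ℝ) ^ (-(D : ℝ)) ≤ (lrU ξ m : ℝ) ^ (-(D : ℝ)) := Real.rpow_le_rpow_of_nonpos hU0 hq1 (by simp)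
    calc C * (q : ℝ) ^ (-(D : ℝ)) ≤ |C| * (q : ℝ) ^ (-(D : ℝ)) := mul_le_mul_of_nonneg_right (le_abs_self C) (by positivity)
      _ ≤ _ := mul_le_mul_of_nonneg_left h1 (abs_nonneg _)
  filter_upwards [ev] with n hn
  have h1 := lr_grid_prob (P := (Λ n : Measure TpCf)) (w := ltT ρ mr) (ξ := ξ) hc0 (B := lrB ρ m) (U0 := lrU ξ m) (U1 := lrB ρ m + m)
    (fun p h1 h2 q h3 h4 => hn p (Finset.mem_Icc.2 ⟨h1, h2⟩) q (Finset.mem_Icc.2 ⟨h3, h4⟩))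
  refine le_trans h1 (ENNReal.ofReal_le_ofReal ?_)
  exact hsum m (lrB ρ m) (lrU ξ m) (by omega) hB7 hU6

/-- R1 (**rigidity of one label at finite `n`**) -/
theorem lt_rigid_n (hρ : 0 < ρ) (hξ : 0 < ξ) (hξ1 : ξ < 1) (H : LtTr ρ ξ mr U Λ) : ∃ χ C₀ C₁ : ℝ, ∃ J₁ : ℕ, 0 < χ ∧ ∀ j : ℤ, (J₁ : ℤ) ≤ |j| → ∀ᶠ n in (U : Filter ℕ),
    (Λ n : Measure TpCf) {y | C₀ * |(j : ℝ)| ^ (1 - χ) < |(y j).toReal - j / ρ|} ≤ ENNReal.ofReal (C₁ * |(j : ℝ)| ^ (-(2 : ℝ))) := by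
  obtain ⟨C₀, J₁, hdet⟩ := lr_rigid_det mr hρ hξ hξ1
  obtain ⟨C₁, J₂, hpr⟩ := lr_grid_n hρ hξ hξ1 H
  refine ⟨min ξ (1 / 2), C₀, C₁, max J₁ J₂, lt_min hξ (by norm_num), fun j hj => ?_⟩
  set m : ℕ := j.natAbs with hm
  have hmj : (m : ℤ) = |j| := by rw [hm]; exact Int.natCast_natAbs j
  have hmr : (m : ℝ) = |(j : ℝ)| := by
    have : ((m : ℤ) : ℝ) = ((|j| : ℤ) : ℝ) := by rw [hmj]
    simpa using this
  have hm1 : J₁ ≤ m := by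
    have : ((max J₁ J₂ : ℕ) : ℤ) ≤ (m : ℤ) := by rw [hmj]; exact hj
    exact le_trans (le_max_left _ _) (by exact_mod_cast this)
  have hm2 : J₂ ≤ m := by
    have : ((max J₁ J₂ : ℕ) : ℤ) ≤ (m : ℤ) := by rw [hmj]; exact hj
    exact le_trans (le_max_right _ _) (by exact_mod_cast this)
  filter_upwards [hpr m hm2, H.fin] with n h1 h2
  rw [← hmr]
  refine le_trans (measure_mono_ae ?_) h1
  filter_upwards [h2] with y hy hbad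
  intro hg
  have hd := hdet m hm1 y hy hg
  have hbad' : C₀ * (m : ℝ) ^ (1 - min ξ (1 / 2)) < |(y j).toReal - j / ρ| := hbad
  rcases le_total 0 j with h0 | h0
  · have e : j = (m : ℤ) := by rw [hmj, abs_of_nonneg h0]
    rw [e] at hbad'
    have := hd.1
    simp only [Int.cast_natCast] at hbad'
    linarith
  · have e : j = -(m : ℤ) := by rw [hmj, abs_of_nonpos h0, neg_neg]
    rw [e] at hbad'
    have := hd.2
    simp only [Int.cast_neg, Int.cast_natCast, neg_div, sub_neg_eq_add] at hbad'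
    linarith

theorem lt_pos (hρ : 0 < ρ) (hξ : 0 < ξ) (hξ1 : ξ < 1) (H : LtTr ρ ξ mr U Λ) {μ : Measure Conf} [IsProbabilityMeasure μ] (L : LtLim mr U Λ μ) :
    ∃ χ : ℝ, 0 < χ ∧ ∀ᵐ x ∂μ, ∃ (C₀ : ℝ) (J₀ : ℕ), CReg ρ χ C₀ J₀ x := by
  obtain ⟨χ, C₀, C₁, J₁, hχ, h⟩ := lt_rigid_n hρ hξ hξ1 H
  refine ⟨χ, hχ, ?_⟩
  have h2 : ∀ j : ℤ, (J₁ : ℤ) ≤ |j| → μ {x | C₀ * |(j : ℝ)| ^ (1 - χ) < |x j - j / ρ|} ≤ ENNReal.ofReal (C₁ * |(j : ℝ)| ^ (-(2 : ℝ))) := by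
    intro j hj
    have hG : IsOpen {w : Unit → ℝ | C₀ * |(j : ℝ)| ^ (1 - χ) < |w () - j / ρ|} :=
      isOpen_lt continuous_const (((continuous_apply ()).sub continuous_const).abs)
    exact lt_open_le L (fun _ : Unit => j) hG (h j hj)
  filter_upwards [lt_bc h2, L.mono] with x hx hm
  obtain ⟨J₀, hJ⟩ := hx
  exact ⟨C₀, J₀, hm, hJ⟩

/-- **EXIT of the abstract layer** -/
theorem lt_main (hρ : 0 < ρ) (hξ : 0 < ξ) (hξ1 : ξ < 1) (H : LtTr ρ ξ mr U Λ) :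
    ∃ μ : Measure Conf, IsProbabilityMeasure μ ∧ LReg ρ ξ μ ∧ LtLim mr U Λ μ ∧ LtJoint mr U Λ μ := by
  obtain ⟨μ, hp, L⟩ := lt_lim_exists hρ hξ H
  have hpos := lt_pos hρ hξ hξ1 H L
  have J := lt_joint hρ hξ H L hpos
  exact ⟨μ, hp, ⟨hpos, L.lab, lt_tr H J⟩, L, J⟩

end lim

end Claimed.Agent.R287
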