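-- KEEP
import Claimed.Agent.R287.Defs
import Claimed.Agent.R287.Top274
import Claimed.Agent.R287.LimTr
import Claimed.Agent.R287.LimRg
import Claimed.Agent.R287.GoeG1
import Claimed.Agent.R287.Goe233
import Claimed.Agent.R287.GoeG2W

/-!
# Row 287 (S0534), unit GOE: THE EXIT `gx_exit` (= `exit_goe` of the Hub)      (head helper250, prefix `gx_`, defs `gxY gxCf gxFull gxSc`)

Blocks: G1 = local law (helper273, `GoeG1.lean`), LAW = GOE law kit (helper233, `Goe233.lean`), LIM = helper274 (`Top274.lean`), abstract limit layer `LimTr.lean` (helper250), G2 = cut `n → K` (helper252, `GoeG2.lean`).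

## WRITTEN PROOF
micro-coordinates `y = n t/(πρ)`;   `Λ n = limPW ρ n` = law of the labelled spectrum `gxY ρ x`, `x ~ goeArray n`;   `S_n(w) = ltS (gxY ρ x) w = rTr ((n/(πρ)) H) w = g1S ρ H w`.
1. `gx_trlaw`: `LtTr ρ (3/5) 0 U (limPW ρ)` from `g1_prob`.   `lt_main` ⟹ `μ`, `LReg ρ (3/5) μ`, windows, Laplace, joint convergence.   Laplace: `tp_goeLaplace_eq`.
2. (I).   Fix `Δ, z, Φ`.   `f n = E Φ(rTr ((n/(πρ)) H + √Δ W) z)`, `W` = raw GOE independent of `H`.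
   (a) `gx_add`: `(n/(πρ)) H + √Δ W ~ s_n (n/(πρ)) H`, `s_n = √(1 + Δ(πρ)²/n)` (`goe_frozen`, `goe_raw_add`).      (b) `gx_scale`: `rTr (sA) z = s⁻¹ rTr A (z/s)`.
   (c) `gx_full_lim`: `f n → L := ∫ Φ(cS x z) dμ` along `U` (`lt_together` with `X n = s_n⁻¹ S(z/s_n)`, `X^k = S(z)`; `|s⁻¹S(z/s) - S(z)| ≤ |1-s⁻¹| (|S(z/s)| + |z| (Im S(z) Im S(z/s)/(Im z Im z/s))^{1/2})`).
   (d) `gx_cut` (G2, helper252): `|f n - a n K| ≤ ε` for `K ≥ K₀(ε)`, eventually in `n`;   `a n K = E E_N Φ(rTr (cutM K Δ (gxCf ρ x) N) z)`.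
   (e) `gx_cutF`: `w ↦ E_N Φ(rTr (diag w + √Δ goeOf N) z)` is bounded continuous ⟹ `a n K → A K` along `U` (`LtLim.win`), `A K` = first term of `LStat`.
   (f) `|L - A K| ≤ ε` for `K ≥ K₀`;   `lt_cSK_lim`: second term of `LStat` `→ L`.
-/

set_option autoImplicit false

namespace Claimed.Agent.R287

open MeasureTheory ProbabilityTheory Matrix Filter Topology Claims.C0462
open scoped ENNReal

/-! ## 0-1. definitions `gxY gxCf gxFull gxSc`, `gx_int`, `gx_meas`, `gx_S_rTr`: at the end of `LimTr.lean` (so that `GoeG1F.lean`, `GoeG2.lean` can use them) -/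

/-- LEAF A2: link with the normalisation of G1 -/
theorem gx_S_g1 (ρ : ℝ) (hρ : 0 < ρ) {n : ℕ} (hn : 1 ≤ n) (x : Fin n × Fin n → ℝ) {w : ℂ} (hw : 0 < w.im) :
    ltS (gxY ρ x) w = g1S ρ (goeMatrix x) w := by
  rw [gx_S_rTr ρ hρ hn x hw, g1_rTr hn ρ hρ]

/-- LEAF A3: **the input of the abstract layer** (`g1_prob` with `ξ = 3/5`, A2, `gx_meas`, `lt_S_measurable`, `lt_lab_fin`, `tp_lawW_ae`; `u₀ := max u₀ 1`) -/
theorem gx_trlaw (ρ : ℝ) (hρ : 0 < ρ) (U : Ultrafilter ℕ) (hU : (U : Filter ℕ) ≤ atTop) : LtTr ρ (3 / 5) 0 U (limPW ρ) := by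
  refine ⟨Filter.Eventually.of_forall fun n => ?_, fun D => ?_⟩
  · rw [lim_PW_coe]
    exact tp_lawW_ae n _ lt_fin_measurable lt_lab_fin
  · obtain ⟨C, u₀, h⟩ := g1_prob_rTr ρ (3 / 5) hρ (by norm_num) D
    refine ⟨C, max u₀ 1, fun e u hu => ?_⟩
    have hu0 : u₀ ≤ u := (le_max_left _ _).trans hu
    have hu1 : (0 : ℝ) < u := lt_of_lt_of_le one_pos ((le_max_right _ _).trans hu)
    have hev := hU ((h e u hu0).and (eventually_ge_atTop 1))
    filter_upwards [hev] with n hn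
    obtain ⟨hn, hn1⟩ := hn
    have hm : MeasurableSet {y : TpCf | u ^ (-(3 / 5 : ℝ)) < ‖ltS y ((e : ℂ) + (u : ℂ) * Complex.I) - ltT ρ 0‖} :=
      measurableSet_lt measurable_const ((lt_S_measurable _).sub measurable_const).norm
    rw [gx_meas ρ n hm]
    refine le_trans (le_of_eq ?_) hn
    congr 1
    ext x
    have him : 0 < ((e : ℂ) + (u : ℂ) * Complex.I).im := by simpa using hu1
    simp only [Set.mem_ofPred_eq, gx_S_rTr ρ hρ hn1 x him, ltT, Complex.ofReal_zero, zero_add]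

/-! ## 2. exact invariance at finite `n` -/

/-- LEAF B1 (`goe_frozen`, `goe_raw_add` of helper233): `(n/(πρ)) H + √Δ W ~ s_n (n/(πρ)) H` -/
theorem gx_add (ρ Δ : ℝ) (hρ : 0 < ρ) (hΔ : 0 < Δ) {n : ℕ} (hn : 1 ≤ n) (F : Matrix (Fin n) (Fin n) ℝ → ℝ) (hF : Measurable F) (hb : ∃ B, ∀ M, |F M| ≤ B) :
    ∫ x, ∫ N, F (gxFull ρ Δ x N) ∂(gArr (Fin n) (Fin n)) ∂(goeArray n) = ∫ x, F (gxSc ρ Δ n • (((n : ℝ) / (Real.pi * ρ)) • goeMatrix x)) ∂(goeArray n) := by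
  obtain ⟨B, hB⟩ := hb
  have hn0 : (0 : ℝ) < n := by exact_mod_cast hn
  have hpi := Real.pi_pos
  have h := goe_mix_add hn ((n : ℝ) / (Real.pi * ρ)) (Real.sqrt Δ) F (hF.comp goe_sym_measurable) B hB
  unfold gxFull
  rw [h]
  have e : Real.sqrt (((n : ℝ) / (Real.pi * ρ)) ^ 2 + n * Real.sqrt Δ ^ 2) = gxSc ρ Δ n * ((n : ℝ) / (Real.pi * ρ)) := by
    unfold gxSc
    rw [Real.sq_sqrt hΔ.le]
    have h0 : (0 : ℝ) ≤ (n : ℝ) / (Real.pi * ρ) := by positivity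
    conv_rhs => rw [← Real.sqrt_sq h0]
    rw [← Real.sqrt_mul (by positivity)]
    congr 1
    field_simp
  simp only [e, smul_smul]

/-- LEAF B2 -/
theorem gx_scale {ι : Type} [Fintype ι] [DecidableEq ι] (A : Matrix ι ι ℝ) {s : ℝ} (hs : 0 < s) (z : ℂ) :
    rTr (s • A) z = (s : ℂ)⁻¹ * rTr A (z / s) := by
  exact goe_rTr_smul s hs.ne' A z

/-- LEAF B3: `M ↦ rTr M z` is measurable (entries of the inverse are ratios of polynomials: `Matrix.inv_def`, `Ring.inverse`, `det`, `adjugate`) -/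
theorem gx_rTr_measurable {ι : Type} [Fintype ι] [DecidableEq ι] (z : ℂ) : Measurable fun M : Matrix ι ι ℝ => rTr M z := by
  exact goe_rTr_measurable z

/-- LEAF B4 (deterministic): `|s⁻¹ S(z/s) - S(z)| ≤ |1 - s⁻¹| (|S(z/s)| + |z| √(Im S(z) Im S(z/s)/(Im z Im (z/s))))` on finite configurations -/
theorem gx_scale_diff {y : TpCf} (hy : y ∈ ltFin) {s : ℝ} (hs : 1 ≤ s) {z : ℂ} (hz : 0 < z.im) :
    ‖(s : ℂ)⁻¹ * ltS y (z / s) - ltS y z‖
      ≤ (1 - s⁻¹) * (‖ltS y (z / s)‖ + ‖z‖ * Real.sqrt ((ltS y z).im * (ltS y (z / s)).im / (z.im * (z / s).im))) := by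
  have hs0 : 0 < s := by linarith
  have hsc : (s : ℂ) ≠ 0 := by exact_mod_cast hs0.ne'
  have hzs : 0 < (z / s).im := by
    rw [Complex.div_ofReal_im]; positivity
  have h1 := gx_S_sub_le hy hz hzs
  have hs1 : 0 ≤ 1 - s⁻¹ := by
    have : s⁻¹ ≤ 1 := inv_le_one_of_one_le₀ hs
    linarith
  have e1 : ‖z / s - z‖ = (1 - s⁻¹) * ‖z‖ := by
    have : z / s - z = -(((1 - s⁻¹ : ℝ) : ℂ) * z) := by
      push_cast; field_simp; ring
    rw [this, norm_neg, norm_mul, Complex.norm_real, Real.norm_eq_abs, abs_of_nonneg hs1]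
  have e2 : (s : ℂ)⁻¹ * ltS y (z / s) - ltS y z = -(((1 - s⁻¹ : ℝ) : ℂ) * ltS y (z / s)) + (ltS y (z / s) - ltS y z) := by
    push_cast; ring
  rw [e2]
  calc _ ≤ ‖-(((1 - s⁻¹ : ℝ) : ℂ) * ltS y (z / s))‖ + ‖ltS y (z / s) - ltS y z‖ := norm_add_le _ _
    _ ≤ (1 - s⁻¹) * ‖ltS y (z / s)‖ + (1 - s⁻¹) * ‖z‖ * Real.sqrt ((ltS y z).im * (ltS y (z / s)).im / (z.im * (z / s).im)) := by
        rw [norm_neg, norm_mul, Complex.norm_real, Real.norm_eq_abs, abs_of_nonneg hs1, ← e1]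
        gcongr
    _ = _ := by ring

/-- LEAF B5: tightness of the trace at ANY point of the upper half plane, locally uniformly (`Im S(e+iv)/v ≤ (u/v)² Im S(e+iu)/u` for `v ≤ u`; `|S(z) - S(e+iu)| ≤ |z - e - iu| √(…)`; `LtTr.tr`) -/
theorem gx_S_tight (ρ : ℝ) (hρ : 0 < ρ) (U : Ultrafilter ℕ) (hU : (U : Filter ℕ) ≤ atTop) {z : ℂ} (hz : 0 < z.im) (ε : ℝ) (hε : 0 < ε) :
    ∃ M : ℝ, ∀ᶠ n in (U : Filter ℕ), (limPW ρ n : Measure TpCf) {y | ∃ s : ℝ, 1 ≤ s ∧ s ≤ 2 ∧ M < ‖ltS y (z / s)‖} ≤ ENNReal.ofReal ε := by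
  have H := gx_trlaw ρ hρ U hU
  obtain ⟨C, u₀, h⟩ := H.tr 1
  obtain ⟨u, hu⟩ : ∃ u : ℝ, u = max (max u₀ 1) (|C| / ε) := ⟨_, rfl⟩
  have hu0 : u₀ ≤ u := by rw [hu]; exact (le_max_left _ _).trans (le_max_left _ _)
  have hu1 : 1 ≤ u := by rw [hu]; exact (le_max_right _ _).trans (le_max_left _ _)
  have hu2 : |C| / ε ≤ u := by rw [hu]; exact le_max_right _ _
  have hupos : 0 < u := by linarith
  have hpi := Real.pi_pos
  have hCu : C * u ^ (-((1 : ℕ) : ℝ)) ≤ ε := by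
    rw [Nat.cast_one, Real.rpow_neg_one, ← div_eq_mul_inv, div_le_iff₀ hupos]
    rw [div_le_iff₀ hε] at hu2
    have := le_abs_self C
    linarith
  obtain ⟨w₀, hw₀⟩ : ∃ w₀ : ℂ, w₀ = ((0 : ℝ) : ℂ) + (u : ℂ) * Complex.I := ⟨_, rfl⟩
  have hw₀im : w₀.im = u := by rw [hw₀]; simp
  have hw₀n : ‖w₀‖ = u := by
    rw [hw₀]; simp [abs_of_pos hupos]
  refine ⟨(Real.pi * ρ + 1) * (1 + (‖z‖ + u) * (1 + (‖z‖ + u) / (z.im / 2)) / u), ?_⟩
  filter_upwards [h 0 u hu0, H.fin] with n hn hfin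
  rw [← hw₀] at hn
  have hsub : {y : TpCf | ∃ s : ℝ, 1 ≤ s ∧ s ≤ 2 ∧ (Real.pi * ρ + 1) * (1 + (‖z‖ + u) * (1 + (‖z‖ + u) / (z.im / 2)) / u) < ‖ltS y (z / s)‖}
      ⊆ {y : TpCf | u ^ (-(3 / 5 : ℝ)) < ‖ltS y w₀ - ltT ρ 0‖} ∪ {y : TpCf | ¬ y ∈ ltFin} := by
    rintro y ⟨s, hs1, hs2, hM⟩
    by_contra hc
    simp only [Set.mem_union, Set.mem_ofPred_eq, not_or, not_lt, not_not] at hc
    obtain ⟨hc1, hy⟩ := hc
    have hs0 : 0 < s := by linarith
    have hzs : (z / s).im = z.im / s := Complex.div_ofReal_im _ _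
    have hzs0 : 0 < (z / s).im := by rw [hzs]; positivity
    have h1 : u ^ (-(3 / 5 : ℝ)) ≤ 1 := Real.rpow_le_one_of_one_le_of_nonpos hu1 (by norm_num)
    have h2 : ‖ltT ρ 0‖ = Real.pi * ρ := by
      unfold ltT
      simp [abs_of_pos hpi, abs_of_pos hρ]
    have h3 : ‖ltS y w₀‖ ≤ Real.pi * ρ + 1 := by
      have := norm_add_le (ltS y w₀ - ltT ρ 0) (ltT ρ 0)
      rw [sub_add_cancel] at this
      linarith
    have h4 := gx_S_le hy hzs0 (by rw [hw₀im]; exact hupos : 0 < w₀.im)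
    have h5 : ‖z / s - w₀‖ ≤ ‖z‖ + u := by
      refine (norm_sub_le _ _).trans ?_
      rw [hw₀n, norm_div, Complex.norm_real, Real.norm_eq_abs, abs_of_pos hs0]
      have : ‖z‖ / s ≤ ‖z‖ := div_le_self (norm_nonneg _) hs1
      linarith
    have h6 : z.im / 2 ≤ (z / s).im := by
      rw [hzs]
      exact div_le_div_of_nonneg_left hz.le hs0 hs2
    have h7 : ‖ltS y w₀‖ * (1 + ‖z / s - w₀‖ * (1 + ‖z / s - w₀‖ / (z / s).im) / w₀.im)
        ≤ (Real.pi * ρ + 1) * (1 + (‖z‖ + u) * (1 + (‖z‖ + u) / (z.im / 2)) / u) := by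
      rw [hw₀im]
      gcongr
    linarith
  calc _ ≤ (limPW ρ n : Measure TpCf) ({y : TpCf | u ^ (-(3 / 5 : ℝ)) < ‖ltS y w₀ - ltT ρ 0‖} ∪ {y : TpCf | ¬ y ∈ ltFin}) := measure_mono hsub
    _ ≤ (limPW ρ n : Measure TpCf) {y : TpCf | u ^ (-(3 / 5 : ℝ)) < ‖ltS y w₀ - ltT ρ 0‖} + (limPW ρ n : Measure TpCf) {y : TpCf | ¬ y ∈ ltFin} := measure_union_le _ _
    _ ≤ ENNReal.ofReal (C * u ^ (-((1 : ℕ) : ℝ))) + 0 := by
        refine add_le_add hn (le_of_eq ?_)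
        exact ae_iff.1 hfin
    _ ≤ ENNReal.ofReal ε := by
        rw [add_zero]
        exact ENNReal.ofReal_le_ofReal hCu

theorem gx_Sc_one_le (ρ : ℝ) {Δ : ℝ} (hΔ : 0 < Δ) (n : ℕ) : 1 ≤ gxSc ρ Δ n := by
  unfold gxSc
  rw [Real.one_le_sqrt]
  have : 0 ≤ Δ * (Real.pi * ρ) ^ 2 / n := by positivity
  linarith

theorem gx_Sc_tendsto (ρ Δ : ℝ) : Tendsto (fun n : ℕ => gxSc ρ Δ n) atTop (𝓝 1) := by
  unfold gxSc
  have h1 : Tendsto (fun n : ℕ => Δ * (Real.pi * ρ) ^ 2 / (n : ℝ)) atTop (𝓝 0) := tendsto_const_div_atTop_nhds_zero_nat _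
  have h2 := (Real.continuous_sqrt.tendsto (1 + 0)).comp (tendsto_const_nhds.add h1)
  simpa [Function.comp_def] using h2

/-- the full perturbed trace as an integral against the law of the labelled spectrum -/
theorem gx_full_eq (ρ : ℝ) (hρ : 0 < ρ) (Δ : ℝ) (hΔ : 0 < Δ) {b : ℕ} (z : Fin b → ℂ) (hz : ∀ a, 0 < (z a).im) (Φ : (Fin b → ℂ) → ℝ)
    (hb : ∃ B : ℝ, ∀ v, |Φ v| ≤ B) (hm : Measurable Φ) {n : ℕ} (hn : 1 ≤ n) :
    ∫ x, ∫ N, Φ (fun a => rTr (gxFull ρ Δ x N) (z a)) ∂(gArr (Fin n) (Fin n)) ∂(goeArray n)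
      = ∫ y, Φ (fun a => ((gxSc ρ Δ n : ℝ) : ℂ)⁻¹ * ltS y (z a / (gxSc ρ Δ n : ℝ))) ∂(limPW ρ n : Measure TpCf) := by
  obtain ⟨B, hB⟩ := hb
  have hs1 := gx_Sc_one_le ρ hΔ n
  have hs0 : 0 < gxSc ρ Δ n := by linarith
  rw [gx_add ρ Δ hρ hΔ hn (fun M => Φ fun a => rTr M (z a)) (hm.comp (measurable_pi_lambda _ fun a => gx_rTr_measurable (z a))) ⟨B, fun M => hB _⟩,
    gx_int ρ n (fun y => Φ fun a => ((gxSc ρ Δ n : ℝ) : ℂ)⁻¹ * ltS y (z a / (gxSc ρ Δ n : ℝ)))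
      (hm.comp (measurable_pi_lambda _ fun a => (lt_S_measurable _).const_mul _))]
  refine integral_congr_ae (ae_of_all _ fun x => ?_)
  simp only
  congr 1
  funext a
  have him : 0 < (z a / (gxSc ρ Δ n : ℝ)).im := by
    rw [Complex.div_ofReal_im]
    exact div_pos (hz a) hs0
  rw [gx_scale _ hs0, gx_S_rTr ρ hρ hn x him]

/-- LEAF B6 (**the full perturbed trace converges to the law of `cS`**): B1-B5, `gx_S_rTr`, `gx_int`, `lt_together` (`X n y = (s_n⁻¹ ltS y (z a/s_n))_a`, `X^k y = (ltS y (z a))_a`), `LtJoint` -/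
theorem gx_full_lim (ρ : ℝ) (hρ : 0 < ρ) (U : Ultrafilter ℕ) (hU : (U : Filter ℕ) ≤ atTop) {μ : Measure Conf} [IsProbabilityMeasure μ]
    (J : LtJoint 0 U (limPW ρ) μ) (Δ : ℝ) (hΔ : 0 < Δ) {b : ℕ} (z : Fin b → ℂ) (hz : ∀ a, 0 < (z a).im) (Φ : (Fin b → ℂ) → ℝ) (hb : ∃ B : ℝ, ∀ v, |Φ v| ≤ B) (hl : ∃ Lc : NNReal, LipschitzWith Lc Φ) :
    Tendsto (fun n : ℕ => ∫ x, ∫ N, Φ (fun a => rTr (gxFull ρ Δ x N) (z a)) ∂(gArr (Fin n) (Fin n)) ∂(goeArray n)) U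
      (𝓝 (∫ x, Φ (fun a => cS x (z a)) ∂μ)) := by
  have hm : Measurable Φ := by
    obtain ⟨Lc, hL⟩ := hl
    exact hL.continuous.measurable
  have H := gx_trlaw ρ hρ U hU
  have key := lt_together (U := U) (Λ := limPW ρ) (μ := μ)
    (fun n y a => ((gxSc ρ Δ n : ℝ) : ℂ)⁻¹ * ltS y (z a / (gxSc ρ Δ n : ℝ))) (fun _ y a => ltS y (z a)) (fun x a => cS x (z a)) (fun _ x a => cS x (z a))
    (fun n => measurable_pi_lambda _ fun a => (lt_S_measurable _).const_mul _) (fun _ => measurable_pi_lambda _ fun a => lt_S_measurable _)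
    (measurable_pi_lambda _ fun a => lt_cS_measurable _) (fun _ => measurable_pi_lambda _ fun a => lt_cS_measurable _)
    Φ hb hl ?_ (ae_of_all _ fun x => tendsto_const_nhds) ?_
  · refine key.congr' ?_
    filter_upwards [hU (eventually_ge_atTop 1)] with n hn
    exact (gx_full_eq ρ hρ Δ hΔ z hz Φ hb hm hn).symm
  · intro _
    have := J b z hz Φ hb hl
    simpa using this
  · intro δ ε hδ hε
    refine ⟨0, fun _ _ => ?_⟩
    have hb1 : (0 : ℝ) < (b : ℝ) + 1 := by positivity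
    choose M hM using fun a => gx_S_tight ρ hρ U hU (hz a) (ε / (b + 1)) (by positivity)
    -- the deterministic constants
    set c : Fin b → ℝ := fun a => M a + ‖z a‖ * Real.sqrt (M a * M a / ((z a).im * ((z a).im / 2))) with hc
    have hs_lim : ∀ a, Tendsto (fun n : ℕ => (1 - (gxSc ρ Δ n)⁻¹) * c a) atTop (𝓝 0) := fun a => by
      have h1 := (gx_Sc_tendsto ρ Δ).inv₀ one_ne_zero
      have h2 := (tendsto_const_nhds (x := (1 : ℝ))).sub h1
      have h3 := h2.mul_const (c a)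
      simpa using h3
    have hev1 : ∀ᶠ n : ℕ in atTop, ∀ a, (1 - (gxSc ρ Δ n)⁻¹) * c a ≤ δ :=
      Filter.eventually_all.2 fun a => (hs_lim a).eventually (ge_mem_nhds hδ) |>.mono fun n h => h
    have hev2 : ∀ᶠ n : ℕ in atTop, gxSc ρ Δ n ≤ 2 := (gx_Sc_tendsto ρ Δ).eventually (ge_mem_nhds (by norm_num))
    filter_upwards [hU hev1, hU hev2, Filter.eventually_all.2 hM, H.fin] with n h1 h2 h3 hfin
    have hs1 := gx_Sc_one_le ρ hΔ n
    have hs0 : 0 < gxSc ρ Δ n := by linarith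
    obtain ⟨s, hs⟩ : ∃ s : ℝ, s = gxSc ρ Δ n := ⟨_, rfl⟩
    rw [← hs] at h1 h2 hs1 hs0 ⊢
    have hsub : {y : TpCf | δ < dist (fun a => ltS y (z a)) (fun a => ((s : ℝ) : ℂ)⁻¹ * ltS y (z a / (s : ℝ)))}
        ⊆ (⋃ a, {y : TpCf | ∃ s : ℝ, 1 ≤ s ∧ s ≤ 2 ∧ M a < ‖ltS y (z a / s)‖}) ∪ {y : TpCf | ¬ y ∈ ltFin} := by
      intro y hy
      by_contra hcon
      simp only [Set.mem_union, Set.mem_iUnion, Set.mem_ofPred_eq, not_or, not_exists, not_and, not_lt, not_not] at hcon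
      obtain ⟨hg, hyf⟩ := hcon
      have : dist (fun a => ltS y (z a)) (fun a => ((s : ℝ) : ℂ)⁻¹ * ltS y (z a / (s : ℝ))) ≤ δ := by
        rw [dist_pi_le_iff hδ.le]
        intro a
        rw [dist_comm, dist_eq_norm]
        refine (gx_scale_diff hyf hs1 (hz a)).trans (le_trans ?_ (h1 a))
        have hs1' : 0 ≤ 1 - s⁻¹ := by
          have : s⁻¹ ≤ 1 := inv_le_one_of_one_le₀ hs1
          linarith
        refine mul_le_mul_of_nonneg_left ?_ hs1'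
        have g1 : ‖ltS y (z a / s)‖ ≤ M a := hg a s hs1 h2
        have g2 : ‖ltS y (z a)‖ ≤ M a := by
          have := hg a 1 le_rfl (by norm_num)
          simpa using this
        have hM0 : 0 ≤ M a := (norm_nonneg _).trans g1
        have g3 : (ltS y (z a)).im * (ltS y (z a / s)).im ≤ M a * M a := by
          calc _ ≤ |(ltS y (z a)).im| * |(ltS y (z a / s)).im| := by
                rw [← abs_mul]; exact le_abs_self _
            _ ≤ M a * M a := mul_le_mul ((Complex.abs_im_le_norm _).trans g2) ((Complex.abs_im_le_norm _).trans g1) (abs_nonneg _) hM0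
        have g4 : (z a).im / 2 ≤ (z a / s).im := by
          rw [Complex.div_ofReal_im]
          exact div_le_div_of_nonneg_left (hz a).le hs0 h2
        have hza := hz a
        have g5 : (ltS y (z a)).im * (ltS y (z a / s)).im / ((z a).im * (z a / s).im) ≤ M a * M a / ((z a).im * ((z a).im / 2)) := by
          calc _ ≤ M a * M a / ((z a).im * (z a / s).im) := by
                have : 0 < (z a / s).im := lt_of_lt_of_le (by positivity) g4
                gcongr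
            _ ≤ _ := by gcongr
        simp only [hc]
        gcongr
      exact absurd hy (not_lt.2 this)
    calc _ ≤ (limPW ρ n : Measure TpCf) ((⋃ a, {y : TpCf | ∃ s : ℝ, 1 ≤ s ∧ s ≤ 2 ∧ M a < ‖ltS y (z a / s)‖}) ∪ {y : TpCf | ¬ y ∈ ltFin}) := measure_mono hsub
      _ ≤ (limPW ρ n : Measure TpCf) (⋃ a, {y : TpCf | ∃ s : ℝ, 1 ≤ s ∧ s ≤ 2 ∧ M a < ‖ltS y (z a / s)‖}) + (limPW ρ n : Measure TpCf) {y : TpCf | ¬ y ∈ ltFin} := measure_union_le _ _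
      _ ≤ (∑ a : Fin b, ENNReal.ofReal (ε / (b + 1))) + 0 := by
          refine add_le_add ((measure_iUnion_fintype_le _ _).trans (Finset.sum_le_sum fun a _ => h3 a)) (le_of_eq (ae_iff.1 hfin))
      _ ≤ ENNReal.ofReal ε := by
          rw [add_zero, ← ENNReal.ofReal_sum_of_nonneg (fun _ _ => by positivity)]
          refine ENNReal.ofReal_le_ofReal ?_
          rw [Finset.sum_const, Finset.card_univ, Fintype.card_fin, nsmul_eq_mul, mul_div_assoc', div_le_iff₀ hb1]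
          nlinarith

/-! ## 3. the cut -/

/-- **BLOCK G2 (helper252, `GoeG2.lean`): the cut `n → K`**, in expectation form -/
theorem gx_cut (ρ : ℝ) (hρ : 0 < ρ) (Δ : ℝ) (hΔ : 0 < Δ) {b : ℕ} (z : Fin b → ℂ) (hz : ∀ a, 0 < (z a).im) (Φ : (Fin b → ℂ) → ℝ) (hb : ∃ B : ℝ, ∀ v, |Φ v| ≤ B) (hl : ∃ Lc : NNReal, LipschitzWith Lc Φ)
    (ε : ℝ) (hε : 0 < ε) : ∃ K₀ : ℕ, ∀ K, K₀ ≤ K → ∀ᶠ n : ℕ in atTop,
      |(∫ x, ∫ N, Φ (fun a => rTr (gxFull ρ Δ x N) (z a)) ∂(gArr (Fin n) (Fin n)) ∂(goeArray n))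
        - ∫ x, ∫ N, Φ (fun a => rTr (cutM K Δ (gxCf ρ x) N) (z a)) ∂(gArr (Win K) (Win K)) ∂(goeArray n)| ≤ ε :=
  g2w_cut ρ hρ Δ hΔ z hz Φ hb hl ε hε

theorem gxc_goeOf_symm {ι : Type} (N : Matrix ι ι ℝ) : (goeOf N)ᵀ = goeOf N := by
  unfold goeOf
  rw [Matrix.transpose_smul, Matrix.transpose_add, Matrix.transpose_transpose, add_comm]

theorem gxc_herm {ι : Type} [DecidableEq ι] (w : ι → ℝ) (s : ℝ) (N : Matrix ι ι ℝ) : (Matrix.diagonal w + s • goeOf N).IsHermitian := by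
  rw [Matrix.IsHermitian, Matrix.conjTranspose_eq_transpose_of_trivial, Matrix.transpose_add, Matrix.diagonal_transpose,
    Matrix.transpose_smul, gxc_goeOf_symm]

theorem gxc_inv_continuousAt {ι : Type} [Fintype ι] [DecidableEq ι] (A : Matrix ι ι ℂ) (h : A.det ≠ 0) :
    ContinuousAt (fun B : Matrix ι ι ℂ => B⁻¹) A := by
  have e : (fun B : Matrix ι ι ℂ => B⁻¹) = fun B => (B.det)⁻¹ • B.adjugate := by
    funext B
    rw [Matrix.inv_def, Ring.inverse_eq_inv']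
  rw [e]
  exact ((continuous_id.matrix_det.continuousAt).inv₀ h).smul (continuous_id.matrix_adjugate.continuousAt)

theorem gxc_rTr_continuous {ι X : Type} [Fintype ι] [DecidableEq ι] [TopologicalSpace X] {F : X → Matrix ι ι ℝ} (hF : Continuous F)
    (hH : ∀ t, (F t).IsHermitian) {z : ℂ} (hz : z.im ≠ 0) : Continuous fun t => rTr (F t) z := by
  have hC : Continuous (fun H : Matrix ι ι ℝ => rsC H) :=
    continuous_pi fun i => continuous_pi fun j => Complex.continuous_ofReal.comp ((continuous_apply j).comp (continuous_apply i))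
  have hG : Continuous fun t => rsG (F t) z := by
    rw [continuous_iff_continuousAt]
    intro t
    have h1 : Continuous fun t => rsC (F t) - z • (1 : Matrix ι ι ℂ) := (hC.comp hF).sub continuous_const
    have h2 : (rsC (F t) - z • (1 : Matrix ι ι ℂ)).det ≠ 0 := (rs_isUnit (hH t) hz).ne_zero
    exact ContinuousAt.comp (f := fun t => rsC (F t) - z • (1 : Matrix ι ι ℂ)) (g := fun B : Matrix ι ι ℂ => B⁻¹)
      (gxc_inv_continuousAt _ h2) h1.continuousAt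
  exact hG.matrix_trace

/-- LEAF C1: the window functional is bounded continuous (`rTr (diag w + √Δ goeOf N) z` is continuous in `w`: resolvent identity, `‖G‖ ≤ 1/Im z`; dominated convergence) -/
theorem gx_cutF (K : ℕ) (Δ : ℝ) {b : ℕ} (z : Fin b → ℂ) (hz : ∀ a, 0 < (z a).im) (Φ : (Fin b → ℂ) → ℝ) (hb : ∃ B : ℝ, ∀ v, |Φ v| ≤ B) (hl : ∃ Lc : NNReal, LipschitzWith Lc Φ) :
    ∃ F : BoundedContinuousFunction (Win K → ℝ) ℝ, ∀ w : Win K → ℝ,
      F w = ∫ N, Φ (fun a => rTr (Matrix.diagonal w + Real.sqrt Δ • goeOf N) (z a)) ∂(gArr (Win K) (Win K)) := by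
  obtain ⟨B, hB⟩ := hb
  obtain ⟨Lc, hL⟩ := hl
  have hg : Continuous fun N : Matrix (Win K) (Win K) ℝ => Real.sqrt Δ • goeOf N := by
    unfold goeOf
    have h2 : Continuous fun N : Matrix (Win K) (Win K) ℝ => N + Nᵀ := continuous_id.add continuous_id.matrix_transpose
    exact (h2.const_smul ((Real.sqrt 2)⁻¹)).const_smul (Real.sqrt Δ)
  have hJ1 : ∀ w : Win K → ℝ, Continuous fun N : Matrix (Win K) (Win K) ℝ => Φ (fun a => rTr (Matrix.diagonal w + Real.sqrt Δ • goeOf N) (z a)) :=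
    fun w => hL.continuous.comp (continuous_pi fun a => gxc_rTr_continuous (F := fun N => Matrix.diagonal w + Real.sqrt Δ • goeOf N)
      (continuous_const.add hg) (fun N => gxc_herm w _ N) (hz a).ne')
  have hJ2 : ∀ N : Matrix (Win K) (Win K) ℝ, Continuous fun w : Win K → ℝ => Φ (fun a => rTr (Matrix.diagonal w + Real.sqrt Δ • goeOf N) (z a)) :=
    fun N => hL.continuous.comp (continuous_pi fun a => gxc_rTr_continuous (F := fun w => Matrix.diagonal w + Real.sqrt Δ • goeOf N)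
      (continuous_id.matrix_diagonal.add continuous_const) (fun w => gxc_herm w _ N) (hz a).ne')
  have hc : Continuous fun w : Win K → ℝ => ∫ N, Φ (fun a => rTr (Matrix.diagonal w + Real.sqrt Δ • goeOf N) (z a)) ∂(gArr (Win K) (Win K)) := by
    refine continuous_of_dominated (bound := fun _ => B) (fun w => ?_) (fun w => ae_of_all _ fun N => ?_) (integrable_const B) (ae_of_all _ fun N => hJ2 N)
    · exact (hJ1 w).measurable.aestronglyMeasurable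
    · rw [Real.norm_eq_abs]; exact hB _
  have hbd : ∀ w : Win K → ℝ, ‖∫ N, Φ (fun a => rTr (Matrix.diagonal w + Real.sqrt Δ • goeOf N) (z a)) ∂(gArr (Win K) (Win K))‖ ≤ B := by
    intro w
    have h1 := norm_integral_le_of_norm_le_const (μ := gArr (Win K) (Win K)) (C := B)
      (f := fun N => Φ (fun a => rTr (Matrix.diagonal w + Real.sqrt Δ • goeOf N) (z a)))
      (ae_of_all _ fun N => by rw [Real.norm_eq_abs]; exact hB _)
    simpa using h1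
  exact ⟨BoundedContinuousFunction.ofNormedAddCommGroup _ hc B hbd, fun w => rfl⟩

/-- convergence of the cut functional along `U` -/
theorem gx_cut_lim (ρ : ℝ) (U : Ultrafilter ℕ) {μ : Measure Conf} (L : LtLim 0 U (limPW ρ) μ) (K : ℕ) (Δ : ℝ) {b : ℕ} (z : Fin b → ℂ) (hz : ∀ a, 0 < (z a).im)
    (Φ : (Fin b → ℂ) → ℝ) (hb : ∃ B : ℝ, ∀ v, |Φ v| ≤ B) (hl : ∃ Lc : NNReal, LipschitzWith Lc Φ) :
    Tendsto (fun n : ℕ => ∫ x, ∫ N, Φ (fun a => rTr (cutM K Δ (gxCf ρ x) N) (z a)) ∂(gArr (Win K) (Win K)) ∂(goeArray n)) U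
      (𝓝 (∫ x, ∫ N, Φ (fun a => rTr (cutM K Δ x N) (z a)) ∂(gArr (Win K) (Win K)) ∂μ)) := by
  obtain ⟨F, hF⟩ := gx_cutF K Δ z hz Φ hb hl
  have h := L.win (Win K) wIdx F
  have e1 : ∀ n : ℕ, ∫ y, F (fun i => (y (wIdx i)).toReal) ∂(limPW ρ n : Measure TpCf)
      = ∫ x, ∫ N, Φ (fun a => rTr (cutM K Δ (gxCf ρ x) N) (z a)) ∂(gArr (Win K) (Win K)) ∂(goeArray n) := by
    intro n
    rw [gx_int ρ n (fun y => F (fun i => (y (wIdx i)).toReal))
      (F.continuous.measurable.comp (measurable_pi_lambda _ fun i => (measurable_pi_apply (wIdx i)).ereal_toReal))]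
    refine integral_congr_ae (ae_of_all _ fun x => ?_)
    simp only
    rw [hF]
    rfl
  have e2 : ∫ x, F (fun i => x (wIdx i)) ∂μ = ∫ x, ∫ N, Φ (fun a => rTr (cutM K Δ x N) (z a)) ∂(gArr (Win K) (Win K)) ∂μ := by
    refine integral_congr_ae (ae_of_all _ fun x => ?_)
    simp only
    rw [hF]
    rfl
  rw [← e2]
  exact h.congr e1

/-! ## 4. (I) and the exit -/

theorem gx_stat (ρ : ℝ) (hρ : 0 < ρ) (U : Ultrafilter ℕ) (hU : (U : Filter ℕ) ≤ atTop) {μ : Measure Conf} [IsProbabilityMeasure μ] {ξ : ℝ}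
    (hR : LReg ρ ξ μ) (L : LtLim 0 U (limPW ρ) μ) (J : LtJoint 0 U (limPW ρ) μ) : LStat μ := by
  intro Δ hΔ b z hz Φ hb hl
  have hB := lt_cSK_lim hρ hR z hz Φ hb hl
  set Lim : ℝ := ∫ x, Φ (fun a => cS x (z a)) ∂μ with hLim
  have hA : Tendsto (fun K : ℕ => ∫ x, ∫ N, Φ (fun a => rTr (cutM K Δ x N) (z a)) ∂(gArr (Win K) (Win K)) ∂μ) atTop (𝓝 Lim) := by
    rw [Metric.tendsto_atTop]
    intro ε hε
    obtain ⟨K₀, hK₀⟩ := gx_cut ρ hρ Δ hΔ z hz Φ hb hl (ε / 2) (half_pos hε)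
    refine ⟨K₀, fun K hK => ?_⟩
    have h1 := gx_full_lim ρ hρ U hU J Δ hΔ z hz Φ hb hl
    have h2 := gx_cut_lim ρ U L K Δ z hz Φ hb hl
    have h3 := (h1.sub h2).abs
    have h4 : |Lim - ∫ x, ∫ N, Φ (fun a => rTr (cutM K Δ x N) (z a)) ∂(gArr (Win K) (Win K)) ∂μ| ≤ ε / 2 :=
      le_of_tendsto h3 (hU (hK₀ K hK))
    rw [Real.dist_eq, abs_sub_comm]
    linarith
  have := hA.sub hB
  rwa [sub_self] at this

/-- **EXIT GOE** -/
theorem gx_exit (ρ : ℝ) (hρ : 0 < ρ) (U : Ultrafilter ℕ) (hU : (U : Filter ℕ) ≤ atTop) :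
    ∃ μ : Measure Conf, IsProbabilityMeasure μ ∧ LReg ρ (3 / 5) μ ∧ LStat μ ∧
      ∀ h : ℝ → ℝ, Continuous h → HasCompactSupport h → (∀ t, 0 ≤ h t) →
        Tendsto (fun n => goeLaplace n h) U (𝓝 (cLap μ fun t => h (ρ * t))) := by
  obtain ⟨μ, hp, hR, L, J⟩ := lt_main hρ (by norm_num) (by norm_num) (gx_trlaw ρ hρ U hU)
  refine ⟨μ, hp, hR, gx_stat ρ hρ U hU hR L J, fun h hc hs hnn => ?_⟩
  have hgc : Continuous fun t => h (ρ * t) := hc.comp (continuous_const.mul continuous_id)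
  have hgs : HasCompactSupport fun t => h (ρ * t) := hs.comp_homeomorph (Homeomorph.mulLeft₀ _ hρ.ne')
  refine (L.lap _ hgc hgs fun t => hnn _).congr fun n => ?_
  rw [lim_PW_coe, tp_goeLaplace_eq hc hs hnn hρ]

end Claimed.Agent.R287
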