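-- KEEP
import Claimed.Agent.R287.S4
import Claimed.Agent.R287.Sw292

/-!
# Row 287 (S0534), unit S4: elementary probability on the sample space `(G, v, w)`      (helper289; prefix `s4`; ALL PROVED)

`s4Ec` (conditional expectation given the graph): `s4_Ec_rep`, `_mono`, `_congr`, `_lin`, `_sum`, `_const`, `_marg` (iid edges), `_end`, `_end2` (end points are uniform, independent), `_markov`, `_ind` (induced matching).
`s4Eg`: `_mono`, `_congr`, `_lin`, `_const`.      `s4E`: `_mono`, `_congr`, `_lin`, `_graph`, `_const`, `_marg`, `_abs_le`, `_close`, `_exch` (exchangeability under the switch).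
`s4Pr`: `_mono`, `_mono'`, `_nonneg`, `_le_one`, `_or`, `_graph`, `_marg`.
-/

set_option autoImplicit false

namespace Claimed.Agent.R287

open MeasureTheory ProbabilityTheory Matrix Filter Topology Claims.C0462

noncomputable section

/-! ## A. elementary probability on the sample space      (ALL PROVED, helper289) -/

open Classical in
/-- indicator of an oriented edge -/
def s4Ie {n : ℕ} (G : SimpleGraph (Fin n)) (p : Fin n × Fin n) : ℝ := if G.Adj p.1 p.2 then 1 else 0

open Classical in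
theorem s4_Ec_rep {n : ℕ} (d k : ℕ) (G : SimpleGraph (Fin n)) (F : (Fin k → Fin n) → (Fin k → Fin n) → ℝ) :
    s4Ec d k G F = (∑ p : Fin k → Fin n × Fin n, (∏ a, s4Ie G (p a)) * F (fun a => (p a).1) (fun a => (p a).2)) / ((n : ℝ) * d) ^ k := by
  unfold s4Ec
  congr 1
  rw [← Fintype.sum_prod_type']
  refine (Fintype.sum_equiv (Equiv.arrowProdEquivProdArrow (Fin k) (fun _ => Fin n) (fun _ => Fin n)) _ _ fun p => ?_).symm
  simp only [s4Ie, Finset.prod_ite_zero, Finset.mem_univ, true_imp_iff, Finset.prod_const_one, Equiv.arrowProdEquivProdArrow_apply]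
  split_ifs <;> simp

/-- marginals of a product weight -/
theorem s4_sum_marg {α ι κ : Type} [Fintype α] [Fintype ι] [Fintype κ] [DecidableEq ι] [DecidableEq κ] (e : α → ℝ) (φ : κ → ι)
    (hφ : Function.Injective φ) (F : (κ → α) → ℝ) :
    ∑ p : ι → α, (∏ a, e (p a)) * F (p ∘ φ) = (∑ x, e x) ^ (Fintype.card ι - Fintype.card κ) * ∑ q : κ → α, (∏ a, e (q a)) * F q := by
  classical
  rw [← (Equiv.piEquivPiSubtypeProd (fun a => a ∈ Set.range φ) (fun _ : ι => α)).symm.sum_comp, Fintype.sum_prod_type]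
  have h1 : ∀ (q1 : {a // a ∈ Set.range φ} → α) (q2 : {a // ¬ a ∈ Set.range φ} → α),
      (∏ a, e ((Equiv.piEquivPiSubtypeProd (fun a => a ∈ Set.range φ) (fun _ : ι => α)).symm (q1, q2) a)) * F ((Equiv.piEquivPiSubtypeProd (fun a => a ∈ Set.range φ) (fun _ : ι => α)).symm (q1, q2) ∘ φ)
        = (∏ a, e (q2 a)) * ((∏ a, e (q1 a)) * F (fun b => q1 ⟨φ b, b, rfl⟩)) := by
    intro q1 q2
    rw [← Fintype.prod_subtype_mul_prod_subtype (fun a => a ∈ Set.range φ)]
    have e1 : ∀ a : {a // a ∈ Set.range φ}, (Equiv.piEquivPiSubtypeProd (fun a => a ∈ Set.range φ) (fun _ : ι => α)).symm (q1, q2) a = q1 a := by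
      intro a
      show (if h : (a : ι) ∈ Set.range φ then q1 ⟨a, h⟩ else q2 ⟨a, h⟩) = _
      rw [dif_pos a.2]
    have e2 : ∀ a : {a // ¬ a ∈ Set.range φ}, (Equiv.piEquivPiSubtypeProd (fun a => a ∈ Set.range φ) (fun _ : ι => α)).symm (q1, q2) a = q2 a := by
      intro a
      show (if h : (a : ι) ∈ Set.range φ then q1 ⟨a, h⟩ else q2 ⟨a, h⟩) = _
      rw [dif_neg a.2]
    have e3 : (Equiv.piEquivPiSubtypeProd (fun a => a ∈ Set.range φ) (fun _ : ι => α)).symm (q1, q2) ∘ φ = fun b => q1 ⟨φ b, b, rfl⟩ := by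
      funext b
      exact e1 ⟨φ b, b, rfl⟩
    simp only [e1, e2, e3]
    have hr : ∀ x y z : ℝ, x * y * z = y * (x * z) := fun x y z => by ring
    rw [hr]
    congr!
  simp only [h1]
  rw [Finset.sum_comm]
  simp only [← Finset.mul_sum]
  rw [← Finset.sum_mul]
  congr 1
  · have := (Finset.prod_univ_sum (fun _ : {a // ¬ a ∈ Set.range φ} => (Finset.univ : Finset α)) (fun _ x => e x)).symm
    rw [Fintype.piFinset_univ] at this
    rw [this, Finset.prod_const, Finset.card_univ, Fintype.card_subtype_compl]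
    congr 2
    exact Fintype.card_congr (Equiv.ofInjective φ hφ).symm
  · refine Fintype.sum_equiv (Equiv.arrowCongr (Equiv.ofInjective φ hφ).symm (Equiv.refl α)) _ _ fun q => ?_
    congr 1
    exact ((Equiv.ofInjective φ hφ).prod_comp fun a => e (q a)).symm


theorem s4_Ie_left {n d : ℕ} {G : SimpleGraph (Fin n)} (hG : G ∈ regularGraphs n d) (x : Fin n) : ∑ y, s4Ie G (x, y) = d := by
  classical
  have h := sw7_mem_reg.1 hG x
  have h2 : ((∑ y, (if G.Adj x y then (1 : ℤ) else 0) : ℤ) : ℝ) = ((d : ℤ) : ℝ) := by rw [h]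
  push_cast at h2
  rw [← h2]
  refine Finset.sum_congr rfl fun y _ => ?_
  unfold s4Ie
  congr

theorem s4_Ie_symm {n : ℕ} (G : SimpleGraph (Fin n)) (x y : Fin n) : s4Ie G (x, y) = s4Ie G (y, x) := by
  unfold s4Ie
  by_cases h : G.Adj x y
  · rw [if_pos h, if_pos h.symm]
  · rw [if_neg h, if_neg fun h' => h h'.symm]

theorem s4_Ie_right {n d : ℕ} {G : SimpleGraph (Fin n)} (hG : G ∈ regularGraphs n d) (y : Fin n) : ∑ x, s4Ie G (x, y) = d := by
  simp only [s4_Ie_symm G _ y]
  exact s4_Ie_left hG y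

theorem s4_Ie_sum {n d : ℕ} {G : SimpleGraph (Fin n)} (hG : G ∈ regularGraphs n d) : ∑ p, s4Ie G p = (n : ℝ) * d := by
  rw [Fintype.sum_prod_type]
  simp only [s4_Ie_left hG]
  simp

/-- the projection of an oriented edge on the end point of type `c` -/
def s4Pj {n k : ℕ} (c : Ch k) : Fin n × Fin n → Fin n := Sum.elim (fun _ => Prod.fst) (fun _ => Prod.snd) c

theorem s4_Ie_pj {n d k : ℕ} {G : SimpleGraph (Fin n)} (hG : G ∈ regularGraphs n d) (c : Ch k) (h : Fin n → ℝ) :
    ∑ p, s4Ie G p * h (s4Pj c p) = d * ∑ x, h x := by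
  rcases c with a | a
  · rw [Fintype.sum_prod_type, Finset.mul_sum]
    refine Finset.sum_congr rfl fun x _ => ?_
    simp only [s4Pj, Sum.elim_inl]
    rw [← Finset.sum_mul, s4_Ie_left hG]
  · rw [Fintype.sum_prod_type_right, Finset.mul_sum]
    refine Finset.sum_congr rfl fun x _ => ?_
    simp only [s4Pj, Sum.elim_inr]
    rw [← Finset.sum_mul, s4_Ie_right hG]

theorem s4_Ec_mono {n d k : ℕ} (G : SimpleGraph (Fin n)) {F F' : (Fin k → Fin n) → (Fin k → Fin n) → ℝ}
    (h : ∀ v w, (∀ a, G.Adj (v a) (w a)) → F v w ≤ F' v w) : s4Ec d k G F ≤ s4Ec d k G F' := by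
  unfold s4Ec
  refine div_le_div_of_nonneg_right (Finset.sum_le_sum fun v _ => Finset.sum_le_sum fun w _ => ?_) (by positivity)
  split_ifs with hc
  · exact h v w hc
  · exact le_rfl

theorem s4_Ec_lin {n d k : ℕ} (G : SimpleGraph (Fin n)) (F F' : (Fin k → Fin n) → (Fin k → Fin n) → ℝ) (a a' : ℝ) :
    s4Ec d k G (fun v w => a * F v w + a' * F' v w) = a * s4Ec d k G F + a' * s4Ec d k G F' := by
  unfold s4Ec
  rw [mul_div_assoc', mul_div_assoc', ← add_div, Finset.mul_sum, Finset.mul_sum, ← Finset.sum_add_distrib]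
  congr 1
  refine Finset.sum_congr rfl fun v _ => ?_
  rw [Finset.mul_sum, Finset.mul_sum, ← Finset.sum_add_distrib]
  refine Finset.sum_congr rfl fun w _ => ?_
  split_ifs <;> simp

/-- marginals: the edges are iid (product structure of the list of oriented edges; `Fintype.piFinset`, `Finset.prod_univ_sum`) -/
theorem s4_Ec_marg {n d k k' : ℕ} {G : SimpleGraph (Fin n)} (hG : G ∈ regularGraphs n d) (hn : 0 < n * d) (φ : Fin k' → Fin k)
    (hφ : Function.Injective φ) (F : (Fin k' → Fin n) → (Fin k' → Fin n) → ℝ) :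
    s4Ec d k G (fun v w => F (v ∘ φ) (w ∘ φ)) = s4Ec d k' G F := by
  rw [s4_Ec_rep, s4_Ec_rep]
  have h := s4_sum_marg (s4Ie G) φ hφ (fun q => F (fun a => (q a).1) (fun a => (q a).2))
  have hk : k' ≤ k := by simpa using Fintype.card_le_of_injective φ hφ
  have hnd : ((n : ℝ) * d) ≠ 0 := by
    have : (0 : ℝ) < ((n * d : ℕ) : ℝ) := by exact_mod_cast hn
    push_cast at this
    exact this.ne'
  have e : (∑ p : Fin k → Fin n × Fin n, (∏ a, s4Ie G (p a)) * F ((fun a => (p a).1) ∘ φ) ((fun a => (p a).2) ∘ φ))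
      = ((n : ℝ) * d) ^ (k - k') * ∑ q : Fin k' → Fin n × Fin n, (∏ a, s4Ie G (q a)) * F (fun a => (q a).1) (fun a => (q a).2) := by
    rw [← s4_Ie_sum hG]
    simp only [Fintype.card_fin] at h
    exact h
  rw [e, div_eq_div_iff (pow_ne_zero _ hnd) (pow_ne_zero _ hnd)]
  have : ((n : ℝ) * d) ^ k = ((n : ℝ) * d) ^ (k - k') * ((n : ℝ) * d) ^ k' := by rw [← pow_add]; congr 1; omega
  rw [this]
  ring

/-- a `d`-regular graph on `n` vertices has `(n d)^k` lists of `k` oriented edges -/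
theorem s4_Ec_const {n d k : ℕ} {G : SimpleGraph (Fin n)} (hG : G ∈ regularGraphs n d) (hn : 0 < n * d) (c : ℝ) :
    s4Ec d k G (fun _ _ => c) = c := by
  have h := s4_Ec_marg (k := k) (k' := 0) hG hn Fin.elim0 (fun a => a.elim0) (fun _ _ => c)
  rw [h]
  unfold s4Ec
  simp

/-- the edge of an end point -/
def chE {k : ℕ} : Ch k → Fin k := Sum.elim id id

theorem s4_End_pj {n k : ℕ} (v w : Fin k → Fin n) (c : Ch k) : s4End v w c = s4Pj c (v (chE c), w (chE c)) := by
  rcases c with a | a <;> rfl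

/-- an end point of a uniform oriented edge is a uniform vertex -/
theorem s4_Ec_end {n d k : ℕ} {G : SimpleGraph (Fin n)} (hG : G ∈ regularGraphs n d) (hn : 0 < n * d) (c : Ch k) (f : Fin n → ℝ) :
    s4Ec d k G (fun v w => f (s4End v w c)) = (∑ x, f x) / n := by
  have h := s4_Ec_marg (k := k) (k' := 1) hG hn (fun _ => chE c) (fun a b _ => Subsingleton.elim a b) (fun v w => f (s4Pj c (v 0, w 0)))
  have e : (fun (v w : Fin k → Fin n) => f (s4End v w c)) = fun v w => f (s4Pj c ((v ∘ fun _ : Fin 1 => chE c) 0, (w ∘ fun _ : Fin 1 => chE c) 0)) := by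
    funext v w
    rw [s4_End_pj]
    rfl
  rw [e, h, s4_Ec_rep]
  have e2 : (∑ p : Fin 1 → Fin n × Fin n, (∏ a, s4Ie G (p a)) * f (s4Pj c ((p 0).1, (p 0).2))) = ∑ p, s4Ie G p * f (s4Pj c p) := by
    refine Fintype.sum_equiv (Equiv.funUnique (Fin 1) (Fin n × Fin n)) _ _ fun p => ?_
    simp [Equiv.funUnique]
  rw [e2, s4_Ie_pj hG]
  have hd : (d : ℝ) ≠ 0 := by
    have : d ≠ 0 := by rintro rfl; simp at hn
    exact_mod_cast this
  have hn' : (n : ℝ) ≠ 0 := by
    have : n ≠ 0 := by rintro rfl; simp at hn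
    exact_mod_cast this
  field_simp

/-- end points of two different sampled edges are independent uniform vertices -/
theorem s4_Ec_end2 {n d k : ℕ} {G : SimpleGraph (Fin n)} (hG : G ∈ regularGraphs n d) (hn : 0 < n * d) {c c' : Ch k} (hc : chE c ≠ chE c')
    (f : Fin n → Fin n → ℝ) : s4Ec d k G (fun v w => f (s4End v w c) (s4End v w c')) = (∑ x, ∑ y, f x y) / (n : ℝ) ^ 2 := by
  have hφ : Function.Injective ![chE c, chE c'] := by
    intro a b hab
    fin_cases a <;> fin_cases b <;> simp_all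
  have h := s4_Ec_marg (k := k) (k' := 2) hG hn ![chE c, chE c'] hφ (fun v w => f (s4Pj c (v 0, w 0)) (s4Pj c' (v 1, w 1)))
  have e : (fun (v w : Fin k → Fin n) => f (s4End v w c) (s4End v w c'))
      = fun v w => f (s4Pj c ((v ∘ ![chE c, chE c']) 0, (w ∘ ![chE c, chE c']) 0)) (s4Pj c' ((v ∘ ![chE c, chE c']) 1, (w ∘ ![chE c, chE c']) 1)) := by
    funext v w
    rw [s4_End_pj, s4_End_pj]
    rfl
  rw [e, h, s4_Ec_rep]
  have e2 : (∑ p : Fin 2 → Fin n × Fin n, (∏ a, s4Ie G (p a)) * f (s4Pj c ((p 0).1, (p 0).2)) (s4Pj c' ((p 1).1, (p 1).2)))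
      = ∑ p, s4Ie G p * ∑ p', s4Ie G p' * f (s4Pj c p) (s4Pj c' p') := by
    simp only [Finset.mul_sum]
    rw [← Fintype.sum_prod_type']
    refine Fintype.sum_equiv (finTwoArrowEquiv (Fin n × Fin n)) _ _ fun p => ?_
    simp [finTwoArrowEquiv, Fin.prod_univ_two, mul_assoc]
  rw [e2]
  have e3 : ∀ p : Fin n × Fin n, ∑ p', s4Ie G p' * f (s4Pj c p) (s4Pj c' p') = (d : ℝ) * ∑ y, f (s4Pj c p) y :=
    fun p => s4_Ie_pj hG c' (fun y => f (s4Pj c p) y)
  simp only [e3]
  rw [s4_Ie_pj hG c (fun x => (d : ℝ) * ∑ y, f x y)]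
  have hd : (d : ℝ) ≠ 0 := by
    have : d ≠ 0 := by rintro rfl; simp at hn
    exact_mod_cast this
  have hn' : (n : ℝ) ≠ 0 := by
    have : n ≠ 0 := by rintro rfl; simp at hn
    exact_mod_cast this
  rw [← Finset.mul_sum]
  field_simp


open Classical in
/-- Markov -/
theorem s4_Ec_markov {n d k : ℕ} (G : SimpleGraph (Fin n)) (F : (Fin k → Fin n) → (Fin k → Fin n) → ℝ) (hF : ∀ v w, 0 ≤ F v w) {t : ℝ} (ht : 0 < t) :
    s4Ec d k G (fun v w => if t < F v w then 1 else 0) ≤ s4Ec d k G F / t := by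
  have h := s4_Ec_lin (d := d) G F F t⁻¹ 0
  have h2 : s4Ec d k G F / t = s4Ec d k G (fun v w => t⁻¹ * F v w + 0 * F v w) := by rw [h]; ring
  rw [h2]
  refine s4_Ec_mono G fun v w _ => ?_
  split_ifs with hc
  · rw [zero_mul, add_zero, inv_mul_eq_div, le_div_iff₀ ht]
    linarith
  · have := hF v w
    positivity

/-- finite sums under `s4Ec` -/
theorem s4_Ec_sum {n d k : ℕ} {ι : Type} (G : SimpleGraph (Fin n)) (s : Finset ι) (F : ι → (Fin k → Fin n) → (Fin k → Fin n) → ℝ) :
    s4Ec d k G (fun v w => ∑ i ∈ s, F i v w) = ∑ i ∈ s, s4Ec d k G (F i) := by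
  classical
  induction s using Finset.induction_on with
  | empty =>
    simp [s4Ec]
  | insert i s hi ih =>
    simp only [Finset.sum_insert hi]
    have := s4_Ec_lin (d := d) G (F i) (fun v w => ∑ i ∈ s, F i v w) 1 1
    simp only [one_mul] at this
    rw [this, ih]

open Classical in
/-- the sampled edges form an induced matching (for EVERY regular graph) -/
theorem s4_Ec_ind {n d k : ℕ} {G : SimpleGraph (Fin n)} (hG : G ∈ regularGraphs n d) (hn : 0 < n * d) :
    s4Ec d k G (fun v w => if Sw7Ind G v w then 0 else 1) ≤ 4 * (k : ℝ) ^ 2 * ((d : ℝ) + 1) / n := by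
  have hn' : (0 : ℝ) < n := by
    have : n ≠ 0 := by rintro rfl; simp at hn
    exact_mod_cast Nat.pos_of_ne_zero this
  have h1 : s4Ec d k G (fun v w => if Sw7Ind G v w then 0 else 1)
      ≤ s4Ec d k G (fun v w => ∑ cc ∈ (Finset.univ : Finset (Ch k × Ch k)).filter (fun cc => chE cc.1 ≠ chE cc.2),
          (fun x y => if x = y ∨ G.Adj x y then (1 : ℝ) else 0) (s4End v w cc.1) (s4End v w cc.2)) := by
    refine s4_Ec_mono G fun v w hvw => ?_
    have hnn : 0 ≤ ∑ cc ∈ (Finset.univ : Finset (Ch k × Ch k)).filter (fun cc => chE cc.1 ≠ chE cc.2),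
          (fun x y => if x = y ∨ G.Adj x y then (1 : ℝ) else 0) (s4End v w cc.1) (s4End v w cc.2) :=
      Finset.sum_nonneg fun cc _ => by dsimp only; split_ifs <;> norm_num
    split_ifs with hI
    · exact hnn
    · by_contra hlt
      apply hI
      have hall : ∀ c c' : Ch k, chE c ≠ chE c' → s4End v w c ≠ s4End v w c' ∧ ¬ G.Adj (s4End v w c) (s4End v w c') := by
        intro c c' hcc
        by_contra hbad
        apply hlt
        have hmem : (c, c') ∈ (Finset.univ : Finset (Ch k × Ch k)).filter (fun cc => chE cc.1 ≠ chE cc.2) := by simp [hcc]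
        refine le_trans ?_ (Finset.single_le_sum (f := fun cc : Ch k × Ch k => (fun x y => if x = y ∨ G.Adj x y then (1 : ℝ) else 0) (s4End v w cc.1) (s4End v w cc.2))
          (fun cc _ => by dsimp only; split_ifs <;> norm_num) hmem)
        dsimp only
        rw [if_pos]
        by_contra h3
        exact hbad ⟨fun h => h3 (Or.inl h), fun h => h3 (Or.inr h)⟩
      have hsame : ∀ c c' : Ch k, chE c = chE c' → c' = c ∨ c' = c.swap := by
        intro c c' h
        rcases c with a | a <;> rcases c' with b | b <;> simp_all [chE]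
      have hsw : ∀ c : Ch k, G.Adj (s4End v w c) (s4End v w c.swap) := by
        intro c
        rcases c with a | a
        · exact hvw a
        · exact (hvw a).symm
      refine ⟨fun c c' hcc => ?_, fun c c' => ⟨fun hadj => ?_, fun h => ?_⟩⟩
      · by_contra hne
        by_cases hE : chE c = chE c'
        · rcases hsame c c' hE with h | h
          · exact hne h.symm
          · have := hsw c
            rw [← h] at this
            exact this.ne hcc
        · exact (hall c c' hE).1 hcc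
      · by_cases hE : chE c = chE c'
        · rcases hsame c c' hE with h | h
          · rw [h] at hadj
            exact absurd rfl hadj.ne
          · exact h
        · exact absurd hadj (hall c c' hE).2
      · rw [h]
        exact hsw c
  refine h1.trans ?_
  rw [s4_Ec_sum]
  have h2 : ∀ cc ∈ (Finset.univ : Finset (Ch k × Ch k)).filter (fun cc => chE cc.1 ≠ chE cc.2),
      s4Ec d k G (fun v w => (fun x y => if x = y ∨ G.Adj x y then (1 : ℝ) else 0) (s4End v w cc.1) (s4End v w cc.2)) ≤ ((d : ℝ) + 1) / n := by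
    intro cc hcc
    rw [s4_Ec_end2 hG hn (Finset.mem_filter.1 hcc).2 (fun x y => if x = y ∨ G.Adj x y then (1 : ℝ) else 0)]
    have h3 : ∀ x : Fin n, ∑ y, (if x = y ∨ G.Adj x y then (1 : ℝ) else 0) ≤ (d : ℝ) + 1 := by
      intro x
      calc ∑ y, (if x = y ∨ G.Adj x y then (1 : ℝ) else 0) ≤ ∑ y, (s4Ie G (x, y) + if x = y then (1 : ℝ) else 0) := by
            refine Finset.sum_le_sum fun y _ => ?_
            unfold s4Ie
            by_cases h1 : x = y <;> by_cases h2 : G.Adj x y <;> simp [h1, h2]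
        _ = (d : ℝ) + 1 := by
            rw [Finset.sum_add_distrib, s4_Ie_left hG]
            simp
    calc (∑ x, ∑ y, (if x = y ∨ G.Adj x y then (1 : ℝ) else 0)) / (n : ℝ) ^ 2 ≤ (∑ _x : Fin n, ((d : ℝ) + 1)) / (n : ℝ) ^ 2 :=
          div_le_div_of_nonneg_right (Finset.sum_le_sum fun x _ => h3 x) (by positivity)
      _ = ((d : ℝ) + 1) / n := by
          simp only [Finset.sum_const, Finset.card_univ, Fintype.card_fin, nsmul_eq_mul]
          field_simp
  refine (Finset.sum_le_sum h2).trans ?_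
  rw [Finset.sum_const, nsmul_eq_mul]
  have h4 : (((Finset.univ : Finset (Ch k × Ch k)).filter (fun cc => chE cc.1 ≠ chE cc.2)).card : ℝ) ≤ 4 * (k : ℝ) ^ 2 := by
    have : ((Finset.univ : Finset (Ch k × Ch k)).filter (fun cc => chE cc.1 ≠ chE cc.2)).card ≤ (Finset.univ : Finset (Ch k × Ch k)).card := Finset.card_filter_le _ _
    have h5 : (Finset.univ : Finset (Ch k × Ch k)).card = (k + k) * (k + k) := by simp [Ch]
    rw [h5] at this
    have h6 : (((Finset.univ : Finset (Ch k × Ch k)).filter (fun cc => chE cc.1 ≠ chE cc.2)).card : ℝ) ≤ (((k + k) * (k + k) : ℕ) : ℝ) := by exact_mod_cast this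
    refine h6.trans (le_of_eq ?_)
    push_cast
    ring
  calc _ ≤ 4 * (k : ℝ) ^ 2 * (((d : ℝ) + 1) / n) := mul_le_mul_of_nonneg_right h4 (by positivity)
    _ = _ := by ring


theorem s4_Ec_congr {n d k : ℕ} (G : SimpleGraph (Fin n)) {F F' : (Fin k → Fin n) → (Fin k → Fin n) → ℝ}
    (h : ∀ v w, (∀ a, G.Adj (v a) (w a)) → F v w = F' v w) : s4Ec d k G F = s4Ec d k G F' :=
  le_antisymm (s4_Ec_mono G fun v w hvw => (h v w hvw).le) (s4_Ec_mono G fun v w hvw => (h v w hvw).ge)

theorem s4_Eg_mono {n d : ℕ} {F F' : SimpleGraph (Fin n) → ℝ} (h : ∀ G ∈ regularGraphs n d, F G ≤ F' G) : s4Eg n d F ≤ s4Eg n d F' :=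
  div_le_div_of_nonneg_right (Finset.sum_le_sum h) (by positivity)

theorem s4_Eg_congr {n d : ℕ} {F F' : SimpleGraph (Fin n) → ℝ} (h : ∀ G ∈ regularGraphs n d, F G = F' G) : s4Eg n d F = s4Eg n d F' := by
  unfold s4Eg
  rw [Finset.sum_congr rfl h]

theorem s4_Eg_lin {n d : ℕ} (F F' : SimpleGraph (Fin n) → ℝ) (a a' : ℝ) :
    s4Eg n d (fun G => a * F G + a' * F' G) = a * s4Eg n d F + a' * s4Eg n d F' := by
  unfold s4Eg
  rw [Finset.sum_add_distrib, ← Finset.mul_sum, ← Finset.mul_sum]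
  ring

theorem s4_Eg_const {n d : ℕ} (hne : (regularGraphs n d).Nonempty) (c : ℝ) : s4Eg n d (fun _ => c) = c := by
  unfold s4Eg
  have : ((regularGraphs n d).card : ℝ) ≠ 0 := by exact_mod_cast hne.card_pos.ne'
  rw [Finset.sum_const, nsmul_eq_mul]
  field_simp

theorem s4_E_mono {n d k : ℕ} {F F' : SimpleGraph (Fin n) → (Fin k → Fin n) → (Fin k → Fin n) → ℝ}
    (h : ∀ G ∈ regularGraphs n d, ∀ v w, (∀ a, G.Adj (v a) (w a)) → F G v w ≤ F' G v w) : s4E n d k F ≤ s4E n d k F' :=
  s4_Eg_mono fun G hG => s4_Ec_mono G (h G hG)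

theorem s4_E_congr {n d k : ℕ} {F F' : SimpleGraph (Fin n) → (Fin k → Fin n) → (Fin k → Fin n) → ℝ}
    (h : ∀ G ∈ regularGraphs n d, ∀ v w, (∀ a, G.Adj (v a) (w a)) → F G v w = F' G v w) : s4E n d k F = s4E n d k F' :=
  s4_Eg_congr fun G hG => s4_Ec_congr G (h G hG)

theorem s4_E_lin {n d k : ℕ} (F F' : SimpleGraph (Fin n) → (Fin k → Fin n) → (Fin k → Fin n) → ℝ) (a a' : ℝ) :
    s4E n d k (fun G v w => a * F G v w + a' * F' G v w) = a * s4E n d k F + a' * s4E n d k F' := by
  unfold s4E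
  simp only [s4_Ec_lin]
  exact s4_Eg_lin _ _ a a'

theorem s4_E_graph {n d k : ℕ} (hn : 0 < n * d) (F : SimpleGraph (Fin n) → ℝ) : s4E n d k (fun G _ _ => F G) = s4Eg n d F :=
  s4_Eg_congr fun _ hG => s4_Ec_const hG hn _

theorem s4_E_const {n d k : ℕ} (hne : (regularGraphs n d).Nonempty) (hn : 0 < n * d) (c : ℝ) : s4E n d k (fun _ _ _ => c) = c := by
  rw [s4_E_graph hn, s4_Eg_const hne]

theorem s4_E_marg {n d k k' : ℕ} (hn : 0 < n * d) (φ : Fin k' → Fin k) (hφ : Function.Injective φ)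
    (F : SimpleGraph (Fin n) → (Fin k' → Fin n) → (Fin k' → Fin n) → ℝ) :
    s4E n d k (fun G v w => F G (v ∘ φ) (w ∘ φ)) = s4E n d k' F :=
  s4_Eg_congr fun G hG => s4_Ec_marg hG hn φ hφ (F G)

theorem s4_E_abs_le {n d k : ℕ} (F : SimpleGraph (Fin n) → (Fin k → Fin n) → (Fin k → Fin n) → ℝ) :
    |s4E n d k F| ≤ s4E n d k fun G v w => |F G v w| := by
  rw [abs_le]
  constructor
  · have h := s4_E_lin (n := n) (d := d) (k := k) (fun G v w => |F G v w|) (fun G v w => |F G v w|) (-1) 0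
    have h2 : -s4E n d k (fun G v w => |F G v w|) = s4E n d k (fun G v w => -1 * |F G v w| + 0 * |F G v w|) := by rw [h]; ring
    rw [h2]
    refine s4_E_mono fun G _ v w _ => ?_
    have := neg_abs_le (F G v w)
    linarith
  · exact s4_E_mono fun G _ v w _ => le_abs_self _

theorem s4_Pr_mono {n d k : ℕ} {S T : SimpleGraph (Fin n) → (Fin k → Fin n) → (Fin k → Fin n) → Prop}
    (h : ∀ G v w, S G v w → T G v w) : s4Pr n d k S ≤ s4Pr n d k T := by
  classical
  refine s4_E_mono fun G _ v w _ => ?_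
  by_cases hS : S G v w
  · rw [if_pos hS, if_pos (h G v w hS)]
  · rw [if_neg hS]
    split_ifs <;> norm_num

/-- monotonicity on the sample space only -/
theorem s4_Pr_mono' {n d k : ℕ} {S T : SimpleGraph (Fin n) → (Fin k → Fin n) → (Fin k → Fin n) → Prop}
    (h : ∀ G ∈ regularGraphs n d, ∀ v w, (∀ a, G.Adj (v a) (w a)) → S G v w → T G v w) : s4Pr n d k S ≤ s4Pr n d k T := by
  classical
  refine s4_E_mono fun G hG v w hvw => ?_
  by_cases hS : S G v w
  · rw [if_pos hS, if_pos (h G hG v w hvw hS)]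
  · rw [if_neg hS]
    split_ifs <;> norm_num

theorem s4_Pr_nonneg {n d k : ℕ} (S : SimpleGraph (Fin n) → (Fin k → Fin n) → (Fin k → Fin n) → Prop) : 0 ≤ s4Pr n d k S := by
  classical
  have h0 : ∀ G v w, (0 : ℝ) ≤ if S G v w then 1 else 0 := fun G v w => by split_ifs <;> norm_num
  unfold s4Pr s4E s4Eg s4Ec
  refine div_nonneg (Finset.sum_nonneg fun G _ => div_nonneg (Finset.sum_nonneg fun v _ => Finset.sum_nonneg fun w _ => ?_) (by positivity)) (by positivity)
  split_ifs
  · exact h0 G v w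
  · exact le_rfl

theorem s4_Pr_le_one {n d k : ℕ} (hne : (regularGraphs n d).Nonempty) (hn : 0 < n * d) (S : SimpleGraph (Fin n) → (Fin k → Fin n) → (Fin k → Fin n) → Prop) :
    s4Pr n d k S ≤ 1 := by
  classical
  rw [← s4_E_const (k := k) hne hn 1]
  refine s4_E_mono fun G _ v w _ => ?_
  split_ifs <;> norm_num

theorem s4_Pr_or {n d k : ℕ} (S T : SimpleGraph (Fin n) → (Fin k → Fin n) → (Fin k → Fin n) → Prop) :
    s4Pr n d k (fun G v w => S G v w ∨ T G v w) ≤ s4Pr n d k S + s4Pr n d k T := by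
  classical
  have h := s4_E_lin (n := n) (d := d) (k := k) (fun G v w => if S G v w then 1 else 0) (fun G v w => if T G v w then 1 else 0) 1 1
  simp only [one_mul] at h
  unfold s4Pr
  rw [← h]
  refine s4_E_mono fun G _ v w _ => ?_
  by_cases hS : S G v w <;> by_cases hT : T G v w <;> simp [hS, hT]

theorem s4_Pr_graph {n d k : ℕ} (hn : 0 < n * d) (S : SimpleGraph (Fin n) → Prop) : s4Pr n d k (fun G _ _ => S G) = s4Pg n d S := by
  classical
  exact s4_E_graph hn _

/-- marginal of an event -/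
theorem s4_Pr_marg {n d k k' : ℕ} (hn : 0 < n * d) (φ : Fin k' → Fin k) (hφ : Function.Injective φ)
    (S : SimpleGraph (Fin n) → (Fin k' → Fin n) → (Fin k' → Fin n) → Prop) :
    s4Pr n d k (fun G v w => S G (v ∘ φ) (w ∘ φ)) = s4Pr n d k' S := by
  classical
  exact s4_E_marg hn φ hφ (fun G v w => if S G v w then 1 else 0)

/-- two bounded observables which are `τ`-close off an event -/
theorem s4_E_close {n d k : ℕ} (hne : (regularGraphs n d).Nonempty) (hn : 0 < n * d) (F F' : SimpleGraph (Fin n) → (Fin k → Fin n) → (Fin k → Fin n) → ℝ)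
    (S : SimpleGraph (Fin n) → (Fin k → Fin n) → (Fin k → Fin n) → Prop) {B τ : ℝ}
    (hB : ∀ G v w, |F G v w| ≤ B) (hB' : ∀ G v w, |F' G v w| ≤ B) (hc : ∀ G v w, ¬ S G v w → |F G v w - F' G v w| ≤ τ) (hτ : 0 ≤ τ) :
    |s4E n d k F - s4E n d k F'| ≤ τ + 2 * B * s4Pr n d k S := by
  classical
  have h1 := s4_E_lin (n := n) (d := d) (k := k) F F' 1 (-1)
  have h2 : s4E n d k F - s4E n d k F' = s4E n d k (fun G v w => 1 * F G v w + -1 * F' G v w) := by rw [h1]; ring
  rw [h2]
  refine (s4_E_abs_le _).trans ?_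
  have h3 := s4_E_lin (n := n) (d := d) (k := k) (fun _ _ _ => 1) (fun G v w => if S G v w then 1 else 0) τ (2 * B)
  rw [s4_E_const hne hn] at h3
  have h4 : τ + 2 * B * s4Pr n d k S = s4E n d k (fun G v w => τ * 1 + 2 * B * if S G v w then 1 else 0) := by
    rw [h3]; unfold s4Pr; ring
  rw [h4]
  refine s4_E_mono fun G _ v w _ => ?_
  have e : 1 * F G v w + -1 * F' G v w = F G v w - F' G v w := by ring
  rw [e]
  by_cases hS : S G v w
  · rw [if_pos hS]
    have a1 := hB G v w
    have a2 := hB' G v w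
    have a3 := abs_sub (F G v w) (F' G v w)
    linarith
  · rw [if_neg hS]
    have := hc G v w hS
    linarith

open Classical in
/-- exchangeability in the form used below -/
theorem s4_E_exch {n d k : ℕ} (σ : Equiv.Perm (Fin k)) (F : SimpleGraph (Fin n) → (Fin k → Fin n) → (Fin k → Fin n) → ℝ) :
    s4E n d k (fun G v w => if Sw7Ind G v w then F (sw7G G v w σ) v (w ∘ σ) else 0) = s4E n d k fun G v w => if Sw7Ind G v w then F G v w else 0 := by
  have key : ∀ (H : SimpleGraph (Fin n) → (Fin k → Fin n) → (Fin k → Fin n) → ℝ),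
      s4E n d k (fun G v w => if Sw7Ind G v w then H G v w else 0)
        = (∑ G ∈ regularGraphs n d, ∑ v, ∑ w, if Sw7Ind G v w then H G v w else 0) / ((n : ℝ) * d) ^ k / (regularGraphs n d).card := by
    intro H
    unfold s4E s4Eg s4Ec
    rw [Finset.sum_div (regularGraphs n d) _ (((n : ℝ) * d) ^ k)]
    congr 1
    refine Finset.sum_congr rfl fun G _ => ?_
    refine congrArg (· / (((n : ℝ) * d) ^ k)) ?_
    refine Finset.sum_congr rfl fun v _ => ?_
    refine Finset.sum_congr rfl fun w _ => ?_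
    by_cases hI : Sw7Ind G v w
    · exact if_pos fun a => (hI.adj (Sum.inl a) (Sum.inr a)).2 rfl
    · simp [hI]
  rw [key, key]
  congr 2
  convert sw7_exch_ind (d := d) σ F


theorem s4p_eqns_cite : True := by
  have := @s4Ie.eq_1
  have := @s4Pj.eq_1
  have := @chE.eq_1
  trivial

end

end Claimed.Agent.R287
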