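-- KEEP
import Claimed.Agent.R287.S4Prob
import Claimed.Agent.R287.ResB
import Claimed.Agent.R287.Eig
import Claimed.Agent.R287.Qf

/-!
# Row 287 (S0534), unit S4: second cut of E1 = P1 Prop 4.1, E1' = S2, N4 = the exact switch      (head helper289; prefix `s4`, kit `ds`)

Reference: P1 04-limits.tex l.40-330; note origin/helper289:notes/R287/A7_helper289.md sec. A (every display re-derived there); origin/helper102:notes/R287/S2_102.md.
Sections: (A = elementary probability on `(G, v, w)`: now `S4Prob.lean`);  B = spectral dictionary;  C = deterministic resolvent sums;  D = decomposition, 2j-th moments, concentration;  E = switch;  F = descent.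
-/

set_option autoImplicit false

namespace Claimed.Agent.R287

open MeasureTheory ProbabilityTheory Matrix Filter Topology Claims.C0462

noncomputable section

/-! ## B. spectral dictionary -/

/-- the macroscopic spectral parameter is not real -/
theorem s4_zeta_im {n : ℕ} (hn : 0 < n) (E : ℝ) {z : ℂ} (hz : z.im ≠ 0) : ((E : ℂ) + z / n).im ≠ 0 := by
  have hn' : (n : ℝ) ≠ 0 := by exact_mod_cast hn.ne'
  rw [Complex.add_im, Complex.ofReal_im, zero_add, Complex.div_natCast_im]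
  exact div_ne_zero hz hn'

/-- change of scale in one resolvent factor -/
theorem s4_scale {n : ℕ} (hn : 0 < n) (E l : ℝ) (z : ℂ) : ((l : ℂ) - ((E : ℂ) + z / n))⁻¹ = (n : ℂ) * ((((n : ℝ) * (l - E) : ℝ) : ℂ) - z)⁻¹ := by
  have hn' : (n : ℂ) ≠ 0 := by exact_mod_cast hn.ne'
  have e : (((n : ℝ) * (l - E) : ℝ) : ℂ) - z = (n : ℂ) * ((l : ℂ) - ((E : ℂ) + z / n)) := by
    push_cast
    field_simp
    ring
  rw [e, mul_inv, ← mul_assoc, mul_inv_cancel₀ hn', one_mul]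

/-- **LEAF** (`rs_trace`) -/
theorem s4_M_spec {n : ℕ} (hn : 0 < n) (G : SimpleGraph (Fin n)) (E : ℝ) {z : ℂ} (hz : z.im ≠ 0) :
    s4M G E z = ∑ i, ((s4Pos G E i : ℂ) - z)⁻¹ := by
  have hn' : (n : ℂ) ≠ 0 := by exact_mod_cast hn.ne'
  unfold s4M s4R
  rw [rs_trace (s4_herm G) (s4_zeta_im hn E hz), Finset.mul_sum]
  refine Finset.sum_congr rfl fun i _ => ?_
  rw [s4_scale hn, ← mul_assoc, inv_mul_cancel₀ hn', one_mul]
  rfl

theorem s4_mark_mul {n k : ℕ} (G : SimpleGraph (Fin n)) (v w : Fin k → Fin n) (i : Fin n) (c c' : Ch k) :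
    s4Mark G v w i c * s4Mark G v w i c' = n * (rsU (s4_herm G) (s4End v w c) i * rsU (s4_herm G) (s4End v w c') i) := by
  unfold s4Mark s4Vec
  have : Real.sqrt n * Real.sqrt n = n := Real.mul_self_sqrt (Nat.cast_nonneg n)
  calc _ = (Real.sqrt n * Real.sqrt n) * (rsU (s4_herm G) (s4End v w c) i * rsU (s4_herm G) (s4End v w c') i) := by ring
    _ = _ := by rw [this]

/-- **LEAF** (`rs_G_apply`) -/
theorem s4_X_spec {n k : ℕ} (hn : 0 < n) (G : SimpleGraph (Fin n)) (E : ℝ) (v w : Fin k → Fin n) {z : ℂ} (hz : z.im ≠ 0) (c c' : Ch k) :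
    (s4X G E v w z).2.1 c c' = ∑ i, ((s4Mark G v w i c * s4Mark G v w i c' : ℝ) : ℂ) * ((s4Pos G E i : ℂ) - z)⁻¹ := by
  show s4R G E z (s4End v w c) (s4End v w c') = _
  unfold s4R
  rw [rs_G_apply (s4_herm G) (s4_zeta_im hn E hz)]
  refine Finset.sum_congr rfl fun i _ => ?_
  rw [div_eq_mul_inv, s4_scale hn, s4_mark_mul]
  push_cast
  unfold s4Pos
  push_cast
  ring

/-- spectral form of the square of the resolvent, entries -/
theorem s4_GG_apply {V : Type} [Fintype V] [DecidableEq V] {A : Matrix V V ℝ} (hA : A.IsHermitian) {z : ℂ} (hz : z.im ≠ 0) (x y : V) :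
    (rsG A z * rsG A z) x y = ∑ i, (rsU hA x i : ℂ) * (rsU hA y i : ℂ) * (((hA.eigenvalues i : ℂ) - z)⁻¹) ^ 2 := by
  have h1 : rsC (rsU hA)ᵀ * rsC (rsU hA) = 1 := by rw [← rs_C_mul, rs_T_mul_U, rs_C_one]
  have e : rsG A z * rsG A z = rsC (rsU hA) * diagonal (fun i => (((hA.eigenvalues i : ℂ) - z)⁻¹) ^ 2) * rsC (rsU hA)ᵀ := by
    rw [rs_G_eq hA hz]
    calc rsC (rsU hA) * diagonal (fun i => ((hA.eigenvalues i : ℂ) - z)⁻¹) * rsC (rsU hA)ᵀ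
          * (rsC (rsU hA) * diagonal (fun i => ((hA.eigenvalues i : ℂ) - z)⁻¹) * rsC (rsU hA)ᵀ)
        = rsC (rsU hA) * (diagonal (fun i => ((hA.eigenvalues i : ℂ) - z)⁻¹) * (rsC (rsU hA)ᵀ * rsC (rsU hA))
          * diagonal (fun i => ((hA.eigenvalues i : ℂ) - z)⁻¹)) * rsC (rsU hA)ᵀ := by simp only [Matrix.mul_assoc]
      _ = _ := by
        rw [h1, mul_one, Matrix.diagonal_mul_diagonal]
        congr 3
        funext i
        ring
  rw [e, Matrix.mul_apply]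
  refine Finset.sum_congr rfl fun i _ => ?_
  rw [Matrix.mul_diagonal]
  simp
  ring

/-- **LEAF** (`rs_G_eq`: `G² = U diag((λ - ζ)⁻²) Uᵀ`) -/
theorem s4_Xp_spec {n k : ℕ} (hn : 0 < n) (G : SimpleGraph (Fin n)) (E : ℝ) (v w : Fin k → Fin n) {z : ℂ} (hz : z.im ≠ 0) (c c' : Ch k) :
    (s4X G E v w z).2.2 c c' = ∑ i, ((s4Mark G v w i c * s4Mark G v w i c' : ℝ) : ℂ) * (((s4Pos G E i : ℂ) - z)⁻¹) ^ 2 := by
  have hn' : (n : ℂ) ≠ 0 := by exact_mod_cast hn.ne'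
  show (n : ℂ)⁻¹ * (s4R G E z * s4R G E z) (s4End v w c) (s4End v w c') = _
  unfold s4R
  rw [s4_GG_apply (s4_herm G) (s4_zeta_im hn E hz), Finset.mul_sum]
  refine Finset.sum_congr rfl fun i _ => ?_
  rw [s4_scale hn, s4_mark_mul]
  push_cast
  unfold s4Pos
  push_cast
  field_simp

/-- **LEAF** `E[b_i(c)² | G] = n⁻¹ ∑_x u_i(x)² = 1` -/
theorem s4_mark_sq {n d k : ℕ} {G : SimpleGraph (Fin n)} (hG : G ∈ regularGraphs n d) (hn : 0 < n * d) (i : Fin n) (c : Ch k) :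
    s4Ec d k G (fun v w => s4Mark G v w i c ^ 2) = 1 := by
  have hn0 : (0 : ℝ) < n := by
    have := Nat.pos_of_mul_pos_right hn
    exact_mod_cast this
  have h := s4_Ec_end hG hn c (fun x => s4Vec G i x ^ 2)
  have h2 : ∑ x, s4Vec G i x ^ 2 = n := by
    have := rs_U_col (s4_herm G) i i
    rw [if_pos rfl] at this
    simp only [s4Vec, mul_pow, Real.sq_sqrt hn0.le, ← Finset.mul_sum]
    simp only [pow_two]
    rw [this, mul_one]
  rw [h2, div_self hn0.ne'] at h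
  exact h

/-! ## C. deterministic estimates (kit `ds`): sums over a finite family of real positions -/

theorem ds_normSq (x : ℝ) (z : ℂ) : Complex.normSq ((x : ℂ) - z) = (x - z.re) ^ 2 + z.im ^ 2 := by
  rw [Complex.normSq_apply]
  simp
  ring

theorem ds_im (x : ℝ) (z : ℂ) : (((x : ℂ) - z)⁻¹).im = z.im / ((x - z.re) ^ 2 + z.im ^ 2) := by
  rw [Complex.inv_im, ds_normSq]
  simp

theorem ds_norm_sq (x : ℝ) (z : ℂ) : ‖((x : ℂ) - z)⁻¹‖ ^ 2 = 1 / ((x - z.re) ^ 2 + z.im ^ 2) := by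
  rw [norm_inv, inv_pow, Complex.sq_norm, ds_normSq, one_div]

/-- a far point is far from `z` -/
theorem ds_far_lower {x Λ : ℝ} {z : ℂ} (hx : Λ ≤ |x|) (hz : ‖z‖ ≤ Λ / 2) : |x| / 2 ≤ ‖(x : ℂ) - z‖ := by
  have h1 := norm_sub_norm_le (x : ℂ) z
  rw [Complex.norm_real, Real.norm_eq_abs] at h1
  linarith

theorem ds_far_inv {x Λ : ℝ} {z : ℂ} (hΛ : 0 < Λ) (hx : Λ ≤ |x|) (hz : ‖z‖ ≤ Λ / 2) : ‖((x : ℂ) - z)⁻¹‖ ≤ 2 / |x| := by
  have hx0 : 0 < |x| := hΛ.trans_le hx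
  rw [norm_inv]
  have h1 := ds_far_lower hx hz
  calc ‖(x : ℂ) - z‖⁻¹ ≤ (|x| / 2)⁻¹ := inv_anti₀ (by positivity) h1
    _ = 2 / |x| := by rw [inv_div]

theorem ds_far_num {x Λ : ℝ} (hΛ : 0 < Λ) (hx : Λ ≤ |x|) : 4 / |x| ^ 2 ≤ 8 / Λ * (((x : ℂ) - (⟨0, Λ⟩ : ℂ))⁻¹).im := by
  have hx0 : 0 < |x| := hΛ.trans_le hx
  rw [ds_im]
  simp only [sub_zero]
  have e : 8 / Λ * (Λ / (x ^ 2 + Λ ^ 2)) = 8 / (x ^ 2 + Λ ^ 2) := by field_simp
  rw [e, sq_abs, div_le_div_iff₀ (by have := sq_abs x; nlinarith [pow_pos hx0 2]) (by positivity)]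
  have h1 : Λ ^ 2 ≤ x ^ 2 := by
    rw [← sq_abs x]
    exact pow_le_pow_left₀ hΛ.le hx 2
  nlinarith

/-- **LEAF** far kernel: P1 (4.5), (4.17) -/
theorem ds_far {x Λ : ℝ} {z z' : ℂ} (hΛ : 0 < Λ) (hx : Λ ≤ |x|) (hz : ‖z‖ ≤ Λ / 2) (hz' : ‖z'‖ ≤ Λ / 2) :
    ‖((x : ℂ) - z)⁻¹ - ((x : ℂ) - z')⁻¹‖ ≤ 8 * ‖z - z'‖ / Λ * (((x : ℂ) - (⟨0, Λ⟩ : ℂ))⁻¹).im := by
  have hx0 : 0 < |x| := hΛ.trans_le hx
  have n1 : (x : ℂ) - z ≠ 0 := by
    intro h
    have := ds_far_lower hx hz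
    rw [h, norm_zero] at this
    linarith
  have n2 : (x : ℂ) - z' ≠ 0 := by
    intro h
    have := ds_far_lower hx hz'
    rw [h, norm_zero] at this
    linarith
  have e : ((x : ℂ) - z)⁻¹ - ((x : ℂ) - z')⁻¹ = (z - z') * (((x : ℂ) - z)⁻¹ * ((x : ℂ) - z')⁻¹) := by
    field_simp
    ring
  rw [e, norm_mul, norm_mul]
  have h1 := mul_le_mul (ds_far_inv hΛ hx hz) (ds_far_inv hΛ hx hz') (norm_nonneg _) (by positivity)
  have h2 : 2 / |x| * (2 / |x|) = 4 / |x| ^ 2 := by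
    field_simp
    norm_num
  rw [h2] at h1
  calc ‖z - z'‖ * (‖((x : ℂ) - z)⁻¹‖ * ‖((x : ℂ) - z')⁻¹‖) ≤ ‖z - z'‖ * (8 / Λ * (((x : ℂ) - (⟨0, Λ⟩ : ℂ))⁻¹).im) :=
        mul_le_mul_of_nonneg_left (h1.trans (ds_far_num hΛ hx)) (norm_nonneg _)
    _ = _ := by ring

/-- **LEAF** far kernel, squares -/
theorem ds_far_sq {x Λ : ℝ} {z : ℂ} (hΛ : 0 < Λ) (hx : Λ ≤ |x|) (hz : ‖z‖ ≤ Λ / 2) :
    ‖((x : ℂ) - z)⁻¹‖ ^ 2 ≤ 8 / Λ * (((x : ℂ) - (⟨0, Λ⟩ : ℂ))⁻¹).im := by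
  refine le_trans ?_ (ds_far_num hΛ hx)
  have h1 := pow_le_pow_left₀ (norm_nonneg _) (ds_far_inv hΛ hx hz) 2
  refine h1.trans (le_of_eq ?_)
  rw [div_pow]
  norm_num

/-- **LEAF** `|1/(x - z)|² = Im (1/(x - z)) / Im z` -/
theorem ds_ward (x : ℝ) {z : ℂ} (hz : 0 < z.im) : ‖((x : ℂ) - z)⁻¹‖ ^ 2 = (((x : ℂ) - z)⁻¹).im / z.im := by
  rw [ds_norm_sq, ds_im]
  field_simp

/-- **LEAF** near kernel: counts -/
theorem ds_near {x Λ : ℝ} (hΛ : 0 < Λ) (hx : |x| ≤ Λ) : 1 / (2 * Λ) ≤ (((x : ℂ) - (⟨0, Λ⟩ : ℂ))⁻¹).im := by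
  rw [ds_im]
  simp only [sub_zero]
  have h1 : x ^ 2 ≤ Λ ^ 2 := sq_le_sq' (abs_le.1 hx).1 (abs_le.1 hx).2
  rw [div_le_div_iff₀ (by positivity) (by positivity)]
  nlinarith

/-- **LEAF** halving: P1 (4.12), term by term -/
theorem ds_half (x s : ℝ) {η η' : ℝ} (hη' : 0 < η') (h1 : η / 2 ≤ η') (h2 : η' ≤ η) :
    ‖((x : ℂ) - (⟨s, η'⟩ : ℂ))⁻¹ - ((x : ℂ) - (⟨s, η⟩ : ℂ))⁻¹‖ ≤ (((x : ℂ) - (⟨s, η⟩ : ℂ))⁻¹).im := by
  have hη : 0 < η := lt_of_lt_of_le hη' h2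
  set a : ℂ := (x : ℂ) - (⟨s, η'⟩ : ℂ) with ha
  set b : ℂ := (x : ℂ) - (⟨s, η⟩ : ℂ) with hb
  have ha_im : a.im = -η' := by simp [ha]
  have hb_im : b.im = -η := by simp [hb]
  have ha_re : a.re = x - s := by simp [ha]
  have hb_re : b.re = x - s := by simp [hb]
  have ha0 : a ≠ 0 := fun h => by rw [h] at ha_im; simp at ha_im; linarith
  have hb0 : b ≠ 0 := fun h => by rw [h] at hb_im; simp at hb_im; linarith
  have e1 : a⁻¹ - b⁻¹ = (b - a) * (a⁻¹ * b⁻¹) := by field_simp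
  have e2 : b - a = ⟨0, η' - η⟩ := by
    apply Complex.ext <;> simp [ha, hb]
  have nb : Complex.normSq b = (x - s) ^ 2 + η ^ 2 := by rw [Complex.normSq_apply, hb_re, hb_im]; ring
  have na : Complex.normSq a = (x - s) ^ 2 + η' ^ 2 := by rw [Complex.normSq_apply, ha_re, ha_im]; ring
  have e3 : (b⁻¹).im = η / ((x - s) ^ 2 + η ^ 2) := by
    rw [Complex.inv_im, hb_im, nb]; ring
  rw [e1, e3, norm_mul, norm_mul, norm_inv, norm_inv, e2]
  have n1 : ‖(⟨0, η' - η⟩ : ℂ)‖ = η - η' := by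
    have : (⟨0, η' - η⟩ : ℂ) = ((η' - η : ℝ) : ℂ) * Complex.I := by apply Complex.ext <;> simp
    rw [this, norm_mul, Complex.norm_I, mul_one, Complex.norm_real, Real.norm_eq_abs, abs_of_nonpos (by linarith)]
    ring
  rw [n1]
  have hA : 0 < (x - s) ^ 2 + η' ^ 2 := by positivity
  have hB : 0 < (x - s) ^ 2 + η ^ 2 := by positivity
  have na' : ‖a‖ = Real.sqrt ((x - s) ^ 2 + η' ^ 2) := by rw [← na]; rfl
  have nb' : ‖b‖ = Real.sqrt ((x - s) ^ 2 + η ^ 2) := by rw [← nb]; rfl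
  -- ‖b‖ ≤ 2 ‖a‖
  have hab : ‖b‖ ≤ 2 * ‖a‖ := by
    rw [na', nb']
    have : (2 : ℝ) * Real.sqrt ((x - s) ^ 2 + η' ^ 2) = Real.sqrt (4 * ((x - s) ^ 2 + η' ^ 2)) := by
      rw [Real.sqrt_mul (by norm_num), show (4 : ℝ) = 2 ^ 2 by norm_num, Real.sqrt_sq (by norm_num)]
    rw [this]
    apply Real.sqrt_le_sqrt
    nlinarith [sq_nonneg (x - s)]
  have hapos : 0 < ‖a‖ := norm_pos_iff.2 ha0
  have hbpos : 0 < ‖b‖ := norm_pos_iff.2 hb0
  have hb2 : ‖b‖ ^ 2 = (x - s) ^ 2 + η ^ 2 := by rw [nb', Real.sq_sqrt hB.le]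
  rw [← hb2]
  rw [le_div_iff₀ (by positivity)]
  have : (η - η') * (‖a‖⁻¹ * ‖b‖⁻¹) * ‖b‖ ^ 2 = (η - η') * (‖b‖ / ‖a‖) := by field_simp
  rw [this]
  have h3 : ‖b‖ / ‖a‖ ≤ 2 := by rw [div_le_iff₀ hapos]; exact hab
  have h4 : 0 ≤ η - η' := by linarith
  nlinarith

/-- the scalar equation `q² - q - m²`, `q = (1 + E m)/d` -/
def dsPhi (d : ℕ) (E : ℝ) (m : ℂ) : ℂ := ((1 + E * m) / d) ^ 2 - (1 + E * m) / d - m ^ 2

theorem ds_aux_D {d : ℕ} {E : ℝ} (hd : 3 ≤ d) (hE : |E| < 2 * Real.sqrt ((d : ℝ) - 1)) :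
    E ^ 2 < 4 * ((d : ℝ) - 1) ∧ 0 < (d : ℝ) ^ 2 - E ^ 2 := by
  have hd3 : (3 : ℝ) ≤ d := by exact_mod_cast hd
  have h1 : E ^ 2 < 4 * ((d : ℝ) - 1) := by
    have h0 : (0 : ℝ) ≤ (d : ℝ) - 1 := by linarith
    have := pow_lt_pow_left₀ hE (abs_nonneg E) two_ne_zero
    rw [sq_abs, mul_pow, Real.sq_sqrt h0] at this
    linarith
  exact ⟨h1, by nlinarith⟩

/-- **LEAF** factorisation: `Φ(m) = (p² - 1)(m - m_*)(m - conj m_*)` (sum and product of the roots: note A7) -/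
theorem ds_phi_factor {d : ℕ} {E : ℝ} (hd : 3 ≤ d) (hE : |E| < 2 * Real.sqrt ((d : ℝ) - 1)) (m : ℂ) :
    dsPhi d E m = (((E / d) ^ 2 - 1 : ℝ) : ℂ) * (m - s4Ms d E) * (m - (starRingEnd ℂ) (s4Ms d E)) := by
  obtain ⟨h1, hD⟩ := ds_aux_D hd hE
  have hd3 : (3 : ℝ) ≤ d := by exact_mod_cast hd
  have hd0 : (d : ℝ) ≠ 0 := by linarith
  have hdc : (d : ℂ) ≠ 0 := by exact_mod_cast hd0
  set r : ℝ := mRe d E with hr
  set t : ℝ := Real.pi * kestenMcKay d E with ht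
  have hS : Real.sqrt (4 * ((d : ℝ) - 1) - E ^ 2) ^ 2 = 4 * ((d : ℝ) - 1) - E ^ 2 := Real.sq_sqrt (by linarith)
  have ht' : t = d * Real.sqrt (4 * ((d : ℝ) - 1) - E ^ 2) / (2 * ((d : ℝ) ^ 2 - E ^ 2)) := by
    rw [ht]; unfold kestenMcKay
    have := Real.pi_pos.ne'
    field_simp
  have e1 : ((E / d) ^ 2 - 1) * (-2 * r) = 2 * E / (d : ℝ) ^ 2 - E / d := by
    rw [hr]; unfold mRe
    field_simp
    ring
  have e2 : ((E / d) ^ 2 - 1) * (r ^ 2 + t ^ 2) = 1 / (d : ℝ) ^ 2 - 1 / d := by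
    have e0 : t ^ 2 = (d : ℝ) ^ 2 * (4 * ((d : ℝ) - 1) - E ^ 2) / (2 * ((d : ℝ) ^ 2 - E ^ 2)) ^ 2 := by
      rw [ht', div_pow, mul_pow, hS]
    rw [e0, hr]; unfold mRe
    field_simp
    ring
  have e1' := congrArg (fun x : ℝ => (x : ℂ)) e1
  have e2' := congrArg (fun x : ℝ => (x : ℂ)) e2
  push_cast at e1' e2'
  have hm : s4Ms d E = (r : ℂ) + (t : ℂ) * Complex.I := by
    unfold s4Ms
    apply Complex.ext <;> simp [hr, ht]
  have hc : (starRingEnd ℂ) (s4Ms d E) = (r : ℂ) - (t : ℂ) * Complex.I := by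
    rw [hm]; simp [sub_eq_add_neg]
  rw [hm] at *
  rw [hc]
  unfold dsPhi
  have hI : Complex.I ^ 2 = -1 := Complex.I_sq
  push_cast
  have e3 : ((1 + (E : ℂ) * m) / d) ^ 2 - (1 + (E : ℂ) * m) / d - m ^ 2
      = (((E : ℂ) / d) ^ 2 - 1) * m ^ 2 + (2 * (E : ℂ) / (d : ℂ) ^ 2 - E / d) * m + (1 / (d : ℂ) ^ 2 - 1 / d) := by
    field_simp
    ring
  rw [e3, ← e1', ← e2']
  linear_combination ((((E : ℂ) / d) ^ 2 - 1) * (t : ℂ) ^ 2) * hI

/-- **LEAF** stability: P1 (4.11) -/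
theorem ds_phi_stab {d : ℕ} {E : ℝ} (hd : 3 ≤ d) (hE : |E| < 2 * Real.sqrt ((d : ℝ) - 1)) {m : ℂ} (hm : 0 ≤ m.im) :
    ‖m - s4Ms d E‖ ≤ ‖dsPhi d E m‖ / ((1 - (E / d) ^ 2) * (Real.pi * kestenMcKay d E)) := by
  obtain ⟨h1, hD⟩ := ds_aux_D hd hE
  have hd3 : (3 : ℝ) ≤ d := by exact_mod_cast hd
  have hd0 : (0 : ℝ) < d := by linarith
  have hp : 0 < 1 - (E / d) ^ 2 := by
    rw [div_pow, sub_pos, div_lt_one (by positivity)]
    linarith
  have hk : 0 < kestenMcKay d E := by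
    unfold kestenMcKay
    have h3 : 0 < Real.sqrt (4 * ((d : ℝ) - 1) - E ^ 2) := Real.sqrt_pos.2 (by linarith)
    have : 0 < Real.pi := Real.pi_pos
    positivity
  have ht : 0 < Real.pi * kestenMcKay d E := mul_pos Real.pi_pos hk
  rw [le_div_iff₀ (mul_pos hp ht), ds_phi_factor hd hE, norm_mul, norm_mul, Complex.norm_real, Real.norm_eq_abs,
    abs_of_neg (by linarith), neg_sub]
  have h2 : Real.pi * kestenMcKay d E ≤ ‖m - (starRingEnd ℂ) (s4Ms d E)‖ := by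
    refine le_trans ?_ (Complex.abs_im_le_norm _)
    have : (m - (starRingEnd ℂ) (s4Ms d E)).im = m.im + Real.pi * kestenMcKay d E := by
      simp [s4Ms]
    rw [this, abs_of_nonneg (by linarith)]
    linarith
  have h3 := norm_nonneg (m - s4Ms d E)
  calc ‖m - s4Ms d E‖ * ((1 - (E / d) ^ 2) * (Real.pi * kestenMcKay d E))
      = (1 - (E / d) ^ 2) * ‖m - s4Ms d E‖ * (Real.pi * kestenMcKay d E) := by ring
    _ ≤ (1 - (E / d) ^ 2) * ‖m - s4Ms d E‖ * ‖m - (starRingEnd ℂ) (s4Ms d E)‖ :=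
        mul_le_mul_of_nonneg_left h2 (mul_nonneg hp.le h3)

/-! ## D. decomposition, moments, concentration -/

open Classical in
/-- the band `|x_i| ≤ Λ` -/
def s4Band {n : ℕ} (G : SimpleGraph (Fin n)) (E Λ : ℝ) : Finset (Fin n) := Finset.univ.filter fun i => |s4Pos G E i| ≤ Λ

/-- the fluctuation `∑_band (b_i b_iᵀ - C_k) w_i`, `w_i = 1/(x_i - z) - 1/(x_i - z0)` -/
def s4FL {n k : ℕ} (d : ℕ) (G : SimpleGraph (Fin n)) (E : ℝ) (v w : Fin k → Fin n) (Λ : ℝ) (z z0 : ℂ) (c c' : Ch k) : ℂ :=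
  ∑ i ∈ s4Band G E Λ, ((s4Mark G v w i c * s4Mark G v w i c' - chC k (E / d) c c' : ℝ) : ℂ) * (((s4Pos G E i : ℂ) - z)⁻¹ - ((s4Pos G E i : ℂ) - z0)⁻¹)

/-- **LEAF** the decomposition (note A7 sec. A), deterministic.      `M(z) - M(z0) = ∑ b bᵀ w_i`, `K(m(z)) - K(m(z0)) = C ∑ w_i`; outside the band `ds_far` and `|b(c) b(c')| ≤ (b(c)² + b(c')²)/2`, `|C_{cc'}| ≤ 1`. -/
theorem s4_decomp {n k : ℕ} (hn : 0 < n) (d : ℕ) (G : SimpleGraph (Fin n)) (E : ℝ) (hp : |E / d| ≤ 1) (v w : Fin k → Fin n) {Λ : ℝ} {z z0 : ℂ} (hΛ : 0 < Λ)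
    (hz : 0 < z.im) (hz0 : 0 < z0.im) (hzΛ : ‖z‖ ≤ Λ / 2) (hz0Λ : ‖z0‖ ≤ Λ / 2) (c c' : Ch k) :
    ‖((s4X G E v w z).2.1 c c' - s4K k d E (s4M G E z) c c') - ((s4X G E v w z0).2.1 c c' - s4K k d E (s4M G E z0) c c') - s4FL d G E v w Λ z z0 c c'‖
      ≤ 8 * ‖z - z0‖ / Λ * ((((s4X G E v w ⟨0, Λ⟩).2.1 c c).im + ((s4X G E v w ⟨0, Λ⟩).2.1 c' c').im) / 2 + (s4M G E ⟨0, Λ⟩).im) := by
  classical
  have hΛim : (0 : ℝ) < (⟨0, Λ⟩ : ℂ).im := hΛ
  have hC : |chC k (E / d) c c'| ≤ 1 := by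
    have hJ : ∀ c c' : Ch k, chJ k c c' = if c' = c.swap then 1 else 0 := by
      intro c c'
      rcases c with a | a <;> rcases c' with b | b <;> simp [chJ, Matrix.one_apply, eq_comm]
    have e : chC k (E / d) c c' = (if c = c' then 1 else 0) + (E / d) * if c' = c.swap then 1 else 0 := by
      simp [chC, Matrix.one_apply, hJ]
    rw [e]
    by_cases h : c = c'
    · subst h
      have : ¬ c = c.swap := by rcases c with a | a <;> simp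
      simp [this]
    · rw [if_neg h, zero_add]
      split_ifs
      · simpa using hp
      · simp
  obtain ⟨x, hx⟩ : ∃ x : Fin n → ℝ, x = s4Pos G E := ⟨_, rfl⟩
  obtain ⟨b, hb⟩ : ∃ b : Fin n → Ch k → ℝ, b = s4Mark G v w := ⟨_, rfl⟩
  obtain ⟨W, hW⟩ : ∃ W : Fin n → ℂ, W = fun i => ((x i : ℂ) - z)⁻¹ - ((x i : ℂ) - z0)⁻¹ := ⟨_, rfl⟩
  obtain ⟨Cc, hCc⟩ : ∃ Cc : ℝ, Cc = chC k (E / d) c c' := ⟨_, rfl⟩
  have eK : s4K k d E (s4M G E z) c c' - s4K k d E (s4M G E z0) c c' = (Cc : ℂ) * ∑ i, W i := by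
    have e1 : ∀ m : ℂ, s4K k d E m c c' = m * ((chC k (E / d) c c' : ℝ) : ℂ) + (d : ℂ)⁻¹ * ((chJ k c c' : ℝ) : ℂ) := by
      intro m
      simp [s4K, toC]
    rw [e1, e1, s4_M_spec hn G E hz.ne', s4_M_spec hn G E hz0.ne', hW, Finset.sum_sub_distrib, ← hx, ← hCc]
    ring
  have eM : (s4X G E v w z).2.1 c c' - (s4X G E v w z0).2.1 c c' = ∑ i, ((b i c * b i c' : ℝ) : ℂ) * W i := by
    rw [s4_X_spec hn G E v w hz.ne', s4_X_spec hn G E v w hz0.ne', ← Finset.sum_sub_distrib, hW, ← hx, ← hb]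
    refine Finset.sum_congr rfl fun i _ => ?_
    ring
  have eF : s4FL d G E v w Λ z z0 c c' = ∑ i ∈ s4Band G E Λ, ((b i c * b i c' - Cc : ℝ) : ℂ) * W i := by
    unfold s4FL
    rw [hW, hx, hb, hCc]
  have eT : ((s4X G E v w z).2.1 c c' - s4K k d E (s4M G E z) c c') - ((s4X G E v w z0).2.1 c c' - s4K k d E (s4M G E z0) c c') - s4FL d G E v w Λ z z0 c c'
      = ∑ i ∈ (s4Band G E Λ)ᶜ, ((b i c * b i c' - Cc : ℝ) : ℂ) * W i := by
    have e0 : ((s4X G E v w z).2.1 c c' - s4K k d E (s4M G E z) c c') - ((s4X G E v w z0).2.1 c c' - s4K k d E (s4M G E z0) c c')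
        = ∑ i, ((b i c * b i c' - Cc : ℝ) : ℂ) * W i := by
      have : ((s4X G E v w z).2.1 c c' - s4K k d E (s4M G E z) c c') - ((s4X G E v w z0).2.1 c c' - s4K k d E (s4M G E z0) c c')
          = ((s4X G E v w z).2.1 c c' - (s4X G E v w z0).2.1 c c') - (s4K k d E (s4M G E z) c c' - s4K k d E (s4M G E z0) c c') := by ring
      rw [this, eK, eM, Finset.mul_sum, ← Finset.sum_sub_distrib]
      refine Finset.sum_congr rfl fun i _ => ?_
      push_cast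
      ring
    rw [e0, eF, ← Finset.sum_add_sum_compl (s4Band G E Λ), add_sub_cancel_left]
  rw [eT]
  obtain ⟨y, hy⟩ : ∃ y : Fin n → ℝ, y = fun i => (((x i : ℂ) - (⟨0, Λ⟩ : ℂ))⁻¹).im := ⟨_, rfl⟩
  have hy0 : ∀ i, 0 ≤ y i := by
    intro i
    rw [hy]
    show 0 ≤ (((x i : ℂ) - (⟨0, Λ⟩ : ℂ))⁻¹).im
    rw [ds_im]
    have : (0 : ℝ) < (⟨0, Λ⟩ : ℂ).im := hΛ
    positivity
  have hD0 : 0 ≤ 8 * ‖z - z0‖ / Λ := by positivity
  have t1 : ∀ i ∈ (s4Band G E Λ)ᶜ, ‖((b i c * b i c' - Cc : ℝ) : ℂ) * W i‖ ≤ 8 * ‖z - z0‖ / Λ * (((b i c ^ 2 + b i c' ^ 2) / 2 + 1) * y i) := by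
    intro i hi
    have hi' : Λ ≤ |x i| := by
      rw [Finset.mem_compl] at hi
      unfold s4Band at hi
      rw [Finset.mem_filter, not_and, not_le] at hi
      rw [hx]
      exact (hi (Finset.mem_univ _)).le
    have f1 : ‖W i‖ ≤ 8 * ‖z - z0‖ / Λ * y i := by
      rw [hW, hy]
      exact ds_far hΛ hi' hzΛ hz0Λ
    have f2 : |b i c * b i c' - Cc| ≤ (b i c ^ 2 + b i c' ^ 2) / 2 + 1 := by
      have g1 : |b i c * b i c'| ≤ (b i c ^ 2 + b i c' ^ 2) / 2 := by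
        rw [abs_le]
        constructor <;> nlinarith [sq_nonneg (b i c - b i c'), sq_nonneg (b i c + b i c')]
      have g2 := abs_sub (b i c * b i c') Cc
      rw [hCc] at g2 ⊢
      linarith
    rw [norm_mul, Complex.norm_real, Real.norm_eq_abs]
    calc |b i c * b i c' - Cc| * ‖W i‖ ≤ ((b i c ^ 2 + b i c' ^ 2) / 2 + 1) * (8 * ‖z - z0‖ / Λ * y i) :=
          mul_le_mul f2 f1 (norm_nonneg _) (by positivity)
      _ = _ := by ring
  have eI : ∀ c : Ch k, ((s4X G E v w ⟨0, Λ⟩).2.1 c c).im = ∑ i, b i c ^ 2 * y i := by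
    intro c
    rw [s4_X_spec hn G E v w hΛim.ne', Complex.im_sum, hy, hx, hb]
    refine Finset.sum_congr rfl fun i _ => ?_
    rw [Complex.im_ofReal_mul]
    ring
  have eIm : (s4M G E ⟨0, Λ⟩).im = ∑ i, y i := by
    rw [s4_M_spec hn G E hΛim.ne', Complex.im_sum, hy, hx]
  calc ‖∑ i ∈ (s4Band G E Λ)ᶜ, ((b i c * b i c' - Cc : ℝ) : ℂ) * W i‖
      ≤ ∑ i ∈ (s4Band G E Λ)ᶜ, ‖((b i c * b i c' - Cc : ℝ) : ℂ) * W i‖ := norm_sum_le _ _
    _ ≤ ∑ i ∈ (s4Band G E Λ)ᶜ, 8 * ‖z - z0‖ / Λ * (((b i c ^ 2 + b i c' ^ 2) / 2 + 1) * y i) := Finset.sum_le_sum t1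
    _ ≤ ∑ i, 8 * ‖z - z0‖ / Λ * (((b i c ^ 2 + b i c' ^ 2) / 2 + 1) * y i) :=
        Finset.sum_le_sum_of_subset_of_nonneg (Finset.subset_univ _) fun i _ _ => mul_nonneg hD0 (mul_nonneg (by positivity) (hy0 i))
    _ = _ := by
        rw [eI, eI, eIm, ← Finset.mul_sum]
        congr 1
        rw [← Finset.sum_add_distrib, Finset.sum_div, ← Finset.sum_add_distrib]
        refine Finset.sum_congr rfl fun i _ => ?_
        ring

/-! ### kit of MOM2J (helper258; prefix `s4m_`): marginals of `gArr`, integrable monomials, `S4Mom` on finite sets, expansion of `T^m`, Gaussian moments -/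

/-- marginals of a finite product of copies of a probability measure -/
theorem s4m_pi_marg {ι κ X : Type} [Fintype ι] [Fintype κ] [MeasurableSpace X] (μ0 : Measure X) [IsProbabilityMeasure μ0]
    (φ : κ → ι) (hφ : Function.Injective φ) :
    (Measure.pi fun _ : ι => μ0).map (fun g => g ∘ φ) = Measure.pi fun _ : κ => μ0 := by
  classical
  symm
  refine Measure.pi_eq fun s hs => ?_
  have hm : Measurable (fun g : ι → X => g ∘ φ) := measurable_pi_lambda _ fun b => measurable_pi_apply _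
  rw [Measure.map_apply hm (MeasurableSet.univ_pi hs)]
  have e : (fun g : ι → X => g ∘ φ) ⁻¹' Set.pi Set.univ s
      = Set.pi Set.univ (fun a => if h : ∃ b, φ b = a then s h.choose else Set.univ) := by
    ext g
    simp only [Set.mem_preimage, Set.mem_pi, Set.mem_univ, true_imp_iff, Function.comp]
    constructor
    · intro h a
      split_ifs with hb
      · have := h hb.choose
        rwa [hb.choose_spec] at this
      · trivial
    · intro h b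
      have := h (φ b)
      have hb : ∃ b', φ b' = φ b := ⟨b, rfl⟩
      rw [dif_pos hb] at this
      have e2 : hb.choose = b := hφ hb.choose_spec
      rwa [e2] at this
  rw [e, Measure.pi_pi]
  rw [← Finset.prod_subset (Finset.subset_univ (Finset.univ.image φ))]
  · rw [Finset.prod_image (fun a _ b _ h => hφ h)]
    refine Finset.prod_congr rfl fun b _ => ?_
    have hb : ∃ b', φ b' = φ b := ⟨b, rfl⟩
    rw [dif_pos hb, hφ hb.choose_spec]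
  · intro a _ ha
    have : ¬ ∃ b, φ b = a := by
      rintro ⟨b, rfl⟩
      exact ha (Finset.mem_image_of_mem _ (Finset.mem_univ _))
    rw [dif_neg this, measure_univ]

/-- marginals of the Gaussian array: a sub-family of rows -/
theorem s4m_gArr_marg {ι ι' κ : Type} [Fintype ι] [Fintype ι'] [Fintype κ] (φ : ι' → ι) (hφ : Function.Injective φ)
    (F : Matrix ι' κ ℝ → ℝ) (hF : Measurable F) :
    ∫ g, F (g.submatrix φ id) ∂(gArr ι κ) = ∫ g, F g ∂(gArr ι' κ) := by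
  have h := s4m_pi_marg (Measure.pi fun _ : κ => gaussianReal 0 1) φ hφ
  have hm : Measurable (fun g : ι → κ → ℝ => g ∘ φ) := measurable_pi_lambda _ fun b => measurable_pi_apply _
  unfold gArr
  rw [← h]
  exact (integral_map hm.aemeasurable hF.aestronglyMeasurable).symm

theorem s4m_entry_measurable {ι κ : Type} [Fintype κ] (A : Matrix κ κ ℝ) (i : ι) (c : κ) :
    Measurable (fun g : Matrix ι κ ℝ => (g * Aᵀ) i c) := by
  simp only [Matrix.mul_apply]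
  refine Finset.measurable_sum _ fun x _ => Measurable.mul_const ?_ _
  exact (measurable_pi_apply x).comp (measurable_pi_apply i)

theorem s4m_gArr_prob (ι κ : Type) [Fintype ι] [Fintype κ] : IsProbabilityMeasure (gArr ι κ) :=
  inferInstanceAs (IsProbabilityMeasure (Measure.pi fun _ : ι => Measure.pi fun _ : κ => gaussianReal 0 1))

theorem s4m_entry_memLp {ι κ : Type} [Fintype ι] [Fintype κ] (A : Matrix κ κ ℝ) (i : ι) (c : κ) (p : NNReal) :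
    MemLp (fun g : Matrix ι κ ℝ => (g * Aᵀ) i c) p (gArr ι κ) := by
  have key : ∀ x, MemLp (fun g : Matrix ι κ ℝ => g i x) p (gArr ι κ) := by
    intro x
    have h1 : MeasurePreserving (fun g : ι → κ → ℝ => g i) (Measure.pi fun _ : ι => Measure.pi fun _ : κ => gaussianReal 0 1)
        (Measure.pi fun _ : κ => gaussianReal 0 1) := measurePreserving_eval _ i
    have h2 : MeasurePreserving (fun g : κ → ℝ => g x) (Measure.pi fun _ : κ => gaussianReal 0 1) (gaussianReal 0 1) :=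
      measurePreserving_eval _ x
    exact (memLp_id_gaussianReal p).comp_measurePreserving (h2.comp h1)
  simp only [Matrix.mul_apply]
  exact memLp_finsetSum _ fun x _ => MemLp.mul_const (f := fun g : Matrix ι κ ℝ => g i x) (key x) (Aᵀ x c)

/-- monomials in the entries of `g Aᵀ` are integrable -/
theorem s4m_mono_integrable {ι κ α : Type} [Fintype ι] [Fintype κ] (A : Matrix κ κ ℝ) (s : Finset α) (L : α → ι × κ) :
    Integrable (fun g : Matrix ι κ ℝ => ∏ a ∈ s, (g * Aᵀ) (L a).1 (L a).2) (gArr ι κ) := by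
  have := s4m_gArr_prob ι κ
  rcases s.eq_empty_or_nonempty with rfl | hs
  · simp
  have h := MemLp.prod' (μ := gArr ι κ) (s := s) (f := fun a (g : Matrix ι κ ℝ) => (g * Aᵀ) (L a).1 (L a).2)
    (p := fun _ => ((s.card : NNReal) : ENNReal)) fun a _ => s4m_entry_memLp A _ _ _
  have e : (∑ _a ∈ s, (((s.card : NNReal) : ENNReal))⁻¹)⁻¹ = 1 := by
    rw [Finset.sum_const, nsmul_eq_mul]
    have h0 : ((s.card : NNReal) : ENNReal) = (s.card : ENNReal) := by simp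
    rw [h0, ENNReal.mul_inv_cancel (by simpa using hs.ne_empty) (ENNReal.natCast_ne_top _), inv_one]
  rw [e] at h
  exact memLp_one_iff_integrable.1 h

/-- `S4Mom` for a monomial indexed by a finite set -/
theorem s4m_mono {n d k ℓ q : ℕ} {E Λ δ : ℝ} {G : SimpleGraph (Fin n)} (hM : S4Mom d E k ℓ q G Λ δ) {α : Type} [DecidableEq α]
    (s : Finset α) (L : α → Fin n × Ch k) (hq : s.card ≤ q) (hℓ : (s.image fun a => (L a).1).card ≤ ℓ)
    (hb : ∀ a ∈ s, |s4Pos G E (L a).1| ≤ Λ) :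
    |s4Ec d k G (fun v w => ∏ a ∈ s, s4Mark G v w (L a).1 (L a).2)
      - ∫ g, ∏ a ∈ s, (g * (chA k (E / d))ᵀ) (L a).1 (L a).2 ∂(gArr (Fin n) (Ch k))| ≤ δ := by
  classical
  set S := s.image fun a => (L a).1 with hS
  let e := S.equivFin
  let es := s.equivFin
  let i : Fin S.card → Fin n := fun r => (e.symm r).1
  have hi : Function.Injective i := Subtype.val_injective.comp e.symm.injective
  let t : Fin s.card → Fin S.card × Ch k := fun a =>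
    (e ⟨(L (es.symm a).1).1, Finset.mem_image_of_mem _ (es.symm a).2⟩, (L (es.symm a).1).2)
  have hband : ∀ r, |s4Pos G E (i r)| ≤ Λ := by
    intro r
    obtain ⟨a, ha, hae⟩ := Finset.mem_image.1 (e.symm r).2
    show |s4Pos G E (e.symm r).1| ≤ Λ
    rw [← hae]
    exact hb a ha
  have h := hM S.card hℓ i hi hband s.card hq t
  have key : ∀ φ : Fin n → Ch k → ℝ, ∏ a, φ (i (t a).1) (t a).2 = ∏ a ∈ s, φ (L a).1 (L a).2 := by
    intro φ
    have h1 : ∀ a, φ (i (t a).1) (t a).2 = φ (L (es.symm a).1).1 (L (es.symm a).1).2 := by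
      intro a
      simp [i, t]
    simp only [h1]
    rw [es.symm.prod_comp (fun x : s => φ (L x.1).1 (L x.1).2)]
    exact Finset.prod_coe_sort s (fun a => φ (L a).1 (L a).2)
  have e1 : (fun (v w : Fin k → Fin n) => ∏ a, s4Mark G v w (i (t a).1) (t a).2) = fun v w => ∏ a ∈ s, s4Mark G v w (L a).1 (L a).2 := by
    funext v w
    exact key _
  have e2 : ∫ g, ∏ a, (g * (chA k (E / d))ᵀ) (t a).1 (t a).2 ∂(gArr (Fin S.card) (Ch k))
      = ∫ g, ∏ a ∈ s, (g * (chA k (E / d))ᵀ) (L a).1 (L a).2 ∂(gArr (Fin n) (Ch k)) := by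
    rw [← s4m_gArr_marg i hi (fun g : Matrix (Fin S.card) (Ch k) ℝ => ∏ a, (g * (chA k (E / d))ᵀ) (t a).1 (t a).2)
      (Finset.measurable_prod _ fun a _ => s4m_entry_measurable _ _ _)]
    refine integral_congr_ae (Filter.Eventually.of_forall fun g => ?_)
    exact key (fun x c => (g * (chA k (E / d))ᵀ) x c)
  rw [e1, e2] at h
  exact h

/-- the expansion of `T^m`, `T = ∑_i (β_iᵀ Q_i β_i - Tr(Q_i C))` -/
theorem s4m_expand {ι κ : Type} [Fintype ι] [Fintype κ] [DecidableEq ι] [DecidableEq κ] (Q : ι → Matrix κ κ ℝ) (C : Matrix κ κ ℝ) (β : ι → κ → ℝ) (m : ℕ) :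
    (∑ i, (β i ⬝ᵥ Q i *ᵥ β i - Matrix.trace (Q i * C))) ^ m
      = ∑ f : Fin m → (ι × κ × κ) × Bool, (∏ a, (Q (f a).1.1 (f a).1.2.1 (f a).1.2.2 * if (f a).2 then 1 else - C (f a).1.2.2 (f a).1.2.1))
          * ∏ a, if (f a).2 then β (f a).1.1 (f a).1.2.1 * β (f a).1.1 (f a).1.2.2 else 1 := by
  have h1 : ∑ i, (β i ⬝ᵥ Q i *ᵥ β i - Matrix.trace (Q i * C))
      = ∑ y : (ι × κ × κ) × Bool, (Q y.1.1 y.1.2.1 y.1.2.2 * if y.2 then 1 else - C y.1.2.2 y.1.2.1) * if y.2 then β y.1.1 y.1.2.1 * β y.1.1 y.1.2.2 else 1 := by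
    rw [Fintype.sum_prod_type, Fintype.sum_prod_type]
    refine Finset.sum_congr rfl fun i _ => ?_
    rw [Fintype.sum_prod_type]
    simp only [dotProduct, mulVec, Matrix.trace, Matrix.diag, Matrix.mul_apply, Fintype.sum_bool, if_true, Bool.false_eq_true, if_false]
    rw [← Finset.sum_sub_distrib]
    refine Finset.sum_congr rfl fun c _ => ?_
    rw [Finset.mul_sum, ← Finset.sum_sub_distrib]
    refine Finset.sum_congr rfl fun c' _ => ?_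
    ring
  rw [h1, ← Fin.prod_const, Finset.prod_univ_sum, Fintype.piFinset_univ]
  refine Finset.sum_congr rfl fun f _ => ?_
  rw [Finset.prod_mul_distrib]

/-- total mass of the coefficients -/
theorem s4m_coef {ι κ : Type} [Fintype ι] [Fintype κ] [DecidableEq ι] [DecidableEq κ] (Q : ι → Matrix κ κ ℝ) (C : Matrix κ κ ℝ) (hC : ∀ c c', |C c c'| ≤ 1) (m : ℕ) :
    ∑ f : Fin m → (ι × κ × κ) × Bool, |∏ a, (Q (f a).1.1 (f a).1.2.1 (f a).1.2.2 * if (f a).2 then 1 else - C (f a).1.2.2 (f a).1.2.1)|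
      ≤ (2 * ∑ i, ∑ c, ∑ c', |Q i c c'|) ^ m := by
  have h1 : 2 * ∑ i, ∑ c, ∑ c', |Q i c c'| = ∑ y : (ι × κ × κ) × Bool, |Q y.1.1 y.1.2.1 y.1.2.2| := by
    rw [Fintype.sum_prod_type, Fintype.sum_prod_type, Finset.mul_sum]
    refine Finset.sum_congr rfl fun i _ => ?_
    rw [Fintype.sum_prod_type, Finset.mul_sum]
    refine Finset.sum_congr rfl fun c _ => ?_
    rw [Finset.mul_sum]
    refine Finset.sum_congr rfl fun c' _ => ?_
    simp only [Fintype.sum_bool]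
    ring
  rw [h1, ← Fin.prod_const, Finset.prod_univ_sum, Fintype.piFinset_univ]
  refine Finset.sum_le_sum fun f _ => ?_
  rw [Finset.abs_prod]
  refine Finset.prod_le_prod (fun a _ => abs_nonneg _) fun a _ => ?_
  rw [abs_mul]
  refine mul_le_of_le_one_right (abs_nonneg _) ?_
  split_ifs
  · simp
  · rw [abs_neg]; exact hC _ _

theorem s4m_pow_le_exp (x : ℝ) (j : ℕ) : x ^ (2 * j) ≤ (2 * j).factorial * (Real.exp x + Real.exp (-x)) := by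
  have h := Real.pow_div_factorial_le_exp |x| (abs_nonneg x) (2 * j)
  have hf : (0 : ℝ) < (2 * j).factorial := by exact_mod_cast Nat.factorial_pos _
  rw [div_le_iff₀ hf] at h
  have e : x ^ (2 * j) = |x| ^ (2 * j) := ((even_two_mul j).pow_abs x).symm
  have h2 : Real.exp |x| ≤ Real.exp x + Real.exp (-x) := by
    rcases abs_cases x with ⟨h, _⟩ | ⟨h, _⟩ <;> rw [h]
    · linarith [Real.exp_pos (-x)]
    · linarith [Real.exp_pos x]
  rw [e]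
  calc |x| ^ (2 * j) ≤ Real.exp |x| * (2 * j).factorial := h
    _ ≤ (Real.exp x + Real.exp (-x)) * (2 * j).factorial := mul_le_mul_of_nonneg_right h2 hf.le
    _ = _ := by ring

/-- Laplace transform of a sum of independent centred Gaussian quadratic forms -/
theorem s4m_laplace {ι κ : Type} [Fintype ι] [Fintype κ] [DecidableEq κ] (B : ι → Matrix κ κ ℝ) (hB : ∀ i, (B i).IsHermitian) {s t : ℝ} (hs : 0 < s)
    (hBs : ∑ i, (B i * B i).trace ≤ s ^ 2) (ht : |t| ≤ 1 / (4 * s)) :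
    Integrable (fun g : Matrix ι κ ℝ => Real.exp (t * ∑ i, (qfQ (B i) (g i) - (B i).trace))) (gArr ι κ) ∧
    ∫ g : Matrix ι κ ℝ, Real.exp (t * ∑ i, (qfQ (B i) (g i) - (B i).trace)) ∂(gArr ι κ) ≤ Real.exp (1 / 8) := by
  have hnn : ∀ i, 0 ≤ (B i * B i).trace := fun i => by
    rw [qf_trace_sq (hB i)]
    exact Finset.sum_nonneg fun _ _ => sq_nonneg _
  have hev : ∀ i l, |t * (hB i).eigenvalues l| ≤ 1 / 4 := by
    intro i l
    have h1 : (hB i).eigenvalues l ^ 2 ≤ s ^ 2 := by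
      calc (hB i).eigenvalues l ^ 2 ≤ ∑ l, (hB i).eigenvalues l ^ 2 :=
            Finset.single_le_sum (f := fun l => (hB i).eigenvalues l ^ 2) (fun _ _ => sq_nonneg _) (Finset.mem_univ l)
        _ = (B i * B i).trace := (qf_trace_sq (hB i)).symm
        _ ≤ ∑ i, (B i * B i).trace := Finset.single_le_sum (f := fun i => (B i * B i).trace) (fun i _ => hnn i) (Finset.mem_univ i)
        _ ≤ s ^ 2 := hBs
    have h2 : |(hB i).eigenvalues l| ≤ s := abs_le_of_sq_le_sq h1 hs.le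
    rw [abs_mul]
    calc |t| * |(hB i).eigenvalues l| ≤ 1 / (4 * s) * s := mul_le_mul ht h2 (abs_nonneg _) (by positivity)
      _ = 1 / 4 := by field_simp
  have e : ∀ g : Matrix ι κ ℝ, Real.exp (t * ∑ i, (qfQ (B i) (g i) - (B i).trace)) = ∏ i, Real.exp (t * (qfQ (B i) (g i) - (B i).trace)) := by
    intro g
    rw [Finset.mul_sum, Real.exp_sum]
  simp only [e]
  constructor
  · exact Integrable.fintype_prod (μ := fun _ : ι => qfG κ) (f := fun i x => Real.exp (t * (qfQ (B i) x - (B i).trace)))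
      fun i => qf_exp_integrable (hB i) fun l => by linarith [le_abs_self (t * (hB i).eigenvalues l), hev i l]
  · have h3 : ∫ g : Matrix ι κ ℝ, ∏ i, Real.exp (t * (qfQ (B i) (g i) - (B i).trace)) ∂(gArr ι κ)
        = ∏ i, ∫ x, Real.exp (t * (qfQ (B i) x - (B i).trace)) ∂(qfG κ) :=
      integral_fintype_prod_eq_prod (μ := fun _ : ι => qfG κ) (f := fun i x => Real.exp (t * (qfQ (B i) x - (B i).trace)))
    rw [h3]
    calc ∏ i, ∫ x, Real.exp (t * (qfQ (B i) x - (B i).trace)) ∂(qfG κ) ≤ ∏ i, Real.exp (2 * t ^ 2 * (B i * B i).trace) :=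
          Finset.prod_le_prod (fun i _ => integral_nonneg fun x => (Real.exp_pos _).le) fun i _ => qf_laplace (hB i) (hev i)
      _ = Real.exp (2 * t ^ 2 * ∑ i, (B i * B i).trace) := by rw [Finset.mul_sum, Real.exp_sum]
      _ ≤ Real.exp (1 / 8) := by
          refine Real.exp_le_exp.2 ?_
          have h4 : t ^ 2 ≤ (1 / (4 * s)) ^ 2 := by
            rw [← sq_abs t]
            exact pow_le_pow_left₀ (abs_nonneg _) ht 2
          calc 2 * t ^ 2 * ∑ i, (B i * B i).trace ≤ 2 * (1 / (4 * s)) ^ 2 * s ^ 2 := by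
                refine mul_le_mul (by linarith) hBs (Finset.sum_nonneg fun i _ => hnn i) (by positivity)
            _ = 1 / 8 := by field_simp; norm_num

/-- moments of a sum of independent centred Gaussian quadratic forms -/
theorem s4m_gauss {ι κ : Type} [Fintype ι] [Fintype κ] [DecidableEq κ] (B : ι → Matrix κ κ ℝ) (hB : ∀ i, (B i).IsHermitian) {s : ℝ} (hs : 0 < s)
    (hBs : ∑ i, (B i * B i).trace ≤ s ^ 2) (j : ℕ) :
    ∫ g : Matrix ι κ ℝ, (∑ i, (qfQ (B i) (g i) - (B i).trace)) ^ (2 * j) ∂(gArr ι κ)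
      ≤ 2 * (2 * j).factorial * Real.exp (1 / 8) * (4 * s) ^ (2 * j) := by
  have ht0 : (0 : ℝ) < 1 / (4 * s) := by positivity
  obtain ⟨i1, b1⟩ := s4m_laplace B hB hs hBs (t := 1 / (4 * s)) (by rw [abs_of_pos ht0])
  obtain ⟨i2, b2⟩ := s4m_laplace B hB hs hBs (t := -(1 / (4 * s))) (by rw [abs_neg, abs_of_pos ht0])
  have hpt : ∀ g : Matrix ι κ ℝ, (∑ i, (qfQ (B i) (g i) - (B i).trace)) ^ (2 * j)
      ≤ ((2 * j).factorial * (4 * s) ^ (2 * j)) * (Real.exp (1 / (4 * s) * ∑ i, (qfQ (B i) (g i) - (B i).trace))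
          + Real.exp (-(1 / (4 * s)) * ∑ i, (qfQ (B i) (g i) - (B i).trace))) := by
    intro g
    set T := ∑ i, (qfQ (B i) (g i) - (B i).trace)
    have h := s4m_pow_le_exp (1 / (4 * s) * T) j
    have e1 : T ^ (2 * j) = (4 * s) ^ (2 * j) * (1 / (4 * s) * T) ^ (2 * j) := by
      rw [← mul_pow]
      congr 1
      field_simp
    rw [e1, neg_mul]
    calc (4 * s) ^ (2 * j) * (1 / (4 * s) * T) ^ (2 * j)
        ≤ (4 * s) ^ (2 * j) * ((2 * j).factorial * (Real.exp (1 / (4 * s) * T) + Real.exp (-(1 / (4 * s) * T)))) :=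
          mul_le_mul_of_nonneg_left h (by positivity)
      _ = _ := by ring
  calc ∫ g : Matrix ι κ ℝ, (∑ i, (qfQ (B i) (g i) - (B i).trace)) ^ (2 * j) ∂(gArr ι κ)
      ≤ ∫ g : Matrix ι κ ℝ, ((2 * j).factorial * (4 * s) ^ (2 * j)) * (Real.exp (1 / (4 * s) * ∑ i, (qfQ (B i) (g i) - (B i).trace))
          + Real.exp (-(1 / (4 * s)) * ∑ i, (qfQ (B i) (g i) - (B i).trace))) ∂(gArr ι κ) :=
        integral_mono_of_nonneg (Filter.Eventually.of_forall fun g => (even_two_mul j).pow_nonneg _) ((i1.add i2).const_mul _)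
          (Filter.Eventually.of_forall hpt)
    _ = ((2 * j).factorial * (4 * s) ^ (2 * j)) * ((∫ g : Matrix ι κ ℝ, Real.exp (1 / (4 * s) * ∑ i, (qfQ (B i) (g i) - (B i).trace)) ∂(gArr ι κ))
          + ∫ g : Matrix ι κ ℝ, Real.exp (-(1 / (4 * s)) * ∑ i, (qfQ (B i) (g i) - (B i).trace)) ∂(gArr ι κ)) := by
        rw [integral_const_mul, integral_add i1 i2]
    _ ≤ ((2 * j).factorial * (4 * s) ^ (2 * j)) * (Real.exp (1 / 8) + Real.exp (1 / 8)) :=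
        mul_le_mul_of_nonneg_left (add_le_add b1 b2) (by positivity)
    _ = _ := by ring

theorem s4m_C_abs (k : ℕ) {p : ℝ} (hp : |p| ≤ 1) (c c' : Ch k) : |chC k p c c'| ≤ 1 := by
  rcases c with a | a <;> rcases c' with b | b <;> by_cases h : a = b <;> simp [chC, chJ, Matrix.one_apply, h, hp]

theorem s4m_A_mul (k : ℕ) {p : ℝ} (hp : |p| ≤ 1) : chA k p * (chA k p)ᵀ = chC k p := by
  have h1 : p ^ 2 ≤ 1 := by
    rw [← sq_abs]
    exact pow_le_one₀ (abs_nonneg _) hp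
  have h2 : Real.sqrt (1 - p ^ 2) * Real.sqrt (1 - p ^ 2) = 1 - p ^ 2 := Real.mul_self_sqrt (by linarith)
  unfold chA chC chJ
  rw [Matrix.fromBlocks_transpose, Matrix.fromBlocks_multiply, ← Matrix.fromBlocks_one, Matrix.fromBlocks_smul, Matrix.fromBlocks_add]
  congr 1
  · simp
  · simp
  · simp
  · simp only [Matrix.transpose_smul, Matrix.transpose_one, Matrix.smul_mul, Matrix.mul_smul, Matrix.one_mul, smul_smul, ← add_smul, smul_zero, add_zero]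
    rw [h2]
    have : p * p + (1 - p ^ 2) = 1 := by ring
    rw [this, one_smul]

theorem s4m_hs_mulA (k : ℕ) {p : ℝ} (hp : |p| ≤ 1) (M : Matrix (Ch k) (Ch k) ℝ) :
    ∑ c, ∑ c', (M * chA k p) c c' ^ 2 ≤ 3 * ∑ c, ∑ c', M c c' ^ 2 := by
  have h1 : p ^ 2 ≤ 1 := by
    rw [← sq_abs]
    exact pow_le_one₀ (abs_nonneg _) hp
  have h2 : Real.sqrt (1 - p ^ 2) ^ 2 = 1 - p ^ 2 := Real.sq_sqrt (by linarith)
  rw [Finset.mul_sum]
  refine Finset.sum_le_sum fun c _ => ?_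
  have e1 : ∀ b : Fin k, (M * chA k p) c (Sum.inl b) = M c (Sum.inl b) + p * M c (Sum.inr b) := by
    intro b
    simp [Matrix.mul_apply, chA, Fintype.sum_sum_type, Matrix.one_apply, mul_comm]
  have e2 : ∀ b : Fin k, (M * chA k p) c (Sum.inr b) = Real.sqrt (1 - p ^ 2) * M c (Sum.inr b) := by
    intro b
    simp [Matrix.mul_apply, chA, Fintype.sum_sum_type, Matrix.one_apply, mul_comm]
  rw [Fintype.sum_sum_type, Fintype.sum_sum_type, ← Finset.sum_add_distrib, ← Finset.sum_add_distrib, Finset.mul_sum]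
  refine Finset.sum_le_sum fun b _ => ?_
  rw [e1, e2, mul_pow, h2]
  nlinarith [sq_nonneg (M c (Sum.inl b) - p * M c (Sum.inr b)), sq_nonneg (M c (Sum.inl b)), sq_nonneg (M c (Sum.inr b)),
    mul_nonneg (sq_nonneg (M c (Sum.inr b))) (sub_nonneg.2 h1)]

theorem s4m_hs_conj (k : ℕ) {p : ℝ} (hp : |p| ≤ 1) (M : Matrix (Ch k) (Ch k) ℝ) :
    ∑ c, ∑ c', ((chA k p)ᵀ * M * chA k p) c c' ^ 2 ≤ 9 * ∑ c, ∑ c', M c c' ^ 2 := by
  have h1 := s4m_hs_mulA k hp ((chA k p)ᵀ * M)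
  have h2 := s4m_hs_mulA k hp Mᵀ
  have e1 : ∑ c, ∑ c', ((chA k p)ᵀ * M) c c' ^ 2 = ∑ c, ∑ c', (Mᵀ * chA k p) c c' ^ 2 := by
    rw [Finset.sum_comm]
    refine Finset.sum_congr rfl fun c _ => Finset.sum_congr rfl fun c' _ => ?_
    have : (chA k p)ᵀ * M = (Mᵀ * chA k p)ᵀ := by rw [Matrix.transpose_mul, Matrix.transpose_transpose]
    rw [this, Matrix.transpose_apply]
  have e2 : ∑ c, ∑ c', Mᵀ c c' ^ 2 = ∑ c, ∑ c', M c c' ^ 2 := by
    rw [Finset.sum_comm]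
    rfl
  rw [e1] at h1
  rw [e2] at h2
  linarith

/-- the quadratic form of the coloured mark -/
theorem s4m_qf {κ : Type} [Fintype κ] [DecidableEq κ] (A Q : Matrix κ κ ℝ) {ι : Type} (g : Matrix ι κ ℝ) (i : ι) :
    (g * Aᵀ) i ⬝ᵥ Q *ᵥ (g * Aᵀ) i = qfQ (Aᵀ * Q * A) (g i) := by
  have e : (g * Aᵀ) i = A *ᵥ g i := by
    funext c
    simp [Matrix.mul_apply, mulVec, dotProduct, mul_comm]
  rw [e]
  unfold qfQ
  rw [← Matrix.mulVec_mulVec, ← Matrix.mulVec_mulVec, Matrix.dotProduct_mulVec (g i), Matrix.vecMul_transpose]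

/-- **NODE MOM2J** (P1 l.150-175; S2 (C)).      `T = ∑_i (b_iᵀ Q_i b_i - Tr(Q_i C_k))`, `Q_i` real symmetric, graph measurable, supported in the band.      `A` depends on `j` ONLY (not on `k`).
PROOF: (1) expand `T^{2j}` (`Finset.prod_univ_sum`) in monomials of degree `≤ 4j` in the marks of `≤ 2j` distinct eigenvectors, coefficients of total mass `≤ (2 ∑ ‖Q_i‖₁)^{2j}`; `S4Mom` replaces each conditional expectation by the Gaussian one (marginals of `gArr`);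
(2) Gaussian side: `T` is `qfQ 𝒬 g - Tr 𝒬` with `𝒬 = ⊕_i Aᵀ Q_i A`, `Tr 𝒬² ≤ 4 ∑ ‖Q_i‖²_HS`; `x^{2j} ≤ (2j)! cosh x`, `qf_laplace` at `t = ± 1/(4 ‖𝒬‖_HS)`. -/
theorem s4_mom2j (j : ℕ) : ∃ A : ℝ, ∀ (k d : ℕ) (E : ℝ), |E / d| < 1 → ∀ (n : ℕ) (G : SimpleGraph (Fin n)), G ∈ regularGraphs n d → 0 < n * d → ∀ (Λ δ : ℝ),
    S4Mom d E k (2 * j) (4 * j) G Λ δ → ∀ Q : Fin n → Matrix (Ch k) (Ch k) ℝ, (∀ i, (Q i)ᵀ = Q i) → (∀ i, Λ < |s4Pos G E i| → Q i = 0) →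
      s4Ec d k G (fun v w => (∑ i, (s4Mark G v w i ⬝ᵥ Q i *ᵥ s4Mark G v w i - Matrix.trace (Q i * chC k (E / d)))) ^ (2 * j))
        ≤ A * (∑ i, ∑ c, ∑ c', Q i c c' ^ 2) ^ j + δ * (2 * ∑ i, ∑ c, ∑ c', |Q i c c'|) ^ (2 * j) := by
  refine ⟨2 * (2 * j).factorial * Real.exp (1 / 8) * 144 ^ j, fun k d E hp n G hG hn Λ δ hM Q hQ hQb => ?_⟩
  classical
  have hδ : 0 ≤ δ :=
    (abs_nonneg _).trans (hM 0 (Nat.zero_le _) Fin.elim0 (fun a => a.elim0) (fun r => r.elim0) 0 (Nat.zero_le _) Fin.elim0)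
  have hf1 : (1 : ℝ) ≤ (2 * j).factorial := by exact_mod_cast Nat.one_le_iff_ne_zero.2 (Nat.factorial_ne_zero _)
  have hH0 : 0 ≤ ∑ i, ∑ c, ∑ c', Q i c c' ^ 2 :=
    Finset.sum_nonneg fun _ _ => Finset.sum_nonneg fun _ _ => Finset.sum_nonneg fun _ _ => sq_nonneg _
  rcases hH0.eq_or_lt with hH | hH
  · -- all `Q i` vanish
    have hQ0 : ∀ i, Q i = 0 := by
      intro i
      ext c c'
      have h1 := (Finset.sum_eq_zero_iff_of_nonneg (fun i _ => Finset.sum_nonneg fun c _ => Finset.sum_nonneg fun c' _ => sq_nonneg (Q i c c'))).1 hH.symm i (Finset.mem_univ _)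
      have h2 := (Finset.sum_eq_zero_iff_of_nonneg (fun c _ => Finset.sum_nonneg fun c' _ => sq_nonneg (Q i c c'))).1 h1 c (Finset.mem_univ _)
      have h3 := (Finset.sum_eq_zero_iff_of_nonneg (fun c' _ => sq_nonneg (Q i c c'))).1 h2 c' (Finset.mem_univ _)
      simpa using h3
    simp only [hQ0, Matrix.zero_mulVec, dotProduct_zero, Matrix.zero_mul, Matrix.trace_zero, sub_zero, Finset.sum_const_zero, Matrix.zero_apply, abs_zero, mul_zero]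
    rw [s4_Ec_const hG hn]
    rcases Nat.eq_zero_or_pos j with rfl | hj
    · simp only [mul_zero, pow_zero, mul_one, Nat.factorial_zero, Nat.cast_one]
      have := Real.one_le_exp (show (0 : ℝ) ≤ 1 / 8 by norm_num)
      linarith
    · rw [zero_pow (by omega), zero_pow (by omega)]
      simp [hj.ne']
  set p := E / d with hpdef
  set C := chC k p with hC
  set A := chA k p with hA
  set H := ∑ i, ∑ c, ∑ c', Q i c c' ^ 2 with hHdef
  let co : (Fin (2 * j) → (Fin n × Ch k × Ch k) × Bool) → ℝ := fun f =>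
    ∏ a, (Q (f a).1.1 (f a).1.2.1 (f a).1.2.2 * if (f a).2 then 1 else - C (f a).1.2.2 (f a).1.2.1)
  let mo : (Fin (2 * j) → (Fin n × Ch k × Ch k) × Bool) → (Fin n → Ch k → ℝ) → ℝ := fun f β =>
    ∏ a, if (f a).2 then β (f a).1.1 (f a).1.2.1 * β (f a).1.1 (f a).1.2.2 else 1
  let sF : (Fin (2 * j) → (Fin n × Ch k × Ch k) × Bool) → Finset (Fin (2 * j) × Bool) := fun f =>
    (Finset.univ.filter fun a => (f a).2 = true) ×ˢ Finset.univ
  let LF : (Fin (2 * j) → (Fin n × Ch k × Ch k) × Bool) → Fin (2 * j) × Bool → Fin n × Ch k := fun f ab =>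
    ((f ab.1).1.1, if ab.2 then (f ab.1).1.2.1 else (f ab.1).1.2.2)
  have hmo : ∀ f β, mo f β = ∏ ab ∈ sF f, β (LF f ab).1 (LF f ab).2 := by
    intro f β
    show _ = ∏ ab ∈ (Finset.univ.filter fun a => (f a).2 = true) ×ˢ Finset.univ, _
    rw [Finset.prod_product, Finset.prod_filter]
    refine Finset.prod_congr rfl fun a _ => ?_
    simp [LF]
  have hcard : ∀ f, (sF f).card ≤ 4 * j := by
    intro f
    show ((Finset.univ.filter fun a => (f a).2 = true) ×ˢ (Finset.univ : Finset Bool)).card ≤ _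
    rw [Finset.card_product]
    have h1 : (Finset.univ.filter fun a => (f a).2 = true).card ≤ 2 * j := by
      simpa using Finset.card_filter_le (Finset.univ : Finset (Fin (2 * j))) (fun a => (f a).2 = true)
    have h2 : (Finset.univ : Finset Bool).card = 2 := by simp
    rw [h2]
    omega
  have himg : ∀ f, ((sF f).image fun ab => (LF f ab).1).card ≤ 2 * j := by
    intro f
    have h1 : ((sF f).image fun ab => (LF f ab).1) ⊆ Finset.univ.image fun a => (f a).1.1 := by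
      intro x hx
      obtain ⟨ab, _, rfl⟩ := Finset.mem_image.1 hx
      exact Finset.mem_image_of_mem _ (Finset.mem_univ ab.1)
    refine (Finset.card_le_card h1).trans (Finset.card_image_le.trans ?_)
    simp
  have hband : ∀ f, co f ≠ 0 → ∀ ab ∈ sF f, |s4Pos G E (LF f ab).1| ≤ Λ := by
    intro f hf ab _
    by_contra hlt
    apply hf
    refine Finset.prod_eq_zero (Finset.mem_univ ab.1) ?_
    have : Q (f ab.1).1.1 = 0 := hQb _ (not_le.1 hlt)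
    rw [this]
    simp
  have hint : ∀ f, Integrable (fun g : Matrix (Fin n) (Ch k) ℝ => mo f (fun i c => (g * Aᵀ) i c)) (gArr (Fin n) (Ch k)) := by
    intro f
    simp only [hmo]
    exact s4m_mono_integrable A (sF f) (LF f)
  -- the graph side
  have g1 : s4Ec d k G (fun v w => (∑ i, (s4Mark G v w i ⬝ᵥ Q i *ᵥ s4Mark G v w i - Matrix.trace (Q i * C))) ^ (2 * j))
      = ∑ f, co f * s4Ec d k G (fun v w => mo f (s4Mark G v w)) := by
    have e : (fun (v w : Fin k → Fin n) => (∑ i, (s4Mark G v w i ⬝ᵥ Q i *ᵥ s4Mark G v w i - Matrix.trace (Q i * C))) ^ (2 * j))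
        = fun v w => ∑ f ∈ Finset.univ, co f * mo f (s4Mark G v w) := by
      funext v w
      exact s4m_expand Q C (s4Mark G v w) (2 * j)
    rw [e, s4_Ec_sum]
    refine Finset.sum_congr rfl fun f _ => ?_
    have := s4_Ec_lin (d := d) G (fun v w => mo f (s4Mark G v w)) (fun _ _ => 0) (co f) 0
    simpa using this
  -- the Gaussian side
  have g2 : ∫ g : Matrix (Fin n) (Ch k) ℝ, (∑ i, ((g * Aᵀ) i ⬝ᵥ Q i *ᵥ (g * Aᵀ) i - Matrix.trace (Q i * C))) ^ (2 * j) ∂(gArr (Fin n) (Ch k))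
      = ∑ f, co f * ∫ g : Matrix (Fin n) (Ch k) ℝ, mo f (fun i c => (g * Aᵀ) i c) ∂(gArr (Fin n) (Ch k)) := by
    have e : ∀ g : Matrix (Fin n) (Ch k) ℝ, (∑ i, ((g * Aᵀ) i ⬝ᵥ Q i *ᵥ (g * Aᵀ) i - Matrix.trace (Q i * C))) ^ (2 * j)
        = ∑ f, co f * mo f (fun i c => (g * Aᵀ) i c) := fun g => s4m_expand Q C (fun i c => (g * Aᵀ) i c) (2 * j)
    simp only [e]
    rw [integral_finsetSum _ fun f _ => (hint f).const_mul _]
    simp only [integral_const_mul]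
  -- comparison of the monomials
  have g3 : ∀ f, co f * s4Ec d k G (fun v w => mo f (s4Mark G v w))
      ≤ co f * ∫ g : Matrix (Fin n) (Ch k) ℝ, mo f (fun i c => (g * Aᵀ) i c) ∂(gArr (Fin n) (Ch k)) + |co f| * δ := by
    intro f
    by_cases hf : co f = 0
    · simp [hf]
    have h := s4m_mono hM (sF f) (LF f) (hcard f) (himg f) (hband f hf)
    have e1 : (fun (v w : Fin k → Fin n) => ∏ a ∈ sF f, s4Mark G v w (LF f a).1 (LF f a).2) = fun v w => mo f (s4Mark G v w) := by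
      funext v w
      exact (hmo f _).symm
    have e2 : ∀ g : Matrix (Fin n) (Ch k) ℝ, ∏ a ∈ sF f, (g * (chA k (E / d))ᵀ) (LF f a).1 (LF f a).2 = mo f (fun i c => (g * Aᵀ) i c) :=
      fun g => (hmo f _).symm
    rw [e1] at h
    simp only [e2] at h
    have h' : |co f * (s4Ec d k G (fun v w => mo f (s4Mark G v w)) - ∫ g : Matrix (Fin n) (Ch k) ℝ, mo f (fun i c => (g * Aᵀ) i c) ∂(gArr (Fin n) (Ch k)))| ≤ |co f| * δ := by
      rw [abs_mul]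
      exact mul_le_mul_of_nonneg_left h (abs_nonneg _)
    have := le_abs_self (co f * (s4Ec d k G (fun v w => mo f (s4Mark G v w)) - ∫ g : Matrix (Fin n) (Ch k) ℝ, mo f (fun i c => (g * Aᵀ) i c) ∂(gArr (Fin n) (Ch k))))
    linarith
  -- the Gaussian moment
  have hp1 : |p| ≤ 1 := hp.le
  have hB : ∀ i, (Aᵀ * Q i * A).IsHermitian := by
    intro i
    have hQi : (Q i).IsHermitian := by
      rw [Matrix.IsHermitian, Matrix.conjTranspose_eq_transpose_of_trivial]; exact hQ i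
    have := Matrix.isHermitian_conjTranspose_mul_mul A hQi
    rwa [Matrix.conjTranspose_eq_transpose_of_trivial] at this
  have htr : ∀ i, (Aᵀ * Q i * A).trace = Matrix.trace (Q i * C) := by
    intro i
    rw [Matrix.trace_mul_comm, ← Matrix.mul_assoc, s4m_A_mul k hp1, Matrix.trace_mul_comm]
  have hs : 0 < 3 * Real.sqrt H := by have := Real.sqrt_pos.2 hH; positivity
  have hBs : ∑ i, ((Aᵀ * Q i * A) * (Aᵀ * Q i * A)).trace ≤ (3 * Real.sqrt H) ^ 2 := by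
    rw [mul_pow, Real.sq_sqrt hH.le, hHdef, Finset.mul_sum]
    refine Finset.sum_le_sum fun i _ => ?_
    rw [qf_trace_sq_herm (hB i)]
    have := s4m_hs_conj k hp1 (Q i)
    linarith
  have g4 := s4m_gauss (fun i => Aᵀ * Q i * A) hB hs hBs j
  have g5 : ∫ g : Matrix (Fin n) (Ch k) ℝ, (∑ i, ((g * Aᵀ) i ⬝ᵥ Q i *ᵥ (g * Aᵀ) i - Matrix.trace (Q i * C))) ^ (2 * j) ∂(gArr (Fin n) (Ch k))
      ≤ 2 * (2 * j).factorial * Real.exp (1 / 8) * 144 ^ j * H ^ j := by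
    have e : ∀ g : Matrix (Fin n) (Ch k) ℝ, (∑ i, ((g * Aᵀ) i ⬝ᵥ Q i *ᵥ (g * Aᵀ) i - Matrix.trace (Q i * C)))
        = ∑ i, (qfQ (Aᵀ * Q i * A) (g i) - (Aᵀ * Q i * A).trace) := by
      intro g
      refine Finset.sum_congr rfl fun i _ => ?_
      rw [s4m_qf, htr]
    simp only [e]
    refine g4.trans (le_of_eq ?_)
    have : (4 * (3 * Real.sqrt H)) ^ (2 * j) = 144 ^ j * H ^ j := by
      rw [pow_mul, ← mul_pow]
      congr 1
      rw [mul_pow, mul_pow, Real.sq_sqrt hH.le]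
      ring
    rw [this]
    ring
  have g6 := s4m_coef Q C (s4m_C_abs k hp1) (2 * j)
  rw [g1]
  calc ∑ f, co f * s4Ec d k G (fun v w => mo f (s4Mark G v w))
      ≤ ∑ f, (co f * ∫ g : Matrix (Fin n) (Ch k) ℝ, mo f (fun i c => (g * Aᵀ) i c) ∂(gArr (Fin n) (Ch k)) + |co f| * δ) := Finset.sum_le_sum fun f _ => g3 f
    _ = ∫ g : Matrix (Fin n) (Ch k) ℝ, (∑ i, ((g * Aᵀ) i ⬝ᵥ Q i *ᵥ (g * Aᵀ) i - Matrix.trace (Q i * C))) ^ (2 * j) ∂(gArr (Fin n) (Ch k))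
          + δ * ∑ f, |co f| := by
        rw [Finset.sum_add_distrib, g2, ← Finset.sum_mul, mul_comm δ]
    _ ≤ _ := add_le_add g5 (mul_le_mul_of_nonneg_left g6 hδ)

/-- the initial event at `z0 = s + i S`, `Λ = S²` -/
def S4Init {n k : ℕ} (d : ℕ) (E : ℝ) (G : SimpleGraph (Fin n)) (v w : Fin k → Fin n) (s S τ C : ℝ) : Prop :=
  S4Near d E (s4X G E v w ⟨s, S⟩) τ ∧ (s4M G E ⟨0, S ^ 2⟩).im ≤ C ∧ ∀ c, ((s4X G E v w ⟨0, S ^ 2⟩).2.1 c c).im ≤ Real.sqrt S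

/-! ## kit `s4c`: probability glue -/

open Classical in
/-- a conditional probability is at most one -/
theorem s4c_Ec_le_one {n d k : ℕ} {G : SimpleGraph (Fin n)} (hG : G ∈ regularGraphs n d) (hn : 0 < n * d) (T : (Fin k → Fin n) → (Fin k → Fin n) → Prop) :
    s4Ec d k G (fun v w => if T v w then 1 else 0) ≤ 1 := by
  refine le_trans (s4_Ec_mono G fun v w _ => ?_) (le_of_eq (s4_Ec_const (k := k) hG hn 1))
  split_ifs <;> norm_num

open Classical in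
theorem s4c_Ec_nonneg {n d k : ℕ} (G : SimpleGraph (Fin n)) (F : (Fin k → Fin n) → (Fin k → Fin n) → ℝ) (hF : ∀ v w, 0 ≤ F v w) :
    0 ≤ s4Ec d k G F := by
  unfold s4Ec
  refine div_nonneg (Finset.sum_nonneg fun v _ => Finset.sum_nonneg fun w _ => ?_) (by positivity)
  split_ifs
  · exact hF v w
  · exact le_rfl

open Classical in
/-- conditioning on a graph event -/
theorem s4c_Pr_split {n d k : ℕ} (hne : (regularGraphs n d).Nonempty) (hn : 0 < n * d)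
    (T : SimpleGraph (Fin n) → (Fin k → Fin n) → (Fin k → Fin n) → Prop) (g : SimpleGraph (Fin n) → Prop) {b : ℝ} (hb : 0 ≤ b)
    (h : ∀ G ∈ regularGraphs n d, ¬ g G → s4Ec d k G (fun v w => if T G v w then 1 else 0) ≤ b) :
    s4Pr n d k T ≤ s4Pg n d g + b := by
  have h1 := s4_Eg_lin (n := n) (d := d) (fun G => if g G then (1 : ℝ) else 0) (fun _ => b) 1 1
  rw [s4_Eg_const hne] at h1
  simp only [one_mul] at h1
  unfold s4Pr s4E s4Pg
  rw [← h1]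
  refine s4_Eg_mono fun G hG => ?_
  by_cases hg : g G
  · rw [if_pos hg]
    have := s4c_Ec_le_one (k := k) hG hn (T G)
    linarith
  · rw [if_neg hg, zero_add]
    exact h G hG hg

/-- finite unions -/
theorem s4c_Pr_finset {n d k : ℕ} {ι : Type} (s : Finset ι) (T : ι → SimpleGraph (Fin n) → (Fin k → Fin n) → (Fin k → Fin n) → Prop) :
    s4Pr n d k (fun G v w => ∃ i ∈ s, T i G v w) ≤ ∑ i ∈ s, s4Pr n d k (T i) := by
  classical
  induction s using Finset.induction_on with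
  | empty =>
    simp only [Finset.notMem_empty, false_and, exists_false, Finset.sum_empty]
    unfold s4Pr s4E s4Eg s4Ec
    simp
  | insert i s hi ih =>
    rw [Finset.sum_insert hi]
    refine le_trans (s4_Pr_mono fun G v w h => ?_) ((s4_Pr_or (T i) fun G v w => ∃ i ∈ s, T i G v w).trans (by linarith))
    obtain ⟨i', hi', hT⟩ := h
    rcases Finset.mem_insert.1 hi' with rfl | h'
    · exact Or.inl hT
    · exact Or.inr ⟨i', h', hT⟩

open Classical in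
/-- finite unions, conditionally -/
theorem s4c_Ec_finset {n d k : ℕ} {ι : Type} (G : SimpleGraph (Fin n)) (s : Finset ι) (T : ι → (Fin k → Fin n) → (Fin k → Fin n) → Prop) :
    s4Ec d k G (fun v w => if ∃ i ∈ s, T i v w then 1 else 0) ≤ ∑ i ∈ s, s4Ec d k G (fun v w => if T i v w then 1 else 0) := by
  rw [← s4_Ec_sum]
  refine s4_Ec_mono G fun v w _ => ?_
  split_ifs with h
  · obtain ⟨i, hi, hT⟩ := h
    calc (1 : ℝ) = if T i v w then 1 else 0 := by rw [if_pos hT]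
      _ ≤ _ := Finset.single_le_sum (f := fun i => if T i v w then (1 : ℝ) else 0) (fun i _ => by split_ifs <;> norm_num) hi
  · exact Finset.sum_nonneg fun i _ => by split_ifs <;> norm_num

/-- `n^ε → ∞` -/
theorem s4c_S_large {ε0 : ℝ} (hε : 0 < ε0) (S0 : ℝ) : ∃ N : ℕ, ∀ n : ℕ, N ≤ n → S0 ≤ (n : ℝ) ^ ε0 := by
  have h := ((tendsto_rpow_atTop hε).comp tendsto_natCast_atTop_atTop).eventually_ge_atTop S0
  obtain ⟨N, hN⟩ := eventually_atTop.1 h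
  exact ⟨N, fun n hn => hN n hn⟩

theorem s4c_S_sq (n : ℕ) (ε0 : ℝ) : ((n : ℝ) ^ ε0) ^ 2 = (n : ℝ) ^ (2 * ε0) := by
  rw [← Real.rpow_natCast, ← Real.rpow_mul (Nat.cast_nonneg n)]
  congr 1
  push_cast
  ring

/-! ## entries of `K_k(m)` -/

theorem s4c_chJ_apply (k : ℕ) (c c' : Ch k) : chJ k c c' = if c' = c.swap then 1 else 0 := by
  rcases c with a | a <;> rcases c' with b | b <;> simp [chJ, Matrix.one_apply, eq_comm]

theorem s4c_chC_apply (k : ℕ) (p : ℝ) (c c' : Ch k) : chC k p c c' = (if c = c' then 1 else 0) + p * if c' = c.swap then 1 else 0 := by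
  simp [chC, Matrix.one_apply, s4c_chJ_apply]

theorem s4c_chC_le (k : ℕ) {p : ℝ} (hp : |p| ≤ 1) (c c' : Ch k) : |chC k p c c'| ≤ 1 := by
  rw [s4c_chC_apply]
  by_cases h : c = c'
  · subst h
    have : ¬ c = c.swap := by rcases c with a | a <;> simp
    simp [this]
  · rw [if_neg h, zero_add]
    split_ifs
    · simpa using hp
    · simp

theorem s4c_K_apply (k d : ℕ) (E : ℝ) (m : ℂ) (c c' : Ch k) :
    s4K k d E m c c' = m * ((chC k (E / d) c c' : ℝ) : ℂ) + (d : ℂ)⁻¹ * ((chJ k c c' : ℝ) : ℂ) := by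
  simp [s4K, toC]

theorem s4c_K_sub (k d : ℕ) (E : ℝ) (m m' : ℂ) (c c' : Ch k) :
    s4K k d E m c c' - s4K k d E m' c c' = (m - m') * ((chC k (E / d) c c' : ℝ) : ℂ) := by
  rw [s4c_K_apply, s4c_K_apply]
  ring

theorem s4c_K_off (k d : ℕ) (E : ℝ) (m : ℂ) {c c' : Ch k} (h : chE c ≠ chE c') : s4K k d E m c c' = 0 := by
  have h1 : c ≠ c' := fun e => h (by rw [e])
  have h2 : c' ≠ c.swap := by
    rintro rfl
    apply h
    rcases c with a | a <;> rfl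
  rw [s4c_K_apply, s4c_chC_apply, s4c_chJ_apply, if_neg h1, if_neg h2]
  simp

/-- the side of an end point, as an end point of a single edge -/
def s4cSd {k : ℕ} : Ch k → Ch 1 := Sum.map (fun _ => 0) (fun _ => 0)

theorem s4c_K_blk (k d : ℕ) (E : ℝ) (m : ℂ) {c c' : Ch k} (h : chE c = chE c') : s4K k d E m c c' = s4K 1 d E m (s4cSd c) (s4cSd c') := by
  rw [s4c_K_apply, s4c_K_apply, s4c_chC_apply, s4c_chC_apply, s4c_chJ_apply, s4c_chJ_apply]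
  rcases c with a | a <;> rcases c' with b | b <;> simp only [chE, Sum.elim_inl, Sum.elim_inr, id] at h <;> subst h <;> simp [s4cSd]

theorem s4c_End_blk {n k : ℕ} (v w : Fin k → Fin n) (c : Ch k) :
    s4End (v ∘ fun _ : Fin 1 => chE c) (w ∘ fun _ : Fin 1 => chE c) (s4cSd c) = s4End v w c := by
  rcases c with a | a <;> rfl

/-- assembling the near event from the single edges and the off-block entries -/
theorem s4c_near_of {n k : ℕ} (d : ℕ) (E : ℝ) (G : SimpleGraph (Fin n)) (v w : Fin k → Fin n) (z : ℂ) (τ : ℝ)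
    (h0 : ‖s4M G E z - s4Ms d E‖ ≤ τ)
    (h1 : ∀ a : Fin k, S4Near d E (s4X G E (v ∘ fun _ : Fin 1 => a) (w ∘ fun _ : Fin 1 => a) z) τ)
    (h2 : ∀ c c' : Ch k, chE c ≠ chE c' → ‖s4R G E z (s4End v w c) (s4End v w c')‖ ≤ τ) :
    S4Near d E (s4X G E v w z) τ := by
  refine ⟨h0, fun c c' => ?_⟩
  show ‖s4R G E z (s4End v w c) (s4End v w c') - _‖ ≤ τ
  by_cases h : chE c = chE c'
  · have := (h1 (chE c)).2 (s4cSd c) (s4cSd c')
    rw [s4c_K_blk k d E _ h]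
    have e1 := s4c_End_blk v w c
    have e2 := s4c_End_blk v w c'
    rw [← h] at e2
    rw [← e1, ← e2]
    exact this
  · rw [s4c_K_off k d E _ h, sub_zero]
    exact h2 c c' h

/-! ## conditional first and second moments of the resolvent entries -/

theorem s4c_zeta_im {n : ℕ} (E : ℝ) (z : ℂ) : ((E : ℂ) + z / n).im = z.im / n := by
  rw [Complex.add_im, Complex.ofReal_im, zero_add, Complex.div_natCast_im]

theorem s4c_tr_im {n : ℕ} (hn : 0 < n) (G : SimpleGraph (Fin n)) (E : ℝ) (z : ℂ) : ∑ x, (s4R G E z x x).im = n * (s4M G E z).im := by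
  have hn' : (n : ℝ) ≠ 0 := by exact_mod_cast hn.ne'
  unfold s4M
  have e : ((n : ℂ)⁻¹ * (s4R G E z).trace).im = (n : ℝ)⁻¹ * ((s4R G E z).trace).im := by
    have : (n : ℂ)⁻¹ = (((n : ℝ)⁻¹ : ℝ) : ℂ) := by push_cast; rfl
    rw [this, Complex.im_ofReal_mul]
  rw [e, ← mul_assoc, mul_inv_cancel₀ hn', one_mul, Matrix.trace, Complex.im_sum]
  rfl

/-- `E[Im R_xx | G] = Im m_n` -/
theorem s4c_Ec_diag {n d k : ℕ} {G : SimpleGraph (Fin n)} (hG : G ∈ regularGraphs n d) (hn : 0 < n * d) (E : ℝ) (z : ℂ) (c : Ch k) :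
    s4Ec d k G (fun v w => ((s4X G E v w z).2.1 c c).im) = (s4M G E z).im := by
  have hn0 : 0 < n := Nat.pos_of_mul_pos_right hn
  have hn' : (n : ℝ) ≠ 0 := by exact_mod_cast hn0.ne'
  have h := s4_Ec_end hG hn c (fun x => (s4R G E z x x).im)
  rw [s4c_tr_im hn0] at h
  rw [mul_div_assoc, mul_comm, div_mul_cancel₀ _ hn'] at h
  exact h

/-- `E[|R_xy|² | G] = Im m_n / Im z` for end points of two different edges -/
theorem s4c_Ec_off {n d k : ℕ} {G : SimpleGraph (Fin n)} (hG : G ∈ regularGraphs n d) (hn : 0 < n * d) (E : ℝ) {z : ℂ} (hz : 0 < z.im) {c c' : Ch k} (hc : chE c ≠ chE c') :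
    s4Ec d k G (fun v w => ‖s4R G E z (s4End v w c) (s4End v w c')‖ ^ 2) = (s4M G E z).im / z.im := by
  have hn0 : 0 < n := Nat.pos_of_mul_pos_right hn
  have hn' : (n : ℝ) ≠ 0 := by exact_mod_cast hn0.ne'
  have h := s4_Ec_end2 hG hn hc (fun x y => ‖s4R G E z x y‖ ^ 2)
  rw [h]
  have h1 : ∀ x, ∑ y, ‖s4R G E z x y‖ ^ 2 = (s4R G E z x x).im / (z.im / n) := by
    intro x
    have := rs_ward (s4_herm G) (s4_zeta_im hn0 E hz.ne') x
    rw [s4c_zeta_im] at this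
    exact this
  simp only [h1]
  rw [← Finset.sum_div, s4c_tr_im hn0]
  field_simp

theorem s4c_diag_nonneg {n k : ℕ} (hn : 0 < n) (G : SimpleGraph (Fin n)) (E : ℝ) {z : ℂ} (hz : 0 < z.im) (v w : Fin k → Fin n) (c : Ch k) :
    0 ≤ ((s4X G E v w z).2.1 c c).im := by
  have h : 0 < ((E : ℂ) + z / n).im := by
    rw [s4c_zeta_im]
    have : (0 : ℝ) < n := by exact_mod_cast hn
    positivity
  exact (rs_G_im_pos (s4_herm G) h _).le

/-- **LEAF** P1 (4.3).      Trace and the diagonal `2 × 2` blocks: `S4I1` + `s4_Pr_marg`.      Off-block entries: `E|R_xy|² = Im m_n(z0)/S` (`rs_ward`, `s4_Ec_end2`) + Markov.      `Im R_xx(iS²)`: mean `Im m_n(iS²) ≤ C` (`s4_Ec_end`) + Markov at `√S`. -/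
theorem s4_init {d : ℕ} {E : ℝ} (H : S4Hyp d E) : ∃ ε1 C : ℝ, 0 < ε1 ∧ ∀ (k : ℕ) (ε0 : ℝ), 0 < ε0 → ε0 ≤ ε1 → ∀ s τ η : ℝ, 0 < τ → 0 < η →
    ∃ N : ℕ, ∀ n : ℕ, N ≤ n → (regularGraphs n d).Nonempty → s4Pr n d k (fun G v w => ¬ S4Init d E G v w s ((n : ℝ) ^ ε0) τ C) ≤ η := by
  classical
  obtain ⟨ε1, C, hε1, hI⟩ := H.i1
  refine ⟨ε1, C, hε1, fun k ε0 hε0 hε01 s τ η hτ hη => ?_⟩
  set M : ℝ := 2 + 5 * k + 8 * (k : ℝ) ^ 2 with hMdef
  have hM : 0 < M := by positivity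
  set η' : ℝ := η / M with hη'def
  have hη' : 0 < η' := by positivity
  set τ1 : ℝ := min τ 1 with hτ1def
  have hτ1 : 0 < τ1 := lt_min hτ one_pos
  obtain ⟨N1, hN1⟩ := hI ε0 hε0 hε01 s τ1 η' hτ1 hη'
  obtain ⟨N2, hN2⟩ := s4c_S_large hε0 (max 1 (max ((‖s4Ms d E‖ + 1) / (τ1 ^ 2 * η')) ((|C| / η') ^ 2)))
  refine ⟨max (max N1 N2) 1, fun n hn hne => ?_⟩
  have hn1 : N1 ≤ n := (le_max_left _ _).trans ((le_max_left _ _).trans hn)
  have hn2 : N2 ≤ n := (le_max_right _ _).trans ((le_max_left _ _).trans hn)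
  have hn0 : 0 < n := lt_of_lt_of_le one_pos ((le_max_right _ _).trans hn)
  have hnd : 0 < n * d := Nat.mul_pos hn0 (lt_of_lt_of_le (by norm_num) H.hd)
  obtain ⟨hA, hB⟩ := hN1 n hn1 hne
  have hSall := hN2 n hn2
  rw [← s4c_S_sq] at hB
  set S : ℝ := (n : ℝ) ^ ε0 with hSdef
  have hS1 : 1 ≤ S := (le_max_left _ _).trans hSall
  have hS2 : (‖s4Ms d E‖ + 1) / (τ1 ^ 2 * η') ≤ S := (le_max_left _ _).trans ((le_max_right _ _).trans hSall)
  have hS3 : (|C| / η') ^ 2 ≤ S := (le_max_right _ _).trans ((le_max_right _ _).trans hSall)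
  have hS0 : 0 < S := lt_of_lt_of_le one_pos hS1
  -- graph events
  set g1 : SimpleGraph (Fin n) → Prop := fun G => ¬ ‖s4M G E ⟨s, S⟩ - s4Ms d E‖ ≤ τ1 with hg1def
  set g2 : SimpleGraph (Fin n) → Prop := fun G => C < (s4M G E ⟨0, S ^ 2⟩).im with hg2def
  have hg1 : s4Pg n d g1 ≤ η' := by
    rw [← s4_Pr_graph (k := 1) hnd]
    exact (s4_Pr_mono fun G v w h hc => h hc.1).trans hA
  have hg2 : s4Pg n d g2 ≤ η' := hB
  have p1 : s4Pr n d k (fun G _ _ => g1 G) ≤ η' := by rw [s4_Pr_graph hnd]; exact hg1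
  have p4 : s4Pr n d k (fun G _ _ => g2 G) ≤ η' := by rw [s4_Pr_graph hnd]; exact hg2
  have p2 : s4Pr n d k (fun G v w => ∃ a ∈ (Finset.univ : Finset (Fin k)),
      ¬ S4Near d E (s4X G E (v ∘ fun _ : Fin 1 => a) (w ∘ fun _ : Fin 1 => a) ⟨s, S⟩) τ1) ≤ k * η' := by
    refine (s4c_Pr_finset _ _).trans ?_
    calc _ ≤ ∑ _a : Fin k, η' := Finset.sum_le_sum fun a _ => ?_
      _ = k * η' := by simp
    rw [s4_Pr_marg hnd (fun _ : Fin 1 => a) (fun x y _ => Subsingleton.elim x y) (fun G v w => ¬ S4Near d E (s4X G E v w ⟨s, S⟩) τ1)]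
    exact hA
  have p3 : s4Pr n d k (fun G v w => ∃ cc ∈ (Finset.univ : Finset (Ch k × Ch k)).filter (fun cc => chE cc.1 ≠ chE cc.2),
      τ1 ^ 2 < ‖s4R G E ⟨s, S⟩ (s4End v w cc.1) (s4End v w cc.2)‖ ^ 2) ≤ 4 * (k : ℝ) ^ 2 * (2 * η') := by
    refine (s4c_Pr_finset _ _).trans ?_
    have hcard : (((Finset.univ : Finset (Ch k × Ch k)).filter (fun cc => chE cc.1 ≠ chE cc.2)).card : ℝ) ≤ 4 * (k : ℝ) ^ 2 := by
      have h5 : (Finset.univ : Finset (Ch k × Ch k)).card = (k + k) * (k + k) := by simp [Ch]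
      have h6 := Finset.card_filter_le (Finset.univ : Finset (Ch k × Ch k)) (fun cc => chE cc.1 ≠ chE cc.2)
      rw [h5] at h6
      calc _ ≤ (((k + k) * (k + k) : ℕ) : ℝ) := by exact_mod_cast h6
        _ = _ := by push_cast; ring
    calc _ ≤ ∑ _cc ∈ (Finset.univ : Finset (Ch k × Ch k)).filter (fun cc => chE cc.1 ≠ chE cc.2), 2 * η' := Finset.sum_le_sum fun cc hcc => ?_
      _ = _ * (2 * η') := by rw [Finset.sum_const, nsmul_eq_mul]
      _ ≤ _ := mul_le_mul_of_nonneg_right hcard (by positivity)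
    have hcc' := (Finset.mem_filter.1 hcc).2
    refine (s4c_Pr_split hne hnd _ g1 hη'.le fun G hG hg => ?_).trans (by linarith)
    refine (s4_Ec_markov G _ (fun v w => by positivity) (by positivity)).trans ?_
    rw [s4c_Ec_off hG hnd E (z := ⟨s, S⟩) hS0 hcc']
    have hg' : ‖s4M G E ⟨s, S⟩ - s4Ms d E‖ ≤ τ1 := not_not.1 hg
    have h1 : (s4M G E ⟨s, S⟩).im ≤ ‖s4Ms d E‖ + 1 := by
      have a1 := Complex.im_le_norm (s4M G E ⟨s, S⟩)
      have a2 := norm_sub_norm_le (s4M G E ⟨s, S⟩) (s4Ms d E)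
      have a3 : τ1 ≤ 1 := min_le_right _ _
      linarith
    show (s4M G E ⟨s, S⟩).im / S / τ1 ^ 2 ≤ η'
    rw [div_div, div_le_iff₀ (by positivity)]
    rw [div_le_iff₀ (by positivity)] at hS2
    nlinarith
  have p5 : s4Pr n d k (fun G v w => ∃ c ∈ (Finset.univ : Finset (Ch k)), Real.sqrt S < ((s4X G E v w ⟨0, S ^ 2⟩).2.1 c c).im) ≤ 2 * (k : ℝ) * (2 * η') := by
    refine (s4c_Pr_finset _ _).trans ?_
    calc _ ≤ ∑ _c : Ch k, 2 * η' := Finset.sum_le_sum fun c _ => ?_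
      _ = _ := by
        have h5 : (Finset.univ : Finset (Ch k)).card = k + k := by simp [Ch]
        rw [Finset.sum_const, h5, nsmul_eq_mul]
        push_cast
        ring
    refine (s4c_Pr_split hne hnd _ g2 hη'.le fun G hG hg => ?_).trans (by linarith)
    have hz : 0 < (⟨0, S ^ 2⟩ : ℂ).im := by show 0 < S ^ 2; positivity
    refine (s4_Ec_markov G _ (fun v w => s4c_diag_nonneg hn0 G E hz v w c) (Real.sqrt_pos.2 hS0)).trans ?_
    rw [s4c_Ec_diag hG hnd]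
    have hg' : (s4M G E ⟨0, S ^ 2⟩).im ≤ C := not_lt.1 hg
    have h2 : |C| / η' ≤ Real.sqrt S := Real.le_sqrt_of_sq_le hS3
    rw [div_le_iff₀ (Real.sqrt_pos.2 hS0)]
    rw [div_le_iff₀ hη'] at h2
    have := le_abs_self C
    linarith
  -- the union
  have hU : s4Pr n d k (fun G v w => ¬ S4Init d E G v w s S τ C) ≤ s4Pr n d k (fun G v w => (g1 G ∨ g2 G) ∨
      ((∃ a ∈ (Finset.univ : Finset (Fin k)), ¬ S4Near d E (s4X G E (v ∘ fun _ : Fin 1 => a) (w ∘ fun _ : Fin 1 => a) ⟨s, S⟩) τ1) ∨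
      (∃ cc ∈ (Finset.univ : Finset (Ch k × Ch k)).filter (fun cc => chE cc.1 ≠ chE cc.2), τ1 ^ 2 < ‖s4R G E ⟨s, S⟩ (s4End v w cc.1) (s4End v w cc.2)‖ ^ 2)) ∨
      (∃ c ∈ (Finset.univ : Finset (Ch k)), Real.sqrt S < ((s4X G E v w ⟨0, S ^ 2⟩).2.1 c c).im)) := by
    refine s4_Pr_mono fun G v w h => ?_
    by_contra hc
    push Not at hc
    obtain ⟨⟨c1, c2⟩, ⟨c3, c4⟩, c5⟩ := hc
    apply h
    have hnear : S4Near d E (s4X G E v w ⟨s, S⟩) τ1 := by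
      refine s4c_near_of d E G v w _ τ1 (not_not.1 c1) (fun a => c3 a (Finset.mem_univ a)) fun c c' hcc => ?_
      have := c4 (c, c') (Finset.mem_filter.2 ⟨Finset.mem_univ _, hcc⟩)
      exact le_of_sq_le_sq this hτ1.le
    have hτle : τ1 ≤ τ := min_le_left _ _
    exact ⟨⟨hnear.1.trans hτle, fun c c' => (hnear.2 c c').trans hτle⟩, not_lt.1 c2, fun c => c5 c (Finset.mem_univ c)⟩
  refine hU.trans ?_
  have q1 := s4_Pr_or (n := n) (d := d) (k := k) (fun G v w => (g1 G ∨ g2 G)) (fun G v w =>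
      ((∃ a ∈ (Finset.univ : Finset (Fin k)), ¬ S4Near d E (s4X G E (v ∘ fun _ : Fin 1 => a) (w ∘ fun _ : Fin 1 => a) ⟨s, S⟩) τ1) ∨
      (∃ cc ∈ (Finset.univ : Finset (Ch k × Ch k)).filter (fun cc => chE cc.1 ≠ chE cc.2), τ1 ^ 2 < ‖s4R G E ⟨s, S⟩ (s4End v w cc.1) (s4End v w cc.2)‖ ^ 2)) ∨
      (∃ c ∈ (Finset.univ : Finset (Ch k)), Real.sqrt S < ((s4X G E v w ⟨0, S ^ 2⟩).2.1 c c).im))
  have q2 := s4_Pr_or (n := n) (d := d) (k := k) (fun G _ _ => g1 G) (fun G _ _ => g2 G)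
  have q3 := s4_Pr_or (n := n) (d := d) (k := k) (fun G v w =>
      ((∃ a ∈ (Finset.univ : Finset (Fin k)), ¬ S4Near d E (s4X G E (v ∘ fun _ : Fin 1 => a) (w ∘ fun _ : Fin 1 => a) ⟨s, S⟩) τ1) ∨
      (∃ cc ∈ (Finset.univ : Finset (Ch k × Ch k)).filter (fun cc => chE cc.1 ≠ chE cc.2), τ1 ^ 2 < ‖s4R G E ⟨s, S⟩ (s4End v w cc.1) (s4End v w cc.2)‖ ^ 2)))
      (fun G v w => (∃ c ∈ (Finset.univ : Finset (Ch k)), Real.sqrt S < ((s4X G E v w ⟨0, S ^ 2⟩).2.1 c c).im))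
  have q4 := s4_Pr_or (n := n) (d := d) (k := k) (fun G v w =>
      (∃ a ∈ (Finset.univ : Finset (Fin k)), ¬ S4Near d E (s4X G E (v ∘ fun _ : Fin 1 => a) (w ∘ fun _ : Fin 1 => a) ⟨s, S⟩) τ1))
      (fun G v w => (∃ cc ∈ (Finset.univ : Finset (Ch k × Ch k)).filter (fun cc => chE cc.1 ≠ chE cc.2), τ1 ^ 2 < ‖s4R G E ⟨s, S⟩ (s4End v w cc.1) (s4End v w cc.2)‖ ^ 2))
  have hfin : η' + η' + (k * η' + 4 * (k : ℝ) ^ 2 * (2 * η') + 2 * (k : ℝ) * (2 * η')) = η := by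
    have : η' * M = η := div_mul_cancel₀ _ hM.ne'
    rw [← this, hMdef]
    ring
  linarith

/-- heights of the descent: `S, S/2, S/4, ...`, stopped at `y` -/
def s4Ht (S y : ℝ) (l : ℕ) : ℝ := max y (S / 2 ^ l)

/-- concentration under a trace bound at one spectral parameter: P1 (4.4) -/
def S4Conc1 {k : ℕ} (d : ℕ) (E : ℝ) (X : SwSt k) (Ctr e : ℝ) : Prop := ‖X.1‖ ≤ Ctr → ∀ c c', ‖X.2.1 c c' - s4K k d E X.1 c c'‖ ≤ e

/-- concentration at all heights of the descent -/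
def S4Conc {n k : ℕ} (d : ℕ) (E : ℝ) (G : SimpleGraph (Fin n)) (v w : Fin k → Fin n) (s S y Ctr τ : ℝ) : Prop :=
  ∀ l : ℕ, S4Conc1 d E (s4X G E v w ⟨s, s4Ht S y l⟩) Ctr (τ + s4Ht S y l ^ (-(1 / 3 : ℝ)))

/-! ## E. the switch -/

/-- permutation matrix in the convention of `swapMat`: `O b a = 1 ↔ σ b = a` -/
def s4Perm {k : ℕ} (σ : Equiv.Perm (Fin k)) : Matrix (Fin k) (Fin k) ℝ := σ.toPEquiv.toMatrix

/-- **LEAF** the adjacency update as `W B Wᵀ` (`sw7_adjMatrix`); `W x c = 1[x = end c]` -/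
theorem s4_sw_adj {n k : ℕ} {G : SimpleGraph (Fin n)} {v w : Fin k → Fin n} (h : Sw7Ind G v w) (σ : Equiv.Perm (Fin k)) :
    s4A (sw7G G v w σ) = s4A G + (Matrix.of fun x c => if x = s4End v w c then (1 : ℝ) else 0) * chB (s4Perm σ⁻¹) *
      (Matrix.of fun x c => if x = s4End v w c then (1 : ℝ) else 0)ᵀ := by
  classical
  have hadm := h.ok.adm σ
  unfold s4A
  rw [sw7_adjMatrix hadm, sub_add_eq_add_sub, add_sub_assoc]
  congr 1
  ext x y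
  have hO : ∀ i j : Fin k, s4Perm σ⁻¹ i j = if i = σ j then (1 : ℝ) else 0 := by
    intro i j
    unfold s4Perm
    rw [PEquiv.toMatrix_apply]
    simp only [Equiv.toPEquiv_apply, Option.mem_def, Option.some.injEq]
    refine if_congr ?_ rfl rfl
    rw [Equiv.Perm.inv_eq_iff_eq]
  have hWl : ∀ (x : Fin n) (i : Fin k), (if x = s4End v w (Sum.inl i) then (1 : ℝ) else 0) = if x = v i then 1 else 0 := fun _ _ => rfl
  have hWr : ∀ (x : Fin n) (i : Fin k), (if x = s4End v w (Sum.inr i) then (1 : ℝ) else 0) = if x = w i then 1 else 0 := fun _ _ => rfl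
  simp only [Matrix.mul_apply, Matrix.transpose_apply, Matrix.of_apply, Fintype.sum_sum_type, chB, Matrix.fromBlocks_apply₁₁,
    Matrix.fromBlocks_apply₁₂, Matrix.fromBlocks_apply₂₁, Matrix.fromBlocks_apply₂₂, Matrix.zero_apply, mul_zero, Finset.sum_const_zero,
    zero_add, add_zero, Matrix.sub_apply, Matrix.sum_apply, Matrix.add_apply, Matrix.single_apply, hO, Matrix.one_apply, hWl, hWr]
  have h1 : ∀ a₁ : Fin k, (∑ x_1, (if x = w x_1 then (1 : ℝ) else 0) * ((if x_1 = σ a₁ then 1 else 0) - if x_1 = a₁ then 1 else 0))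
      = (if x = w (σ a₁) then 1 else 0) - if x = w a₁ then 1 else 0 := by
    intro a₁
    simp only [mul_sub, Finset.sum_sub_distrib, mul_ite, mul_one, mul_zero, Finset.sum_ite_eq', Finset.mem_univ, if_true]
  have h2 : (∑ a₂, (∑ x_1, (if x = v x_1 then (1 : ℝ) else 0) * ((if a₂ = σ x_1 then 1 else 0) - if x_1 = a₂ then 1 else 0)) * if y = w a₂ then 1 else 0)
      = ∑ x_1, (if x = v x_1 then (1 : ℝ) else 0) * ((if y = w (σ x_1) then 1 else 0) - if y = w x_1 then 1 else 0) := by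
    simp only [Finset.sum_mul]
    rw [Finset.sum_comm]
    refine Finset.sum_congr rfl fun i _ => ?_
    simp only [mul_assoc, ← Finset.mul_sum]
    congr 1
    simp only [sub_mul, Finset.sum_sub_distrib, ite_mul, one_mul, zero_mul, Finset.sum_ite_eq', Finset.sum_ite_eq,
      Finset.mem_univ, if_true]
  rw [h2]
  simp only [h1]
  rw [← Finset.sum_sub_distrib, ← Finset.sum_add_distrib]
  refine Finset.sum_congr rfl fun i _ => ?_
  have hc : ∀ (a b : Prop) [Decidable a] [Decidable b], (if a ∧ b then (1 : ℝ) else 0) = (if a then 1 else 0) * (if b then 1 else 0) := by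
    intro a b _ _
    split_ifs <;> simp_all
  have he : ∀ (a b : Fin n) (inst : Decidable (a = b)), @ite ℝ (a = b) inst 1 0 = if b = a then 1 else 0 := fun a b _ => if_congr eq_comm rfl rfl
  rw [hc, hc, hc, hc, he (v i) x _, he (w (σ i)) y _, he (w (σ i)) x _, he (v i) y _, he (w i) y _, he (w i) x _]
  ring

/-- **LEAF** the resolvent identity in the sampled channels, old columns on both sides: `M = N + M B N`, `N = Wᵀ R̂ W` (`rs_res_A`, `s4_sw_adj`) -/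
theorem s4_res_id {n k : ℕ} (hn : 0 < n) {G : SimpleGraph (Fin n)} {v w : Fin k → Fin n} (h : Sw7Ind G v w) (σ : Equiv.Perm (Fin k)) (E : ℝ) {z : ℂ} (hz : 0 < z.im) :
    (s4X G E v w z).2.1 = (s4X (sw7G G v w σ) E v w z).2.1 + (s4X G E v w z).2.1 * toC (chB (s4Perm σ⁻¹)) * (s4X (sw7G G v w σ) E v w z).2.1 := by
  have hζ := s4_zeta_im hn E hz.ne'
  have h1 := rs_res_A (s4_herm G) (s4_herm (sw7G G v w σ)) hζ
  obtain ⟨W, hW⟩ : ∃ W : Matrix (Fin n) (Ch k) ℝ, W = Matrix.of fun x c => if x = s4End v w c then (1 : ℝ) else 0 := ⟨_, rfl⟩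
  have h2 : s4A (sw7G G v w σ) - s4A G = W * chB (s4Perm σ⁻¹) * Wᵀ := by
    rw [s4_sw_adj h σ, hW, add_sub_cancel_left]
  have h3 : rsC (W * chB (s4Perm σ⁻¹) * Wᵀ) = toC W * toC (chB (s4Perm σ⁻¹)) * (toC W)ᵀ := by
    ext x y
    simp only [rs_C_apply, toC, Matrix.mul_apply, Matrix.map_apply, Matrix.transpose_apply, Complex.ofReal_sum, Complex.ofReal_mul]
  have hRW : ∀ R : Matrix (Fin n) (Fin n) ℂ, R * toC W = R.submatrix id (s4End v w) := by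
    intro R
    ext x c
    simp only [Matrix.mul_apply, toC, Matrix.map_apply, hW, Matrix.of_apply, Matrix.submatrix_apply, id]
    rw [Finset.sum_eq_single (s4End v w c)]
    · simp
    · intro b _ hb
      simp [hb]
    · intro hb
      exact absurd (Finset.mem_univ _) hb
  have hWR : ∀ R : Matrix (Fin n) (Fin n) ℂ, (toC W)ᵀ * R = R.submatrix (s4End v w) id := by
    intro R
    ext c x
    simp only [Matrix.mul_apply, toC, Matrix.map_apply, hW, Matrix.of_apply, Matrix.submatrix_apply, id, Matrix.transpose_apply]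
    rw [Finset.sum_eq_single (s4End v w c)]
    · simp
    · intro b _ hb
      simp [hb]
    · intro hb
      exact absurd (Finset.mem_univ _) hb
  rw [h2, h3] at h1
  have h4 : s4R G E z = s4R (sw7G G v w σ) E z
      + (s4R G E z).submatrix id (s4End v w) * toC (chB (s4Perm σ⁻¹)) * (s4R (sw7G G v w σ) E z).submatrix (s4End v w) id := by
    rw [← hRW, ← hWR]
    unfold s4R
    rw [← sub_eq_iff_eq_add', h1]
    simp only [Matrix.mul_assoc]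
  show (s4R G E z).submatrix (s4End v w) (s4End v w) = (s4R (sw7G G v w σ) E z).submatrix (s4End v w) (s4End v w)
    + (s4R G E z).submatrix (s4End v w) (s4End v w) * toC (chB (s4Perm σ⁻¹)) * (s4R (sw7G G v w σ) E z).submatrix (s4End v w) (s4End v w)
  conv_lhs => rw [h4]
  ext c c'
  simp only [Matrix.submatrix_apply, Matrix.add_apply, Matrix.mul_apply, id]

/-- Woodbury, the four consequences used by the switch (pure algebra) -/
theorem s4_wood_alg {V ι : Type} [Fintype V] [DecidableEq V] [Fintype ι] [DecidableEq ι] (u : Matrix V ι ℂ) (b : Matrix ι ι ℂ) (G G' : Matrix V V ℂ)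
    (hW : IsUnit (1 + b * (uᵀ * G * u)).det) (hG : G' = G - G * u * ((1 + b * (uᵀ * G * u))⁻¹ * b) * (uᵀ * G)) :
    G' * u = G * u * (1 + b * (uᵀ * G * u))⁻¹ ∧ uᵀ * G' = (1 + uᵀ * G * u * b)⁻¹ * (uᵀ * G) ∧
      G'.trace = G.trace - ((1 + b * (uᵀ * G * u))⁻¹ * b * (uᵀ * (G * G) * u)).trace := by
  set Q := uᵀ * G * u with hQ
  set W := 1 + b * Q with hWd
  have hWW : W * W⁻¹ = 1 := Matrix.mul_nonsing_inv _ hW
  have hWW' : W⁻¹ * W = 1 := Matrix.nonsing_inv_mul _ hW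
  have hW2 : IsUnit (1 + Q * b).det := by
    rw [Matrix.det_one_add_mul_comm]
    exact hW
  refine ⟨?_, ?_, ?_⟩
  · have e1 : W⁻¹ * b * Q = 1 - W⁻¹ := by
      have : W⁻¹ * (b * Q) = W⁻¹ * (W - 1) := by rw [hWd]; congr 1; abel
      rw [Matrix.mul_assoc, this, Matrix.mul_sub, hWW', Matrix.mul_one]
    calc G' * u = G * u - G * u * (W⁻¹ * b * Q) := by
          rw [hG, Matrix.sub_mul, hQ]
          simp only [Matrix.mul_assoc]
      _ = G * u * W⁻¹ := by rw [e1, Matrix.mul_sub, Matrix.mul_one]; abel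
  · have e2 : (1 + Q * b) * (1 - Q * (W⁻¹ * b)) = 1 := by
      have : Q * b * (Q * (W⁻¹ * b)) = Q * ((W - 1) * W⁻¹) * b := by
        rw [hWd, add_sub_cancel_left]
        simp only [Matrix.mul_assoc]
      rw [Matrix.add_mul, Matrix.one_mul, Matrix.mul_sub, Matrix.mul_one, this, Matrix.sub_mul, hWW, Matrix.one_mul, Matrix.mul_sub, Matrix.mul_one, Matrix.sub_mul]
      simp only [Matrix.mul_assoc]
      abel
    have e3 : (1 + Q * b)⁻¹ = 1 - Q * (W⁻¹ * b) := Matrix.inv_eq_right_inv e2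
    rw [e3, hG, Matrix.mul_sub, Matrix.sub_mul, Matrix.one_mul, hQ]
    simp only [Matrix.mul_assoc]
  · rw [hG, Matrix.trace_sub]
    congr 1
    calc (G * u * (W⁻¹ * b) * (uᵀ * G)).trace = ((G * u) * ((W⁻¹ * b) * (uᵀ * G))).trace := by rw [Matrix.mul_assoc]
      _ = (((W⁻¹ * b) * (uᵀ * G)) * (G * u)).trace := Matrix.trace_mul_comm _ _
      _ = _ := by simp only [Matrix.mul_assoc]


/-- conjugation by `chD` of a permutation matrix is a reindexing of the ending channels -/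
theorem s4_chD_conj {k : ℕ} (σ : Equiv.Perm (Fin k)) (X : Matrix (Ch k) (Ch k) ℂ) :
    (toC (chD (s4Perm σ⁻¹)))ᵀ * X * toC (chD (s4Perm σ⁻¹)) = X.submatrix (Sum.map id σ) (Sum.map id σ) := by
  have hD : ∀ c c' : Ch k, toC (chD (s4Perm σ⁻¹)) c c' = if c = Sum.map id σ c' then 1 else 0 := by
    intro c c'
    unfold toC chD s4Perm
    rw [Matrix.map_apply]
    rcases c with a | a <;> rcases c' with a' | a'
    · by_cases h : a = a' <;> simp [h]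
    · simp
    · simp
    · simp only [Matrix.fromBlocks_apply₂₂, PEquiv.toMatrix_apply, Equiv.toPEquiv_apply, Option.mem_def, Option.some.injEq, Sum.map_inr, Sum.inr.injEq]
      have : (σ⁻¹ a = a') ↔ a = σ a' := by
        rw [Equiv.Perm.inv_def, Equiv.symm_apply_eq]
      by_cases h : a = σ a'
      · rw [if_pos (this.2 h), if_pos h]; simp
      · rw [if_neg (fun e => h (this.1 e)), if_neg h]; simp
  ext c c'
  rw [Matrix.submatrix_apply, Matrix.mul_apply]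
  simp only [hD, mul_ite, mul_one, mul_zero]
  rw [Finset.sum_ite_eq' Finset.univ (Sum.map id σ c'), if_pos (Finset.mem_univ _), Matrix.mul_apply]
  simp only [Matrix.transpose_apply, hD, ite_mul, one_mul, zero_mul]
  rw [Finset.sum_ite_eq' Finset.univ (Sum.map id σ c), if_pos (Finset.mem_univ _)]


/-- **NODE** the graph vector of the switched data (P1 Prop 5.1, first step; note A8 F7): `rs_woodbury` + `s4_sw_adj`; `W' = W D`. -/
theorem s4_sw_X {n k : ℕ} (hn : 0 < n) {G : SimpleGraph (Fin n)} {v w : Fin k → Fin n} (h : Sw7Ind G v w) (σ : Equiv.Perm (Fin k)) (E : ℝ) {z : ℂ} (hz : 0 < z.im) :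
    s4X (sw7G G v w σ) E v (w ∘ σ) z = swT (s4Perm σ⁻¹) (s4X G E v w z) := by
  have hn' : (0 : ℝ) < n := by exact_mod_cast hn
  have hζ : ((E : ℂ) + z / n).im ≠ 0 := by
    have : ((E : ℂ) + z / n).im = z.im / n := by
      rw [Complex.add_im, Complex.ofReal_im, zero_add, Complex.div_natCast_im]
    rw [this]
    positivity
  have hadj : s4A (sw7G G v w σ) = s4A G + rsE (s4End v w) * chB (s4Perm σ⁻¹) * (rsE (s4End v w))ᵀ := s4_sw_adj h σ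
  have hB : (s4A G + rsE (s4End v w) * chB (s4Perm σ⁻¹) * (rsE (s4End v w))ᵀ).IsHermitian := hadj ▸ s4_herm _
  have hsub : ∀ M : Matrix (Fin n) (Fin n) ℂ, (rsR (rsE (s4End v w)))ᵀ * M * rsR (rsE (s4End v w)) = M.submatrix (s4End v w) (s4End v w) := by
    intro M
    ext i j
    rw [rs_mul_E, rs_E_mul]
    rfl
  have hwood := rs_woodbury (s4_herm G) (rsE (s4End v w)) (chB (s4Perm σ⁻¹)) hB hζ
  have hunit := rs_W_isUnit (s4_herm G) (rsE (s4End v w)) (chB (s4Perm σ⁻¹)) hB hζ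
  rw [← hadj] at hwood
  unfold rsW at hwood hunit
  obtain ⟨a1, a2, a3⟩ := s4_wood_alg (rsR (rsE (s4End v w))) (rsR (chB (s4Perm σ⁻¹))) (rsG (s4A G) ((E : ℂ) + z / n)) (rsG (s4A (sw7G G v w σ)) ((E : ℂ) + z / n)) hunit hwood
  have hend : s4End v (w ∘ σ) = s4End v w ∘ Sum.map id σ := by
    funext c
    cases c <;> rfl
  set R := rsG (s4A G) ((E : ℂ) + z / n) with hR
  set R' := rsG (s4A (sw7G G v w σ)) ((E : ℂ) + z / n) with hR'
  set u := rsR (rsE (s4End v w)) with hu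
  set b := rsR (chB (s4Perm σ⁻¹)) with hb
  have c1 : R'.submatrix (s4End v w) (s4End v w) = (1 + R.submatrix (s4End v w) (s4End v w) * b)⁻¹ * R.submatrix (s4End v w) (s4End v w) := by
    rw [← hsub R', ← hsub R, a2]
    simp only [Matrix.mul_assoc]
  have c2 : (R' * R').submatrix (s4End v w) (s4End v w)
      = (1 + R.submatrix (s4End v w) (s4End v w) * b)⁻¹ * (R * R).submatrix (s4End v w) (s4End v w) * (1 + b * R.submatrix (s4End v w) (s4End v w))⁻¹ := by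
    rw [← hsub (R' * R'), ← hsub R, ← hsub (R * R)]
    calc uᵀ * (R' * R') * u = (uᵀ * R') * (R' * u) := by simp only [Matrix.mul_assoc]
      _ = _ := by rw [a1, a2]; simp only [Matrix.mul_assoc]
  unfold s4X swT s4M s4R
  simp only
  rw [← hR, ← hR']
  refine Prod.ext ?_ (Prod.ext ?_ ?_)
  · show (n : ℂ)⁻¹ * R'.trace = (n : ℂ)⁻¹ * R.trace - _
    rw [a3, mul_sub, hsub, hsub]
    congr 1
    rw [Matrix.mul_smul, Matrix.trace_smul, smul_eq_mul]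
    rfl
  · show R'.submatrix (s4End v (w ∘ σ)) (s4End v (w ∘ σ)) = _
    rw [hend, ← Matrix.submatrix_submatrix, c1, ← s4_chD_conj]
    simp only [Matrix.mul_assoc]
    rfl
  · show (n : ℂ)⁻¹ • (R' * R').submatrix (s4End v (w ∘ σ)) (s4End v (w ∘ σ)) = _
    rw [hend, ← Matrix.submatrix_submatrix, c2, ← s4_chD_conj]
    simp only [Matrix.mul_assoc, Matrix.mul_smul, Matrix.smul_mul]
    rfl


/-- **LEAF** rank bound P1 (4.7): `|m̂_n - m_n| ≤ π · rank / Im z` (`eig_cnt_rank` for both orders; `∑ f(x_i) - ∑ f(x̂_i) = ∫ f'(t) (N̂ - N)(t) dt`, or interlacing + telescoping of the monotone pieces of `Re`, `Im` of `1/(t - z)`) -/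
theorem s4_sw_trace {n k : ℕ} (hn : 0 < n) {G : SimpleGraph (Fin n)} {v w : Fin k → Fin n} (h : Sw7Ind G v w) (σ : Equiv.Perm (Fin k)) (E : ℝ) {z : ℂ} (hz : 0 < z.im) :
    ‖s4M (sw7G G v w σ) E z - s4M G E z‖ ≤ 8 * (k : ℝ) / z.im := by
  classical
  have hn' : (0 : ℝ) < n := by exact_mod_cast hn
  have hζ : 0 < ((E : ℂ) + z / n).im := by
    have : ((E : ℂ) + z / n).im = z.im / n := by
      rw [Complex.add_im, Complex.ofReal_im, zero_add, Complex.div_natCast_im]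
    rw [this]
    positivity
  have hζe : ((E : ℂ) + z / n).im = z.im / n := by
    rw [Complex.add_im, Complex.ofReal_im, zero_add, Complex.div_natCast_im]
  have hT := rs_trace_diff_le (s4_herm (sw7G G v w σ)) (s4_herm G) hζ (Finset.univ.image v) (by
    intro x y hx hy
    have hadj : (sw7G G v w σ).Adj x y ↔ G.Adj x y := by
      refine sw7_adj_of_not h.ok σ ?_
      rintro ⟨i, j, hij⟩
      rw [Sym2.eq_iff] at hij
      rcases hij with ⟨h1, _⟩ | ⟨h1, _⟩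
      · exact hx (Finset.mem_image.2 ⟨i, Finset.mem_univ _, h1⟩)
      · exact hy (Finset.mem_image.2 ⟨i, Finset.mem_univ _, h1⟩)
    unfold s4A
    rw [SimpleGraph.adjMatrix_apply, SimpleGraph.adjMatrix_apply]
    by_cases hG : G.Adj x y
    · rw [if_pos hG, if_pos (hadj.2 hG)]
    · rw [if_neg hG, if_neg fun h' => hG (hadj.1 h')])
  have hcard : ((Finset.univ.image v).card : ℝ) ≤ k := by
    have := Finset.card_image_le (s := (Finset.univ : Finset (Fin k))) (f := v)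
    rw [Finset.card_univ, Fintype.card_fin] at this
    exact_mod_cast this
  unfold s4M s4R
  rw [← mul_sub, norm_mul, norm_inv, Complex.norm_natCast]
  calc (n : ℝ)⁻¹ * ‖(rsG (s4A (sw7G G v w σ)) ((E : ℂ) + z / n)).trace - (rsG (s4A G) ((E : ℂ) + z / n)).trace‖
      ≤ (n : ℝ)⁻¹ * (4 * (Finset.univ.image v).card / ((E : ℂ) + z / n).im) := by gcongr
    _ = 4 * (Finset.univ.image v).card / z.im := by
        rw [hζe]
        field_simp
    _ ≤ 4 * (k : ℝ) / z.im := by gcongr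
    _ ≤ 8 * (k : ℝ) / z.im := by gcongr; norm_num


/-- the transposition `(0 1)` -/
def s4Sw (k : ℕ) (hk : 2 ≤ k) : Equiv.Perm (Fin k) := Equiv.swap ⟨0, by omega⟩ ⟨1, by omega⟩

theorem s4e_K_ll (k d : ℕ) (E : ℝ) (m : ℂ) (a b : Fin k) : s4K k d E m (Sum.inl a) (Sum.inl b) = if a = b then m else 0 := by
  by_cases h : a = b
  · subst h
    simp [s4K, toC, chC, chJ]
  · simp [s4K, toC, chC, chJ, h]

theorem s4e_K_rr (k d : ℕ) (E : ℝ) (m : ℂ) (a b : Fin k) : s4K k d E m (Sum.inr a) (Sum.inr b) = if a = b then m else 0 := by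
  by_cases h : a = b
  · subst h
    simp [s4K, toC, chC, chJ]
  · simp [s4K, toC, chC, chJ, h]

theorem s4e_K_lr (k d : ℕ) (E : ℝ) (m : ℂ) (a b : Fin k) : s4K k d E m (Sum.inl a) (Sum.inr b) = if a = b then (1 + E * m) / d else 0 := by
  by_cases h : a = b
  · subst h
    simp [s4K, toC, chC, chJ]
    ring
  · simp [s4K, toC, chC, chJ, h]

theorem s4e_K_rl (k d : ℕ) (E : ℝ) (m : ℂ) (a b : Fin k) : s4K k d E m (Sum.inr a) (Sum.inl b) = if a = b then (1 + E * m) / d else 0 := by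
  by_cases h : a = b
  · subst h
    simp [s4K, toC, chC, chJ]
    ring
  · simp [s4K, toC, chC, chJ, h]

theorem s4e_B_ll {k : ℕ} (σ : Equiv.Perm (Fin k)) (a b : Fin k) : toC (chB (s4Perm σ⁻¹)) (Sum.inl a) (Sum.inl b) = 0 := by
  simp [toC, chB]

theorem s4e_B_rr {k : ℕ} (σ : Equiv.Perm (Fin k)) (a b : Fin k) : toC (chB (s4Perm σ⁻¹)) (Sum.inr a) (Sum.inr b) = 0 := by
  simp [toC, chB]

theorem s4e_B_lr {k : ℕ} (σ : Equiv.Perm (Fin k)) (a b : Fin k) :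
    toC (chB (s4Perm σ⁻¹)) (Sum.inl a) (Sum.inr b) = (if σ a = b then (1 : ℂ) else 0) - (if a = b then (1 : ℂ) else 0) := by
  have h1 : (a ∈ some (σ⁻¹ b)) ↔ σ a = b := by
    rw [Option.mem_some_iff, Equiv.Perm.inv_eq_iff_eq]
    exact eq_comm
  simp only [toC, chB, Matrix.map_apply, Matrix.fromBlocks_apply₁₂, Matrix.sub_apply, Matrix.transpose_apply, s4Perm, PEquiv.toMatrix_apply,
    Equiv.toPEquiv_apply, Matrix.one_apply, h1, Complex.ofReal_sub]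
  split_ifs <;> simp

theorem s4e_B_rl {k : ℕ} (σ : Equiv.Perm (Fin k)) (a b : Fin k) :
    toC (chB (s4Perm σ⁻¹)) (Sum.inr a) (Sum.inl b) = (if σ⁻¹ a = b then (1 : ℂ) else 0) - (if a = b then (1 : ℂ) else 0) := by
  have h1 : (b ∈ some (σ⁻¹ a)) ↔ σ⁻¹ a = b := by
    rw [Option.mem_some_iff]
  simp only [toC, chB, Matrix.map_apply, Matrix.fromBlocks_apply₂₁, Matrix.sub_apply, s4Perm, PEquiv.toMatrix_apply,
    Equiv.toPEquiv_apply, Matrix.one_apply, h1, Complex.ofReal_sub]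
  split_ifs <;> simp

/-- entries of `B N` -/
theorem s4e_BN_l {k : ℕ} (σ : Equiv.Perm (Fin k)) (N : Matrix (Ch k) (Ch k) ℂ) (a : Fin k) (c' : Ch k) :
    (toC (chB (s4Perm σ⁻¹)) * N) (Sum.inl a) c' = N (Sum.inr (σ a)) c' - N (Sum.inr a) c' := by
  rw [Matrix.mul_apply, Fintype.sum_sum_type]
  simp only [s4e_B_ll, s4e_B_lr, zero_mul, Finset.sum_const_zero, zero_add, sub_mul, Finset.sum_sub_distrib, ite_mul, one_mul,
    Finset.sum_ite_eq, Finset.mem_univ, if_true]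

theorem s4e_BN_r {k : ℕ} (σ : Equiv.Perm (Fin k)) (N : Matrix (Ch k) (Ch k) ℂ) (a : Fin k) (c' : Ch k) :
    (toC (chB (s4Perm σ⁻¹)) * N) (Sum.inr a) c' = N (Sum.inl (σ⁻¹ a)) c' - N (Sum.inl a) c' := by
  rw [Matrix.mul_apply, Fintype.sum_sum_type]
  simp only [s4e_B_rr, s4e_B_rl, zero_mul, Finset.sum_const_zero, add_zero, sub_mul, Finset.sum_sub_distrib, ite_mul, one_mul,
    Finset.sum_ite_eq, Finset.mem_univ, if_true]

/-- the entry `(inl t, inr t)` of `M = N + M B N`, `N c c' = Mh (π c) (π c')`, `σ` an involution -/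
theorem s4e_entry {k : ℕ} (σ : Equiv.Perm (Fin k)) (hσ : ∀ t, σ (σ t) = t) (M N Mh : Matrix (Ch k) (Ch k) ℂ)
    (hid : M = N + M * toC (chB (s4Perm σ⁻¹)) * N) (hN : ∀ c c', N c c' = Mh (Sum.map id σ c) (Sum.map id σ c')) (t : Fin k) :
    M (Sum.inl t) (Sum.inr t) = Mh (Sum.inl t) (Sum.inr (σ t))
      + ∑ a, M (Sum.inl t) (Sum.inl a) * (Mh (Sum.inr a) (Sum.inr (σ t)) - Mh (Sum.inr (σ a)) (Sum.inr (σ t)))
      + ∑ a, M (Sum.inl t) (Sum.inr a) * (Mh (Sum.inl (σ a)) (Sum.inr (σ t)) - Mh (Sum.inl a) (Sum.inr (σ t))) := by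
  have hinv : ∀ a, σ⁻¹ a = σ a := by
    intro a
    rw [Equiv.Perm.inv_eq_iff_eq, hσ]
  have h1 := congrFun (congrFun hid (Sum.inl t)) (Sum.inr t)
  rw [Matrix.add_apply, Matrix.mul_assoc, Matrix.mul_apply, Fintype.sum_sum_type] at h1
  simp only [s4e_BN_l, s4e_BN_r, hN, Sum.map_inl, Sum.map_inr, id, hσ, hinv] at h1
  rw [h1, add_assoc]

theorem s4e_sum {k : ℕ} (t s : Fin k) (hts : s ≠ t) (x y : ℂ) (f g : Fin k → ℂ) :
    ∑ a, ((if t = a then x else 0) + f a) * (((if a = s then y else 0) - (if a = t then y else 0)) + g a)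
      = - (x * y) + x * g t + y * (f s - f t) + ∑ a, f a * g a := by
  have hts' : ¬ t = s := fun h => hts h.symm
  simp only [add_mul, mul_add, mul_sub, Finset.sum_add_distrib, Finset.sum_sub_distrib, ite_mul, mul_ite, zero_mul, mul_zero,
    Finset.sum_ite_eq, Finset.sum_ite_eq', Finset.mem_univ, if_true, hts', if_false]
  ring

/-- the scalar identity at the edge `t` -/
theorem s4e_ident {k : ℕ} (d : ℕ) (E : ℝ) (σ : Equiv.Perm (Fin k)) (hσ : ∀ t, σ (σ t) = t) (M N Mh : Matrix (Ch k) (Ch k) ℂ)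
    (hid : M = N + M * toC (chB (s4Perm σ⁻¹)) * N) (hN : ∀ c c', N c c' = Mh (Sum.map id σ c) (Sum.map id σ c')) (m mh : ℂ)
    (u uh : Ch k → Ch k → ℂ) (hu : ∀ c c', M c c' = s4K k d E m c c' + u c c') (huh : ∀ c c', Mh c c' = s4K k d E mh c c' + uh c c')
    (t : Fin k) (ht : σ t ≠ t) :
    (1 + E * m) / d + m * mh - (1 + E * m) / d * ((1 + E * mh) / d) =
      - u (Sum.inl t) (Sum.inr t) + uh (Sum.inl t) (Sum.inr (σ t))
      + m * (uh (Sum.inr t) (Sum.inr (σ t)) - uh (Sum.inr (σ t)) (Sum.inr (σ t)))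
      + mh * (u (Sum.inl t) (Sum.inl (σ t)) - u (Sum.inl t) (Sum.inl t))
      + (1 + E * m) / d * (uh (Sum.inl (σ t)) (Sum.inr (σ t)) - uh (Sum.inl t) (Sum.inr (σ t)))
      + (1 + E * mh) / d * (u (Sum.inl t) (Sum.inr t) - u (Sum.inl t) (Sum.inr (σ t)))
      + ∑ a, u (Sum.inl t) (Sum.inl a) * (uh (Sum.inr a) (Sum.inr (σ t)) - uh (Sum.inr (σ a)) (Sum.inr (σ t)))
      + ∑ a, u (Sum.inl t) (Sum.inr a) * (uh (Sum.inl (σ a)) (Sum.inr (σ t)) - uh (Sum.inl a) (Sum.inr (σ t))) := by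
  have h1 := s4e_entry σ hσ M N Mh hid hN t
  have hinj : ∀ a, (σ a = σ t) ↔ a = t := fun a => σ.injective.eq_iff
  have ht' : ¬ t = σ t := fun h => ht h.symm
  simp only [hu, huh, s4e_K_ll, s4e_K_rr, s4e_K_lr, hinj, if_true, ht', if_false] at h1
  have h2 := s4e_sum t (σ t) ht m mh (fun a => u (Sum.inl t) (Sum.inl a))
    (fun a => uh (Sum.inr a) (Sum.inr (σ t)) - uh (Sum.inr (σ a)) (Sum.inr (σ t)))
  have h3 := s4e_sum t (σ t) ht ((1 + E * m) / d) (-((1 + E * mh) / d)) (fun a => u (Sum.inl t) (Sum.inr a))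
    (fun a => uh (Sum.inl (σ a)) (Sum.inr (σ t)) - uh (Sum.inl a) (Sum.inr (σ t)))
  have e2 : ∑ a, ((if t = a then m else 0) + u (Sum.inl t) (Sum.inl a)) * ((if a = σ t then mh else 0) + uh (Sum.inr a) (Sum.inr (σ t)) -
      ((if a = t then mh else 0) + uh (Sum.inr (σ a)) (Sum.inr (σ t)))) =
      ∑ a, ((if t = a then m else 0) + u (Sum.inl t) (Sum.inl a)) * (((if a = σ t then mh else 0) - (if a = t then mh else 0)) +
        (uh (Sum.inr a) (Sum.inr (σ t)) - uh (Sum.inr (σ a)) (Sum.inr (σ t)))) := by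
    refine Finset.sum_congr rfl fun a _ => ?_
    ring
  have e3 : ∑ a, ((if t = a then (1 + E * m) / d else 0) + u (Sum.inl t) (Sum.inr a)) * ((if a = t then (1 + E * mh) / d else 0) + uh (Sum.inl (σ a)) (Sum.inr (σ t)) -
      ((if a = σ t then (1 + E * mh) / d else 0) + uh (Sum.inl a) (Sum.inr (σ t)))) =
      ∑ a, ((if t = a then (1 + E * m) / d else 0) + u (Sum.inl t) (Sum.inr a)) * (((if a = σ t then -((1 + E * mh) / d) else 0) - (if a = t then -((1 + E * mh) / d) else 0)) +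
        (uh (Sum.inl (σ a)) (Sum.inr (σ t)) - uh (Sum.inl a) (Sum.inr (σ t)))) := by
    refine Finset.sum_congr rfl fun a _ => ?_
    split_ifs <;> ring
  rw [e2, e3, h2, h3] at h1
  linear_combination h1


/-- compression of `P (W B Wᵀ) Q` to the sampled channels -/
theorem s4e_compress {V ι : Type} [Fintype V] [DecidableEq V] [Fintype ι] (P Q : Matrix V V ℂ) (B : Matrix ι ι ℝ) (e : ι → V) :
    (P * rsC ((Matrix.of fun x c => if x = e c then (1 : ℝ) else 0) * B * (Matrix.of fun x c => if x = e c then (1 : ℝ) else 0)ᵀ) * Q).submatrix e e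
      = P.submatrix e e * toC B * Q.submatrix e e := by
  obtain ⟨Wc, hWc⟩ : ∃ Wc : Matrix V ι ℂ, Wc = Matrix.of fun x c => if x = e c then (1 : ℂ) else 0 := ⟨_, rfl⟩
  have h0 : rsC ((Matrix.of fun x c => if x = e c then (1 : ℝ) else 0) * B * (Matrix.of fun x c => if x = e c then (1 : ℝ) else 0)ᵀ) = Wc * toC B * Wcᵀ := by
    have hW : (Matrix.of fun x c => if x = e c then (1 : ℝ) else 0).map Complex.ofRealHom = Wc := by
      rw [hWc]
      ext x c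
      simp only [Matrix.map_apply, Matrix.of_apply]
      split_ifs <;> simp
    rw [rsC, RingHom.mapMatrix_apply, Matrix.map_mul, Matrix.map_mul, Matrix.transpose_map, hW]
    rfl
  have hPW : P * Wc = P.submatrix id e := by
    rw [hWc]
    ext x c
    simp [Matrix.mul_apply]
  have hWQ : Wcᵀ * Q = Q.submatrix e id := by
    rw [hWc]
    ext c x
    simp [Matrix.mul_apply]
  have h1 : P * (Wc * toC B * Wcᵀ) * Q = P.submatrix id e * toC B * Q.submatrix e id := by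
    rw [← hPW, ← hWQ]
    simp only [Matrix.mul_assoc]
  rw [h0, h1]
  ext c c'
  simp [Matrix.mul_apply]

/-- the resolvent identity in the sampled channels (= `s4_res_id`, needed before sec. H) -/
theorem s4e_res_id {n k : ℕ} (hn : 0 < n) {G : SimpleGraph (Fin n)} {v w : Fin k → Fin n} (h : Sw7Ind G v w) (σ : Equiv.Perm (Fin k)) (E : ℝ) {z : ℂ} (hz : 0 < z.im) :
    (s4X G E v w z).2.1 = (s4X (sw7G G v w σ) E v w z).2.1 + (s4X G E v w z).2.1 * toC (chB (s4Perm σ⁻¹)) * (s4X (sw7G G v w σ) E v w z).2.1 := by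
  have hζ := s4_zeta_im hn E hz.ne'
  have h1 := rs_res_A (s4_herm G) (s4_herm (sw7G G v w σ)) hζ
  have h2 : s4A (sw7G G v w σ) - s4A G = (Matrix.of fun x c => if x = s4End v w c then (1 : ℝ) else 0) * chB (s4Perm σ⁻¹) *
      (Matrix.of fun x c => if x = s4End v w c then (1 : ℝ) else 0)ᵀ := by
    rw [s4_sw_adj h σ, add_sub_cancel_left]
  rw [h2] at h1
  have h3 := s4e_compress (rsG (s4A G) ((E : ℂ) + z / n)) (rsG (s4A (sw7G G v w σ)) ((E : ℂ) + z / n)) (chB (s4Perm σ⁻¹)) (s4End v w)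
  rw [← h1] at h3
  show (s4R G E z).submatrix (s4End v w) (s4End v w) = (s4R (sw7G G v w σ) E z).submatrix (s4End v w) (s4End v w) +
    (s4R G E z).submatrix (s4End v w) (s4End v w) * toC (chB (s4Perm σ⁻¹)) * (s4R (sw7G G v w σ) E z).submatrix (s4End v w) (s4End v w)
  unfold s4R
  rw [← h3]
  ext c c'
  simp

/-- old labels versus new labels, `σ` an involution -/
theorem s4e_relabel {n k : ℕ} (G : SimpleGraph (Fin n)) (E : ℝ) (v w : Fin k → Fin n) (z : ℂ) (σ : Equiv.Perm (Fin k)) (hσ : ∀ t, σ (σ t) = t) (c c' : Ch k) :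
    (s4X G E v w z).2.1 c c' = (s4X G E v (w ∘ σ) z).2.1 (Sum.map id σ c) (Sum.map id σ c') := by
  have h1 : ∀ c : Ch k, s4End v (w ∘ σ) (Sum.map id σ c) = s4End v w c := by
    intro c
    cases c with
    | inl a => rfl
    | inr a => simp [s4End, hσ]
  show (s4R G E z).submatrix (s4End v w) (s4End v w) c c' = (s4R G E z).submatrix (s4End v (w ∘ σ)) (s4End v (w ∘ σ)) (Sum.map id σ c) (Sum.map id σ c')
  rw [Matrix.submatrix_apply, Matrix.submatrix_apply, h1, h1]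

theorem s4e_quad {k : ℕ} (f g1 g2 : Fin k → ℂ) (e : ℝ) (he : 0 ≤ e) (hf : ∀ a, ‖f a‖ ≤ e) (hg1 : ∀ a, ‖g1 a‖ ≤ e) (hg2 : ∀ a, ‖g2 a‖ ≤ e) :
    ‖∑ a, f a * (g1 a - g2 a)‖ ≤ 2 * k * e ^ 2 := by
  calc ‖∑ a, f a * (g1 a - g2 a)‖ ≤ ∑ a : Fin k, ‖f a * (g1 a - g2 a)‖ := norm_sum_le _ _
    _ ≤ ∑ _a : Fin k, 2 * e ^ 2 := by
        refine Finset.sum_le_sum fun a _ => ?_
        rw [norm_mul]
        have h1 : ‖g1 a - g2 a‖ ≤ e + e := (norm_sub_le _ _).trans (add_le_add (hg1 a) (hg2 a))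
        calc ‖f a‖ * ‖g1 a - g2 a‖ ≤ e * (e + e) := mul_le_mul (hf a) h1 (norm_nonneg _) he
          _ = 2 * e ^ 2 := by ring
    _ = 2 * k * e ^ 2 := by
        rw [Finset.sum_const, Finset.card_univ, Fintype.card_fin, nsmul_eq_mul]
        ring

theorem s4e_q_le {d : ℕ} (hd : 1 ≤ d) (E : ℝ) (m : ℂ) : ‖(1 + E * m) / d‖ ≤ 1 + |E| * ‖m‖ := by
  have hd' : (1 : ℝ) ≤ d := by exact_mod_cast hd
  rw [norm_div, Complex.norm_natCast]
  have h1 : ‖(1 : ℂ) + E * m‖ ≤ 1 + |E| * ‖m‖ := by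
    refine (norm_add_le _ _).trans ?_
    rw [norm_one, norm_mul, Complex.norm_real, Real.norm_eq_abs]
  exact (div_le_self (norm_nonneg _) hd').trans h1

theorem s4e_phi (d : ℕ) (E : ℝ) (m mh : ℂ) : dsPhi d E m = -((1 + E * m) / d + m * mh - (1 + E * m) / d * ((1 + E * mh) / d)) + m * (mh - m)
    - (1 + E * m) / d * (E * (mh - m) / d) := by
  unfold dsPhi
  ring

/-- from the scalar identity to `dsPhi` -/
theorem s4e_phi_le {d : ℕ} (hd : 1 ≤ d) (E : ℝ) (m mh : ℂ) {X C D : ℝ} (hX : ‖(1 + E * m) / d + m * mh - (1 + E * m) / d * ((1 + E * mh) / d)‖ ≤ X)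
    (hC : ‖m‖ ≤ C) (hD : ‖mh - m‖ ≤ D) : ‖dsPhi d E m‖ ≤ X + (C + (1 + |E| * C) * |E|) * D := by
  have hd' : (1 : ℝ) ≤ d := by exact_mod_cast hd
  have hC0 : 0 ≤ C := (norm_nonneg _).trans hC
  have hD0 : 0 ≤ D := (norm_nonneg _).trans hD
  have h1 : ‖m * (mh - m)‖ ≤ C * D := by
    rw [norm_mul]
    exact mul_le_mul hC hD (norm_nonneg _) hC0
  have h2 : ‖(E : ℂ) * (mh - m) / d‖ ≤ |E| * D := by
    rw [norm_div, Complex.norm_natCast, norm_mul, Complex.norm_real, Real.norm_eq_abs]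
    exact (div_le_self (mul_nonneg (abs_nonneg _) (norm_nonneg _)) hd').trans (mul_le_mul_of_nonneg_left hD (abs_nonneg _))
  have h3 : ‖(1 + E * m) / d‖ ≤ 1 + |E| * C := (s4e_q_le hd E m).trans (by linarith only [mul_le_mul_of_nonneg_left hC (abs_nonneg E)])
  have h4 : ‖(1 + E * m) / d * (E * (mh - m) / d)‖ ≤ (1 + |E| * C) * (|E| * D) := by
    rw [norm_mul]
    exact mul_le_mul h3 h2 (norm_nonneg _) (by positivity)
  rw [s4e_phi d E m mh]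
  calc ‖-((1 + E * m) / d + m * mh - (1 + E * m) / d * ((1 + E * mh) / d)) + m * (mh - m) - (1 + E * m) / d * (E * (mh - m) / d)‖
      ≤ ‖-((1 + E * m) / d + m * mh - (1 + E * m) / d * ((1 + E * mh) / d))‖ + ‖m * (mh - m)‖ + ‖(1 + E * m) / d * (E * (mh - m) / d)‖ :=
        (norm_sub_le _ _).trans (add_le_add_left (norm_add_le _ _) _)
    _ ≤ X + C * D + (1 + |E| * C) * (|E| * D) := by
        rw [norm_neg]
        exact add_le_add (add_le_add hX h1) h4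
    _ = X + (C + (1 + |E| * C) * |E|) * D := by ring

/-- entrywise bound of the right side of `s4e_ident` -/
theorem s4e_rhs_le {k : ℕ} (σ : Equiv.Perm (Fin k)) (u uh : Ch k → Ch k → ℂ) (e : ℝ) (he : 0 ≤ e) (hu : ∀ c c', ‖u c c'‖ ≤ e) (huh : ∀ c c', ‖uh c c'‖ ≤ e)
    (m mh q qh : ℂ) (t : Fin k) :
    ‖- u (Sum.inl t) (Sum.inr t) + uh (Sum.inl t) (Sum.inr (σ t))
      + m * (uh (Sum.inr t) (Sum.inr (σ t)) - uh (Sum.inr (σ t)) (Sum.inr (σ t)))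
      + mh * (u (Sum.inl t) (Sum.inl (σ t)) - u (Sum.inl t) (Sum.inl t))
      + q * (uh (Sum.inl (σ t)) (Sum.inr (σ t)) - uh (Sum.inl t) (Sum.inr (σ t)))
      + qh * (u (Sum.inl t) (Sum.inr t) - u (Sum.inl t) (Sum.inr (σ t)))
      + ∑ a, u (Sum.inl t) (Sum.inl a) * (uh (Sum.inr a) (Sum.inr (σ t)) - uh (Sum.inr (σ a)) (Sum.inr (σ t)))
      + ∑ a, u (Sum.inl t) (Sum.inr a) * (uh (Sum.inl (σ a)) (Sum.inr (σ t)) - uh (Sum.inl a) (Sum.inr (σ t)))‖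
      ≤ e * (2 + 2 * ‖m‖ + 2 * ‖mh‖ + 2 * ‖q‖ + 2 * ‖qh‖) + 4 * k * e ^ 2 := by
  have hs : ∀ (x a b : ℂ), ‖a‖ ≤ e → ‖b‖ ≤ e → ‖x * (a - b)‖ ≤ e * (2 * ‖x‖) := by
    intro x a b ha hb
    rw [norm_mul]
    have h1 : ‖a - b‖ ≤ e + e := (norm_sub_le _ _).trans (add_le_add ha hb)
    calc ‖x‖ * ‖a - b‖ ≤ ‖x‖ * (e + e) := mul_le_mul_of_nonneg_left h1 (norm_nonneg _)
      _ = e * (2 * ‖x‖) := by ring
  have q1 := s4e_quad (fun a => u (Sum.inl t) (Sum.inl a)) (fun a => uh (Sum.inr a) (Sum.inr (σ t))) (fun a => uh (Sum.inr (σ a)) (Sum.inr (σ t))) e he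
    (fun a => hu _ _) (fun a => huh _ _) (fun a => huh _ _)
  have q2 := s4e_quad (fun a => u (Sum.inl t) (Sum.inr a)) (fun a => uh (Sum.inl (σ a)) (Sum.inr (σ t))) (fun a => uh (Sum.inl a) (Sum.inr (σ t))) e he
    (fun a => hu _ _) (fun a => huh _ _) (fun a => huh _ _)
  have l1 : ‖- u (Sum.inl t) (Sum.inr t)‖ ≤ e := by rw [norm_neg]; exact hu _ _
  have l2 := huh (Sum.inl t) (Sum.inr (σ t))
  have l3 := hs m _ _ (huh (Sum.inr t) (Sum.inr (σ t))) (huh (Sum.inr (σ t)) (Sum.inr (σ t)))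
  have l4 := hs mh _ _ (hu (Sum.inl t) (Sum.inl (σ t))) (hu (Sum.inl t) (Sum.inl t))
  have l5 := hs q _ _ (huh (Sum.inl (σ t)) (Sum.inr (σ t))) (huh (Sum.inl t) (Sum.inr (σ t)))
  have l6 := hs qh _ _ (hu (Sum.inl t) (Sum.inr t)) (hu (Sum.inl t) (Sum.inr (σ t)))
  refine (norm_add_le _ _).trans ?_
  refine (add_le_add_left (norm_add_le _ _) _).trans ?_
  refine (add_le_add_left (add_le_add_left (norm_add_le _ _) _) _).trans ?_
  refine (add_le_add_left (add_le_add_left (add_le_add_left (norm_add_le _ _) _) _) _).trans ?_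
  refine (add_le_add_left (add_le_add_left (add_le_add_left (add_le_add_left (norm_add_le _ _) _) _) _) _).trans ?_
  refine (add_le_add_left (add_le_add_left (add_le_add_left (add_le_add_left (add_le_add_left (norm_add_le _ _) _) _) _) _) _).trans ?_
  refine (add_le_add_left (add_le_add_left (add_le_add_left (add_le_add_left (add_le_add_left (add_le_add_left (norm_add_le _ _) _) _) _) _) _) _).trans ?_
  linarith only [q1, q2, l1, l2, l3, l4, l5, l6]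

/-- **LEAF** the scalar equation from the two-edge switch, deterministic: P1 (4.8)-(4.10), read in the entry `(inl 0, inr 0)` of `M = N + M B N`, `N = D M̂ Dᵀ` (from `s4_sw_X`; no compression by `F` needed): `q = - m m̂ + q q̂ + errors`; `|m̂ - m| ≤ 8k/Im z` (`s4_sw_trace`).      `A` depends on `k, d, E, Ctr` only. -/
theorem s4_scalar (k : ℕ) (hk : 2 ≤ k) {d : ℕ} {E : ℝ} (hd : 3 ≤ d) (hE : |E| < 2 * Real.sqrt ((d : ℝ) - 1)) (Ctr : ℝ) : ∃ A : ℝ, ∀ (n : ℕ), 0 < n →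
    ∀ {G : SimpleGraph (Fin n)} {v w : Fin k → Fin n}, Sw7Ind G v w → ∀ {z : ℂ}, 1 ≤ z.im → ∀ e : ℝ, 0 ≤ e → e ≤ 1 → ‖s4M G E z‖ ≤ Ctr →
      (∀ c c', ‖(s4X G E v w z).2.1 c c' - s4K k d E (s4M G E z) c c'‖ ≤ e) →
      (∀ c c', ‖(s4X (sw7G G v w (s4Sw k hk)) E v (w ∘ s4Sw k hk) z).2.1 c c' - s4K k d E (s4M (sw7G G v w (s4Sw k hk)) E z) c c'‖ ≤ e) →
      ‖dsPhi d E (s4M G E z)‖ ≤ A * (e + 1 / z.im) := by
  obtain ⟨C, hCdef⟩ : ∃ C : ℝ, C = |Ctr| := ⟨_, rfl⟩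
  have hC0 : 0 ≤ C := hCdef ▸ abs_nonneg _
  obtain ⟨A1, hA1⟩ : ∃ A1 : ℝ, A1 = 2 + 2 * C + 2 * (C + 8 * k) + 2 * (1 + |E| * C) + 2 * (1 + |E| * (C + 8 * k)) + 4 * k := ⟨_, rfl⟩
  obtain ⟨A2, hA2⟩ : ∃ A2 : ℝ, A2 = (C + (1 + |E| * C) * |E|) * (8 * k) := ⟨_, rfl⟩
  have hA1' : 0 ≤ A1 := by rw [hA1]; positivity
  have hA2' : 0 ≤ A2 := by rw [hA2]; positivity
  refine ⟨A1 + A2, ?_⟩
  intro n hn G v w hI z hz e he he1 hm hu huh
  have hz0 : 0 < z.im := lt_of_lt_of_le one_pos hz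
  have hd1 : 1 ≤ d := by omega
  obtain ⟨σ, hσdef⟩ : ∃ σ : Equiv.Perm (Fin k), σ = s4Sw k hk := ⟨_, rfl⟩
  rw [← hσdef] at huh
  have hσ : ∀ t, σ (σ t) = t := by
    intro t
    rw [hσdef]
    exact Equiv.swap_apply_self _ _ t
  have ht : σ ⟨0, by omega⟩ ≠ ⟨0, by omega⟩ := by
    rw [hσdef, s4Sw, Equiv.swap_apply_left]
    intro h
    simp at h
  obtain ⟨m, hmdef⟩ : ∃ m : ℂ, m = s4M G E z := ⟨_, rfl⟩
  obtain ⟨mh, hmhdef⟩ : ∃ mh : ℂ, mh = s4M (sw7G G v w σ) E z := ⟨_, rfl⟩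
  have htr : ‖mh - m‖ ≤ 8 * (k : ℝ) / z.im := by
    rw [hmdef, hmhdef]
    exact s4_sw_trace hn hI σ E hz0
  rw [← hmdef] at hu hm ⊢
  rw [← hmhdef] at huh
  have hmC : ‖m‖ ≤ C := hm.trans (hCdef ▸ le_abs_self _)
  have hk0 : (0 : ℝ) ≤ 8 * (k : ℝ) := by positivity
  have htr1 : ‖mh - m‖ ≤ 8 * (k : ℝ) := htr.trans (div_le_self hk0 hz)
  have hmhC : ‖mh‖ ≤ C + 8 * k := by
    have h1 : ‖mh‖ ≤ ‖m‖ + ‖mh - m‖ := by
      calc ‖mh‖ = ‖m + (mh - m)‖ := by rw [add_sub_cancel]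
        _ ≤ ‖m‖ + ‖mh - m‖ := norm_add_le _ _
    linarith only [h1, hmC, htr1]
  have hid := s4e_ident d E σ hσ _ _ _ (s4e_res_id hn hI σ E hz0) (s4e_relabel (sw7G G v w σ) E v w z σ hσ) m mh
    (fun c c' => (s4X G E v w z).2.1 c c' - s4K k d E m c c') (fun c c' => (s4X (sw7G G v w σ) E v (w ∘ σ) z).2.1 c c' - s4K k d E mh c c')
    (fun c c' => (add_sub_cancel _ _).symm) (fun c c' => (add_sub_cancel _ _).symm) ⟨0, by omega⟩ ht
  have hb := s4e_rhs_le σ (fun c c' => (s4X G E v w z).2.1 c c' - s4K k d E m c c')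
    (fun c c' => (s4X (sw7G G v w σ) E v (w ∘ σ) z).2.1 c c' - s4K k d E mh c c') e he hu huh m mh ((1 + E * m) / d) ((1 + E * mh) / d) ⟨0, by omega⟩
  rw [← hid] at hb
  have hq := s4e_q_le hd1 E m
  have hqh := s4e_q_le hd1 E mh
  have hE0 := abs_nonneg E
  have hq' : ‖(1 + E * m) / d‖ ≤ 1 + |E| * C := hq.trans (by linarith only [mul_le_mul_of_nonneg_left hmC hE0])
  have hqh' : ‖(1 + E * mh) / d‖ ≤ 1 + |E| * (C + 8 * k) := hqh.trans (by linarith only [mul_le_mul_of_nonneg_left hmhC hE0])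
  have hX : ‖(1 + E * m) / d + m * mh - (1 + E * m) / d * ((1 + E * mh) / d)‖ ≤ A1 * e := by
    refine hb.trans ?_
    have h1 : e * (2 + 2 * ‖m‖ + 2 * ‖mh‖ + 2 * ‖(1 + E * m) / d‖ + 2 * ‖(1 + E * mh) / d‖) ≤
        e * (2 + 2 * C + 2 * (C + 8 * k) + 2 * (1 + |E| * C) + 2 * (1 + |E| * (C + 8 * k))) :=
      mul_le_mul_of_nonneg_left (by linarith only [hmC, hmhC, hq', hqh']) he
    have h2 : 4 * (k : ℝ) * e ^ 2 ≤ 4 * k * e := by
      have : e ^ 2 ≤ e := by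
        rw [sq]
        exact mul_le_of_le_one_left he he1
      exact mul_le_mul_of_nonneg_left this (by positivity)
    rw [hA1]
    linarith only [h1, h2]
  have hfin := s4e_phi_le hd1 E m mh hX hmC htr
  have h5 : (C + (1 + |E| * C) * |E|) * (8 * (k : ℝ) / z.im) = A2 * (1 / z.im) := by
    rw [hA2]
    ring
  rw [h5] at hfin
  have hiz : 0 ≤ 1 / z.im := by positivity
  calc ‖dsPhi d E m‖ ≤ A1 * e + A2 * (1 / z.im) := hfin
    _ ≤ (A1 + A2) * (e + 1 / z.im) := by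
        have h6 := mul_nonneg hA1' hiz
        have h7 := mul_nonneg hA2' he
        linarith only [h6, h7]

/-! ## F. the descent -/

/-- the trace range of the descent -/
def s4Ctr (k d : ℕ) (E : ℝ) : ℝ := 2 * (‖s4Ms d E‖ + 1) + 8 * k

theorem s4e_M_im_nonneg {n : ℕ} (hn : 0 < n) (G : SimpleGraph (Fin n)) (E : ℝ) {z : ℂ} (hz : 0 < z.im) : 0 ≤ (s4M G E z).im := by
  rw [s4_M_spec hn G E hz.ne', Complex.im_sum]
  refine Finset.sum_nonneg fun i _ => ?_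
  rw [ds_im]
  positivity

theorem s4e_M_half {n : ℕ} (hn : 0 < n) (G : SimpleGraph (Fin n)) (E s : ℝ) {η η' : ℝ} (hη' : 0 < η') (h1 : η / 2 ≤ η') (h2 : η' ≤ η) :
    ‖s4M G E ⟨s, η'⟩‖ ≤ 2 * ‖s4M G E ⟨s, η⟩‖ := by
  have hη : 0 < η := lt_of_lt_of_le hη' h2
  have e1 := s4_M_spec hn G E (z := ⟨s, η'⟩) (ne_of_gt hη')
  have e2 := s4_M_spec hn G E (z := ⟨s, η⟩) (ne_of_gt hη)
  have h3 : ‖s4M G E ⟨s, η'⟩ - s4M G E ⟨s, η⟩‖ ≤ (s4M G E ⟨s, η⟩).im := by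
    rw [e1, e2, ← Finset.sum_sub_distrib, Complex.im_sum]
    exact (norm_sum_le _ _).trans (Finset.sum_le_sum fun i _ => ds_half _ s hη' h1 h2)
  have h4 : (s4M G E ⟨s, η⟩).im ≤ ‖s4M G E ⟨s, η⟩‖ := (le_abs_self _).trans (Complex.abs_im_le_norm _)
  have h5 : ‖s4M G E ⟨s, η'⟩‖ ≤ ‖s4M G E ⟨s, η⟩‖ + ‖s4M G E ⟨s, η'⟩ - s4M G E ⟨s, η⟩‖ := by
    calc ‖s4M G E ⟨s, η'⟩‖ = ‖s4M G E ⟨s, η⟩ + (s4M G E ⟨s, η'⟩ - s4M G E ⟨s, η⟩)‖ := by rw [add_sub_cancel]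
      _ ≤ _ := norm_add_le _ _
  linarith only [h3, h4, h5]

theorem s4e_K_sub_le (k : ℕ) {d : ℕ} {E : ℝ} (hd : 1 ≤ d) (hE : |E| ≤ d) (m m' : ℂ) (c c' : Ch k) :
    ‖s4K k d E m c c' - s4K k d E m' c c'‖ ≤ ‖m - m'‖ := by
  have hd' : (0 : ℝ) < d := by exact_mod_cast hd
  have h0 : ‖(0 : ℂ) - 0‖ ≤ ‖m - m'‖ := by rw [sub_zero, norm_zero]; exact norm_nonneg _
  have h1 : ‖(1 + E * m) / d - (1 + E * m') / d‖ ≤ ‖m - m'‖ := by
    have e1 : (1 + E * m) / d - (1 + E * m') / d = (E : ℂ) * (m - m') / d := by ring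
    rw [e1, norm_div, Complex.norm_natCast, norm_mul, Complex.norm_real, Real.norm_eq_abs, div_le_iff₀ hd', mul_comm]
    exact mul_le_mul_of_nonneg_left hE (norm_nonneg _)
  rcases c with a | a <;> rcases c' with b | b
  · rw [s4e_K_ll, s4e_K_ll]
    split_ifs
    · exact le_rfl
    · exact h0
  · rw [s4e_K_lr, s4e_K_lr]
    split_ifs
    · exact h1
    · exact h0
  · rw [s4e_K_rl, s4e_K_rl]
    split_ifs
    · exact h1
    · exact h0
  · rw [s4e_K_rr, s4e_K_rr]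
    split_ifs
    · exact le_rfl
    · exact h0

theorem s4e_cstar_pos {d : ℕ} {E : ℝ} (hd : 3 ≤ d) (hE : |E| < 2 * Real.sqrt ((d : ℝ) - 1)) : 0 < (1 - (E / d) ^ 2) * (Real.pi * kestenMcKay d E) := by
  obtain ⟨h1, hD⟩ := ds_aux_D hd hE
  have hd3 : (3 : ℝ) ≤ d := by exact_mod_cast hd
  have hd0 : (0 : ℝ) < d := by linarith only [hd3]
  have h2 : 0 < 1 - (E / d) ^ 2 := by
    have e1 : 1 - (E / d) ^ 2 = ((d : ℝ) ^ 2 - E ^ 2) / (d : ℝ) ^ 2 := by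
      field_simp
    rw [e1]
    positivity
  have h3 : 0 < kestenMcKay d E := by
    unfold kestenMcKay
    have h4 : 0 < Real.sqrt (4 * ((d : ℝ) - 1) - E ^ 2) := Real.sqrt_pos.mpr (by linarith only [h1])
    have := Real.pi_pos
    positivity
  have := Real.pi_pos
  positivity

theorem s4e_E_le {d : ℕ} {E : ℝ} (hd : 3 ≤ d) (hE : |E| < 2 * Real.sqrt ((d : ℝ) - 1)) : |E| ≤ d := by
  obtain ⟨-, hD⟩ := ds_aux_D hd hE
  have hd0 : (0 : ℝ) ≤ d := Nat.cast_nonneg d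
  exact abs_le_of_sq_le_sq (by linarith only [hD]) hd0

theorem s4e_Ht_ge (S y : ℝ) (l : ℕ) : y ≤ s4Ht S y l := le_max_left _ _

theorem s4e_Ht_zero {S y : ℝ} (h : y ≤ S) : s4Ht S y 0 = S := by
  rw [s4Ht, pow_zero, div_one]
  exact max_eq_right h

theorem s4e_Ht_succ_le {S y : ℝ} (hS : 0 ≤ S) (l : ℕ) : s4Ht S y (l + 1) ≤ s4Ht S y l := by
  unfold s4Ht
  refine max_le_max le_rfl ?_
  rw [pow_succ]
  exact div_le_div_of_nonneg_left hS (by positivity) (by linarith only [show (0 : ℝ) < 2 ^ l by positivity])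

theorem s4e_Ht_half_le {S y : ℝ} (hy : 0 ≤ y) (l : ℕ) : s4Ht S y l / 2 ≤ s4Ht S y (l + 1) := by
  unfold s4Ht
  rcases le_total y (S / 2 ^ l) with h | h
  · rw [max_eq_right h]
    refine le_trans (le_of_eq ?_) (le_max_right _ _)
    rw [pow_succ, div_div]
  · rw [max_eq_left h]
    exact le_trans (by linarith only [hy]) (le_max_left _ _)

theorem s4e_Ht_eq {S y : ℝ} (hy : 0 < y) : ∃ l : ℕ, s4Ht S y (l + 1) = y := by
  obtain ⟨l, hl⟩ := pow_unbounded_of_one_lt (S / y) (one_lt_two : (1 : ℝ) < 2)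
  refine ⟨l, max_eq_left ?_⟩
  have h2 : (0 : ℝ) < 2 ^ l := by positivity
  rw [div_lt_iff₀ hy] at hl
  rw [div_le_iff₀ (by positivity), pow_succ]
  nlinarith only [hl, h2, hy]

/-- one height of the descent: a priori trace bound + the two concentration events ⟹ the trace and the entries are close -/
theorem s4e_height (k : ℕ) (hk : 2 ≤ k) {d : ℕ} {E : ℝ} (hd : 3 ≤ d) (hE : |E| < 2 * Real.sqrt ((d : ℝ) - 1)) {As : ℝ}
    (hAs : ∀ (n : ℕ), 0 < n →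
      ∀ {G : SimpleGraph (Fin n)} {v w : Fin k → Fin n}, Sw7Ind G v w → ∀ {z : ℂ}, 1 ≤ z.im → ∀ e : ℝ, 0 ≤ e → e ≤ 1 → ‖s4M G E z‖ ≤ s4Ctr k d E →
      (∀ c c', ‖(s4X G E v w z).2.1 c c' - s4K k d E (s4M G E z) c c'‖ ≤ e) →
      (∀ c c', ‖(s4X (sw7G G v w (s4Sw k hk)) E v (w ∘ s4Sw k hk) z).2.1 c c' - s4K k d E (s4M (sw7G G v w (s4Sw k hk)) E z) c c'‖ ≤ e) →
      ‖dsPhi d E (s4M G E z)‖ ≤ As * (e + 1 / z.im))
    {n : ℕ} (hn : 0 < n) {G : SimpleGraph (Fin n)} {v w : Fin k → Fin n} (hI : Sw7Ind G v w) (s η r e : ℝ) (hη : 1 ≤ η) (he0 : 0 ≤ e) (her : e ≤ 2 * r) (hr1 : 2 * r ≤ 1)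
    (hηr : 1 / η ≤ r) (hm : ‖s4M G E ⟨s, η⟩‖ ≤ 2 * (‖s4Ms d E‖ + 1))
    (h1 : S4Conc1 d E (s4X G E v w ⟨s, η⟩) (s4Ctr k d E) e)
    (h2 : S4Conc1 d E (s4X (sw7G G v w (s4Sw k hk)) E v (w ∘ s4Sw k hk) ⟨s, η⟩) (s4Ctr k d E) e) :
    ‖s4M G E ⟨s, η⟩ - s4Ms d E‖ ≤ 3 * |As| / ((1 - (E / d) ^ 2) * (Real.pi * kestenMcKay d E)) * r ∧
      ∀ c c', ‖(s4X G E v w ⟨s, η⟩).2.1 c c' - s4K k d E (s4M G E ⟨s, η⟩) c c'‖ ≤ 2 * r := by
  have hη0 : 0 < η := lt_of_lt_of_le one_pos hη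
  have hk0 : (0 : ℝ) ≤ 8 * (k : ℝ) := by positivity
  have hmC : ‖s4M G E ⟨s, η⟩‖ ≤ s4Ctr k d E := by
    unfold s4Ctr
    linarith only [hm, hk0]
  have htr := s4_sw_trace hn hI (s4Sw k hk) E (z := ⟨s, η⟩) hη0
  have htr1 : ‖s4M (sw7G G v w (s4Sw k hk)) E ⟨s, η⟩ - s4M G E ⟨s, η⟩‖ ≤ 8 * (k : ℝ) := htr.trans (div_le_self hk0 hη)
  have hmhC : ‖s4M (sw7G G v w (s4Sw k hk)) E ⟨s, η⟩‖ ≤ s4Ctr k d E := by
    have h3 : ‖s4M (sw7G G v w (s4Sw k hk)) E ⟨s, η⟩‖ ≤ ‖s4M G E ⟨s, η⟩‖ + ‖s4M (sw7G G v w (s4Sw k hk)) E ⟨s, η⟩ - s4M G E ⟨s, η⟩‖ := by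
      calc ‖s4M (sw7G G v w (s4Sw k hk)) E ⟨s, η⟩‖ = ‖s4M G E ⟨s, η⟩ + (s4M (sw7G G v w (s4Sw k hk)) E ⟨s, η⟩ - s4M G E ⟨s, η⟩)‖ := by rw [add_sub_cancel]
        _ ≤ _ := norm_add_le _ _
    unfold s4Ctr
    linarith only [h3, hm, htr1]
  have hu := h1 hmC
  have huh := h2 hmhC
  have hphi := hAs n hn hI (z := ⟨s, η⟩) hη e he0 (her.trans hr1) hmC hu huh
  have hc := s4e_cstar_pos hd hE
  have hst := ds_phi_stab hd hE (s4e_M_im_nonneg hn G E (z := ⟨s, η⟩) hη0)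
  refine ⟨?_, fun c c' => (hu c c').trans her⟩
  refine hst.trans ?_
  rw [div_mul_eq_mul_div]
  refine div_le_div_of_nonneg_right ?_ hc.le
  refine hphi.trans ?_
  have h4 : e + 1 / η ≤ 3 * r := by linarith only [her, hηr]
  have h5 : 0 ≤ e + 1 / η := by positivity
  calc As * (e + 1 / η) ≤ |As| * (e + 1 / η) := mul_le_mul_of_nonneg_right (le_abs_self _) h5
    _ ≤ |As| * (3 * r) := mul_le_mul_of_nonneg_left h4 (abs_nonneg _)
    _ = 3 * |As| * r := by ring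

/-- **LEAF** closing the descent, deterministic: P1 (4.12) and the induction on `l`.      `l = 0`: `S4Init`.      Step: `s4Ht S y (l+1) ∈ [s4Ht S y l / 2, s4Ht S y l]`, `ds_half` + `s4_M_spec`: `‖m(z_{l+1})‖ ≤ 2(‖m_*‖ + 1)`; `s4_sw_trace`: `‖m̂(z_{l+1})‖ ≤ s4Ctr`; the two concentration events, `s4_scalar`, `ds_phi_stab`: `‖m(z_{l+1}) - m_*‖ ≤ A (τ + 2 η^{-1/3}) ≤ 1`.      At the end `s4Ht S y l = y`. -/
theorem s4_descent (k : ℕ) (hk : 2 ≤ k) {d : ℕ} {E : ℝ} (hd : 3 ≤ d) (hE : |E| < 2 * Real.sqrt ((d : ℝ) - 1)) : ∃ A y0 : ℝ, 1 ≤ y0 ∧ ∀ (n : ℕ), 0 < n →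
    ∀ {G : SimpleGraph (Fin n)} {v w : Fin k → Fin n} (s S y C : ℝ), y0 ≤ y → y ≤ S → Sw7Ind G v w → S4Init d E G v w s S (y ^ (-(1 / 3 : ℝ))) C →
      S4Conc d E G v w s S y (s4Ctr k d E) (y ^ (-(1 / 3 : ℝ))) →
      S4Conc d E (sw7G G v w (s4Sw k hk)) v (w ∘ s4Sw k hk) s S y (s4Ctr k d E) (y ^ (-(1 / 3 : ℝ))) →
      S4Near d E (s4X G E v w ⟨s, y⟩) (A * y ^ (-(1 / 3 : ℝ))) := by
  obtain ⟨As, hAs⟩ := s4_scalar k hk hd hE (s4Ctr k d E)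
  have hc := s4e_cstar_pos hd hE
  obtain ⟨B, hB⟩ : ∃ B : ℝ, B = 3 * |As| / ((1 - (E / d) ^ 2) * (Real.pi * kestenMcKay d E)) := ⟨_, rfl⟩
  have hB0 : 0 ≤ B := by rw [hB]; positivity
  have hy0 : (1 : ℝ) ≤ (B + 2) ^ 3 := one_le_pow₀ (by linarith only [hB0])
  refine ⟨B + 2, (B + 2) ^ 3, hy0, ?_⟩
  intro n hn G v w s S y C hy hyS hI hinit hc1 hc2
  have hy1 : 1 ≤ y := hy0.trans hy
  have hypos : 0 < y := lt_of_lt_of_le one_pos hy1
  have hS0 : 0 ≤ S := hypos.le.trans hyS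
  obtain ⟨r, hr⟩ : ∃ r : ℝ, r = y ^ (-(1 / 3 : ℝ)) := ⟨_, rfl⟩
  rw [← hr] at hinit hc1 hc2 ⊢
  have hr0 : 0 < r := by rw [hr]; exact Real.rpow_pos_of_pos hypos _
  have hBr : (B + 2) * r ≤ 1 := by
    have hB2 : 0 < B + 2 := by linarith only [hB0]
    have h1 : r ≤ ((B + 2) ^ 3) ^ (-(1 / 3 : ℝ)) := by
      rw [hr]
      exact Real.rpow_le_rpow_of_nonpos (by positivity) hy (by norm_num)
    have h2 : ((B + 2) ^ 3) ^ (-(1 / 3 : ℝ)) = (B + 2)⁻¹ := by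
      rw [← Real.rpow_natCast, ← Real.rpow_mul hB2.le, ← Real.rpow_neg_one]
      norm_num
    rw [h2] at h1
    calc (B + 2) * r ≤ (B + 2) * (B + 2)⁻¹ := mul_le_mul_of_nonneg_left h1 hB2.le
      _ = 1 := mul_inv_cancel₀ hB2.ne'
  have hBr0 : 0 ≤ B * r := mul_nonneg hB0 hr0.le
  have hr1 : 2 * r ≤ 1 := by linarith only [hBr, hBr0]
  have hBr1 : B * r ≤ 1 := by linarith only [hBr, hr0]
  -- facts at the heights
  have hH1 : ∀ l, 1 ≤ s4Ht S y l := fun l => hy1.trans (s4e_Ht_ge S y l)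
  have hHr : ∀ l, s4Ht S y l ^ (-(1 / 3 : ℝ)) ≤ r := by
    intro l
    rw [hr]
    exact Real.rpow_le_rpow_of_nonpos hypos (s4e_Ht_ge S y l) (by norm_num)
  have hHi : ∀ l, 1 / s4Ht S y l ≤ r := by
    intro l
    have h1 : 1 / s4Ht S y l ≤ 1 / y := one_div_le_one_div_of_le hypos (s4e_Ht_ge S y l)
    have h2 : 1 / y ≤ r := by
      rw [hr, one_div, ← Real.rpow_neg_one]
      exact Real.rpow_le_rpow_of_exponent_le hy1 (by norm_num)
    exact h1.trans h2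
  have hstep : ∀ l, ‖s4M G E ⟨s, s4Ht S y l⟩ - s4Ms d E‖ ≤ 1 →
      ‖s4M G E ⟨s, s4Ht S y (l + 1)⟩ - s4Ms d E‖ ≤ B * r ∧
      ∀ c c', ‖(s4X G E v w ⟨s, s4Ht S y (l + 1)⟩).2.1 c c' - s4K k d E (s4M G E ⟨s, s4Ht S y (l + 1)⟩) c c'‖ ≤ 2 * r := by
    intro l hl
    have h1 : ‖s4M G E ⟨s, s4Ht S y l⟩‖ ≤ ‖s4Ms d E‖ + 1 := by
      calc ‖s4M G E ⟨s, s4Ht S y l⟩‖ = ‖s4Ms d E + (s4M G E ⟨s, s4Ht S y l⟩ - s4Ms d E)‖ := by rw [add_sub_cancel]
        _ ≤ ‖s4Ms d E‖ + ‖s4M G E ⟨s, s4Ht S y l⟩ - s4Ms d E‖ := norm_add_le _ _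
        _ ≤ ‖s4Ms d E‖ + 1 := by linarith only [hl]
    have h2 := s4e_M_half hn G E s (lt_of_lt_of_le one_pos (hH1 (l + 1))) (s4e_Ht_half_le hypos.le l) (s4e_Ht_succ_le hS0 l)
    have h3 : ‖s4M G E ⟨s, s4Ht S y (l + 1)⟩‖ ≤ 2 * (‖s4Ms d E‖ + 1) := by linarith only [h1, h2]
    have h4 : 0 ≤ s4Ht S y (l + 1) ^ (-(1 / 3 : ℝ)) := Real.rpow_nonneg (le_trans zero_le_one (hH1 (l + 1))) _
    rw [hB]
    exact s4e_height k hk hd hE hAs hn hI s (s4Ht S y (l + 1)) r (r + s4Ht S y (l + 1) ^ (-(1 / 3 : ℝ))) (hH1 _) (by linarith only [hr0, h4])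
      (by linarith only [hHr (l + 1)]) hr1 (hHi _) h3 (hc1 (l + 1)) (hc2 (l + 1))
  have hind : ∀ l, ‖s4M G E ⟨s, s4Ht S y l⟩ - s4Ms d E‖ ≤ 1 := by
    intro l
    induction l with
    | zero =>
        rw [s4e_Ht_zero hyS]
        exact (hinit.1.1).trans (by linarith only [hr1, hr0])
    | succ l ih => exact ((hstep l ih).1).trans hBr1
  obtain ⟨l, hl⟩ := s4e_Ht_eq (S := S) hypos
  have hfin := hstep l (hind l)
  rw [hl] at hfin
  refine ⟨?_, fun c c' => ?_⟩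
  · refine (hfin.1).trans ?_
    linarith only [hr0]
  · have h1 := s4e_K_sub_le k (by omega : 1 ≤ d) (s4e_E_le hd hE) (s4M G E ⟨s, y⟩) (s4Ms d E) c c'
    have h2 := hfin.2 c c'
    calc ‖(s4X G E v w ⟨s, y⟩).2.1 c c' - s4K k d E (s4Ms d E) c c'‖
        = ‖((s4X G E v w ⟨s, y⟩).2.1 c c' - s4K k d E (s4M G E ⟨s, y⟩) c c') + (s4K k d E (s4M G E ⟨s, y⟩) c c' - s4K k d E (s4Ms d E) c c')‖ := by
          rw [sub_add_sub_cancel]
      _ ≤ ‖(s4X G E v w ⟨s, y⟩).2.1 c c' - s4K k d E (s4M G E ⟨s, y⟩) c c'‖ + ‖s4K k d E (s4M G E ⟨s, y⟩) c c' - s4K k d E (s4Ms d E) c c'‖ := norm_add_le _ _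
      _ ≤ (B + 2) * r := by linarith only [h1, h2, hfin.1]

/-! ## G. linear statistics of the fluctuation (shared by E1, S2, N2) -/

/-- the deviation `μ(c,c') = M(c,c') - K_k(m)(c,c')` of a switching state -/
def s4Dev {k : ℕ} (d : ℕ) (E : ℝ) (X : SwSt k) (c c' : Ch k) : ℂ := X.2.1 c c' - s4K k d E X.1 c c'

theorem s4m_C_symm (k : ℕ) (p : ℝ) (c c' : Ch k) : chC k p c c' = chC k p c' c := by
  rcases c with a | a <;> rcases c' with b | b <;> simp [chC, chJ, Matrix.one_apply, eq_comm]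

/-- `s4_mom2j` for `Q_i = r_i Θ` on the band -/
theorem s4m_lin {j : ℕ} {A : ℝ} (hA : ∀ (k d : ℕ) (E : ℝ), |E / d| < 1 → ∀ (n : ℕ) (G : SimpleGraph (Fin n)), G ∈ regularGraphs n d → 0 < n * d → ∀ (Λ δ : ℝ),
    S4Mom d E k (2 * j) (4 * j) G Λ δ → ∀ Q : Fin n → Matrix (Ch k) (Ch k) ℝ, (∀ i, (Q i)ᵀ = Q i) → (∀ i, Λ < |s4Pos G E i| → Q i = 0) →
      s4Ec d k G (fun v w => (∑ i, (s4Mark G v w i ⬝ᵥ Q i *ᵥ s4Mark G v w i - Matrix.trace (Q i * chC k (E / d)))) ^ (2 * j))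
        ≤ A * (∑ i, ∑ c, ∑ c', Q i c c' ^ 2) ^ j + δ * (2 * ∑ i, ∑ c, ∑ c', |Q i c c'|) ^ (2 * j))
    {k d : ℕ} {E : ℝ} (hp : |E / d| < 1) {n : ℕ} {G : SimpleGraph (Fin n)} (hG : G ∈ regularGraphs n d) (hn : 0 < n * d) {Λ δ : ℝ}
    (hM : S4Mom d E k (2 * j) (4 * j) G Λ δ) {Θ : Matrix (Ch k) (Ch k) ℝ} (hΘ : Θᵀ = Θ) (r : Fin n → ℝ) :
    s4Ec d k G (fun v w => (∑ i ∈ s4Band G E Λ, (s4Mark G v w i ⬝ᵥ Θ *ᵥ s4Mark G v w i - Matrix.trace (Θ * chC k (E / d))) * r i) ^ (2 * j))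
      ≤ A * ((∑ c, ∑ c', Θ c c' ^ 2) * ∑ i ∈ s4Band G E Λ, r i ^ 2) ^ j
        + δ * (2 * ((∑ c, ∑ c', |Θ c c'|) * ∑ i ∈ s4Band G E Λ, |r i|)) ^ (2 * j) := by
  classical
  have h := hA k d E hp n G hG hn Λ δ hM (fun i => if i ∈ s4Band G E Λ then r i • Θ else 0)
    (fun i => by
      split_ifs
      · rw [Matrix.transpose_smul, hΘ]
      · simp)
    (fun i hi => by
      rw [if_neg]
      intro hmem
      have := (Finset.mem_filter.1 hmem).2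
      linarith)
  have hsum : ∀ F : Fin n → ℝ, ∑ i ∈ s4Band G E Λ, F i = ∑ i, if i ∈ s4Band G E Λ then F i else 0 := by
    intro F
    rw [Finset.sum_ite_mem, Finset.univ_inter]
  have e1 : ∀ v w : Fin k → Fin n, ∑ i, (s4Mark G v w i ⬝ᵥ (if i ∈ s4Band G E Λ then r i • Θ else 0) *ᵥ s4Mark G v w i
        - Matrix.trace ((if i ∈ s4Band G E Λ then r i • Θ else 0) * chC k (E / d)))
      = ∑ i ∈ s4Band G E Λ, (s4Mark G v w i ⬝ᵥ Θ *ᵥ s4Mark G v w i - Matrix.trace (Θ * chC k (E / d))) * r i := by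
    intro v w
    rw [hsum]
    refine Finset.sum_congr rfl fun i _ => ?_
    split_ifs
    · rw [Matrix.smul_mulVec, dotProduct_smul, Matrix.smul_mul, Matrix.trace_smul]
      simp only [smul_eq_mul]
      ring
    · simp
  have e2 : ∑ i, ∑ c, ∑ c', (if i ∈ s4Band G E Λ then r i • Θ else 0) c c' ^ 2 = (∑ c, ∑ c', Θ c c' ^ 2) * ∑ i ∈ s4Band G E Λ, r i ^ 2 := by
    rw [hsum, Finset.mul_sum]
    refine Finset.sum_congr rfl fun i _ => ?_
    split_ifs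
    · simp only [Matrix.smul_apply, smul_eq_mul, mul_pow, ← Finset.mul_sum]
      ring
    · simp
  have e3 : ∑ i, ∑ c, ∑ c', |(if i ∈ s4Band G E Λ then r i • Θ else 0) c c'| = (∑ c, ∑ c', |Θ c c'|) * ∑ i ∈ s4Band G E Λ, |r i| := by
    rw [hsum, Finset.mul_sum]
    refine Finset.sum_congr rfl fun i _ => ?_
    split_ifs
    · simp only [Matrix.smul_apply, smul_eq_mul, abs_mul, ← Finset.mul_sum]
      ring
    · simp
  simp only [e1] at h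
  rw [e2, e3] at h
  exact h

/-- the linear statistic as a sum over the band -/
theorem s4m_FL_sum {n k : ℕ} (d : ℕ) (G : SimpleGraph (Fin n)) (E : ℝ) (v w : Fin k → Fin n) (Λ : ℝ) (z z0 : ℂ) (Θ : Matrix (Ch k) (Ch k) ℝ) :
    ∑ c, ∑ c', (Θ c c' : ℂ) * s4FL d G E v w Λ z z0 c c'
      = ∑ i ∈ s4Band G E Λ, ((s4Mark G v w i ⬝ᵥ Θ *ᵥ s4Mark G v w i - Matrix.trace (Θ * chC k (E / d)) : ℝ) : ℂ)
          * (((s4Pos G E i : ℂ) - z)⁻¹ - ((s4Pos G E i : ℂ) - z0)⁻¹) := by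
  unfold s4FL
  simp only [Finset.mul_sum]
  rw [Finset.sum_congr rfl fun c _ => Finset.sum_comm, Finset.sum_comm]
  refine Finset.sum_congr rfl fun i _ => ?_
  have e : s4Mark G v w i ⬝ᵥ Θ *ᵥ s4Mark G v w i - Matrix.trace (Θ * chC k (E / d))
      = ∑ c, ∑ c', Θ c c' * (s4Mark G v w i c * s4Mark G v w i c' - chC k (E / d) c c') := by
    simp only [dotProduct, mulVec, Matrix.trace, Matrix.diag, Matrix.mul_apply]
    rw [← Finset.sum_sub_distrib]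
    refine Finset.sum_congr rfl fun c _ => ?_
    rw [Finset.mul_sum, ← Finset.sum_sub_distrib]
    refine Finset.sum_congr rfl fun c' _ => ?_
    rw [s4m_C_symm k _ c' c]
    ring
  rw [e]
  push_cast
  rw [Finset.sum_mul]
  refine Finset.sum_congr rfl fun c _ => ?_
  rw [Finset.sum_mul]
  refine Finset.sum_congr rfl fun c' _ => ?_
  ring

theorem s4m_norm_pow (X : ℂ) (j : ℕ) : ‖X‖ ^ (2 * j) ≤ 2 ^ j * (X.re ^ (2 * j) + X.im ^ (2 * j)) := by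
  have h1 : ‖X‖ ^ 2 = X.re ^ 2 + X.im ^ 2 := by
    rw [← Complex.normSq_eq_norm_sq, Complex.normSq_apply]; ring
  rw [pow_mul, h1, pow_mul, pow_mul]
  set a := X.re ^ 2
  set b := X.im ^ 2
  have ha : 0 ≤ a := sq_nonneg _
  have hb : 0 ≤ b := sq_nonneg _
  rcases le_total a b with h | h
  · calc (a + b) ^ j ≤ (2 * b) ^ j := pow_le_pow_left₀ (by linarith) (by linarith) j
      _ = 2 ^ j * b ^ j := mul_pow _ _ _
      _ ≤ 2 ^ j * (a ^ j + b ^ j) := mul_le_mul_of_nonneg_left (by linarith [pow_nonneg ha j]) (by positivity)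
  · calc (a + b) ^ j ≤ (2 * a) ^ j := pow_le_pow_left₀ (by linarith) (by linarith) j
      _ = 2 ^ j * a ^ j := mul_pow _ _ _
      _ ≤ 2 ^ j * (a ^ j + b ^ j) := mul_le_mul_of_nonneg_left (by linarith [pow_nonneg hb j]) (by positivity)

open Classical in
/-- **LEAF** conditional tail of a linear statistic `∑ Θ(c,c') FL(c,c') = ∑_band w_i (b_iᵀ Θ b_i - Tr(Θ C))`, `Θ` real symmetric: `s4_mom2j` for `Q_i = Re w_i · Θ` and `Im w_i · Θ`, `|a + i b|^{2j} ≤ 2^{2j} (a^{2j} + b^{2j})/2`, `s4_Ec_markov`.      `A` depends on `j` only. -/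
theorem s4_lin_cond (j : ℕ) (hj : 1 ≤ j) : ∃ A : ℝ, ∀ (k d : ℕ) (E : ℝ), |E / d| < 1 → ∀ (n : ℕ) (G : SimpleGraph (Fin n)), G ∈ regularGraphs n d → 0 < n * d → ∀ (Λ δ : ℝ),
    S4Mom d E k (2 * j) (4 * j) G Λ δ → ∀ (Θ : Matrix (Ch k) (Ch k) ℝ), Θᵀ = Θ → ∀ (z z0 : ℂ) (θ : ℝ), 0 < θ →
      s4Ec d k G (fun v w => if θ < ‖∑ c, ∑ c', (Θ c c' : ℂ) * s4FL d G E v w Λ z z0 c c'‖ then 1 else 0)
        ≤ (A * ((∑ c, ∑ c', Θ c c' ^ 2) * ∑ i ∈ s4Band G E Λ, ‖((s4Pos G E i : ℂ) - z)⁻¹ - ((s4Pos G E i : ℂ) - z0)⁻¹‖ ^ 2) ^ j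
          + δ * (4 * (∑ c, ∑ c', |Θ c c'|) * ∑ i ∈ s4Band G E Λ, ‖((s4Pos G E i : ℂ) - z)⁻¹ - ((s4Pos G E i : ℂ) - z0)⁻¹‖) ^ (2 * j)) / θ ^ (2 * j) := by
  obtain ⟨A0, hA0⟩ := s4_mom2j j
  refine ⟨2 ^ (j + 1) * max A0 0, fun k d E hp n G hG hn Λ δ hM Θ hΘ z z0 θ hθ => ?_⟩
  have hδ : 0 ≤ δ :=
    (abs_nonneg _).trans (hM 0 (Nat.zero_le _) Fin.elim0 (fun a => a.elim0) (fun r => r.elim0) 0 (Nat.zero_le _) Fin.elim0)
  set W : Fin n → ℂ := fun i => ((s4Pos G E i : ℂ) - z)⁻¹ - ((s4Pos G E i : ℂ) - z0)⁻¹ with hW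
  set HΘ := ∑ c, ∑ c', Θ c c' ^ 2 with hHΘ
  set SΘ := ∑ c, ∑ c', |Θ c c'| with hSΘ
  have hH0 : 0 ≤ HΘ := Finset.sum_nonneg fun _ _ => Finset.sum_nonneg fun _ _ => sq_nonneg _
  have hS0 : 0 ≤ SΘ := Finset.sum_nonneg fun _ _ => Finset.sum_nonneg fun _ _ => abs_nonneg _
  set X : (Fin k → Fin n) → (Fin k → Fin n) → ℂ := fun v w => ∑ c, ∑ c', (Θ c c' : ℂ) * s4FL d G E v w Λ z z0 c c' with hX
  set tt : (Fin k → Fin n) → (Fin k → Fin n) → Fin n → ℝ := fun v w i =>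
    s4Mark G v w i ⬝ᵥ Θ *ᵥ s4Mark G v w i - Matrix.trace (Θ * chC k (E / d)) with htt
  have hXs : ∀ v w, X v w = ∑ i ∈ s4Band G E Λ, (tt v w i : ℂ) * W i := fun v w => s4m_FL_sum d G E v w Λ z z0 Θ
  have hre : ∀ v w, (X v w).re = ∑ i ∈ s4Band G E Λ, tt v w i * (W i).re := by
    intro v w
    rw [hXs, Complex.re_sum]
    refine Finset.sum_congr rfl fun i _ => ?_
    rw [Complex.re_ofReal_mul]
  have him : ∀ v w, (X v w).im = ∑ i ∈ s4Band G E Λ, tt v w i * (W i).im := by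
    intro v w
    rw [hXs, Complex.im_sum]
    refine Finset.sum_congr rfl fun i _ => ?_
    rw [Complex.im_ofReal_mul]
  -- the two real moments
  have key : ∀ r : Fin n → ℝ, (∀ i, |r i| ≤ ‖W i‖) →
      s4Ec d k G (fun v w => (∑ i ∈ s4Band G E Λ, tt v w i * r i) ^ (2 * j))
        ≤ max A0 0 * (HΘ * ∑ i ∈ s4Band G E Λ, ‖W i‖ ^ 2) ^ j + δ * (2 * (SΘ * ∑ i ∈ s4Band G E Λ, ‖W i‖)) ^ (2 * j) := by
    intro r hr
    have h := s4m_lin hA0 hp hG hn hM hΘ r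
    refine h.trans (add_le_add ?_ ?_)
    · have h1 : ∑ i ∈ s4Band G E Λ, r i ^ 2 ≤ ∑ i ∈ s4Band G E Λ, ‖W i‖ ^ 2 :=
        Finset.sum_le_sum fun i _ => by
          rw [← sq_abs (r i)]
          exact pow_le_pow_left₀ (abs_nonneg _) (hr i) 2
      have h0 : 0 ≤ ∑ i ∈ s4Band G E Λ, r i ^ 2 := Finset.sum_nonneg fun _ _ => sq_nonneg _
      calc A0 * (HΘ * ∑ i ∈ s4Band G E Λ, r i ^ 2) ^ j ≤ max A0 0 * (HΘ * ∑ i ∈ s4Band G E Λ, r i ^ 2) ^ j :=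
            mul_le_mul_of_nonneg_right (le_max_left _ _) (pow_nonneg (mul_nonneg hH0 h0) _)
        _ ≤ _ := mul_le_mul_of_nonneg_left (pow_le_pow_left₀ (mul_nonneg hH0 h0) (mul_le_mul_of_nonneg_left h1 hH0) _) (le_max_right _ _)
    · have h1 : ∑ i ∈ s4Band G E Λ, |r i| ≤ ∑ i ∈ s4Band G E Λ, ‖W i‖ := Finset.sum_le_sum fun i _ => hr i
      have h0 : 0 ≤ ∑ i ∈ s4Band G E Λ, |r i| := Finset.sum_nonneg fun _ _ => abs_nonneg _
      refine mul_le_mul_of_nonneg_left (pow_le_pow_left₀ (by positivity) ?_ _) hδ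
      exact mul_le_mul_of_nonneg_left (mul_le_mul_of_nonneg_left h1 hS0) (by norm_num)
  have k1 := key (fun i => (W i).re) fun i => Complex.abs_re_le_norm _
  have k2 := key (fun i => (W i).im) fun i => Complex.abs_im_le_norm _
  -- Markov
  have hθ2 : 0 < θ ^ (2 * j) := by positivity
  have m1 : s4Ec d k G (fun v w => if θ < ‖X v w‖ then 1 else 0) ≤ s4Ec d k G (fun v w => if θ ^ (2 * j) < ‖X v w‖ ^ (2 * j) then 1 else 0) := by
    refine s4_Ec_mono G fun v w _ => ?_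
    by_cases h : θ < ‖X v w‖
    · rw [if_pos h, if_pos (pow_lt_pow_left₀ h hθ.le (by omega))]
    · rw [if_neg h]
      split_ifs <;> norm_num
  have m2 := s4_Ec_markov (d := d) G (fun v w => ‖X v w‖ ^ (2 * j)) (fun v w => by positivity) hθ2
  have m3 : s4Ec d k G (fun v w => ‖X v w‖ ^ (2 * j))
      ≤ 2 ^ j * s4Ec d k G (fun v w => (∑ i ∈ s4Band G E Λ, tt v w i * (W i).re) ^ (2 * j))
        + 2 ^ j * s4Ec d k G (fun v w => (∑ i ∈ s4Band G E Λ, tt v w i * (W i).im) ^ (2 * j)) := by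
    rw [← s4_Ec_lin]
    refine s4_Ec_mono G fun v w _ => ?_
    have := s4m_norm_pow (X v w) j
    rw [hre, him] at this
    linarith
  refine m1.trans (m2.trans (div_le_div_of_nonneg_right (m3.trans ?_) hθ2.le))
  set W2 := ∑ i ∈ s4Band G E Λ, ‖W i‖ ^ 2
  set W1 := ∑ i ∈ s4Band G E Λ, ‖W i‖
  have hW1 : 0 ≤ W1 := Finset.sum_nonneg fun _ _ => norm_nonneg _
  have e1 : (4 * SΘ * W1) ^ (2 * j) = 2 ^ (2 * j) * (2 * (SΘ * W1)) ^ (2 * j) := by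
    rw [← mul_pow]; congr 1; ring
  have e2 : (2 : ℝ) ^ (j + 1) ≤ 2 ^ (2 * j) := pow_le_pow_right₀ (by norm_num) (by omega)
  have h5 : 0 ≤ δ * (2 * (SΘ * W1)) ^ (2 * j) := by positivity
  rw [e1]
  have e3 : (2 : ℝ) ^ (j + 1) = 2 * 2 ^ j := by rw [pow_succ]; ring
  have p2 : (0 : ℝ) < 2 ^ j := by positivity
  calc 2 ^ j * s4Ec d k G (fun v w => (∑ i ∈ s4Band G E Λ, tt v w i * (W i).re) ^ (2 * j))
        + 2 ^ j * s4Ec d k G (fun v w => (∑ i ∈ s4Band G E Λ, tt v w i * (W i).im) ^ (2 * j))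
      ≤ 2 ^ j * (max A0 0 * (HΘ * W2) ^ j + δ * (2 * (SΘ * W1)) ^ (2 * j)) + 2 ^ j * (max A0 0 * (HΘ * W2) ^ j + δ * (2 * (SΘ * W1)) ^ (2 * j)) :=
        add_le_add (mul_le_mul_of_nonneg_left k1 p2.le) (mul_le_mul_of_nonneg_left k2 p2.le)
    _ = 2 ^ (j + 1) * max A0 0 * (HΘ * W2) ^ j + 2 ^ (j + 1) * (δ * (2 * (SΘ * W1)) ^ (2 * j)) := by rw [e3]; ring
    _ ≤ 2 ^ (j + 1) * max A0 0 * (HΘ * W2) ^ j + 2 ^ (2 * j) * (δ * (2 * (SΘ * W1)) ^ (2 * j)) := by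
        have := mul_le_mul_of_nonneg_right e2 h5
        linarith
    _ = _ := by ring

/-- **LEAF** the weights in the band: P1 (4.6) and the count of the band (`ds_ward`, `ds_near`, `s4_M_spec`, Cauchy-Schwarz) -/
theorem s4_band_w {n : ℕ} (hn : 0 < n) (G : SimpleGraph (Fin n)) (E : ℝ) {Λ : ℝ} (hΛ : 0 < Λ) {z z0 : ℂ} (hz : 0 < z.im) (hz0 : 0 < z0.im) :
    (∑ i ∈ s4Band G E Λ, ‖((s4Pos G E i : ℂ) - z)⁻¹ - ((s4Pos G E i : ℂ) - z0)⁻¹‖ ^ 2 ≤ 2 * (s4M G E z).im / z.im + 2 * (s4M G E z0).im / z0.im) ∧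
    (((s4Band G E Λ).card : ℝ) ≤ 2 * Λ * (s4M G E ⟨0, Λ⟩).im) ∧
    ((∑ i ∈ s4Band G E Λ, ‖((s4Pos G E i : ℂ) - z)⁻¹ - ((s4Pos G E i : ℂ) - z0)⁻¹‖) ^ 2
      ≤ 2 * Λ * (s4M G E ⟨0, Λ⟩).im * (2 * (s4M G E z).im / z.im + 2 * (s4M G E z0).im / z0.im)) := by
  have hMim : ∀ {ζ : ℂ}, ζ.im ≠ 0 → (s4M G E ζ).im = ∑ i, (((s4Pos G E i : ℂ) - ζ)⁻¹).im := by
    intro ζ hζ
    rw [s4_M_spec hn G E hζ, Complex.im_sum]
  have hpos : ∀ {ζ : ℂ}, 0 < ζ.im → ∀ x : ℝ, 0 ≤ (((x : ℂ) - ζ)⁻¹).im := by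
    intro ζ hζ x
    rw [ds_im]
    positivity
  have hΛim : (0 : ℝ) < (⟨0, Λ⟩ : ℂ).im := hΛ
  have h1 : ∑ i ∈ s4Band G E Λ, ‖((s4Pos G E i : ℂ) - z)⁻¹ - ((s4Pos G E i : ℂ) - z0)⁻¹‖ ^ 2 ≤ 2 * (s4M G E z).im / z.im + 2 * (s4M G E z0).im / z0.im := by
    have a1 : ∀ i, ‖((s4Pos G E i : ℂ) - z)⁻¹ - ((s4Pos G E i : ℂ) - z0)⁻¹‖ ^ 2
        ≤ 2 * ((((s4Pos G E i : ℂ) - z)⁻¹).im / z.im) + 2 * ((((s4Pos G E i : ℂ) - z0)⁻¹).im / z0.im) := by
      intro i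
      rw [← ds_ward _ hz, ← ds_ward _ hz0]
      have t := norm_sub_le (((s4Pos G E i : ℂ) - z)⁻¹) (((s4Pos G E i : ℂ) - z0)⁻¹)
      have t0 := norm_nonneg (((s4Pos G E i : ℂ) - z)⁻¹ - ((s4Pos G E i : ℂ) - z0)⁻¹)
      have t1 := norm_nonneg (((s4Pos G E i : ℂ) - z)⁻¹)
      have t2 := norm_nonneg (((s4Pos G E i : ℂ) - z0)⁻¹)
      nlinarith [sq_nonneg (‖((s4Pos G E i : ℂ) - z)⁻¹‖ - ‖((s4Pos G E i : ℂ) - z0)⁻¹‖)]
    calc ∑ i ∈ s4Band G E Λ, ‖((s4Pos G E i : ℂ) - z)⁻¹ - ((s4Pos G E i : ℂ) - z0)⁻¹‖ ^ 2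
        ≤ ∑ i, ‖((s4Pos G E i : ℂ) - z)⁻¹ - ((s4Pos G E i : ℂ) - z0)⁻¹‖ ^ 2 :=
          Finset.sum_le_sum_of_subset_of_nonneg (Finset.subset_univ _) fun i _ _ => sq_nonneg _
      _ ≤ ∑ i, (2 * ((((s4Pos G E i : ℂ) - z)⁻¹).im / z.im) + 2 * ((((s4Pos G E i : ℂ) - z0)⁻¹).im / z0.im)) := Finset.sum_le_sum fun i _ => a1 i
      _ = 2 * (s4M G E z).im / z.im + 2 * (s4M G E z0).im / z0.im := by
          rw [hMim hz.ne', hMim hz0.ne', Finset.sum_add_distrib, ← Finset.mul_sum, ← Finset.mul_sum, ← Finset.sum_div, ← Finset.sum_div]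
          ring
  have h2 : ((s4Band G E Λ).card : ℝ) ≤ 2 * Λ * (s4M G E ⟨0, Λ⟩).im := by
    have a2 : ∑ i ∈ s4Band G E Λ, (1 / (2 * Λ)) ≤ (s4M G E ⟨0, Λ⟩).im := by
      rw [hMim hΛim.ne']
      calc ∑ i ∈ s4Band G E Λ, (1 / (2 * Λ)) ≤ ∑ i ∈ s4Band G E Λ, (((s4Pos G E i : ℂ) - (⟨0, Λ⟩ : ℂ))⁻¹).im := by
            refine Finset.sum_le_sum fun i hi => ds_near hΛ ?_
            unfold s4Band at hi
            exact (Finset.mem_filter.1 hi).2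
        _ ≤ ∑ i, (((s4Pos G E i : ℂ) - (⟨0, Λ⟩ : ℂ))⁻¹).im :=
            Finset.sum_le_sum_of_subset_of_nonneg (Finset.subset_univ _) fun i _ _ => hpos hΛim _
    rw [Finset.sum_const, nsmul_eq_mul, mul_one_div, div_le_iff₀ (by positivity)] at a2
    linarith
  refine ⟨h1, h2, ?_⟩
  have h3 := sq_sum_le_card_mul_sum_sq (s := s4Band G E Λ) (f := fun i => ‖((s4Pos G E i : ℂ) - z)⁻¹ - ((s4Pos G E i : ℂ) - z0)⁻¹‖)
  refine h3.trans ?_
  have h4 : 0 ≤ ∑ i ∈ s4Band G E Λ, ‖((s4Pos G E i : ℂ) - z)⁻¹ - ((s4Pos G E i : ℂ) - z0)⁻¹‖ ^ 2 := Finset.sum_nonneg fun i _ => sq_nonneg _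
  exact mul_le_mul h2 h1 h4 ((Nat.cast_nonneg _).trans h2)

/-! ## G'. concentration: the common core of `s4_conc` and `s4_lin_conc`      (helper70; kit `s4c`) -/

/-! ## core of the concentration: one height, one graph -/

theorem s4c_M_im_nonneg {n : ℕ} (hn : 0 < n) (G : SimpleGraph (Fin n)) (E : ℝ) {z : ℂ} (hz : 0 < z.im) : 0 ≤ (s4M G E z).im := by
  have h1 := s4c_tr_im hn G E z
  have hn' : (0 : ℝ) < n := by exact_mod_cast hn
  have h : 0 < ((E : ℂ) + z / n).im := by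
    rw [s4c_zeta_im]
    positivity
  have h2 : 0 ≤ ∑ x, (s4R G E z x x).im := Finset.sum_nonneg fun x _ => (rs_G_im_pos (s4_herm G) h x).le
  rw [h1] at h2
  exact nonneg_of_mul_nonneg_right h2 hn'

theorem S4Init.mono {n k : ℕ} {d : ℕ} {E : ℝ} {G : SimpleGraph (Fin n)} {v w : Fin k → Fin n} {s S τ C C' : ℝ} (h : S4Init d E G v w s S τ C) (hC : C ≤ C') :
    S4Init d E G v w s S τ C' := ⟨h.1, h.2.1.trans hC, h.2.2⟩

/-- on the initial event the deviation is the fluctuation of the band up to a small error -/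
theorem s4c_dev_FL {n k : ℕ} (hn : 0 < n) (d : ℕ) (G : SimpleGraph (Fin n)) (E : ℝ) (hp : |E / d| ≤ 1) (v w : Fin k → Fin n) {s S h τ C : ℝ} (hS : 1 ≤ S) (hh : 0 < h) (hhS : h ≤ S)
    (hsS : |s| + S ≤ S ^ 2 / 2) (hC : 0 ≤ C) (hI : S4Init d E G v w s S τ C) (c c' : Ch k) :
    ‖s4Dev d E (s4X G E v w ⟨s, h⟩) c c' - s4FL d G E v w (S ^ 2) ⟨s, h⟩ ⟨s, S⟩ c c'‖ ≤ 2 * τ + 8 * (Real.sqrt S + C) / S := by
  have hS0 : 0 < S := lt_of_lt_of_le one_pos hS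
  have hz : ‖(⟨s, h⟩ : ℂ)‖ ≤ S ^ 2 / 2 := by
    have := Complex.norm_le_abs_re_add_abs_im (⟨s, h⟩ : ℂ)
    simp only [abs_of_pos hh] at this
    linarith
  have hz0 : ‖(⟨s, S⟩ : ℂ)‖ ≤ S ^ 2 / 2 := by
    have := Complex.norm_le_abs_re_add_abs_im (⟨s, S⟩ : ℂ)
    simp only [abs_of_pos hS0] at this
    linarith
  have hD := s4_decomp hn d G E hp v w (Λ := S ^ 2) (z := ⟨s, h⟩) (z0 := ⟨s, S⟩) (by positivity) hh hS0 hz hz0 c c'
  have hzz : ‖(⟨s, h⟩ : ℂ) - ⟨s, S⟩‖ ≤ S := by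
    have e : (⟨s, h⟩ : ℂ) - ⟨s, S⟩ = ((h - S : ℝ) : ℂ) * Complex.I := by
      apply Complex.ext <;> simp
    rw [e, norm_mul, Complex.norm_I, mul_one, Complex.norm_real, Real.norm_eq_abs, abs_le]
    constructor <;> linarith
  obtain ⟨⟨i1, i2⟩, i3, i4⟩ := hI
  have hb : (((s4X G E v w ⟨0, S ^ 2⟩).2.1 c c).im + ((s4X G E v w ⟨0, S ^ 2⟩).2.1 c' c').im) / 2 + (s4M G E ⟨0, S ^ 2⟩).im ≤ Real.sqrt S + C := by
    have := i4 c
    have := i4 c'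
    linarith
  have hb0 : 0 ≤ Real.sqrt S + C := add_nonneg (Real.sqrt_nonneg _) hC
  have ha : 8 * ‖(⟨s, h⟩ : ℂ) - ⟨s, S⟩‖ / S ^ 2 ≤ 8 / S := by
    rw [div_le_div_iff₀ (by positivity) hS0]
    nlinarith
  have h1 : 8 * ‖(⟨s, h⟩ : ℂ) - ⟨s, S⟩‖ / S ^ 2 * ((((s4X G E v w ⟨0, S ^ 2⟩).2.1 c c).im + ((s4X G E v w ⟨0, S ^ 2⟩).2.1 c' c').im) / 2 + (s4M G E ⟨0, S ^ 2⟩).im)
      ≤ 8 * (Real.sqrt S + C) / S := by
    calc _ ≤ 8 * ‖(⟨s, h⟩ : ℂ) - ⟨s, S⟩‖ / S ^ 2 * (Real.sqrt S + C) := mul_le_mul_of_nonneg_left hb (by positivity)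
      _ ≤ 8 / S * (Real.sqrt S + C) := mul_le_mul_of_nonneg_right ha hb0
      _ = _ := by ring
  have h2 : ‖(s4X G E v w ⟨s, S⟩).2.1 c c' - s4K k d E (s4M G E ⟨s, S⟩) c c'‖ ≤ 2 * τ := by
    have e : (s4X G E v w ⟨s, S⟩).2.1 c c' - s4K k d E (s4M G E ⟨s, S⟩) c c'
        = ((s4X G E v w ⟨s, S⟩).2.1 c c' - s4K k d E (s4Ms d E) c c') - (s4K k d E (s4M G E ⟨s, S⟩) c c' - s4K k d E (s4Ms d E) c c') := by ring
    rw [e, s4c_K_sub]
    refine (norm_sub_le _ _).trans ?_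
    rw [norm_mul, Complex.norm_real, Real.norm_eq_abs]
    have a1 := i2 c c'
    have a2 : ‖s4M G E ⟨s, S⟩ - s4Ms d E‖ * |chC k (E / d) c c'| ≤ τ * 1 :=
      mul_le_mul i1 (s4c_chC_le k hp c c') (abs_nonneg _) ((norm_nonneg _).trans i1)
    linarith
  have e : s4Dev d E (s4X G E v w ⟨s, h⟩) c c' - s4FL d G E v w (S ^ 2) ⟨s, h⟩ ⟨s, S⟩ c c'
      = (((s4X G E v w ⟨s, h⟩).2.1 c c' - s4K k d E (s4M G E ⟨s, h⟩) c c') - ((s4X G E v w ⟨s, S⟩).2.1 c c' - s4K k d E (s4M G E ⟨s, S⟩) c c') - s4FL d G E v w (S ^ 2) ⟨s, h⟩ ⟨s, S⟩ c c')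
        + ((s4X G E v w ⟨s, S⟩).2.1 c c' - s4K k d E (s4M G E ⟨s, S⟩) c c') := by
    unfold s4Dev
    show (s4X G E v w ⟨s, h⟩).2.1 c c' - s4K k d E (s4M G E ⟨s, h⟩) c c' - _ = _
    ring
  rw [e]
  refine (norm_add_le _ _).trans ?_
  linarith [hD.trans h1]

/-- linear statistics -/
theorem s4c_lin_dev {n k : ℕ} (hn : 0 < n) (d : ℕ) (G : SimpleGraph (Fin n)) (E : ℝ) (hp : |E / d| ≤ 1) (v w : Fin k → Fin n) {s S h τ C : ℝ} (hS : 1 ≤ S) (hh : 0 < h) (hhS : h ≤ S)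
    (hsS : |s| + S ≤ S ^ 2 / 2) (hC : 0 ≤ C) (hI : S4Init d E G v w s S τ C) (Θ : Matrix (Ch k) (Ch k) ℝ) :
    ‖∑ c, ∑ c', (Θ c c' : ℂ) * s4Dev d E (s4X G E v w ⟨s, h⟩) c c'‖
      ≤ (∑ c, ∑ c', |Θ c c'|) * (2 * τ + 8 * (Real.sqrt S + C) / S) + ‖∑ c, ∑ c', (Θ c c' : ℂ) * s4FL d G E v w (S ^ 2) ⟨s, h⟩ ⟨s, S⟩ c c'‖ := by
  have e : ∑ c, ∑ c', (Θ c c' : ℂ) * s4Dev d E (s4X G E v w ⟨s, h⟩) c c'
      = (∑ c, ∑ c', (Θ c c' : ℂ) * (s4Dev d E (s4X G E v w ⟨s, h⟩) c c' - s4FL d G E v w (S ^ 2) ⟨s, h⟩ ⟨s, S⟩ c c'))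
        + ∑ c, ∑ c', (Θ c c' : ℂ) * s4FL d G E v w (S ^ 2) ⟨s, h⟩ ⟨s, S⟩ c c' := by
    rw [← Finset.sum_add_distrib]
    refine Finset.sum_congr rfl fun c _ => ?_
    rw [← Finset.sum_add_distrib]
    refine Finset.sum_congr rfl fun c' _ => ?_
    ring
  rw [e]
  refine (norm_add_le _ _).trans (add_le_add ?_ le_rfl)
  rw [Finset.sum_mul]
  refine (norm_sum_le _ _).trans (Finset.sum_le_sum fun c _ => ?_)
  rw [Finset.sum_mul]
  refine (norm_sum_le _ _).trans (Finset.sum_le_sum fun c' _ => ?_)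
  rw [norm_mul, Complex.norm_real, Real.norm_eq_abs]
  exact mul_le_mul_of_nonneg_left (s4c_dev_FL hn d G E hp v w hS hh hhS hsS hC hI c c') (abs_nonneg _)

theorem S4Mom.delta_nonneg {n : ℕ} {d : ℕ} {E : ℝ} {k ℓ q : ℕ} {G : SimpleGraph (Fin n)} {Λ δ : ℝ} (h : S4Mom d E k ℓ q G Λ δ) : 0 ≤ δ :=
  (abs_nonneg _).trans (h 0 (Nat.zero_le _) Fin.elim0 (fun a => a.elim0) (fun a => a.elim0) 0 (Nat.zero_le _) Fin.elim0)

open Classical in
/-- **one height, one graph**: conditional tail of a linear statistic of the fluctuation on a good graph.      `A` depends on `j` only. -/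
theorem s4c_tail (j : ℕ) (hj : 1 ≤ j) : ∃ A : ℝ, 0 ≤ A ∧ ∀ (k d : ℕ) (E : ℝ), |E / d| < 1 → ∀ (n : ℕ) (G : SimpleGraph (Fin n)), G ∈ regularGraphs n d → 0 < n * d →
    ∀ (S δ C B : ℝ), 1 ≤ S → S4Mom d E k (2 * j) (4 * j) G (S ^ 2) δ → (s4M G E ⟨0, S ^ 2⟩).im ≤ C →
    ∀ (Θ : Matrix (Ch k) (Ch k) ℝ), Θᵀ = Θ → ∀ (s h θ : ℝ), 0 < h → h ≤ S → 0 < θ → 2 * (s4M G E ⟨s, h⟩).im + 2 * (s4M G E ⟨s, S⟩).im ≤ B →
      s4Ec d k G (fun v w => if θ < ‖∑ c, ∑ c', (Θ c c' : ℂ) * s4FL d G E v w (S ^ 2) ⟨s, h⟩ ⟨s, S⟩ c c'‖ then 1 else 0)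
        ≤ (A * ((∑ c, ∑ c', Θ c c' ^ 2) * (B / h)) ^ j + δ * (32 * (∑ c, ∑ c', |Θ c c'|) ^ 2 * S ^ 2 * C * (B / h)) ^ j) / θ ^ (2 * j) := by
  obtain ⟨A, hA⟩ := s4_lin_cond j hj
  refine ⟨max A 0, le_max_right _ _, fun k d E hp n G hG hnd S δ C B hS hM hC Θ hΘ s h θ hh hhS hθ hB => ?_⟩
  have hn : 0 < n := Nat.pos_of_mul_pos_right hnd
  have hS0 : 0 < S := lt_of_lt_of_le one_pos hS
  have hδ := hM.delta_nonneg
  refine (hA k d E hp n G hG hnd (S ^ 2) δ hM Θ hΘ ⟨s, h⟩ ⟨s, S⟩ θ hθ).trans ?_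
  obtain ⟨w1, w2, w3⟩ := s4_band_w hn G E (Λ := S ^ 2) (by positivity) (z := ⟨s, h⟩) (z0 := ⟨s, S⟩) hh hS0
  set W2 := ∑ i ∈ s4Band G E (S ^ 2), ‖((s4Pos G E i : ℂ) - (⟨s, h⟩ : ℂ))⁻¹ - ((s4Pos G E i : ℂ) - (⟨s, S⟩ : ℂ))⁻¹‖ ^ 2 with hW2
  set W1 := ∑ i ∈ s4Band G E (S ^ 2), ‖((s4Pos G E i : ℂ) - (⟨s, h⟩ : ℂ))⁻¹ - ((s4Pos G E i : ℂ) - (⟨s, S⟩ : ℂ))⁻¹‖ with hW1
  have m1 := s4c_M_im_nonneg hn G E (z := ⟨s, h⟩) hh
  have m2 := s4c_M_im_nonneg hn G E (z := ⟨s, S⟩) hS0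
  have m3 := s4c_M_im_nonneg hn G E (z := ⟨0, S ^ 2⟩) (by show 0 < S ^ 2; positivity)
  have hBh : 2 * (s4M G E ⟨s, h⟩).im / h + 2 * (s4M G E ⟨s, S⟩).im / S ≤ B / h := by
    have a1 : 2 * (s4M G E ⟨s, S⟩).im / S ≤ 2 * (s4M G E ⟨s, S⟩).im / h := div_le_div_of_nonneg_left (by positivity) hh hhS
    calc _ ≤ 2 * (s4M G E ⟨s, h⟩).im / h + 2 * (s4M G E ⟨s, S⟩).im / h := by linarith
      _ = (2 * (s4M G E ⟨s, h⟩).im + 2 * (s4M G E ⟨s, S⟩).im) / h := by ring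
      _ ≤ _ := div_le_div_of_nonneg_right hB hh.le
  have hBh0 : 0 ≤ 2 * (s4M G E ⟨s, h⟩).im / h + 2 * (s4M G E ⟨s, S⟩).im / S := by positivity
  have hW2' : W2 ≤ B / h := w1.trans hBh
  have hW20 : 0 ≤ W2 := Finset.sum_nonneg fun i _ => by positivity
  have hW1' : W1 ^ 2 ≤ 2 * S ^ 2 * C * (B / h) := by
    refine w3.trans ?_
    calc _ ≤ 2 * S ^ 2 * C * (2 * (s4M G E ⟨s, h⟩).im / h + 2 * (s4M G E ⟨s, S⟩).im / S) :=
          mul_le_mul_of_nonneg_right (mul_le_mul_of_nonneg_left hC (by positivity)) hBh0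
      _ ≤ _ := mul_le_mul_of_nonneg_left hBh (by have := m3.trans hC; positivity)
  have hT2 : 0 ≤ ∑ c, ∑ c', Θ c c' ^ 2 := Finset.sum_nonneg fun c _ => Finset.sum_nonneg fun c' _ => by positivity
  refine div_le_div_of_nonneg_right (add_le_add ?_ ?_) (by positivity)
  · calc A * ((∑ c, ∑ c', Θ c c' ^ 2) * W2) ^ j ≤ max A 0 * ((∑ c, ∑ c', Θ c c' ^ 2) * W2) ^ j :=
          mul_le_mul_of_nonneg_right (le_max_left _ _) (by positivity)
      _ ≤ _ := mul_le_mul_of_nonneg_left (pow_le_pow_left₀ (by positivity) (mul_le_mul_of_nonneg_left hW2' hT2) _) (le_max_right _ _)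
  · refine mul_le_mul_of_nonneg_left ?_ hδ
    rw [pow_mul]
    refine pow_le_pow_left₀ (by positivity) ?_ _
    calc (4 * (∑ c, ∑ c', |Θ c c'|) * W1) ^ 2 = 16 * (∑ c, ∑ c', |Θ c c'|) ^ 2 * W1 ^ 2 := by ring
      _ ≤ 16 * (∑ c, ∑ c', |Θ c c'|) ^ 2 * (2 * S ^ 2 * C * (B / h)) := mul_le_mul_of_nonneg_left hW1' (by positivity)
      _ = _ := by ring

/-! ## numerics -/

theorem s4c_err_small {S C ε : ℝ} (hS : 1 ≤ S) (hC : 0 ≤ C) (hε : 0 < ε) (h : (8 * (1 + C) / ε) ^ 2 ≤ S) : 8 * (Real.sqrt S + C) / S ≤ ε := by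
  have hS0 : 0 < S := lt_of_lt_of_le one_pos hS
  set r := Real.sqrt S with hr
  have hr1 : 1 ≤ r := by rw [hr]; exact Real.one_le_sqrt.2 hS
  have hr2 : r ^ 2 = S := Real.sq_sqrt hS0.le
  have hr3 : 8 * (1 + C) / ε ≤ r := Real.le_sqrt_of_sq_le h
  rw [div_le_iff₀ hε] at hr3
  rw [div_le_iff₀ hS0, ← hr2]
  nlinarith

theorem s4c_sS {s S : ℝ} (hS : 1 ≤ S) (h : 2 * |s| + 4 ≤ S) : |s| + S ≤ S ^ 2 / 2 := by
  have := abs_nonneg s
  nlinarith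

theorem s4c_delta_small {c ε0 : ℝ} (j : ℕ) (hc : 0 < c) (h : 4 * (j : ℝ) * ε0 ≤ c) (C2 K η : ℝ) (hK : 0 ≤ K) (hη : 0 < η) :
    ∃ N : ℕ, ∀ n : ℕ, N ≤ n → C2 * (n : ℝ) ^ (-c) * (K * ((n : ℝ) ^ ε0) ^ 2) ^ j ≤ η := by
  obtain ⟨N, hN⟩ := s4c_S_large (ε0 := c / 2) (by positivity) (|C2| * K ^ j / η)
  refine ⟨max N 1, fun n hn => ?_⟩
  have hn1 : (1 : ℝ) ≤ n := by exact_mod_cast (le_max_right N 1).trans hn
  have hn0 : (0 : ℝ) < n := lt_of_lt_of_le one_pos hn1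
  have h1 := hN n ((le_max_left N 1).trans hn)
  have e1 : (((n : ℝ) ^ ε0) ^ 2) ^ j = (n : ℝ) ^ (ε0 * (2 * j)) := by
    rw [← pow_mul, ← Real.rpow_natCast, ← Real.rpow_mul hn0.le]
    push_cast
    rfl
  have e2 : (n : ℝ) ^ (-c) * (n : ℝ) ^ (ε0 * (2 * j)) ≤ ((n : ℝ) ^ (c / 2))⁻¹ := by
    rw [← Real.rpow_add hn0, ← Real.rpow_neg hn0.le]
    exact Real.rpow_le_rpow_of_exponent_le hn1 (by linarith)
  have hx : 0 < (n : ℝ) ^ (c / 2) := Real.rpow_pos_of_pos hn0 _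
  rw [div_le_iff₀ hη] at h1
  have h2 : |C2| * K ^ j * ((n : ℝ) ^ (c / 2))⁻¹ ≤ η := by
    rw [← div_eq_mul_inv, div_le_iff₀ hx]
    linarith
  have h3 : 0 ≤ (n : ℝ) ^ (-c) * (n : ℝ) ^ (ε0 * (2 * j)) := by positivity
  calc C2 * (n : ℝ) ^ (-c) * (K * ((n : ℝ) ^ ε0) ^ 2) ^ j = C2 * (K ^ j * ((n : ℝ) ^ (-c) * (n : ℝ) ^ (ε0 * (2 * j)))) := by rw [mul_pow, e1]; ring
    _ ≤ |C2| * (K ^ j * ((n : ℝ) ^ (-c) * (n : ℝ) ^ (ε0 * (2 * j)))) := mul_le_mul_of_nonneg_right (le_abs_self _) (by positivity)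
    _ ≤ |C2| * (K ^ j * ((n : ℝ) ^ (c / 2))⁻¹) := by gcongr
    _ = |C2| * K ^ j * ((n : ℝ) ^ (c / 2))⁻¹ := by ring
    _ ≤ η := h2

/-- a large linear statistic of the fluctuation at the height `h`, on a graph which is good at the initial height `S` and has a bounded trace at `h` -/
def S4cBT {n k : ℕ} (d : ℕ) (E : ℝ) (G : SimpleGraph (Fin n)) (s S C Ctr h : ℝ) (Θ : Matrix (Ch k) (Ch k) ℝ) (θ : ℝ) (v w : Fin k → Fin n) : Prop :=
  ((s4M G E ⟨0, S ^ 2⟩).im ≤ C ∧ ‖s4M G E ⟨s, S⟩ - s4Ms d E‖ ≤ 1) ∧ ‖s4M G E ⟨s, h⟩‖ ≤ Ctr ∧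
    θ < ‖∑ c, ∑ c', (Θ c c' : ℂ) * s4FL d G E v w (S ^ 2) ⟨s, h⟩ ⟨s, S⟩ c c'‖

open Classical in
/-- the same with the graph conditions inside the event -/
theorem s4c_tail2 (j : ℕ) (hj : 1 ≤ j) : ∃ A : ℝ, 0 ≤ A ∧ ∀ (k d : ℕ) (E : ℝ), |E / d| < 1 → ∀ (n : ℕ) (G : SimpleGraph (Fin n)), G ∈ regularGraphs n d → 0 < n * d →
    ∀ (S δ C Ctr : ℝ), 1 ≤ S → 0 ≤ C → S4Mom d E k (2 * j) (4 * j) G (S ^ 2) δ →
    ∀ (Θ : Matrix (Ch k) (Ch k) ℝ), Θᵀ = Θ → ∀ (s h θ : ℝ), 0 < h → h ≤ S → 0 < θ →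
      s4Ec d k G (fun v w => if S4cBT d E G s S C Ctr h Θ θ v w then 1 else 0)
        ≤ (A * ((∑ c, ∑ c', Θ c c' ^ 2) * ((2 * |Ctr| + 2 * (‖s4Ms d E‖ + 1)) / h)) ^ j
          + δ * (32 * (∑ c, ∑ c', |Θ c c'|) ^ 2 * S ^ 2 * C * ((2 * |Ctr| + 2 * (‖s4Ms d E‖ + 1)) / h)) ^ j) / θ ^ (2 * j) := by
  obtain ⟨A, hA0, hA⟩ := s4c_tail j hj
  refine ⟨A, hA0, fun k d E hp n G hG hnd S δ C Ctr hS hC hM Θ hΘ s h θ hh hhS hθ => ?_⟩
  have hδ := hM.delta_nonneg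
  have hT2 : 0 ≤ ∑ c, ∑ c', Θ c c' ^ 2 := Finset.sum_nonneg fun c _ => Finset.sum_nonneg fun c' _ => by positivity
  by_cases hg : ((s4M G E ⟨0, S ^ 2⟩).im ≤ C ∧ ‖s4M G E ⟨s, S⟩ - s4Ms d E‖ ≤ 1) ∧ ‖s4M G E ⟨s, h⟩‖ ≤ Ctr
  · obtain ⟨⟨g1, g2⟩, g3⟩ := hg
    have hB : 2 * (s4M G E ⟨s, h⟩).im + 2 * (s4M G E ⟨s, S⟩).im ≤ 2 * |Ctr| + 2 * (‖s4Ms d E‖ + 1) := by
      have a1 := Complex.im_le_norm (s4M G E ⟨s, h⟩)
      have a2 := Complex.im_le_norm (s4M G E ⟨s, S⟩)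
      have a3 := norm_sub_norm_le (s4M G E ⟨s, S⟩) (s4Ms d E)
      have a4 := le_abs_self Ctr
      linarith
    refine le_trans (s4_Ec_mono G fun v w _ => ?_) (hA k d E hp n G hG hnd S δ C _ hS hM g1 Θ hΘ s h θ hh hhS hθ hB)
    by_cases hc : θ < ‖∑ c, ∑ c', (Θ c c' : ℂ) * s4FL d G E v w (S ^ 2) ⟨s, h⟩ ⟨s, S⟩ c c'‖
    · rw [if_pos hc]
      split_ifs <;> norm_num
    · rw [if_neg hc, if_neg fun hx => hc hx.2.2]
  · have e : s4Ec d k G (fun v w => if S4cBT d E G s S C Ctr h Θ θ v w then (1 : ℝ) else 0) ≤ s4Ec d k G (fun _ _ => 0) := by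
      refine s4_Ec_mono G fun v w _ => ?_
      rw [if_neg fun hx => hg ⟨hx.1, hx.2.1⟩]
    refine e.trans ?_
    rw [s4_Ec_const hG hnd]
    have := norm_nonneg (s4Ms d E)
    have := abs_nonneg Ctr
    positivity

theorem s4c_p_lt {d : ℕ} {E : ℝ} (H : S4Hyp d E) : |E / d| < 1 := by
  have hd3 : (3 : ℝ) ≤ d := by exact_mod_cast H.hd
  have hd0 : (0 : ℝ) < d := by linarith
  rw [abs_div, abs_of_pos hd0, div_lt_one hd0]
  refine H.hE.trans_le ?_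
  have h1 : Real.sqrt ((d : ℝ) - 1) ≤ d / 2 := by
    rw [Real.sqrt_le_left (by positivity)]
    nlinarith [sq_nonneg ((d : ℝ) - 2)]
  linarith

/-! ## the entries as linear statistics -/

/-- the symmetrised matrix unit -/
def s4cTh {k : ℕ} (c c' : Ch k) : Matrix (Ch k) (Ch k) ℝ := fun a b => ((if a = c ∧ b = c' then 1 else 0) + (if a = c' ∧ b = c then 1 else 0)) / 2

/-- a large fluctuation of some entry at the height `h`, on a graph which is good at the initial height `S` -/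
def S4cBF {n k : ℕ} (d : ℕ) (E : ℝ) (G : SimpleGraph (Fin n)) (s S C Ctr h : ℝ) (v w : Fin k → Fin n) : Prop :=
  ∃ cc ∈ (Finset.univ : Finset (Ch k × Ch k)), S4cBT d E G s S C Ctr h (s4cTh cc.1 cc.2) (h ^ (-(1 / 3 : ℝ))) v w

theorem s4c_eqns_cite : True := by
  have := @s4cSd.eq_1
  have := @S4cBT.eq_1
  have := @s4cTh.eq_1
  have := @S4cBF.eq_1
  trivial

theorem s4c_Th_symm {k : ℕ} (c c' : Ch k) : (s4cTh c c')ᵀ = s4cTh c c' := by
  ext a b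
  simp only [Matrix.transpose_apply, s4cTh]
  rw [add_comm]
  congr 2 <;> simp only [and_comm]

theorem s4c_sum_unit {k : ℕ} {R : Type} [AddCommMonoid R] (c c' : Ch k) (g : Ch k → Ch k → R) : ∑ a, ∑ b, (if a = c ∧ b = c' then g a b else 0) = g c c' := by
  simp [ite_and, Finset.sum_ite_eq']

theorem s4c_Th_sum {k : ℕ} (c c' : Ch k) (F : Ch k → Ch k → ℂ) : ∑ a, ∑ b, ((s4cTh c c' a b : ℝ) : ℂ) * F a b = (F c c' + F c' c) / 2 := by
  have e : ∀ a b, ((s4cTh c c' a b : ℝ) : ℂ) * F a b = ((if a = c ∧ b = c' then F a b else 0) + (if a = c' ∧ b = c then F a b else 0)) / 2 := by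
    intro a b
    simp only [s4cTh]
    split_ifs <;> push_cast <;> ring
  simp only [e]
  simp only [← Finset.sum_div, Finset.sum_add_distrib, s4c_sum_unit]

theorem s4c_Th_abs {k : ℕ} (c c' : Ch k) : ∑ a, ∑ b, |s4cTh c c' a b| ≤ 1 := by
  have e : ∀ a b, |s4cTh c c' a b| = ((if a = c ∧ b = c' then (1 : ℝ) else 0) + (if a = c' ∧ b = c then (1 : ℝ) else 0)) / 2 := by
    intro a b
    simp only [s4cTh]
    rw [abs_of_nonneg]
    split_ifs <;> norm_num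
  simp only [e]
  simp only [← Finset.sum_div, Finset.sum_add_distrib, s4c_sum_unit]
  norm_num

theorem s4c_Th_sq {k : ℕ} (c c' : Ch k) : ∑ a, ∑ b, s4cTh c c' a b ^ 2 ≤ 1 := by
  refine le_trans (Finset.sum_le_sum fun a _ => Finset.sum_le_sum fun b _ => ?_) (s4c_Th_abs c c')
  simp only [s4cTh]
  split_ifs <;> norm_num

theorem s4c_chC_symm (k : ℕ) (p : ℝ) (c c' : Ch k) : chC k p c c' = chC k p c' c := by
  rw [s4c_chC_apply, s4c_chC_apply]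
  have h1 : (c = c') = (c' = c) := propext eq_comm
  have h2 : (c' = c.swap) = (c = c'.swap) := propext ⟨fun h => by rw [h, Sum.swap_swap], fun h => by rw [h, Sum.swap_swap]⟩
  simp only [h1, h2]

theorem s4c_FL_symm {n k : ℕ} (d : ℕ) (G : SimpleGraph (Fin n)) (E : ℝ) (v w : Fin k → Fin n) (Λ : ℝ) (z z0 : ℂ) (c c' : Ch k) :
    s4FL d G E v w Λ z z0 c c' = s4FL d G E v w Λ z z0 c' c := by
  unfold s4FL
  refine Finset.sum_congr rfl fun i _ => ?_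
  rw [s4c_chC_symm k _ c c', mul_comm (s4Mark G v w i c)]

theorem s4c_Th_FL {n k : ℕ} (d : ℕ) (G : SimpleGraph (Fin n)) (E : ℝ) (v w : Fin k → Fin n) (Λ : ℝ) (z z0 : ℂ) (c c' : Ch k) :
    ∑ a, ∑ b, ((s4cTh c c' a b : ℝ) : ℂ) * s4FL d G E v w Λ z z0 a b = s4FL d G E v w Λ z z0 c c' := by
  rw [s4c_Th_sum, s4c_FL_symm d G E v w Λ z z0 c' c]
  ring

/-! ## the geometric sum over the heights -/

theorem s4c_geo {a y : ℝ} (ha : 0 < a) (hy : 0 < y) (L : ℕ) : ∀ t : ℝ, 0 < t →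
    ∑ l ∈ Finset.range L, (if y < t / 2 ^ l then (t / 2 ^ l) ^ (-a) else 0) ≤ y ^ (-a) / (1 - (2 : ℝ) ^ (-a)) := by
  set q : ℝ := (2 : ℝ) ^ (-a) with hq
  have hq0 : 0 < q := Real.rpow_pos_of_pos two_pos _
  have hq1 : q < 1 := Real.rpow_lt_one_of_one_lt_of_neg one_lt_two (by linarith)
  have h1q : 0 < 1 - q := by linarith
  have hya : 0 < y ^ (-a) := Real.rpow_pos_of_pos hy _
  have key : ∀ L : ℕ, ∀ t : ℝ, 0 < t → ∑ l ∈ Finset.range L, (if y < t / 2 ^ l then (t / 2 ^ l) ^ (-a) else 0)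
      ≤ if y < t then (y ^ (-a) - q * t ^ (-a)) / (1 - q) else 0 := by
    intro L
    induction L with
    | zero =>
      intro t ht
      rw [Finset.sum_range_zero]
      split_ifs with h
      · have : t ^ (-a) ≤ y ^ (-a) := Real.rpow_le_rpow_of_nonpos hy h.le (by linarith)
        have h3 : 0 < t ^ (-a) := Real.rpow_pos_of_pos ht _
        apply div_nonneg _ h1q.le
        nlinarith
      · exact le_rfl
    | succ L ih =>
      intro t ht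
      rw [Finset.sum_range_succ']
      have e : ∀ l : ℕ, t / 2 ^ (l + 1) = t / 2 / 2 ^ l := fun l => by rw [pow_succ]; field_simp
      simp only [e, pow_zero, div_one]
      have h2 := ih (t / 2) (by positivity)
      have hta : 0 < t ^ (-a) := Real.rpow_pos_of_pos ht _
      have e2 : (t / 2) ^ (-a) = t ^ (-a) / q := by rw [Real.div_rpow ht.le two_pos.le]
      by_cases h : y < t
      · rw [if_pos h, if_pos h]
        have h3 : t ^ (-a) ≤ y ^ (-a) := Real.rpow_le_rpow_of_nonpos hy h.le (by linarith)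
        by_cases h' : y < t / 2
        · rw [if_pos h', e2] at h2
          refine (add_le_add_left h2 _).trans (le_of_eq ?_)
          field_simp
          ring
        · rw [if_neg h'] at h2
          refine (add_le_add_left h2 _).trans ?_
          rw [zero_add, le_div_iff₀ h1q]
          nlinarith
      · rw [if_neg h, if_neg h]
        have h' : ¬ y < t / 2 := fun hc => h (by linarith)
        rw [if_neg h'] at h2
        linarith
  intro t ht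
  refine (key L t ht).trans ?_
  split_ifs with h
  · have hta : 0 < t ^ (-a) := Real.rpow_pos_of_pos ht _
    exact div_le_div_of_nonneg_right (by nlinarith) h1q.le
  · positivity

/-! ## concentration at all heights -/

/-- one height: a failure of the concentration on the initial event is a large fluctuation -/
theorem s4c_conc1_of {n k : ℕ} (hn : 0 < n) (d : ℕ) (G : SimpleGraph (Fin n)) (E : ℝ) (hp : |E / d| ≤ 1) (v w : Fin k → Fin n) {s S h τ τ' C Ctr : ℝ} (hS : 1 ≤ S) (hh : 0 < h) (hhS : h ≤ S)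
    (hsS : |s| + S ≤ S ^ 2 / 2) (hC : 0 ≤ C) (hI : S4Init d E G v w s S τ' C) (hτ' : τ' ≤ 1) (hτ : 2 * τ' + 8 * (Real.sqrt S + C) / S ≤ τ)
    (hbad : ¬ S4Conc1 d E (s4X G E v w ⟨s, h⟩) Ctr (τ + h ^ (-(1 / 3 : ℝ)))) : S4cBF d E G s S C Ctr h v w := by
  unfold S4Conc1 at hbad
  push Not at hbad
  obtain ⟨h1, c, c', h2⟩ := hbad
  refine ⟨(c, c'), Finset.mem_univ _, ⟨hI.2.1, hI.1.1.trans hτ'⟩, h1, ?_⟩
  rw [s4c_Th_FL]
  have h3 := s4c_dev_FL hn d G E hp v w hS hh hhS hsS hC hI c c'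
  have h4 : ‖s4Dev d E (s4X G E v w ⟨s, h⟩) c c'‖ ≤ ‖s4Dev d E (s4X G E v w ⟨s, h⟩) c c' - s4FL d G E v w (S ^ 2) ⟨s, h⟩ ⟨s, S⟩ c c'‖ + ‖s4FL d G E v w (S ^ 2) ⟨s, h⟩ ⟨s, S⟩ c c'‖ := by
    have := norm_add_le (s4Dev d E (s4X G E v w ⟨s, h⟩) c c' - s4FL d G E v w (S ^ 2) ⟨s, h⟩ ⟨s, S⟩ c c') (s4FL d G E v w (S ^ 2) ⟨s, h⟩ ⟨s, S⟩ c c')
    rwa [sub_add_cancel] at this
  have h5 : τ + h ^ (-(1 / 3 : ℝ)) < ‖s4Dev d E (s4X G E v w ⟨s, h⟩) c c'‖ := h2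
  linarith

open Classical in
/-- union of two events, conditionally (all the events are variables: the decidability instances are the classical ones) -/
theorem s4c_Ec_or {n d k : ℕ} (G : SimpleGraph (Fin n)) (U T T' : (Fin k → Fin n) → (Fin k → Fin n) → Prop) (hU : ∀ v w, U v w → T v w ∨ T' v w) :
    s4Ec d k G (fun v w => if U v w then 1 else 0) ≤ s4Ec d k G (fun v w => if T v w then 1 else 0) + s4Ec d k G (fun v w => if T' v w then 1 else 0) := by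
  have h := s4_Ec_lin (d := d) G (fun v w => if T v w then (1 : ℝ) else 0) (fun v w => if T' v w then (1 : ℝ) else 0) 1 1
  simp only [one_mul] at h
  rw [← h]
  refine s4_Ec_mono G fun v w _ => ?_
  by_cases h0 : U v w
  · rcases hU v w h0 with h1 | h1
    · by_cases h2 : T' v w <;> simp [h0, h1, h2]
    · by_cases h2 : T v w <;> simp [h0, h1, h2]
  · by_cases h1 : T v w <;> by_cases h2 : T' v w <;> simp [h0, h1, h2]

open Classical in
/-- finite unions, conditionally (the same remark) -/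
theorem s4c_Ec_union {n d k : ℕ} {ι : Type} (G : SimpleGraph (Fin n)) (s : Finset ι) (U : (Fin k → Fin n) → (Fin k → Fin n) → Prop) (T : ι → (Fin k → Fin n) → (Fin k → Fin n) → Prop)
    (hU : ∀ v w, U v w → ∃ i ∈ s, T i v w) :
    s4Ec d k G (fun v w => if U v w then 1 else 0) ≤ ∑ i ∈ s, s4Ec d k G (fun v w => if T i v w then 1 else 0) := by
  refine le_trans (s4_Ec_mono G fun v w _ => ?_) (s4c_Ec_finset G s T)
  by_cases h0 : U v w
  · rw [if_pos h0, if_pos (hU v w h0)]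
  · rw [if_neg h0]
    split_ifs <;> norm_num

open Classical in
/-- union over the heights, conditionally -/
theorem s4c_Ec_heights {n d k : ℕ} {G : SimpleGraph (Fin n)} (hG : G ∈ regularGraphs n d) (hn : 0 < n * d) (L : ℕ) (U T0 : (Fin k → Fin n) → (Fin k → Fin n) → Prop)
    (T : ℕ → (Fin k → Fin n) → (Fin k → Fin n) → Prop) (P : ℕ → Prop) (b0 : ℝ) (b : ℕ → ℝ)
    (hU : ∀ v w, U v w → T0 v w ∨ ∃ l ∈ Finset.range L, P l ∧ T l v w) (h0 : s4Ec d k G (fun v w => if T0 v w then 1 else 0) ≤ b0)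
    (hl : ∀ l, P l → s4Ec d k G (fun v w => if T l v w then 1 else 0) ≤ b l) :
    s4Ec d k G (fun v w => if U v w then 1 else 0) ≤ b0 + ∑ l ∈ Finset.range L, if P l then b l else 0 := by
  refine (s4c_Ec_or G U T0 (fun v w => ∃ l ∈ Finset.range L, P l ∧ T l v w) hU).trans (add_le_add h0 ?_)
  refine (s4c_Ec_union G (Finset.range L) _ (fun l v w => P l ∧ T l v w) fun v w hx => hx).trans (Finset.sum_le_sum fun l _ => ?_)
  by_cases hP : P l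
  · rw [if_pos hP]
    refine le_trans (s4_Ec_mono G fun v w _ => ?_) (hl l hP)
    by_cases hb : T l v w
    · rw [if_pos hb, if_pos ⟨hP, hb⟩]
    · rw [if_neg hb, if_neg fun hx => hb hx.2]
  · rw [if_neg hP]
    refine le_trans (s4_Ec_mono G fun v w _ => ?_) (le_of_eq (s4_Ec_const hG hn 0))
    rw [if_neg fun hx => hP hx.1]

theorem s4c_u_pow {h : ℝ} (hh : 0 < h) (j : ℕ) : (h ^ (-(1 / 3 : ℝ))) ^ j = h ^ (-((j : ℝ) / 3)) := by
  rw [← Real.rpow_natCast, ← Real.rpow_mul hh.le]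
  congr 1
  ring

theorem s4c_u_cube {h : ℝ} (hh : 0 < h) : (h ^ (-(1 / 3 : ℝ))) ^ 3 = 1 / h := by
  rw [s4c_u_pow hh 3]
  have : -(((3 : ℕ) : ℝ) / 3) = -1 := by norm_num
  rw [this, Real.rpow_neg_one, one_div]

open Classical in
/-- all the entries at one height, one graph -/
theorem s4c_bad_h (j : ℕ) (hj : 1 ≤ j) : ∃ A : ℝ, 0 ≤ A ∧ ∀ (k d : ℕ) (E : ℝ), |E / d| < 1 → ∀ (n : ℕ) (G : SimpleGraph (Fin n)), G ∈ regularGraphs n d → 0 < n * d →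
    ∀ (S δ C Ctr : ℝ), 1 ≤ S → 0 ≤ C → S4Mom d E k (2 * j) (4 * j) G (S ^ 2) δ → ∀ (s h : ℝ), 0 < h → h ≤ S →
      s4Ec d k G (fun v w => if S4cBF d E G s S C Ctr h v w then 1 else 0)
        ≤ 4 * (k : ℝ) ^ 2 * (A * (2 * |Ctr| + 2 * (‖s4Ms d E‖ + 1)) ^ j + δ * (32 * C * (2 * |Ctr| + 2 * (‖s4Ms d E‖ + 1)) * S ^ 2) ^ j) * h ^ (-((j : ℝ) / 3)) := by
  obtain ⟨A, hA0, hA⟩ := s4c_tail2 j hj
  refine ⟨A, hA0, fun k d E hp n G hG hnd S δ C Ctr hS hC hM s h hh hhS => ?_⟩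
  have hδ := hM.delta_nonneg
  set B : ℝ := 2 * |Ctr| + 2 * (‖s4Ms d E‖ + 1) with hB
  have hB0 : 0 ≤ B := by have := norm_nonneg (s4Ms d E); have := abs_nonneg Ctr; positivity
  set u : ℝ := h ^ (-(1 / 3 : ℝ)) with hu
  have hu0 : 0 < u := Real.rpow_pos_of_pos hh _
  have hu3 : B / h = B * u ^ 3 := by rw [hu, s4c_u_cube hh]; ring
  refine (s4c_Ec_union (d := d) G (Finset.univ : Finset (Ch k × Ch k)) _ (fun cc v w => S4cBT d E G s S C Ctr h (s4cTh cc.1 cc.2) u v w) fun v w hx => hx).trans ?_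
  have hcard : ((Finset.univ : Finset (Ch k × Ch k)).card : ℝ) = 4 * (k : ℝ) ^ 2 := by
    have h5 : (Finset.univ : Finset (Ch k × Ch k)).card = (k + k) * (k + k) := by simp [Ch]
    rw [h5]
    push_cast
    ring
  calc _ ≤ ∑ _cc : Ch k × Ch k, (A * B ^ j + δ * (32 * C * B * S ^ 2) ^ j) * h ^ (-((j : ℝ) / 3)) := Finset.sum_le_sum fun cc _ => ?_
    _ = _ := by rw [Finset.sum_const, nsmul_eq_mul, hcard]; ring
  refine (hA k d E hp n G hG hnd S δ C Ctr hS hC hM (s4cTh cc.1 cc.2) (s4c_Th_symm _ _) s h u hh hhS hu0).trans ?_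
  rw [← hB, hu3, div_le_iff₀ (by positivity), ← s4c_u_pow hh j, ← hu]
  have t1 := s4c_Th_sq cc.1 cc.2
  have t2 := s4c_Th_abs cc.1 cc.2
  have t10 : 0 ≤ ∑ a, ∑ b, s4cTh cc.1 cc.2 a b ^ 2 := Finset.sum_nonneg fun c _ => Finset.sum_nonneg fun c' _ => by positivity
  have t20 : 0 ≤ ∑ a, ∑ b, |s4cTh cc.1 cc.2 a b| := Finset.sum_nonneg fun c _ => Finset.sum_nonneg fun c' _ => abs_nonneg _
  have t2' : (∑ a, ∑ b, |s4cTh cc.1 cc.2 a b|) ^ 2 ≤ 1 := pow_le_one₀ t20 t2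
  have e1 : ((∑ a, ∑ b, s4cTh cc.1 cc.2 a b ^ 2) * (B * u ^ 3)) ^ j ≤ (B * u ^ 3) ^ j :=
    pow_le_pow_left₀ (by positivity) (by nlinarith [mul_nonneg hB0 (pow_pos hu0 3).le]) _
  have e2 : (32 * (∑ a, ∑ b, |s4cTh cc.1 cc.2 a b|) ^ 2 * S ^ 2 * C * (B * u ^ 3)) ^ j ≤ (32 * S ^ 2 * C * (B * u ^ 3)) ^ j := by
    refine pow_le_pow_left₀ (by positivity) ?_ _
    have : 0 ≤ 32 * S ^ 2 * C * (B * u ^ 3) := by positivity
    calc _ = (∑ a, ∑ b, |s4cTh cc.1 cc.2 a b|) ^ 2 * (32 * S ^ 2 * C * (B * u ^ 3)) := by ring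
      _ ≤ 1 * (32 * S ^ 2 * C * (B * u ^ 3)) := mul_le_mul_of_nonneg_right t2' this
      _ = _ := one_mul _
  calc _ ≤ A * (B * u ^ 3) ^ j + δ * (32 * S ^ 2 * C * (B * u ^ 3)) ^ j :=
        add_le_add (mul_le_mul_of_nonneg_left e1 hA0) (mul_le_mul_of_nonneg_left e2 hδ)
    _ = _ := by
      have : (32 * S ^ 2 * C * (B * u ^ 3)) = (32 * C * B * S ^ 2) * u ^ 3 := by ring
      rw [this, mul_pow, mul_pow, ← pow_mul, pow_mul u 2 j, ← pow_mul]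
      have e3 : u ^ (3 * j) = u ^ j * u ^ (2 * j) := by rw [← pow_add]; congr 1; ring
      rw [e3]
      ring

open Classical in
/-- **NODE** P1 (4.4): concentration at all heights.      `s4_init` + `s4_decomp` (tail `≤ (8/S)(√S + C)`) + for each of the `≤ log₂ n + 2` distinct heights: `s4_mom2j` with `Q_i = Re / Im of w_i(z) · sym(e_c e_c'ᵀ)`, `∑_band |w_i|² ≤ 2 Ctr/Im z + 2 C/S` (`ds_ward`), `∑_band |w_i| ≤ (#band ∑|w_i|²)^{1/2}`, `#band ≤ 2 S² C` (`ds_near`), `δ = C n^{-c}`, `ε0 ≤ c/(16 j)`;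
Markov at `(Im z)^{-1/3}`: `A' (Im z)^{-j/3} + n^{-c/2}`; geometric sum over the heights. -/
theorem s4_conc {d : ℕ} {E : ℝ} (H : S4Hyp d E) (k j : ℕ) (hj : 1 ≤ j) (Ctr : ℝ) : ∃ ε1 C : ℝ, 0 < ε1 ∧ ∀ ε0 : ℝ, 0 < ε0 → ε0 ≤ ε1 →
    ∀ s y τ η : ℝ, 1 ≤ y → 0 < τ → 0 < η → ∃ N : ℕ, ∀ n : ℕ, N ≤ n → (regularGraphs n d).Nonempty →
      s4Pr n d k (fun G v w => ¬ S4Conc d E G v w s ((n : ℝ) ^ ε0) y Ctr τ) ≤ C * y ^ (-((j : ℝ) / 3)) + η := by
  obtain ⟨A0, hA0, hT⟩ := s4c_bad_h j hj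
  obtain ⟨ε1, C, hε1, hInit⟩ := s4_init H
  obtain ⟨ε2, c, C2, hε2, hc, hI2⟩ := H.i2 k (2 * j) (4 * j)
  have hp := s4c_p_lt H
  have hj0 : (0 : ℝ) < j := by exact_mod_cast hj
  set B : ℝ := 2 * |Ctr| + 2 * (‖s4Ms d E‖ + 1) with hB
  have hB0 : 0 ≤ B := by have := norm_nonneg (s4Ms d E); have := abs_nonneg Ctr; positivity
  set a : ℝ := (j : ℝ) / 3 with ha
  have ha0 : 0 < a := by positivity
  set q : ℝ := (2 : ℝ) ^ (-a) with hq
  have hq1 : q < 1 := Real.rpow_lt_one_of_one_lt_of_neg one_lt_two (by linarith)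
  have h1q : 0 < 1 - q := by linarith
  set Q : ℝ := 4 * (k : ℝ) ^ 2 * (A0 * B ^ j + 1) with hQ
  have hQ0 : 0 ≤ Q := by positivity
  set Cp : ℝ := max C 0 with hCp
  have hCp0 : 0 ≤ Cp := le_max_right _ _
  refine ⟨min ε1 (min ε2 (c / (4 * j))), Q * (1 + 1 / (1 - q)), lt_min hε1 (lt_min hε2 (by positivity)), fun ε0 hε00 hε0le s y τ η hy hτ hη => ?_⟩
  have hε01 : ε0 ≤ ε1 := hε0le.trans (min_le_left _ _)
  have hε02 : ε0 ≤ ε2 := hε0le.trans ((min_le_right _ _).trans (min_le_left _ _))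
  have hε03 : 4 * (j : ℝ) * ε0 ≤ c := by
    have : ε0 ≤ c / (4 * j) := hε0le.trans ((min_le_right _ _).trans (min_le_right _ _))
    rw [le_div_iff₀ (by positivity)] at this
    linarith
  have hy0 : 0 < y := lt_of_lt_of_le one_pos hy
  set τ' : ℝ := min 1 (τ / 4) with hτ'
  have hτ'0 : 0 < τ' := lt_min one_pos (by positivity)
  obtain ⟨N1, hN1⟩ := hInit k ε0 hε00 hε01 s τ' (η / 2) hτ'0 (by positivity)
  obtain ⟨N2, hN2⟩ := hI2 ε0 hε00 hε02 (η / 2) (by positivity)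
  obtain ⟨N3, hN3⟩ := s4c_S_large hε00 (max y (max (2 * |s| + 4) ((8 * (1 + Cp) / (τ / 2)) ^ 2)))
  obtain ⟨N4, hN4⟩ := s4c_delta_small j hc hε03 C2 (32 * Cp * B) 1 (by positivity) one_pos
  refine ⟨max (max N1 N2) (max (max N3 N4) 1), fun n hn hne => ?_⟩
  have hn1 : N1 ≤ n := (le_max_left _ _).trans ((le_max_left _ _).trans hn)
  have hn2 : N2 ≤ n := (le_max_right _ _).trans ((le_max_left _ _).trans hn)
  have hn3 : N3 ≤ n := (le_max_left _ _).trans ((le_max_left _ _).trans ((le_max_right _ _).trans hn))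
  have hn4 : N4 ≤ n := (le_max_right _ _).trans ((le_max_left _ _).trans ((le_max_right _ _).trans hn))
  have hn0 : 0 < n := lt_of_lt_of_le one_pos ((le_max_right _ _).trans ((le_max_right _ _).trans hn))
  have hnd : 0 < n * d := Nat.mul_pos hn0 (lt_of_lt_of_le (by norm_num) H.hd)
  have i1 := hN1 n hn1 hne
  have i2 := hN2 n hn2 hne
  have i3 := hN3 n hn3
  have i4 := hN4 n hn4
  rw [← s4c_S_sq] at i2
  set S : ℝ := (n : ℝ) ^ ε0 with hS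
  set δ : ℝ := C2 * (n : ℝ) ^ (-c) with hδ
  have hSy : y ≤ S := (le_max_left _ _).trans i3
  have hS1 : 1 ≤ S := hy.trans hSy
  have hS0 : 0 < S := lt_of_lt_of_le one_pos hS1
  have hsS : |s| + S ≤ S ^ 2 / 2 := s4c_sS hS1 ((le_max_left _ _).trans ((le_max_right _ _).trans i3))
  have herr : 8 * (Real.sqrt S + Cp) / S ≤ τ / 2 :=
    s4c_err_small hS1 hCp0 (by positivity) ((le_max_right _ _).trans ((le_max_right _ _).trans i3))
  have hτsum : 2 * τ' + 8 * (Real.sqrt S + Cp) / S ≤ τ := by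
    have : τ' ≤ τ / 4 := min_le_right _ _
    linarith
  set L : ℕ := ⌈S⌉₊ with hL
  have hSL : S ≤ 2 ^ L := by
    have h1 : S ≤ (L : ℝ) := Nat.le_ceil S
    have h2 : (L : ℝ) ≤ 2 ^ L := by exact_mod_cast (Nat.lt_two_pow_self (n := L)).le
    exact h1.trans h2
  -- the event
  have hU : s4Pr n d k (fun G v w => ¬ S4Conc d E G v w s S y Ctr τ)
      ≤ s4Pr n d k (fun G v w => ¬ S4Init d E G v w s S τ' C ∨
          (S4cBF d E G s S Cp Ctr y v w ∨ ∃ l ∈ Finset.range L, y < S / 2 ^ l ∧ S4cBF d E G s S Cp Ctr (S / 2 ^ l) v w)) := by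
    refine s4_Pr_mono fun G v w h => ?_
    by_cases hI : S4Init d E G v w s S τ' C
    · right
      have hI' := hI.mono (le_max_left C 0)
      unfold S4Conc at h
      push Not at h
      obtain ⟨l, hl⟩ := h
      by_cases hly : y < S / 2 ^ l
      · right
        have e : s4Ht S y l = S / 2 ^ l := max_eq_right hly.le
        rw [e] at hl
        have hlL : l < L := by
          by_contra hc
          have hc' : L ≤ l := not_lt.1 hc
          have h1 : (2 : ℝ) ^ L ≤ 2 ^ l := pow_le_pow_right₀ one_le_two hc'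
          have h2 : S / 2 ^ l ≤ 1 := by
            rw [div_le_one (by positivity)]
            exact hSL.trans h1
          linarith
        have hle : S / 2 ^ l ≤ S := div_le_self hS0.le (one_le_pow₀ one_le_two)
        exact ⟨l, Finset.mem_range.2 hlL, hly, s4c_conc1_of hn0 d G E hp.le v w hS1 (by positivity) hle hsS hCp0 hI' (min_le_left _ _) hτsum hl⟩
      · left
        have e : s4Ht S y l = y := max_eq_left (not_lt.1 hly)
        rw [e] at hl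
        exact s4c_conc1_of hn0 d G E hp.le v w hS1 hy0 hSy hsS hCp0 hI' (min_le_left _ _) hτsum hl
    · exact Or.inl hI
  refine hU.trans ((s4_Pr_or _ _).trans ?_)
  have hya : 0 < y ^ (-a) := Real.rpow_pos_of_pos hy0 _
  have hsplit := s4c_Pr_split (k := k) hne hnd (fun G v w => S4cBF d E G s S Cp Ctr y v w ∨ ∃ l ∈ Finset.range L, y < S / 2 ^ l ∧ S4cBF d E G s S Cp Ctr (S / 2 ^ l) v w)
      (fun G => ¬ S4Mom d E k (2 * j) (4 * j) G (S ^ 2) δ) (b := Q * (1 + 1 / (1 - q)) * y ^ (-a)) (by positivity) ?_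
  · linarith
  · intro G hG hg
    have hM : S4Mom d E k (2 * j) (4 * j) G (S ^ 2) δ := not_not.1 hg
    have hone : ∀ h : ℝ, 0 < h → h ≤ S → s4Ec d k G (fun v w => if S4cBF d E G s S Cp Ctr h v w then 1 else 0) ≤ Q * h ^ (-a) := by
      intro h hh hhS
      refine (hT k d E hp n G hG hnd S δ Cp Ctr hS1 hCp0 hM s h hh hhS).trans ?_
      refine mul_le_mul_of_nonneg_right ?_ (Real.rpow_pos_of_pos hh _).le
      refine mul_le_mul_of_nonneg_left ?_ (by positivity)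
      linarith
    refine (s4c_Ec_heights hG hnd L _ (fun v w => S4cBF d E G s S Cp Ctr y v w) (fun l v w => S4cBF d E G s S Cp Ctr (S / 2 ^ l) v w) (fun l => y < S / 2 ^ l)
      (Q * y ^ (-a)) (fun l => Q * (S / 2 ^ l) ^ (-a)) (fun v w hx => hx) (hone y hy0 hSy)
      (fun l _ => hone (S / 2 ^ l) (by positivity) (div_le_self hS0.le (one_le_pow₀ one_le_two)))).trans ?_
    refine le_trans (add_le_add le_rfl (Finset.sum_le_sum fun l _ => (?_ : _ ≤ Q * (if y < S / 2 ^ l then (S / 2 ^ l) ^ (-a) else 0)))) ?_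
    · by_cases hly : y < S / 2 ^ l
      · rw [if_pos hly, if_pos hly]
      · rw [if_neg hly, if_neg hly, mul_zero]
    · rw [← Finset.mul_sum]
      calc _ ≤ Q * y ^ (-a) + Q * (y ^ (-a) / (1 - q)) := add_le_add le_rfl (mul_le_mul_of_nonneg_left (s4c_geo ha0 hy0 L S hS0) hQ0)
        _ = _ := by ring

open Classical in
/-- **NODE** linear concentration at ONE fixed spectral parameter `z = s + i y`: `s4_init` (`τ`), `s4_decomp`, `s4_lin_cond`, `s4_band_w`, `S4I2` with `(k, 2j, 4j)`, `ε0 ≤ min(ε1, c/(16 j))`.      `A` depends on `j, Ctr, d, E` only (NOT on `k`, `Θ`). -/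
theorem s4_lin_conc {d : ℕ} {E : ℝ} (H : S4Hyp d E) (j : ℕ) (hj : 1 ≤ j) (Ctr : ℝ) : ∃ A : ℝ, ∀ (k : ℕ) (Θ : Matrix (Ch k) (Ch k) ℝ), Θᵀ = Θ →
    ∀ s y θ η : ℝ, 1 ≤ y → 0 < θ → 0 < η → ∃ N : ℕ, ∀ n : ℕ, N ≤ n → (regularGraphs n d).Nonempty →
      s4Pr n d k (fun G v w => ‖s4M G E ⟨s, y⟩‖ ≤ Ctr ∧ 2 * θ < ‖∑ c, ∑ c', (Θ c c' : ℂ) * s4Dev d E (s4X G E v w ⟨s, y⟩) c c'‖)
        ≤ A * ((∑ c, ∑ c', Θ c c' ^ 2) / (y * θ ^ 2)) ^ j + η := by
  obtain ⟨A0, hA0, hT⟩ := s4c_tail2 j hj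
  obtain ⟨ε1, C, hε1, hInit⟩ := s4_init H
  have hp := s4c_p_lt H
  set B : ℝ := 2 * |Ctr| + 2 * (‖s4Ms d E‖ + 1) with hB
  have hB0 : 0 ≤ B := by have := norm_nonneg (s4Ms d E); have := abs_nonneg Ctr; positivity
  refine ⟨A0 * B ^ j, fun k Θ hΘ s y θ η hy hθ hη => ?_⟩
  obtain ⟨ε2, c, C2, hε2, hc, hI2⟩ := H.i2 k (2 * j) (4 * j)
  have hj0 : (0 : ℝ) < j := by exact_mod_cast hj
  have hy0 : 0 < y := lt_of_lt_of_le one_pos hy
  set ε0 : ℝ := min ε1 (min ε2 (c / (4 * j))) with hε0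
  have hε00 : 0 < ε0 := lt_min hε1 (lt_min hε2 (by positivity))
  have hε01 : ε0 ≤ ε1 := min_le_left _ _
  have hε02 : ε0 ≤ ε2 := (min_le_right _ _).trans (min_le_left _ _)
  have hε03 : 4 * (j : ℝ) * ε0 ≤ c := by
    have : ε0 ≤ c / (4 * j) := (min_le_right _ _).trans (min_le_right _ _)
    rw [le_div_iff₀ (by positivity)] at this
    linarith
  set T1 : ℝ := ∑ c, ∑ c', |Θ c c'| with hT1
  have hT10 : 0 ≤ T1 := Finset.sum_nonneg fun c _ => Finset.sum_nonneg fun c' _ => abs_nonneg _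
  set Cp : ℝ := max C 0 with hCp
  have hCp0 : 0 ≤ Cp := le_max_right _ _
  set τ : ℝ := min 1 (θ / (4 * (T1 + 1))) with hτ
  have hτ0 : 0 < τ := lt_min one_pos (by positivity)
  obtain ⟨N1, hN1⟩ := hInit k ε0 hε00 hε01 s τ (η / 3) hτ0 (by positivity)
  obtain ⟨N2, hN2⟩ := hI2 ε0 hε00 hε02 (η / 3) (by positivity)
  obtain ⟨N3, hN3⟩ := s4c_S_large hε00 (max y (max (2 * |s| + 4) ((8 * (1 + Cp) / (θ / (2 * (T1 + 1)))) ^ 2)))
  obtain ⟨N4, hN4⟩ := s4c_delta_small j hc hε03 C2 (32 * T1 ^ 2 * Cp * (B / y)) (η / 3 * θ ^ (2 * j)) (by positivity) (by positivity)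
  refine ⟨max (max N1 N2) (max (max N3 N4) 1), fun n hn hne => ?_⟩
  have hn1 : N1 ≤ n := (le_max_left _ _).trans ((le_max_left _ _).trans hn)
  have hn2 : N2 ≤ n := (le_max_right _ _).trans ((le_max_left _ _).trans hn)
  have hn3 : N3 ≤ n := (le_max_left _ _).trans ((le_max_left _ _).trans ((le_max_right _ _).trans hn))
  have hn4 : N4 ≤ n := (le_max_right _ _).trans ((le_max_left _ _).trans ((le_max_right _ _).trans hn))
  have hn0 : 0 < n := lt_of_lt_of_le one_pos ((le_max_right _ _).trans ((le_max_right _ _).trans hn))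
  have hnd : 0 < n * d := Nat.mul_pos hn0 (lt_of_lt_of_le (by norm_num) H.hd)
  have i1 := hN1 n hn1 hne
  have i2 := hN2 n hn2 hne
  have i3 := hN3 n hn3
  have i4 := hN4 n hn4
  rw [← s4c_S_sq] at i2
  set S : ℝ := (n : ℝ) ^ ε0 with hS
  set δ : ℝ := C2 * (n : ℝ) ^ (-c) with hδ
  have hSy : y ≤ S := (le_max_left _ _).trans i3
  have hS1 : 1 ≤ S := hy.trans hSy
  have hS0 : 0 < S := lt_of_lt_of_le one_pos hS1
  have hsS : |s| + S ≤ S ^ 2 / 2 := s4c_sS hS1 ((le_max_left _ _).trans ((le_max_right _ _).trans i3))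
  have herr : 8 * (Real.sqrt S + Cp) / S ≤ θ / (2 * (T1 + 1)) :=
    s4c_err_small hS1 hCp0 (by positivity) ((le_max_right _ _).trans ((le_max_right _ _).trans i3))
  -- the event
  have hU : s4Pr n d k (fun G v w => ‖s4M G E ⟨s, y⟩‖ ≤ Ctr ∧ 2 * θ < ‖∑ c, ∑ c', (Θ c c' : ℂ) * s4Dev d E (s4X G E v w ⟨s, y⟩) c c'‖)
      ≤ s4Pr n d k (fun G v w => ¬ S4Init d E G v w s S τ C ∨ S4cBT d E G s S Cp Ctr y Θ θ v w) := by
    refine s4_Pr_mono fun G v w h => ?_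
    by_cases hI : S4Init d E G v w s S τ C
    · right
      have hI' := hI.mono (le_max_left C 0)
      refine ⟨⟨hI'.2.1, hI.1.1.trans (min_le_left _ _)⟩, h.1, ?_⟩
      have h1 := s4c_lin_dev hn0 d G E hp.le v w hS1 hy0 hSy hsS hCp0 hI' Θ
      have h2 : T1 * (2 * τ + 8 * (Real.sqrt S + Cp) / S) ≤ θ := by
        have a1 : τ ≤ θ / (4 * (T1 + 1)) := min_le_right _ _
        have a2 : 2 * τ + 8 * (Real.sqrt S + Cp) / S ≤ θ / (T1 + 1) := by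
          have : θ / (T1 + 1) = 2 * (θ / (4 * (T1 + 1))) + θ / (2 * (T1 + 1)) := by field_simp; norm_num
          linarith
        calc _ ≤ T1 * (θ / (T1 + 1)) := mul_le_mul_of_nonneg_left a2 hT10
          _ = θ * (T1 / (T1 + 1)) := by ring
          _ ≤ θ * 1 := mul_le_mul_of_nonneg_left (by rw [div_le_one (by positivity)]; linarith) hθ.le
          _ = θ := mul_one _
      linarith [h.2]
    · exact Or.inl hI
  refine hU.trans ((s4_Pr_or _ _).trans ?_)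
  have hsplit := s4c_Pr_split hne hnd (fun G v w => S4cBT d E G s S Cp Ctr y Θ θ v w)
      (fun G => ¬ S4Mom d E k (2 * j) (4 * j) G (S ^ 2) δ) (b := A0 * B ^ j * ((∑ c, ∑ c', Θ c c' ^ 2) / (y * θ ^ 2)) ^ j + η / 3) ?_ ?_
  · linarith
  · have hT2 : 0 ≤ ∑ c, ∑ c', Θ c c' ^ 2 := Finset.sum_nonneg fun c _ => Finset.sum_nonneg fun c' _ => by positivity
    positivity
  · intro G hG hg
    have hM : S4Mom d E k (2 * j) (4 * j) G (S ^ 2) δ := not_not.1 hg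
    refine (hT k d E hp n G hG hnd S δ Cp Ctr hS1 hCp0 hM Θ hΘ s y θ hy0 hSy hθ).trans ?_
    rw [add_div]
    refine add_le_add (le_of_eq ?_) ?_
    · rw [pow_mul, mul_div_assoc, ← div_pow, mul_assoc, ← mul_pow]
      congr 2
      field_simp
      rw [hB]
      ring
    · rw [div_le_iff₀ (by positivity)]
      refine le_trans (le_of_eq ?_) i4
      congr 2
      ring

/-! ## F'. Prop 4.1: glue of probabilities (moved below `s4_conc`) -/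

theorem s4_Pr_ind {n d k : ℕ} (hne : (regularGraphs n d).Nonempty) (hn : 0 < n * d) :
    s4Pr n d k (fun G v w => ¬ Sw7Ind G v w) ≤ 4 * (k : ℝ) ^ 2 * ((d : ℝ) + 1) / n := by
  classical
  have h : s4Pr n d k (fun G v w => ¬ Sw7Ind G v w) ≤ s4Eg n d (fun _ => 4 * (k : ℝ) ^ 2 * ((d : ℝ) + 1) / n) :=
    s4_Eg_mono fun G hG => by
      refine le_trans (le_of_eq ?_) (s4_Ec_ind (k := k) hG hn)
      refine s4_Ec_congr G fun v w _ => ?_
      by_cases h1 : Sw7Ind G v w <;> simp [h1]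
  rwa [s4_Eg_const hne] at h

theorem s4_Pr_exch {n d k : ℕ} (σ : Equiv.Perm (Fin k)) (Bad : SimpleGraph (Fin n) → (Fin k → Fin n) → (Fin k → Fin n) → Prop) :
    s4Pr n d k (fun G v w => Sw7Ind G v w ∧ Bad (sw7G G v w σ) v (w ∘ σ)) ≤ s4Pr n d k Bad := by
  classical
  have e := s4_E_exch (n := n) (d := d) σ (fun G v w => if Bad G v w then (1 : ℝ) else 0)
  have e1 : s4Pr n d k (fun G v w => Sw7Ind G v w ∧ Bad (sw7G G v w σ) v (w ∘ σ))
      = s4E n d k (fun G v w => if Sw7Ind G v w then (if Bad (sw7G G v w σ) v (w ∘ σ) then (1 : ℝ) else 0) else 0) := by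
    unfold s4Pr
    refine s4_E_congr fun G _ v w _ => ?_
    by_cases h1 : Sw7Ind G v w <;> simp [h1]
  rw [e1, e]
  unfold s4Pr
  refine s4_E_mono fun G _ v w _ => ?_
  by_cases h1 : Sw7Ind G v w
  · rw [if_pos h1]
  · rw [if_neg h1]; split_ifs <;> norm_num

theorem s4_large_n (c y η ε0 : ℝ) (hη : 0 < η) (hε0 : 0 < ε0) : ∃ N : ℕ, ∀ n : ℕ, N ≤ n → c / n ≤ η ∧ y ≤ (n : ℝ) ^ ε0 ∧ 0 < n := by
  have e1 : ∀ᶠ n : ℕ in atTop, c / n ≤ η := (tendsto_const_div_atTop_nhds_zero_nat c).eventually_le_const hη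
  have e2 : ∀ᶠ n : ℕ in atTop, y ≤ (n : ℝ) ^ ε0 := ((tendsto_rpow_atTop hε0).comp tendsto_natCast_atTop_atTop).eventually_ge_atTop y
  have e3 : ∀ᶠ n : ℕ in atTop, 0 < n := eventually_gt_atTop 0
  exact eventually_atTop.1 (e1.and (e2.and e3))

/-- **LEAF** (glue of probabilities) Prop 4.1 for `k ≥ 2` with `ξ = 1/4`.      `j = ⌈3 (D + 1)⌉`; `P(¬Near) ≤ P(¬Ind) + P(¬Init) + P(¬Conc) + P(Ind ∧ ¬Conc∘sw)`, the last one `= P(Ind ∧ ¬Conc) ≤ P(¬Conc)` by `s4_E_exch`; `A y^{-1/3} ≤ y^{-1/4}` for `y ≥ A^{12}`. -/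
theorem s4_E1_two {d : ℕ} {E : ℝ} (H : S4Hyp d E) (k : ℕ) (hk : 2 ≤ k) (D : ℝ) :
    ∃ C y0 : ℝ, ∀ s y : ℝ, y0 ≤ y → ∀ η : ℝ, 0 < η → ∃ N : ℕ, ∀ n : ℕ, N ≤ n → (regularGraphs n d).Nonempty →
      s4Pr n d k (fun G v w => ¬ S4Near d E (s4X G E v w ⟨s, y⟩) (y ^ (-(1 / 4 : ℝ)))) ≤ C * y ^ (-D) + η := by
  classical
  obtain ⟨A, y1, hy1, hdesc⟩ := s4_descent k hk H.hd H.hE
  obtain ⟨εa, Ci, hεa, hinit⟩ := s4_init H
  obtain ⟨j, hj, hjD⟩ : ∃ j : ℕ, 1 ≤ j ∧ D ≤ (j : ℝ) / 3 := by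
    obtain ⟨m, hm⟩ := exists_nat_ge (3 * D)
    refine ⟨m + 1, by omega, ?_⟩
    push_cast; linarith
  obtain ⟨εb, Cc, hεb, hconc⟩ := s4_conc H k j hj (s4Ctr k d E)
  obtain ⟨ε0, hε0def⟩ : ∃ ε0, ε0 = min εa εb := ⟨_, rfl⟩
  have hε0 : 0 < ε0 := hε0def ▸ lt_min hεa hεb
  have hε0a : ε0 ≤ εa := hε0def ▸ min_le_left _ _
  have hε0b : ε0 ≤ εb := hε0def ▸ min_le_right _ _
  refine ⟨2 * |Cc|, max y1 ((max A 1) ^ 12), fun s y hy η hη => ?_⟩
  have hyy1 : y1 ≤ y := (le_max_left _ _).trans hy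
  have hy1' : 1 ≤ y := hy1.trans hyy1
  have hy0 : 0 < y := by linarith
  have hτ : 0 < y ^ (-(1 / 3 : ℝ)) := Real.rpow_pos_of_pos hy0 _
  have hA : A * y ^ (-(1 / 3 : ℝ)) ≤ y ^ (-(1 / 4 : ℝ)) := by
    have h1 : max A 1 ≤ y ^ ((1 : ℝ) / 12) := by
      have h2 : (max A 1) ^ 12 ≤ y := (le_max_right _ _).trans hy
      have h3 : 0 ≤ max A 1 := zero_le_one.trans (le_max_right _ _)
      calc max A 1 = ((max A 1) ^ 12) ^ ((1 : ℝ) / 12) := by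
            rw [← Real.rpow_natCast, ← Real.rpow_mul h3]; norm_num
        _ ≤ y ^ ((1 : ℝ) / 12) := Real.rpow_le_rpow (by positivity) h2 (by norm_num)
    have h4 : y ^ (-(1 / 4 : ℝ)) = y ^ ((1 : ℝ) / 12) * y ^ (-(1 / 3 : ℝ)) := by
      rw [← Real.rpow_add hy0]; norm_num
    rw [h4]
    exact mul_le_mul_of_nonneg_right ((le_max_left _ _).trans h1) hτ.le
  obtain ⟨N1, hN1⟩ := hinit k ε0 hε0 hε0a s _ (η / 4) hτ (by linarith)
  obtain ⟨N2, hN2⟩ := hconc ε0 hε0 hε0b s y _ (η / 4) hy1' hτ (by linarith)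
  obtain ⟨N3, hN3⟩ := s4_large_n (4 * (k : ℝ) ^ 2 * ((d : ℝ) + 1)) y (η / 4) ε0 (by linarith) hε0
  refine ⟨max N1 (max N2 N3), fun n hn hne => ?_⟩
  obtain ⟨f1, f2, f3⟩ := hN3 n ((le_max_right _ _).trans ((le_max_right _ _).trans hn))
  have g1 := hN1 n ((le_max_left _ _).trans hn) hne
  have g2 := hN2 n ((le_max_left _ _).trans ((le_max_right _ _).trans hn)) hne
  have hnd : 0 < n * d := Nat.mul_pos f3 (by have := H.hd; omega)
  have hsub : ∀ (G : SimpleGraph (Fin n)) (v w : Fin k → Fin n), ¬ S4Near d E (s4X G E v w ⟨s, y⟩) (y ^ (-(1 / 4 : ℝ))) →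
      ((¬ Sw7Ind G v w ∨ ¬ S4Init d E G v w s ((n : ℝ) ^ ε0) (y ^ (-(1 / 3 : ℝ))) Ci) ∨
        (¬ S4Conc d E G v w s ((n : ℝ) ^ ε0) y (s4Ctr k d E) (y ^ (-(1 / 3 : ℝ))) ∨
          (Sw7Ind G v w ∧ ¬ S4Conc d E (sw7G G v w (s4Sw k hk)) v (w ∘ s4Sw k hk) s ((n : ℝ) ^ ε0) y (s4Ctr k d E) (y ^ (-(1 / 3 : ℝ)))))) := by
    intro G v w hnear
    by_cases hI : Sw7Ind G v w
    swap
    · exact Or.inl (Or.inl hI)
    by_cases hi : S4Init d E G v w s ((n : ℝ) ^ ε0) (y ^ (-(1 / 3 : ℝ))) Ci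
    swap
    · exact Or.inl (Or.inr hi)
    by_cases hc : S4Conc d E G v w s ((n : ℝ) ^ ε0) y (s4Ctr k d E) (y ^ (-(1 / 3 : ℝ)))
    swap
    · exact Or.inr (Or.inl hc)
    by_cases hc' : S4Conc d E (sw7G G v w (s4Sw k hk)) v (w ∘ s4Sw k hk) s ((n : ℝ) ^ ε0) y (s4Ctr k d E) (y ^ (-(1 / 3 : ℝ)))
    swap
    · exact Or.inr (Or.inr ⟨hI, hc'⟩)
    exfalso
    apply hnear
    have := hdesc n f3 s ((n : ℝ) ^ ε0) y Ci hyy1 f2 hI hi hc hc'
    exact ⟨this.1.trans hA, fun c c' => (this.2 c c').trans hA⟩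
  have p1 := s4_Pr_ind (k := k) hne hnd
  have p4 := s4_Pr_exch (n := n) (d := d) (s4Sw k hk)
    (fun G v w => ¬ S4Conc d E G v w s ((n : ℝ) ^ ε0) y (s4Ctr k d E) (y ^ (-(1 / 3 : ℝ))))
  have q : Cc * y ^ (-((j : ℝ) / 3)) ≤ |Cc| * y ^ (-D) := by
    have h1 : y ^ (-((j : ℝ) / 3)) ≤ y ^ (-D) := Real.rpow_le_rpow_of_exponent_le hy1' (by linarith)
    have h2 : 0 ≤ y ^ (-((j : ℝ) / 3)) := (Real.rpow_pos_of_pos hy0 _).le
    calc Cc * y ^ (-((j : ℝ) / 3)) ≤ |Cc| * y ^ (-((j : ℝ) / 3)) := mul_le_mul_of_nonneg_right (le_abs_self _) h2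
      _ ≤ _ := mul_le_mul_of_nonneg_left h1 (abs_nonneg _)
  have hu := (s4_Pr_mono (d := d) hsub).trans ((s4_Pr_or _ _).trans (add_le_add (s4_Pr_or _ _) (s4_Pr_or _ _)))
  linarith

/-- **LEAF** compression: the vector of the first `k` edges is a sub-block of the vector of `k'` edges -/
theorem s4_near_comp {n k k' : ℕ} (φ : Fin k → Fin k') (hφ : Function.Injective φ) (d : ℕ) (E : ℝ) (G : SimpleGraph (Fin n)) (v w : Fin k' → Fin n) (z : ℂ) (τ : ℝ)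
    (h : S4Near d E (s4X G E v w z) τ) : S4Near d E (s4X G E (v ∘ φ) (w ∘ φ) z) τ := by
  refine ⟨h.1, fun c c' => ?_⟩
  have h2 := h.2 (Sum.map φ φ c) (Sum.map φ φ c')
  have e1 : (s4X G E (v ∘ φ) (w ∘ φ) z).2.1 c c' = (s4X G E v w z).2.1 (Sum.map φ φ c) (Sum.map φ φ c') := by
    show s4R G E z (s4End (v ∘ φ) (w ∘ φ) c) (s4End (v ∘ φ) (w ∘ φ) c') = s4R G E z (s4End v w (Sum.map φ φ c)) (s4End v w (Sum.map φ φ c'))
    have e : ∀ c : Ch k, s4End (v ∘ φ) (w ∘ φ) c = s4End v w (Sum.map φ φ c) := by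
      intro c
      rcases c with a | a <;> rfl
    rw [e, e]
  have e2 : s4K k d E (s4Ms d E) c c' = s4K k' d E (s4Ms d E) (Sum.map φ φ c) (Sum.map φ φ c') := by
    have eJ : chJ k c c' = chJ k' (Sum.map φ φ c) (Sum.map φ φ c') := by
      rcases c with a | a <;> rcases c' with b | b <;> simp [chJ, Matrix.one_apply, hφ.eq_iff]
    have eC : chC k (E / d) c c' = chC k' (E / d) (Sum.map φ φ c) (Sum.map φ φ c') := by
      have e1 : (1 : Matrix (Ch k) (Ch k) ℝ) c c' = (1 : Matrix (Ch k') (Ch k') ℝ) (Sum.map φ φ c) (Sum.map φ φ c') := by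
        rcases c with a | a <;> rcases c' with b | b <;> simp [Matrix.one_apply, hφ.eq_iff]
      simp only [chC, Matrix.add_apply, Matrix.smul_apply, e1, eJ]
    simp only [s4K, toC, Matrix.add_apply, Matrix.smul_apply, Matrix.map_apply, eJ, eC]
  rw [e1, e2]
  exact h2

/-- **E1 = P1 Prop 4.1** from `s4_E1_two` -/
theorem s4_E1 {d : ℕ} {E : ℝ} (H : S4Hyp d E) :
    ∃ ξ : ℝ, 0 < ξ ∧ ∀ (k : ℕ) (D : ℝ), ∃ C y0 : ℝ, ∀ s y : ℝ, y0 ≤ y → ∀ η : ℝ, 0 < η → ∃ N : ℕ, ∀ n : ℕ, N ≤ n →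
      (regularGraphs n d).Nonempty →
      s4Pr n d k (fun G v w => ¬ S4Near d E (s4X G E v w ⟨s, y⟩) (y ^ (-ξ))) ≤ C * y ^ (-D) + η := by
  refine ⟨1 / 4, by norm_num, fun k D => ?_⟩
  by_cases hk : 2 ≤ k
  · exact s4_E1_two H k hk D
  · obtain ⟨C, y0, h⟩ := s4_E1_two H 2 le_rfl D
    refine ⟨C, y0, fun s y hy η hη => ?_⟩
    obtain ⟨N, hN⟩ := h s y hy η hη
    refine ⟨max N 1, fun n hn hne => ?_⟩
    have hn1 : 0 < n := lt_of_lt_of_le one_pos ((le_max_right N 1).trans hn)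
    have hnd : 0 < n * d := Nat.mul_pos hn1 (lt_of_lt_of_le (by norm_num) H.hd)
    have hk2 : k ≤ 2 := by omega
    have hφ : Function.Injective (Fin.castLE hk2) := Fin.castLE_injective _
    have e := s4_Pr_marg (n := n) (d := d) (k := 2) (k' := k) hnd (Fin.castLE hk2) hφ
      (fun G v w => ¬ S4Near d E (s4X G E v w ⟨s, y⟩) (y ^ (-(1 / 4 : ℝ))))
    have m : s4Pr n d 2 (fun G v w => ¬ S4Near d E (s4X G E (v ∘ Fin.castLE hk2) (w ∘ Fin.castLE hk2) ⟨s, y⟩) (y ^ (-(1 / 4 : ℝ))))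
        ≤ s4Pr n d 2 (fun G v w => ¬ S4Near d E (s4X G E v w ⟨s, y⟩) (y ^ (-(1 / 4 : ℝ)))) :=
      s4_Pr_mono fun G v w hS hc => hS (s4_near_comp _ hφ d E G v w _ _ hc)
    exact e.symm.le.trans (m.trans (hN n ((le_max_left N 1).trans hn) hne))

/-! ## H. S2: the trace exponent `3/5` -/

/-- the pairing `2a ↔ 2a+1` of the `2r` sampled edges -/
def s4Pair (r : ℕ) : Equiv.Perm (Fin (2 * r)) :=
  Function.Involutive.toPerm (fun t => if h : t.val % 2 = 0 then ⟨t.val + 1, by have := t.isLt; omega⟩ else ⟨t.val - 1, by have := t.isLt; omega⟩)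
    (by
      intro t
      by_cases h : t.val % 2 = 0
      · have h2 : ¬ (t.val + 1) % 2 = 0 := by omega
        simp [h, h2]
      · have h2 : (t.val - 1) % 2 = 0 := by omega
        have h3 : t.val - 1 + 1 = t.val := by omega
        simp [h, h2, h3])

/-- the six averaged patterns of S2 -/
def S4Avg {k : ℕ} (d : ℕ) (E : ℝ) (σ : Equiv.Perm (Fin k)) (X : SwSt k) (e : ℝ) : Prop :=
  ‖∑ t, s4Dev d E X (Sum.inl t) (Sum.inr t)‖ ≤ k * e ∧ ‖∑ t, s4Dev d E X (Sum.inl t) (Sum.inl t)‖ ≤ k * e ∧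
  ‖∑ t, s4Dev d E X (Sum.inr t) (Sum.inr t)‖ ≤ k * e ∧ ‖∑ t, s4Dev d E X (Sum.inl t) (Sum.inl (σ t))‖ ≤ k * e ∧
  ‖∑ t, s4Dev d E X (Sum.inl t) (Sum.inr (σ t))‖ ≤ k * e ∧ ‖∑ t, s4Dev d E X (Sum.inr t) (Sum.inr (σ t))‖ ≤ k * e

theorem s4e_lin_le (e : ℝ) (a1 a2 a4 a5 b1 b3 b5 b6 m mh q qh Q1 Q2 : ℂ) (ha1 : ‖a1‖ ≤ e) (ha2 : ‖a2‖ ≤ e) (ha4 : ‖a4‖ ≤ e) (ha5 : ‖a5‖ ≤ e)
    (hb1 : ‖b1‖ ≤ e) (hb3 : ‖b3‖ ≤ e) (hb5 : ‖b5‖ ≤ e) (hb6 : ‖b6‖ ≤ e) :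
    ‖- a1 + b5 + m * (b6 - b3) + mh * (a4 - a2) + q * (b1 - b5) + qh * (a1 - a5) + Q1 + Q2‖
      ≤ e * (2 + 2 * ‖m‖ + 2 * ‖mh‖ + 2 * ‖q‖ + 2 * ‖qh‖) + ‖Q1‖ + ‖Q2‖ := by
  have hs : ∀ (x a b : ℂ), ‖a‖ ≤ e → ‖b‖ ≤ e → ‖x * (a - b)‖ ≤ e * (2 * ‖x‖) := by
    intro x a b ha hb
    rw [norm_mul]
    have h1 : ‖a - b‖ ≤ e + e := (norm_sub_le _ _).trans (add_le_add ha hb)
    calc ‖x‖ * ‖a - b‖ ≤ ‖x‖ * (e + e) := mul_le_mul_of_nonneg_left h1 (norm_nonneg _)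
      _ = e * (2 * ‖x‖) := by ring
  have l1 : ‖- a1‖ ≤ e := by rw [norm_neg]; exact ha1
  have l3 := hs m _ _ hb6 hb3
  have l4 := hs mh _ _ ha4 ha2
  have l5 := hs q _ _ hb1 hb5
  have l6 := hs qh _ _ ha1 ha5
  refine (norm_add_le _ _).trans ?_
  refine (add_le_add_left (norm_add_le _ _) _).trans ?_
  refine (add_le_add_left (add_le_add_left (norm_add_le _ _) _) _).trans ?_
  refine (add_le_add_left (add_le_add_left (add_le_add_left (norm_add_le _ _) _) _) _).trans ?_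
  refine (add_le_add_left (add_le_add_left (add_le_add_left (add_le_add_left (norm_add_le _ _) _) _) _) _).trans ?_
  refine (add_le_add_left (add_le_add_left (add_le_add_left (add_le_add_left (add_le_add_left (norm_add_le _ _) _) _) _) _) _).trans ?_
  refine (add_le_add_left (add_le_add_left (add_le_add_left (add_le_add_left (add_le_add_left (add_le_add_left (norm_add_le _ _) _) _) _) _) _) _).trans ?_
  linarith only [l1, hb5, l3, l4, l5, l6]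

/-- **LEAF** S2, deterministic algebra (note S2_102.md sec. 1, read in the entries `(inl t, inr t)` of `s4_res_id`, averaged over `t`; `σ` a fixed point free involution).
With `M = K(m) + μ`, `N(c,c') = K(m̂)(π⁻¹c, π⁻¹c') + μ̂(π⁻¹ c, π⁻¹ c')`, `π (inr a) = inr (σ a)`:      `q = - m m̂ + q q̂ + LIN_t + QUAD_t + OFF_t`,
`LIN_t` = 9 terms (bounded coefficient) × (one entry of `μ` or `μ̂` in the patterns of `S4Avg`), `|QUAD_t| ≤ 8 e2²`, `|OFF_t| ≤ 8 k e2²`.      `A` depends on `d, E, Ctr` only. -/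
theorem s4_S2_det {d : ℕ} {E : ℝ} (hd : 3 ≤ d) (hE : |E| < 2 * Real.sqrt ((d : ℝ) - 1)) (Ctr : ℝ) : ∃ A : ℝ, ∀ (n : ℕ), 0 < n → ∀ (k : ℕ), 0 < k → ∀ (σ : Equiv.Perm (Fin k)),
    (∀ t, σ (σ t) = t) → (∀ t, σ t ≠ t) → ∀ {G : SimpleGraph (Fin n)} {v w : Fin k → Fin n}, Sw7Ind G v w → ∀ {z : ℂ}, 1 ≤ z.im → ∀ e1 e2 : ℝ, 0 ≤ e1 → 0 ≤ e2 →
      ‖s4M G E z‖ ≤ Ctr → ‖s4M (sw7G G v w σ) E z‖ ≤ Ctr →
      S4Avg d E σ (s4X G E v w z) e1 → S4Avg d E σ (s4X (sw7G G v w σ) E v (w ∘ σ) z) e1 →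
      (∀ c c', ‖s4Dev d E (s4X G E v w z) c c'‖ ≤ e2) → (∀ c c', ‖s4Dev d E (s4X (sw7G G v w σ) E v (w ∘ σ) z) c c'‖ ≤ e2) →
      ‖dsPhi d E (s4M G E z)‖ ≤ A * (e1 + k * e2 ^ 2 + k / z.im) := by
  obtain ⟨C, hCdef⟩ : ∃ C : ℝ, C = |Ctr| := ⟨_, rfl⟩
  have hC0 : 0 ≤ C := hCdef ▸ abs_nonneg _
  obtain ⟨A1, hA1⟩ : ∃ A1 : ℝ, A1 = 2 + 2 * C + 2 * C + 2 * (1 + |E| * C) + 2 * (1 + |E| * C) := ⟨_, rfl⟩
  obtain ⟨A2, hA2⟩ : ∃ A2 : ℝ, A2 = (C + (1 + |E| * C) * |E|) * 8 := ⟨_, rfl⟩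
  have hA1' : 0 ≤ A1 := by rw [hA1]; positivity
  have hA2' : 0 ≤ A2 := by rw [hA2]; positivity
  refine ⟨A1 + 4 + A2, ?_⟩
  intro n hn k hk σ hσ hfix G v w hI z hz e1 e2 he1 he2 hm hmh hav havh hu huh
  have hz0 : 0 < z.im := lt_of_lt_of_le one_pos hz
  have hd1 : 1 ≤ d := by omega
  have hkR : (0 : ℝ) < k := by exact_mod_cast hk
  obtain ⟨m, hmdef⟩ : ∃ m : ℂ, m = s4M G E z := ⟨_, rfl⟩
  obtain ⟨mh, hmhdef⟩ : ∃ mh : ℂ, mh = s4M (sw7G G v w σ) E z := ⟨_, rfl⟩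
  have htr : ‖mh - m‖ ≤ 8 * (k : ℝ) / z.im := by
    rw [hmdef, hmhdef]
    exact s4_sw_trace hn hI σ E hz0
  obtain ⟨u, hudef⟩ : ∃ u : Ch k → Ch k → ℂ, u = s4Dev d E (s4X G E v w z) := ⟨_, rfl⟩
  obtain ⟨uh, huhdef⟩ : ∃ uh : Ch k → Ch k → ℂ, uh = s4Dev d E (s4X (sw7G G v w σ) E v (w ∘ σ) z) := ⟨_, rfl⟩
  have hMu : ∀ c c', (s4X G E v w z).2.1 c c' = s4K k d E m c c' + u c c' := by
    intro c c'
    rw [hudef, hmdef]
    exact (add_sub_cancel _ _).symm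
  have hMuh : ∀ c c', (s4X (sw7G G v w σ) E v (w ∘ σ) z).2.1 c c' = s4K k d E mh c c' + uh c c' := by
    intro c c'
    rw [huhdef, hmhdef]
    exact (add_sub_cancel _ _).symm
  unfold S4Avg at hav havh
  rw [← hudef] at hav hu
  rw [← huhdef] at havh huh
  rw [← hmdef] at hm ⊢
  rw [← hmhdef] at hmh
  obtain ⟨a1, a2, -, a4, a5, -⟩ := hav
  obtain ⟨b1, -, b3, -, b5, b6⟩ := havh
  have hmC : ‖m‖ ≤ C := hm.trans (hCdef ▸ le_abs_self _)
  have hmhC : ‖mh‖ ≤ C := hmh.trans (hCdef ▸ le_abs_self _)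
  have hid := fun t => s4e_ident d E σ hσ _ _ _ (s4e_res_id hn hI σ E hz0) (s4e_relabel (sw7G G v w σ) E v w z σ hσ) m mh u uh hMu hMuh t (hfix t)
  obtain ⟨L, hL⟩ : ∃ L : ℂ, L = (1 + E * m) / d + m * mh - (1 + E * m) / d * ((1 + E * mh) / d) := ⟨_, rfl⟩
  rw [← hL] at hid
  have hsum : (k : ℂ) * L = ∑ _t : Fin k, L := by
    rw [Finset.sum_const, Finset.card_univ, Fintype.card_fin, nsmul_eq_mul]
  rw [Finset.sum_congr rfl (fun t _ => hid t)] at hsum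
  simp only [Finset.sum_add_distrib, Finset.sum_sub_distrib, Finset.sum_neg_distrib, ← Finset.mul_sum] at hsum
  rw [Equiv.sum_comp σ (fun t => uh (Sum.inr t) (Sum.inr t)), Equiv.sum_comp σ (fun t => uh (Sum.inl t) (Sum.inr t))] at hsum
  have hQ1 : ‖∑ t, ∑ a, u (Sum.inl t) (Sum.inl a) * (uh (Sum.inr a) (Sum.inr (σ t)) - uh (Sum.inr (σ a)) (Sum.inr (σ t)))‖ ≤ k * (2 * k * e2 ^ 2) := by
    refine (norm_sum_le _ _).trans ?_
    refine (Finset.sum_le_sum fun t _ => s4e_quad (fun a => u (Sum.inl t) (Sum.inl a)) (fun a => uh (Sum.inr a) (Sum.inr (σ t)))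
      (fun a => uh (Sum.inr (σ a)) (Sum.inr (σ t))) e2 he2 (fun a => hu _ _) (fun a => huh _ _) (fun a => huh _ _)).trans ?_
    rw [Finset.sum_const, Finset.card_univ, Fintype.card_fin, nsmul_eq_mul]
  have hQ2 : ‖∑ t, ∑ a, u (Sum.inl t) (Sum.inr a) * (uh (Sum.inl (σ a)) (Sum.inr (σ t)) - uh (Sum.inl a) (Sum.inr (σ t)))‖ ≤ k * (2 * k * e2 ^ 2) := by
    refine (norm_sum_le _ _).trans ?_
    refine (Finset.sum_le_sum fun t _ => s4e_quad (fun a => u (Sum.inl t) (Sum.inr a)) (fun a => uh (Sum.inl (σ a)) (Sum.inr (σ t)))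
      (fun a => uh (Sum.inl a) (Sum.inr (σ t))) e2 he2 (fun a => hu _ _) (fun a => huh _ _) (fun a => huh _ _)).trans ?_
    rw [Finset.sum_const, Finset.card_univ, Fintype.card_fin, nsmul_eq_mul]
  have hb := s4e_lin_le (k * e1) _ _ _ _ _ _ _ _ m mh ((1 + E * m) / d) ((1 + E * mh) / d)
    (∑ t, ∑ a, u (Sum.inl t) (Sum.inl a) * (uh (Sum.inr a) (Sum.inr (σ t)) - uh (Sum.inr (σ a)) (Sum.inr (σ t))))
    (∑ t, ∑ a, u (Sum.inl t) (Sum.inr a) * (uh (Sum.inl (σ a)) (Sum.inr (σ t)) - uh (Sum.inl a) (Sum.inr (σ t)))) a1 a2 a4 a5 b1 b3 b5 b6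
  rw [← hsum, norm_mul, Complex.norm_natCast] at hb
  have hE0 := abs_nonneg E
  have hq' : ‖(1 + E * m) / d‖ ≤ 1 + |E| * C := (s4e_q_le hd1 E m).trans (by linarith only [mul_le_mul_of_nonneg_left hmC hE0])
  have hqh' : ‖(1 + E * mh) / d‖ ≤ 1 + |E| * C := (s4e_q_le hd1 E mh).trans (by linarith only [mul_le_mul_of_nonneg_left hmhC hE0])
  have hX : ‖L‖ ≤ A1 * e1 + 4 * (k * e2 ^ 2) := by
    have h1 : (k : ℝ) * e1 * (2 + 2 * ‖m‖ + 2 * ‖mh‖ + 2 * ‖(1 + E * m) / d‖ + 2 * ‖(1 + E * mh) / d‖) ≤ k * e1 * A1 := by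
      rw [hA1]
      exact mul_le_mul_of_nonneg_left (by linarith only [hmC, hmhC, hq', hqh']) (by positivity)
    have h2 : (k : ℝ) * ‖L‖ ≤ k * (A1 * e1 + 4 * (k * e2 ^ 2)) := by
      linarith only [hb, h1, hQ1, hQ2]
    exact le_of_mul_le_mul_left h2 hkR
  rw [hL] at hX
  have hfin := s4e_phi_le hd1 E m mh hX hmC htr
  have h5 : (C + (1 + |E| * C) * |E|) * (8 * (k : ℝ) / z.im) = A2 * (k / z.im) := by
    rw [hA2]
    ring
  rw [h5] at hfin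
  have hiz : 0 ≤ (k : ℝ) / z.im := by positivity
  have hke : 0 ≤ (k : ℝ) * e2 ^ 2 := by positivity
  calc ‖dsPhi d E m‖ ≤ A1 * e1 + 4 * (k * e2 ^ 2) + A2 * (k / z.im) := hfin
    _ ≤ (A1 + 4 + A2) * (e1 + k * e2 ^ 2 + k / z.im) := by
        have h6 := mul_nonneg hA1' hiz
        have h7 := mul_nonneg hA2' he1
        have h8 := mul_nonneg hA1' hke
        have h9 := mul_nonneg hA2' hke
        linarith only [h6, h7, h8, h9, he1, hiz]

/-- side of a channel: `false` = starting point, `true` = ending point -/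
def s4Sd {k : ℕ} (x : Bool) (t : Fin k) : Ch k := if x then Sum.inr t else Sum.inl t

/-- the pattern matrix `(2q)⁻¹ ∑_t (e_{a t} e_{b t}ᵀ + e_{b t} e_{a t}ᵀ)` -/
def s4Pat {k q : ℕ} (a b : Fin q → Ch k) : Matrix (Ch k) (Ch k) ℝ := fun c c' =>
  (2 * (q : ℝ))⁻¹ * ∑ t, ((if a t = c then 1 else 0) * (if b t = c' then 1 else 0) + (if b t = c then 1 else 0) * (if a t = c' then 1 else 0))

theorem s4_pat_eqns_cite : True := by
  have := @s4Sd.eq_1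
  have := @s4Pat.eq_1
  trivial

theorem s4_sd_inj {k : ℕ} (x : Bool) : Function.Injective (s4Sd x : Fin k → Ch k) := by
  intro t t' h
  cases x <;> simpa [s4Sd] using h

theorem s4_pat_symm {k q : ℕ} (a b : Fin q → Ch k) : (s4Pat a b)ᵀ = s4Pat a b := by
  ext c c'
  simp only [Matrix.transpose_apply, s4Pat]
  congr 1
  refine Finset.sum_congr rfl fun t _ => ?_
  ring

theorem s4_pat_sum {k q : ℕ} (a b : Fin q → Ch k) (f : Ch k → Ch k → ℂ) :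
    ∑ c, ∑ c', ((s4Pat a b c c' : ℝ) : ℂ) * f c c' = (2 * (q : ℂ))⁻¹ * ∑ t, (f (a t) (b t) + f (b t) (a t)) := by
  have h : ∀ c c', ((s4Pat a b c c' : ℝ) : ℂ) * f c c' = (2 * (q : ℂ))⁻¹ * ∑ t, ((if a t = c then (if b t = c' then f c c' else 0) else 0)
      + (if b t = c then (if a t = c' then f c c' else 0) else 0)) := by
    intro c c'
    unfold s4Pat
    push_cast
    rw [mul_assoc, Finset.sum_mul]
    congr 1
    refine Finset.sum_congr rfl fun t _ => ?_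
    split_ifs <;> simp <;> ring
  simp only [h, ← Finset.mul_sum]
  congr 1
  calc _ = ∑ c, ∑ t, ∑ c', ((if a t = c then (if b t = c' then f c c' else 0) else 0) + (if b t = c then (if a t = c' then f c c' else 0) else 0)) :=
        Finset.sum_congr rfl fun c _ => Finset.sum_comm
    _ = ∑ t, ∑ c, ∑ c', ((if a t = c then (if b t = c' then f c c' else 0) else 0) + (if b t = c then (if a t = c' then f c c' else 0) else 0)) :=
        Finset.sum_comm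
    _ = _ := Finset.sum_congr rfl fun t _ => by
        simp [Finset.sum_add_distrib, Finset.sum_ite_irrel, Finset.sum_ite_eq]

theorem s4_pat_sumR {k q : ℕ} (a b : Fin q → Ch k) (g : Ch k → Ch k → ℝ) :
    ∑ c, ∑ c', s4Pat a b c c' * g c c' = (2 * (q : ℝ))⁻¹ * ∑ t, (g (a t) (b t) + g (b t) (a t)) := by
  have := s4_pat_sum a b (fun c c' => ((g c c' : ℝ) : ℂ))
  apply Complex.ofReal_injective
  push_cast
  exact this

theorem s4_pat_aux {k q : ℕ} (a : Fin q → Ch k) (ha : Function.Injective a) (c : Ch k) (w : Fin q → ℝ) (hw : ∀ t, 0 ≤ w t ∧ w t ≤ 1) :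
    ∑ t, (if a t = c then 1 else 0) * w t ≤ 1 := by
  by_cases h : ∃ t0, a t0 = c
  · obtain ⟨t0, rfl⟩ := h
    have : ∀ t, (if a t = a t0 then (1 : ℝ) else 0) * w t = if t = t0 then w t else 0 := by
      intro t
      by_cases ht : t = t0
      · simp [ht]
      · have : a t ≠ a t0 := fun h' => ht (ha h')
        simp [ht, this]
    simp only [this, Finset.sum_ite_eq', Finset.mem_univ, if_true]
    exact (hw t0).2
  · have h' : ∀ t, a t ≠ c := fun t ht => h ⟨t, ht⟩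
    simp [h']

theorem s4_pat_le {k q : ℕ} (a b : Fin q → Ch k) (ha : Function.Injective a) (hb : Function.Injective b) (hq : 0 < q) (c c' : Ch k) :
    s4Pat a b c c' ≤ 1 / q := by
  have hq' : (0 : ℝ) < q := by exact_mod_cast hq
  unfold s4Pat
  rw [Finset.sum_add_distrib]
  have h1 := s4_pat_aux a ha c (fun t => if b t = c' then 1 else 0) fun t => by split_ifs <;> norm_num
  have h2 := s4_pat_aux b hb c (fun t => if a t = c' then 1 else 0) fun t => by split_ifs <;> norm_num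
  calc (2 * (q : ℝ))⁻¹ * _ ≤ (2 * (q : ℝ))⁻¹ * (1 + 1) := mul_le_mul_of_nonneg_left (add_le_add h1 h2) (by positivity)
    _ = 1 / q := by field_simp; norm_num

theorem s4_pat_sq {k q : ℕ} (a b : Fin q → Ch k) (ha : Function.Injective a) (hb : Function.Injective b) (hq : 0 < q) :
    ∑ c, ∑ c', s4Pat a b c c' ^ 2 ≤ 1 / q := by
  have hq' : (0 : ℝ) < q := by exact_mod_cast hq
  have e : ∑ c, ∑ c', s4Pat a b c c' ^ 2 = ∑ c, ∑ c', s4Pat a b c c' * s4Pat a b c c' := by simp only [sq]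
  rw [e, s4_pat_sumR a b (fun c c' => s4Pat a b c c')]
  have h : ∑ t, (s4Pat a b (a t) (b t) + s4Pat a b (b t) (a t)) ≤ ∑ _t : Fin q, (1 / (q : ℝ) + 1 / q) :=
    Finset.sum_le_sum fun t _ => add_le_add (s4_pat_le a b ha hb hq _ _) (s4_pat_le a b ha hb hq _ _)
  rw [Finset.sum_const, Finset.card_univ, Fintype.card_fin, nsmul_eq_mul] at h
  calc (2 * (q : ℝ))⁻¹ * _ ≤ (2 * (q : ℝ))⁻¹ * ((q : ℝ) * (1 / (q : ℝ) + 1 / q)) := mul_le_mul_of_nonneg_left h (by positivity)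
    _ = 1 / q := by field_simp; norm_num

theorem s4_Pr_false {n d k : ℕ} : s4Pr n d k (fun _ _ _ => False) = 0 := by
  classical
  unfold s4Pr
  have := s4_E_lin (n := n) (d := d) (k := k) (fun _ _ _ => 0) (fun _ _ _ => 0) 0 0
  simpa using this

theorem s4_Pr_fin {n d k : ℕ} {ι : Type} (s : Finset ι) (S : ι → SimpleGraph (Fin n) → (Fin k → Fin n) → (Fin k → Fin n) → Prop) :
    s4Pr n d k (fun G v w => ∃ i ∈ s, S i G v w) ≤ ∑ i ∈ s, s4Pr n d k (S i) := by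
  classical
  induction s using Finset.induction_on with
  | empty => simp [s4_Pr_false]
  | insert i s hi ih =>
    rw [Finset.sum_insert hi]
    refine le_trans (s4_Pr_mono ?_) ((s4_Pr_or _ _).trans (add_le_add le_rfl ih))
    rintro G v w ⟨i', hi', h⟩
    rcases Finset.mem_insert.1 hi' with rfl | h'
    · exact Or.inl h
    · exact Or.inr ⟨i', h', h⟩

theorem s4_zeta_im_pos {n : ℕ} (hn : 0 < n) (E : ℝ) {z : ℂ} (hz : 0 < z.im) : 0 < ((E : ℂ) + z / n).im := by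
  have hn' : (0 : ℝ) < n := by exact_mod_cast hn
  have : ((E : ℂ) + z / n).im = z.im / n := by
    rw [Complex.add_im, Complex.ofReal_im, zero_add, Complex.div_natCast_im]
  rw [this]
  positivity

theorem s4_K_symm (k d : ℕ) (E : ℝ) (m : ℂ) (c c' : Ch k) : s4K k d E m c c' = s4K k d E m c' c := by
  rcases c with a | a <;> rcases c' with a' | a' <;> simp [s4K, toC, chC, chJ, Matrix.one_apply, eq_comm]

theorem s4_dev_symm {n k : ℕ} (hn : 0 < n) (d : ℕ) (G : SimpleGraph (Fin n)) (E : ℝ) (v w : Fin k → Fin n) {z : ℂ} (hz : 0 < z.im) (c c' : Ch k) :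
    s4Dev d E (s4X G E v w z) c c' = s4Dev d E (s4X G E v w z) c' c := by
  unfold s4Dev
  rw [s4_K_symm]
  congr 1
  exact rs_G_symm (s4_herm G) (s4_zeta_im_pos hn E hz).ne' _ _

theorem s4_M_im_nonneg {n : ℕ} (hn : 0 < n) (G : SimpleGraph (Fin n)) (E : ℝ) {z : ℂ} (hz : 0 < z.im) : 0 ≤ (s4M G E z).im := by
  unfold s4M s4R
  have e : ((n : ℂ)⁻¹ * Matrix.trace (rsG (s4A G) ((E : ℂ) + z / n))).im = (n : ℝ)⁻¹ * ∑ x, (rsG (s4A G) ((E : ℂ) + z / n) x x).im := by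
    have : ((n : ℂ)⁻¹) = (((n : ℝ)⁻¹ : ℝ) : ℂ) := by push_cast; rfl
    rw [this, Complex.im_ofReal_mul, Matrix.trace, Complex.im_sum]
    rfl
  rw [e]
  exact mul_nonneg (by positivity) (Finset.sum_nonneg fun x _ => (rs_G_im_pos (s4_herm G) (s4_zeta_im_pos hn E hz) x).le)

theorem s4_pair_invol (r : ℕ) (t : Fin (2 * r)) : s4Pair r (s4Pair r t) = t := by
  unfold s4Pair
  exact Function.Involutive.toPerm_involutive _ t

theorem s4_pair_ne (r : ℕ) (t : Fin (2 * r)) : s4Pair r t ≠ t := by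
  intro h
  have h' := congrArg Fin.val h
  simp only [s4Pair, Function.Involutive.toPerm, Equiv.coe_fn_mk] at h'
  split_ifs at h' with h2
  · simp at h'
  · simp at h'
    omega


theorem s4_avg_of_good {k : ℕ} (hk : 0 < k) (d : ℕ) (E : ℝ) (σ : Equiv.Perm (Fin k)) (X : SwSt k)
    (hs : ∀ c c', s4Dev d E X c c' = s4Dev d E X c' c) (θ1 θ2 : ℝ)
    (h1 : ∀ x x' tw : Bool, ‖∑ c, ∑ c', ((s4Pat (s4Sd x) (fun t => s4Sd x' (if tw then σ t else t)) c c' : ℝ) : ℂ) * s4Dev d E X c c'‖ ≤ 2 * θ1)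
    (h2 : ∀ c0 c0' : Ch k, ‖∑ c, ∑ c', ((s4Pat (fun _ : Fin 1 => c0) (fun _ => c0') c c' : ℝ) : ℂ) * s4Dev d E X c c'‖ ≤ 2 * θ2) :
    S4Avg d E σ X (2 * θ1) ∧ ∀ c c', ‖s4Dev d E X c c'‖ ≤ 2 * θ2 := by
  have key : ∀ (q : ℕ), 0 < q → ∀ (a b : Fin q → Ch k),
      ∑ t, s4Dev d E X (a t) (b t) = (q : ℂ) * ∑ c, ∑ c', ((s4Pat a b c c' : ℝ) : ℂ) * s4Dev d E X c c' := by
    intro q hq a b
    have hq' : (q : ℂ) ≠ 0 := by exact_mod_cast hq.ne'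
    rw [s4_pat_sum]
    have : ∀ t, s4Dev d E X (a t) (b t) + s4Dev d E X (b t) (a t) = 2 * s4Dev d E X (a t) (b t) := fun t => by
      rw [hs (b t) (a t)]; ring
    simp only [this, ← Finset.mul_sum]
    field_simp
  have hh : ∀ x x' tw : Bool, ‖∑ t, s4Dev d E X (s4Sd x t) (s4Sd x' (if tw then σ t else t))‖ ≤ k * (2 * θ1) := by
    intro x x' tw
    rw [key k hk (s4Sd x) (fun t => s4Sd x' (if tw then σ t else t)), norm_mul, Complex.norm_natCast]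
    exact mul_le_mul_of_nonneg_left (h1 x x' tw) (Nat.cast_nonneg _)
  refine ⟨⟨by simpa [s4Sd] using hh false true false, by simpa [s4Sd] using hh false false false, by simpa [s4Sd] using hh true true false,
    by simpa [s4Sd] using hh false false true, by simpa [s4Sd] using hh false true true, by simpa [s4Sd] using hh true true true⟩, fun c c' => ?_⟩
  have := key 1 one_pos (fun _ => c) (fun _ => c')
  simp only [Finset.univ_unique, Finset.sum_singleton, Nat.cast_one, one_mul] at this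
  rw [this]
  exact h2 c c'

/-- the numbers of S2 in the scale `t = y^{1/60}` -/
theorem s4_S2_num {t kR : ℝ} (ht : 1 ≤ t) (hk1 : 2 * t ^ 20 ≤ kR) (hk2 : kR ≤ 4 * t ^ 20) :
    0 < t / Real.sqrt (kR * t ^ 60) ∧ 1 / kR / (t ^ 60 * (t / Real.sqrt (kR * t ^ 60)) ^ 2) = (t ^ 2)⁻¹ ∧
      1 / (1 : ℝ) / (t ^ 60 * ((t ^ 29)⁻¹) ^ 2) = (t ^ 2)⁻¹ ∧
      2 * (t / Real.sqrt (kR * t ^ 60)) + kR * (2 * (t ^ 29)⁻¹) ^ 2 + kR / t ^ 60 ≤ 22 * (t ^ 38)⁻¹ := by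
  have ht0 : 0 < t := by linarith
  have hkR : 0 < kR := lt_of_lt_of_le (by positivity) hk1
  have hpos : 0 < kR * t ^ 60 := by positivity
  have hs : 0 < Real.sqrt (kR * t ^ 60) := Real.sqrt_pos.2 hpos
  have h40 : t ^ 40 ≤ Real.sqrt (kR * t ^ 60) := by
    apply Real.le_sqrt_of_sq_le
    have : (t ^ 40) ^ 2 = t ^ 20 * t ^ 60 := by ring
    rw [this]
    have h20 : 0 < t ^ 20 := by positivity
    exact mul_le_mul_of_nonneg_right (by linarith) (by positivity)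
  refine ⟨by positivity, ?_, ?_, ?_⟩
  · rw [div_pow, Real.sq_sqrt hpos.le]
    field_simp
  · field_simp
  · have a1 : t / Real.sqrt (kR * t ^ 60) ≤ (t ^ 38)⁻¹ := by
      calc t / Real.sqrt (kR * t ^ 60) ≤ t / t ^ 40 := div_le_div_of_nonneg_left ht0.le (by positivity) h40
        _ = (t ^ 39)⁻¹ := by field_simp
        _ ≤ (t ^ 38)⁻¹ := inv_anti₀ (by positivity) (pow_le_pow_right₀ ht (by norm_num))
    have a2 : kR * (2 * (t ^ 29)⁻¹) ^ 2 ≤ 16 * (t ^ 38)⁻¹ := by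
      calc kR * (2 * (t ^ 29)⁻¹) ^ 2 ≤ 4 * t ^ 20 * (2 * (t ^ 29)⁻¹) ^ 2 := mul_le_mul_of_nonneg_right hk2 (by positivity)
        _ = 16 * (t ^ 38)⁻¹ := by field_simp; norm_num
    have a3 : kR / t ^ 60 ≤ 4 * (t ^ 38)⁻¹ := by
      calc kR / t ^ 60 ≤ 4 * t ^ 20 / t ^ 60 := div_le_div_of_nonneg_right hk2 (by positivity)
        _ = 4 * (t ^ 40)⁻¹ := by field_simp
        _ ≤ 4 * (t ^ 38)⁻¹ := mul_le_mul_of_nonneg_left (inv_anti₀ (by positivity) (pow_le_pow_right₀ ht (by norm_num))) (by norm_num)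
    linarith

theorem ds_cs_pos {d : ℕ} {E : ℝ} (hd : 3 ≤ d) (hE : |E| < 2 * Real.sqrt ((d : ℝ) - 1)) :
    0 < (1 - (E / d) ^ 2) * (Real.pi * kestenMcKay d E) := by
  obtain ⟨h1, hD⟩ := ds_aux_D hd hE
  have hd3 : (3 : ℝ) ≤ d := by exact_mod_cast hd
  have hd0 : (0 : ℝ) < d := by linarith
  have hp : 0 < 1 - (E / d) ^ 2 := by
    rw [div_pow, sub_pos, div_lt_one (by positivity)]
    linarith
  have hk : 0 < kestenMcKay d E := by
    unfold kestenMcKay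
    have h3 : 0 < Real.sqrt (4 * ((d : ℝ) - 1) - E ^ 2) := Real.sqrt_pos.2 (by linarith)
    have : 0 < Real.pi := Real.pi_pos
    positivity
  exact mul_pos hp (mul_pos Real.pi_pos hk)


/-- the family of pattern matrices of S2: 8 averaged patterns, all the entries -/
def s4Fam {k : ℕ} (σ : Equiv.Perm (Fin k)) : (Bool × Bool × Bool) ⊕ (Ch k × Ch k) → Matrix (Ch k) (Ch k) ℝ :=
  Sum.elim (fun p => s4Pat (s4Sd p.1) (fun t => s4Sd p.2.1 (if p.2.2 then σ t else t))) (fun p => s4Pat (fun _ : Fin 1 => p.1) (fun _ => p.2))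

/-- all the linear statistics of S2 are small -/
def S4Good {k : ℕ} (d : ℕ) (E : ℝ) (σ : Equiv.Perm (Fin k)) (X : SwSt k) (θ1 θ2 : ℝ) : Prop :=
  ∀ i, ‖∑ c, ∑ c', ((s4Fam σ i c c' : ℝ) : ℂ) * s4Dev d E X c c'‖ ≤ 2 * Sum.elim (fun _ => θ1) (fun _ => θ2) i

theorem s4_fam_eqns_cite : True := by
  have := @s4Fam.eq_1
  have := @S4Good.eq_1
  trivial

theorem s4_fam_symm {k : ℕ} (σ : Equiv.Perm (Fin k)) (i : (Bool × Bool × Bool) ⊕ (Ch k × Ch k)) : (s4Fam σ i)ᵀ = s4Fam σ i := by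
  rcases i with p | p <;> exact s4_pat_symm _ _

theorem s4_fam_sq_l {k : ℕ} (hk : 0 < k) (σ : Equiv.Perm (Fin k)) (p : Bool × Bool × Bool) : ∑ c, ∑ c', s4Fam σ (Sum.inl p) c c' ^ 2 ≤ 1 / k := by
  refine s4_pat_sq _ _ (s4_sd_inj _) ?_ hk
  intro a b hab
  have := s4_sd_inj _ hab
  by_cases h : p.2.2 = true
  · simpa [h] using this
  · simpa [h] using this

theorem s4_fam_sq_r {k : ℕ} (σ : Equiv.Perm (Fin k)) (p : Ch k × Ch k) : ∑ c, ∑ c', s4Fam σ (Sum.inr p) c c' ^ 2 ≤ 1 := by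
  have := s4_pat_sq (fun _ : Fin 1 => p.1) (fun _ => p.2) (fun a b _ => Subsingleton.elim a b) (fun a b _ => Subsingleton.elim a b) one_pos
  calc _ ≤ 1 / ((1 : ℕ) : ℝ) := this
    _ = 1 := by norm_num

/-- the bad event of S2 -/
theorem s4_S2_bad {d : ℕ} {E : ℝ} (H : S4Hyp d E) (j : ℕ) (hj : 1 ≤ j) (Ctr : ℝ) : ∃ A : ℝ, 0 ≤ A ∧ ∀ (k : ℕ), 0 < k → ∀ (σ : Equiv.Perm (Fin k))
    (s y θ1 θ2 ϱ η : ℝ), 1 ≤ y → 0 < θ1 → 0 < θ2 → 1 / (k : ℝ) / (y * θ1 ^ 2) ≤ ϱ → 1 / (1 : ℝ) / (y * θ2 ^ 2) ≤ ϱ → 0 < η →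
      ∃ N : ℕ, ∀ n : ℕ, N ≤ n → (regularGraphs n d).Nonempty →
        s4Pr n d k (fun G v w => ‖s4M G E ⟨s, y⟩‖ ≤ Ctr ∧ ¬ S4Good d E σ (s4X G E v w ⟨s, y⟩) θ1 θ2) ≤ (8 + 4 * (k : ℝ) ^ 2) * (A * ϱ ^ j) + η := by
  classical
  obtain ⟨A1, hA1⟩ := s4_lin_conc H j hj Ctr
  refine ⟨|A1|, abs_nonneg _, fun k hk σ s y θ1 θ2 ϱ η hy1 hθ1 hθ2 hϱ1 hϱ2 hη => ?_⟩
  have hy0 : 0 < y := by linarith
  obtain ⟨θ, hθ⟩ : ∃ θ : (Bool × Bool × Bool) ⊕ (Ch k × Ch k) → ℝ, θ = Sum.elim (fun _ => θ1) (fun _ => θ2) := ⟨_, rfl⟩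
  have hθpos : ∀ i, 0 < θ i := by
    rw [hθ]
    rintro (p | p)
    · exact hθ1
    · exact hθ2
  have hratio : ∀ i, (∑ c, ∑ c', s4Fam σ i c c' ^ 2) / (y * θ i ^ 2) ≤ ϱ := by
    rw [hθ]
    rintro (p | p)
    · exact (div_le_div_of_nonneg_right (s4_fam_sq_l hk σ p) (by positivity)).trans hϱ1
    · refine (div_le_div_of_nonneg_right ((s4_fam_sq_r σ p).trans (by norm_num)) (by positivity)).trans hϱ2
  have hratio0 : ∀ i, 0 ≤ (∑ c, ∑ c', s4Fam σ i c c' ^ 2) / (y * θ i ^ 2) := fun i =>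
    div_nonneg (Finset.sum_nonneg fun c _ => Finset.sum_nonneg fun c' _ => sq_nonneg _) (by have := hθpos i; positivity)
  obtain ⟨M, hM⟩ : ∃ M : ℝ, M = (Fintype.card ((Bool × Bool × Bool) ⊕ (Ch k × Ch k)) : ℝ) := ⟨_, rfl⟩
  have hMv : M = 8 + 4 * (k : ℝ) ^ 2 := by
    rw [hM]
    simp only [Fintype.card_sum, Fintype.card_prod, Fintype.card_bool, Fintype.card_fin]
    push_cast
    ring
  have hM0 : 0 < M := by rw [hMv]; positivity
  have hη' : 0 < η / M := by positivity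
  choose Nf hNf using fun i => hA1 k (s4Fam σ i) (s4_fam_symm σ i) s y (θ i) (η / M) hy1 (hθpos i) hη'
  refine ⟨Finset.univ.sup Nf, fun n hn hne => ?_⟩
  have hsub : ∀ (G : SimpleGraph (Fin n)) (v w : Fin k → Fin n), (‖s4M G E ⟨s, y⟩‖ ≤ Ctr ∧ ¬ S4Good d E σ (s4X G E v w ⟨s, y⟩) θ1 θ2) →
      ∃ i ∈ (Finset.univ : Finset ((Bool × Bool × Bool) ⊕ (Ch k × Ch k))),
        (‖s4M G E ⟨s, y⟩‖ ≤ Ctr ∧ 2 * θ i < ‖∑ c, ∑ c', (s4Fam σ i c c' : ℂ) * s4Dev d E (s4X G E v w ⟨s, y⟩) c c'‖) := by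
    rintro G v w ⟨h1, h2⟩
    by_contra hcon
    apply h2
    intro i
    rw [← hθ]
    exact not_lt.1 fun hlt => hcon ⟨i, Finset.mem_univ i, h1, hlt⟩
  refine (s4_Pr_mono hsub).trans ((s4_Pr_fin _ _).trans ?_)
  have : ∀ i ∈ (Finset.univ : Finset ((Bool × Bool × Bool) ⊕ (Ch k × Ch k))),
      s4Pr n d k (fun G v w => ‖s4M G E ⟨s, y⟩‖ ≤ Ctr ∧ 2 * θ i < ‖∑ c, ∑ c', (s4Fam σ i c c' : ℂ) * s4Dev d E (s4X G E v w ⟨s, y⟩) c c'‖)
        ≤ |A1| * ϱ ^ j + η / M := by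
    intro i _
    have h1 := hNf i n ((Finset.le_sup (Finset.mem_univ i)).trans hn) hne
    have h2 : ((∑ c, ∑ c', s4Fam σ i c c' ^ 2) / (y * θ i ^ 2)) ^ j ≤ ϱ ^ j := pow_le_pow_left₀ (hratio0 i) (hratio i) j
    have h3 : A1 * ((∑ c, ∑ c', s4Fam σ i c c' ^ 2) / (y * θ i ^ 2)) ^ j ≤ |A1| * ϱ ^ j :=
      (mul_le_mul_of_nonneg_right (le_abs_self A1) (pow_nonneg (hratio0 i) j)).trans (mul_le_mul_of_nonneg_left h2 (abs_nonneg _))
    linarith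
  refine (Finset.sum_le_sum this).trans (le_of_eq ?_)
  rw [Finset.sum_const, Finset.card_univ, nsmul_eq_mul, ← hM, ← hMv, mul_add]
  congr 1
  field_simp

/-- numbers: the closing inequality -/
theorem s4_S2_num2 {t A2 cs : ℝ} (ht : 1 ≤ t) (hcs : 0 < cs) (hB : 22 * |A2| / cs ≤ t) : |A2| * (22 * (t ^ 38)⁻¹) ≤ (t ^ 36)⁻¹ * cs := by
  have ht0 : 0 < t := by linarith
  have c3 : 22 * |A2| ≤ t ^ 2 * cs := by
    rw [div_le_iff₀ hcs] at hB
    have : t ≤ t ^ 2 := by nlinarith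
    exact hB.trans (mul_le_mul_of_nonneg_right this hcs.le)
  have c4 : (t ^ 36)⁻¹ = t ^ 2 * (t ^ 38)⁻¹ := by field_simp
  rw [c4]
  have c5 : 0 ≤ (t ^ 38)⁻¹ := by positivity
  calc |A2| * (22 * (t ^ 38)⁻¹) = 22 * |A2| * (t ^ 38)⁻¹ := by ring
    _ ≤ t ^ 2 * cs * (t ^ 38)⁻¹ := mul_le_mul_of_nonneg_right c3 c5
    _ = _ := by ring

/-- S2, deterministic closing on the good event -/
theorem s4_S2_close {d : ℕ} {E : ℝ} (hd : 3 ≤ d) (hE : |E| < 2 * Real.sqrt ((d : ℝ) - 1)) {A2 : ℝ}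
    (hA2 : ∀ (n : ℕ), 0 < n → ∀ (k : ℕ), 0 < k → ∀ (σ : Equiv.Perm (Fin k)),
      (∀ t, σ (σ t) = t) → (∀ t, σ t ≠ t) → ∀ {G : SimpleGraph (Fin n)} {v w : Fin k → Fin n}, Sw7Ind G v w → ∀ {z : ℂ}, 1 ≤ z.im → ∀ e1 e2 : ℝ, 0 ≤ e1 → 0 ≤ e2 →
      ‖s4M G E z‖ ≤ ‖s4Ms d E‖ + 33 → ‖s4M (sw7G G v w σ) E z‖ ≤ ‖s4Ms d E‖ + 33 →
      S4Avg d E σ (s4X G E v w z) e1 → S4Avg d E σ (s4X (sw7G G v w σ) E v (w ∘ σ) z) e1 →
      (∀ c c', ‖s4Dev d E (s4X G E v w z) c c'‖ ≤ e2) → (∀ c c', ‖s4Dev d E (s4X (sw7G G v w σ) E v (w ∘ σ) z) c c'‖ ≤ e2) →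
      ‖dsPhi d E (s4M G E z)‖ ≤ A2 * (e1 + k * e2 ^ 2 + k / z.im))
    {t : ℝ} (ht1 : 1 ≤ t) (htB : 22 * |A2| / ((1 - (E / d) ^ 2) * (Real.pi * kestenMcKay d E)) ≤ t) {r : ℕ}
    (hk1 : 2 * t ^ 20 ≤ ((2 * r : ℕ) : ℝ)) (hk2 : ((2 * r : ℕ) : ℝ) ≤ 4 * t ^ 20) {n : ℕ} (f3 : 0 < n)
    {G : SimpleGraph (Fin n)} {v w : Fin (2 * r) → Fin n} (hI : Sw7Ind G v w) (s : ℝ)
    (h1' : ‖s4M G E ⟨s, t ^ 60⟩ - s4Ms d E‖ ≤ 1)
    (hb : ‖s4M G E ⟨s, t ^ 60⟩‖ ≤ ‖s4Ms d E‖ + 33 →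
      S4Good d E (s4Pair r) (s4X G E v w ⟨s, t ^ 60⟩) (t / Real.sqrt (((2 * r : ℕ) : ℝ) * t ^ 60)) ((t ^ 29)⁻¹))
    (hb' : ‖s4M (sw7G G v w (s4Pair r)) E ⟨s, t ^ 60⟩‖ ≤ ‖s4Ms d E‖ + 33 →
      S4Good d E (s4Pair r) (s4X (sw7G G v w (s4Pair r)) E v (w ∘ s4Pair r) ⟨s, t ^ 60⟩) (t / Real.sqrt (((2 * r : ℕ) : ℝ) * t ^ 60)) ((t ^ 29)⁻¹)) :
    ‖s4M G E ⟨s, t ^ 60⟩ - s4Ms d E‖ ≤ (t ^ 36)⁻¹ := by
  have ht0 : 0 < t := by linarith
  have hy0 : 0 < t ^ 60 := by positivity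
  have hy1 : 1 ≤ t ^ 60 := one_le_pow₀ ht1
  have hz : 0 < (⟨s, t ^ 60⟩ : ℂ).im := hy0
  have hk0 : 0 < 2 * r := by
    have : (0 : ℝ) < ((2 * r : ℕ) : ℝ) := lt_of_lt_of_le (by positivity) hk1
    exact_mod_cast this
  obtain ⟨n1, -, -, n4⟩ := s4_S2_num ht1 hk1 hk2
  have hcs := ds_cs_pos hd hE
  have hm : ‖s4M G E ⟨s, t ^ 60⟩‖ ≤ ‖s4Ms d E‖ + 1 := by
    have := norm_add_le (s4M G E ⟨s, t ^ 60⟩ - s4Ms d E) (s4Ms d E)
    rw [sub_add_cancel] at this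
    linarith
  have hmC : ‖s4M G E ⟨s, t ^ 60⟩‖ ≤ ‖s4Ms d E‖ + 33 := by linarith
  have hm' : ‖s4M (sw7G G v w (s4Pair r)) E ⟨s, t ^ 60⟩‖ ≤ ‖s4Ms d E‖ + 33 := by
    have a1 := s4_sw_trace f3 hI (s4Pair r) E hz
    have a2 : 8 * ((2 * r : ℕ) : ℝ) / (⟨s, t ^ 60⟩ : ℂ).im ≤ 32 := by
      show 8 * ((2 * r : ℕ) : ℝ) / t ^ 60 ≤ 32
      rw [div_le_iff₀ hy0]
      have : t ^ 20 ≤ t ^ 60 := pow_le_pow_right₀ ht1 (by norm_num)
      linarith
    have a3 := norm_add_le (s4M (sw7G G v w (s4Pair r)) E ⟨s, t ^ 60⟩ - s4M G E ⟨s, t ^ 60⟩) (s4M G E ⟨s, t ^ 60⟩)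
    rw [sub_add_cancel] at a3
    linarith
  have good := hb hmC
  have good' := hb' hm'
  obtain ⟨b1, b2⟩ := s4_avg_of_good hk0 d E (s4Pair r) (s4X G E v w ⟨s, t ^ 60⟩) (s4_dev_symm f3 d G E v w hz) _ _
    (fun x x' tw => good (Sum.inl (x, x', tw))) (fun c c' => good (Sum.inr (c, c')))
  obtain ⟨b3, b4⟩ := s4_avg_of_good hk0 d E (s4Pair r) (s4X (sw7G G v w (s4Pair r)) E v (w ∘ s4Pair r) ⟨s, t ^ 60⟩)
    (s4_dev_symm f3 d _ E v _ hz) _ _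
    (fun x x' tw => good' (Sum.inl (x, x', tw))) (fun c c' => good' (Sum.inr (c, c')))
  have hPhi := hA2 n f3 (2 * r) hk0 (s4Pair r) (s4_pair_invol r) (s4_pair_ne r) hI (z := ⟨s, t ^ 60⟩) hy1
    (2 * (t / Real.sqrt (((2 * r : ℕ) : ℝ) * t ^ 60))) (2 * (t ^ 29)⁻¹) (by positivity) (by positivity) hmC hm' b1 b3 b2 b4
  have hst := ds_phi_stab hd hE (s4_M_im_nonneg f3 G E hz)
  have c1 : ‖dsPhi d E (s4M G E ⟨s, t ^ 60⟩)‖ ≤ |A2| * (22 * (t ^ 38)⁻¹) := by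
    refine hPhi.trans ?_
    refine (mul_le_mul_of_nonneg_right (le_abs_self A2) ?_).trans (mul_le_mul_of_nonneg_left n4 (abs_nonneg _))
    have : 0 < (⟨s, t ^ 60⟩ : ℂ).im := hz
    positivity
  refine hst.trans ?_
  rw [div_le_iff₀ hcs]
  exact c1.trans (s4_S2_num2 ht1 hcs htB)


/-- numbers: the probability of the bad event in the scale `t = y^{1/60}` -/
theorem s4_S2_num3 {t kR A D : ℝ} {j : ℕ} (ht : 1 ≤ t) (hA : 0 ≤ A) (hk0 : 0 ≤ kR) (hk2 : kR ≤ 4 * t ^ 20) (hjD : 60 * D + 40 ≤ 2 * (j : ℝ)) :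
    (8 + 4 * kR ^ 2) * (A * ((t ^ 2)⁻¹) ^ j) ≤ 72 * A * t ^ (-(60 * D)) := by
  have ht0 : 0 < t := by linarith
  have hM72 : 8 + 4 * kR ^ 2 ≤ 72 * t ^ 40 := by
    have h1 : kR ^ 2 ≤ (4 * t ^ 20) ^ 2 := pow_le_pow_left₀ hk0 hk2 2
    have h2 : (1 : ℝ) ≤ t ^ 40 := one_le_pow₀ ht
    have h3 : (4 * t ^ 20) ^ 2 = 16 * t ^ 40 := by ring
    linarith
  have e1 : t ^ 40 * ((t ^ 2)⁻¹) ^ j ≤ t ^ (-(60 * D)) := by
    have : t ^ 40 * ((t ^ 2)⁻¹) ^ j = t ^ ((40 : ℝ) - 2 * (j : ℝ)) := by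
      rw [Real.rpow_sub ht0, div_eq_mul_inv, inv_pow, ← pow_mul]
      congr 1
      · exact (Real.rpow_natCast t 40).symm
      · rw [← Real.rpow_natCast]; push_cast; rfl
    rw [this]
    exact Real.rpow_le_rpow_of_exponent_le ht (by linarith)
  have e2 : 0 ≤ A * ((t ^ 2)⁻¹) ^ j := by positivity
  calc (8 + 4 * kR ^ 2) * (A * ((t ^ 2)⁻¹) ^ j) ≤ 72 * t ^ 40 * (A * ((t ^ 2)⁻¹) ^ j) := mul_le_mul_of_nonneg_right hM72 e2
    _ = 72 * A * (t ^ 40 * ((t ^ 2)⁻¹) ^ j) := by ring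
    _ ≤ _ := mul_le_mul_of_nonneg_left e1 (by positivity)

/-- **LEAF** (glue of probabilities) S2.      `ε = 1/60`, `r = ⌈y^{1/3}⌉`, `k = 2r`, `σ = s4Pair r`, `e1 = 2 (k y)^{-1/2} y^ε`, `e2 = 2 y^{-1/2+ε}`, `j` with `2 j ε ≥ D + 1`.
`P(‖m - m_*‖ > y^{-3/5}) ≤ P(¬Ind) + P(‖m - m_*‖ > 1) [s4_E1_two] + P(bad) + P(Ind ∧ bad∘sw) [= P(Ind ∧ bad), s4_E_exch]`, `bad = ‖m‖ ≤ Ctr ∧ (¬Avg ∨ ¬Ent)`: `s4_lin_conc` for the 6 pattern matrices `Θ = k⁻¹ ∑_t sym(e e ᵀ)` (`‖Θ‖²_HS ≤ 2/k`) and the `(2k)²` entries;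
`s4_sw_trace`: `‖m̂‖ ≤ ‖m_*‖ + 1 + 8k/y`; `s4_S2_det`, `ds_phi_stab`; `A y^{-2/3+1/30} ≤ y^{-3/5}`. -/
theorem s4_E1tr {d : ℕ} {E : ℝ} (H : S4Hyp d E) (D : ℝ) :
    ∃ C y0 : ℝ, ∀ s y : ℝ, y0 ≤ y → ∀ η : ℝ, 0 < η → ∃ N : ℕ, ∀ n : ℕ, N ≤ n → (regularGraphs n d).Nonempty →
      s4Pg n d (fun G => y ^ (-(3 / 5 : ℝ)) < ‖s4M G E ⟨s, y⟩ - s4Ms d E‖) ≤ C * y ^ (-D) + η := by
  classical
  have hd := H.hd
  have hE := H.hE
  obtain ⟨A2, hA2⟩ := s4_S2_det hd hE (‖s4Ms d E‖ + 33)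
  obtain ⟨j, hj, hjD⟩ : ∃ j : ℕ, 1 ≤ j ∧ 60 * D + 40 ≤ 2 * (j : ℝ) := by
    obtain ⟨m, hm⟩ := exists_nat_ge (60 * D + 40)
    refine ⟨m + 1, by omega, ?_⟩
    have : (0 : ℝ) ≤ m := Nat.cast_nonneg _
    push_cast; linarith
  obtain ⟨A1, hA10, hA1⟩ := s4_S2_bad H j hj (‖s4Ms d E‖ + 33)
  obtain ⟨C0, ya, hC0⟩ := s4_E1_two H 2 le_rfl D
  obtain ⟨B, hB⟩ : ∃ B : ℝ, B = 22 * |A2| / ((1 - (E / d) ^ 2) * (Real.pi * kestenMcKay d E)) := ⟨_, rfl⟩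
  refine ⟨|C0| + 144 * A1, max ya ((max 1 B) ^ 60), fun s y hy η hη => ?_⟩
  -- the scale `t`
  have hB1 : (1 : ℝ) ≤ max 1 B := le_max_left _ _
  have hyB : (max 1 B) ^ 60 ≤ y := (le_max_right _ _).trans hy
  have hy1 : 1 ≤ y := (one_le_pow₀ hB1).trans hyB
  have hy0 : 0 < y := by linarith
  obtain ⟨t, ht⟩ : ∃ t : ℝ, t = y ^ ((1 : ℝ) / 60) := ⟨_, rfl⟩
  have ht60 : t ^ 60 = y := by
    rw [ht, ← Real.rpow_natCast, ← Real.rpow_mul hy0.le]; norm_num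
  have htB : max 1 B ≤ t := by
    rw [ht]
    calc max 1 B = ((max 1 B) ^ 60) ^ ((1 : ℝ) / 60) := by
          rw [← Real.rpow_natCast, ← Real.rpow_mul (by linarith)]; norm_num
      _ ≤ y ^ ((1 : ℝ) / 60) := Real.rpow_le_rpow (by positivity) hyB (by norm_num)
  have ht1 : 1 ≤ t := hB1.trans htB
  have ht0 : 0 < t := by linarith
  have hy35 : y ^ (-(3 / 5 : ℝ)) = (t ^ 36)⁻¹ := by
    rw [Real.rpow_neg hy0.le, ht, ← Real.rpow_natCast, ← Real.rpow_mul hy0.le]; norm_num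
  have hyD : y ^ (-D) = t ^ (-(60 * D)) := by
    rw [← ht60, ← Real.rpow_natCast, ← Real.rpow_mul ht0.le]; congr 1; push_cast; ring
  -- the number of edges
  obtain ⟨r, hr⟩ : ∃ r : ℕ, r = ⌈t ^ 20⌉₊ := ⟨_, rfl⟩
  have h20 : (1 : ℝ) ≤ t ^ 20 := one_le_pow₀ ht1
  have hr1 : t ^ 20 ≤ r := hr ▸ Nat.le_ceil _
  have hr2 : (r : ℝ) < t ^ 20 + 1 := hr ▸ Nat.ceil_lt_add_one (by positivity)
  have hkc : ((2 * r : ℕ) : ℝ) = 2 * (r : ℝ) := by push_cast; ring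
  have hk1 : 2 * t ^ 20 ≤ ((2 * r : ℕ) : ℝ) := by rw [hkc]; linarith
  have hk2 : ((2 * r : ℕ) : ℝ) ≤ 4 * t ^ 20 := by rw [hkc]; linarith
  have hk0 : 0 < 2 * r := by
    have : (0 : ℝ) < ((2 * r : ℕ) : ℝ) := lt_of_lt_of_le (by positivity) hk1
    exact_mod_cast this
  obtain ⟨n1, n2, n3, -⟩ := s4_S2_num ht1 hk1 hk2
  have num3 := s4_S2_num3 (D := D) (j := j) ht1 hA10 (Nat.cast_nonneg (2 * r)) hk2 hjD
  subst ht60
  obtain ⟨Nc, hNc⟩ := hA1 (2 * r) hk0 (s4Pair r) s (t ^ 60) _ _ ((t ^ 2)⁻¹) (η / 8) hy1 n1 (by positivity) n2.le n3.le (by linarith)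
  obtain ⟨Na, hNa⟩ := hC0 s (t ^ 60) ((le_max_left _ _).trans hy) (η / 4) (by linarith)
  obtain ⟨Nb, hNb⟩ := s4_large_n (4 * ((2 * r : ℕ) : ℝ) ^ 2 * ((d : ℝ) + 1)) 0 (η / 4) 1 (by linarith) one_pos
  refine ⟨max Na (max Nb Nc), fun n hn hne => ?_⟩
  obtain ⟨f1, -, f3⟩ := hNb n ((le_max_left _ _).trans ((le_max_right _ _).trans hn))
  have g1 := hNa n ((le_max_left _ _).trans hn) hne
  have pBad := hNc n ((le_max_right _ _).trans ((le_max_right _ _).trans hn)) hne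
  have hnd : 0 < n * d := Nat.mul_pos f3 (by omega)
  -- the deterministic inclusion
  have hsub : ∀ (G : SimpleGraph (Fin n)) (v w : Fin (2 * r) → Fin n), (t ^ 60) ^ (-(3 / 5 : ℝ)) < ‖s4M G E ⟨s, t ^ 60⟩ - s4Ms d E‖ →
      ((¬ Sw7Ind G v w ∨ 1 < ‖s4M G E ⟨s, t ^ 60⟩ - s4Ms d E‖) ∨
        ((‖s4M G E ⟨s, t ^ 60⟩‖ ≤ ‖s4Ms d E‖ + 33 ∧
            ¬ S4Good d E (s4Pair r) (s4X G E v w ⟨s, t ^ 60⟩) (t / Real.sqrt (((2 * r : ℕ) : ℝ) * t ^ 60)) ((t ^ 29)⁻¹)) ∨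
        (Sw7Ind G v w ∧ (‖s4M (sw7G G v w (s4Pair r)) E ⟨s, t ^ 60⟩‖ ≤ ‖s4Ms d E‖ + 33 ∧
            ¬ S4Good d E (s4Pair r) (s4X (sw7G G v w (s4Pair r)) E v (w ∘ s4Pair r) ⟨s, t ^ 60⟩) (t / Real.sqrt (((2 * r : ℕ) : ℝ) * t ^ 60)) ((t ^ 29)⁻¹))))) := by
    intro G v w hev
    by_cases hI : Sw7Ind G v w
    swap
    · exact Or.inl (Or.inl hI)
    by_cases h1 : 1 < ‖s4M G E ⟨s, t ^ 60⟩ - s4Ms d E‖
    · exact Or.inl (Or.inr h1)
    by_cases hb : ‖s4M G E ⟨s, t ^ 60⟩‖ ≤ ‖s4Ms d E‖ + 33 ∧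
            ¬ S4Good d E (s4Pair r) (s4X G E v w ⟨s, t ^ 60⟩) (t / Real.sqrt (((2 * r : ℕ) : ℝ) * t ^ 60)) ((t ^ 29)⁻¹)
    · exact Or.inr (Or.inl hb)
    by_cases hb' : ‖s4M (sw7G G v w (s4Pair r)) E ⟨s, t ^ 60⟩‖ ≤ ‖s4Ms d E‖ + 33 ∧
            ¬ S4Good d E (s4Pair r) (s4X (sw7G G v w (s4Pair r)) E v (w ∘ s4Pair r) ⟨s, t ^ 60⟩) (t / Real.sqrt (((2 * r : ℕ) : ℝ) * t ^ 60)) ((t ^ 29)⁻¹)
    · exact Or.inr (Or.inr ⟨hI, hb'⟩)
    exfalso
    have := s4_S2_close hd hE hA2 ht1 (hB ▸ (le_max_right _ _).trans htB) hk1 hk2 f3 hI s (not_lt.1 h1)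
      (fun h => by_contra fun hc => hb ⟨h, hc⟩) (fun h => by_contra fun hc => hb' ⟨h, hc⟩)
    rw [hy35] at hev
    exact absurd hev (not_lt.2 this)
  -- probabilities
  have p1 := s4_Pr_ind (k := 2 * r) hne hnd
  have p2 : s4Pr n d (2 * r) (fun G _ _ => 1 < ‖s4M G E ⟨s, t ^ 60⟩ - s4Ms d E‖) ≤ C0 * (t ^ 60) ^ (-D) + η / 4 := by
    rw [s4_Pr_graph hnd, ← s4_Pr_graph (k := 2) hnd]
    refine (s4_Pr_mono ?_).trans g1
    intro G v w h hnear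
    have h2 : (t ^ 60) ^ (-(1 / 4 : ℝ)) ≤ 1 := Real.rpow_le_one_of_one_le_of_nonpos hy1 (by norm_num)
    have h3 : ‖s4M G E ⟨s, t ^ 60⟩ - s4Ms d E‖ ≤ (t ^ 60) ^ (-(1 / 4 : ℝ)) := hnear.1
    linarith
  have p4 := s4_Pr_exch (n := n) (d := d) (s4Pair r)
    (fun G v w => ‖s4M G E ⟨s, t ^ 60⟩‖ ≤ ‖s4Ms d E‖ + 33 ∧
            ¬ S4Good d E (s4Pair r) (s4X G E v w ⟨s, t ^ 60⟩) (t / Real.sqrt (((2 * r : ℕ) : ℝ) * t ^ 60)) ((t ^ 29)⁻¹))
  have hu := (s4_Pr_mono (d := d) hsub).trans ((s4_Pr_or _ _).trans (add_le_add (s4_Pr_or _ _) (s4_Pr_or _ _)))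
  rw [s4_Pr_graph hnd] at hu
  have q1 : C0 * (t ^ 60) ^ (-D) ≤ |C0| * (t ^ 60) ^ (-D) := mul_le_mul_of_nonneg_right (le_abs_self _) (Real.rpow_pos_of_pos hy0 _).le
  rw [← hyD] at num3
  have p4' := p4.trans pBad
  linarith

/-! ## I. the exact switch in expectation      (tightness and local finiteness of the labels: `s4_tight_pf`, `s4_locfin_pf` in `S4Win.lean`, proved by helper244) -/

theorem s4d_eqns_cite : True := by
  have := @dsPhi.eq_1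
  have := @s4Band.eq_1
  have := @s4FL.eq_1
  have := @S4Init.eq_1
  have := @s4Ht.eq_1
  have := @S4Conc1.eq_1
  have := @S4Conc.eq_1
  have := @s4Perm.eq_1
  have := @s4Sw.eq_1
  have := @s4Ctr.eq_1
  have := @s4Dev.eq_1
  have := @s4Pair.eq_1
  have := @S4Avg.eq_1
  trivial

/-- **NODE N4** (the exact switch at finite `n`).      On the induced matchings `s4X (sw7G G v w σ) v (w ∘ σ) = swT σ (s4X G v w)` (`rs_woodbury`, `sw7_adjMatrix`) and the switch preserves the uniform weight (`sw7_exch_ind`); off them: probability `≤ 4 k² (d+1)/n` for every graph (`s4_Ec_ind`); `s4_sw_X`, `s4_E_exch`; `swapMat k hk = s4Perm (s4Sw k hk)⁻¹`. -/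
theorem s4_switch {d : ℕ} (E : ℝ) (k : ℕ) (hk : 2 ≤ k) {b : ℕ} (z : Fin b → ℂ) (hz : ∀ i, 0 < (z i).im) (n : ℕ)
    (F : (Fin b → SwSt k) → ℝ) (hF : ∀ s, |F s| ≤ 1) :
    |s4E n d k (fun G v w => F fun i => swT (swapMat k hk) (s4X G E v w (z i))) - s4E n d k (fun G v w => F fun i => s4X G E v w (z i))|
      ≤ 8 * (k : ℝ) ^ 2 * ((d : ℝ) + 1) / n := by
  classical
  have hrhs : 0 ≤ 8 * (k : ℝ) ^ 2 * ((d : ℝ) + 1) / n := by positivity
  by_cases hne : (regularGraphs n d).Nonempty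
  swap
  · rw [Finset.not_nonempty_iff_eq_empty] at hne
    unfold s4E s4Eg
    rw [hne]
    simpa using hrhs
  by_cases hn : 0 < n * d
  swap
  · have h0 : ((n : ℝ) * d) ^ k = 0 := by
      have : n * d = 0 := by omega
      have h1 : ((n : ℝ) * d) = 0 := by exact_mod_cast this
      rw [h1]
      exact zero_pow (by omega)
    unfold s4E s4Ec
    rw [h0]
    simpa using hrhs
  have hn0 : 0 < n := Nat.pos_of_mul_pos_right hn
  set σ := s4Sw k hk with hσ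
  have hσi : σ⁻¹ = σ := Equiv.swap_inv _ _
  have hmat : swapMat k hk = s4Perm σ⁻¹ := by rw [hσi]; rfl
  set A : SimpleGraph (Fin n) → (Fin k → Fin n) → (Fin k → Fin n) → ℝ := fun G v w => F fun i => swT (swapMat k hk) (s4X G E v w (z i)) with hA
  set B : SimpleGraph (Fin n) → (Fin k → Fin n) → (Fin k → Fin n) → ℝ := fun G v w => F fun i => s4X G E v w (z i) with hB
  have hAB : ∀ G v w, Sw7Ind G v w → A G v w = B (sw7G G v w σ) v (w ∘ σ) := by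
    intro G v w h
    simp only [hA, hB]
    congr 1
    funext i
    rw [s4_sw_X hn0 h σ E (hz i), hmat]
  have split : ∀ X : SimpleGraph (Fin n) → (Fin k → Fin n) → (Fin k → Fin n) → ℝ,
      s4E n d k X = s4E n d k (fun G v w => if Sw7Ind G v w then X G v w else 0) + s4E n d k (fun G v w => if Sw7Ind G v w then 0 else X G v w) := by
    intro X
    have := s4_E_lin (n := n) (d := d) (k := k) (fun G v w => if Sw7Ind G v w then X G v w else 0) (fun G v w => if Sw7Ind G v w then 0 else X G v w) 1 1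
    rw [one_mul, one_mul] at this
    rw [← this]
    refine s4_E_congr fun G _ v w _ => ?_
    by_cases h : Sw7Ind G v w <;> simp [h]
  have small : ∀ X : SimpleGraph (Fin n) → (Fin k → Fin n) → (Fin k → Fin n) → ℝ, (∀ G v w, |X G v w| ≤ 1) →
      |s4E n d k (fun G v w => if Sw7Ind G v w then 0 else X G v w)| ≤ 4 * (k : ℝ) ^ 2 * ((d : ℝ) + 1) / n := by
    intro X hX
    refine (s4_E_abs_le _).trans (le_trans ?_ (s4_Pr_ind (k := k) hne hn))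
    unfold s4Pr
    refine s4_E_mono fun G _ v w _ => ?_
    by_cases h : Sw7Ind G v w
    · simp [h]
    · simpa [h] using hX G v w
  have exch : s4E n d k (fun G v w => if Sw7Ind G v w then A G v w else 0) = s4E n d k (fun G v w => if Sw7Ind G v w then B G v w else 0) := by
    rw [← s4_E_exch σ B]
    refine s4_E_congr fun G _ v w _ => ?_
    by_cases h : Sw7Ind G v w
    · rw [if_pos h, if_pos h, hAB G v w h]
    · rw [if_neg h, if_neg h]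
  rw [split A, split B, exch]
  have s1 := small A (fun G v w => hF _)
  have s2 := small B (fun G v w => hF _)
  have e : ∀ p q r : ℝ, p + q - (p + r) = q - r := fun p q r => by ring
  rw [e]
  calc _ ≤ |s4E n d k (fun G v w => if Sw7Ind G v w then 0 else A G v w)| + |s4E n d k (fun G v w => if Sw7Ind G v w then 0 else B G v w)| := abs_sub _ _
    _ ≤ 4 * (k : ℝ) ^ 2 * ((d : ℝ) + 1) / n + 4 * (k : ℝ) ^ 2 * ((d : ℝ) + 1) / n := add_le_add s1 s2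
    _ = _ := by ring


end

end Claimed.Agent.R287
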