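-- KEEP
import Claimed.Agent.R287.S4Desc

/-!
# Row 287 (S0534), unit S4, node N2 = `s4_window` (window representation at finite `n`)      (deputy D1 = helper244; prefix `s4w`; head helper289)

EXIT: `s4_window_pf` = verbatim statement of the node `s4_window` of `R287/S4.lean`.
ROUTE (shorter than the docstring of the node: no import I1, no scale `S = n^ε`): THE ANCHOR `z0 = iR` ITSELF.      `u_i(ζ) = 1/(x_i - ζ)`, `In` = the eigen-indices with a label `|j| ≤ L`.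
If all the labels `|j| ≤ L` are in range, EXACTLY (`s4w_id_m`, `s4w_id_M`, `s4w_id_Mp`):
   `m_n(z) - a          = [m_n(iR) - m_*] + ∑_{i ∉ In} (u_i(z) - u_i(iR))`
   `M_n(z) - Y.2.1      = [M_n(iR) - K_k(m_*)] + ∑_{i ∉ In} b_i b_iᵀ (u_i(z) - u_i(iR)) - ∑_{i ∈ In} (b_i b_iᵀ - C_k) u_i(iR)`
   `M_n'(z) - Y.2.2     = ∑_{i ∉ In} b_i b_iᵀ u_i(z)²`.
TERM 1: `s4_E1` at `iR`.      TERM 2 (not centred: psd domination): `ds_far`, `ds_far_sq`, `s4_E1` at `iΛ`, `Λ ≫ R`; the indices `∉ In` are outside `[-Λ, Λ]` as soon as `2 Λ Im m_n(iΛ) ≤ L` (`ds_near`, `tp_lab_le_iff`, `tp_le_lab_iff`).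
TERM 3 = `s4wT3`: `s4_mom2j` at `j = 1` (`S4Mom .. 2 4`): conditional second moment `≤ A Im m_n(iR)/R + 8 δ_n ((2L+1)/R)²`; the labels `|j| ≤ L` are in range and in the band by `s4_tight`.
-/

set_option autoImplicit false

namespace Claimed.Agent.R287

open MeasureTheory ProbabilityTheory Matrix Filter Topology Claims.C0462

noncomputable section

/-! ## 1. vocabulary -/

open Classical in
/-- the eigen-indices whose label is in the window `|j| ≤ L` -/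
def s4wIn {n : ℕ} (E : ℝ) (L : ℕ) (G : SimpleGraph (Fin n)) : Finset (Fin n) :=
  Finset.univ.filter fun i => ∃ a : Win L, s4Idx E G (wIdx a) = some i

/-- all the labels of the window are in range -/
def S4wRange {n : ℕ} (E : ℝ) (L : ℕ) (G : SimpleGraph (Fin n)) : Prop := ∀ a : Win L, ∃ i, s4Idx E G (wIdx a) = some i

/-- all the labels of the window are in `[-Λ, Λ]` -/
def S4wTight {n : ℕ} (E : ℝ) (L : ℕ) (Λ : ℝ) (G : SimpleGraph (Fin n)) : Prop :=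
  ∀ a : Win L, ((-Λ : ℝ) : EReal) ≤ tpLab (s4Spec E G) (wIdx a) ∧ tpLab (s4Spec E G) (wIdx a) ≤ (Λ : EReal)

/-- TERM 3: the centred fluctuation of the window at the anchor -/
def s4wT3 {n k : ℕ} (d : ℕ) (G : SimpleGraph (Fin n)) (E : ℝ) (L : ℕ) (R : ℝ) (v w : Fin k → Fin n) (c c' : Ch k) : ℂ :=
  ∑ i ∈ s4wIn E L G, ((s4Mark G v w i c * s4Mark G v w i c' - chC k (E / d) c c' : ℝ) : ℂ) * ((s4Pos G E i : ℂ) - (⟨0, R⟩ : ℂ))⁻¹

theorem s4w_eqns_cite : True := by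
  have := @s4wIn.eq_1
  have := @S4wRange.eq_1
  have := @S4wTight.eq_1
  have := @s4wT3.eq_1
  trivial

/-! ## 2. labels -/

/-- the spectrum as the multiset of the positions (`IsHermitian.roots_charpoly_eq_eigenvalues`) -/
theorem s4w_spec {n : ℕ} (E : ℝ) (G : SimpleGraph (Fin n)) : s4Spec E G = Finset.univ.val.map (s4Pos G E) := by
  unfold s4Spec tpSpecG
  have h := (s4_herm G).roots_charpoly_eq_eigenvalues
  unfold s4A at h
  rw [h, Multiset.map_map]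
  rfl

theorem s4w_wIdx_inj {L : ℕ} : Function.Injective (wIdx : Win L → ℤ) := by
  intro a b h
  unfold wIdx at h
  apply Fin.ext
  omega

/-- window sums = sums over `In` -/
theorem s4w_sum {n k : ℕ} {E : ℝ} {L : ℕ} {G : SimpleGraph (Fin n)} (h : S4wRange E L G) (v w : Fin k → Fin n) (F : ℝ → (Ch k → ℝ) → ℂ) :
    ∑ a : Win L, F (s4Win E L G a) (s4Beta E k L G v w a) = ∑ i ∈ s4wIn E L G, F (s4Pos G E i) (s4Mark G v w i) := by
  classical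
  choose f hf using h
  have hs := s4_idx_spec E G
  refine Finset.sum_bij (fun a _ => f a) (fun a _ => ?_) (fun a _ b _ hab => ?_) (fun i hi => ?_) (fun a _ => ?_)
  · unfold s4wIn
    rw [Finset.mem_filter]
    exact ⟨Finset.mem_univ _, a, hf a⟩
  · exact s4w_wIdx_inj (hs.inj _ _ (f a) (hf a) (by rw [hab]; exact hf b))
  · unfold s4wIn at hi
    rw [Finset.mem_filter] at hi
    obtain ⟨-, a, ha⟩ := hi
    refine ⟨a, Finset.mem_univ _, ?_⟩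
    have := hf a
    rw [ha] at this
    exact (Option.some.inj this).symm
  · have e1 : s4Win E L G a = s4Pos G E (f a) := by
      unfold s4Win
      rw [hs.pos _ _ (hf a)]
      rfl
    have e2 : s4Beta E k L G v w a = s4Mark G v w (f a) := by
      funext c
      unfold s4Beta
      rw [hf a]
      rfl
    rw [e1, e2]

theorem s4w_card {n : ℕ} (E : ℝ) (L : ℕ) (G : SimpleGraph (Fin n)) : (s4wIn E L G).card ≤ 2 * L + 1 := by
  classical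
  have hsub : s4wIn E L G ⊆ (Finset.univ : Finset (Win L)).biUnion fun a => (s4Idx E G (wIdx a)).toFinset := by
    intro i hi
    unfold s4wIn at hi
    rw [Finset.mem_filter] at hi
    obtain ⟨-, a, ha⟩ := hi
    rw [Finset.mem_biUnion]
    exact ⟨a, Finset.mem_univ _, by rw [ha]; simp⟩
  refine (Finset.card_le_card hsub).trans (Finset.card_biUnion_le.trans ?_)
  calc ∑ a : Win L, (s4Idx E G (wIdx a)).toFinset.card ≤ ∑ _a : Win L, 1 := Finset.sum_le_sum fun a _ => by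
        cases s4Idx E G (wIdx a) <;> simp
    _ = 2 * L + 1 := by simp

/-- tight labels are in range and in the band -/
theorem s4w_range {n : ℕ} {E : ℝ} {L : ℕ} {Λ : ℝ} {G : SimpleGraph (Fin n)} (h : S4wTight E L Λ G) :
    S4wRange E L G ∧ ∀ i ∈ s4wIn E L G, |s4Pos G E i| ≤ Λ := by
  classical
  have hs := s4_idx_spec E G
  constructor
  · intro a
    rcases hi : s4Idx E G (wIdx a) with _ | i
    · exfalso
      rcases hs.none _ hi with h1 | h1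
      · have := (h a).2
        rw [h1] at this
        exact absurd this (not_le.2 (EReal.coe_lt_top _))
      · have := (h a).1
        rw [h1] at this
        exact absurd this (not_le.2 (EReal.bot_lt_coe _))
    · exact ⟨i, rfl⟩
  · intro i hi
    unfold s4wIn at hi
    rw [Finset.mem_filter] at hi
    obtain ⟨-, a, ha⟩ := hi
    have h1 := h a
    rw [hs.pos _ _ ha] at h1
    rw [abs_le]
    exact ⟨EReal.coe_le_coe_iff.1 h1.1, EReal.coe_le_coe_iff.1 h1.2⟩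

theorem s4w_im_nonneg (x : ℝ) {z : ℂ} (hz : 0 < z.im) : 0 ≤ (((x : ℂ) - z)⁻¹).im := by
  have h1 := ds_ward x hz
  have h2 : (((x : ℂ) - z)⁻¹).im = ‖((x : ℂ) - z)⁻¹‖ ^ 2 * z.im := by
    rw [h1]
    field_simp
  rw [h2]
  positivity

/-- counts: `#{|x_i| ≤ Λ} ≤ 2 Λ Im m_n(iΛ)` (`ds_near`, `s4_M_spec`) -/
theorem s4w_count {n : ℕ} (hn : 0 < n) (G : SimpleGraph (Fin n)) (E : ℝ) {Λ : ℝ} (hΛ : 0 < Λ) :
    ((s4Band G E Λ).card : ℝ) ≤ 2 * Λ * (s4M G E ⟨0, Λ⟩).im := by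
  classical
  have hz : (⟨0, Λ⟩ : ℂ).im ≠ 0 := hΛ.ne'
  rw [s4_M_spec hn G E hz, Complex.im_sum]
  have h1 : ∑ _i ∈ s4Band G E Λ, 1 / (2 * Λ) ≤ ∑ i, (((s4Pos G E i : ℂ) - (⟨0, Λ⟩ : ℂ))⁻¹).im :=
    (Finset.sum_le_sum fun i hi => ds_near hΛ (by unfold s4Band at hi; exact (Finset.mem_filter.1 hi).2)).trans
      (Finset.sum_le_sum_of_subset_of_nonneg (Finset.subset_univ _) fun i _ _ => s4w_im_nonneg _ hΛ)
  rw [Finset.sum_const, nsmul_eq_mul] at h1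
  have e : ((s4Band G E Λ).card : ℝ) = 2 * Λ * (((s4Band G E Λ).card : ℝ) * (1 / (2 * Λ))) := by field_simp
  rw [e]
  gcongr

theorem s4w_card_filter {n : ℕ} (E : ℝ) (G : SimpleGraph (Fin n)) {Λ : ℝ} (p : ℝ → Prop) [DecidablePred p] (hp : ∀ r, p r → |r| ≤ Λ) :
    Multiset.card ((s4Spec E G).filter p) ≤ (s4Band G E Λ).card := by
  classical
  rw [s4w_spec, Multiset.filter_map, Multiset.card_map]
  have e : Multiset.filter (p ∘ s4Pos G E) Finset.univ.val = (Finset.univ.filter (p ∘ s4Pos G E)).val := rfl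
  rw [e, Finset.card_val]
  refine Finset.card_le_card fun i hi => ?_
  unfold s4Band
  rw [Finset.mem_filter] at hi ⊢
  exact ⟨Finset.mem_univ _, hp _ hi.2⟩

/-- an index whose label is outside the window is outside `[-Λ, Λ]` if the band has at most `L` points (`tp_lab_le_iff`, `tp_le_lab_iff`, `s4w_spec`) -/
theorem s4w_far {n : ℕ} {E : ℝ} {L : ℕ} {Λ : ℝ} {G : SimpleGraph (Fin n)} (hc : (s4Band G E Λ).card ≤ L) (i : Fin n) (hi : i ∉ s4wIn E L G) :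
    Λ < |s4Pos G E i| := by
  classical
  have hs := s4_idx_spec E G
  obtain ⟨j, hj⟩ := hs.surj i
  by_contra hcon
  push Not at hcon
  have hlab := hs.pos j i hj
  have hjout : (L : ℤ) < |j| := by
    by_contra hle
    push Not at hle
    have hle' := abs_le.1 hle
    apply hi
    unfold s4wIn
    rw [Finset.mem_filter]
    refine ⟨Finset.mem_univ _, ⟨⟨(j + L).toNat, by omega⟩, ?_⟩⟩
    have e : wIdx (⟨(j + L).toNat, by omega⟩ : Win L) = j := by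
      unfold wIdx
      simp only
      omega
    rw [e]
    exact hj
  rcases le_or_gt 0 j with h0 | h0
  · obtain ⟨m, rfl⟩ := Int.eq_ofNat_of_zero_le h0
    have h1 := (tp_lab_le_iff (s4Spec E G) m Λ).1 (by rw [hlab]; exact EReal.coe_le_coe_iff.2 (abs_le.1 hcon).2)
    have h2 := s4w_card_filter E G (Λ := Λ) (fun r => 0 ≤ r ∧ r ≤ Λ) (fun r hr => abs_le.2 ⟨by linarith [hr.1, hr.2], hr.2⟩)
    rw [abs_of_nonneg h0] at hjout
    omega
  · obtain ⟨m, rfl⟩ : ∃ m : ℕ, j = -(m : ℤ) - 1 := ⟨(-j - 1).toNat, by omega⟩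
    have h1 := (tp_le_lab_iff (s4Spec E G) m (-Λ)).1 (by rw [hlab]; exact EReal.coe_le_coe_iff.2 (abs_le.1 hcon).1)
    have h2 := s4w_card_filter E G (Λ := Λ) (fun r => -Λ ≤ r ∧ r < 0) (fun r hr => abs_le.2 ⟨hr.1, by linarith [hr.1, hr.2]⟩)
    rw [abs_of_neg h0] at hjout
    omega

/-! ## 3. the three identities -/

theorem s4w_id_m {n k : ℕ} (hn : 0 < n) (d : ℕ) {E : ℝ} {L : ℕ} {G : SimpleGraph (Fin n)} (h : S4wRange E L G) (v w : Fin k → Fin n) {z : ℂ} (hz : 0 < z.im)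
    {R : ℝ} (hR : 0 < R) :
    (s4X G E v w z).1 - (s4Y k d E L R (s4Win E L G) (s4Beta E k L G v w) z).1
      = ((s4X G E v w ⟨0, R⟩).1 - s4Ms d E)
        + ∑ i ∈ (s4wIn E L G)ᶜ, (((s4Pos G E i : ℂ) - z)⁻¹ - ((s4Pos G E i : ℂ) - (⟨0, R⟩ : ℂ))⁻¹) := by
  classical
  show s4M G E z - s4Ya d E L R (s4Win E L G) z = (s4M G E ⟨0, R⟩ - s4Ms d E) + _
  unfold s4Ya
  rw [s4w_sum h v w (fun x _ => ((x : ℂ) - z)⁻¹ - ((x : ℂ) - (⟨0, R⟩ : ℂ))⁻¹)]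
  rw [s4_M_spec hn G E hz.ne', s4_M_spec hn G E (z := ⟨0, R⟩) hR.ne']
  rw [← Finset.sum_add_sum_compl (s4wIn E L G) (fun i => ((s4Pos G E i : ℂ) - z)⁻¹),
    ← Finset.sum_add_sum_compl (s4wIn E L G) (fun i => ((s4Pos G E i : ℂ) - (⟨0, R⟩ : ℂ))⁻¹)]
  rw [Finset.sum_sub_distrib, Finset.sum_sub_distrib]
  ring

theorem s4w_K_apply (k d : ℕ) (E : ℝ) (m : ℂ) (c c' : Ch k) :
    s4K k d E m c c' = m * ((chC k (E / d) c c' : ℝ) : ℂ) + (d : ℂ)⁻¹ * ((chJ k c c' : ℝ) : ℂ) := by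
  unfold s4K toC
  simp [Matrix.add_apply, Matrix.smul_apply, Matrix.map_apply]

theorem s4w_id_M {n k : ℕ} (hn : 0 < n) (d : ℕ) {E : ℝ} {L : ℕ} {G : SimpleGraph (Fin n)} (h : S4wRange E L G) (v w : Fin k → Fin n) {z : ℂ} (hz : 0 < z.im)
    {R : ℝ} (hR : 0 < R) (c c' : Ch k) :
    (s4X G E v w z).2.1 c c' - (s4Y k d E L R (s4Win E L G) (s4Beta E k L G v w) z).2.1 c c'
      = ((s4X G E v w ⟨0, R⟩).2.1 c c' - s4K k d E (s4Ms d E) c c')
        + ∑ i ∈ (s4wIn E L G)ᶜ, ((s4Mark G v w i c * s4Mark G v w i c' : ℝ) : ℂ) * (((s4Pos G E i : ℂ) - z)⁻¹ - ((s4Pos G E i : ℂ) - (⟨0, R⟩ : ℂ))⁻¹)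
        - s4wT3 d G E L R v w c c' := by
  classical
  have eY : (s4Y k d E L R (s4Win E L G) (s4Beta E k L G v w) z).2.1 c c'
      = s4K k d E (s4Ya d E L R (s4Win E L G) z) c c'
        + ∑ a : Win L, ((s4Win E L G a : ℂ) - z)⁻¹ * ((s4Beta E k L G v w a c * s4Beta E k L G v w a c' - chC k (E / d) c c' : ℝ) : ℂ) := by
    unfold s4Y toC
    simp only [Matrix.add_apply, Matrix.sum_apply, Matrix.smul_apply, Matrix.sub_apply, Matrix.map_apply, Matrix.vecMulVec_apply, smul_eq_mul]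
    congr 1
    refine Finset.sum_congr rfl fun a _ => ?_
    push_cast
    rfl
  rw [eY, s4w_K_apply, s4w_K_apply]
  unfold s4Ya
  rw [s4w_sum h v w (fun x _ => ((x : ℂ) - z)⁻¹ - ((x : ℂ) - (⟨0, R⟩ : ℂ))⁻¹),
    s4w_sum h v w (fun x β => ((x : ℂ) - z)⁻¹ * ((β c * β c' - chC k (E / d) c c' : ℝ) : ℂ))]
  rw [s4_X_spec hn G E v w hz.ne', s4_X_spec hn G E v w (z := ⟨0, R⟩) hR.ne']
  rw [← Finset.sum_add_sum_compl (s4wIn E L G) (fun i => ((s4Mark G v w i c * s4Mark G v w i c' : ℝ) : ℂ) * ((s4Pos G E i : ℂ) - z)⁻¹),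
    ← Finset.sum_add_sum_compl (s4wIn E L G) (fun i => ((s4Mark G v w i c * s4Mark G v w i c' : ℝ) : ℂ) * ((s4Pos G E i : ℂ) - (⟨0, R⟩ : ℂ))⁻¹)]
  unfold s4wT3
  simp only [Complex.ofReal_sub, mul_sub, sub_mul, Finset.sum_sub_distrib, ← Finset.mul_sum, ← Finset.sum_mul]
  have e1 : ∑ i ∈ s4wIn E L G, ((s4Pos G E i : ℂ) - z)⁻¹ * ((s4Mark G v w i c * s4Mark G v w i c' : ℝ) : ℂ)
      = ∑ i ∈ s4wIn E L G, ((s4Mark G v w i c * s4Mark G v w i c' : ℝ) : ℂ) * ((s4Pos G E i : ℂ) - z)⁻¹ :=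
    Finset.sum_congr rfl fun i _ => mul_comm _ _
  rw [e1]
  ring

theorem s4w_id_Mp {n k : ℕ} (hn : 0 < n) (d : ℕ) {E : ℝ} {L : ℕ} {G : SimpleGraph (Fin n)} (h : S4wRange E L G) (v w : Fin k → Fin n) {z : ℂ} (hz : 0 < z.im)
    (R : ℝ) (c c' : Ch k) :
    (s4X G E v w z).2.2 c c' - (s4Y k d E L R (s4Win E L G) (s4Beta E k L G v w) z).2.2 c c'
      = ∑ i ∈ (s4wIn E L G)ᶜ, ((s4Mark G v w i c * s4Mark G v w i c' : ℝ) : ℂ) * (((s4Pos G E i : ℂ) - z)⁻¹) ^ 2 := by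
  classical
  have eY : (s4Y k d E L R (s4Win E L G) (s4Beta E k L G v w) z).2.2 c c'
      = ∑ a : Win L, ((s4Beta E k L G v w a c * s4Beta E k L G v w a c' : ℝ) : ℂ) * (((s4Win E L G a : ℂ) - z)⁻¹) ^ 2 := by
    unfold s4Y toC
    simp only [Matrix.sum_apply, Matrix.smul_apply, Matrix.map_apply, Matrix.vecMulVec_apply, smul_eq_mul]
    exact Finset.sum_congr rfl fun a _ => mul_comm _ _
  rw [eY, s4w_sum h v w (fun x β => ((β c * β c' : ℝ) : ℂ) * (((x : ℂ) - z)⁻¹) ^ 2), s4_Xp_spec hn G E v w hz.ne',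
    ← Finset.sum_add_sum_compl (s4wIn E L G) (fun i => ((s4Mark G v w i c * s4Mark G v w i c' : ℝ) : ℂ) * (((s4Pos G E i : ℂ) - z)⁻¹) ^ 2)]
  ring

/-! ## 4. TERM 2: the far indices -/

/-- (`ds_far`, `s4_M_spec`) -/
theorem s4w_far_m {n : ℕ} (hn : 0 < n) (G : SimpleGraph (Fin n)) (E : ℝ) {Λ : ℝ} (hΛ : 0 < Λ) (S : Finset (Fin n)) (hS : ∀ i ∈ S, Λ ≤ |s4Pos G E i|)
    {z z' : ℂ} (hz : ‖z‖ ≤ Λ / 2) (hz' : ‖z'‖ ≤ Λ / 2) :
    ‖∑ i ∈ S, (((s4Pos G E i : ℂ) - z)⁻¹ - ((s4Pos G E i : ℂ) - z')⁻¹)‖ ≤ 8 * ‖z - z'‖ / Λ * (s4M G E ⟨0, Λ⟩).im := by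
  classical
  rw [s4_M_spec hn G E (z := ⟨0, Λ⟩) hΛ.ne', Complex.im_sum]
  calc _ ≤ ∑ i ∈ S, ‖((s4Pos G E i : ℂ) - z)⁻¹ - ((s4Pos G E i : ℂ) - z')⁻¹‖ := norm_sum_le _ _
    _ ≤ ∑ i ∈ S, 8 * ‖z - z'‖ / Λ * (((s4Pos G E i : ℂ) - (⟨0, Λ⟩ : ℂ))⁻¹).im := Finset.sum_le_sum fun i hi => ds_far hΛ (hS i hi) hz hz'
    _ = 8 * ‖z - z'‖ / Λ * ∑ i ∈ S, (((s4Pos G E i : ℂ) - (⟨0, Λ⟩ : ℂ))⁻¹).im := (Finset.mul_sum _ _ _).symm
    _ ≤ _ := mul_le_mul_of_nonneg_left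
        (Finset.sum_le_sum_of_subset_of_nonneg (Finset.subset_univ _) fun i _ _ => s4w_im_nonneg _ hΛ) (by positivity)

/-- the imaginary part of a diagonal entry -/
theorem s4w_X_im {n k : ℕ} (hn : 0 < n) (G : SimpleGraph (Fin n)) (E : ℝ) (v w : Fin k → Fin n) {z : ℂ} (hz : z.im ≠ 0) (c : Ch k) :
    ((s4X G E v w z).2.1 c c).im = ∑ i, s4Mark G v w i c ^ 2 * (((s4Pos G E i : ℂ) - z)⁻¹).im := by
  rw [s4_X_spec hn G E v w hz, Complex.im_sum]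
  refine Finset.sum_congr rfl fun i _ => ?_
  rw [Complex.im_ofReal_mul]
  ring

/-- psd domination -/
theorem s4w_dom {n k : ℕ} (hn : 0 < n) (G : SimpleGraph (Fin n)) (E : ℝ) (v w : Fin k → Fin n) {Λ : ℝ} (hΛ : 0 < Λ) (S : Finset (Fin n)) (c c' : Ch k)
    {κ : ℝ} (hκ : 0 ≤ κ) (W : Fin n → ℂ) (hW : ∀ i ∈ S, ‖W i‖ ≤ κ * (((s4Pos G E i : ℂ) - (⟨0, Λ⟩ : ℂ))⁻¹).im) :
    ‖∑ i ∈ S, ((s4Mark G v w i c * s4Mark G v w i c' : ℝ) : ℂ) * W i‖
      ≤ κ * ((((s4X G E v w ⟨0, Λ⟩).2.1 c c).im + ((s4X G E v w ⟨0, Λ⟩).2.1 c' c').im) / 2) := by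
  classical
  rw [s4w_X_im hn G E v w (z := ⟨0, Λ⟩) hΛ.ne', s4w_X_im hn G E v w (z := ⟨0, Λ⟩) hΛ.ne', ← Finset.sum_add_distrib, Finset.sum_div, Finset.mul_sum]
  have hnn : ∀ i, 0 ≤ κ * ((s4Mark G v w i c ^ 2 * (((s4Pos G E i : ℂ) - (⟨0, Λ⟩ : ℂ))⁻¹).im
      + s4Mark G v w i c' ^ 2 * (((s4Pos G E i : ℂ) - (⟨0, Λ⟩ : ℂ))⁻¹).im) / 2) := by
    intro i
    have := s4w_im_nonneg (s4Pos G E i) (z := ⟨0, Λ⟩) hΛ
    positivity
  calc _ ≤ ∑ i ∈ S, ‖((s4Mark G v w i c * s4Mark G v w i c' : ℝ) : ℂ) * W i‖ := norm_sum_le _ _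
    _ ≤ ∑ i ∈ S, κ * ((s4Mark G v w i c ^ 2 * (((s4Pos G E i : ℂ) - (⟨0, Λ⟩ : ℂ))⁻¹).im
          + s4Mark G v w i c' ^ 2 * (((s4Pos G E i : ℂ) - (⟨0, Λ⟩ : ℂ))⁻¹).im) / 2) := by
        refine Finset.sum_le_sum fun i hi => ?_
        have him := s4w_im_nonneg (s4Pos G E i) (z := ⟨0, Λ⟩) hΛ
        rw [norm_mul, Complex.norm_real, Real.norm_eq_abs]
        have h1 : |s4Mark G v w i c * s4Mark G v w i c'| ≤ (s4Mark G v w i c ^ 2 + s4Mark G v w i c' ^ 2) / 2 := by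
          rw [abs_le]
          constructor <;> nlinarith [sq_nonneg (s4Mark G v w i c + s4Mark G v w i c'), sq_nonneg (s4Mark G v w i c - s4Mark G v w i c')]
        calc _ ≤ (s4Mark G v w i c ^ 2 + s4Mark G v w i c' ^ 2) / 2 * (κ * (((s4Pos G E i : ℂ) - (⟨0, Λ⟩ : ℂ))⁻¹).im) :=
              mul_le_mul h1 (hW i hi) (norm_nonneg _) (by positivity)
          _ = _ := by ring
    _ ≤ _ := Finset.sum_le_sum_of_subset_of_nonneg (Finset.subset_univ _) fun i _ _ => hnn i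

/-- (`ds_far`, `s4_X_spec`, `|b b'| ≤ (b² + b'²)/2`) -/
theorem s4w_far_M {n k : ℕ} (hn : 0 < n) (G : SimpleGraph (Fin n)) (E : ℝ) (v w : Fin k → Fin n) {Λ : ℝ} (hΛ : 0 < Λ) (S : Finset (Fin n))
    (hS : ∀ i ∈ S, Λ ≤ |s4Pos G E i|) {z z' : ℂ} (hz : ‖z‖ ≤ Λ / 2) (hz' : ‖z'‖ ≤ Λ / 2) (c c' : Ch k) :
    ‖∑ i ∈ S, ((s4Mark G v w i c * s4Mark G v w i c' : ℝ) : ℂ) * (((s4Pos G E i : ℂ) - z)⁻¹ - ((s4Pos G E i : ℂ) - z')⁻¹)‖
      ≤ 8 * ‖z - z'‖ / Λ * ((((s4X G E v w ⟨0, Λ⟩).2.1 c c).im + ((s4X G E v w ⟨0, Λ⟩).2.1 c' c').im) / 2) :=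
  s4w_dom hn G E v w hΛ S c c' (by positivity) _ fun i hi => ds_far hΛ (hS i hi) hz hz'

/-- (`ds_far_sq`, `s4_X_spec`) -/
theorem s4w_far_Mp {n k : ℕ} (hn : 0 < n) (G : SimpleGraph (Fin n)) (E : ℝ) (v w : Fin k → Fin n) {Λ : ℝ} (hΛ : 0 < Λ) (S : Finset (Fin n))
    (hS : ∀ i ∈ S, Λ ≤ |s4Pos G E i|) {z : ℂ} (hz : ‖z‖ ≤ Λ / 2) (c c' : Ch k) :
    ‖∑ i ∈ S, ((s4Mark G v w i c * s4Mark G v w i c' : ℝ) : ℂ) * (((s4Pos G E i : ℂ) - z)⁻¹) ^ 2‖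
      ≤ 8 / Λ * ((((s4X G E v w ⟨0, Λ⟩).2.1 c c).im + ((s4X G E v w ⟨0, Λ⟩).2.1 c' c').im) / 2) :=
  s4w_dom hn G E v w hΛ S c c' (by positivity) _ fun i hi => by
    rw [norm_pow]
    exact ds_far_sq hΛ (hS i hi) hz

theorem s4w_J_diag (k : ℕ) (c : Ch k) : chJ k c c = 0 := by
  unfold chJ
  rcases c with a | a <;> simp

theorem s4w_C_diag (k : ℕ) (p : ℝ) (c : Ch k) : chC k p c c = 1 := by
  unfold chC
  simp [Matrix.add_apply, Matrix.smul_apply, s4w_J_diag]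

/-- what `S4Near` gives for the imaginary parts (`K_k(m)_{cc} = m`) -/
theorem s4w_near_im {k : ℕ} {d : ℕ} {E : ℝ} {X : SwSt k} {τ : ℝ} (h : S4Near d E X τ) :
    X.1.im ≤ (s4Ms d E).im + τ ∧ ∀ c, (X.2.1 c c).im ≤ (s4Ms d E).im + τ := by
  constructor
  · have h1 := (Complex.abs_im_le_norm (X.1 - s4Ms d E)).trans h.1
    rw [Complex.sub_im] at h1
    have := (abs_le.1 h1).2
    linarith
  · intro c
    have e : s4K k d E (s4Ms d E) c c = s4Ms d E := by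
      unfold s4K toC
      simp [Matrix.add_apply, Matrix.smul_apply, Matrix.map_apply, s4w_J_diag, s4w_C_diag]
    have h1 := (Complex.abs_im_le_norm (X.2.1 c c - s4K k d E (s4Ms d E) c c)).trans (h.2 c c)
    rw [e, Complex.sub_im] at h1
    have := (abs_le.1 h1).2
    linarith

/-! ## 5. TERM 3: the second moment -/

/-- `S4Mom` forces `δ ≥ 0` (`ℓ' = 0`, `q' = 0`) -/
theorem s4w_mom_nonneg {n d k ℓ q : ℕ} {E : ℝ} {G : SimpleGraph (Fin n)} {Λ δ : ℝ} (h : S4Mom d E k ℓ q G Λ δ) : 0 ≤ δ :=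
  (abs_nonneg _).trans (h 0 (Nat.zero_le _) (fun r => r.elim0) (fun r => r.elim0) (fun r => r.elim0) 0 (Nat.zero_le _) (fun r => r.elim0))

/-- the symmetrised matrix unit `(e_c e_c'ᵀ + e_c' e_cᵀ)/2` -/
def s4wSym {k : ℕ} (c c' : Ch k) : Matrix (Ch k) (Ch k) ℝ := fun x y =>
  ((if x = c ∧ y = c' then 1 else 0) + (if x = c' ∧ y = c then 1 else 0)) / 2

theorem s4w_eqns_cite2 : True := by
  have := @s4wSym.eq_1
  trivial

theorem s4w_sym_sum {k : ℕ} (c c' : Ch k) (f : Ch k → Ch k → ℝ) : ∑ x, ∑ y, s4wSym c c' x y * f x y = (f c c' + f c' c) / 2 := by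
  have h : ∀ a b : Ch k, ∑ x, ∑ y, (if x = a ∧ y = b then (1 : ℝ) else 0) * f x y = f a b := by
    intro a b
    simp [ite_and]
  unfold s4wSym
  have e : ∀ x y, ((if x = c ∧ y = c' then (1 : ℝ) else 0) + (if x = c' ∧ y = c then 1 else 0)) / 2 * f x y
      = ((if x = c ∧ y = c' then (1 : ℝ) else 0) * f x y + (if x = c' ∧ y = c then (1 : ℝ) else 0) * f x y) / 2 := fun x y => by ring
  simp only [e, ← Finset.sum_div, Finset.sum_add_distrib, h]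

theorem s4w_sym_T {k : ℕ} (c c' : Ch k) : (s4wSym c c')ᵀ = s4wSym c c' := by
  ext x y
  rw [Matrix.transpose_apply]
  unfold s4wSym
  rw [add_comm]
  congr 2 <;> simp only [and_comm]

theorem s4w_sym_le {k : ℕ} (c c' x y : Ch k) : 0 ≤ s4wSym c c' x y ∧ s4wSym c c' x y ≤ 1 := by
  unfold s4wSym
  constructor <;> split_ifs <;> norm_num

theorem s4w_C_symm (k : ℕ) (p : ℝ) (c c' : Ch k) : chC k p c c' = chC k p c' c := by
  unfold chC chJ
  rcases c with a | a <;> rcases c' with b | b <;> simp [Matrix.add_apply, Matrix.smul_apply, Matrix.one_apply, eq_comm]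

/-- the quadratic statistic of `r • sym` -/
theorem s4w_sym_stat {k : ℕ} (p r : ℝ) (c c' : Ch k) (b : Ch k → ℝ) :
    b ⬝ᵥ (r • s4wSym c c') *ᵥ b - Matrix.trace ((r • s4wSym c c') * chC k p) = r * (b c * b c' - chC k p c c') := by
  have e1 : b ⬝ᵥ (r • s4wSym c c') *ᵥ b = r * ∑ x, ∑ y, s4wSym c c' x y * (b x * b y) := by
    simp only [dotProduct, Matrix.mulVec, Matrix.smul_apply, smul_eq_mul, Finset.mul_sum]
    refine Finset.sum_congr rfl fun x _ => Finset.sum_congr rfl fun y _ => ?_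
    ring
  have e2 : Matrix.trace ((r • s4wSym c c') * chC k p) = r * ∑ x, ∑ y, s4wSym c c' x y * chC k p y x := by
    simp only [Matrix.trace, Matrix.diag_apply, Matrix.mul_apply, Matrix.smul_apply, smul_eq_mul, Finset.mul_sum]
    refine Finset.sum_congr rfl fun x _ => Finset.sum_congr rfl fun y _ => ?_
    ring
  rw [e1, e2, s4w_sym_sum, s4w_sym_sum, s4w_C_symm k p c' c]
  ring

theorem s4w_sym_sq {k : ℕ} (r : ℝ) (c c' : Ch k) : ∑ x, ∑ y, (r • s4wSym c c') x y ^ 2 ≤ r ^ 2 := by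
  have e : ∑ x, ∑ y, (r • s4wSym c c') x y ^ 2 = r ^ 2 * ∑ x, ∑ y, s4wSym c c' x y * s4wSym c c' x y := by
    simp only [Matrix.smul_apply, smul_eq_mul, Finset.mul_sum]
    refine Finset.sum_congr rfl fun x _ => Finset.sum_congr rfl fun y _ => ?_
    ring
  rw [e, s4w_sym_sum c c' (fun x y => s4wSym c c' x y)]
  have h1 := (s4w_sym_le c c' c c').2
  have h2 := (s4w_sym_le c c' c' c).2
  nlinarith [sq_nonneg r]

theorem s4w_sym_abs {k : ℕ} (r : ℝ) (c c' : Ch k) : ∑ x, ∑ y, |(r • s4wSym c c') x y| = |r| := by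
  have e : ∑ x, ∑ y, |(r • s4wSym c c') x y| = |r| * ∑ x, ∑ y, s4wSym c c' x y * 1 := by
    simp only [Matrix.smul_apply, smul_eq_mul, Finset.mul_sum, abs_mul, mul_one]
    refine Finset.sum_congr rfl fun x _ => Finset.sum_congr rfl fun y _ => ?_
    rw [abs_of_nonneg (s4w_sym_le c c' x y).1]
  rw [e, s4w_sym_sum]
  ring

theorem s4w_u_le (x : ℝ) {R : ℝ} (hR : 0 < R) : ‖((x : ℂ) - (⟨0, R⟩ : ℂ))⁻¹‖ ≤ 1 / R := by
  rw [norm_inv, one_div]
  have h1 := Complex.abs_im_le_norm ((x : ℂ) - (⟨0, R⟩ : ℂ))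
  simp only [Complex.sub_im, Complex.ofReal_im, zero_sub, abs_neg, abs_of_pos hR] at h1
  exact inv_anti₀ hR h1

/-- the conditional second moment of TERM 3 (`s4_mom2j 1` with `Q_i = Re / Im (u_i(iR)) · sym(e_c e_c'ᵀ)` for `i ∈ In`; `∑ |u_i|² = ∑ Im u_i / R` (`ds_ward`); `|u_i| ≤ 1/R`, `s4w_card`) -/
theorem s4w_T3 : ∃ A : ℝ, 0 ≤ A ∧ ∀ (k d : ℕ) (E : ℝ), |E / d| < 1 → ∀ (n : ℕ) (G : SimpleGraph (Fin n)), G ∈ regularGraphs n d → 0 < n * d → ∀ (Λ δ : ℝ),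
    S4Mom d E k 2 4 G Λ δ → ∀ (L : ℕ) (R : ℝ), 0 < R → (∀ i ∈ s4wIn E L G, |s4Pos G E i| ≤ Λ) → ∀ c c' : Ch k,
      s4Ec d k G (fun v w => ‖s4wT3 d G E L R v w c c'‖ ^ 2) ≤ A * ((s4M G E ⟨0, R⟩).im / R) + δ * (8 * ((2 * (L : ℝ) + 1) / R) ^ 2) := by
  classical
  obtain ⟨A0, HA⟩ := s4_mom2j 1
  refine ⟨|A0|, abs_nonneg _, ?_⟩
  intro k d E hp n G hG hnd Λ δ hmom L R hR hband c c'
  have hn : 0 < n := Nat.pos_of_mul_pos_right hnd
  have hδ : 0 ≤ δ := s4w_mom_nonneg hmom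
  set In := s4wIn E L G with hIn
  -- real weights
  have key : ∀ r : Fin n → ℝ, s4Ec d k G (fun v w => (∑ i ∈ In, r i * (s4Mark G v w i c * s4Mark G v w i c' - chC k (E / d) c c')) ^ 2)
      ≤ |A0| * ∑ i ∈ In, r i ^ 2 + δ * (2 * ∑ i ∈ In, |r i|) ^ 2 := by
    intro r
    set Q : Fin n → Matrix (Ch k) (Ch k) ℝ := fun i => if i ∈ In then r i • s4wSym c c' else 0 with hQ
    have h1 := HA k d E hp n G hG hnd Λ δ hmom Q (fun i => by
        simp only [hQ]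
        split_ifs
        · rw [Matrix.transpose_smul, s4w_sym_T]
        · exact Matrix.transpose_zero) (fun i hi => by
        simp only [hQ]
        rw [if_neg fun hmem => absurd (hband i hmem) (not_le.2 hi)])
    have e1 : ∀ v w : Fin k → Fin n, ∑ i, (s4Mark G v w i ⬝ᵥ Q i *ᵥ s4Mark G v w i - Matrix.trace (Q i * chC k (E / d)))
        = ∑ i ∈ In, r i * (s4Mark G v w i c * s4Mark G v w i c' - chC k (E / d) c c') := by
      intro v w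
      rw [← Finset.sum_filter_add_sum_filter_not Finset.univ (fun i => i ∈ In)]
      have z2 : ∑ i ∈ Finset.univ.filter (fun i => ¬ i ∈ In), (s4Mark G v w i ⬝ᵥ Q i *ᵥ s4Mark G v w i - Matrix.trace (Q i * chC k (E / d))) = 0 := by
        refine Finset.sum_eq_zero fun i hi => ?_
        simp only [hQ]
        rw [if_neg (Finset.mem_filter.1 hi).2]
        simp
      rw [z2, add_zero, Finset.filter_mem_eq_inter, Finset.univ_inter]
      refine Finset.sum_congr rfl fun i hi => ?_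
      simp only [hQ]
      rw [if_pos hi, s4w_sym_stat]
    have e2 : ∑ i, ∑ x, ∑ y, Q i x y ^ 2 ≤ ∑ i ∈ In, r i ^ 2 := by
      rw [← Finset.sum_filter_add_sum_filter_not Finset.univ (fun i => i ∈ In)]
      have z2 : ∑ i ∈ Finset.univ.filter (fun i => ¬ i ∈ In), ∑ x, ∑ y, Q i x y ^ 2 = 0 := by
        refine Finset.sum_eq_zero fun i hi => ?_
        simp only [hQ]
        rw [if_neg (Finset.mem_filter.1 hi).2]
        simp
      rw [z2, add_zero, Finset.filter_mem_eq_inter, Finset.univ_inter]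
      refine Finset.sum_le_sum fun i hi => ?_
      simp only [hQ]
      rw [if_pos hi]
      exact s4w_sym_sq _ _ _
    have e3 : ∑ i, ∑ x, ∑ y, |Q i x y| = ∑ i ∈ In, |r i| := by
      rw [← Finset.sum_filter_add_sum_filter_not Finset.univ (fun i => i ∈ In)]
      have z2 : ∑ i ∈ Finset.univ.filter (fun i => ¬ i ∈ In), ∑ x, ∑ y, |Q i x y| = 0 := by
        refine Finset.sum_eq_zero fun i hi => ?_
        simp only [hQ]
        rw [if_neg (Finset.mem_filter.1 hi).2]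
        simp
      rw [z2, add_zero, Finset.filter_mem_eq_inter, Finset.univ_inter]
      refine Finset.sum_congr rfl fun i hi => ?_
      simp only [hQ]
      rw [if_pos hi]
      exact s4w_sym_abs _ _ _
    simp only [e1, e3, mul_one, pow_one] at h1
    refine h1.trans ?_
    have h0 : 0 ≤ ∑ i, ∑ x, ∑ y, Q i x y ^ 2 := Finset.sum_nonneg fun i _ => Finset.sum_nonneg fun x _ => Finset.sum_nonneg fun y _ => sq_nonneg _
    have h2 : A0 * ∑ i, ∑ x, ∑ y, Q i x y ^ 2 ≤ |A0| * ∑ i ∈ In, r i ^ 2 :=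
      (mul_le_mul_of_nonneg_right (le_abs_self A0) h0).trans (mul_le_mul_of_nonneg_left e2 (abs_nonneg _))
    linarith
  set u : Fin n → ℂ := fun i => ((s4Pos G E i : ℂ) - (⟨0, R⟩ : ℂ))⁻¹ with hu
  have k1 := key fun i => (u i).re
  have k2 := key fun i => (u i).im
  have eT : ∀ v w : Fin k → Fin n, ‖s4wT3 d G E L R v w c c'‖ ^ 2
      = 1 * (∑ i ∈ In, (u i).re * (s4Mark G v w i c * s4Mark G v w i c' - chC k (E / d) c c')) ^ 2
        + 1 * (∑ i ∈ In, (u i).im * (s4Mark G v w i c * s4Mark G v w i c' - chC k (E / d) c c')) ^ 2 := by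
    intro v w
    rw [Complex.sq_norm, Complex.normSq_apply]
    unfold s4wT3
    rw [Complex.re_sum, Complex.im_sum]
    simp only [Complex.re_ofReal_mul, Complex.im_ofReal_mul]
    have a1 : ∑ i ∈ s4wIn E L G, (s4Mark G v w i c * s4Mark G v w i c' - chC k (E / d) c c') * (((s4Pos G E i : ℂ) - (⟨0, R⟩ : ℂ))⁻¹).re
        = ∑ i ∈ In, (u i).re * (s4Mark G v w i c * s4Mark G v w i c' - chC k (E / d) c c') := Finset.sum_congr rfl fun i _ => mul_comm _ _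
    have a2 : ∑ i ∈ s4wIn E L G, (s4Mark G v w i c * s4Mark G v w i c' - chC k (E / d) c c') * (((s4Pos G E i : ℂ) - (⟨0, R⟩ : ℂ))⁻¹).im
        = ∑ i ∈ In, (u i).im * (s4Mark G v w i c * s4Mark G v w i c' - chC k (E / d) c c') := Finset.sum_congr rfl fun i _ => mul_comm _ _
    rw [a1, a2]
    ring
  simp only [eT]
  rw [s4_Ec_lin, one_mul, one_mul]
  -- the numbers
  have hsq : ∑ i ∈ In, (u i).re ^ 2 + ∑ i ∈ In, (u i).im ^ 2 ≤ (s4M G E ⟨0, R⟩).im / R := by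
    rw [← Finset.sum_add_distrib, s4_M_spec hn G E (z := ⟨0, R⟩) hR.ne', Complex.im_sum, Finset.sum_div]
    calc ∑ i ∈ In, ((u i).re ^ 2 + (u i).im ^ 2) = ∑ i ∈ In, (u i).im / R := by
          refine Finset.sum_congr rfl fun i _ => ?_
          have := ds_ward (s4Pos G E i) (z := ⟨0, R⟩) hR
          rw [Complex.sq_norm, Complex.normSq_apply] at this
          simp only [hu]
          rw [← this]
          ring
      _ ≤ _ := Finset.sum_le_sum_of_subset_of_nonneg (Finset.subset_univ _) fun i _ _ =>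
          div_nonneg (s4w_im_nonneg _ (z := ⟨0, R⟩) hR) hR.le
  have hab : ∀ f : ℂ → ℝ, (∀ ζ, |f ζ| ≤ ‖ζ‖) → ∑ i ∈ In, |f (u i)| ≤ (2 * (L : ℝ) + 1) / R := by
    intro f hf
    calc ∑ i ∈ In, |f (u i)| ≤ ∑ _i ∈ In, 1 / R := Finset.sum_le_sum fun i _ => (hf _).trans (s4w_u_le _ hR)
      _ = (In.card : ℝ) * (1 / R) := by rw [Finset.sum_const, nsmul_eq_mul]
      _ ≤ (2 * (L : ℝ) + 1) * (1 / R) := by
          have : (In.card : ℝ) ≤ 2 * (L : ℝ) + 1 := by exact_mod_cast s4w_card E L G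
          gcongr
      _ = _ := by ring
  have b1 := hab Complex.re Complex.abs_re_le_norm
  have b2 := hab Complex.im Complex.abs_im_le_norm
  have n1 : 0 ≤ ∑ i ∈ In, |(u i).re| := Finset.sum_nonneg fun i _ => abs_nonneg _
  have n2 : 0 ≤ ∑ i ∈ In, |(u i).im| := Finset.sum_nonneg fun i _ => abs_nonneg _
  have c1 : (2 * ∑ i ∈ In, |(u i).re|) ^ 2 ≤ 4 * ((2 * (L : ℝ) + 1) / R) ^ 2 := by
    have := pow_le_pow_left₀ n1 b1 2
    nlinarith
  have c2 : (2 * ∑ i ∈ In, |(u i).im|) ^ 2 ≤ 4 * ((2 * (L : ℝ) + 1) / R) ^ 2 := by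
    have := pow_le_pow_left₀ n2 b2 2
    nlinarith
  have d1 := mul_le_mul_of_nonneg_left c1 hδ
  have d2 := mul_le_mul_of_nonneg_left c2 hδ
  have d3 := mul_le_mul_of_nonneg_left hsq (abs_nonneg A0)
  nlinarith

/-! ## 6. the deterministic assembly -/

theorem s4w_norm_iR {R : ℝ} (hR : 0 ≤ R) : ‖(⟨0, R⟩ : ℂ)‖ = R := by
  have : (⟨0, R⟩ : ℂ) = (R : ℂ) * Complex.I := by
    apply Complex.ext <;> simp
  rw [this, norm_mul, Complex.norm_I, mul_one, Complex.norm_real, Real.norm_eq_abs, abs_of_nonneg hR]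

/-- **the window representation on the good event** -/
theorem s4w_det {n k : ℕ} (hn : 0 < n) (d : ℕ) {E : ℝ} {L : ℕ} {G : SimpleGraph (Fin n)} (v w : Fin k → Fin n) {z : ℂ} (hz : 0 < z.im) {R Λ τ₁ τ₃ : ℝ}
    (hR : 1 ≤ R) (hzΛ : ‖z‖ ≤ Λ / 2) (hRΛ : R ≤ Λ / 2) (h1 : S4Near d E (s4X G E v w ⟨0, R⟩) τ₁) (h2 : S4Near d E (s4X G E v w ⟨0, Λ⟩) 1)
    (hr : S4wRange E L G) (hL : 2 * Λ * ((s4Ms d E).im + 1) ≤ L) (h3 : ∀ c c', ‖s4wT3 d G E L R v w c c'‖ ≤ τ₃) (hτ₁ : 0 ≤ τ₁) (hτ₃ : 0 ≤ τ₃) :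
    S4Close (s4X G E v w z) (s4Y k d E L R (s4Win E L G) (s4Beta E k L G v w) z) (τ₁ + 8 * (‖z‖ + R) / Λ * ((s4Ms d E).im + 1) + τ₃) := by
  have hR0 : 0 < R := by linarith
  have hΛ : 0 < Λ := by linarith
  set B := (s4Ms d E).im + 1 with hB
  obtain ⟨b1, b2⟩ := s4w_near_im h2
  have b1' : (s4M G E ⟨0, Λ⟩).im ≤ B := b1
  have hcnt := s4w_count hn G E hΛ
  have hIm0 : 0 ≤ (s4M G E ⟨0, Λ⟩).im := by
    have h0 : (0 : ℝ) ≤ ((s4Band G E Λ).card : ℝ) := Nat.cast_nonneg _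
    have h4 : 0 ≤ 2 * Λ * (s4M G E ⟨0, Λ⟩).im := h0.trans hcnt
    by_contra hneg
    push Not at hneg
    have : 2 * Λ * (s4M G E ⟨0, Λ⟩).im < 0 := mul_neg_of_pos_of_neg (by positivity) hneg
    linarith
  have hB0 : 0 ≤ B := hIm0.trans b1'
  have hcount : (s4Band G E Λ).card ≤ L := by
    have : ((s4Band G E Λ).card : ℝ) ≤ L := hcnt.trans ((mul_le_mul_of_nonneg_left b1' (by positivity)).trans hL)
    exact_mod_cast this
  have hfar : ∀ i ∈ (s4wIn E L G)ᶜ, Λ ≤ |s4Pos G E i| := fun i hi => (s4w_far hcount i (by simpa using hi)).le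
  have hiR : ‖(⟨0, R⟩ : ℂ)‖ ≤ Λ / 2 := by rw [s4w_norm_iR hR0.le]; exact hRΛ
  have hzz : ‖z - (⟨0, R⟩ : ℂ)‖ ≤ ‖z‖ + R := by
    have := norm_sub_le z (⟨0, R⟩ : ℂ)
    rwa [s4w_norm_iR hR0.le] at this
  have hz0 := norm_nonneg z
  have hco : 8 * ‖z - (⟨0, R⟩ : ℂ)‖ / Λ ≤ 8 * (‖z‖ + R) / Λ := by gcongr
  have hco0 : 0 ≤ 8 * ‖z - (⟨0, R⟩ : ℂ)‖ / Λ := by positivity
  have hF0 : 0 ≤ 8 * (‖z‖ + R) / Λ * B := by positivity
  have key : ∀ x : ℝ, x ≤ B → 8 * ‖z - (⟨0, R⟩ : ℂ)‖ / Λ * x ≤ 8 * (‖z‖ + R) / Λ * B := fun x hx =>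
    (mul_le_mul_of_nonneg_left hx hco0).trans (mul_le_mul_of_nonneg_right hco hB0)
  have hdiag : ∀ c c' : Ch k, (((s4X G E v w ⟨0, Λ⟩).2.1 c c).im + ((s4X G E v w ⟨0, Λ⟩).2.1 c' c').im) / 2 ≤ B := by
    intro c c'
    have := b2 c
    have := b2 c'
    linarith
  refine ⟨?_, fun c c' => ?_, fun c c' => ?_⟩
  · rw [s4w_id_m hn d hr v w hz hR0]
    have t1 := h1.1
    have t2 := (s4w_far_m hn G E hΛ _ hfar hzΛ hiR).trans (key _ b1')
    have := norm_add_le ((s4X G E v w ⟨0, R⟩).1 - s4Ms d E)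
      (∑ i ∈ (s4wIn E L G)ᶜ, (((s4Pos G E i : ℂ) - z)⁻¹ - ((s4Pos G E i : ℂ) - (⟨0, R⟩ : ℂ))⁻¹))
    linarith
  · rw [s4w_id_M hn d hr v w hz hR0 c c']
    have t1 := h1.2 c c'
    have t2 := (s4w_far_M hn G E v w hΛ _ hfar hzΛ hiR c c').trans (key _ (hdiag c c'))
    have t3 := h3 c c'
    have n1 := norm_sub_le (((s4X G E v w ⟨0, R⟩).2.1 c c' - s4K k d E (s4Ms d E) c c')
        + ∑ i ∈ (s4wIn E L G)ᶜ, ((s4Mark G v w i c * s4Mark G v w i c' : ℝ) : ℂ) * (((s4Pos G E i : ℂ) - z)⁻¹ - ((s4Pos G E i : ℂ) - (⟨0, R⟩ : ℂ))⁻¹))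
        (s4wT3 d G E L R v w c c')
    have n2 := norm_add_le ((s4X G E v w ⟨0, R⟩).2.1 c c' - s4K k d E (s4Ms d E) c c')
        (∑ i ∈ (s4wIn E L G)ᶜ, ((s4Mark G v w i c * s4Mark G v w i c' : ℝ) : ℂ) * (((s4Pos G E i : ℂ) - z)⁻¹ - ((s4Pos G E i : ℂ) - (⟨0, R⟩ : ℂ))⁻¹))
    linarith
  · rw [s4w_id_Mp hn d hr v w hz R c c']
    have t2 := s4w_far_Mp hn G E v w hΛ _ hfar hzΛ c c'
    have t3 : 8 / Λ * ((((s4X G E v w ⟨0, Λ⟩).2.1 c c).im + ((s4X G E v w ⟨0, Λ⟩).2.1 c' c').im) / 2) ≤ 8 * (‖z‖ + R) / Λ * B := by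
      refine (mul_le_mul_of_nonneg_left (hdiag c c') (by positivity)).trans (mul_le_mul_of_nonneg_right ?_ hB0)
      have : (8 : ℝ) ≤ 8 * (‖z‖ + R) := by nlinarith
      gcongr
    linarith

/-! ## 7. probability -/

open Classical in
/-- conditioning on a graph event -/
theorem s4w_Pr_cond {n d k : ℕ} (Gd : SimpleGraph (Fin n) → Prop) (S : SimpleGraph (Fin n) → (Fin k → Fin n) → (Fin k → Fin n) → Prop) {p : ℝ} (hp : 0 ≤ p)
    (h : ∀ G ∈ regularGraphs n d, Gd G → s4Ec d k G (fun v w => if S G v w then 1 else 0) ≤ p) :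
    s4Pr n d k (fun G v w => Gd G ∧ S G v w) ≤ p := by
  unfold s4Pr s4E s4Eg
  have h1 : ∀ G ∈ regularGraphs n d, s4Ec d k G (fun v w => @ite ℝ (Gd G ∧ S G v w) (Classical.propDecidable _) 1 0) ≤ p := by
    intro G hG
    by_cases hg : Gd G
    · have e : (fun (v w : Fin k → Fin n) => @ite ℝ (Gd G ∧ S G v w) (Classical.propDecidable _) 1 0) = fun v w => if S G v w then 1 else 0 := by
        funext v w
        by_cases hs : S G v w <;> simp [hg, hs]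
      rw [e]
      exact h G hG hg
    · have e : (fun (v w : Fin k → Fin n) => @ite ℝ (Gd G ∧ S G v w) (Classical.propDecidable _) 1 0) = fun _ _ => 0 := by
        funext v w
        simp [hg]
      rw [e]
      unfold s4Ec
      simp [hp]
  rcases Nat.eq_zero_or_pos (regularGraphs n d).card with h0 | h0
  · rw [h0]
    simpa using hp
  · rw [div_le_iff₀ (by exact_mod_cast h0)]
    refine (Finset.sum_le_sum h1).trans (le_of_eq ?_)
    rw [Finset.sum_const, nsmul_eq_mul, mul_comm]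

theorem s4w_Pr_false {n d k : ℕ} : s4Pr n d k (fun _ _ _ => False) = 0 := by
  unfold s4Pr s4E s4Eg s4Ec
  simp

/-- finite unions -/
theorem s4w_Pr_exists {n d k : ℕ} {ι : Type} [Fintype ι] (S : ι → SimpleGraph (Fin n) → (Fin k → Fin n) → (Fin k → Fin n) → Prop) :
    s4Pr n d k (fun G v w => ∃ x, S x G v w) ≤ ∑ x, s4Pr n d k (S x) := by
  classical
  have key : ∀ T : Finset ι, s4Pr n d k (fun G v w => ∃ x ∈ T, S x G v w) ≤ ∑ x ∈ T, s4Pr n d k (S x) := by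
    intro T
    induction T using Finset.induction_on with
    | empty =>
      simp only [Finset.notMem_empty, false_and, exists_false, Finset.sum_empty]
      exact s4w_Pr_false.le
    | insert a T ha ih =>
      rw [Finset.sum_insert ha]
      refine le_trans (s4_Pr_mono (T := fun G v w => S a G v w ∨ ∃ x ∈ T, S x G v w) ?_) ((s4_Pr_or _ _).trans (by linarith))
      rintro G v w ⟨x, hx, hs⟩
      rcases Finset.mem_insert.1 hx with rfl | hx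
      · exact Or.inl hs
      · exact Or.inr ⟨x, hx, hs⟩
  simpa using key Finset.univ

theorem S4Close.mono {k : ℕ} {X Y : SwSt k} {τ τ' : ℝ} (h : S4Close X Y τ) (hτ : τ ≤ τ') : S4Close X Y τ' :=
  ⟨h.1.trans hτ, fun c c' => (h.2.1 c c').trans hτ, fun c c' => (h.2.2 c c').trans hτ⟩

theorem S4Near.mono {k d : ℕ} {E : ℝ} {X : SwSt k} {τ τ' : ℝ} (h : S4Near d E X τ) (hτ : τ ≤ τ') : S4Near d E X τ' :=
  ⟨h.1.trans hτ, fun c c' => (h.2 c c').trans hτ⟩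

theorem s4w_p_lt {d : ℕ} {E : ℝ} (hd : 3 ≤ d) (hE : |E| < 2 * Real.sqrt ((d : ℝ) - 1)) : |E / d| < 1 := by
  have hd3 : (3 : ℝ) ≤ d := by exact_mod_cast hd
  have h0 : (0 : ℝ) ≤ (d : ℝ) - 1 := by linarith
  have h1 : 2 * Real.sqrt ((d : ℝ) - 1) ≤ d := by
    have : Real.sqrt ((d : ℝ) - 1) ≤ d / 2 := by
      rw [Real.sqrt_le_left (by positivity)]
      nlinarith [sq_nonneg ((d : ℝ) - 2)]
    linarith
  rw [abs_div, abs_of_pos (by linarith : (0 : ℝ) < d), div_lt_one (by linarith)]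
  linarith

theorem s4w_Ms_im_pos {d : ℕ} {E : ℝ} (hd : 3 ≤ d) (hE : |E| < 2 * Real.sqrt ((d : ℝ) - 1)) : 0 < (s4Ms d E).im :=
  mul_pos Real.pi_pos (s4_rho_pos d hd E hE)

/-! ## 7b. `s4_tight`, `s4_locfin` (exits `s4_tight_pf`, `s4_locfin_pf` = verbatim statements of the two leaves of `S4.lean`; debt: `s4_E1` only) -/

theorem s4w_card_filter_eq {n : ℕ} (E : ℝ) (G : SimpleGraph (Fin n)) (p : ℝ → Prop) [DecidablePred p] :
    Multiset.card ((s4Spec E G).filter p) = (Finset.univ.filter fun i => p (s4Pos G E i)).card := by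
  classical
  rw [s4w_spec, Multiset.filter_map, Multiset.card_map]
  rfl

/-- lower count: `y (Im m_n(e + iy) - (2y/Λ) Im m_n(e + iΛ)) ≤ #{|x_i - e| ≤ Λ}` -/
theorem s4w_count_low {n : ℕ} (hn : 0 < n) (G : SimpleGraph (Fin n)) (E e : ℝ) {y Λ : ℝ} (hy : 0 < y) (hΛ : 0 < Λ) :
    y * ((s4M G E ⟨e, y⟩).im - 2 * y / Λ * (s4M G E ⟨e, Λ⟩).im) ≤ ((Finset.univ.filter fun i => |s4Pos G E i - e| ≤ Λ).card : ℝ) := by
  classical
  rw [s4_M_spec hn G E (z := ⟨e, y⟩) hy.ne', s4_M_spec hn G E (z := ⟨e, Λ⟩) hΛ.ne', Complex.im_sum, Complex.im_sum]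
  set S := Finset.univ.filter fun i => |s4Pos G E i - e| ≤ Λ with hS
  have h1 : ∑ i ∈ S, (((s4Pos G E i : ℂ) - (⟨e, y⟩ : ℂ))⁻¹).im ≤ ∑ _i ∈ S, 1 / y := by
    refine Finset.sum_le_sum fun i _ => ?_
    rw [ds_im]
    simp only
    rw [div_le_div_iff₀ (by positivity) hy]
    nlinarith [sq_nonneg (s4Pos G E i - e)]
  have h2 : ∑ i ∈ Sᶜ, (((s4Pos G E i : ℂ) - (⟨e, y⟩ : ℂ))⁻¹).im ≤ ∑ i ∈ Sᶜ, 2 * y / Λ * (((s4Pos G E i : ℂ) - (⟨e, Λ⟩ : ℂ))⁻¹).im := by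
    refine Finset.sum_le_sum fun i hi => ?_
    rw [hS, Finset.mem_compl, Finset.mem_filter] at hi
    have hi' : Λ < |s4Pos G E i - e| := by
      by_contra hc
      exact hi ⟨Finset.mem_univ _, not_lt.1 hc⟩
    have hsq : Λ ^ 2 < (s4Pos G E i - e) ^ 2 := by
      rw [← sq_abs (s4Pos G E i - e)]
      exact pow_lt_pow_left₀ hi' hΛ.le two_ne_zero
    rw [ds_im, ds_im]
    simp only
    have e1 : 2 * y / Λ * (Λ / ((s4Pos G E i - e) ^ 2 + Λ ^ 2)) = 2 * y / ((s4Pos G E i - e) ^ 2 + Λ ^ 2) := by field_simp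
    rw [e1, div_le_div_iff₀ (by positivity) (by positivity)]
    nlinarith [sq_nonneg y, mul_pos hy hy]
  have h3 : ∑ i ∈ Sᶜ, 2 * y / Λ * (((s4Pos G E i : ℂ) - (⟨e, Λ⟩ : ℂ))⁻¹).im ≤ 2 * y / Λ * ∑ i, (((s4Pos G E i : ℂ) - (⟨e, Λ⟩ : ℂ))⁻¹).im := by
    rw [← Finset.mul_sum]
    exact mul_le_mul_of_nonneg_left (Finset.sum_le_sum_of_subset_of_nonneg (Finset.subset_univ _) fun i _ _ => s4w_im_nonneg _ hΛ) (by positivity)
  rw [← Finset.sum_add_sum_compl S (fun i => (((s4Pos G E i : ℂ) - (⟨e, y⟩ : ℂ))⁻¹).im)]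
  rw [Finset.sum_const, nsmul_eq_mul] at h1
  have h4 : y * ((S.card : ℝ) * (1 / y)) = S.card := by field_simp
  rw [← h4]
  refine mul_le_mul_of_nonneg_left ?_ hy.le
  linarith

/-- `s4_E1` at `k = 0`: the trace at one point -/
theorem s4w_pt {d : ℕ} {E : ℝ} (H : S4Hyp d E) :
    ∃ ξ : ℝ, 0 < ξ ∧ ∃ C y0 : ℝ, ∀ s y : ℝ, y0 ≤ y → ∀ η : ℝ, 0 < η → ∃ N : ℕ, ∀ n : ℕ, N ≤ n → (regularGraphs n d).Nonempty →
      s4Pg n d (fun G => y ^ (-ξ) < ‖s4M G E ⟨s, y⟩ - s4Ms d E‖) ≤ C * y ^ (-(1 : ℝ)) + η := by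
  obtain ⟨ξ, hξ, HE1⟩ := s4_E1 H
  obtain ⟨C, y0, HE⟩ := HE1 0 1
  refine ⟨ξ, hξ, C, y0, fun s y hy η hη => ?_⟩
  obtain ⟨N, hN⟩ := HE s y hy η hη
  refine ⟨max N 1, fun n hn hne => ?_⟩
  have hnd : 0 < n * d := Nat.mul_pos (lt_of_lt_of_le one_pos ((le_max_right _ _).trans hn)) (by have := H.hd; omega)
  rw [← s4_Pr_graph (k := 0) hnd]
  refine (s4_Pr_mono fun G v w h hc => ?_).trans (hN n ((le_max_left _ _).trans hn) hne)
  exact absurd hc.1 (not_le.2 h)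

theorem s4w_Pg_mono {n d : ℕ} {S T : SimpleGraph (Fin n) → Prop} (h : ∀ G, S G → T G) : s4Pg n d S ≤ s4Pg n d T := by
  classical
  refine s4_Eg_mono fun G _ => ?_
  by_cases hS : S G
  · simp [hS, h G hS]
  · simp only [hS, if_false]
    split_ifs <;> norm_num

theorem s4w_Pg_or {n d : ℕ} (S T : SimpleGraph (Fin n) → Prop) : s4Pg n d (fun G => S G ∨ T G) ≤ s4Pg n d S + s4Pg n d T := by
  classical
  have h := s4_Eg_lin (n := n) (d := d) (fun G => if S G then 1 else 0) (fun G => if T G then 1 else 0) 1 1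
  simp only [one_mul] at h
  unfold s4Pg
  rw [← h]
  refine s4_Eg_mono fun G _ => ?_
  by_cases hS : S G <;> by_cases hT : T G <;> simp [hS, hT]

/-- **`s4_locfin`** -/
theorem s4_locfin_pf {d : ℕ} {E : ℝ} (H : S4Hyp d E) (R ε : ℝ) (hε : 0 < ε) :
    ∃ J : ℕ, ∃ N : ℕ, ∀ n : ℕ, N ≤ n → (regularGraphs n d).Nonempty →
      s4Pg n d (fun G => tpLab (s4Spec E G) (J : ℤ) ≤ (R : EReal) ∨ ((-R : ℝ) : EReal) ≤ tpLab (s4Spec E G) (-(J : ℤ) - 1)) ≤ ε := by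
  classical
  obtain ⟨ξ, hξ, C, y0, HE⟩ := s4w_pt H
  set B := (s4Ms d E).im + 1 with hB
  have e2 : ∀ᶠ y : ℝ in atTop, C * y ^ (-(1 : ℝ)) ≤ ε / 2 := by
    have h0 : Tendsto (fun y : ℝ => C * y ^ (-(1 : ℝ))) atTop (𝓝 (C * 0)) := (tendsto_rpow_neg_atTop one_pos).const_mul C
    rw [mul_zero] at h0
    exact h0.eventually_le_const (by positivity)
  obtain ⟨Λ, l1, l2, l3, l4⟩ := (e2.and ((eventually_ge_atTop (1 : ℝ)).and ((eventually_ge_atTop y0).and (eventually_ge_atTop R)))).exists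
  have hΛ : 0 < Λ := by linarith
  obtain ⟨N, hN⟩ := HE 0 Λ l3 (ε / 2) (by positivity)
  refine ⟨⌈2 * Λ * B⌉₊, max N 1, fun n hn hne => ?_⟩
  have hn0 : 0 < n := lt_of_lt_of_le one_pos ((le_max_right _ _).trans hn)
  refine (s4w_Pg_mono fun G hG => ?_).trans ((hN n ((le_max_left _ _).trans hn) hne).trans (by linarith))
  by_contra hc
  push Not at hc
  have hΛ1 : Λ ^ (-ξ) ≤ 1 := Real.rpow_le_one_of_one_le_of_nonpos l2 (by linarith)
  have him : (s4M G E ⟨0, Λ⟩).im ≤ B := by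
    have h1 := (Complex.abs_im_le_norm (s4M G E ⟨0, Λ⟩ - s4Ms d E)).trans hc
    rw [Complex.sub_im] at h1
    have := (abs_le.1 h1).2
    linarith
  have hcnt : ((s4Band G E Λ).card : ℝ) ≤ 2 * Λ * B := (s4w_count hn0 G E hΛ).trans (by gcongr)
  have hcnt' : (s4Band G E Λ).card ≤ ⌈2 * Λ * B⌉₊ := by exact_mod_cast hcnt.trans (Nat.le_ceil _)
  rcases hG with h | h
  · have h1 := (tp_lab_le_iff (s4Spec E G) _ R).1 h
    have h2 := s4w_card_filter E G (Λ := Λ) (fun r => 0 ≤ r ∧ r ≤ R) (fun r hr => abs_le.2 ⟨by linarith [hr.1], by linarith [hr.2]⟩)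
    omega
  · have h1 := (tp_le_lab_iff (s4Spec E G) _ (-R)).1 h
    have h2 := s4w_card_filter E G (Λ := Λ) (fun r => -R ≤ r ∧ r < 0) (fun r hr => abs_le.2 ⟨by linarith [hr.1], by linarith [hr.2]⟩)
    omega

/-- **`s4_tight`** (one window `[e - Λ, e + Λ]`, `e = ±(Λ + 1)`, `Λ = 8 (πρ + 1) y/(πρ)`, contains at least `y πρ/4` points) -/
theorem s4_tight_pf {d : ℕ} {E : ℝ} (H : S4Hyp d E) (j : ℤ) (ε : ℝ) (hε : 0 < ε) :
    ∃ R : ℝ, ∃ N : ℕ, ∀ n : ℕ, N ≤ n → (regularGraphs n d).Nonempty →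
      s4Pg n d (fun G => ¬ (((-R : ℝ) : EReal) ≤ tpLab (s4Spec E G) j ∧ tpLab (s4Spec E G) j ≤ (R : EReal))) ≤ ε := by
  classical
  obtain ⟨ξ, hξ, C, y0, HE⟩ := s4w_pt H
  set a := (s4Ms d E).im with ha
  have ha0 : 0 < a := s4w_Ms_im_pos H.hd H.hE
  set B := a + 1 with hB
  set c := 8 * B / a with hc
  have hc1 : 1 ≤ c := by
    rw [hc, le_div_iff₀ ha0]
    linarith
  have hc0 : 0 < c := by linarith
  have e1 : ∀ᶠ y : ℝ in atTop, y ^ (-ξ) ≤ a / 2 := (tendsto_rpow_neg_atTop hξ).eventually_le_const (by positivity)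
  have e2 : ∀ᶠ y : ℝ in atTop, C * y ^ (-(1 : ℝ)) ≤ ε / 4 := by
    have h0 : Tendsto (fun y : ℝ => C * y ^ (-(1 : ℝ))) atTop (𝓝 (C * 0)) := (tendsto_rpow_neg_atTop one_pos).const_mul C
    rw [mul_zero] at h0
    exact h0.eventually_le_const (by positivity)
  have e3 : ∀ᶠ y : ℝ in atTop, C * (c * y) ^ (-(1 : ℝ)) ≤ ε / 4 := (tendsto_id.const_mul_atTop hc0).eventually e2
  have e4 : ∀ᶠ y : ℝ in atTop, ((j.natAbs : ℝ) + 1) * (4 / a) ≤ y := eventually_ge_atTop _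
  obtain ⟨y, l1, l2, l3, l4, l5, l6⟩ := (e1.and (e2.and (e3.and (e4.and ((eventually_ge_atTop (1 : ℝ)).and (eventually_ge_atTop y0)))))).exists
  have hy : 0 < y := by linarith
  set Λ := c * y with hΛd
  have hΛy : y ≤ Λ := by
    rw [hΛd]
    nlinarith
  have hΛ : 0 < Λ := by linarith
  set e : ℝ := if 0 ≤ j then Λ + 1 else -(Λ + 1) with he
  obtain ⟨N1, hN1⟩ := HE e y l6 (ε / 4) (by positivity)
  obtain ⟨N2, hN2⟩ := HE e Λ (l6.trans hΛy) (ε / 4) (by positivity)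
  refine ⟨2 * Λ + 1, max (max N1 N2) 1, fun n hn hne => ?_⟩
  have hn0 : 0 < n := lt_of_lt_of_le one_pos ((le_max_right _ _).trans hn)
  have q1 := hN1 n (((le_max_left _ _).trans (le_max_left _ _)).trans hn) hne
  have q2 := hN2 n (((le_max_right _ _).trans (le_max_left _ _)).trans hn) hne
  refine (s4w_Pg_mono (T := fun G => y ^ (-ξ) < ‖s4M G E ⟨e, y⟩ - s4Ms d E‖ ∨ Λ ^ (-ξ) < ‖s4M G E ⟨e, Λ⟩ - s4Ms d E‖) fun G hG => ?_).trans
    ((s4w_Pg_or _ _).trans (by linarith))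
  by_contra hcon
  push Not at hcon
  obtain ⟨c1, c2⟩ := hcon
  apply hG
  have hΛ1 : Λ ^ (-ξ) ≤ 1 := Real.rpow_le_one_of_one_le_of_nonpos (l5.trans hΛy) (by linarith)
  have him1 : a / 2 ≤ (s4M G E ⟨e, y⟩).im := by
    have h1 := (Complex.abs_im_le_norm (s4M G E ⟨e, y⟩ - s4Ms d E)).trans c1
    rw [Complex.sub_im] at h1
    have := (abs_le.1 h1).1
    linarith
  have him2 : (s4M G E ⟨e, Λ⟩).im ≤ B := by
    have h1 := (Complex.abs_im_le_norm (s4M G E ⟨e, Λ⟩ - s4Ms d E)).trans c2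
    rw [Complex.sub_im] at h1
    have := (abs_le.1 h1).2
    linarith
  have hlow := s4w_count_low hn0 G E e hy hΛ
  have hfrac : 2 * y / Λ * B = a / 4 := by
    rw [hΛd, hc]
    have hB0 : B ≠ 0 := by rw [hB]; positivity
    field_simp
    ring
  have hcnt : (j.natAbs : ℝ) + 1 ≤ ((Finset.univ.filter fun i => |s4Pos G E i - e| ≤ Λ).card : ℝ) := by
    refine le_trans ?_ hlow
    have h1 : 2 * y / Λ * (s4M G E ⟨e, Λ⟩).im ≤ a / 4 := by
      rw [← hfrac]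
      gcongr
    have h2 : y * (a / 4) ≤ y * ((s4M G E ⟨e, y⟩).im - 2 * y / Λ * (s4M G E ⟨e, Λ⟩).im) := by
      gcongr
      linarith
    refine le_trans ?_ h2
    have h3 : ((j.natAbs : ℝ) + 1) * (4 / a) * (a / 4) ≤ y * (a / 4) := by gcongr
    refine le_trans (le_of_eq ?_) h3
    field_simp
  have hcnt' : j.natAbs + 1 ≤ (Finset.univ.filter fun i => |s4Pos G E i - e| ≤ Λ).card := by exact_mod_cast hcnt
  rcases le_or_gt 0 j with h0 | h0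
  · obtain ⟨m, rfl⟩ := Int.eq_ofNat_of_zero_le h0
    have he' : e = Λ + 1 := by rw [he, if_pos h0]
    constructor
    · rw [tp_lab_pos]
      refine le_trans ?_ (tp_get_pos_nonneg _ m)
      exact_mod_cast (by linarith : -(2 * Λ + 1) ≤ (0 : ℝ))
    · rw [tp_lab_le_iff, s4w_card_filter_eq]
      have hsub : (Finset.univ.filter fun i => |s4Pos G E i - e| ≤ Λ) ⊆ Finset.univ.filter fun i => 0 ≤ s4Pos G E i ∧ s4Pos G E i ≤ 2 * Λ + 1 := by
        intro i hi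
        rw [Finset.mem_filter] at hi ⊢
        have := abs_le.1 hi.2
        rw [he'] at this
        exact ⟨Finset.mem_univ _, by linarith [this.1], by linarith [this.2]⟩
      have := Finset.card_le_card hsub
      simp only [Int.natAbs_natCast] at hcnt'
      omega
  · obtain ⟨m, rfl⟩ : ∃ m : ℕ, j = -(m : ℤ) - 1 := ⟨(-j - 1).toNat, by omega⟩
    have he' : e = -(Λ + 1) := by rw [he, if_neg (not_le.2 h0)]
    constructor
    · rw [tp_le_lab_iff, s4w_card_filter_eq]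
      have hsub : (Finset.univ.filter fun i => |s4Pos G E i - e| ≤ Λ) ⊆ Finset.univ.filter fun i => -(2 * Λ + 1) ≤ s4Pos G E i ∧ s4Pos G E i < 0 := by
        intro i hi
        rw [Finset.mem_filter] at hi ⊢
        have := abs_le.1 hi.2
        rw [he'] at this
        exact ⟨Finset.mem_univ _, by linarith [this.1], by linarith [this.2]⟩
      have := Finset.card_le_card hsub
      omega
    · rw [tp_lab_neg]
      refine le_trans (tp_get_neg_nonpos _ m) ?_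
      exact_mod_cast (by linarith : (0 : ℝ) ≤ 2 * Λ + 1)

/-! ## 8. the exit -/

/-- **N2 = `s4_window`** -/
theorem s4_window_pf {d : ℕ} {E : ℝ} (H : S4Hyp d E) (k : ℕ) (z : ℂ) (hz : 0 < z.im) (τ η : ℝ) (hτ : 0 < τ) (hη : 0 < η) :
    ∃ R0 : ℝ, ∀ R : ℝ, R0 ≤ R → ∃ L0 : ℕ, ∀ L : ℕ, L0 ≤ L → ∃ N : ℕ, ∀ n : ℕ, N ≤ n → (regularGraphs n d).Nonempty →
      s4Pr n d k (fun G v w => ¬ S4Close (s4X G E v w z) (s4Y k d E L R (s4Win E L G) (s4Beta E k L G v w) z) τ) ≤ η := by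
  classical
  obtain ⟨ξ, hξ, HE1⟩ := s4_E1 H
  obtain ⟨C1, y0, HE⟩ := HE1 k 1
  obtain ⟨A, hA, HT3⟩ := s4w_T3
  obtain ⟨ε1, cc, C2, hε1, hcc, HI2⟩ := H.i2 k 2 4
  have hp := s4w_p_lt H.hd H.hE
  set B := (s4Ms d E).im + 1 with hB
  have hB0 : 0 < B := by have := s4w_Ms_im_pos H.hd H.hE; linarith
  set K2 : ℝ := (Fintype.card (Ch k × Ch k) : ℝ) with hK2
  have hK20 : 0 ≤ K2 := Nat.cast_nonneg _
  set t : ℝ := (τ / 3) ^ 2 with ht
  have ht0 : 0 < t := by positivity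
  have hη8 : 0 < η / 8 := by positivity
  -- the choice of `R0`
  have e1 : ∀ᶠ R : ℝ in atTop, R ^ (-ξ) ≤ τ / 3 := (tendsto_rpow_neg_atTop hξ).eventually_le_const (by positivity)
  have e2 : ∀ᶠ R : ℝ in atTop, C1 * R ^ (-(1 : ℝ)) ≤ η / 8 := by
    have h0 : Tendsto (fun R : ℝ => C1 * R ^ (-(1 : ℝ))) atTop (𝓝 (C1 * 0)) := (tendsto_rpow_neg_atTop one_pos).const_mul C1
    rw [mul_zero] at h0
    exact h0.eventually_le_const hη8
  have e3 : ∀ᶠ R : ℝ in atTop, K2 * (A * (B / R) / t) ≤ η / 8 := by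
    have h0 : Tendsto (fun R : ℝ => K2 * (A * (B / R) / t)) atTop (𝓝 (K2 * (A * 0 / t))) :=
      (((tendsto_const_nhds.div_atTop tendsto_id).const_mul A).div_const t).const_mul K2
    rw [mul_zero, zero_div, mul_zero] at h0
    exact h0.eventually_le_const hη8
  obtain ⟨R0, hR0⟩ := Filter.eventually_atTop.1 (e1.and (e2.and (e3.and ((eventually_ge_atTop (1 : ℝ)).and (eventually_ge_atTop y0)))))
  refine ⟨R0, fun R hR => ?_⟩
  obtain ⟨r1, r2, r3, r4, r5⟩ := hR0 R hR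
  have hRpos : 0 < R := by linarith
  -- the choice of `Λ`
  have f1 : ∀ᶠ Λ : ℝ in atTop, 8 * (‖z‖ + R) / Λ * B ≤ τ / 3 := by
    have h0 : Tendsto (fun Λ : ℝ => 8 * (‖z‖ + R) / Λ * B) atTop (𝓝 (0 * B)) :=
      (tendsto_const_nhds.div_atTop tendsto_id).mul_const B
    rw [zero_mul] at h0
    exact h0.eventually_le_const (by positivity)
  obtain ⟨Λ, l1, l2, l3, l4, l5, l6⟩ := (f1.and (e2.and ((eventually_ge_atTop (1 : ℝ)).and ((eventually_ge_atTop y0).and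
    ((eventually_ge_atTop (2 * ‖z‖)).and (eventually_ge_atTop (2 * R))))))).exists
  refine ⟨⌈2 * Λ * B⌉₊, fun L hL => ?_⟩
  have hL' : 2 * Λ * B ≤ L := (Nat.le_ceil _).trans (by exact_mod_cast hL)
  -- tightness of the labels of the window
  have hW : (0 : ℝ) < 8 * (2 * (L : ℝ) + 1) := by positivity
  choose Rt Nt hRt using fun a : Win L => s4_tight_pf H (wIdx a) (η / (8 * (2 * (L : ℝ) + 1))) (by positivity)
  set Λ' : ℝ := ∑ a, |Rt a| with hΛ'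
  have hRtΛ : ∀ a, Rt a ≤ Λ' := fun a =>
    (le_abs_self _).trans (Finset.single_le_sum (f := fun a => |Rt a|) (fun a _ => abs_nonneg (Rt a)) (Finset.mem_univ a))
  -- the conditions on `n`
  have g1 : ∀ᶠ n : ℕ in atTop, (regularGraphs n d).Nonempty →
      s4Pr n d k (fun G v w => ¬ S4Near d E (s4X G E v w ⟨0, R⟩) (R ^ (-ξ))) ≤ C1 * R ^ (-(1 : ℝ)) + η / 8 :=
    Filter.eventually_atTop.2 (HE 0 R r5 (η / 8) hη8)
  have g2 : ∀ᶠ n : ℕ in atTop, (regularGraphs n d).Nonempty →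
      s4Pr n d k (fun G v w => ¬ S4Near d E (s4X G E v w ⟨0, Λ⟩) (Λ ^ (-ξ))) ≤ C1 * Λ ^ (-(1 : ℝ)) + η / 8 :=
    Filter.eventually_atTop.2 (HE 0 Λ l4 (η / 8) hη8)
  have g3 : ∀ᶠ n : ℕ in atTop, ∀ a : Win L, (regularGraphs n d).Nonempty →
      s4Pg n d (fun G => ¬ (((-(Rt a) : ℝ) : EReal) ≤ tpLab (s4Spec E G) (wIdx a) ∧ tpLab (s4Spec E G) (wIdx a) ≤ (Rt a : EReal)))
        ≤ η / (8 * (2 * (L : ℝ) + 1)) :=
    Filter.eventually_all.2 fun a => Filter.eventually_atTop.2 ⟨Nt a, hRt a⟩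
  have g4 : ∀ᶠ n : ℕ in atTop, (regularGraphs n d).Nonempty →
      s4Pg n d (fun G => ¬ S4Mom d E k 2 4 G ((n : ℝ) ^ (2 * ε1)) (C2 * (n : ℝ) ^ (-cc))) ≤ η / 8 :=
    Filter.eventually_atTop.2 (HI2 ε1 hε1 le_rfl (η / 8) hη8)
  have g5 : ∀ᶠ n : ℕ in atTop, Λ' ≤ (n : ℝ) ^ (2 * ε1) :=
    ((tendsto_rpow_atTop (by positivity : 0 < 2 * ε1)).comp tendsto_natCast_atTop_atTop).eventually_ge_atTop Λ'
  have g6 : ∀ᶠ n : ℕ in atTop, K2 * (C2 * (n : ℝ) ^ (-cc) * (8 * ((2 * (L : ℝ) + 1) / R) ^ 2) / t) ≤ η / 8 := by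
    have h0 : Tendsto (fun n : ℕ => K2 * (C2 * (n : ℝ) ^ (-cc) * (8 * ((2 * (L : ℝ) + 1) / R) ^ 2) / t)) atTop
        (𝓝 (K2 * (C2 * 0 * (8 * ((2 * (L : ℝ) + 1) / R) ^ 2) / t))) :=
      (((((tendsto_rpow_neg_atTop hcc).comp tendsto_natCast_atTop_atTop).const_mul C2).mul_const _).div_const t).const_mul K2
    rw [mul_zero, zero_mul, zero_div, mul_zero] at h0
    exact h0.eventually_le_const hη8
  refine Filter.eventually_atTop.1 ?_
  filter_upwards [g1, g2, g3, g4, g5, g6, eventually_ge_atTop 1] with n g1 g2 g3 g4 g5 g6 hn1 hne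
  have hn : 0 < n := hn1
  have hnd : 0 < n * d := Nat.mul_pos hn (by have := H.hd; omega)
  set δ : ℝ := C2 * (n : ℝ) ^ (-cc) with hδ
  set Gd : SimpleGraph (Fin n) → Prop := fun G => (s4M G E ⟨0, R⟩).im ≤ B ∧ S4wTight E L Λ' G ∧ S4Mom d E k 2 4 G ((n : ℝ) ^ (2 * ε1)) δ with hGd
  -- the deterministic inclusion
  have hdet : ∀ (G : SimpleGraph (Fin n)) (v w : Fin k → Fin n),
      ¬ S4Close (s4X G E v w z) (s4Y k d E L R (s4Win E L G) (s4Beta E k L G v w) z) τ →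
      (¬ S4Near d E (s4X G E v w ⟨0, R⟩) (R ^ (-ξ))) ∨ (¬ S4Near d E (s4X G E v w ⟨0, Λ⟩) (Λ ^ (-ξ))) ∨
      (∃ a : Win L, ¬ (((-(Rt a) : ℝ) : EReal) ≤ tpLab (s4Spec E G) (wIdx a) ∧ tpLab (s4Spec E G) (wIdx a) ≤ (Rt a : EReal))) ∨
      (¬ S4Mom d E k 2 4 G ((n : ℝ) ^ (2 * ε1)) δ) ∨
      (∃ p : Ch k × Ch k, Gd G ∧ t < ‖s4wT3 d G E L R v w p.1 p.2‖ ^ 2) := by
    intro G v w hnc
    by_cases c1 : S4Near d E (s4X G E v w ⟨0, R⟩) (R ^ (-ξ))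
    swap
    · exact Or.inl c1
    by_cases c2 : S4Near d E (s4X G E v w ⟨0, Λ⟩) (Λ ^ (-ξ))
    swap
    · exact Or.inr (Or.inl c2)
    by_cases c3 : ∃ a : Win L, ¬ (((-(Rt a) : ℝ) : EReal) ≤ tpLab (s4Spec E G) (wIdx a) ∧ tpLab (s4Spec E G) (wIdx a) ≤ (Rt a : EReal))
    · exact Or.inr (Or.inr (Or.inl c3))
    by_cases c4 : S4Mom d E k 2 4 G ((n : ℝ) ^ (2 * ε1)) δ
    swap
    · exact Or.inr (Or.inr (Or.inr (Or.inl c4)))
    by_cases c5 : ∃ p : Ch k × Ch k, Gd G ∧ t < ‖s4wT3 d G E L R v w p.1 p.2‖ ^ 2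
    · exact Or.inr (Or.inr (Or.inr (Or.inr c5)))
    exfalso
    apply hnc
    have hR1 : R ^ (-ξ) ≤ 1 := Real.rpow_le_one_of_one_le_of_nonpos r4 (by linarith)
    have hΛ1 : Λ ^ (-ξ) ≤ 1 := Real.rpow_le_one_of_one_le_of_nonpos l3 (by linarith)
    have htight : S4wTight E L Λ' G := by
      intro a
      have h0 : ((-(Rt a) : ℝ) : EReal) ≤ tpLab (s4Spec E G) (wIdx a) ∧ tpLab (s4Spec E G) (wIdx a) ≤ (Rt a : EReal) := by
        by_contra hcon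
        exact c3 ⟨a, hcon⟩
      exact ⟨le_trans (EReal.coe_le_coe_iff.2 (by have := hRtΛ a; linarith)) h0.1, h0.2.trans (EReal.coe_le_coe_iff.2 (hRtΛ a))⟩
    have hgd : Gd G := ⟨by have := (s4w_near_im c1).1; exact this.trans (by linarith), htight, c4⟩
    have h3 : ∀ c c', ‖s4wT3 d G E L R v w c c'‖ ≤ τ / 3 := by
      intro c c'
      by_contra hcon
      push Not at hcon
      exact c5 ⟨(c, c'), hgd, pow_lt_pow_left₀ hcon (by positivity) two_ne_zero⟩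
    have hfin := s4w_det hn d v w hz r4 (by linarith) (by linarith) c1 (c2.mono hΛ1) (s4w_range htight).1 hL' h3
      (Real.rpow_nonneg hRpos.le _) (by positivity)
    exact hfin.mono (by linarith)
  -- the five probabilities
  have p3 : s4Pr n d k (fun G _ _ => ∃ a : Win L, ¬ (((-(Rt a) : ℝ) : EReal) ≤ tpLab (s4Spec E G) (wIdx a) ∧ tpLab (s4Spec E G) (wIdx a) ≤ (Rt a : EReal)))
      ≤ η / 8 := by
    refine (s4w_Pr_exists (fun (a : Win L) (G : SimpleGraph (Fin n)) (_ _ : Fin k → Fin n) =>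
      ¬ (((-(Rt a) : ℝ) : EReal) ≤ tpLab (s4Spec E G) (wIdx a) ∧ tpLab (s4Spec E G) (wIdx a) ≤ (Rt a : EReal)))).trans ?_
    calc _ ≤ ∑ _a : Win L, η / (8 * (2 * (L : ℝ) + 1)) := Finset.sum_le_sum fun a _ => by
          rw [s4_Pr_graph hnd]
          exact g3 a hne
      _ = η / 8 := by
          rw [Finset.sum_const, Finset.card_univ, Fintype.card_fin, nsmul_eq_mul]
          push_cast
          field_simp
  have p4 : s4Pr n d k (fun G _ _ => ¬ S4Mom d E k 2 4 G ((n : ℝ) ^ (2 * ε1)) δ) ≤ η / 8 := by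
    rw [s4_Pr_graph hnd]
    exact g4 hne
  have p5 : s4Pr n d k (fun G v w => ∃ p : Ch k × Ch k, Gd G ∧ t < ‖s4wT3 d G E L R v w p.1 p.2‖ ^ 2) ≤ η / 8 + η / 8 := by
    refine (s4w_Pr_exists (fun (p : Ch k × Ch k) (G : SimpleGraph (Fin n)) (v w : Fin k → Fin n) =>
      Gd G ∧ t < ‖s4wT3 d G E L R v w p.1 p.2‖ ^ 2)).trans ?_
    by_cases hex : ∃ G ∈ regularGraphs n d, Gd G
    swap
    · have hq0 : ∀ p : Ch k × Ch k, s4Pr n d k (fun G v w => Gd G ∧ t < ‖s4wT3 d G E L R v w p.1 p.2‖ ^ 2) ≤ 0 := fun p =>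
        s4w_Pr_cond Gd _ le_rfl fun G hG hg => absurd ⟨G, hG, hg⟩ hex
      calc _ ≤ ∑ _p : Ch k × Ch k, (0 : ℝ) := Finset.sum_le_sum fun p _ => hq0 p
        _ = 0 := Finset.sum_const_zero
        _ ≤ _ := by positivity
    obtain ⟨G0, _, hG0⟩ := hex
    have hδ0 : 0 ≤ δ := s4w_mom_nonneg hG0.2.2
    have hq : ∀ p : Ch k × Ch k, s4Pr n d k (fun G v w => Gd G ∧ t < ‖s4wT3 d G E L R v w p.1 p.2‖ ^ 2)
        ≤ (A * (B / R) + δ * (8 * ((2 * (L : ℝ) + 1) / R) ^ 2)) / t := by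
      intro p
      refine s4w_Pr_cond Gd _ (by positivity) fun G hG hg => ?_
      have m1 := s4_Ec_markov (d := d) G (fun v w => ‖s4wT3 d G E L R v w p.1 p.2‖ ^ 2) (fun _ _ => by positivity) ht0
      have m2 := HT3 k d E hp n G hG hnd _ δ hg.2.2 L R hRpos (fun i hi => ((s4w_range hg.2.1).2 i hi).trans g5) p.1 p.2
      have m3 : A * ((s4M G E ⟨0, R⟩).im / R) ≤ A * (B / R) := by
        have := hg.1
        gcongr
      refine le_trans (le_of_eq ?_) (m1.trans ?_)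
      · congr 1
      · gcongr
        linarith
    calc _ ≤ ∑ _p : Ch k × Ch k, (A * (B / R) + δ * (8 * ((2 * (L : ℝ) + 1) / R) ^ 2)) / t := Finset.sum_le_sum fun p _ => hq p
      _ = K2 * (A * (B / R) / t) + K2 * (δ * (8 * ((2 * (L : ℝ) + 1) / R) ^ 2) / t) := by
          rw [Finset.sum_const, Finset.card_univ, nsmul_eq_mul]
          ring
      _ ≤ _ := add_le_add r3 g6
  have u1 := s4_Pr_mono (n := n) (d := d) (k := k) hdet
  have u2 := s4_Pr_or (n := n) (d := d) (k := k) (fun G v w => ¬ S4Near d E (s4X G E v w ⟨0, R⟩) (R ^ (-ξ)))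
    (fun G v w => (¬ S4Near d E (s4X G E v w ⟨0, Λ⟩) (Λ ^ (-ξ))) ∨
      (∃ a : Win L, ¬ (((-(Rt a) : ℝ) : EReal) ≤ tpLab (s4Spec E G) (wIdx a) ∧ tpLab (s4Spec E G) (wIdx a) ≤ (Rt a : EReal))) ∨
      (¬ S4Mom d E k 2 4 G ((n : ℝ) ^ (2 * ε1)) δ) ∨
      (∃ p : Ch k × Ch k, Gd G ∧ t < ‖s4wT3 d G E L R v w p.1 p.2‖ ^ 2))
  have u3 := s4_Pr_or (n := n) (d := d) (k := k) (fun G v w => ¬ S4Near d E (s4X G E v w ⟨0, Λ⟩) (Λ ^ (-ξ)))
    (fun G v w => (∃ a : Win L, ¬ (((-(Rt a) : ℝ) : EReal) ≤ tpLab (s4Spec E G) (wIdx a) ∧ tpLab (s4Spec E G) (wIdx a) ≤ (Rt a : EReal))) ∨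
      (¬ S4Mom d E k 2 4 G ((n : ℝ) ^ (2 * ε1)) δ) ∨
      (∃ p : Ch k × Ch k, Gd G ∧ t < ‖s4wT3 d G E L R v w p.1 p.2‖ ^ 2))
  have u4 := s4_Pr_or (n := n) (d := d) (k := k)
    (fun G _ _ => ∃ a : Win L, ¬ (((-(Rt a) : ℝ) : EReal) ≤ tpLab (s4Spec E G) (wIdx a) ∧ tpLab (s4Spec E G) (wIdx a) ≤ (Rt a : EReal)))
    (fun G v w => (¬ S4Mom d E k 2 4 G ((n : ℝ) ^ (2 * ε1)) δ) ∨
      (∃ p : Ch k × Ch k, Gd G ∧ t < ‖s4wT3 d G E L R v w p.1 p.2‖ ^ 2))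
  have u5 := s4_Pr_or (n := n) (d := d) (k := k) (fun G _ _ => ¬ S4Mom d E k 2 4 G ((n : ℝ) ^ (2 * ε1)) δ)
    (fun G v w => ∃ p : Ch k × Ch k, Gd G ∧ t < ‖s4wT3 d G E L R v w p.1 p.2‖ ^ 2)
  have q1 := g1 hne
  have q2 := g2 hne
  linarith

end

end Claimed.Agent.R287
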