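import Claimed.Agent.R287.S4
import Claimed.Agent.R287.S4Desc
import Claimed.Agent.R287.S4Win

/-!
# Row 287 (S0534), unit S4, NODE N3 = `s4_gauss` : GAUSSIAN MARKS, PRODUCT STRUCTURE      (deputy D2 = helper84; head helper289; prefix `ga_` = model free kit, `s4g` = graph side)

P1 04-limits.tex (Prop 4.2, "Gaussian marks");  note origin/helper289:notes/R287/A7_helper289.md sec. B (K2-c), C.
STATEMENT (`s4_gauss_pf`, same as `s4_gauss` of `S4.lean`): along the ultrafilter the joint law of (labelled window, marks of the labels `|j| ≤ L`) converges weakly to `μ_L ⊗ N(0, C_k)^{⊗}`.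
ROUTE (no Prokhorov by hand, no conditional laws, no moment determinacy):
 A  real Taylor bounds  `|cos y - ∑_{r<q} c_r y^r| ≤ |y|^q / q!`, the same for `sin`   (`ga_cos_taylor`, `ga_sin_taylor`);
 B  Gaussian side: `exp` of a linear statistic is integrable under `gArr`; monomials are integrable; `∫ Y^q / q! ≤ M 2^(-q)`   (`ga_exp_integrable`, `ga_mono_integrable`, `ga_tail`);
 C  multinomial expansion of `Y_t(β)^r`, `Y_t(β) = ∑ t_ic β_ic`   (`ga_Y_pow`, `ga_l1_pow`);
 D  on a GOOD graph (`S4gGood`: `S4Mom` with `ℓ = 2L+1`, the labels `|j| ≤ L` in range and in the band): `|E[χ(Y) | G] - ∫ χ(Y) dγ| ≤ 2 ∫ Y^q dγ / q! + δ e^{|t|₁}`, `χ = cos, sin`   (`s4g_cond`);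
 E  the graphs are good with probability `→ 1`   (`s4g_good`: `S4I2`, `s4_tight`, `S4Lab`);
 F  `E[φ(x_G) χ(Y)] → ∫ φ dμ_L ∫ χ(Y) dγ` along `U`   (`s4g_core`);
 G  the laws `s4gLaw` = finite sums of Dirac masses; tightness (`s4_tight`, `s4_mark_sq`, finite supports for small `n`);
    Mathlib `ProbabilityMeasure.tendsto_of_tight_of_separatesPoints` at the star subalgebra `charPoly` of the pairing `gaPair`   (`ga_levy`, `s4g_tight`, `s4_gauss_pf`).
-/

set_option autoImplicit false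

namespace Claimed.Agent.R287

open MeasureTheory ProbabilityTheory Matrix Filter Topology Claims.C0462
open scoped BoundedContinuousFunction

noncomputable section

/-! ## A. Taylor -/

/-- Taylor coefficients of `cos` -/
def gaC (r : ℕ) : ℝ := (Complex.I ^ r).re / r.factorial

/-- Taylor coefficients of `sin` -/
def gaS (r : ℕ) : ℝ := (Complex.I ^ r).im / r.factorial

theorem ga_exp_taylor_aux (c : ℂ) (hc : ‖c‖ ≤ 1) (hre : c.re = 0) (q : ℕ) : ∀ y : ℝ, 0 ≤ y →
    ‖Complex.exp (c * y) - ∑ r ∈ Finset.range q, (c * (y : ℂ)) ^ r / r.factorial‖ ≤ y ^ q / q.factorial := by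
  induction q with
  | zero =>
    intro y _
    simp [Complex.norm_exp, hre]
  | succ q ih =>
    intro y hy
    have hlin : ∀ s : ℝ, HasDerivAt (fun s : ℝ => c * (s : ℂ)) c s := fun s => by
      simpa using (Complex.ofRealCLM.hasDerivAt (x := s)).const_mul c
    have hsum : ∀ s : ℝ, HasDerivAt (fun s : ℝ => ∑ r ∈ Finset.range (q + 1), (c * (s : ℂ)) ^ r / r.factorial)
        (c * ∑ r ∈ Finset.range q, (c * (s : ℂ)) ^ r / r.factorial) s := by
      intro s
      have h1 : ∀ r ∈ Finset.range (q + 1), HasDerivAt (fun s : ℝ => (c * (s : ℂ)) ^ r / r.factorial)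
          ((r : ℂ) * (c * (s : ℂ)) ^ (r - 1) * c / r.factorial) s := fun r _ => ((hlin s).pow r).div_const _
      refine (HasDerivAt.fun_sum h1).congr_deriv ?_
      rw [Finset.sum_range_succ', Finset.mul_sum]
      simp only [Nat.cast_zero, zero_mul, zero_div, add_zero, Nat.add_sub_cancel]
      refine Finset.sum_congr rfl fun r _ => ?_
      have h3 : ((r + 1).factorial : ℂ) = ((r : ℂ) + 1) * (r.factorial : ℂ) := by
        rw [Nat.factorial_succ]; push_cast; ring
      have h4 : ((r : ℂ) + 1) ≠ 0 := by exact_mod_cast Nat.succ_ne_zero r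
      have h5 : (r.factorial : ℂ) ≠ 0 := by exact_mod_cast Nat.factorial_ne_zero r
      rw [h3]; push_cast; field_simp
    have hf : ∀ s : ℝ, HasDerivAt (fun s : ℝ => Complex.exp (c * s) - ∑ r ∈ Finset.range (q + 1), (c * (s : ℂ)) ^ r / r.factorial)
        (c * (Complex.exp (c * s) - ∑ r ∈ Finset.range q, (c * (s : ℂ)) ^ r / r.factorial)) s := by
      intro s
      refine (((hlin s).cexp).sub (hsum s)).congr_deriv ?_
      ring
    have hB : ∀ s : ℝ, HasDerivAt (fun s : ℝ => s ^ (q + 1) / (q + 1).factorial) (s ^ q / q.factorial) s := by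
      intro s
      refine ((hasDerivAt_pow (q + 1) s).div_const ((q + 1).factorial : ℝ)).congr_deriv ?_
      have h3 : ((q + 1).factorial : ℝ) = ((q : ℝ) + 1) * (q.factorial : ℝ) := by
        rw [Nat.factorial_succ]; push_cast; ring
      have h4 : ((q : ℝ) + 1) ≠ 0 := by positivity
      have h5 : (q.factorial : ℝ) ≠ 0 := by positivity
      rw [h3]; simp; field_simp
    refine image_norm_le_of_norm_deriv_right_le_deriv_boundary (a := 0) (b := y)
      (f := fun s : ℝ => Complex.exp (c * s) - ∑ r ∈ Finset.range (q + 1), (c * (s : ℂ)) ^ r / r.factorial)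
      (f' := fun s : ℝ => c * (Complex.exp (c * s) - ∑ r ∈ Finset.range q, (c * (s : ℂ)) ^ r / r.factorial))
      (B := fun s : ℝ => s ^ (q + 1) / (q + 1).factorial) (B' := fun s : ℝ => s ^ q / q.factorial)
      (fun s _ => (hf s).continuousAt.continuousWithinAt) (fun s _ => (hf s).hasDerivWithinAt) ?_ hB ?_ ⟨hy, le_rfl⟩
    · simp [Finset.sum_range_succ']
    · intro s hs
      rw [norm_mul]
      calc ‖c‖ * _ ≤ 1 * _ := mul_le_mul_of_nonneg_right hc (norm_nonneg _)
        _ ≤ _ := by rw [one_mul]; exact ih s hs.1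

/-- **LEAF** sharp Taylor remainder on the imaginary axis.      Induction on `q`: `h_q' = i h_{q-1}`, `h_q(0) = 0`; `image_norm_le_of_norm_deriv_right_le_deriv_boundary` with `B y = y^q/q!` on `[0, y]`; `y < 0` by conjugation. -/
theorem ga_exp_taylor (q : ℕ) (y : ℝ) :
    ‖Complex.exp (y * Complex.I) - ∑ r ∈ Finset.range q, ((y : ℂ) * Complex.I) ^ r / r.factorial‖ ≤ |y| ^ q / q.factorial := by
  rcases le_total 0 y with hy | hy
  · have := ga_exp_taylor_aux Complex.I (by simp) (by simp) q y hy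
    rw [abs_of_nonneg hy]
    simpa [mul_comm] using this
  · have := ga_exp_taylor_aux (-Complex.I) (by simp) (by simp) q (-y) (by linarith)
    rw [abs_of_nonpos hy]
    simpa [mul_comm] using this

theorem ga_C_abs (r : ℕ) : |gaC r| ≤ 1 / r.factorial := by
  rw [gaC, abs_div, Nat.abs_cast]
  refine div_le_div_of_nonneg_right ((Complex.abs_re_le_norm _).trans ?_) (Nat.cast_nonneg _)
  simp

theorem ga_S_abs (r : ℕ) : |gaS r| ≤ 1 / r.factorial := by
  rw [gaS, abs_div, Nat.abs_cast]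
  refine div_le_div_of_nonneg_right ((Complex.abs_im_le_norm _).trans ?_) (Nat.cast_nonneg _)
  simp

theorem ga_term_eq (r : ℕ) (y : ℝ) : ((y : ℂ) * Complex.I) ^ r / r.factorial = ((gaC r * y ^ r : ℝ) : ℂ) + ((gaS r * y ^ r : ℝ) : ℂ) * Complex.I := by
  have h1 : Complex.I ^ r = (((Complex.I ^ r).re : ℝ) : ℂ) + (((Complex.I ^ r).im : ℝ) : ℂ) * Complex.I := (Complex.re_add_im _).symm
  rw [mul_pow, gaC, gaS]
  generalize Complex.I ^ r = w at h1
  rw [h1]
  simp only [Complex.add_re, Complex.ofReal_re, Complex.mul_re, Complex.I_re, mul_zero, Complex.ofReal_im, Complex.I_im, mul_one, sub_self, add_zero,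
    Complex.add_im, Complex.mul_im, zero_add]
  push_cast
  ring

theorem ga_sum_eq (q : ℕ) (y : ℝ) : ∑ r ∈ Finset.range q, ((y : ℂ) * Complex.I) ^ r / r.factorial
    = ((∑ r ∈ Finset.range q, gaC r * y ^ r : ℝ) : ℂ) + ((∑ r ∈ Finset.range q, gaS r * y ^ r : ℝ) : ℂ) * Complex.I := by
  rw [Finset.sum_congr rfl fun r _ => ga_term_eq r y, Finset.sum_add_distrib, ← Finset.sum_mul]
  push_cast
  rfl

/-- real part of `ga_exp_taylor` -/
theorem ga_cos_taylor (q : ℕ) (y : ℝ) : |Real.cos y - ∑ r ∈ Finset.range q, gaC r * y ^ r| ≤ |y| ^ q / q.factorial := by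
  refine le_trans ?_ (ga_exp_taylor q y)
  refine le_trans (le_of_eq ?_) (Complex.abs_re_le_norm _)
  rw [ga_sum_eq, Complex.exp_mul_I, ← Complex.ofReal_cos, ← Complex.ofReal_sin]
  generalize (∑ r ∈ Finset.range q, gaC r * y ^ r) = A
  generalize (∑ r ∈ Finset.range q, gaS r * y ^ r) = B
  generalize Real.cos y = c
  generalize Real.sin y = s
  simp

/-- imaginary part of `ga_exp_taylor` -/
theorem ga_sin_taylor (q : ℕ) (y : ℝ) : |Real.sin y - ∑ r ∈ Finset.range q, gaS r * y ^ r| ≤ |y| ^ q / q.factorial := by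
  refine le_trans ?_ (ga_exp_taylor q y)
  refine le_trans (le_of_eq ?_) (Complex.abs_im_le_norm _)
  rw [ga_sum_eq, Complex.exp_mul_I, ← Complex.ofReal_cos, ← Complex.ofReal_sin]
  generalize (∑ r ∈ Finset.range q, gaC r * y ^ r) = A
  generalize (∑ r ∈ Finset.range q, gaS r * y ^ r) = B
  generalize Real.cos y = c
  generalize Real.sin y = s
  simp

/-! ## B, C. the linear statistic; Gaussian side -/

section kit

variable {ι κ : Type} [Fintype ι] [Fintype κ]

/-- the linear statistic `Y_t(β) = ∑ t_ic β_ic` -/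
def gaY (t β : Matrix ι κ ℝ) : ℝ := ∑ i, ∑ c, t i c * β i c

/-- `|t|₁` -/
def gaN (t : Matrix ι κ ℝ) : ℝ := ∑ i, ∑ c, |t i c|

theorem ga_N_nonneg (t : Matrix ι κ ℝ) : 0 ≤ gaN t :=
  Finset.sum_nonneg fun _ _ => Finset.sum_nonneg fun _ _ => abs_nonneg _

theorem ga_Y_continuous (t : Matrix ι κ ℝ) : Continuous (gaY t) := by
  unfold gaY
  exact continuous_finsetSum _ fun i _ => continuous_finsetSum _ fun c _ => continuous_const.mul (continuous_id.matrix_elem i c)

/-- `Y_t(g Aᵀ) = Y_{tA}(g)` -/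
theorem ga_Y_mul [DecidableEq κ] (t g : Matrix ι κ ℝ) (A : Matrix κ κ ℝ) : gaY t (g * Aᵀ) = gaY (t * A) g := by
  unfold gaY
  refine Finset.sum_congr rfl fun i _ => ?_
  simp only [Matrix.mul_apply, Matrix.transpose_apply, Finset.mul_sum, Finset.sum_mul]
  rw [Finset.sum_comm]
  refine Finset.sum_congr rfl fun e _ => Finset.sum_congr rfl fun c _ => ?_
  ring

theorem ga_Y_prod (t β : Matrix ι κ ℝ) : gaY t β = ∑ p : ι × κ, t p.1 p.2 * β p.1 p.2 := by
  rw [gaY, Fintype.sum_prod_type]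

theorem ga_sum_pow {α : Type} [Fintype α] (f : α → ℝ) (r : ℕ) : (∑ p, f p) ^ r = ∑ τ : Fin r → α, ∏ a, f (τ a) := by
  classical
  have := Finset.prod_univ_sum (fun _ : Fin r => (Finset.univ : Finset α)) (fun _ p => f p)
  rw [Finset.prod_const, Finset.card_univ, Fintype.card_fin, Fintype.piFinset_univ] at this
  exact this

/-- **LEAF** multinomial expansion (`Finset.prod_univ_sum`, `Fintype.piFinset_univ`, `Fintype.sum_prod_type`) -/
theorem ga_Y_pow (t β : Matrix ι κ ℝ) (r : ℕ) :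
    gaY t β ^ r = ∑ τ : Fin r → ι × κ, (∏ a, t (τ a).1 (τ a).2) * ∏ a, β (τ a).1 (τ a).2 := by
  rw [ga_Y_prod, ga_sum_pow]
  exact Finset.sum_congr rfl fun τ _ => Finset.prod_mul_distrib

/-- **LEAF** total mass of the coefficients -/
theorem ga_l1_pow (t : Matrix ι κ ℝ) (r : ℕ) : ∑ τ : Fin r → ι × κ, |∏ a, t (τ a).1 (τ a).2| = gaN t ^ r := by
  have h : gaN t = ∑ p : ι × κ, |t p.1 p.2| := by rw [gaN, Fintype.sum_prod_type]
  rw [h, ga_sum_pow]
  exact Finset.sum_congr rfl fun τ _ => Finset.abs_prod _ _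

/-- **LEAF** exponential moments of a linear statistic (`exp (∑∑) = ∏∏ exp`; `Integrable.fintype_prod` twice; `integrable_exp_mul_gaussianReal`) -/
theorem ga_exp_integrable (t : Matrix ι κ ℝ) : Integrable (fun g => Real.exp (gaY t g)) (gArr ι κ) := by
  have h1 : ∀ i : ι, Integrable (fun x : κ → ℝ => ∏ c, Real.exp (t i c * x c)) (Measure.pi fun _ : κ => gaussianReal 0 1) := fun i =>
    Integrable.fintype_prod (f := fun c (x : ℝ) => Real.exp (t i c * x)) fun c => integrable_exp_mul_gaussianReal (t i c)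
  have h2 := Integrable.fintype_prod (f := fun i (x : κ → ℝ) => ∏ c, Real.exp (t i c * x c)) (μ := fun _ : ι => Measure.pi fun _ : κ => gaussianReal 0 1) h1
  have h3 : (fun g : Matrix ι κ ℝ => Real.exp (gaY t g)) = fun x : ι → κ → ℝ => ∏ i, ∏ c, Real.exp (t i c * x i c) := by
    funext g
    rw [gaY, Real.exp_sum]
    exact Finset.prod_congr rfl fun i _ => Real.exp_sum _ _
  rw [h3]
  exact h2

theorem ga_abs_pow_le (y : ℝ) (r : ℕ) : |y| ^ r ≤ r.factorial * (Real.exp y + Real.exp (-y)) := by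
  have h1 := Real.pow_div_factorial_le_exp |y| (abs_nonneg y) r
  have h2 : Real.exp |y| ≤ Real.exp y + Real.exp (-y) := by
    rcases abs_cases y with ⟨h, _⟩ | ⟨h, _⟩ <;> rw [h]
    · linarith [Real.exp_pos (-y)]
    · linarith [Real.exp_pos y]
  have h3 : (0 : ℝ) < r.factorial := by positivity
  rw [div_le_iff₀ h3] at h1
  nlinarith

theorem ga_Y_neg (t g : Matrix ι κ ℝ) : gaY (-t) g = - gaY t g := by
  simp [gaY, Finset.sum_neg_distrib]

theorem ga_Y_smul (a : ℝ) (t g : Matrix ι κ ℝ) : gaY (a • t) g = a * gaY t g := by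
  simp [gaY, Finset.mul_sum, mul_assoc]

theorem ga_cosh_integrable (t : Matrix ι κ ℝ) : Integrable (fun g => Real.exp (gaY t g) + Real.exp (-gaY t g)) (gArr ι κ) := by
  refine (ga_exp_integrable t).add ?_
  have := ga_exp_integrable (-t)
  simpa only [ga_Y_neg] using this

/-- **LEAF** `|y|^r ≤ r! (e^y + e^{-y})` (`Real.pow_div_factorial_le_exp`), so all powers of a linear statistic are integrable -/
theorem ga_Y_pow_integrable (t : Matrix ι κ ℝ) (r : ℕ) : Integrable (fun g => gaY t g ^ r) (gArr ι κ) := by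
  refine Integrable.mono' ((ga_cosh_integrable t).const_mul (r.factorial : ℝ)) ((ga_Y_continuous t).pow r).aestronglyMeasurable
    (Eventually.of_forall fun g => ?_)
  rw [Real.norm_eq_abs, abs_pow]
  exact ga_abs_pow_le _ _

theorem ga_Y_abs_pow_integrable (t : Matrix ι κ ℝ) (r : ℕ) : Integrable (fun g => |gaY t g| ^ r) (gArr ι κ) := by
  have := (ga_Y_pow_integrable t r).abs
  simpa only [abs_pow] using this

theorem ga_prod_le_sum {r : ℕ} (y : Fin r → ℝ) (hr : 0 < r) : |∏ a, y a| ≤ ∑ a, |y a| ^ r := by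
  have : Nonempty (Fin r) := ⟨⟨0, hr⟩⟩
  obtain ⟨a0, _, h0⟩ := Finset.exists_max_image (Finset.univ : Finset (Fin r)) (fun a => |y a|) Finset.univ_nonempty
  rw [Finset.abs_prod]
  calc ∏ a, |y a| ≤ ∏ _a : Fin r, |y a0| := Finset.prod_le_prod (fun a _ => abs_nonneg _) fun a ha => h0 a ha
    _ = |y a0| ^ r := by rw [Finset.prod_const, Finset.card_univ, Fintype.card_fin]
    _ ≤ ∑ a, |y a| ^ r := Finset.single_le_sum (f := fun a => |y a| ^ r) (fun a _ => by positivity) (Finset.mem_univ a0)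

theorem ga_entry_eq [DecidableEq κ] (A : Matrix κ κ ℝ) (i : ι) (c : κ) : ∃ t : Matrix ι κ ℝ, ∀ g : Matrix ι κ ℝ, (g * Aᵀ) i c = gaY t g := by
  classical
  refine ⟨fun i' e => if i' = i then A c e else 0, fun g => ?_⟩
  unfold gaY
  rw [Finset.sum_eq_single i]
  · simp [Matrix.mul_apply, mul_comm]
  · intro b _ hb
    simp [hb]
  · intro h
    exact absurd (Finset.mem_univ i) h

/-- **LEAF** monomials in linear statistics are integrable (`∏_a |y_a| ≤ ∑_a |y_a|^r`) -/
theorem ga_mono_integrable [DecidableEq κ] (A : Matrix κ κ ℝ) {r : ℕ} (τ : Fin r → ι × κ) :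
    Integrable (fun g : Matrix ι κ ℝ => ∏ a, (g * Aᵀ) (τ a).1 (τ a).2) (gArr ι κ) := by
  choose t ht using fun a : Fin r => ga_entry_eq (ι := ι) A (τ a).1 (τ a).2
  simp only [ht]
  rcases Nat.eq_zero_or_pos r with rfl | hr
  · have := ga_Y_pow_integrable (0 : Matrix ι κ ℝ) 0
    simpa using this
  · refine Integrable.mono' (integrable_finsetSum Finset.univ fun a _ => ga_Y_abs_pow_integrable (t a) r)
      (continuous_finsetProd _ fun a _ => ga_Y_continuous (t a)).aestronglyMeasurable (Eventually.of_forall fun g => ?_)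
    rw [Real.norm_eq_abs]
    exact ga_prod_le_sum _ hr

/-- **LEAF** the Taylor remainder on the Gaussian side: `y^q / q! = 2^(-q) (2y)^q / q! ≤ 2^(-q) (e^{2y} + e^{-2y})` for even `q` -/
theorem ga_tail (t : Matrix ι κ ℝ) : ∃ M : ℝ, 0 ≤ M ∧ ∀ q : ℕ, Even q → (∫ g, gaY t g ^ q ∂(gArr ι κ)) / q.factorial ≤ M / 2 ^ q := by
  refine ⟨∫ g, (Real.exp (gaY ((2 : ℝ) • t) g) + Real.exp (-gaY ((2 : ℝ) • t) g)) ∂(gArr ι κ), integral_nonneg fun g => by positivity, fun q _ => ?_⟩
  have hq : (0 : ℝ) < q.factorial := by positivity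
  rw [div_le_div_iff₀ hq (by positivity), ← integral_mul_const, ← integral_mul_const]
  refine integral_mono ((ga_Y_pow_integrable t q).mul_const _) ((ga_cosh_integrable _).mul_const _) fun g => ?_
  have h1 := ga_abs_pow_le (gaY ((2 : ℝ) • t) g) q
  rw [ga_Y_smul, abs_mul, mul_pow, abs_of_pos (by norm_num : (0 : ℝ) < 2)] at h1
  have h2 : gaY t g ^ q ≤ |gaY t g| ^ q := by rw [← abs_pow]; exact le_abs_self _
  show gaY t g ^ q * 2 ^ q ≤ (Real.exp (gaY ((2 : ℝ) • t) g) + Real.exp (-gaY ((2 : ℝ) • t) g)) * q.factorial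
  rw [ga_Y_smul]
  nlinarith [pow_pos (by norm_num : (0 : ℝ) < 2) q]

end kit

theorem ga_eqns_cite : True := by
  have := @gaC.eq_1
  have := @gaS.eq_1
  have := @gaY.eq_1
  have := @gaN.eq_1
  trivial

/-! ## B'. integrals against `s4Gam` -/

theorem ga_gArr_prob (ι κ : Type) [Fintype ι] [Fintype κ] : IsProbabilityMeasure (gArr ι κ) :=
  inferInstanceAs (IsProbabilityMeasure (Measure.pi fun _ : ι => Measure.pi fun _ : κ => gaussianReal 0 1))

theorem ga_mul_measurable {ι κ : Type} [Fintype ι] [Fintype κ] (A : Matrix κ κ ℝ) : Measurable fun g : Matrix ι κ ℝ => g * A :=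
  (continuous_id.matrix_mul continuous_const).measurable

theorem s4g_gam_prob (k L : ℕ) (p : ℝ) : IsProbabilityMeasure (s4Gam k L p) := by
  have := ga_gArr_prob (Win L) (Ch k)
  exact Measure.isProbabilityMeasure_map (ga_mul_measurable _).aemeasurable

/-- change of variables -/
theorem s4g_gam_integral (k L : ℕ) (p : ℝ) (F : Matrix (Win L) (Ch k) ℝ → ℝ) (hF : Measurable F) :
    ∫ β, F β ∂(s4Gam k L p) = ∫ g, F (g * (chA k p)ᵀ) ∂(gArr (Win L) (Ch k)) :=
  integral_map (ga_mul_measurable _).aemeasurable hF.aestronglyMeasurable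

theorem s4g_mulA_measurable {ι κ : Type} [Fintype ι] [Fintype κ] (A : Matrix κ κ ℝ) : Measurable fun g : Matrix ι κ ℝ => g * A := by
  refine measurable_pi_lambda _ fun i => measurable_pi_lambda _ fun c => ?_
  simp only [Matrix.mul_apply]
  refine Finset.measurable_sum _ fun j _ => ?_
  exact ((measurable_pi_apply j).comp (measurable_pi_apply i)).mul_const _

theorem s4g_gam_integrable (k L : ℕ) (p : ℝ) (F : Matrix (Win L) (Ch k) ℝ → ℝ) (hF : Measurable F) :
    Integrable F (s4Gam k L p) ↔ Integrable (fun g => F (g * (chA k p)ᵀ)) (gArr (Win L) (Ch k)) := by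
  unfold s4Gam
  exact integrable_map_measure hF.aestronglyMeasurable (s4g_mulA_measurable _).aemeasurable

theorem ga_Y_measurable {ι κ : Type} [Fintype ι] [Fintype κ] (t : Matrix ι κ ℝ) : Measurable (gaY t) := by
  unfold gaY
  refine Finset.measurable_sum _ fun i _ => Finset.measurable_sum _ fun c _ => ?_
  have h : Measurable fun β : Matrix ι κ ℝ => β i c := (measurable_pi_apply c).comp (measurable_pi_apply i)
  exact h.const_mul _

theorem s4g_Ypow_integrable (k L : ℕ) (p : ℝ) (t : Matrix (Win L) (Ch k) ℝ) (r : ℕ) : Integrable (fun β => gaY t β ^ r) (s4Gam k L p) := by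
  rw [s4g_gam_integrable k L p _ ((ga_Y_measurable t).pow_const r)]
  simp_rw [ga_Y_mul]
  exact ga_Y_pow_integrable _ r

theorem s4g_Ec_close {n d k : ℕ} (G : SimpleGraph (Fin n)) (F F' H : (Fin k → Fin n) → (Fin k → Fin n) → ℝ) (c : ℝ)
    (h : ∀ v w, |F v w - F' v w| ≤ c * H v w) : |s4Ec d k G F - s4Ec d k G F'| ≤ c * s4Ec d k G H := by
  have h1 := s4_Ec_lin (d := d) G F F' 1 (-1)
  have h2 := s4_Ec_lin (d := d) G H H c 0
  have h3 := s4_Ec_lin (d := d) G H H (-c) 0
  have h4 : s4Ec d k G (fun v w => 1 * F v w + -1 * F' v w) ≤ s4Ec d k G (fun v w => c * H v w + 0 * H v w) :=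
    s4_Ec_mono G fun v w _ => by have := (abs_le.1 (h v w)).2; linarith
  have h5 : s4Ec d k G (fun v w => -c * H v w + 0 * H v w) ≤ s4Ec d k G (fun v w => 1 * F v w + -1 * F' v w) :=
    s4_Ec_mono G fun v w _ => by have := (abs_le.1 (h v w)).1; linarith
  rw [abs_le]
  constructor <;> linarith

/-! ## D. one good graph -/

/-- the good graphs: moments matched up to the degree `q` for `2L+1` eigenvectors of the band; the labels `|j| ≤ L` are in range and in the band -/
def S4gGood {n : ℕ} (d : ℕ) (E : ℝ) (k L q : ℕ) (G : SimpleGraph (Fin n)) (Λ δ : ℝ) : Prop :=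
  S4Mom d E k (2 * L + 1) q G Λ δ ∧ ∀ i : Win L, ∃ i' : Fin n, s4Idx E G (wIdx i) = some i' ∧ |s4Pos G E i'| ≤ Λ

theorem s4g_wIdx_inj {K : ℕ} : Function.Injective (wIdx (K := K)) := by
  intro i j h
  unfold wIdx at h
  apply Fin.ext
  omega

/-- **LEAF** moments of the linear statistic on a good graph (`ga_Y_pow` on both sides, `s4_Ec_lin` / finite sums, `S4Mom` at `i = ` the labelling, `ga_mono_integrable`, `ga_l1_pow`) -/
theorem s4g_mom {n d k L q : ℕ} {E Λ δ : ℝ} {G : SimpleGraph (Fin n)} (hG : S4gGood d E k L q G Λ δ) (t : Matrix (Win L) (Ch k) ℝ)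
    {r : ℕ} (hr : r ≤ q) :
    |s4Ec d k G (fun v w => gaY t (s4Beta E k L G v w) ^ r) - ∫ β, gaY t β ^ r ∂(s4Gam k L (E / d))| ≤ gaN t ^ r * δ := by
  obtain ⟨hM, hI⟩ := hG
  choose idx hidx hpos using hI
  have hinj : Function.Injective idx := fun i j h =>
    s4g_wIdx_inj ((s4_idx_spec E G).inj _ _ _ (hidx i) (h ▸ hidx j))
  have hβ : ∀ v w i c, s4Beta E k L G v w i c = s4Mark G v w (idx i) c := fun v w i c => by
    unfold s4Beta
    rw [hidx i]
    rfl
  have h1 : s4Ec d k G (fun v w => gaY t (s4Beta E k L G v w) ^ r)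
      = ∑ τ : Fin r → Win L × Ch k, (∏ a, t (τ a).1 (τ a).2) * s4Ec d k G (fun v w => ∏ a, s4Mark G v w (idx (τ a).1) (τ a).2) := by
    simp only [ga_Y_pow, hβ]
    rw [s4_Ec_sum]
    refine Finset.sum_congr rfl fun τ _ => ?_
    have := s4_Ec_lin (d := d) G (fun v w => ∏ a, s4Mark G v w (idx (τ a).1) (τ a).2) (fun _ _ => 0) (∏ a, t (τ a).1 (τ a).2) 0
    simpa using this
  have h2 : ∫ β, gaY t β ^ r ∂(s4Gam k L (E / d))
      = ∑ τ : Fin r → Win L × Ch k, (∏ a, t (τ a).1 (τ a).2) * ∫ g, ∏ a, (g * (chA k (E / d))ᵀ) (τ a).1 (τ a).2 ∂(gArr (Win L) (Ch k)) := by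
    rw [s4g_gam_integral k L (E / d) _ ((ga_Y_measurable t).pow_const r)]
    simp only [ga_Y_pow]
    rw [integral_finsetSum _ fun τ _ => (ga_mono_integrable _ τ).const_mul _]
    exact Finset.sum_congr rfl fun τ _ => integral_const_mul _ _
  rw [h1, h2, ← Finset.sum_sub_distrib, ← ga_l1_pow, Finset.sum_mul]
  refine (Finset.abs_sum_le_sum_abs _ _).trans (Finset.sum_le_sum fun τ _ => ?_)
  rw [← mul_sub, abs_mul]
  exact mul_le_mul_of_nonneg_left (hM (2 * L + 1) le_rfl idx hinj hpos r hr τ) (abs_nonneg _)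

/-- **NODE (abstract comparison)**: two positive normalised functionals with close moments have close `χ`-averages, `χ` with Taylor coefficients `|a_r| ≤ 1/r!` and remainder `|y|^q/q!`, `q` even -/
theorem s4g_cond {n d k L q : ℕ} {E Λ δ : ℝ} {G : SimpleGraph (Fin n)} (_hreg : G ∈ regularGraphs n d) (_hn : 0 < n * d)
    (hG : S4gGood d E k L q G Λ δ) (hδ : 0 ≤ δ) (hq : Even q) (t : Matrix (Win L) (Ch k) ℝ) {χ : ℝ → ℝ} {a : ℕ → ℝ} (hχm : Measurable χ) (hχ1 : ∀ y, |χ y| ≤ 1)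
    (ha : ∀ r, |a r| ≤ 1 / r.factorial) (hχ : ∀ y, |χ y - ∑ r ∈ Finset.range q, a r * y ^ r| ≤ |y| ^ q / q.factorial) :
    |s4Ec d k G (fun v w => χ (gaY t (s4Beta E k L G v w))) - ∫ β, χ (gaY t β) ∂(s4Gam k L (E / d))|
      ≤ 2 * ((∫ β, gaY t β ^ q ∂(s4Gam k L (E / d))) / q.factorial) + δ * Real.exp (gaN t) := by
  have := s4g_gam_prob k L (E / d)
  set γ := s4Gam k L (E / d) with hγ
  set Y : (Fin k → Fin n) → (Fin k → Fin n) → ℝ := fun v w => gaY t (s4Beta E k L G v w) with hY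
  have hfac : (0:ℝ) < q.factorial := by positivity
  have habs : ∀ y : ℝ, |y| ^ q = y ^ q := fun y => hq.pow_abs y
  have hN := ga_N_nonneg t
  -- the graph side
  have h1 : |s4Ec d k G (fun v w => χ (Y v w)) - s4Ec d k G (fun v w => ∑ r ∈ Finset.range q, a r * Y v w ^ r)|
      ≤ (q.factorial : ℝ)⁻¹ * s4Ec d k G (fun v w => Y v w ^ q) :=
    s4g_Ec_close G _ _ _ _ fun v w => by
      have := hχ (Y v w)
      rw [habs, div_eq_inv_mul] at this
      exact this
  have h2 : s4Ec d k G (fun v w => Y v w ^ q) ≤ (∫ β, gaY t β ^ q ∂γ) + gaN t ^ q * δ := by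
    have := (abs_le.1 (s4g_mom hG t (le_refl q))).2
    linarith
  -- the polynomial
  have h3 : s4Ec d k G (fun v w => ∑ r ∈ Finset.range q, a r * Y v w ^ r) = ∑ r ∈ Finset.range q, a r * s4Ec d k G (fun v w => Y v w ^ r) := by
    rw [s4_Ec_sum]
    refine Finset.sum_congr rfl fun r _ => ?_
    have := s4_Ec_lin (d := d) G (fun v w => Y v w ^ r) (fun v w => Y v w ^ r) (a r) 0
    simpa using this
  have h4 : ∫ β, ∑ r ∈ Finset.range q, a r * gaY t β ^ r ∂γ = ∑ r ∈ Finset.range q, a r * ∫ β, gaY t β ^ r ∂γ := by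
    rw [integral_finsetSum _ fun r _ => (s4g_Ypow_integrable k L (E / d) t r).const_mul _]
    exact Finset.sum_congr rfl fun r _ => integral_const_mul _ _
  have h5 : |(∑ r ∈ Finset.range q, a r * s4Ec d k G (fun v w => Y v w ^ r)) - ∑ r ∈ Finset.range q, a r * ∫ β, gaY t β ^ r ∂γ|
      ≤ δ * ∑ r ∈ Finset.range q, gaN t ^ r / r.factorial := by
    rw [← Finset.sum_sub_distrib, Finset.mul_sum]
    refine (Finset.abs_sum_le_sum_abs _ _).trans (Finset.sum_le_sum fun r hr => ?_)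
    rw [← mul_sub, abs_mul]
    have hm := s4g_mom hG t (Finset.mem_range.1 hr).le
    calc |a r| * |s4Ec d k G (fun v w => Y v w ^ r) - ∫ β, gaY t β ^ r ∂γ| ≤ (1 / r.factorial) * (gaN t ^ r * δ) :=
          mul_le_mul (ha r) hm (abs_nonneg _) (by positivity)
      _ = δ * (gaN t ^ r / r.factorial) := by ring
  -- the Gaussian side
  have hiχ : Integrable (fun β => χ (gaY t β)) γ :=
    Integrable.of_bound (hχm.comp (ga_Y_measurable t)).aestronglyMeasurable 1 (ae_of_all _ fun β => by rw [Real.norm_eq_abs]; exact hχ1 _)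
  have hiP : Integrable (fun β => ∑ r ∈ Finset.range q, a r * gaY t β ^ r) γ :=
    integrable_finsetSum _ fun r _ => (s4g_Ypow_integrable k L (E / d) t r).const_mul _
  have h6 : |(∫ β, χ (gaY t β) ∂γ) - ∫ β, ∑ r ∈ Finset.range q, a r * gaY t β ^ r ∂γ| ≤ (q.factorial : ℝ)⁻¹ * ∫ β, gaY t β ^ q ∂γ := by
    rw [← integral_sub hiχ hiP, ← integral_const_mul]
    refine (abs_integral_le_integral_abs).trans (integral_mono (hiχ.sub hiP).abs ((s4g_Ypow_integrable k L (E / d) t q).const_mul _) fun β => ?_)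
    have := hχ (gaY t β)
    rw [habs, div_eq_inv_mul] at this
    exact this
  have h7 : (∑ r ∈ Finset.range q, gaN t ^ r / r.factorial) + gaN t ^ q / q.factorial ≤ Real.exp (gaN t) := by
    rw [← Finset.sum_range_succ]
    exact Real.sum_le_exp_of_nonneg hN _
  have h8 : (q.factorial : ℝ)⁻¹ * s4Ec d k G (fun v w => Y v w ^ q) ≤ (q.factorial : ℝ)⁻¹ * ((∫ β, gaY t β ^ q ∂γ) + gaN t ^ q * δ) :=
    mul_le_mul_of_nonneg_left h2 (by positivity)
  have h9 : δ * ((∑ r ∈ Finset.range q, gaN t ^ r / r.factorial) + gaN t ^ q / q.factorial) ≤ δ * Real.exp (gaN t) :=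
    mul_le_mul_of_nonneg_left h7 hδ
  rw [h3] at h1
  rw [h4] at h6
  have e1 := abs_le.1 h1
  have e5 := abs_le.1 h5
  have e6 := abs_le.1 h6
  have e10 : (q.factorial : ℝ)⁻¹ * ((∫ β, gaY t β ^ q ∂γ) + gaN t ^ q * δ) = (∫ β, gaY t β ^ q ∂γ) / q.factorial + δ * (gaN t ^ q / q.factorial) := by
    field_simp
  have e11 : (q.factorial : ℝ)⁻¹ * (∫ β, gaY t β ^ q ∂γ) = (∫ β, gaY t β ^ q ∂γ) / q.factorial := by
    field_simp
  rw [abs_le]
  constructor <;> nlinarith [e1.1, e1.2, e5.1, e5.2, e6.1, e6.2]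

/-! ## E. the graphs are good -/

theorem s4g_Pg_mono {n d : ℕ} {S T : SimpleGraph (Fin n) → Prop} (h : ∀ G, S G → T G) : s4Pg n d S ≤ s4Pg n d T := by
  classical
  unfold s4Pg
  refine s4_Eg_mono fun G _ => ?_
  by_cases hS : S G
  · rw [if_pos hS, if_pos (h G hS)]
  · rw [if_neg hS]
    split_ifs <;> norm_num

theorem s4g_Pg_or {n d : ℕ} (S T : SimpleGraph (Fin n) → Prop) : s4Pg n d (fun G => S G ∨ T G) ≤ s4Pg n d S + s4Pg n d T := by
  classical
  unfold s4Pg s4Eg
  rw [← add_div, ← Finset.sum_add_distrib]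
  refine div_le_div_of_nonneg_right (Finset.sum_le_sum fun G _ => ?_) (Nat.cast_nonneg _)
  by_cases hS : S G <;> by_cases hT : T G <;> simp [hS, hT]

theorem s4g_Pg_finset {n d : ℕ} {ι : Type} (F : Finset ι) (S : ι → SimpleGraph (Fin n) → Prop) :
    s4Pg n d (fun G => ∃ i ∈ F, S i G) ≤ ∑ i ∈ F, s4Pg n d (S i) := by
  classical
  induction F using Finset.induction_on with
  | empty => simp [s4Pg, s4Eg]
  | insert a F ha ih =>
    rw [Finset.sum_insert ha]
    refine le_trans (s4g_Pg_mono fun G hG => ?_)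
      (le_trans (s4g_Pg_or (S a) fun G => ∃ i ∈ F, S i G) (add_le_add le_rfl ih))
    obtain ⟨i, hi, hS⟩ := hG
    rcases Finset.mem_insert.1 hi with rfl | hi
    · exact Or.inl hS
    · exact Or.inr ⟨i, hi, hS⟩

theorem s4g_mom_mono {n d : ℕ} {E : ℝ} {k ℓ q : ℕ} {G : SimpleGraph (Fin n)} {Λ δ δ' : ℝ} (h : S4Mom d E k ℓ q G Λ δ) (hδ : δ ≤ δ') :
    S4Mom d E k ℓ q G Λ δ' :=
  fun ℓ' hℓ i hi hb q' hq t => (h ℓ' hℓ i hi hb q' hq t).trans hδ

/-- a label in `[-R, R]` is in range, at the position `s4Pos` -/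
theorem s4g_label {n : ℕ} (E : ℝ) (G : SimpleGraph (Fin n)) (j : ℤ) {R : ℝ}
    (hb : ((-R : ℝ) : EReal) ≤ tpLab (s4Spec E G) j ∧ tpLab (s4Spec E G) j ≤ (R : EReal)) :
    ∃ i' : Fin n, s4Idx E G j = some i' ∧ tpLab (s4Spec E G) j = ((s4Pos G E i' : ℝ) : EReal) ∧ |s4Pos G E i'| ≤ R := by
  cases h : s4Idx E G j with
  | none =>
    rcases (s4_idx_spec E G).none j h with h' | h'
    · rw [h'] at hb
      exact absurd hb.2 (not_le.2 (EReal.coe_lt_top _))
    · rw [h'] at hb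
      exact absurd hb.1 (not_le.2 (EReal.bot_lt_coe _))
  | some i' =>
    have h' := (s4_idx_spec E G).pos j i' h
    rw [h'] at hb
    exact ⟨i', rfl, h', abs_le.2 ⟨EReal.coe_le_coe_iff.1 hb.1, EReal.coe_le_coe_iff.1 hb.2⟩⟩

/-- **LEAF** `S4I2` at `(k, 2L+1, q)`; `s4_tight` at the labels `|j| ≤ L`; a label in `[-R, R]` is in range (`S4Lab.none`) at the position `s4Pos` (`S4Lab.pos`); `R ≤ n^(2 ε0)` for large `n`; union bound -/
theorem s4g_good {d : ℕ} {E : ℝ} (H : S4Hyp d E) (k L q : ℕ) (η : ℝ) (hη : 0 < η) :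
    ∃ N : ℕ, ∀ n : ℕ, N ≤ n → (regularGraphs n d).Nonempty → ∃ Λ δ : ℝ, 0 ≤ δ ∧ δ ≤ η ∧ s4Pg n d (fun G => ¬ S4gGood d E k L q G Λ δ) ≤ η := by
  obtain ⟨ε1, c, C, hε1, hc, hI⟩ := H.i2 k (2 * L + 1) q
  obtain ⟨N0, hN0⟩ := hI ε1 hε1 le_rfl (η / 2) (half_pos hη)
  have ht := fun i : Win L => s4_tight_pf H (wIdx i) (η / (2 * (2 * L + 1))) (by positivity)
  choose R N hN using ht
  have h1 : ∀ᶠ n : ℕ in atTop, |C| * (n : ℝ) ^ (-c) ≤ η := by
    have : Tendsto (fun n : ℕ => |C| * (n : ℝ) ^ (-c)) atTop (𝓝 (|C| * 0)) :=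
      ((tendsto_rpow_neg_atTop hc).comp tendsto_natCast_atTop_atTop).const_mul _
    rw [mul_zero] at this
    exact ((tendsto_order.1 this).2 η hη).mono fun n h => h.le
  have h3 : ∀ᶠ n : ℕ in atTop, ∀ i : Win L, R i ≤ (n : ℝ) ^ (2 * ε1) := eventually_all.2 fun i =>
    ((tendsto_rpow_atTop (by positivity : 0 < 2 * ε1)).comp tendsto_natCast_atTop_atTop).eventually_ge_atTop (R i)
  obtain ⟨N1, hN1⟩ := eventually_atTop.1 (h1.and h3)
  refine ⟨max (max N0 N1) (Finset.univ.sup N), fun n hn hne => ?_⟩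
  have hn0 : N0 ≤ n := le_trans (le_trans (le_max_left _ _) (le_max_left _ _)) hn
  have hn1 : N1 ≤ n := le_trans (le_trans (le_max_right _ _) (le_max_left _ _)) hn
  have hn2 : ∀ i, N i ≤ n := fun i => le_trans (le_trans (Finset.le_sup (Finset.mem_univ i)) (le_max_right _ _)) hn
  refine ⟨(n : ℝ) ^ (2 * ε1), |C| * (n : ℝ) ^ (-c), by positivity, (hN1 n hn1).1, ?_⟩
  have hsub : ∀ G : SimpleGraph (Fin n), ¬ S4gGood d E k L q G ((n : ℝ) ^ (2 * ε1)) (|C| * (n : ℝ) ^ (-c)) →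
      (¬ S4Mom d E k (2 * L + 1) q G ((n : ℝ) ^ (2 * ε1)) (C * (n : ℝ) ^ (-c))) ∨
      ∃ i ∈ (Finset.univ : Finset (Win L)), ¬ (((-(R i) : ℝ) : EReal) ≤ tpLab (s4Spec E G) (wIdx i) ∧ tpLab (s4Spec E G) (wIdx i) ≤ (R i : EReal)) := by
    intro G hG
    by_contra hcon
    rw [not_or, not_not] at hcon
    obtain ⟨hm, hr⟩ := hcon
    refine hG ⟨s4g_mom_mono hm (mul_le_mul_of_nonneg_right (le_abs_self C) (by positivity)), fun i => ?_⟩
    have hb : ((-(R i) : ℝ) : EReal) ≤ tpLab (s4Spec E G) (wIdx i) ∧ tpLab (s4Spec E G) (wIdx i) ≤ (R i : EReal) := by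
      by_contra hb
      exact hr ⟨i, Finset.mem_univ i, hb⟩
    obtain ⟨i', h1, _, h2⟩ := s4g_label E G (wIdx i) hb
    exact ⟨i', h1, h2.trans ((hN1 n hn1).2 i)⟩
  refine (s4g_Pg_mono hsub).trans ((s4g_Pg_or _ _).trans ?_)
  have hA := hN0 n hn0 hne
  have hBd : s4Pg n d (fun G => ∃ i ∈ (Finset.univ : Finset (Win L)), ¬ (((-(R i) : ℝ) : EReal) ≤ tpLab (s4Spec E G) (wIdx i) ∧ tpLab (s4Spec E G) (wIdx i) ≤ (R i : EReal))) ≤ η / 2 := by
    refine (s4g_Pg_finset _ _).trans ((Finset.sum_le_sum fun i _ => hN i n (hn2 i) hne).trans (le_of_eq ?_))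
    rw [Finset.sum_const, Finset.card_univ, Fintype.card_fin, nsmul_eq_mul]
    push_cast
    field_simp
  linarith

/-! ## F. the core -/

theorem s4g_Eg_close {n d : ℕ} (F F' H : SimpleGraph (Fin n) → ℝ)
    (h : ∀ G ∈ regularGraphs n d, |F G - F' G| ≤ H G) : |s4Eg n d F - s4Eg n d F'| ≤ s4Eg n d H := by
  have h1 := s4_Eg_lin (n := n) (d := d) F F' 1 (-1)
  have h3 := s4_Eg_lin (n := n) (d := d) H H (-1) 0
  have h4 : s4Eg n d (fun G => 1 * F G + -1 * F' G) ≤ s4Eg n d H :=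
    s4_Eg_mono fun G hG => by have := (abs_le.1 (h G hG)).2; linarith
  have h5 : s4Eg n d (fun G => -1 * H G + 0 * H G) ≤ s4Eg n d (fun G => 1 * F G + -1 * F' G) :=
    s4_Eg_mono fun G hG => by have := (abs_le.1 (h G hG)).1; linarith
  rw [abs_le]
  constructor <;> linarith

theorem s4g_Ec_abs_le_one {n d k : ℕ} {G : SimpleGraph (Fin n)} (hG : G ∈ regularGraphs n d) (hn : 0 < n * d)
    (F : (Fin k → Fin n) → (Fin k → Fin n) → ℝ) (hF : ∀ v w, |F v w| ≤ 1) : |s4Ec d k G F| ≤ 1 := by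
  have h1 : s4Ec d k G F ≤ s4Ec d k G (fun _ _ => 1) := s4_Ec_mono G fun v w _ => (abs_le.1 (hF v w)).2
  have h2 : s4Ec d k G (fun _ _ => -1) ≤ s4Ec d k G F := s4_Ec_mono G fun v w _ => (abs_le.1 (hF v w)).1
  rw [s4_Ec_const hG hn] at h1 h2
  exact abs_le.2 ⟨h2, h1⟩

/-- **NODE** decoupling at finite `n` -/
theorem s4g_decouple {d : ℕ} {E : ℝ} (H : S4Hyp d E) (k L : ℕ) (φ : (Win L → ℝ) →ᵇ ℝ) (t : Matrix (Win L) (Ch k) ℝ) {χ : ℝ → ℝ} {a : ℕ → ℝ}
    (hχm : Measurable χ) (hχ1 : ∀ y, |χ y| ≤ 1) (ha : ∀ r, |a r| ≤ 1 / r.factorial)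
    (hχ : ∀ q y, |χ y - ∑ r ∈ Finset.range q, a r * y ^ r| ≤ |y| ^ q / q.factorial) (ε : ℝ) (hε : 0 < ε) :
    ∃ N : ℕ, ∀ n : ℕ, N ≤ n → (regularGraphs n d).Nonempty →
      |s4E n d k (fun G v w => φ (s4Win E L G) * χ (gaY t (s4Beta E k L G v w)))
        - s4Eg n d (fun G => φ (s4Win E L G)) * ∫ β, χ (gaY t β) ∂(s4Gam k L (E / d))| ≤ ε := by
  classical
  have := s4g_gam_prob k L (E / d)
  set γ := s4Gam k L (E / d) with hγ
  set gχ : ℝ := ∫ β, χ (gaY t β) ∂γ with hgχ
  have hgχ1 : |gχ| ≤ 1 := by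
    have h := norm_integral_le_of_norm_le_const (μ := γ) (f := fun β => χ (gaY t β)) (C := 1)
      (ae_of_all _ fun β => by rw [Real.norm_eq_abs]; exact hχ1 _)
    simpa using h
  set B : ℝ := ‖φ‖ + 1 with hB
  have hB0 : 0 < B := by have := norm_nonneg φ; linarith
  -- the degree
  obtain ⟨M, hM0, hM⟩ := ga_tail (t * chA k (E / d))
  have hint : ∀ q : ℕ, ∫ β, gaY t β ^ q ∂γ = ∫ g, gaY (t * chA k (E / d)) g ^ q ∂(gArr (Win L) (Ch k)) := by
    intro q
    rw [hγ, s4g_gam_integral k L (E / d) _ ((ga_Y_measurable t).pow_const q)]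
    simp_rw [ga_Y_mul]
  obtain ⟨m, hm⟩ : ∃ m : ℕ, M * (1 / 2 : ℝ) ^ m < ε / (6 * B) := by
    have h1 : Tendsto (fun m : ℕ => M * (1 / 2 : ℝ) ^ m) atTop (𝓝 (M * 0)) :=
      (tendsto_pow_atTop_nhds_zero_of_lt_one (by norm_num) (by norm_num)).const_mul M
    rw [mul_zero] at h1
    exact ((tendsto_order.1 h1).2 _ (by positivity)).exists
  set q : ℕ := 2 * m with hq
  have hqe : Even q := even_two_mul m
  have htail : (∫ β, gaY t β ^ q ∂γ) / q.factorial ≤ ε / (6 * B) := by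
    rw [hint]
    refine (hM q hqe).trans (le_trans ?_ hm.le)
    rw [div_eq_mul_inv, ← inv_pow, ← one_div]
    refine mul_le_mul_of_nonneg_left (pow_le_pow_of_le_one (by norm_num) (by norm_num) (by omega)) hM0
  -- the good graphs
  set η : ℝ := min (ε / (3 * B * Real.exp (gaN t))) (ε / (6 * B)) with hη
  have hη0 : 0 < η := lt_min (by positivity) (by positivity)
  obtain ⟨N, hN⟩ := s4g_good H k L q η hη0
  refine ⟨max N 1, fun n hn hne => ?_⟩
  obtain ⟨Λ, δ, hδ0, hδ, hbad⟩ := hN n (le_trans (le_max_left _ _) hn) hne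
  have hnd : 0 < n * d := Nat.mul_pos (le_trans (le_max_right _ _) hn) (by have := H.hd; omega)
  have e1 : s4E n d k (fun G v w => φ (s4Win E L G) * χ (gaY t (s4Beta E k L G v w)))
      = s4Eg n d (fun G => φ (s4Win E L G) * s4Ec d k G (fun v w => χ (gaY t (s4Beta E k L G v w)))) := by
    unfold s4E
    refine s4_Eg_congr fun G _ => ?_
    have := s4_Ec_lin (d := d) G (fun v w => χ (gaY t (s4Beta E k L G v w))) (fun v w => χ (gaY t (s4Beta E k L G v w))) (φ (s4Win E L G)) 0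
    simpa using this
  have e2 : s4Eg n d (fun G => φ (s4Win E L G)) * gχ = s4Eg n d (fun G => φ (s4Win E L G) * gχ) := by
    have := s4_Eg_lin (n := n) (d := d) (fun G => φ (s4Win E L G)) (fun G => φ (s4Win E L G)) gχ 0
    simp only [zero_mul, add_zero] at this
    rw [mul_comm, ← this]
    exact s4_Eg_congr fun G _ => mul_comm _ _
  rw [e1, e2]
  set κ : ℝ := 2 * (ε / (6 * B)) + δ * Real.exp (gaN t) with hκ
  have hκ0 : 0 ≤ κ := by positivity
  refine (s4g_Eg_close _ _ (fun G => (B * κ) * 1 + (2 * B) * (if ¬ S4gGood d E k L q G Λ δ then 1 else 0)) fun G hG => ?_).trans ?_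
  · rw [← mul_sub, abs_mul]
    have hφ : |φ (s4Win E L G)| ≤ B := by
      have := φ.norm_coe_le_norm (s4Win E L G)
      rw [Real.norm_eq_abs] at this
      linarith
    by_cases hgood : S4gGood d E k L q G Λ δ
    · rw [if_neg (not_not.2 hgood)]
      have hc := s4g_cond hG hnd hgood hδ0 hqe t hχm hχ1 ha (hχ q)
      have hc2 : |s4Ec d k G (fun v w => χ (gaY t (s4Beta E k L G v w))) - gχ| ≤ κ := by
        refine hc.trans ?_
        rw [hκ]
        linarith
      calc _ ≤ B * κ := mul_le_mul hφ hc2 (abs_nonneg _) hB0.le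
        _ = _ := by ring
    · rw [if_pos hgood]
      have h1 := s4g_Ec_abs_le_one (k := k) hG hnd (fun v w => χ (gaY t (s4Beta E k L G v w))) (fun v w => hχ1 _)
      have h2 : |s4Ec d k G (fun v w => χ (gaY t (s4Beta E k L G v w))) - gχ| ≤ 2 := by
        refine (abs_sub _ _).trans ?_
        linarith
      calc _ ≤ B * 2 := mul_le_mul hφ h2 (abs_nonneg _) hB0.le
        _ ≤ _ := by nlinarith
  · rw [s4_Eg_lin, s4_Eg_const hne]
    have hbad' : s4Eg n d (fun G => if ¬ S4gGood d E k L q G Λ δ then (1 : ℝ) else 0) ≤ η := by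
      refine le_trans (le_of_eq ?_) hbad
      unfold s4Pg
      refine s4_Eg_congr fun G _ => ?_
      by_cases hg : S4gGood d E k L q G Λ δ <;> simp [hg]
    have hδ1 : δ * Real.exp (gaN t) ≤ ε / (3 * B) := by
      have h1 : δ ≤ ε / (3 * B * Real.exp (gaN t)) := hδ.trans (min_le_left _ _)
      calc δ * Real.exp (gaN t) ≤ ε / (3 * B * Real.exp (gaN t)) * Real.exp (gaN t) := mul_le_mul_of_nonneg_right h1 (Real.exp_pos _).le
        _ = ε / (3 * B) := by
          have := (Real.exp_pos (gaN t)).ne'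
          field_simp
    have hη2 : η ≤ ε / (6 * B) := min_le_right _ _
    have h3 : B * κ ≤ B * (2 * (ε / (6 * B)) + ε / (3 * B)) := mul_le_mul_of_nonneg_left (by rw [hκ]; linarith) hB0.le
    have h4 : 2 * B * s4Eg n d (fun G => if ¬ S4gGood d E k L q G Λ δ then (1 : ℝ) else 0) ≤ 2 * B * (ε / (6 * B)) :=
      mul_le_mul_of_nonneg_left (hbad'.trans hη2) (by positivity)
    have h5 : B * (2 * (ε / (6 * B)) + ε / (3 * B)) + 2 * B * (ε / (6 * B)) = ε := by
      field_simp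
      ring
    linarith

/-- the core: product structure for the test functions `φ(x) χ(Y_t(β))` -/
theorem s4g_core {d : ℕ} {E : ℝ} (H : S4Hyp d E) {U : Ultrafilter ℕ} {μ : Measure Conf} (hl : S4Lim d E U μ) (k L : ℕ)
    (φ : (Win L → ℝ) →ᵇ ℝ) (t : Matrix (Win L) (Ch k) ℝ) {χ : ℝ → ℝ} {a : ℕ → ℝ}
    (hχm : Measurable χ) (hχ1 : ∀ y, |χ y| ≤ 1) (ha : ∀ r, |a r| ≤ 1 / r.factorial)
    (hχ : ∀ q y, |χ y - ∑ r ∈ Finset.range q, a r * y ^ r| ≤ |y| ^ q / q.factorial) :
    Tendsto (fun n => s4E n d k fun G v w => φ (s4Win E L G) * χ (gaY t (s4Beta E k L G v w))) U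
      (𝓝 ((∫ x, φ (cPos L x) ∂μ) * ∫ β, χ (gaY t β) ∂(s4Gam k L (E / d)))) := by
  have h1 : Tendsto (fun n => s4Eg n d (fun G => φ (s4Win E L G)) * ∫ β, χ (gaY t β) ∂(s4Gam k L (E / d))) U
      (𝓝 ((∫ x, φ (cPos L x) ∂μ) * ∫ β, χ (gaY t β) ∂(s4Gam k L (E / d)))) := (hl.win L φ).mul_const _
  refine tendsto_of_tendsto_of_dist h1 ?_
  rw [Metric.tendsto_nhds]
  intro ε hε
  obtain ⟨N, hN⟩ := s4g_decouple H k L φ t hχm hχ1 ha hχ (ε / 2) (half_pos hε)
  have h2 : ∀ᶠ n in (U : Filter ℕ), N ≤ n := hl.top (eventually_ge_atTop N)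
  have h3 : ∀ᶠ n in (U : Filter ℕ), (regularGraphs n d).Nonempty := hl.adm
  filter_upwards [h2, h3] with n a b
  have := hN n a b
  rw [Real.dist_0_eq_abs, abs_of_nonneg dist_nonneg, Real.dist_eq, abs_sub_comm]
  linarith

/-! ## G. laws, tightness, Lévy -/

/-- the state space of (window, marks) -/
abbrev GaV (k L : ℕ) := (Win L → ℝ) × Matrix (Win L) (Ch k) ℝ

instance gaPolishB (k L : ℕ) : PolishSpace (Matrix (Win L) (Ch k) ℝ) := inferInstanceAs (PolishSpace (Win L → Ch k → ℝ))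

/-- the pairing of `GaV` with itself -/
def gaPair {k L : ℕ} (p w : GaV k L) : ℝ := (∑ i, p.1 i * w.1 i) + gaY w.2 p.2

/-- the pairing as a bilinear map -/
def gaPairL (k L : ℕ) : GaV k L →ₗ[ℝ] GaV k L →ₗ[ℝ] ℝ :=
  LinearMap.mk₂ ℝ gaPair
    (fun p p' w => by
      simp only [gaPair, gaY, Prod.fst_add, Prod.snd_add, Pi.add_apply, Matrix.add_apply, add_mul, mul_add, Finset.sum_add_distrib]
      ring)
    (fun c p w => by
      simp only [gaPair, gaY, Prod.smul_fst, Prod.smul_snd, Pi.smul_apply, Matrix.smul_apply, smul_eq_mul, Finset.mul_sum, mul_add]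
      congr 1
      · exact Finset.sum_congr rfl fun i _ => by ring
      · exact Finset.sum_congr rfl fun i _ => Finset.sum_congr rfl fun c' _ => by ring)
    (fun p w w' => by
      simp only [gaPair, gaY, Prod.fst_add, Prod.snd_add, Pi.add_apply, Matrix.add_apply, add_mul, mul_add, Finset.sum_add_distrib]
      ring)
    (fun c p w => by
      simp only [gaPair, gaY, Prod.smul_fst, Prod.smul_snd, Pi.smul_apply, Matrix.smul_apply, smul_eq_mul, Finset.mul_sum, mul_add]
      congr 1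
      · exact Finset.sum_congr rfl fun i _ => by ring
      · exact Finset.sum_congr rfl fun i _ => Finset.sum_congr rfl fun c' _ => by ring)

theorem ga_pairL_apply {k L : ℕ} (p w : GaV k L) : gaPairL k L p w = gaPair p w := rfl

theorem ga_pair_continuous (k L : ℕ) : Continuous fun q : GaV k L × GaV k L => gaPairL k L q.1 q.2 := by
  show Continuous fun q : GaV k L × GaV k L => gaPair q.1 q.2
  unfold gaPair gaY
  refine Continuous.add ?_ ?_
  · refine continuous_finsetSum _ fun i _ => ?_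
    exact ((continuous_apply i).comp (continuous_fst.comp continuous_fst)).mul ((continuous_apply i).comp (continuous_fst.comp continuous_snd))
  · refine continuous_finsetSum _ fun i _ => continuous_finsetSum _ fun c _ => ?_
    exact ((continuous_snd.comp continuous_snd).matrix_elem i c).mul ((continuous_snd.comp continuous_fst).matrix_elem i c)

theorem ga_pair_sep {k L : ℕ} (v : GaV k L) (hv : v ≠ 0) : gaPairL k L v ≠ 0 := by
  intro h
  apply hv
  have h1 : gaPair v v = 0 := by rw [← ga_pairL_apply, h]; rfl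
  unfold gaPair gaY at h1
  have a1 : 0 ≤ ∑ i, v.1 i * v.1 i := Finset.sum_nonneg fun i _ => mul_self_nonneg _
  have a2 : 0 ≤ ∑ i, ∑ c, v.2 i c * v.2 i c := Finset.sum_nonneg fun i _ => Finset.sum_nonneg fun c _ => mul_self_nonneg _
  have b1 : ∑ i, v.1 i * v.1 i = 0 := by linarith
  have b2 : ∑ i, ∑ c, v.2 i c * v.2 i c = 0 := by linarith
  refine Prod.ext ?_ ?_
  · funext i
    have := (Finset.sum_eq_zero_iff_of_nonneg fun i _ => mul_self_nonneg (v.1 i)).1 b1 i (Finset.mem_univ i)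
    exact mul_self_eq_zero.1 this
  · ext i c
    have h2 := (Finset.sum_eq_zero_iff_of_nonneg fun i _ => Finset.sum_nonneg fun c _ => mul_self_nonneg (v.2 i c)).1 b2 i (Finset.mem_univ i)
    have := (Finset.sum_eq_zero_iff_of_nonneg fun c _ => mul_self_nonneg (v.2 i c)).1 h2 c (Finset.mem_univ c)
    exact mul_self_eq_zero.1 this

/-- **NODE (Lévy along any filter)**: a tight family of probability measures whose `cos`- and `sin`-transforms converge, converges weakly.
`ProbabilityMeasure.tendsto_of_tight_of_separatesPoints ℂ` with `A = charPoly continuous_probChar (L := gaPair as a bilinear map)`, `separatesPoints_charPoly`, `mem_charPoly`; `probChar y = cos y + i sin y`. -/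
theorem ga_levy {k L : ℕ} {ι : Type} {𝓕 : Filter ι} {Q : ι → ProbabilityMeasure (GaV k L)} {Q₀ : ProbabilityMeasure (GaV k L)}
    (ht : IsTightMeasureSet {x : Measure (GaV k L) | ∃ n, (Q n : Measure (GaV k L)) = x})
    (hc : ∀ w : GaV k L, Tendsto (fun n => ∫ p, Real.cos (gaPair p w) ∂(Q n : Measure (GaV k L))) 𝓕 (𝓝 (∫ p, Real.cos (gaPair p w) ∂(Q₀ : Measure (GaV k L)))))
    (hs : ∀ w : GaV k L, Tendsto (fun n => ∫ p, Real.sin (gaPair p w) ∂(Q n : Measure (GaV k L))) 𝓕 (𝓝 (∫ p, Real.sin (gaPair p w) ∂(Q₀ : Measure (GaV k L))))) :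
    Tendsto Q 𝓕 (𝓝 Q₀) := by
  have hpc : ∀ w : GaV k L, Continuous fun p : GaV k L => gaPair p w := fun w =>
    (ga_pair_continuous k L).comp (Continuous.prodMk_left w)
  -- the transform of a probability measure
  have key : ∀ (P : Measure (GaV k L)) [IsProbabilityMeasure P] (w : GaV k L),
      ∫ p, ((Real.probChar (gaPairL k L p w) : Circle) : ℂ) ∂P
        = ((∫ p, Real.cos (gaPair p w) ∂P : ℝ) : ℂ) + ((∫ p, Real.sin (gaPair p w) ∂P : ℝ) : ℂ) * Complex.I := by
    intro P _ w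
    have i1 : Integrable (fun p : GaV k L => Real.cos (gaPair p w)) P :=
      Integrable.of_bound (Real.continuous_cos.comp (hpc w)).aestronglyMeasurable 1 (ae_of_all _ fun p => by
        rw [Real.norm_eq_abs]; exact Real.abs_cos_le_one _)
    have i2 : Integrable (fun p : GaV k L => Real.sin (gaPair p w)) P :=
      Integrable.of_bound (Real.continuous_sin.comp (hpc w)).aestronglyMeasurable 1 (ae_of_all _ fun p => by
        rw [Real.norm_eq_abs]; exact Real.abs_sin_le_one _)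
    have e : ∀ p : GaV k L, ((Real.probChar (gaPairL k L p w) : Circle) : ℂ)
        = ((Real.cos (gaPair p w) : ℝ) : ℂ) + ((Real.sin (gaPair p w) : ℝ) : ℂ) * Complex.I := by
      intro p
      rw [Real.probChar_apply, ga_pairL_apply, Complex.exp_mul_I, Complex.ofReal_cos, Complex.ofReal_sin]
    simp_rw [e]
    rw [integral_add i1.ofReal (i2.ofReal.mul_const _), integral_mul_const]
    congr 1
    · exact integral_ofReal
    · congr 1
      exact integral_ofReal
  refine ProbabilityMeasure.tendsto_of_tight_of_separatesPoints ℂ ht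
    (A := BoundedContinuousFunction.charPoly Real.continuous_probChar (L := gaPairL k L) (ga_pair_continuous k L)) ?_ ?_
  · exact BoundedContinuousFunction.separatesPoints_charPoly Real.continuous_probChar Real.probChar_ne_one _ ga_pair_sep
  · intro g hg
    rw [BoundedContinuousFunction.mem_charPoly] at hg
    obtain ⟨w, hw⟩ := hg
    have h_eq : ∀ (P : Measure (GaV k L)) [IsProbabilityMeasure P],
        ∫ x, g x ∂P = w.coeff.sum (fun a z => z * ∫ x, ((Real.probChar (gaPairL k L x a) : Circle) : ℂ) ∂P) := by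
      intro P _
      simp_rw [hw, Finsupp.sum]
      rw [integral_finsetSum]
      · congr with y
        rw [integral_const_mul]
      · refine fun i _ => Integrable.const_mul ?_ _
        exact (BoundedContinuousFunction.char Real.continuous_probChar (ga_pair_continuous k L) i).integrable P
    simp_rw [h_eq _]
    refine tendsto_finsetSum _ fun y _ => Tendsto.const_mul _ ?_
    simp_rw [key _ y]
    exact ((Complex.continuous_ofReal.tendsto _).comp (hc y)).add
      (((Complex.continuous_ofReal.tendsto _).comp (hs y)).mul_const _)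

/-- the data point of a sample -/
def s4gPt {n : ℕ} (E : ℝ) (k L : ℕ) (G : SimpleGraph (Fin n)) (v w : Fin k → Fin n) : GaV k L := (s4Win E L G, s4Beta E k L G v w)

open Classical in
/-- the weight of a sample -/
def s4gWt (n d k : ℕ) (ω : SimpleGraph (Fin n) × (Fin k → Fin n) × (Fin k → Fin n)) : ℝ :=
  if ω.1 ∈ regularGraphs n d ∧ ∀ a, ω.1.Adj (ω.2.1 a) (ω.2.2 a) then (((regularGraphs n d).card : ℝ) * ((n : ℝ) * d) ^ k)⁻¹ else 0

open Classical in
/-- the joint law of (window, marks) at size `n`: a finite sum of Dirac masses -/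
def s4gLaw (n d : ℕ) (E : ℝ) (k L : ℕ) : Measure (GaV k L) :=
  ∑ ω : SimpleGraph (Fin n) × (Fin k → Fin n) × (Fin k → Fin n), ENNReal.ofReal (s4gWt n d k ω) • Measure.dirac (s4gPt E k L ω.1 ω.2.1 ω.2.2)

instance s4g_mat_msc {ι κ : Type} [Countable ι] [Countable κ] : MeasurableSingletonClass (Matrix ι κ ℝ) :=
  inferInstanceAs (MeasurableSingletonClass (ι → κ → ℝ))

theorem s4g_wt_nonneg (n d k : ℕ) (ω : SimpleGraph (Fin n) × (Fin k → Fin n) × (Fin k → Fin n)) : 0 ≤ s4gWt n d k ω := by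
  unfold s4gWt
  split_ifs
  · positivity
  · exact le_rfl

theorem s4g_sum_wt (n d k : ℕ) (F : SimpleGraph (Fin n) → (Fin k → Fin n) → (Fin k → Fin n) → ℝ) :
    ∑ ω : SimpleGraph (Fin n) × (Fin k → Fin n) × (Fin k → Fin n), s4gWt n d k ω * F ω.1 ω.2.1 ω.2.2 = s4E n d k F := by
  classical
  unfold s4E s4Eg s4Ec s4gWt
  rw [Fintype.sum_prod_type, Finset.sum_div, ← Finset.sum_filter_add_sum_filter_not Finset.univ (fun G => G ∈ regularGraphs n d)]
  have h0 : ∑ G ∈ Finset.univ.filter (fun G => ¬ G ∈ regularGraphs n d), ∑ y : (Fin k → Fin n) × (Fin k → Fin n),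
      (if (G, y).1 ∈ regularGraphs n d ∧ ∀ a, (G, y).1.Adj ((G, y).2.1 a) ((G, y).2.2 a) then (((regularGraphs n d).card : ℝ) * ((n : ℝ) * d) ^ k)⁻¹ else 0)
        * F (G, y).1 (G, y).2.1 (G, y).2.2 = 0 := by
    refine Finset.sum_eq_zero fun G hG => Finset.sum_eq_zero fun y _ => ?_
    rw [if_neg (fun h => (Finset.mem_filter.1 hG).2 h.1), zero_mul]
  rw [h0, add_zero]
  have h1 : Finset.univ.filter (fun G => G ∈ regularGraphs n d) = regularGraphs n d := by
    ext G; simp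
  rw [h1]
  refine Finset.sum_congr rfl fun G hG => ?_
  rw [Fintype.sum_prod_type, Finset.sum_div, Finset.sum_div]
  refine Finset.sum_congr rfl fun v _ => ?_
  rw [Finset.sum_div, Finset.sum_div]
  refine Finset.sum_congr rfl fun w _ => ?_
  by_cases hc : ∀ a, G.Adj (v a) (w a)
  · rw [if_pos ⟨hG, hc⟩, if_pos hc, mul_inv, div_div, div_eq_mul_inv, mul_inv]
    ring
  · rw [if_neg (fun h => hc h.2), if_neg hc]
    simp

open Classical in
theorem s4g_law_apply0 (n d : ℕ) (E : ℝ) (k L : ℕ) {S : Set (GaV k L)} (hS : MeasurableSet S) :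
    s4gLaw n d E k L S = ENNReal.ofReal (s4Pr n d k fun G v w => s4gPt E k L G v w ∈ S) := by
  unfold s4Pr
  rw [← s4g_sum_wt, ENNReal.ofReal_sum_of_nonneg fun ω _ => mul_nonneg (s4g_wt_nonneg n d k ω) (by split_ifs <;> norm_num)]
  unfold s4gLaw
  rw [Measure.finsetSum_apply]
  refine Finset.sum_congr rfl fun ω _ => ?_
  rw [Measure.smul_apply, Measure.dirac_apply' _ hS, smul_eq_mul]
  by_cases h : s4gPt E k L ω.1 ω.2.1 ω.2.2 ∈ S
  · rw [Set.indicator_of_mem h, if_pos h]; simp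
  · rw [Set.indicator_of_notMem h, if_neg h]; simp

/-- **LEAF** integrals against the law (`integral_finset_sum_measure`, `integral_smul_measure`, `integral_dirac`; then `Fintype.sum_prod_type`, `Finset.sum_filter`) -/
theorem s4g_law_integral (n d : ℕ) (E : ℝ) (k L : ℕ) (F : GaV k L → ℝ) :
    ∫ p, F p ∂(s4gLaw n d E k L) = s4E n d k fun G v w => F (s4gPt E k L G v w) := by
  unfold s4gLaw
  rw [integral_finsetSum_measure fun ω _ => (integrable_dirac (by simp)).smul_measure ENNReal.ofReal_ne_top, ← s4g_sum_wt]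
  refine Finset.sum_congr rfl fun ω _ => ?_
  rw [integral_smul_measure, integral_dirac, ENNReal.toReal_ofReal (s4g_wt_nonneg n d k ω), smul_eq_mul]

/-- **LEAF** (`s4_Ec_const`) -/
theorem s4g_law_prob {n d : ℕ} (hne : (regularGraphs n d).Nonempty) (hn : 0 < n * d) (E : ℝ) (k L : ℕ) : IsProbabilityMeasure (s4gLaw n d E k L) := by
  classical
  refine ⟨?_⟩
  rw [s4g_law_apply0 n d E k L MeasurableSet.univ]
  have : (s4Pr n d k fun G v w => s4gPt E k L G v w ∈ (Set.univ : Set (GaV k L))) = 1 := by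
    unfold s4Pr
    simp only [Set.mem_univ, if_true]
    exact s4_E_const hne hn 1
  rw [this, ENNReal.ofReal_one]

open Classical in
/-- **LEAF** -/
theorem s4g_law_apply (n d : ℕ) (E : ℝ) (k L : ℕ) {S : Set (GaV k L)} (hS : MeasurableSet S) :
    s4gLaw n d E k L S = ENNReal.ofReal (s4Pr n d k fun G v w => s4gPt E k L G v w ∈ S) :=
  s4g_law_apply0 n d E k L hS

/-- **LEAF** the law is carried by a finite set -/
theorem s4g_law_supp (n d : ℕ) (E : ℝ) (k L : ℕ) : ∃ T : Set (GaV k L), T.Finite ∧ s4gLaw n d E k L Tᶜ = 0 := by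
  classical
  refine ⟨Set.range fun ω : SimpleGraph (Fin n) × (Fin k → Fin n) × (Fin k → Fin n) => s4gPt E k L ω.1 ω.2.1 ω.2.2, Set.finite_range _, ?_⟩
  rw [s4g_law_apply0 n d E k L (Set.finite_range _).measurableSet.compl]
  have : (s4Pr n d k fun G v w => s4gPt E k L G v w ∈ (Set.range fun ω : SimpleGraph (Fin n) × (Fin k → Fin n) × (Fin k → Fin n) => s4gPt E k L ω.1 ω.2.1 ω.2.2)ᶜ) = 0 := by
    unfold s4Pr
    have h : ∀ G v w, ¬ (s4gPt E k L G v w ∈ (Set.range fun ω : SimpleGraph (Fin n) × (Fin k → Fin n) × (Fin k → Fin n) => s4gPt E k L ω.1 ω.2.1 ω.2.2)ᶜ) :=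
      fun G v w hc => hc ⟨(G, v, w), rfl⟩
    simp only [h, if_false]
    rw [← s4g_sum_wt]
    simp
  rw [this, ENNReal.ofReal_zero]

theorem s4g_Pr_finset {n d k : ℕ} {ι : Type} (F : Finset ι) (S : ι → SimpleGraph (Fin n) → (Fin k → Fin n) → (Fin k → Fin n) → Prop) :
    s4Pr n d k (fun G v w => ∃ i ∈ F, S i G v w) ≤ ∑ i ∈ F, s4Pr n d k (S i) := by
  classical
  induction F using Finset.induction_on with
  | empty => simp [s4Pr, s4E, s4Eg, s4Ec]
  | insert a F ha ih =>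
    rw [Finset.sum_insert ha]
    refine le_trans (s4_Pr_mono fun G v w hG => ?_)
      (le_trans (s4_Pr_or (S a) fun G v w => ∃ i ∈ F, S i G v w) (add_le_add le_rfl ih))
    obtain ⟨i, hi, hS⟩ := hG
    rcases Finset.mem_insert.1 hi with rfl | hi
    · exact Or.inl hS
    · exact Or.inr ⟨i, hi, hS⟩

/-- second moment of a mark of the window -/
theorem s4g_beta_sq {n d k : ℕ} {G : SimpleGraph (Fin n)} (hG : G ∈ regularGraphs n d) (hn : 0 < n * d) (E : ℝ) (L : ℕ) (i : Win L) (c : Ch k) :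
    s4Ec d k G (fun v w => s4Beta E k L G v w i c ^ 2) ≤ 1 := by
  unfold s4Beta
  cases h : s4Idx E G (wIdx i) with
  | none =>
    simp only [Option.elim]
    have := s4_Ec_const (k := k) hG hn 0
    simp only [ne_eq, OfNat.ofNat_ne_zero, not_false_eq_true, zero_pow]
    rw [this]
    exact zero_le_one
  | some i' =>
    simp only [Option.elim]
    exact (s4_mark_sq hG hn i' c).le

/-- Chebyshev for one mark -/
theorem s4g_beta_tail {n d k : ℕ} (hne : (regularGraphs n d).Nonempty) (hn : 0 < n * d) (E : ℝ) (L : ℕ) (i : Win L) (c : Ch k) {M : ℝ} (hM : 1 ≤ M) :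
    s4Pr n d k (fun G v w => M < |s4Beta E k L G v w i c|) ≤ 1 / M := by
  classical
  have hM0 : 0 < M := by linarith
  unfold s4Pr s4E
  rw [← s4_Eg_const hne (1 / M)]
  refine s4_Eg_mono fun G hG => ?_
  have h1 := s4_Ec_markov (d := d) G (fun v w => s4Beta E k L G v w i c ^ 2) (fun v w => sq_nonneg _) hM0
  have h2 : s4Ec d k G (fun v w => if M < |s4Beta E k L G v w i c| then 1 else 0) ≤ s4Ec d k G (fun v w => if M < s4Beta E k L G v w i c ^ 2 then 1 else 0) := by
    refine s4_Ec_mono G fun v w _ => ?_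
    by_cases hc : M < |s4Beta E k L G v w i c|
    · have : M < s4Beta E k L G v w i c ^ 2 := by
        rw [← sq_abs]
        nlinarith
      rw [if_pos hc, if_pos this]
    · rw [if_neg hc]
      split_ifs <;> norm_num
  refine h2.trans (h1.trans ?_)
  exact div_le_div_of_nonneg_right (s4g_beta_sq hG hn E L i c) hM0.le

/-- **LEAF** tightness for large `n`: box `{|x_i| ≤ R, |β_ic| ≤ M}`; `s4_tight`; `E[β_ic² | G] ≤ 1` (`s4_mark_sq`), `s4_Ec_markov`; union bound at the level of the measure -/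
theorem s4g_tight_large {d : ℕ} {E : ℝ} (H : S4Hyp d E) (k L : ℕ) (ε : ℝ) (hε : 0 < ε) :
    ∃ K : Set (GaV k L), IsCompact K ∧ ∃ N : ℕ, ∀ n : ℕ, N ≤ n → (regularGraphs n d).Nonempty → s4gLaw n d E k L Kᶜ ≤ ENNReal.ofReal ε := by
  classical
  have ht := fun i : Win L => s4_tight_pf H (wIdx i) (ε / (2 * (2 * L + 1))) (by positivity)
  choose R N hN using ht
  set M : ℝ := 2 * ((2 * L + 1) * (2 * k)) / ε + 1 with hM
  have hM1 : 1 ≤ M := by
    have : 0 ≤ 2 * ((2 * (L : ℝ) + 1) * (2 * k)) / ε := by positivity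
    linarith
  set K : Set (GaV k L) := (Set.pi Set.univ fun i => Set.Icc (-(R i)) (R i)) ×ˢ
    (Set.pi Set.univ fun _ => Set.pi Set.univ fun _ => Set.Icc (-M) M : Set (Win L → Ch k → ℝ)) with hK
  have hKc : IsCompact K :=
    (isCompact_univ_pi fun i => isCompact_Icc).prod (isCompact_univ_pi fun _ => isCompact_univ_pi fun _ => isCompact_Icc)
  refine ⟨K, hKc, max (Finset.univ.sup N) 1, fun n hn hne => ?_⟩
  have hn2 : ∀ i, N i ≤ n := fun i => le_trans (le_trans (Finset.le_sup (Finset.mem_univ i)) (le_max_left _ _)) hn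
  have hnd : 0 < n * d := Nat.mul_pos (le_trans (le_max_right _ _) hn) (by have := H.hd; omega)
  rw [s4g_law_apply n d E k L hKc.isClosed.measurableSet.compl]
  refine ENNReal.ofReal_le_ofReal ?_
  have hsub : ∀ (G : SimpleGraph (Fin n)) (v w : Fin k → Fin n), s4gPt E k L G v w ∈ Kᶜ →
      (∃ i ∈ (Finset.univ : Finset (Win L)), ¬ (((-(R i) : ℝ) : EReal) ≤ tpLab (s4Spec E G) (wIdx i) ∧ tpLab (s4Spec E G) (wIdx i) ≤ (R i : EReal))) ∨
      ∃ p ∈ (Finset.univ : Finset (Win L × Ch k)), M < |s4Beta E k L G v w p.1 p.2| := by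
    intro G v w hG
    by_contra hcon
    rw [not_or] at hcon
    obtain ⟨h1, h2⟩ := hcon
    refine hG ⟨fun i _ => ?_, fun i _ c _ => ?_⟩
    · have hb : ((-(R i) : ℝ) : EReal) ≤ tpLab (s4Spec E G) (wIdx i) ∧ tpLab (s4Spec E G) (wIdx i) ≤ (R i : EReal) := by
        by_contra hb
        exact h1 ⟨i, Finset.mem_univ i, hb⟩
      obtain ⟨i', _, h3, h4⟩ := s4g_label E G (wIdx i) hb
      show s4Win E L G i ∈ Set.Icc (-(R i)) (R i)
      unfold s4Win
      rw [h3, EReal.toReal_coe]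
      exact abs_le.1 h4
    · have : ¬ M < |s4Beta E k L G v w i c| := fun h => h2 ⟨(i, c), Finset.mem_univ _, h⟩
      exact abs_le.1 (not_lt.1 this)
  refine (s4_Pr_mono hsub).trans ((s4_Pr_or _ _).trans ?_)
  have hA : s4Pr n d k (fun G _ _ => ∃ i ∈ (Finset.univ : Finset (Win L)), ¬ (((-(R i) : ℝ) : EReal) ≤ tpLab (s4Spec E G) (wIdx i) ∧ tpLab (s4Spec E G) (wIdx i) ≤ (R i : EReal))) ≤ ε / 2 := by
    rw [s4_Pr_graph hnd]
    refine (s4g_Pg_finset _ _).trans ((Finset.sum_le_sum fun i _ => hN i n (hn2 i) hne).trans (le_of_eq ?_))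
    rw [Finset.sum_const, Finset.card_univ, Fintype.card_fin, nsmul_eq_mul]
    push_cast
    field_simp
  have hBd : s4Pr n d k (fun G v w => ∃ p ∈ (Finset.univ : Finset (Win L × Ch k)), M < |s4Beta E k L G v w p.1 p.2|) ≤ ε / 2 := by
    refine (s4g_Pr_finset _ _).trans ((Finset.sum_le_sum fun p _ => s4g_beta_tail hne hnd E L p.1 p.2 hM1).trans ?_)
    rw [Finset.sum_const, Finset.card_univ, Fintype.card_prod, Fintype.card_fin, Fintype.card_sum, Fintype.card_fin, nsmul_eq_mul]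
    push_cast
    have hM0 : 0 < M := by linarith
    rw [mul_one_div, div_le_iff₀ hM0, hM]
    have : ε / 2 * (2 * ((2 * (L : ℝ) + 1) * (2 * k)) / ε + 1) = (2 * (L : ℝ) + 1) * (2 * k) + ε / 2 := by
      field_simp
    rw [this]
    nlinarith
  linarith

/-- tightness of the whole family -/
theorem s4g_tight {d : ℕ} {E : ℝ} (H : S4Hyp d E) (k L : ℕ) (ε : ENNReal) (hε : 0 < ε) :
    ∃ K : Set (GaV k L), IsCompact K ∧ ∀ n : ℕ, (regularGraphs n d).Nonempty → s4gLaw n d E k L Kᶜ ≤ ε := by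
  obtain ⟨ε', hε', hle⟩ : ∃ ε' : ℝ, 0 < ε' ∧ ENNReal.ofReal ε' ≤ ε := by
    by_cases h : ε = ⊤
    · exact ⟨1, one_pos, h ▸ le_top⟩
    · exact ⟨ε.toReal, ENNReal.toReal_pos hε.ne' h, (ENNReal.ofReal_toReal h).le⟩
  obtain ⟨K₁, hK₁, N, hN⟩ := s4g_tight_large H k L ε' hε'
  choose T hTf hT using fun n => s4g_law_supp n d E k L
  refine ⟨K₁ ∪ ⋃ n ∈ Set.Iio N, T n, hK₁.union ((Set.finite_Iio N).biUnion fun n _ => hTf n).isCompact, fun n hne => ?_⟩
  by_cases hn : N ≤ n
  · exact ((measure_mono (Set.compl_subset_compl.2 Set.subset_union_left)).trans (hN n hn hne)).trans hle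
  · have hsub : T n ⊆ K₁ ∪ ⋃ n ∈ Set.Iio N, T n :=
      (Set.subset_biUnion_of_mem (u := fun n => T n) (Set.mem_Iio.2 (not_le.1 hn))).trans Set.subset_union_right
    exact ((measure_mono (Set.compl_subset_compl.2 hsub)).trans (hT n).le).trans zero_le

/-- the limit law -/
def s4gLim (μ : Measure Conf) (k L : ℕ) (p : ℝ) : Measure (GaV k L) := (μ.map (cPos L)).prod (s4Gam k L p)

theorem s4g_lim_prob0 {μ : Measure Conf} [IsProbabilityMeasure μ] (k L : ℕ) (p : ℝ) : IsProbabilityMeasure (s4gLim μ k L p) := by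
  have := s4g_gam_prob k L p
  have h : Measurable (cPos L) := measurable_pi_lambda _ fun i => measurable_pi_apply _
  have := Measure.isProbabilityMeasure_map (μ := μ) h.aemeasurable
  unfold s4gLim
  infer_instance

/-- **LEAF** Fubini (`integral_prod`, `integral_map`) -/
theorem s4g_lim_integral {μ : Measure Conf} [IsProbabilityMeasure μ] (k L : ℕ) (p : ℝ) (f : GaV k L →ᵇ ℝ) :
    ∫ q, f q ∂(s4gLim μ k L p) = ∫ x, ∫ β, f (cPos L x, β) ∂(s4Gam k L p) ∂μ := by
  have := s4g_gam_prob k L p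
  have h : Measurable (cPos L) := measurable_pi_lambda _ fun i => measurable_pi_apply _
  have := Measure.isProbabilityMeasure_map (μ := μ) h.aemeasurable
  have := s4g_lim_prob0 (μ := μ) k L p
  unfold s4gLim
  rw [integral_prod _ (by exact f.integrable (s4gLim μ k L p)), integral_map h.aemeasurable]
  exact (f.continuous.stronglyMeasurable.integral_prod_right').aestronglyMeasurable

theorem s4g_lim_prob {μ : Measure Conf} [IsProbabilityMeasure μ] (k L : ℕ) (p : ℝ) : IsProbabilityMeasure (s4gLim μ k L p) :=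
  s4g_lim_prob0 k L p

theorem s4g_eqns_cite : True := by
  have := @S4gGood.eq_1
  have := @gaPair.eq_1
  have := @s4gPt.eq_1
  have := @s4gWt.eq_1
  have := @s4gLaw.eq_1
  have := @s4gLim.eq_1
  trivial

/-- the product test function `φ(x) χ(Y_t(β))` -/
def gaTest {k L : ℕ} (φ : (Win L → ℝ) →ᵇ ℝ) (t : Matrix (Win L) (Ch k) ℝ) (χ : ℝ → ℝ) (hχc : Continuous χ) (hχ1 : ∀ y, |χ y| ≤ 1) : GaV k L →ᵇ ℝ :=
  BoundedContinuousFunction.ofNormedAddCommGroup (fun p => φ p.1 * χ (gaY t p.2))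
    ((φ.continuous.comp continuous_fst).mul (hχc.comp ((ga_Y_continuous t).comp continuous_snd))) ‖φ‖ (fun p => by
      rw [norm_mul, Real.norm_eq_abs (χ _)]
      calc ‖φ p.1‖ * |χ (gaY t p.2)| ≤ ‖φ‖ * 1 := mul_le_mul (φ.norm_coe_le_norm _) (hχ1 _) (abs_nonneg _) (norm_nonneg _)
        _ = ‖φ‖ := mul_one _)

theorem ga_test_apply {k L : ℕ} (φ : (Win L → ℝ) →ᵇ ℝ) (t : Matrix (Win L) (Ch k) ℝ) (χ : ℝ → ℝ) (hχc : Continuous χ) (hχ1 : ∀ y, |χ y| ≤ 1)
    (p : GaV k L) : gaTest φ t χ hχc hχ1 p = φ p.1 * χ (gaY t p.2) := rfl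

/-- the trigonometric functions of a linear form of the window -/
def gaTrig {L : ℕ} (s : Win L → ℝ) (χ : ℝ → ℝ) (hχc : Continuous χ) (hχ1 : ∀ y, |χ y| ≤ 1) : (Win L → ℝ) →ᵇ ℝ :=
  BoundedContinuousFunction.ofNormedAddCommGroup (fun x => χ (∑ i, x i * s i))
    (hχc.comp (continuous_finsetSum _ fun i _ => (continuous_apply i).mul continuous_const)) 1 (fun x => by
      rw [Real.norm_eq_abs]; exact hχ1 _)

theorem ga_trig_apply {L : ℕ} (s : Win L → ℝ) (χ : ℝ → ℝ) (hχc : Continuous χ) (hχ1 : ∀ y, |χ y| ≤ 1) (x : Win L → ℝ) :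
    gaTrig s χ hχc hχ1 x = χ (∑ i, x i * s i) := rfl

/-- the limit law on a product test function -/
theorem s4g_lim_test {μ : Measure Conf} [IsProbabilityMeasure μ] (k L : ℕ) (p : ℝ) (φ : (Win L → ℝ) →ᵇ ℝ) (t : Matrix (Win L) (Ch k) ℝ)
    (χ : ℝ → ℝ) (hχc : Continuous χ) (hχ1 : ∀ y, |χ y| ≤ 1) :
    ∫ q, gaTest φ t χ hχc hχ1 q ∂(s4gLim μ k L p) = (∫ x, φ (cPos L x) ∂μ) * ∫ β, χ (gaY t β) ∂(s4Gam k L p) := by
  rw [s4g_lim_integral]
  simp_rw [ga_test_apply, integral_const_mul, integral_mul_const]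

theorem ga_test_eqns_cite : True := by
  have := @gaPairL.eq_1
  have := @gaTest.eq_1
  have := @gaTrig.eq_1
  trivial

/-- **NODE N3** (statement of `s4_gauss`) -/
theorem s4_gauss_pf {d : ℕ} {E : ℝ} (H : S4Hyp d E) {U : Ultrafilter ℕ} {μ : Measure Conf} (hl : S4Lim d E U μ) (k L : ℕ)
    (f : ((Win L → ℝ) × Matrix (Win L) (Ch k) ℝ) →ᵇ ℝ) :
    Tendsto (fun n => s4E n d k fun G v w => f (s4Win E L G, s4Beta E k L G v w)) U
      (𝓝 (∫ x, ∫ β, f (cPos L x, β) ∂(s4Gam k L (E / d)) ∂μ)) := by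
  classical
  have := hl.prob
  have := s4g_lim_prob (μ := μ) k L (E / d)
  set Q₀ : ProbabilityMeasure (GaV k L) := ⟨s4gLim μ k L (E / d), inferInstance⟩ with hQ₀
  have hex : ∀ n, ∃ P : ProbabilityMeasure (GaV k L),
      ((regularGraphs n d).Nonempty ∧ 0 < n * d → (P : Measure (GaV k L)) = s4gLaw n d E k L) ∧
      (¬ ((regularGraphs n d).Nonempty ∧ 0 < n * d) → P = Q₀) := by
    intro n
    by_cases h : (regularGraphs n d).Nonempty ∧ 0 < n * d
    · exact ⟨⟨s4gLaw n d E k L, s4g_law_prob h.1 h.2 E k L⟩, fun _ => rfl, fun h' => absurd h h'⟩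
    · exact ⟨Q₀, fun h' => absurd h' h, fun _ => rfl⟩
  choose Q hQ hQ' using hex
  have hev : ∀ᶠ n in (U : Filter ℕ), (regularGraphs n d).Nonempty ∧ 0 < n * d := by
    have h1 : ∀ᶠ n in (U : Filter ℕ), 1 ≤ n := hl.top (eventually_ge_atTop 1)
    have h2 : ∀ᶠ n in (U : Filter ℕ), (regularGraphs n d).Nonempty := hl.adm
    filter_upwards [h1, h2] with n a b
    exact ⟨b, Nat.mul_pos a (by have := H.hd; omega)⟩
  -- tightness
  have ht : IsTightMeasureSet {x : Measure (GaV k L) | ∃ n, (Q n : Measure (GaV k L)) = x} := by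
    rw [isTightMeasureSet_iff_exists_isCompact_measure_compl_le]
    intro ε hε
    obtain ⟨K1, hK1, h1⟩ := s4g_tight H k L ε hε
    obtain ⟨K2, hK2, h2⟩ := (isTightMeasureSet_iff_exists_isCompact_measure_compl_le.1
      (isTightMeasureSet_singleton (μ := (Q₀ : Measure (GaV k L))))) ε hε
    refine ⟨K1 ∪ K2, hK1.union hK2, ?_⟩
    rintro _ ⟨n, rfl⟩
    by_cases h : (regularGraphs n d).Nonempty ∧ 0 < n * d
    · rw [hQ n h]
      exact (measure_mono (Set.compl_subset_compl.2 Set.subset_union_left)).trans (h1 n h.1)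
    · rw [hQ' n h]
      exact (measure_mono (Set.compl_subset_compl.2 Set.subset_union_right)).trans (h2 _ rfl)
  -- product test functions
  have hT : ∀ (φ : (Win L → ℝ) →ᵇ ℝ) (t : Matrix (Win L) (Ch k) ℝ) (χ : ℝ → ℝ) (a : ℕ → ℝ) (hχc : Continuous χ) (hχ1 : ∀ y, |χ y| ≤ 1),
      (∀ r, |a r| ≤ 1 / r.factorial) → (∀ q y, |χ y - ∑ r ∈ Finset.range q, a r * y ^ r| ≤ |y| ^ q / q.factorial) →
      Tendsto (fun n => ∫ p, gaTest φ t χ hχc hχ1 p ∂(Q n : Measure (GaV k L))) U (𝓝 (∫ p, gaTest φ t χ hχc hχ1 p ∂(Q₀ : Measure (GaV k L)))) := by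
    intro φ t χ a hχc hχ1 ha hχ
    have h0 : ∫ p, gaTest φ t χ hχc hχ1 p ∂(Q₀ : Measure (GaV k L)) = (∫ x, φ (cPos L x) ∂μ) * ∫ β, χ (gaY t β) ∂(s4Gam k L (E / d)) :=
      s4g_lim_test k L (E / d) φ t χ hχc hχ1
    rw [h0]
    refine (s4g_core H hl k L φ t hχc.measurable hχ1 ha hχ).congr' ?_
    filter_upwards [hev] with n hn
    rw [hQ n hn, s4g_law_integral]
    rfl
  -- the two transforms
  have hsplit : ∀ (P : Measure (GaV k L)) [IsProbabilityMeasure P] (w : GaV k L),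
      (∫ p, Real.cos (gaPair p w) ∂P = ∫ p, gaTest (gaTrig w.1 Real.cos Real.continuous_cos Real.abs_cos_le_one) w.2 Real.cos Real.continuous_cos Real.abs_cos_le_one p ∂P
          - ∫ p, gaTest (gaTrig w.1 Real.sin Real.continuous_sin Real.abs_sin_le_one) w.2 Real.sin Real.continuous_sin Real.abs_sin_le_one p ∂P) ∧
      (∫ p, Real.sin (gaPair p w) ∂P = ∫ p, gaTest (gaTrig w.1 Real.sin Real.continuous_sin Real.abs_sin_le_one) w.2 Real.cos Real.continuous_cos Real.abs_cos_le_one p ∂P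
          + ∫ p, gaTest (gaTrig w.1 Real.cos Real.continuous_cos Real.abs_cos_le_one) w.2 Real.sin Real.continuous_sin Real.abs_sin_le_one p ∂P) := by
    intro P _ w
    constructor
    · rw [← integral_sub (BoundedContinuousFunction.integrable P _) (BoundedContinuousFunction.integrable P _)]
      refine integral_congr_ae (ae_of_all _ fun p => ?_)
      simp only [ga_test_apply, ga_trig_apply, gaPair]
      exact Real.cos_add _ _
    · rw [← integral_add (BoundedContinuousFunction.integrable P _) (BoundedContinuousFunction.integrable P _)]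
      refine integral_congr_ae (ae_of_all _ fun p => ?_)
      simp only [ga_test_apply, ga_trig_apply, gaPair]
      exact Real.sin_add _ _
  have hlim : Tendsto Q U (𝓝 Q₀) := by
    refine ga_levy ht (fun w => ?_) (fun w => ?_)
    · simp_rw [(hsplit _ w).1]
      exact (hT _ _ _ gaC _ _ ga_C_abs ga_cos_taylor).sub (hT _ _ _ gaS _ _ ga_S_abs ga_sin_taylor)
    · simp_rw [(hsplit _ w).2]
      exact (hT _ _ _ gaC _ _ ga_C_abs ga_cos_taylor).add (hT _ _ _ gaS _ _ ga_S_abs ga_sin_taylor)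
  have hfin := (ProbabilityMeasure.tendsto_iff_forall_integral_tendsto.1 hlim) f
  have h0 : ∫ ω, f ω ∂(Q₀ : Measure (GaV k L)) = ∫ x, ∫ β, f (cPos L x, β) ∂(s4Gam k L (E / d)) ∂μ := s4g_lim_integral k L (E / d) f
  rw [h0] at hfin
  refine hfin.congr' ?_
  filter_upwards [hev] with n hn
  rw [hQ n hn, s4g_law_integral]
  rfl

end

end Claimed.Agent.R287
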