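-- KEEP
import Claimed.Agent.R287.S4Desc
import Claimed.Agent.R287.S4Win
import Claimed.Agent.R287.Cnt289
import Claimed.Agent.R287.Stj227

/-!
# Row 287 (S0534), unit S4, node X1 = rigidity of the labels with polynomial tails      (deputy helper177; prefix `s4r`)

P1 (4.13), (4.14); note origin/helper289:notes/R287/A7_helper289.md sec. B ("grid + Borel-Cantelli", "Poisson -> counts").
GOAL: `s4_X1_pf` (same statement as `s4_X1` of `S4.lean`).      STATUS 07:30Z: this file has NO sorry; the only open statement below it is `s4_E1` (`S4Desc.lean`); `s4_tight_pf`, `s4_locfin_pf` are those of helper244 (`S4Win.lean`).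
ROUTE
  A  probability of graph events (`s4Eg`, `s4Pg`): monotone, union bound;
  B  finite `n`: `Im m_n(e + iu) = ∑_{t ∈ spec} pcK u e t` and `s4_E1` at `k = 0` as a bound on `s4Pg`;
  C  deterministic: window sum versus sum over the spectrum (labelling `tpLab`, junk value `0` out of range);
  D  transfer to the limit law along the ultrafilter (two thresholds, a clamp function, `S4Lim.win`);
  E  M1 = one-point Poisson bound under `μ`;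
  F  fill-in in the energy, `pc_count`: grid event at the scale `R` ⟹ counts at the scale `R`;
  G  union bounds: grid, dyadic scales;
  H  counts ⟹ labels (deterministic);
  I  glue.
-/

set_option autoImplicit false

namespace Claimed.Agent.R287

open MeasureTheory ProbabilityTheory Matrix Filter Topology Claims.C0462
open scoped BoundedContinuousFunction

noncomputable section

/-! ## 0. vocabulary -/

/-- the counting measure `∑_j δ_{x_j}` of a configuration -/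
def s4rNu (x : Conf) : Measure ℝ := Measure.sum fun j : ℤ => Measure.dirac (x j)

/-- Poisson sum of the microscopic spectrum: `Im m_n(e + i u)` -/
def s4rPn {n : ℕ} (E : ℝ) (G : SimpleGraph (Fin n)) (e u : ℝ) : ℝ := ((s4Spec E G).map (pcK u e)).sum

/-- Poisson sum of a window -/
def s4rW (K : ℕ) (e u : ℝ) (y : Win K → ℝ) : ℝ := ∑ i, pcK u e (y i)

/-- the finite `n` one-point bound with the constants `(ξ, D, C, y0)` -/
def S4rE1 (d : ℕ) (E ξ D C y0 : ℝ) : Prop :=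
  ∀ e u : ℝ, y0 ≤ u → ∀ η : ℝ, 0 < η → ∃ N : ℕ, ∀ n : ℕ, N ≤ n → (regularGraphs n d).Nonempty →
    s4Pg n d (fun G => u ^ (-ξ) < |s4rPn E G e u - Real.pi * kestenMcKay d E|) ≤ C * u ^ (-D) + η

/-- the Poisson transform of the configuration at `e + i u` exists and is `τ`-close to `π ρ` -/
def S4rGood (ρ τ e u : ℝ) (x : Conf) : Prop :=
  Integrable (pcK u e) (s4rNu x) ∧ |pcP (s4rNu x) e u - Real.pi * ρ| ≤ τ

/-- the grid event at the scale `R`: integer energies `|m| ≤ R + 1`, heights `√R`, `R^{3/4}`, `2R` -/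
def S4rGrid (ρ ξ R : ℝ) (x : Conf) : Prop :=
  ∀ m : ℤ, |(m : ℝ)| ≤ R + 1 →
    S4rGood ρ (2 * (R ^ (1 / 2 : ℝ)) ^ (-ξ)) m (R ^ (1 / 2 : ℝ)) x ∧
    S4rGood ρ (2 * (R ^ (3 / 4 : ℝ)) ^ (-ξ)) m (R ^ (3 / 4 : ℝ)) x ∧
    S4rGood ρ (2 * (2 * R) ^ (-ξ)) m (2 * R) x

/-- counts at the scale `R` -/
def S4rCnt (ρ χ C R : ℝ) (x : Conf) : Prop :=
  ∀ v w : ℝ, -R ≤ v → v ≤ w → w ≤ R →
    s4rNu x (Set.Icc v w) < ⊤ ∧ |(s4rNu x).real (Set.Icc v w) - ρ * (w - v)| ≤ C * R ^ (1 - χ)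

theorem s4r_eqns_cite : True := by
  have := @s4rNu.eq_1
  have := @s4rPn.eq_1
  have := @s4rW.eq_1
  have := @S4rE1.eq_1
  have := @S4rGood.eq_1
  have := @S4rGrid.eq_1
  have := @S4rCnt.eq_1
  trivial

/-! ## A. probability of graph events -/

/-- (proved) -/
theorem s4r_Eg_mono {n d : ℕ} {F F' : SimpleGraph (Fin n) → ℝ} (h : ∀ G, F G ≤ F' G) : s4Eg n d F ≤ s4Eg n d F' := by
  unfold s4Eg
  exact div_le_div_of_nonneg_right (Finset.sum_le_sum fun G _ => h G) (Nat.cast_nonneg _)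

/-- (proved) -/
theorem s4r_Pg_mono {n d : ℕ} {S T : SimpleGraph (Fin n) → Prop} (h : ∀ G, S G → T G) : s4Pg n d S ≤ s4Pg n d T := by
  classical
  unfold s4Pg
  refine s4r_Eg_mono fun G => ?_
  by_cases hS : S G
  · rw [if_pos hS, if_pos (h G hS)]
  · rw [if_neg hS]
    split_ifs <;> norm_num

/-- (proved) -/
theorem s4r_Pg_or {n d : ℕ} (S T : SimpleGraph (Fin n) → Prop) : s4Pg n d (fun G => S G ∨ T G) ≤ s4Pg n d S + s4Pg n d T := by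
  classical
  unfold s4Pg s4Eg
  rw [← add_div, ← Finset.sum_add_distrib]
  refine div_le_div_of_nonneg_right (Finset.sum_le_sum fun G _ => ?_) (Nat.cast_nonneg _)
  by_cases hS : S G <;> by_cases hT : T G <;> simp [hS, hT]

/-! ## B. finite `n` -/

/-- (proved) dictionary.      `s4_M_spec`; `Im 1/(x - e - iu) = pcK u e x`; `tp_roots_sum` (sum over `charpoly.roots` = sum over `eigenvalues`). -/
theorem s4r_dict {n : ℕ} (hn : 0 < n) (G : SimpleGraph (Fin n)) (E e : ℝ) {u : ℝ} (hu : 0 < u) :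
    (s4M G E ⟨e, u⟩).im = s4rPn E G e u := by
  rw [s4_M_spec hn G E (z := ⟨e, u⟩) (by simpa using hu.ne'), Complex.im_sum]
  unfold s4rPn s4Spec tpSpecG
  rw [Multiset.map_map]
  refine Eq.trans ?_ (tp_roots_sum (s4_herm G) _).symm
  refine Finset.sum_congr rfl fun i _ => ?_
  rw [Complex.inv_im]
  simp only [Function.comp, s4Pos, pcK, Complex.normSq_apply, Complex.sub_re, Complex.sub_im, Complex.ofReal_re, Complex.ofReal_im]
  congr 1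
  · ring
  · ring

/-- (proved) `s4_E1` at `k = 0`: `|Im (m - m_*)| ≤ ‖m - m_*‖`, `Im m_* = π ρ`, `s4_Pr_graph`, `s4r_dict`; `C ↦ max C 0`, `y0 ↦ max y0 1`; `n ≥ 1`. -/
theorem s4r_E1 {d : ℕ} {E : ℝ} (H : S4Hyp d E) :
    ∃ ξ : ℝ, 0 < ξ ∧ ∀ D : ℝ, ∃ C y0 : ℝ, 0 ≤ C ∧ 1 ≤ y0 ∧ S4rE1 d E ξ D C y0 := by
  obtain ⟨ξ, hξ, h⟩ := s4_E1 H
  refine ⟨ξ, hξ, fun D => ?_⟩
  obtain ⟨C, y0, hC⟩ := h 0 D
  refine ⟨max C 0, max y0 1, le_max_right _ _, le_max_right _ _, fun e u hu η hη => ?_⟩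
  obtain ⟨N, hN⟩ := hC e u (le_trans (le_max_left _ _) hu) η hη
  have hu0 : 0 < u := lt_of_lt_of_le one_pos (le_trans (le_max_right _ _) hu)
  refine ⟨max N 1, fun n hn hne => ?_⟩
  have hn1 : 0 < n := lt_of_lt_of_le one_pos (le_trans (le_max_right _ _) hn)
  have hnd : 0 < n * d := Nat.mul_pos hn1 (by have := H.hd; omega)
  have h2 := hN n (le_trans (le_max_left _ _) hn) hne
  rw [← s4_Pr_graph (k := 0) hnd]
  refine le_trans (s4_Pr_mono fun G v w hG hnear => ?_) (le_trans h2 ?_)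
  · have h3 := hnear.1
    have h4 := Complex.abs_im_le_norm ((s4X G E v w ⟨e, u⟩).1 - s4Ms d E)
    have h5 : ((s4X G E v w ⟨e, u⟩).1 - s4Ms d E).im = s4rPn E G e u - Real.pi * kestenMcKay d E := by
      rw [Complex.sub_im]
      show (s4M G E ⟨e, u⟩).im - _ = _
      rw [s4r_dict hn1 G E e hu0]
      rfl
    rw [h5] at h4
    linarith
  · have : C * u ^ (-D) ≤ max C 0 * u ^ (-D) := mul_le_mul_of_nonneg_right (le_max_left _ _) (Real.rpow_nonneg hu0.le _)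
    linarith

/-! ## C. window sum versus spectrum (deterministic) -/

/-- the sum of `tpSumJ` as a sum over an interval of labels -/
theorem s4r_sumJ (f : ℤ → ℝ) (J : ℕ) :
    ∑ i ∈ Finset.range J, (f (i : ℤ) + f (-(i : ℤ) - 1)) = ∑ j ∈ Finset.Ico (-(J : ℤ)) J, f j := by
  induction J with
  | zero => simp
  | succ J ih =>
    have h : Finset.Ico (-((J + 1 : ℕ) : ℤ)) ((J + 1 : ℕ) : ℤ) = insert (-(J : ℤ) - 1) (insert (J : ℤ) (Finset.Ico (-(J : ℤ)) J)) := by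
      ext j
      simp only [Finset.mem_insert, Finset.mem_Ico]
      push_cast
      omega
    rw [h, Finset.sum_insert (by simp only [Finset.mem_insert, Finset.mem_Ico]; omega),
      Finset.sum_insert (by simp only [Finset.mem_Ico]; omega), Finset.sum_range_succ, ih]
    ring

theorem s4r_spec_sum (s : Multiset ℝ) (φ : ℝ → ℝ) {J : ℕ} (hJ : Multiset.card s ≤ J) :
    (s.map φ).sum = ∑ j ∈ Finset.Ico (-(J : ℤ)) J, tpExt φ (tpLab s j) := by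
  rw [← tp_sumJ_lab φ s hJ, ← s4r_sumJ]
  rfl

theorem s4r_ext_le {φ : ℝ → ℝ} (hφ : ∀ t, 0 ≤ φ t) (t : EReal) : tpExt φ t ≤ φ t.toReal := by
  unfold tpExt
  split_ifs
  · exact hφ _
  · exact le_rfl

/-- (proved) if the labels `|j| ≤ K` are in range, the window sum is a partial sum of the sum over the spectrum.
`∑_{Win K} = tpSumJ φ K + (label K) ≤ tpSumJ φ J`, `J ≥ K + 1, card s` (`tp_sumJ_mono`, `tp_sumJ_lab`); in range `tpExt φ t = φ t.toReal`. -/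
theorem s4r_win_le (s : Multiset ℝ) (K : ℕ) (φ : ℝ → ℝ) (hφ : ∀ t, 0 ≤ φ t)
    (hin : ∀ i : Win K, tpLab s (wIdx i) ≠ ⊤ ∧ tpLab s (wIdx i) ≠ ⊥) :
    ∑ i : Win K, φ ((tpLab s (wIdx i)).toReal) ≤ (s.map φ).sum := by
  have h1 : ∑ i : Win K, φ ((tpLab s (wIdx i)).toReal) = ∑ i : Win K, tpExt φ (tpLab s (wIdx i)) := by
    refine Finset.sum_congr rfl fun i _ => ?_
    unfold tpExt
    rw [if_neg (by rintro (h | h); exacts [(hin i).1 h, (hin i).2 h])]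
  rw [h1, k9_sum_win K fun j => tpExt φ (tpLab s j),
    s4r_spec_sum s φ (le_max_right (K + 1) (Multiset.card s))]
  refine Finset.sum_le_sum_of_subset_of_nonneg (fun j hj => ?_) fun j _ _ => tp_ext_nonneg hφ _
  have : K + 1 ≤ max (K + 1) (Multiset.card s) := le_max_left _ _
  rw [Finset.mem_Icc] at hj
  rw [Finset.mem_Ico]
  omega

/-- (proved) the labels beyond the window are outside `[-Λ, Λ]`, where `φ ≤ ψ`.
`(s.map φ).sum = tpSumJ φ J` (`J` large) `= ∑_{|j| ≤ K} tpExt φ + ∑_{beyond} tpExt φ`; beyond (`tp_lab_mono`): `tpExt φ t ≤ tpExt ψ t`; `∑_{beyond} tpExt ψ ≤ tpSumJ ψ J = (s.map ψ).sum`; `tpExt φ t ≤ φ t.toReal`. -/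
theorem s4r_le_win (s : Multiset ℝ) (K : ℕ) (φ ψ : ℝ → ℝ) (hφ : ∀ t, 0 ≤ φ t) (hψ : ∀ t, 0 ≤ ψ t) (Λ : ℝ)
    (hdom : ∀ t, Λ < |t| → φ t ≤ ψ t)
    (h1 : (Λ : EReal) < tpLab s (K : ℤ)) (h2 : tpLab s (-(K : ℤ) - 1) < ((-Λ : ℝ) : EReal)) :
    (s.map φ).sum ≤ ∑ i : Win K, φ ((tpLab s (wIdx i)).toReal) + (s.map ψ).sum := by
  have hJ : K + 1 ≤ max (K + 1) (Multiset.card s) := le_max_left _ _
  set J := max (K + 1) (Multiset.card s) with hJdef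
  have hsub : Finset.Icc (-(K : ℤ)) K ⊆ Finset.Ico (-(J : ℤ)) J := by
    intro j hj
    rw [Finset.mem_Icc] at hj
    rw [Finset.mem_Ico]
    omega
  rw [s4r_spec_sum s φ (le_max_right (K + 1) (Multiset.card s)), s4r_spec_sum s ψ (le_max_right (K + 1) (Multiset.card s)),
    k9_sum_win K fun j => φ ((tpLab s j).toReal), ← Finset.sum_sdiff hsub, add_comm]
  refine add_le_add (Finset.sum_le_sum fun j _ => s4r_ext_le hφ _) ?_
  refine le_trans (Finset.sum_le_sum (g := fun j => tpExt ψ (tpLab s j)) fun j hj => ?_)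
    (Finset.sum_le_sum_of_subset_of_nonneg Finset.sdiff_subset fun j _ _ => tp_ext_nonneg hψ _)
  rw [Finset.mem_sdiff, Finset.mem_Icc] at hj
  have hj2 : (K : ℤ) ≤ j ∨ j ≤ -(K : ℤ) - 1 := by omega
  induction ht : tpLab s j with
  | bot => simp
  | top => simp
  | coe r =>
    rw [tp_ext_coe, tp_ext_coe]
    refine hdom r ?_
    rcases hj2 with h | h
    · have h3 := lt_of_lt_of_le h1 (tp_lab_mono s h)
      rw [ht, EReal.coe_lt_coe_iff] at h3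
      exact lt_of_lt_of_le h3 (le_abs_self r)
    · have h3 := lt_of_le_of_lt (tp_lab_mono s h) h2
      rw [ht, EReal.coe_lt_coe_iff] at h3
      have := neg_abs_le r
      linarith

/-- (proved) far kernel: `u/((t-e)²+u²) ≤ 4u/t² ≤ (8u/Λ) Λ/(t²+Λ²)` -/
theorem s4r_far {u e Λ t : ℝ} (hu : 0 < u) (hΛ : 0 < Λ) (he : 2 * |e| ≤ Λ) (ht : Λ < |t|) :
    pcK u e t ≤ 8 * u / Λ * pcK Λ 0 t := by
  have ht2 : Λ ^ 2 ≤ t ^ 2 := by
    rw [← sq_abs t]; exact pow_le_pow_left₀ hΛ.le ht.le 2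
  have ht0 : 0 < t ^ 2 := lt_of_lt_of_le (by positivity) ht2
  have h1 : |t| / 2 ≤ |t - e| := by
    have := abs_sub_abs_le_abs_sub t e
    linarith
  have h2 : t ^ 2 / 4 ≤ (t - e) ^ 2 := by
    rw [← sq_abs (t - e), ← sq_abs t]
    have := pow_le_pow_left₀ (by positivity) h1 2
    nlinarith
  have hA : pcK u e t ≤ 4 * u / t ^ 2 := by
    unfold pcK
    rw [div_le_div_iff₀ (pc_den_pos hu e t) ht0]
    nlinarith [sq_nonneg u]
  have hB : 4 * u / t ^ 2 ≤ 8 * u / Λ * pcK Λ 0 t := by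
    unfold pcK
    rw [sub_zero, div_mul_div_comm, div_le_div_iff₀ ht0 (by positivity)]
    have : 4 * u * (Λ * (t ^ 2 + Λ ^ 2)) ≤ 4 * u * (Λ * (t ^ 2 + t ^ 2)) := by
      refine mul_le_mul_of_nonneg_left (mul_le_mul_of_nonneg_left (by linarith) hΛ.le) (by positivity)
    nlinarith
  exact hA.trans hB

/-! ## D. transfer to the limit -/

theorem s4r_cPos_cont (K : ℕ) : Continuous (cPos K) :=
  continuous_pi fun i => continuous_apply (wIdx i)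

/-- (proved) two thresholds.      `f = clamp ((g - a)/(b - a))` is bounded continuous, `1_{b ≤ g} ≤ f ≤ 1_{a < g}`;
`μ{b ≤ g} ≤ ∫ f(cPos K x) dμ = lim_U E_n f(s4Win) ≤ p` (`S4Lim.win`, `s4r_Eg_mono`, `le_of_tendsto`). -/
theorem s4r_transfer {d : ℕ} {E : ℝ} {U : Ultrafilter ℕ} {μ : Measure Conf} (hl : S4Lim d E U μ) (K : ℕ)
    (g : (Win K → ℝ) → ℝ) (hg : Continuous g) {a b p : ℝ} (hab : a < b)
    (hp : ∀ᶠ n in (U : Filter ℕ), s4Pg n d (fun G => a < g (s4Win E K G)) ≤ p) :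
    μ {x | b ≤ g (cPos K x)} ≤ ENNReal.ofReal p := by
  classical
  have := hl.prob
  have hba : 0 < b - a := sub_pos.2 hab
  have hf0c : Continuous fun y : Win K → ℝ => max 0 (min 1 ((g y - a) / (b - a))) :=
    continuous_const.max (continuous_const.min ((hg.sub continuous_const).div_const _))
  have hf00 : ∀ y : Win K → ℝ, 0 ≤ max 0 (min 1 ((g y - a) / (b - a))) := fun y => le_max_left _ _
  have hf01 : ∀ y : Win K → ℝ, max 0 (min 1 ((g y - a) / (b - a))) ≤ 1 := fun y => max_le zero_le_one (min_le_left _ _)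
  let f : (Win K → ℝ) →ᵇ ℝ := BoundedContinuousFunction.ofNormedAddCommGroup _ hf0c 1 fun y => by
    rw [Real.norm_eq_abs, abs_of_nonneg (hf00 y)]; exact hf01 y
  have hfv : ∀ y, f y = max 0 (min 1 ((g y - a) / (b - a))) := fun y => rfl
  have hlim := hl.win K f
  have hle : ∫ x, f (cPos K x) ∂μ ≤ p := by
    refine le_of_tendsto hlim (hp.mono fun n hn => le_trans (s4r_Eg_mono fun G => ?_) hn)
    rw [hfv]
    by_cases h : a < g (s4Win E K G)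
    · rw [if_pos h]; exact hf01 _
    · rw [if_neg h]
      refine max_le le_rfl (le_trans (min_le_right _ _) ?_)
      exact div_nonpos_of_nonpos_of_nonneg (by linarith) hba.le
  have hfc : Continuous fun x : Conf => f (cPos K x) := f.continuous.comp (s4r_cPos_cont K)
  have hint : Integrable (fun x : Conf => f (cPos K x)) μ :=
    Integrable.of_bound hfc.aestronglyMeasurable 1 (Eventually.of_forall fun x => by
      rw [Real.norm_eq_abs, hfv, abs_of_nonneg (hf00 _)]; exact hf01 _)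
  have h1 : μ {x | b ≤ g (cPos K x)} ≤ ∫⁻ x, ENNReal.ofReal (f (cPos K x)) ∂μ := by
    have h2 := mul_meas_ge_le_lintegral₀ (μ := μ) (f := fun x => ENNReal.ofReal (f (cPos K x)))
      (ENNReal.measurable_ofReal.comp hfc.measurable).aemeasurable 1
    rw [one_mul] at h2
    refine le_trans (measure_mono fun x hx => ?_) h2
    have hx' : b ≤ g (cPos K x) := hx
    show (1 : ENNReal) ≤ ENNReal.ofReal (f (cPos K x))
    rw [hfv]
    have h3 : 1 ≤ (g (cPos K x) - a) / (b - a) := by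
      rw [le_div_iff₀ hba]; linarith
    rw [min_eq_left h3, max_eq_right zero_le_one, ENNReal.ofReal_one]
  rw [← ofReal_integral_eq_lintegral_ofReal hint (Eventually.of_forall fun x => hf00 _)] at h1
  exact le_trans h1 (ENNReal.ofReal_le_ofReal hle)

/-- (proved) an eventual statement along `atTop` on the admissible `n` holds along `U` -/
theorem s4r_ev {d : ℕ} {E : ℝ} {U : Ultrafilter ℕ} {μ : Measure Conf} (hl : S4Lim d E U μ) {P : ℕ → Prop}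
    (h : ∃ N : ℕ, ∀ n : ℕ, N ≤ n → (regularGraphs n d).Nonempty → P n) : ∀ᶠ n in (U : Filter ℕ), P n := by
  obtain ⟨N, hN⟩ := h
  filter_upwards [hl.top (eventually_ge_atTop N), hl.adm] with n h1 h2 using hN n h1 h2

/-! ## E. M1: the one-point Poisson bound in the limit -/

/-- finite union bound -/
theorem s4r_Pg_finset {n d : ℕ} {ι : Type} (F : Finset ι) (S : ι → SimpleGraph (Fin n) → Prop) :
    s4Pg n d (fun G => ∃ i ∈ F, S i G) ≤ ∑ i ∈ F, s4Pg n d (S i) := by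
  classical
  induction F using Finset.induction_on with
  | empty => simp [s4Pg, s4Eg]
  | insert a F ha ih =>
    rw [Finset.sum_insert ha]
    refine le_trans (s4r_Pg_mono fun G hG => ?_)
      (le_trans (s4r_Pg_or (S a) fun G => ∃ i ∈ F, S i G) (add_le_add le_rfl ih))
    obtain ⟨i, hi, hS⟩ := hG
    rcases Finset.mem_insert.1 hi with rfl | hi
    · exact Or.inl hS
    · exact Or.inr ⟨i, hi, hS⟩

/-- the labels of a window are in range with probability `→ 1` (`s4_tight`) -/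
theorem s4r_inrange {d : ℕ} {E : ℝ} (H : S4Hyp d E) (K : ℕ) (ε : ℝ) (hε : 0 < ε) :
    ∃ N : ℕ, ∀ n : ℕ, N ≤ n → (regularGraphs n d).Nonempty →
      s4Pg n d (fun G => ¬ ∀ i : Win K, tpLab (s4Spec E G) (wIdx i) ≠ ⊤ ∧ tpLab (s4Spec E G) (wIdx i) ≠ ⊥) ≤ ε := by
  have h := fun i : Win K => s4_tight_pf H (wIdx i) (ε / (2 * K + 1)) (by positivity)
  choose R N hN using h
  refine ⟨Finset.univ.sup N, fun n hn hne => ?_⟩
  have h1 : ∀ i : Win K, s4Pg n d (fun G => ¬ (((-(R i) : ℝ) : EReal) ≤ tpLab (s4Spec E G) (wIdx i) ∧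
      tpLab (s4Spec E G) (wIdx i) ≤ (R i : EReal))) ≤ ε / (2 * K + 1) :=
    fun i => hN i n (le_trans (Finset.le_sup (Finset.mem_univ i)) hn) hne
  refine le_trans (s4r_Pg_mono fun G hG => ?_) (le_trans (s4r_Pg_finset Finset.univ _)
    (le_trans (Finset.sum_le_sum fun i _ => h1 i) ?_))
  · rw [not_forall] at hG
    obtain ⟨i, hi⟩ := hG
    refine ⟨i, Finset.mem_univ i, fun hc => hi ⟨fun ht => ?_, fun hb => ?_⟩⟩
    · rw [ht] at hc
      exact absurd hc.2 (not_le.2 (EReal.coe_lt_top _))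
    · rw [hb] at hc
      exact absurd hc.1 (not_le.2 (EReal.bot_lt_coe _))
  · rw [Finset.sum_const, Finset.card_univ, Fintype.card_fin, nsmul_eq_mul]
    push_cast
    refine le_of_eq ?_
    field_simp

theorem s4r_W_cont {u : ℝ} (hu : 0 < u) (K : ℕ) (e : ℝ) : Continuous (s4rW K e u) :=
  continuous_finsetSum _ fun i _ => (pcK_cont_x hu e).comp (continuous_apply i)

theorem s4r_le_of_eps {p : ENNReal} {c : ℝ} (h : ∀ ε : ℝ, 0 < ε → p ≤ ENNReal.ofReal (c + ε)) : p ≤ ENNReal.ofReal c := by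
  refine ENNReal.le_of_forall_pos_le_add fun ε hε _ => ?_
  refine le_trans (h ε (by exact_mod_cast hε)) (le_trans ENNReal.ofReal_add_le ?_)
  rw [ENNReal.ofReal_coe_nnreal]

/-- (proved) upper bound for one window.      `s4r_transfer` with `g = s4rW K e u`, `a = πρ + u^{-ξ}`, `b = πρ + 2u^{-ξ}`.
Finite `n`: `{a < window sum} ⊆ {u^{-ξ} < |P_n - πρ|} ∪ ⋃_{|j| ≤ K} {label j out of range}` (`s4r_win_le`); `s4_tight` for each of the `2K + 1` labels with `ε/(2K+1)`; `η, ε → 0`. -/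
theorem s4r_up {d : ℕ} {E : ℝ} (H : S4Hyp d E) {ξ D C y0 : ℝ} (h1 : S4rE1 d E ξ D C y0) {U : Ultrafilter ℕ} {μ : Measure Conf}
    (hl : S4Lim d E U μ) (e u : ℝ) (hu0 : 0 < u) (hu : y0 ≤ u) (K : ℕ) :
    μ {x | Real.pi * kestenMcKay d E + 2 * u ^ (-ξ) ≤ s4rW K e u (cPos K x)} ≤ ENNReal.ofReal (C * u ^ (-D)) := by
  refine s4r_le_of_eps fun ε hε => ?_
  have hτ : 0 < u ^ (-ξ) := Real.rpow_pos_of_pos hu0 _
  refine s4r_transfer hl K (s4rW K e u) (s4r_W_cont hu0 K e) (a := Real.pi * kestenMcKay d E + u ^ (-ξ)) (by linarith)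
    (s4r_ev hl ?_)
  obtain ⟨N1, hN1⟩ := h1 e u hu (ε / 2) (by positivity)
  obtain ⟨N2, hN2⟩ := s4r_inrange H K (ε / 2) (by positivity)
  refine ⟨max N1 N2, fun n hn hne => ?_⟩
  have a1 := hN1 n (le_trans (le_max_left _ _) hn) hne
  have a2 := hN2 n (le_trans (le_max_right _ _) hn) hne
  refine le_trans (s4r_Pg_mono fun G hG => ?_) (le_trans (s4r_Pg_or _ _) (le_trans (add_le_add a1 a2) (by linarith)))
  by_cases hin : ∀ i : Win K, tpLab (s4Spec E G) (wIdx i) ≠ ⊤ ∧ tpLab (s4Spec E G) (wIdx i) ≠ ⊥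
  · left
    have h3 : s4rW K e u (s4Win E K G) ≤ s4rPn E G e u := s4r_win_le (s4Spec E G) K (pcK u e) (pcK_nonneg hu0 e) hin
    have := le_abs_self (s4rPn E G e u - Real.pi * kestenMcKay d E)
    linarith
  · exact Or.inr hin

/-- (proved) lower bound.      Given `ε`: `Λ ≥ max y0 (2|e|)` with `C Λ^{-D} ≤ ε` and `(8u/Λ)(πρ + 1) ≤ u^{-ξ}/2`; `K` from `s4_locfin` at `R = Λ`.
Finite `n`: off three events `window sum ≥ P_n(e,u) - (8u/Λ) P_n(0,Λ) ≥ πρ - (3/2) u^{-ξ}` (`s4r_le_win`, `s4r_far`).      `s4r_transfer` with `g = - s4rW K e u`. -/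
theorem s4r_low {d : ℕ} {E : ℝ} (H : S4Hyp d E) {ξ D C y0 : ℝ} (hξ : 0 < ξ) (hD : 0 < D) (_hC : 0 ≤ C) (hy0 : 1 ≤ y0) (h1 : S4rE1 d E ξ D C y0)
    {U : Ultrafilter ℕ} {μ : Measure Conf} (hl : S4Lim d E U μ) (e u : ℝ) (hu : y0 ≤ u) (ε : ℝ) (hε : 0 < ε) :
    ∃ K : ℕ, μ {x | s4rW K e u (cPos K x) ≤ Real.pi * kestenMcKay d E - 2 * u ^ (-ξ)} ≤ ENNReal.ofReal (C * u ^ (-D) + ε) := by
  have hu0 : 0 < u := by linarith
  have hτ : 0 < u ^ (-ξ) := Real.rpow_pos_of_pos hu0 _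
  have hρ := s4_rho_pos d H.hd E H.hE
  have hpi := Real.pi_pos
  obtain ⟨Λ, hΛ1, hΛ2, hΛ3, hΛ4⟩ : ∃ Λ : ℝ, y0 ≤ Λ ∧ 2 * |e| ≤ Λ ∧ C * Λ ^ (-D) ≤ ε / 4 ∧
      8 * u / Λ * (Real.pi * kestenMcKay d E + 1) ≤ u ^ (-ξ) / 2 := by
    have t1 : Tendsto (fun Λ : ℝ => C * Λ ^ (-D)) atTop (𝓝 (C * 0)) := (tendsto_rpow_neg_atTop hD).const_mul C
    have t2 : Tendsto (fun Λ : ℝ => 8 * u / Λ * (Real.pi * kestenMcKay d E + 1)) atTop (𝓝 (0 * (Real.pi * kestenMcKay d E + 1))) :=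
      (tendsto_const_nhds.div_atTop tendsto_id).mul_const _
    rw [mul_zero] at t1
    rw [zero_mul] at t2
    have e1 := t1.eventually (eventually_le_nhds (by positivity : (0 : ℝ) < ε / 4))
    have e2 := t2.eventually (eventually_le_nhds (by positivity : (0 : ℝ) < u ^ (-ξ) / 2))
    obtain ⟨Λ, h⟩ := ((eventually_ge_atTop y0).and ((eventually_ge_atTop (2 * |e|)).and (e1.and e2))).exists
    exact ⟨Λ, h.1, h.2.1, h.2.2.1, h.2.2.2⟩
  have hΛ0 : 0 < Λ := by linarith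
  obtain ⟨K, N3, hN3⟩ := s4_locfin_pf H Λ (ε / 4) (by positivity)
  refine ⟨K, ?_⟩
  have hset : {x : Conf | s4rW K e u (cPos K x) ≤ Real.pi * kestenMcKay d E - 2 * u ^ (-ξ)} =
      {x | -(Real.pi * kestenMcKay d E - 2 * u ^ (-ξ)) ≤ -(s4rW K e u (cPos K x))} := by
    ext x
    show s4rW K e u (cPos K x) ≤ Real.pi * kestenMcKay d E - 2 * u ^ (-ξ) ↔
      -(Real.pi * kestenMcKay d E - 2 * u ^ (-ξ)) ≤ -(s4rW K e u (cPos K x))
    rw [neg_le_neg_iff]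
  rw [hset]
  refine s4r_transfer hl K (fun y => -(s4rW K e u y)) (s4r_W_cont hu0 K e).neg
    (a := -(Real.pi * kestenMcKay d E - 7 / 4 * u ^ (-ξ))) (by linarith) (s4r_ev hl ?_)
  obtain ⟨N1, hN1⟩ := h1 e u hu (ε / 4) (by positivity)
  obtain ⟨N2, hN2⟩ := h1 0 Λ hΛ1 (ε / 4) (by positivity)
  refine ⟨max N1 (max N2 N3), fun n hn hne => ?_⟩
  have a1 := hN1 n (le_trans (le_max_left _ _) hn) hne
  have a2 := hN2 n (le_trans (le_trans (le_max_left _ _) (le_max_right _ _)) hn) hne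
  have a3 := hN3 n (le_trans (le_trans (le_max_right _ _) (le_max_right _ _)) hn) hne
  refine le_trans (s4r_Pg_mono fun G hG => ?_) (le_trans (s4r_Pg_or _ _)
    (le_trans (add_le_add a1 (le_trans (s4r_Pg_or _ _) (add_le_add a2 a3))) (by linarith)))
  by_contra hcon
  rw [not_or, not_or, not_or, not_lt, not_lt, not_le, not_le] at hcon
  obtain ⟨c1, c2, c3, c4⟩ := hcon
  have h5 := s4r_le_win (s4Spec E G) K (pcK u e) (fun t => 8 * u / Λ * pcK Λ 0 t) (pcK_nonneg hu0 e)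
    (fun t => mul_nonneg (by positivity) (pcK_nonneg hΛ0 0 t)) Λ (fun t ht => s4r_far hu0 hΛ0 hΛ2 ht) c3 c4
  rw [Multiset.sum_map_mul_left] at h5
  have h6 : s4rPn E G 0 Λ ≤ Real.pi * kestenMcKay d E + 1 := by
    have h7 : Λ ^ (-ξ) ≤ 1 := Real.rpow_le_one_of_one_le_of_nonpos (by linarith) (by linarith)
    have := (abs_le.1 c2).2
    linarith
  have h8 : 8 * u / Λ * s4rPn E G 0 Λ ≤ 8 * u / Λ * (Real.pi * kestenMcKay d E + 1) :=
    mul_le_mul_of_nonneg_left h6 (by positivity)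
  have h9 := (abs_le.1 c1).1
  have h10 : s4rPn E G e u ≤ s4rW K e u (s4Win E K G) + 8 * u / Λ * s4rPn E G 0 Λ := h5
  linarith

/-- (proved) `Integrable f (∑ δ_{x_j}) ↔ Summable`, for `f ≥ 0` measurable -/
theorem s4r_nu_integrable (x : Conf) {f : ℝ → ℝ} (_hf : Measurable f) (h0 : ∀ t, 0 ≤ f t) :
    Integrable f (s4rNu x) ↔ Summable fun j : ℤ => f (x j) := by
  unfold s4rNu
  rw [integrable_sum_measure_iff]
  have h1 : ∀ i : ℤ, Integrable f (Measure.dirac (x i)) := fun i => integrable_dirac (by simp)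
  have h2 : (fun i : ℤ => ∫ t, ‖f t‖ ∂(Measure.dirac (x i))) = fun j : ℤ => f (x j) := by
    funext i
    rw [integral_dirac, Real.norm_of_nonneg (h0 _)]
  rw [h2]
  exact ⟨fun h => h.2, fun h => ⟨h1, h⟩⟩

/-- (proved) (`integral_sum_measure`, `integral_dirac`) -/
theorem s4r_nu_integral (x : Conf) {f : ℝ → ℝ} (hf : Integrable f (s4rNu x)) : ∫ t, f t ∂(s4rNu x) = ∑' j : ℤ, f (x j) := by
  unfold s4rNu at hf ⊢
  rw [integral_sum_measure hf]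
  exact tsum_congr fun j => integral_dirac _ _

theorem s4r_W_eq (K : ℕ) (e u : ℝ) (x : Conf) : s4rW K e u (cPos K x) = ∑ j ∈ Finset.Icc (-(K : ℤ)) K, pcK u e (x j) :=
  k9_sum_win K fun j => pcK u e (x j)

/-- (proved) from the windows to the Poisson transform of the configuration.      Every finite set of labels is in a window: `summable_of_sum_le`; `tsum ≤` bound; `sum_le_tsum`; `k9_sum_win`: reindexing `∑_{Win K} = ∑_{Icc (-K) K}`. -/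
theorem s4r_good_of_win {x : Conf} {ρ τ e u : ℝ} (hu : 0 < u) (h1 : ∀ K, s4rW K e u (cPos K x) < Real.pi * ρ + τ)
    (h2 : ∃ K, Real.pi * ρ - τ < s4rW K e u (cPos K x)) : S4rGood ρ τ e u x := by
  have h0 : ∀ j : ℤ, 0 ≤ pcK u e (x j) := fun j => pcK_nonneg hu _ _
  have hb : ∀ F : Finset ℤ, ∑ j ∈ F, pcK u e (x j) ≤ Real.pi * ρ + τ := by
    intro F
    obtain ⟨K, hK⟩ : ∃ K : ℕ, F ⊆ Finset.Icc (-(K : ℤ)) K := by
      refine ⟨F.sup Int.natAbs, fun j hj => ?_⟩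
      have : j.natAbs ≤ F.sup Int.natAbs := Finset.le_sup (f := Int.natAbs) hj
      rw [Finset.mem_Icc]
      omega
    refine le_trans (Finset.sum_le_sum_of_subset_of_nonneg hK fun j _ _ => h0 j) ?_
    rw [← s4r_W_eq]
    exact (h1 K).le
  have hs : Summable fun j : ℤ => pcK u e (x j) := summable_of_sum_le h0 hb
  have hi : Integrable (pcK u e) (s4rNu x) :=
    (s4r_nu_integrable x (pcK_cont_x hu e).measurable (pcK_nonneg hu e)).2 hs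
  refine ⟨hi, ?_⟩
  unfold pcP
  rw [s4r_nu_integral x hi, abs_le]
  obtain ⟨K, hK⟩ := h2
  rw [s4r_W_eq] at hK
  have h3 := hs.sum_le_tsum (Finset.Icc (-(K : ℤ)) K) fun j _ => h0 j
  have h4 := hs.tsum_le_of_sum_le hb
  constructor <;> linarith

/-- (proved) the window sums increase with the window (`k9_sum_win`, `Finset.sum_le_sum_of_subset_of_nonneg`) -/
theorem s4r_W_mono {u : ℝ} (hu : 0 < u) (e : ℝ) (x : Conf) : Monotone fun K : ℕ => s4rW K e u (cPos K x) := by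
  intro K K' h
  show s4rW K e u (cPos K x) ≤ s4rW K' e u (cPos K' x)
  rw [s4r_W_eq, s4r_W_eq]
  refine Finset.sum_le_sum_of_subset_of_nonneg (Finset.Icc_subset_Icc (by omega) (by omega)) fun j _ _ => pcK_nonneg hu _ _

/-- **M1**, from `s4r_up`, `s4r_low`, `s4r_good_of_win` -/
theorem s4r_M1 {d : ℕ} {E : ℝ} (H : S4Hyp d E) {ξ D C y0 : ℝ} (hξ : 0 < ξ) (hD : 0 < D) (hC : 0 ≤ C) (hy0 : 1 ≤ y0) (h1 : S4rE1 d E ξ D C y0)
    {U : Ultrafilter ℕ} {μ : Measure Conf} (hl : S4Lim d E U μ) (e u : ℝ) (hu : y0 ≤ u) :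
    μ {x | ¬ S4rGood (kestenMcKay d E) (2 * u ^ (-ξ)) e u x} ≤ ENNReal.ofReal (2 * C * u ^ (-D)) := by
  have hu0 : 0 < u := by linarith
  have hc0 : 0 ≤ C * u ^ (-D) := mul_nonneg hC (Real.rpow_nonneg hu0.le _)
  have hsub : {x | ¬ S4rGood (kestenMcKay d E) (2 * u ^ (-ξ)) e u x} ⊆
      (⋃ K : ℕ, {x | Real.pi * kestenMcKay d E + 2 * u ^ (-ξ) ≤ s4rW K e u (cPos K x)}) ∪
        {x | ∀ K : ℕ, s4rW K e u (cPos K x) ≤ Real.pi * kestenMcKay d E - 2 * u ^ (-ξ)} := by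
    intro x hx
    by_contra hc
    simp only [Set.mem_union, Set.mem_iUnion, Set.mem_ofPred_eq, not_or, not_exists, not_le, not_forall] at hc
    exact hx (s4r_good_of_win hu0 hc.1 hc.2)
  have hA : μ (⋃ K : ℕ, {x | Real.pi * kestenMcKay d E + 2 * u ^ (-ξ) ≤ s4rW K e u (cPos K x)}) ≤ ENNReal.ofReal (C * u ^ (-D)) := by
    have hm : Monotone fun K : ℕ => {x : Conf | Real.pi * kestenMcKay d E + 2 * u ^ (-ξ) ≤ s4rW K e u (cPos K x)} :=
      fun K K' hK x hx => le_trans hx (s4r_W_mono hu0 e x hK)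
    rw [hm.measure_iUnion]
    exact iSup_le fun K => s4r_up H h1 hl e u hu0 hu K
  have hB : μ {x | ∀ K : ℕ, s4rW K e u (cPos K x) ≤ Real.pi * kestenMcKay d E - 2 * u ^ (-ξ)} ≤ ENNReal.ofReal (C * u ^ (-D)) := by
    refine ENNReal.le_of_forall_pos_le_add fun ε hε _ => ?_
    obtain ⟨K, hK⟩ := s4r_low H hξ hD hC hy0 h1 hl e u hu ε (by exact_mod_cast hε)
    refine le_trans (measure_mono fun x hx => hx K) (le_trans hK ?_)
    rw [ENNReal.ofReal_add hc0 ε.coe_nonneg, ENNReal.ofReal_coe_nnreal]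
  calc μ {x | ¬ S4rGood (kestenMcKay d E) (2 * u ^ (-ξ)) e u x}
      ≤ _ := measure_mono hsub
    _ ≤ _ := measure_union_le _ _
    _ ≤ ENNReal.ofReal (C * u ^ (-D)) + ENNReal.ofReal (C * u ^ (-D)) := add_le_add hA hB
    _ = ENNReal.ofReal (2 * C * u ^ (-D)) := by
        rw [← ENNReal.ofReal_add hc0 hc0]; congr 1; ring

/-! ## F. grid ⟹ counts (deterministic) -/

/-- (proved) `(x-e')² + u² ≤ (1 + θ + θ²)((x-e)² + u²)`: `2|x-e||e-e'| ≤ θ((x-e)² + u²)`, `(e-e')² = θ² u²` -/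
theorem s4r_fill {u : ℝ} (hu : 0 < u) (e e' x : ℝ) :
    pcK u e x ≤ (1 + |e - e'| / u + (|e - e'| / u) ^ 2) * pcK u e' x := by
  unfold pcK
  have hδ : |e - e'| = |e - e'| / u * u := by field_simp
  have hθ0 : 0 ≤ |e - e'| / u := by positivity
  generalize |e - e'| / u = θ at hδ hθ0
  have key : (x - e') ^ 2 + u ^ 2 ≤ (1 + θ + θ ^ 2) * ((x - e) ^ 2 + u ^ 2) := by
    have h1 : (x - e') ^ 2 = (x - e) ^ 2 + 2 * ((x - e) * (e - e')) + (e - e') ^ 2 := by ring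
    have h2 : (x - e) * (e - e') ≤ |x - e| * |e - e'| := by
      have := le_abs_self ((x - e) * (e - e')); rwa [abs_mul] at this
    have h3 : 2 * |x - e| * u ≤ (x - e) ^ 2 + u ^ 2 := by nlinarith [sq_nonneg (|x - e| - u), sq_abs (x - e)]
    have h4 : (e - e') ^ 2 = θ ^ 2 * u ^ 2 := by rw [← sq_abs, hδ]; ring
    have h5 : 2 * (|x - e| * |e - e'|) ≤ θ * ((x - e) ^ 2 + u ^ 2) := by
      rw [hδ]
      have := mul_le_mul_of_nonneg_left h3 hθ0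
      nlinarith
    have h6 : 0 ≤ θ ^ 2 * (x - e) ^ 2 := by positivity
    nlinarith
  rw [← mul_div_assoc, div_le_div_iff₀ (pc_den_pos hu e x) (pc_den_pos hu e' x)]
  have := mul_le_mul_of_nonneg_left key hu.le
  nlinarith

/-- (proved) fill-in for the transform (`Integrable.mono'`, `integral_mono`) -/
theorem s4r_fill_P {ν : Measure ℝ} {u : ℝ} (hu : 0 < u) (e e' : ℝ) (hi : Integrable (pcK u e') ν) :
    Integrable (pcK u e) ν ∧ pcP ν e u ≤ (1 + |e - e'| / u + (|e - e'| / u) ^ 2) * pcP ν e' u := by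
  have hk : Integrable (fun x => (1 + |e - e'| / u + (|e - e'| / u) ^ 2) * pcK u e' x) ν := hi.const_mul _
  have h1 : Integrable (pcK u e) ν := hk.mono' (pcK_cont_x hu e).aestronglyMeasurable
    (Eventually.of_forall fun x => by rw [Real.norm_of_nonneg (pcK_nonneg hu e x)]; exact s4r_fill hu e e' x)
  refine ⟨h1, ?_⟩
  unfold pcP
  rw [← integral_const_mul]
  exact integral_mono h1 hk fun x => s4r_fill hu e e' x

/-- (proved) fill-in, two sided: `κ = 1 + θ + θ² ≤ 1 + 2/u ≤ 3`; `P(e) ≤ κ P(e')`, `P(e') ≤ κ P(e)`, `1/κ ≥ 2 - κ` -/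
theorem s4r_fill_good {ν : Measure ℝ} {ρ τ u e e' : ℝ} (hρ : 0 < ρ) (hu : 1 ≤ u) (he : |e - e'| ≤ 1) (hi : Integrable (pcK u e') ν)
    (h : |pcP ν e' u - Real.pi * ρ| ≤ τ) :
    Integrable (pcK u e) ν ∧ |pcP ν e u - Real.pi * ρ| ≤ 3 * τ + 2 * Real.pi * ρ / u := by
  have hu0 : 0 < u := by linarith
  obtain ⟨hi', hA⟩ := s4r_fill_P hu0 e e' hi
  obtain ⟨-, hB⟩ := s4r_fill_P hu0 e' e hi'
  rw [abs_sub_comm e' e] at hB
  refine ⟨hi', ?_⟩
  have hτ : 0 ≤ τ := le_trans (abs_nonneg _) h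
  have hP := pcP_nonneg ν e hu0
  have hP' := pcP_nonneg ν e' hu0
  have hq : 0 < Real.pi * ρ := mul_pos Real.pi_pos hρ
  have hθ0 : 0 ≤ |e - e'| / u := by positivity
  have hθ1 : |e - e'| / u ≤ 1 / u := div_le_div_of_nonneg_right he hu0.le
  have hu1 : 1 / u ≤ 1 := by rw [div_le_one hu0]; exact hu
  have e2 : 2 * Real.pi * ρ / u = 2 * (1 / u) * (Real.pi * ρ) := by ring
  rw [e2]
  generalize |e - e'| / u = θ at hA hB hθ0 hθ1
  generalize 1 / u = a at hθ1 hu1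
  generalize Real.pi * ρ = q at h hq
  generalize pcP ν e u = P at hA hB hP
  generalize pcP ν e' u = P' at hA hB hP' h
  have hκ : 1 + θ + θ ^ 2 ≤ 1 + 2 * a := by nlinarith
  have hκ0 : 0 < 1 + θ + θ ^ 2 := by positivity
  have ha0 : 0 ≤ a := le_trans hθ0 hθ1
  obtain ⟨h1, h2⟩ := abs_le.1 h
  rw [abs_le]
  constructor
  · by_contra hc
    push Not at hc
    have hL : 0 < q - 3 * τ - 2 * a * q := by linarith
    have h3 : P' ≤ (1 + 2 * a) * P := le_trans hB (mul_le_mul_of_nonneg_right hκ hP)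
    have h4 : (1 + 2 * a) * P ≤ (1 + 2 * a) * (q - 3 * τ - 2 * a * q) := mul_le_mul_of_nonneg_left (by linarith) (by linarith)
    nlinarith [mul_nonneg ha0 hτ, mul_nonneg (mul_nonneg ha0 ha0) hq.le]
  · have h3 : P ≤ (1 + 2 * a) * P' := le_trans hA (mul_le_mul_of_nonneg_right hκ hP')
    have h4 : (1 + 2 * a) * P' ≤ (1 + 2 * a) * (q + τ) := mul_le_mul_of_nonneg_left (by linarith) (by linarith)
    nlinarith [mul_nonneg ha0 hτ]

instance s4r_nu_sfinite (x : Conf) : SFinite (s4rNu x) := by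
  unfold s4rNu; infer_instance

/-- (proved) `pc_count` with `u = √R`, `t = R^{3/4}`, `δ = 6 R^{-ξ/2} + 2πρ R^{-1/2}`, `B = 3(πρ + 2)`; nearest integer `⌊e⌋` (`|e - ⌊e⌋| ≤ 1`, `|⌊e⌋| ≤ R + 1`).
Raw form of the bound, before the arithmetic of exponents. -/
theorem s4r_grid_cnt_raw {ρ ξ R : ℝ} (hρ : 0 < ρ) (hξ : 0 < ξ) (hR : 1 ≤ R) {x : Conf} (hg : S4rGrid ρ ξ R x) (v w : ℝ)
    (hv : -R ≤ v) (hvw : v ≤ w) (hw : w ≤ R) :
    s4rNu x (Set.Icc v w) < ⊤ ∧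
    |Real.pi * (s4rNu x).real (Set.Icc v w) - Real.pi * ρ * (w - v)|
      ≤ (6 * (R ^ (1 / 2 : ℝ)) ^ (-ξ) + 2 * Real.pi * ρ / R ^ (1 / 2 : ℝ)) * (w - v)
        + 3 * (Real.pi * ρ + 2) * (4 * Real.pi * R ^ (3 / 4 : ℝ) + 8 * R * R ^ (1 / 2 : ℝ) / R ^ (3 / 4 : ℝ) + 8 * R ^ (1 / 2 : ℝ)) := by
  have hR0 : 0 < R := by linarith
  have hu1 : 1 ≤ R ^ (1 / 2 : ℝ) := Real.one_le_rpow hR (by norm_num)
  have ht1 : 1 ≤ R ^ (3 / 4 : ℝ) := Real.one_le_rpow hR (by norm_num)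
  have hq : 0 < Real.pi * ρ := mul_pos Real.pi_pos hρ
  -- the nearest grid point
  have hfl : ∀ e : ℝ, -R ≤ e → e ≤ R → |((⌊e⌋ : ℤ) : ℝ)| ≤ R + 1 ∧ |e - ((⌊e⌋ : ℤ) : ℝ)| ≤ 1 := by
    intro e h1 h2
    have a1 := Int.floor_le e
    have a2 := Int.lt_floor_add_one e
    constructor <;> rw [abs_le] <;> constructor <;> linarith
  have hU : ∀ e : ℝ, -R ≤ e → e ≤ R → Integrable (pcK (R ^ (1 / 2 : ℝ)) e) (s4rNu x) ∧
      |pcP (s4rNu x) e (R ^ (1 / 2 : ℝ)) - Real.pi * ρ| ≤ 6 * (R ^ (1 / 2 : ℝ)) ^ (-ξ) + 2 * Real.pi * ρ / R ^ (1 / 2 : ℝ) := by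
    intro e h1 h2
    obtain ⟨b1, b2⟩ := hfl e h1 h2
    obtain ⟨g1, -, -⟩ := hg _ b1
    have := s4r_fill_good hρ hu1 b2 g1.1 g1.2
    refine ⟨this.1, le_trans this.2 (le_of_eq (by ring))⟩
  have hT : ∀ e : ℝ, -R ≤ e → e ≤ R → Integrable (pcK (R ^ (3 / 4 : ℝ)) e) (s4rNu x) ∧
      pcP (s4rNu x) e (R ^ (3 / 4 : ℝ)) ≤ 3 * (Real.pi * ρ + 2) := by
    intro e h1 h2
    obtain ⟨b1, b2⟩ := hfl e h1 h2
    obtain ⟨-, g2, -⟩ := hg _ b1
    have := s4r_fill_good hρ ht1 b2 g2.1 g2.2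
    refine ⟨this.1, ?_⟩
    have c1 : (R ^ (3 / 4 : ℝ)) ^ (-ξ) ≤ 1 := Real.rpow_le_one_of_one_le_of_nonpos ht1 (by linarith)
    have c2 : 2 * Real.pi * ρ / R ^ (3 / 4 : ℝ) ≤ 2 * Real.pi * ρ := div_le_self (by linarith) ht1
    have c3 := (abs_le.1 this.2).2
    linarith
  have h0 : Integrable (pcK (2 * R) 0) (s4rNu x) ∧ pcP (s4rNu x) 0 (2 * R) ≤ 3 * (Real.pi * ρ + 2) := by
    obtain ⟨-, -, g3⟩ := hg 0 (by simp only [Int.cast_zero, abs_zero]; linarith)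
    rw [Int.cast_zero] at g3
    refine ⟨g3.1, ?_⟩
    have c1 : (2 * R) ^ (-ξ) ≤ 1 := Real.rpow_le_one_of_one_le_of_nonpos (by linarith) (by linarith)
    have c3 := (abs_le.1 g3.2).2
    linarith
  constructor
  · refine lt_of_le_of_lt (measure_mono ?_) (pc_fin (by linarith : 0 < 2 * R) h0.1)
    exact Set.Icc_subset_Icc (by linarith) (by linarith)
  · exact pc_count (by linarith) (by linarith) hR0 hv hvw hw
      (fun e he => (hU e (by linarith [he.1]) (by linarith [he.2])).1)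
      (hT v hv (by linarith)).1 (hT w (by linarith) hw).1 h0.1
      (fun e he => (hU e (by linarith [he.1]) (by linarith [he.2])).2)
      (hT v hv (by linarith)).2 (hT w (by linarith) hw).2 h0.2

/-- (proved) arithmetic of exponents: each of `R·R^{-ξ/2}`, `R^{1/2}`, `R^{3/4}` is `≤ R^{1-χ}`, `χ = min (1/8) (ξ/2)`, `R ≥ 1`; divide by `π`. -/
theorem s4r_grid_cnt {ρ ξ : ℝ} (hρ : 0 < ρ) (hξ : 0 < ξ) :
    ∃ C : ℝ, 0 ≤ C ∧ ∀ R : ℝ, 1 ≤ R → ∀ x : Conf, S4rGrid ρ ξ R x → S4rCnt ρ (min (1 / 8) (ξ / 2)) C R x := by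
  have hpi := Real.pi_pos
  have hq : 0 < Real.pi * ρ := mul_pos hpi hρ
  refine ⟨(12 + 4 * (Real.pi * ρ) + 3 * (Real.pi * ρ + 2) * (4 * Real.pi + 16)) / Real.pi, by positivity, fun R hR x hg v w hv hvw hw => ?_⟩
  obtain ⟨hfin, hb⟩ := s4r_grid_cnt_raw hρ hξ hR hg v w hv hvw hw
  refine ⟨hfin, ?_⟩
  have hR0 : 0 < R := by linarith
  have hχ1 : min (1 / 8 : ℝ) (ξ / 2) ≤ 1 / 8 := min_le_left _ _
  have hχ2 : min (1 / 8 : ℝ) (ξ / 2) ≤ ξ / 2 := min_le_right _ _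
  set Y := R ^ (1 - min (1 / 8 : ℝ) (ξ / 2)) with hY
  have hY0 : 0 < Y := Real.rpow_pos_of_pos hR0 _
  have y1 : R ^ (1 / 2 : ℝ) ≤ Y := Real.rpow_le_rpow_of_exponent_le hR (by linarith)
  have y2 : R ^ (3 / 4 : ℝ) ≤ Y := Real.rpow_le_rpow_of_exponent_le hR (by linarith)
  have y3 : (R ^ (1 / 2 : ℝ)) ^ (-ξ) * R ≤ Y := by
    rw [← Real.rpow_mul hR0.le]
    nth_rewrite 2 [← Real.rpow_one R]
    rw [← Real.rpow_add hR0]
    exact Real.rpow_le_rpow_of_exponent_le hR (by linarith)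
  have y4 : R / R ^ (1 / 2 : ℝ) = R ^ (1 / 2 : ℝ) := by
    nth_rewrite 1 [← Real.rpow_one R]
    rw [← Real.rpow_sub hR0]; norm_num
  have y5 : R * R ^ (1 / 2 : ℝ) / R ^ (3 / 4 : ℝ) = R ^ (3 / 4 : ℝ) := by
    nth_rewrite 1 [← Real.rpow_one R]
    rw [← Real.rpow_add hR0, ← Real.rpow_sub hR0]; norm_num
  have hwv0 : 0 ≤ w - v := by linarith
  have hwv : w - v ≤ 2 * R := by linarith
  have hτ0 : 0 < (R ^ (1 / 2 : ℝ)) ^ (-ξ) := Real.rpow_pos_of_pos (Real.rpow_pos_of_pos hR0 _) _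
  have hs0 : 0 < R ^ (1 / 2 : ℝ) := Real.rpow_pos_of_pos hR0 _
  have t1 : (6 * (R ^ (1 / 2 : ℝ)) ^ (-ξ) + 2 * Real.pi * ρ / R ^ (1 / 2 : ℝ)) * (w - v) ≤ (12 + 4 * (Real.pi * ρ)) * Y := by
    calc (6 * (R ^ (1 / 2 : ℝ)) ^ (-ξ) + 2 * Real.pi * ρ / R ^ (1 / 2 : ℝ)) * (w - v)
        ≤ (6 * (R ^ (1 / 2 : ℝ)) ^ (-ξ) + 2 * Real.pi * ρ / R ^ (1 / 2 : ℝ)) * (2 * R) :=
          mul_le_mul_of_nonneg_left hwv (by positivity)
      _ = 12 * ((R ^ (1 / 2 : ℝ)) ^ (-ξ) * R) + 4 * (Real.pi * ρ) * (R / R ^ (1 / 2 : ℝ)) := by ring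
      _ ≤ 12 * Y + 4 * (Real.pi * ρ) * Y := by
          rw [y4]
          exact add_le_add (mul_le_mul_of_nonneg_left y3 (by norm_num)) (mul_le_mul_of_nonneg_left y1 (by positivity))
      _ = _ := by ring
  have t2 : 4 * Real.pi * R ^ (3 / 4 : ℝ) + 8 * R * R ^ (1 / 2 : ℝ) / R ^ (3 / 4 : ℝ) + 8 * R ^ (1 / 2 : ℝ) ≤ (4 * Real.pi + 16) * Y := by
    have e1 : 8 * R * R ^ (1 / 2 : ℝ) / R ^ (3 / 4 : ℝ) = 8 * (R * R ^ (1 / 2 : ℝ) / R ^ (3 / 4 : ℝ)) := by ring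
    rw [e1, y5]
    have := mul_le_mul_of_nonneg_left y2 (by positivity : 0 ≤ 4 * Real.pi)
    nlinarith
  have t3 := mul_le_mul_of_nonneg_left t2 (by positivity : 0 ≤ 3 * (Real.pi * ρ + 2))
  have e2 : Real.pi * (s4rNu x).real (Set.Icc v w) - Real.pi * ρ * (w - v) = Real.pi * ((s4rNu x).real (Set.Icc v w) - ρ * (w - v)) := by ring
  rw [e2, abs_mul, abs_of_pos hpi] at hb
  rw [div_mul_eq_mul_div, le_div_iff₀ hpi]
  nlinarith

/-! ## G. union bounds -/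

/-- **M1 as a hypothesis on a law `μ`** (so that sections F-I can be cited for any ensemble) -/
def S4rM1 (ρ ξ D C y0 : ℝ) (μ : Measure Conf) : Prop :=
  ∀ e u : ℝ, y0 ≤ u → μ {x | ¬ S4rGood ρ (2 * u ^ (-ξ)) e u x} ≤ ENNReal.ofReal (2 * C * u ^ (-D))

theorem s4r_eqns_cite2 : True := by
  have := @S4rM1.eq_1
  trivial

/-- (proved) the grid: `≤ 2R + 3` integers, three heights `≥ √R`, `s4r_M1` with the exponent `2D + 2`: `3 (2R+3) · 2C R^{-D-1} ≤ 30 C R^{-D}`.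
(`measure_biUnion_finset_le` over `Finset.Icc ⌈-(R+1)⌉ ⌊R+1⌋`.) -/
theorem s4r_grid_prob {ρ ξ D C y0 : ℝ} (hD : 0 < D) (hC : 0 ≤ C) (hy0 : 1 ≤ y0) {μ : Measure Conf}
    (h1 : S4rM1 ρ ξ (2 * D + 2) C y0 μ) (R : ℝ) (hR : y0 ^ 2 ≤ R) :
    μ {x | ¬ S4rGrid ρ ξ R x} ≤ ENNReal.ofReal (30 * C * R ^ (-D)) := by
  have hR1 : 1 ≤ R := le_trans (one_le_pow₀ hy0) hR
  have hR0 : 0 < R := by linarith
  have hs : y0 ≤ R ^ (1 / 2 : ℝ) := by
    have : y0 = (y0 ^ 2) ^ (1 / 2 : ℝ) := by rw [← Real.sqrt_eq_rpow, Real.sqrt_sq (by linarith)]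
    rw [this]; exact Real.rpow_le_rpow (by positivity) hR (by norm_num)
  have hs0 : 0 < R ^ (1 / 2 : ℝ) := Real.rpow_pos_of_pos hR0 _
  have h34 : R ^ (1 / 2 : ℝ) ≤ R ^ (3 / 4 : ℝ) := Real.rpow_le_rpow_of_exponent_le hR1 (by norm_num)
  have h2R : R ^ (1 / 2 : ℝ) ≤ 2 * R := by
    have : R ^ (1 / 2 : ℝ) ≤ R ^ (1 : ℝ) := Real.rpow_le_rpow_of_exponent_le hR1 (by norm_num)
    rw [Real.rpow_one] at this; linarith
  have hc0 : 0 ≤ 2 * C * R ^ (-(D + 1)) := mul_nonneg (by positivity) (Real.rpow_nonneg hR0.le _)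
  have hone : ∀ e u : ℝ, R ^ (1 / 2 : ℝ) ≤ u →
      μ {x | ¬ S4rGood (ρ) (2 * u ^ (-ξ)) e u x} ≤ ENNReal.ofReal (2 * C * R ^ (-(D + 1))) := by
    intro e u hu
    refine le_trans (h1 e u (le_trans hs hu)) (ENNReal.ofReal_le_ofReal ?_)
    refine mul_le_mul_of_nonneg_left ?_ (by positivity)
    calc u ^ (-(2 * D + 2)) ≤ (R ^ (1 / 2 : ℝ)) ^ (-(2 * D + 2)) := Real.rpow_le_rpow_of_nonpos hs0 hu (by linarith)
      _ = R ^ (-(D + 1)) := by rw [← Real.rpow_mul hR0.le]; congr 1; ring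
  have hM0 : 0 ≤ ⌊R + 1⌋ := Int.floor_nonneg.2 (by linarith)
  have hsub : {x | ¬ S4rGrid (ρ) ξ R x} ⊆ ⋃ m ∈ Finset.Icc (-⌊R + 1⌋) ⌊R + 1⌋,
      ({x | ¬ S4rGood (ρ) (2 * (R ^ (1 / 2 : ℝ)) ^ (-ξ)) ((m : ℤ) : ℝ) (R ^ (1 / 2 : ℝ)) x} ∪
       {x | ¬ S4rGood (ρ) (2 * (R ^ (3 / 4 : ℝ)) ^ (-ξ)) ((m : ℤ) : ℝ) (R ^ (3 / 4 : ℝ)) x} ∪
       {x | ¬ S4rGood (ρ) (2 * (2 * R) ^ (-ξ)) ((m : ℤ) : ℝ) (2 * R) x}) := by
    intro x hx
    have hx' : ¬ S4rGrid (ρ) ξ R x := hx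
    unfold S4rGrid at hx'
    rw [not_forall] at hx'
    obtain ⟨m, hm⟩ := hx'
    rw [Classical.not_imp] at hm
    obtain ⟨hm, hx2⟩ := hm
    obtain ⟨m1, m2⟩ := abs_le.1 hm
    refine Set.mem_iUnion₂.2 ⟨m, Finset.mem_Icc.2 ⟨?_, Int.le_floor.2 m2⟩, ?_⟩
    · rw [neg_le]
      refine Int.le_floor.2 ?_
      push_cast
      linarith
    · by_contra hc
      rw [Set.mem_union, Set.mem_union, not_or, not_or] at hc
      exact hx2 ⟨not_not.1 hc.1.1, not_not.1 hc.1.2, not_not.1 hc.2⟩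
  have hcard : ((Finset.Icc (-⌊R + 1⌋) ⌊R + 1⌋).card : ℝ) ≤ 2 * R + 3 := by
    rw [Int.card_Icc]
    have e1 : (((⌊R + 1⌋ + 1 - -⌊R + 1⌋).toNat : ℕ) : ℝ) = (((⌊R + 1⌋ + 1 - -⌊R + 1⌋).toNat : ℤ) : ℝ) := by
      rw [Int.cast_natCast]
    rw [e1, Int.toNat_of_nonneg (by omega)]
    push_cast
    have := Int.floor_le (R + 1)
    linarith
  calc μ {x | ¬ S4rGrid (ρ) ξ R x}
      ≤ _ := measure_mono hsub
    _ ≤ ∑ m ∈ Finset.Icc (-⌊R + 1⌋) ⌊R + 1⌋, _ := measure_biUnion_finset_le _ _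
    _ ≤ ∑ _m ∈ Finset.Icc (-⌊R + 1⌋) ⌊R + 1⌋, ENNReal.ofReal (3 * (2 * C * R ^ (-(D + 1)))) := by
        refine Finset.sum_le_sum fun m _ => ?_
        refine le_trans (measure_union_le _ _) (le_trans (add_le_add (measure_union_le _ _) le_rfl) ?_)
        refine le_trans (add_le_add (add_le_add (hone m _ le_rfl) (hone m _ h34)) (hone m _ h2R)) (le_of_eq ?_)
        rw [← ENNReal.ofReal_add hc0 hc0, ← ENNReal.ofReal_add (by positivity) hc0]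
        congr 1; ring
    _ = ENNReal.ofReal ((Finset.Icc (-⌊R + 1⌋) ⌊R + 1⌋).card * (3 * (2 * C * R ^ (-(D + 1))))) := by
        rw [Finset.sum_const, nsmul_eq_mul, ENNReal.ofReal_mul (Nat.cast_nonneg _), ENNReal.ofReal_natCast]
    _ ≤ ENNReal.ofReal (30 * C * R ^ (-D)) := by
        refine ENNReal.ofReal_le_ofReal ?_
        have e2 : R ^ (-D) = R * R ^ (-(D + 1)) := by
          nth_rewrite 2 [← Real.rpow_one R]
          rw [← Real.rpow_add hR0]; congr 1; ring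
        rw [e2]
        have h5 : ((Finset.Icc (-⌊R + 1⌋) ⌊R + 1⌋).card : ℝ) ≤ 5 * R := by linarith
        have := mul_le_mul_of_nonneg_right h5 (by positivity : 0 ≤ 3 * (2 * C * R ^ (-(D + 1))))
        linarith

/-- (proved) dyadic scales: `∑_{m : T ≤ 2^m} (2^m)^{-D} ≤ 2 T^{-D}` for `D ≥ 1` (geometric series from the first such `m`); `measure_iUnion_le`, `ENNReal.ofReal_tsum_of_nonneg`. -/
theorem s4r_dyadic {μ : Measure Conf} {A : ℝ → Set Conf} {C D T0 : ℝ} (hC : 0 ≤ C) (hD : 1 ≤ D)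
    (h : ∀ R : ℝ, T0 ≤ R → μ (A R) ≤ ENNReal.ofReal (C * R ^ (-D))) (T : ℝ) (hT : T0 ≤ T) (hT1 : 0 < T) :
    μ {x | ∃ m : ℕ, T ≤ (2 : ℝ) ^ m ∧ x ∈ A ((2 : ℝ) ^ m)} ≤ ENNReal.ofReal (2 * C * T ^ (-D)) := by
  classical
  have hex : ∃ m : ℕ, T ≤ (2 : ℝ) ^ m := by
    obtain ⟨m, hm⟩ := pow_unbounded_of_one_lt T (by norm_num : (1 : ℝ) < 2)
    exact ⟨m, hm.le⟩
  set m0 := Nat.find hex with hm0
  have hm0T : T ≤ (2 : ℝ) ^ m0 := Nat.find_spec hex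
  have hsub : {x | ∃ m : ℕ, T ≤ (2 : ℝ) ^ m ∧ x ∈ A ((2 : ℝ) ^ m)} ⊆ ⋃ k : ℕ, A ((2 : ℝ) ^ (m0 + k)) := by
    rintro x ⟨m, hm, hx⟩
    have : m0 ≤ m := Nat.find_min' hex hm
    refine Set.mem_iUnion.2 ⟨m - m0, ?_⟩
    rwa [Nat.add_sub_cancel' this]
  have hterm : ∀ k : ℕ, μ (A ((2 : ℝ) ^ (m0 + k))) ≤ ENNReal.ofReal (C * T ^ (-D) * (1 / 2) ^ k) := by
    intro k
    have h1 : T ≤ (2 : ℝ) ^ (m0 + k) := le_trans hm0T (pow_le_pow_right₀ (by norm_num) (Nat.le_add_right _ _))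
    refine le_trans (h _ (le_trans hT h1)) (ENNReal.ofReal_le_ofReal ?_)
    rw [mul_assoc]
    refine mul_le_mul_of_nonneg_left ?_ hC
    rw [pow_add, Real.mul_rpow (by positivity) (by positivity)]
    refine mul_le_mul (Real.rpow_le_rpow_of_nonpos hT1 hm0T (by linarith)) ?_ (Real.rpow_nonneg (by positivity) _)
      (Real.rpow_nonneg hT1.le _)
    have h2 : ((2 : ℝ) ^ k) ^ (-D) ≤ ((2 : ℝ) ^ k) ^ (-(1 : ℝ)) :=
      Real.rpow_le_rpow_of_exponent_le (one_le_pow₀ (by norm_num)) (by linarith)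
    refine le_trans h2 (le_of_eq ?_)
    rw [Real.rpow_neg_one, one_div, inv_pow]
  have hc0 : 0 ≤ C * T ^ (-D) := mul_nonneg hC (Real.rpow_nonneg hT1.le _)
  have hsum : Summable fun k : ℕ => C * T ^ (-D) * (1 / 2 : ℝ) ^ k := summable_geometric_two.mul_left _
  calc μ {x | ∃ m : ℕ, T ≤ (2 : ℝ) ^ m ∧ x ∈ A ((2 : ℝ) ^ m)}
      ≤ μ (⋃ k : ℕ, A ((2 : ℝ) ^ (m0 + k))) := measure_mono hsub
    _ ≤ ∑' k : ℕ, μ (A ((2 : ℝ) ^ (m0 + k))) := measure_iUnion_le _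
    _ ≤ ∑' k : ℕ, ENNReal.ofReal (C * T ^ (-D) * (1 / 2) ^ k) := ENNReal.tsum_le_tsum hterm
    _ = ENNReal.ofReal (∑' k : ℕ, C * T ^ (-D) * (1 / 2 : ℝ) ^ k) :=
        (ENNReal.ofReal_tsum_of_nonneg (fun k => mul_nonneg hc0 (by positivity)) hsum).symm
    _ = ENNReal.ofReal (2 * C * T ^ (-D)) := by
        rw [tsum_mul_left, tsum_geometric_two]; congr 1; ring

/-! ## H. counts ⟹ labels (deterministic) -/

theorem s4r_nu_apply (x : Conf) {S : Set ℝ} (hS : MeasurableSet S) :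
    s4rNu x S = ∑' j : ℤ, S.indicator (fun _ => (1 : ENNReal)) (x j) := by
  unfold s4rNu
  rw [Measure.sum_apply _ hS]
  exact tsum_congr fun j => Measure.dirac_apply' _ hS

/-- (proved) lower count: a finite set of labels inside `S` -/
theorem s4r_card_le (x : Conf) {S : Set ℝ} (hS : MeasurableSet S) (hfin : s4rNu x S < ⊤) (F : Finset ℤ) (hF : ∀ j ∈ F, x j ∈ S) :
    (F.card : ℝ) ≤ (s4rNu x).real S := by
  have h1 : (F.card : ENNReal) ≤ s4rNu x S := by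
    rw [s4r_nu_apply x hS]
    refine le_trans (le_of_eq ?_) (ENNReal.sum_le_tsum F)
    rw [Finset.sum_congr rfl fun j hj => Set.indicator_of_mem (hF j hj) _]
    simp
  have h2 := ENNReal.toReal_mono hfin.ne h1
  rwa [ENNReal.toReal_natCast] at h2

/-- (proved) upper count: all the labels inside `S` are in a finite set -/
theorem s4r_le_card (x : Conf) {S : Set ℝ} (hS : MeasurableSet S) (F : Finset ℤ) (hF : ∀ j, x j ∈ S → j ∈ F) :
    (s4rNu x).real S ≤ (F.card : ℝ) := by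
  have h1 : s4rNu x S ≤ (F.card : ENNReal) := by
    rw [s4r_nu_apply x hS, tsum_eq_sum (s := F) fun j hj => Set.indicator_of_notMem (fun h => hj (hF j h)) _]
    refine le_trans (Finset.sum_le_sum fun j _ => Set.indicator_le_self' (fun _ _ => zero_le) _) ?_
    simp
  have h2 := ENNReal.toReal_mono (ENNReal.natCast_ne_top _) h1
  rwa [ENNReal.toReal_natCast] at h2

theorem s4r_refl_nu (x : Conf) (v w : ℝ) :
    s4rNu (fun j => -x (-1 - j)) (Set.Icc v w) = s4rNu x (Set.Icc (-w) (-v)) := by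
  rw [s4r_nu_apply _ measurableSet_Icc, s4r_nu_apply _ measurableSet_Icc,
    ← (Equiv.subLeft (-1 : ℤ)).tsum_eq fun j => (Set.Icc (-w) (-v)).indicator (fun _ => (1 : ENNReal)) (x j)]
  refine tsum_congr fun j => ?_
  simp only [Equiv.subLeft_apply, Set.indicator, Set.mem_Icc]
  have : (v ≤ -x (-1 - j) ∧ -x (-1 - j) ≤ w) ↔ (-w ≤ x (-1 - j) ∧ x (-1 - j) ≤ -v) := by
    constructor <;> rintro ⟨h1, h2⟩ <;> constructor <;> linarith
  simp only [this]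

/-- (proved) the reflected configuration `j ↦ - x (-1-j)` has the reflected counts -/
theorem s4r_refl_cnt {ρ χ C R : ℝ} {x : Conf} (h : S4rCnt ρ χ C R x) : S4rCnt ρ χ C R fun j => -x (-1 - j) := by
  intro v w hv hvw hw
  have h1 := h (-w) (-v) (by linarith) (by linarith) (by linarith)
  unfold Measure.real
  rw [s4r_refl_nu]
  refine ⟨h1.1, ?_⟩
  have h2 := h1.2
  unfold Measure.real at h2
  have e : -v - -w = w - v := by ring
  rwa [e] at h2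

/-- (proved) a dyadic scale in `[T, 2T)` -/
theorem s4r_dy_exists {T : ℝ} (hT : 1 ≤ T) : ∃ m : ℕ, T ≤ (2 : ℝ) ^ m ∧ (2 : ℝ) ^ m ≤ 2 * T := by
  classical
  have hex : ∃ m : ℕ, T ≤ (2 : ℝ) ^ m := by
    obtain ⟨m, hm⟩ := pow_unbounded_of_one_lt T (by norm_num : (1 : ℝ) < 2)
    exact ⟨m, hm.le⟩
  refine ⟨Nat.find hex, Nat.find_spec hex, ?_⟩
  rcases Nat.eq_zero_or_pos (Nat.find hex) with h0 | h0
  · rw [h0, pow_zero]; linarith
  · have h1 := Nat.find_min hex (m := Nat.find hex - 1) (by omega)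
    rw [not_le] at h1
    have h2 : (2 : ℝ) ^ (Nat.find hex) = 2 * (2 : ℝ) ^ (Nat.find hex - 1) := by
      rw [← pow_succ']; congr 1; omega
    rw [h2]; linarith

/-- (proved) upper bound of a nonnegative label.      `k = j + 1`; `w = k/ρ + C0 k^{1-χ}`; if `w < x_j`: `{i | x_i ∈ [0,w]} ⊆ {0..j-1} ∪ {i | x_i = 0}`, so `N[0,w] ≤ j + N[0,0]`; scale `R ∈ [w, 2w]`: `ρ w - C R^{1-χ} ≤ j + C R^{1-χ}`;
`R ≤ 2w ≤ 4 C0 k` (if `C0 ≥ 1/ρ`): `ρ C0 k^{1-χ} ≤ 2 C (4 C0 k)^{1-χ} ≤ 8 C C0^{1-χ} k^{1-χ}`: false when `C0^χ > 8C/ρ`. -/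
theorem s4r_lab_up {ρ χ C : ℝ} (hρ : 0 < ρ) (hχ0 : 0 < χ) (hχ1 : χ < 1) (hC : 0 ≤ C) :
    ∃ C0 : ℝ, 0 ≤ C0 ∧ ∀ (x : Conf), Monotone x → x (-1) ≤ 0 → 0 ≤ x 0 → ∀ k : ℕ, 1 ≤ k →
      (∀ m : ℕ, (k : ℝ) / ρ ≤ (2 : ℝ) ^ m → S4rCnt ρ χ C ((2 : ℝ) ^ m) x) → 1 ≤ (k : ℝ) / ρ →
      x ((k : ℤ) - 1) ≤ k / ρ + C0 * (k : ℝ) ^ (1 - χ) := by
  have hB0 : 0 ≤ 8 * C / ρ := by positivity
  have hC0a : 1 / ρ ≤ max (1 / ρ) ((8 * C / ρ) ^ (1 / χ)) := le_max_left _ _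
  have hC0b : (8 * C / ρ) ^ (1 / χ) ≤ max (1 / ρ) ((8 * C / ρ) ^ (1 / χ)) := le_max_right _ _
  have hC0p : 0 < max (1 / ρ) ((8 * C / ρ) ^ (1 / χ)) := lt_of_lt_of_le (by positivity) hC0a
  generalize max (1 / ρ) ((8 * C / ρ) ^ (1 / χ)) = C0 at hC0a hC0b hC0p
  refine ⟨C0, hC0p.le, fun x hm hm1 _ k hk hcnt hk1 => ?_⟩
  by_contra hcon
  rw [not_le] at hcon
  have hk0 : (0 : ℝ) < k := by exact_mod_cast hk
  have hk1' : (1 : ℝ) ≤ k := by exact_mod_cast hk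
  have hka : 0 < (k : ℝ) ^ (1 - χ) := Real.rpow_pos_of_pos hk0 _
  set w := (k : ℝ) / ρ + C0 * (k : ℝ) ^ (1 - χ) with hw
  have hwk : (k : ℝ) / ρ ≤ w := by
    have : 0 ≤ C0 * (k : ℝ) ^ (1 - χ) := by positivity
    linarith
  have hw1 : 1 ≤ w := le_trans hk1 hwk
  obtain ⟨m, hm2, hm3⟩ := s4r_dy_exists hw1
  have hR0 : (0 : ℝ) < 2 ^ m := by positivity
  have hc := hcnt m (le_trans hwk hm2)
  obtain ⟨hfin, hb⟩ := hc 0 w (by linarith) (by linarith) hm2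
  obtain ⟨hfin0, hb0⟩ := hc 0 0 (by linarith) le_rfl (by linarith)
  -- the labels in `(0, w]`
  have hcard := s4r_le_card x (S := Set.Ioc 0 w) measurableSet_Ioc (Finset.Ico (0 : ℤ) ((k : ℤ) - 1)) fun j hj => by
    rw [Finset.mem_Ico]
    constructor
    · by_contra hj0
      have : x j ≤ x (-1) := hm (by omega)
      linarith [hj.1]
    · by_contra hjk
      have : x ((k : ℤ) - 1) ≤ x j := hm (by omega)
      linarith [hj.2]
  have hcardv : ((Finset.Ico (0 : ℤ) ((k : ℤ) - 1)).card : ℝ) = (k : ℝ) - 1 := by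
    rw [Int.card_Ico, sub_zero]
    have e1 : ((((k : ℤ) - 1).toNat : ℕ) : ℝ) = ((((k : ℤ) - 1).toNat : ℤ) : ℝ) := by rw [Int.cast_natCast]
    rw [e1, Int.toNat_of_nonneg (by omega)]
    push_cast; ring
  rw [hcardv] at hcard
  have hun : (s4rNu x).real (Set.Icc 0 w) ≤ (s4rNu x).real (Set.Icc 0 0) + (s4rNu x).real (Set.Ioc 0 w) := by
    have hsub : Set.Icc (0 : ℝ) w ⊆ Set.Icc 0 0 ∪ Set.Ioc 0 w := by
      intro t ht
      rcases ht.1.eq_or_lt with h | h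
      · left; rw [← h]; exact ⟨le_rfl, le_rfl⟩
      · right; exact ⟨h, ht.2⟩
    have hfin2 : s4rNu x (Set.Ioc 0 w) ≠ ⊤ := (lt_of_le_of_lt (measure_mono Set.Ioc_subset_Icc_self) hfin).ne
    refine le_trans (measureReal_mono hsub ?_) (measureReal_union_le _ _)
    exact (lt_of_le_of_lt (measure_union_le _ _) (ENNReal.add_lt_top.2 ⟨hfin0, hfin2.lt_top⟩)).ne
  have h3 := (abs_le.1 hb).1
  have h4 := (abs_le.1 hb0).2
  rw [sub_zero] at h3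
  rw [sub_self, mul_zero, sub_zero] at h4
  -- `ρ C0 k^a < 2 C R^a`
  have h5 : ρ * w = k + ρ * C0 * (k : ℝ) ^ (1 - χ) := by
    rw [hw]; field_simp
  have h6 : ρ * C0 * (k : ℝ) ^ (1 - χ) < 2 * (C * ((2 : ℝ) ^ m) ^ (1 - χ)) := by linarith
  -- `R ≤ 4 C0 k`
  have hkk : (k : ℝ) ^ (1 - χ) ≤ k := by
    have := Real.rpow_le_rpow_of_exponent_le hk1' (by linarith : 1 - χ ≤ 1)
    rwa [Real.rpow_one] at this
  have h7 : (2 : ℝ) ^ m ≤ 4 * (C0 * k) := by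
    have a1 : (k : ℝ) / ρ ≤ C0 * k := by
      rw [div_eq_mul_one_div, mul_comm]; exact mul_le_mul_of_nonneg_right hC0a hk0.le
    have a2 : C0 * (k : ℝ) ^ (1 - χ) ≤ C0 * k := mul_le_mul_of_nonneg_left hkk hC0p.le
    linarith
  have h8 : ((2 : ℝ) ^ m) ^ (1 - χ) ≤ 4 * (C0 ^ (1 - χ) * (k : ℝ) ^ (1 - χ)) := by
    calc ((2 : ℝ) ^ m) ^ (1 - χ) ≤ (4 * (C0 * k)) ^ (1 - χ) := Real.rpow_le_rpow hR0.le h7 (by linarith)
      _ = (4 : ℝ) ^ (1 - χ) * (C0 ^ (1 - χ) * (k : ℝ) ^ (1 - χ)) := by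
          rw [Real.mul_rpow (by norm_num) (by positivity), Real.mul_rpow hC0p.le hk0.le]
      _ ≤ 4 * (C0 ^ (1 - χ) * (k : ℝ) ^ (1 - χ)) := by
          refine mul_le_mul_of_nonneg_right ?_ (by positivity)
          have := Real.rpow_le_rpow_of_exponent_le (by norm_num : (1 : ℝ) ≤ 4) (by linarith : 1 - χ ≤ 1)
          rwa [Real.rpow_one] at this
  have h9 : ρ * C0 * (k : ℝ) ^ (1 - χ) < 8 * C * C0 ^ (1 - χ) * (k : ℝ) ^ (1 - χ) := by
    have := mul_le_mul_of_nonneg_left h8 hC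
    linarith
  have h10 : ρ * C0 < 8 * C * C0 ^ (1 - χ) := lt_of_mul_lt_mul_right h9 hka.le
  have h11 : C0 = C0 ^ (1 - χ) * C0 ^ χ := by
    rw [← Real.rpow_add hC0p]; simp
  have h12 : 8 * C / ρ ≤ C0 ^ χ := by
    have := Real.rpow_le_rpow (by positivity) hC0b hχ0.le
    rwa [← Real.rpow_mul hB0, one_div_mul_cancel hχ0.ne', Real.rpow_one] at this
  have h13 : 0 < C0 ^ (1 - χ) := Real.rpow_pos_of_pos hC0p _
  have h14 : 8 * C ≤ ρ * C0 ^ χ := by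
    rw [div_le_iff₀ hρ] at h12; linarith
  have h15 := mul_le_mul_of_nonneg_right h14 h13.le
  have h16 : ρ * C0 = ρ * C0 ^ χ * C0 ^ (1 - χ) := by
    conv_lhs => rw [h11]
    ring
  linarith

/-- (proved) lower bound of a nonnegative label.      `w = k/ρ - C0 k^{1-χ}`; trivial if `w < 0`; if `x_{k-1} < w`: the labels `0..k-1` are in `[0,w]`: `k ≤ N[0,w] ≤ ρ w + C R^{1-χ}`, `R ∈ [k/ρ, 2k/ρ]`: false when `ρ C0 > C (2/ρ)^{1-χ}`. -/
theorem s4r_lab_low {ρ χ C : ℝ} (hρ : 0 < ρ) (hχ0 : 0 < χ) (hχ1 : χ < 1) (hC : 0 ≤ C) :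
    ∃ C0 : ℝ, 0 ≤ C0 ∧ ∀ (x : Conf), Monotone x → x (-1) ≤ 0 → 0 ≤ x 0 → ∀ k : ℕ, 1 ≤ k →
      (∀ m : ℕ, (k : ℝ) / ρ ≤ (2 : ℝ) ^ m → S4rCnt ρ χ C ((2 : ℝ) ^ m) x) → 1 ≤ (k : ℝ) / ρ →
      k / ρ - C0 * (k : ℝ) ^ (1 - χ) ≤ x ((k : ℤ) - 1) := by
  have hc : 0 ≤ C * (2 / ρ) ^ (1 - χ) / ρ := by positivity
  refine ⟨C * (2 / ρ) ^ (1 - χ) / ρ + 1, by linarith, fun x hm _ h0 k hk hcnt hk1 => ?_⟩
  by_contra hcon
  rw [not_le] at hcon
  have hk0 : (0 : ℝ) < k := by exact_mod_cast hk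
  have hka : 0 < (k : ℝ) ^ (1 - χ) := Real.rpow_pos_of_pos hk0 _
  set w := (k : ℝ) / ρ - (C * (2 / ρ) ^ (1 - χ) / ρ + 1) * (k : ℝ) ^ (1 - χ) with hw
  have hx0 : 0 ≤ x ((k : ℤ) - 1) := le_trans h0 (hm (by omega))
  have hw0 : 0 ≤ w := by linarith
  have hwk : w ≤ (k : ℝ) / ρ := by
    have : 0 ≤ (C * (2 / ρ) ^ (1 - χ) / ρ + 1) * (k : ℝ) ^ (1 - χ) := by positivity
    linarith
  obtain ⟨m, hm1, hm2⟩ := s4r_dy_exists hk1
  have hR0 : (0 : ℝ) < 2 ^ m := by positivity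
  obtain ⟨hfin, hb⟩ := hcnt m hm1 0 w (by linarith) hw0 (le_trans hwk hm1)
  have hcard := s4r_card_le x measurableSet_Icc hfin (Finset.Ico (0 : ℤ) k) fun j hj => by
    rw [Finset.mem_Ico] at hj
    exact ⟨le_trans h0 (hm hj.1), le_trans (hm (by omega)) hcon.le⟩
  rw [Int.card_Ico, sub_zero, Int.toNat_natCast] at hcard
  have h3 := (abs_le.1 hb).2
  have h4 : ((2 : ℝ) ^ m) ^ (1 - χ) ≤ (2 / ρ) ^ (1 - χ) * (k : ℝ) ^ (1 - χ) := by
    rw [← Real.mul_rpow (by positivity) hk0.le]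
    refine Real.rpow_le_rpow (by positivity) (le_trans hm2 (le_of_eq (by ring))) (by linarith)
  have h5 := mul_le_mul_of_nonneg_left h4 hC
  have h6 : ρ * w = k - (C * (2 / ρ) ^ (1 - χ) + ρ) * (k : ℝ) ^ (1 - χ) := by
    rw [hw]; field_simp
  have h7 : 0 < ρ * (k : ℝ) ^ (1 - χ) := by positivity
  rw [sub_zero] at h3
  nlinarith

/-- (proved) both signs.      `j ≥ J0`: `k = j + 1` in `s4r_lab_up/low`, `|x_j - j/ρ| ≤ C0 (j+1)^{1-χ} + 1/ρ ≤ (2 C0 + 1/ρ) j^{1-χ}`;   `j ≤ -J0`: the reflected configuration with `k = -j` (`x_j = - x'_{k-1}`; `s4r_refl_cnt`). -/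
theorem s4r_labels {ρ χ C : ℝ} (hρ : 0 < ρ) (hχ0 : 0 < χ) (hχ1 : χ < 1) (hC : 0 ≤ C) :
    ∃ C0 : ℝ, ∀ (x : Conf), Monotone x → x (-1) ≤ 0 → 0 ≤ x 0 → ∀ J0 : ℕ, 1 ≤ J0 → 1 ≤ (J0 : ℝ) / ρ →
      (∀ m : ℕ, (J0 : ℝ) / ρ ≤ (2 : ℝ) ^ m → S4rCnt ρ χ C ((2 : ℝ) ^ m) x) →
      ∀ j : ℤ, (J0 : ℤ) ≤ |j| → |x j - j / ρ| ≤ C0 * |(j : ℝ)| ^ (1 - χ) := by
  obtain ⟨C1, hC1, hup⟩ := s4r_lab_up hρ hχ0 hχ1 hC
  obtain ⟨C2, hC2, hlow⟩ := s4r_lab_low hρ hχ0 hχ1 hC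
  have hCm : 0 ≤ max C1 C2 := le_trans hC1 (le_max_left _ _)
  have hboth : ∀ (x : Conf), Monotone x → x (-1) ≤ 0 → 0 ≤ x 0 → ∀ J0 : ℕ, 1 ≤ J0 → 1 ≤ (J0 : ℝ) / ρ →
      (∀ m : ℕ, (J0 : ℝ) / ρ ≤ (2 : ℝ) ^ m → S4rCnt ρ χ C ((2 : ℝ) ^ m) x) → ∀ k : ℕ, J0 ≤ k →
      |x ((k : ℤ) - 1) - k / ρ| ≤ max C1 C2 * (k : ℝ) ^ (1 - χ) := by
    intro x hm h1 h0 J0 hJ0 hJ1 hcnt k hk
    have hkJ : (J0 : ℝ) / ρ ≤ (k : ℝ) / ρ := div_le_div_of_nonneg_right (by exact_mod_cast hk) hρ.le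
    have hc' : ∀ m : ℕ, (k : ℝ) / ρ ≤ (2 : ℝ) ^ m → S4rCnt ρ χ C ((2 : ℝ) ^ m) x := fun m hm' => hcnt m (le_trans hkJ hm')
    have a1 := hup x hm h1 h0 k (le_trans hJ0 hk) hc' (le_trans hJ1 hkJ)
    have a2 := hlow x hm h1 h0 k (le_trans hJ0 hk) hc' (le_trans hJ1 hkJ)
    have hka : 0 ≤ (k : ℝ) ^ (1 - χ) := Real.rpow_nonneg (Nat.cast_nonneg _) _
    have b1 := mul_le_mul_of_nonneg_right (le_max_left C1 C2) hka
    have b2 := mul_le_mul_of_nonneg_right (le_max_right C1 C2) hka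
    rw [abs_le]; constructor <;> linarith
  refine ⟨2 * max C1 C2 + 1 / ρ, fun x hm h1 h0 J0 hJ0 hJ1 hcnt j hj => ?_⟩
  rcases le_or_gt 0 j with hj0 | hj0
  · rw [abs_of_nonneg hj0] at hj
    obtain ⟨i, rfl⟩ := Int.eq_ofNat_of_zero_le hj0
    have hi : J0 ≤ i := by exact_mod_cast hj
    have h2 := hboth x hm h1 h0 J0 hJ0 hJ1 hcnt (i + 1) (by omega)
    have e1 : (((i + 1 : ℕ) : ℤ) - 1) = (i : ℤ) := by push_cast; ring
    rw [e1] at h2
    have hi1 : (1 : ℝ) ≤ i := by exact_mod_cast le_trans hJ0 hi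
    have hi0 : (0 : ℝ) < i := by linarith
    rw [Int.cast_natCast, abs_of_nonneg hi0.le]
    have h3 : ((i + 1 : ℕ) : ℝ) ^ (1 - χ) ≤ 2 * (i : ℝ) ^ (1 - χ) := by
      calc ((i + 1 : ℕ) : ℝ) ^ (1 - χ) ≤ (2 * (i : ℝ)) ^ (1 - χ) :=
            Real.rpow_le_rpow (by positivity) (by push_cast; linarith) (by linarith)
        _ = (2 : ℝ) ^ (1 - χ) * (i : ℝ) ^ (1 - χ) := Real.mul_rpow (by norm_num) hi0.le
        _ ≤ 2 * (i : ℝ) ^ (1 - χ) := by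
            refine mul_le_mul_of_nonneg_right ?_ (Real.rpow_nonneg hi0.le _)
            have := Real.rpow_le_rpow_of_exponent_le (by norm_num : (1 : ℝ) ≤ 2) (by linarith : 1 - χ ≤ 1)
            rwa [Real.rpow_one] at this
    have h4 : 1 ≤ (i : ℝ) ^ (1 - χ) := Real.one_le_rpow hi1 (by linarith)
    have h5 : |x (i : ℤ) - (i : ℝ) / ρ| ≤ |x (i : ℤ) - ((i + 1 : ℕ) : ℝ) / ρ| + 1 / ρ := by
      have : x (i : ℤ) - (i : ℝ) / ρ = (x (i : ℤ) - ((i + 1 : ℕ) : ℝ) / ρ) + 1 / ρ := by push_cast; ring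
      rw [this]
      refine le_trans (abs_add_le _ _) ?_
      rw [abs_of_pos (by positivity : 0 < 1 / ρ)]
    have h6 := mul_le_mul_of_nonneg_left h3 hCm
    have h7 := mul_le_mul_of_nonneg_left h4 (by positivity : 0 ≤ 1 / ρ)
    calc |x (i : ℤ) - (i : ℝ) / ρ| ≤ max C1 C2 * ((i + 1 : ℕ) : ℝ) ^ (1 - χ) + 1 / ρ := by linarith
      _ ≤ (2 * max C1 C2 + 1 / ρ) * (i : ℝ) ^ (1 - χ) := by nlinarith
  · rw [abs_of_neg hj0] at hj
    obtain ⟨k, rfl⟩ : ∃ k : ℕ, j = -(k : ℤ) := ⟨(-j).toNat, by omega⟩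
    have hkJ : J0 ≤ k := by omega
    have hmono : Monotone fun i : ℤ => -x (-1 - i) := fun a b hab => neg_le_neg (hm (by omega))
    have h2 := hboth (fun i => -x (-1 - i)) hmono (by simpa using h0) (by simpa using h1) J0 hJ0 hJ1
      (fun m hm' => s4r_refl_cnt (hcnt m hm')) k hkJ
    have e1 : (-1 - ((k : ℤ) - 1)) = -(k : ℤ) := by ring
    simp only [e1] at h2
    have hk0 : (0 : ℝ) ≤ k := Nat.cast_nonneg _
    have e2 : x (-(k : ℤ)) - ((-(k : ℤ) : ℤ) : ℝ) / ρ = -(-x (-(k : ℤ)) - (k : ℝ) / ρ) := by push_cast; ring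
    have e3 : |((-(k : ℤ) : ℤ) : ℝ)| = (k : ℝ) := by push_cast; rw [abs_neg, abs_of_nonneg hk0]
    rw [e2, abs_neg, e3]
    refine le_trans h2 (mul_le_mul_of_nonneg_right ?_ (Real.rpow_nonneg hk0 _))
    have : 0 < 1 / ρ := by positivity
    linarith

/-! ## I. glue -/

/-- (proved) (arithmetic) a tail bound for the large `J0` is a tail bound for all `J0 ≥ 1`: `C = max (Cd c^{-D'}) (Jst^{D'})`, `D' = max D 1`, `J0^{-D'} ≤ J0^{-D}`. -/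
theorem s4r_tail_all (D Cd c Jst : ℝ) (hc : 0 < c) (hCd : 0 ≤ Cd) :
    ∃ C : ℝ, ∀ (p : ENNReal) (J0 : ℕ), 1 ≤ J0 → p ≤ 1 →
      (Jst ≤ (J0 : ℝ) → p ≤ ENNReal.ofReal (Cd * (c * (J0 : ℝ)) ^ (-(max D 1)))) → p ≤ ENNReal.ofReal (C * (J0 : ℝ) ^ (-D)) := by
  refine ⟨max (Cd * c ^ (-(max D 1))) ((max Jst 1) ^ (max D 1)), fun p J0 hJ0 hp h => ?_⟩
  have hJ1 : (1 : ℝ) ≤ J0 := by exact_mod_cast hJ0
  have hJ00 : (0 : ℝ) < J0 := by linarith
  have hD : -(max D 1) ≤ -D := neg_le_neg (le_max_left _ _)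
  have hpow : (J0 : ℝ) ^ (-(max D 1)) ≤ (J0 : ℝ) ^ (-D) := Real.rpow_le_rpow_of_exponent_le hJ1 hD
  have hpow0 : 0 < (J0 : ℝ) ^ (-(max D 1)) := Real.rpow_pos_of_pos hJ00 _
  have hC0 : 0 ≤ max (Cd * c ^ (-(max D 1))) ((max Jst 1) ^ (max D 1)) :=
    le_trans (mul_nonneg hCd (Real.rpow_nonneg hc.le _)) (le_max_left _ _)
  rcases le_or_gt Jst (J0 : ℝ) with hJ | hJ
  · refine le_trans (h hJ) (ENNReal.ofReal_le_ofReal ?_)
    rw [Real.mul_rpow hc.le hJ00.le, ← mul_assoc]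
    exact mul_le_mul (le_max_left _ _) hpow hpow0.le hC0
  · refine le_trans hp ?_
    rw [← ENNReal.ofReal_one]
    refine ENNReal.ofReal_le_ofReal ?_
    have h1 : (J0 : ℝ) ^ (max D 1) ≤ (max Jst 1) ^ (max D 1) :=
      Real.rpow_le_rpow hJ00.le (le_trans hJ.le (le_max_left _ _)) (le_trans zero_le_one (le_max_right _ _))
    calc (1 : ℝ) = (J0 : ℝ) ^ (max D 1) * (J0 : ℝ) ^ (-(max D 1)) := by
          rw [← Real.rpow_add hJ00, add_neg_cancel, Real.rpow_zero]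
      _ ≤ max (Cd * c ^ (-(max D 1))) ((max Jst 1) ^ (max D 1)) * (J0 : ℝ) ^ (-D) :=
          mul_le_mul (le_trans h1 (le_max_right _ _)) hpow hpow0.le hC0

/-- **ABSTRACT FORM of X1** (any ensemble): the one-point Poisson bounds `S4rM1` for a law `μ` of monotone, canonically labelled configurations give the rigidity of the labels with polynomial tails.
`χ = min (1/8) (ξ/2)`; `C0` depends on `(ρ, ξ)` only. -/
theorem s4r_rigid {ρ ξ : ℝ} (hρ : 0 < ρ) (hξ : 0 < ξ) :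
    ∃ C0 : ℝ, ∀ D C y0 : ℝ, 0 ≤ C → 1 ≤ y0 → ∃ Cf : ℝ, ∀ μ : Measure Conf, IsProbabilityMeasure μ → (∀ᵐ x ∂μ, Monotone x) →
      (∀ᵐ x ∂μ, x (-1) ≤ 0 ∧ 0 ≤ x 0) → S4rM1 ρ ξ (2 * max D 1 + 2) C y0 μ →
      ∀ J0 : ℕ, 1 ≤ J0 → μ {x | ¬ CReg ρ (min (1 / 8) (ξ / 2)) C0 J0 x} ≤ ENNReal.ofReal (Cf * (J0 : ℝ) ^ (-D)) := by
  have hχ0 : 0 < min (1 / 8 : ℝ) (ξ / 2) := lt_min (by norm_num) (by positivity)
  have hχ8 : min (1 / 8 : ℝ) (ξ / 2) ≤ 1 / 8 := min_le_left _ _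
  obtain ⟨Cc, hCc, hcnt⟩ := s4r_grid_cnt hρ hξ
  obtain ⟨C0, hlab⟩ := s4r_labels hρ hχ0 (by linarith) hCc
  refine ⟨C0, fun D C y0 hC hy0 => ?_⟩
  have hD1 : (1 : ℝ) ≤ max D 1 := le_max_right _ _
  obtain ⟨Cf, hCf⟩ := s4r_tail_all D (2 * (30 * C)) (1 / ρ) (ρ * y0 ^ 2) (by positivity) (by positivity)
  refine ⟨Cf, fun μ hprob hmono hlb hM1 J0 hJ0 => ?_⟩
  refine hCf _ J0 hJ0 prob_le_one fun hJ => ?_
  have hTe : 1 / ρ * (J0 : ℝ) = (J0 : ℝ) / ρ := by ring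
  have hT : y0 ^ 2 ≤ (J0 : ℝ) / ρ := by
    rw [le_div_iff₀ hρ]; linarith
  have hT1 : 1 ≤ (J0 : ℝ) / ρ := le_trans (one_le_pow₀ hy0) hT
  have hdy := s4r_dyadic (μ := μ) (A := fun R => {x | ¬ S4rGrid ρ ξ R x}) (C := 30 * C) (D := max D 1)
    (T0 := y0 ^ 2) (by positivity) hD1
    (fun R hR => s4r_grid_prob (by linarith) hC hy0 hM1 R hR) ((J0 : ℝ) / ρ) hT (by linarith)
  rw [hTe]
  refine le_trans (measure_mono_ae ?_) hdy
  filter_upwards [hmono, hlb] with x hm hlb hx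
  by_contra hcon
  apply hx
  refine ⟨hm, hlab x hm hlb.1 hlb.2 J0 hJ0 hT1 fun m hm' => hcnt _ (le_trans hT1 hm') x ?_⟩
  by_contra hg
  exact hcon ⟨m, hm', hg⟩

/-- **NODE X1**, proved from the leaves above -/
theorem s4_X1_pf {d : ℕ} {E : ℝ} (H : S4Hyp d E) :
    ∃ χ : ℝ, 0 < χ ∧ χ < 1 / 4 ∧ ∀ D : ℝ, ∃ C0 C : ℝ, ∀ (U : Ultrafilter ℕ) (μ : Measure Conf), S4Lim d E U μ →
      ∀ J0 : ℕ, 1 ≤ J0 → μ {x | ¬ CReg (kestenMcKay d E) χ C0 J0 x} ≤ ENNReal.ofReal (C * (J0 : ℝ) ^ (-D)) := by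
  obtain ⟨ξ, hξ, h1⟩ := s4r_E1 H
  have hρ := s4_rho_pos d H.hd E H.hE
  have hχ0 : 0 < min (1 / 8 : ℝ) (ξ / 2) := lt_min (by norm_num) (by positivity)
  have hχ8 : min (1 / 8 : ℝ) (ξ / 2) ≤ 1 / 8 := min_le_left _ _
  obtain ⟨C0, hr⟩ := s4r_rigid hρ hξ
  refine ⟨min (1 / 8) (ξ / 2), hχ0, by linarith, fun D => ?_⟩
  have hD1 : (1 : ℝ) ≤ max D 1 := le_max_right _ _
  obtain ⟨C, y0, hC, hy0, hE1⟩ := h1 (2 * max D 1 + 2)
  obtain ⟨Cf, hCf⟩ := hr D C y0 hC hy0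
  exact ⟨C0, Cf, fun U μ hl J0 hJ0 => hCf μ hl.prob hl.mono hl.lab
    (fun e u hu => s4r_M1 H hξ (by linarith) hC hy0 hE1 hl e u hu) J0 hJ0⟩

end

end Claimed.Agent.R287
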