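-- KEEP
import Claimed.Agent.R287.S4
import Claimed.Agent.R287.S5Alg
import Claimed.Agent.R287.Stj227
import Claimed.Agent.R286.Tool.UWeak

/-!
# Row 287 (S0534), unit S4, deputy D4: the nodes X2, X3a, X3b, X4 (the limit law `P`, weak convergence, mapping theorem)      (helper14; prefix `s4x`)

INPUT  `S4xIn d E` = the statements of the OTHER nodes of `S4.lean` which are consumed here (`s4_window`, `s4_gauss`, `s4_X1`, `s4_switch`, `s4_E1tr`), as ONE record of hypotheses: no circular import.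
OUTPUT `s4x_X2`, `s4x_X3a`, `s4x_X3b`, `s4x_X4` = the statements of `s4_X2`, `s4_X3a`, `s4_X3b`, `s4_X4` with `S4xIn d E` in place of `S4Hyp d E`.

* sec. A  ABSTRACT (a proper normed space `S`): `s4x_ul_exists` (laws which are tight ALONG AN ULTRAFILTER converge along it; vague limit `tl_114_vague` + tightness), `s4x_ul_together` ("convergence together"),
          `s4x_ul_map` (mapping theorem for a bounded function continuous on an OPEN set of full limit measure, ANY filter), `s4x_closed_ge`.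
* sec. B  the sample space `(G, v, w)`: calculus of `s4E`, the law `s4xLaw` of a random variable.
* sec. C  dictionary `S4Close ↔ ‖·‖`, continuity of the window vector, algebra `Y(x, g Aᵀ) - swX(x, g) = (ε, ε C_k, 0)`.
* sec. D  the lattice sum under `CReg` (M3).
* sec. E  X2.      sec. F  X3a.      sec. G  X3b.      sec. H  X4.
STATUS of a statement: **LEAF** (market: claim287, one row per leaf), glue = proved.
-/

set_option autoImplicit false
set_option linter.unusedSectionVars false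

namespace Claimed.Agent.R287

open MeasureTheory ProbabilityTheory Matrix Filter Topology Claims.C0462
open scoped BoundedContinuousFunction ENNReal

noncomputable section

attribute [local instance] Matrix.normedAddCommGroup Matrix.normedSpace

instance s4xMatProper {ι κ : Type} [Fintype ι] [Fintype κ] : ProperSpace (Matrix ι κ ℂ) :=
  inferInstanceAs (ProperSpace (ι → κ → ℂ))

/-! ## A. Abstract: laws on a proper normed space, limits along an ultrafilter -/

section abstract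

variable {S : Type} [NormedAddCommGroup S] [ProperSpace S] [MeasurableSpace S] [BorelSpace S]

/-- the unit ball of the bounded Lipschitz functions -/
structure S4xBL (Φ : S → ℝ) : Prop where
  bdd : ∀ s, |Φ s| ≤ 1
  lip : ∀ s t, |Φ s - Φ t| ≤ ‖s - t‖

/-- a measure as a probability measure (junk Dirac mass if it is not one) -/
def s4xMk (m : Measure S) : ProbabilityMeasure S :=
  open Classical in
  if h : IsProbabilityMeasure m then (⟨m, h⟩ : ProbabilityMeasure S) else (⟨Measure.dirac 0, inferInstance⟩ : ProbabilityMeasure S)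

theorem s4x_mk_coe (m : Measure S) (h : IsProbabilityMeasure m) : ((s4xMk m : ProbabilityMeasure S) : Measure S) = m := by
  have : s4xMk m = (⟨m, h⟩ : ProbabilityMeasure S) := dif_pos h
  rw [this]
  rfl

theorem s4x_meas_gt (R : ℝ) : MeasurableSet {s : S | R < ‖s‖} :=
  (isOpen_lt continuous_const continuous_norm).measurableSet

theorem s4x_cut_err (μ : Measure S) [IsProbabilityMeasure μ] (f : S →ᵇ ℝ) (χ : S → ℝ) (hχc : Continuous χ)
    (h01 : ∀ s, χ s ∈ Set.Icc (0 : ℝ) 1) {R δ : ℝ} (hδ : 0 ≤ δ)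
    (h1 : ∀ s ∈ Metric.closedBall (0 : S) R, χ s = 1) (hμ : μ {s | R < ‖s‖} ≤ ENNReal.ofReal δ) :
    |∫ s, f s ∂μ - ∫ s, f s * χ s ∂μ| ≤ ‖f‖ * δ := by
  have hm := s4x_meas_gt (S := S) R
  have hfi : Integrable (fun s => f s) μ := f.integrable μ
  have hfc : Integrable (fun s => f s * χ s) μ := by
    refine Integrable.mono' (g := fun _ => ‖f‖) (integrable_const _) (f.continuous.mul hχc).aestronglyMeasurable
      (Eventually.of_forall fun s => ?_)
    rw [norm_mul]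
    calc ‖f s‖ * ‖χ s‖ ≤ ‖f‖ * 1 :=
          mul_le_mul (f.norm_coe_le_norm s) (by rw [Real.norm_eq_abs, abs_of_nonneg (h01 s).1]; exact (h01 s).2)
            (norm_nonneg _) (norm_nonneg _)
      _ = ‖f‖ := mul_one _
  rw [← integral_sub hfi hfc, ← Real.norm_eq_abs]
  have hg : Integrable (fun s => ‖f‖ * Set.indicator {s : S | R < ‖s‖} (1 : S → ℝ) s) μ :=
    ((integrable_const (1 : ℝ)).indicator hm).const_mul _
  refine (norm_integral_le_of_norm_le hg (Eventually.of_forall fun s => ?_)).trans ?_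
  · by_cases hs : R < ‖s‖
    · rw [Set.indicator_of_mem (show s ∈ {s : S | R < ‖s‖} from hs), Pi.one_apply, ← mul_one_sub, norm_mul]
      refine mul_le_mul (f.norm_coe_le_norm s) ?_ (norm_nonneg _) (norm_nonneg _)
      rw [Real.norm_eq_abs, abs_le]
      have := h01 s
      constructor <;> linarith [this.1, this.2]
    · rw [h1 s (by simpa using not_lt.1 hs)]
      simp [hs]
  · rw [integral_const_mul, integral_indicator_one hm]
    refine mul_le_mul_of_nonneg_left ?_ (norm_nonneg _)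
    exact ENNReal.toReal_le_of_le_ofReal hδ hμ

/-- **LEAF A1** (laws tight along an ultrafilter converge along it).      PROOF: `tl_114_vague U` (`R286/Tool/UWeak`; `m n K ≤ 1`) gives a regular `P₀` with `∫ φ dν_n → ∫ φ dP₀` for `φ ∈ C_c`;
`P₀ univ ≤ 1` (`tl_114_vague_open_le`, `V = univ`);   `1 - ε ≤ P₀ (closedBall 0 R)` (`tl_114_vague_compact_ge`, `isCompact_closedBall`, `ν_n (closedBall 0 R) = 1 - ν_n {R < ‖s‖}`): `P₀` is a probability measure.
`C_b`: for `f : S →ᵇ ℝ` and the bump `χ ∈ C_c`, `1_{closedBall 0 R} ≤ χ ≤ 1` (`tl_114_exists_bump`, `V = ball 0 (R+1)`): `|∫ f dν - ∫ f χ dν| ≤ ‖f‖ ν {R < ‖s‖}` for `ν = ν_n` and `ν = P₀`; `f χ ∈ C_c`; `3ε`.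
Conclude with `ProbabilityMeasure.tendsto_iff_forall_integral_tendsto`. -/
theorem s4x_ul_exists (U : Ultrafilter ℕ) (ν : ℕ → ProbabilityMeasure S)
    (ht : ∀ ε : ℝ, 0 < ε → ∃ R : ℝ, ∀ᶠ n in (U : Filter ℕ), (ν n : Measure S) {s | R < ‖s‖} ≤ ENNReal.ofReal ε) :
    ∃ P : ProbabilityMeasure S, Tendsto ν U (𝓝 P) := by
  obtain ⟨P0, hreg, hv⟩ := Claimed.Agent.R286.tl_114_vague U (m := fun n => (ν n : Measure S))
    (fun K _ => ⟨1, Eventually.of_forall fun n => by simpa using prob_le_one⟩)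
  have := hreg
  have hle : P0 Set.univ ≤ 1 := Claimed.Agent.R286.tl_114_vague_open_le (U : Filter ℕ) hv isOpen_univ
    (Eventually.of_forall fun n => prob_le_one)
  have hcb : ∀ R : ℝ, {s : S | R < ‖s‖} = (Metric.closedBall (0 : S) R)ᶜ := fun R => by
    ext s; simp
  have hge : ∀ ε : ℝ, 0 < ε → ∀ R : ℝ, (∀ᶠ n in (U : Filter ℕ), (ν n : Measure S) {s | R < ‖s‖} ≤ ENNReal.ofReal ε) →
      1 - ENNReal.ofReal ε ≤ P0 (Metric.closedBall (0 : S) R) := by
    intro ε hε R hR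
    refine Claimed.Agent.R286.tl_114_vague_compact_ge (U : Filter ℕ)
      (fun K _ => Eventually.of_forall fun n => measure_lt_top _ _) hv (isCompact_closedBall 0 R) ?_
    filter_upwards [hR] with n hn
    rw [hcb, prob_compl_eq_one_sub Metric.isClosed_closedBall.measurableSet] at hn
    rw [tsub_le_iff_right] at hn ⊢
    rwa [add_comm]
  have hone : P0 Set.univ = 1 := by
    refine le_antisymm hle ?_
    refine ENNReal.le_of_forall_pos_le_add fun ε hε _ => ?_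
    obtain ⟨R, hR⟩ := ht ε (by exact_mod_cast hε)
    have h1 := hge ε (by exact_mod_cast hε) R hR
    rw [tsub_le_iff_right] at h1
    refine h1.trans ?_
    gcongr
    · exact Set.subset_univ _
    · simp
  have : IsProbabilityMeasure P0 := ⟨hone⟩
  refine ⟨(⟨P0, inferInstance⟩ : ProbabilityMeasure S), ?_⟩
  refine ProbabilityMeasure.tendsto_iff_forall_integral_tendsto.2 ?_
  intro f
  show Tendsto (fun n => ∫ s, f s ∂(ν n : Measure S)) U (𝓝 (∫ s, f s ∂P0))
  rw [Metric.tendsto_nhds]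
  intro ε hε
  set B := ‖f‖ + 1 with hB
  have hB0 : 0 < B := by have := norm_nonneg f; linarith
  set δ := ε / (3 * B) with hδ
  have hδ0 : 0 < δ := by positivity
  obtain ⟨R, hR⟩ := ht δ hδ0
  obtain ⟨χ, h01, h1, h0⟩ := Claimed.Agent.R286.tl_114_exists_bump (isCompact_closedBall (0 : S) R) (Metric.isOpen_ball (x := (0 : S)) (ε := R + 1))
    (Metric.closedBall_subset_ball (by linarith))
  have hP0 : P0 {s | R < ‖s‖} ≤ ENNReal.ofReal δ := by
    have h2 := hge δ hδ0 R hR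
    rw [hcb, prob_compl_eq_one_sub Metric.isClosed_closedBall.measurableSet]
    rw [tsub_le_iff_right] at h2 ⊢
    rwa [add_comm]
  let φ : CompactlySupportedContinuousMap S ℝ :=
    ⟨⟨fun s => f s * χ s, f.continuous.mul χ.continuous⟩, χ.hasCompactSupport.mul_left⟩
  have hφ := hv φ
  rw [Metric.tendsto_nhds] at hφ
  filter_upwards [hφ (ε / 3) (by positivity), hR] with n hn hRn
  have e1 := s4x_cut_err (ν n : Measure S) f χ χ.continuous h01 hδ0.le h1 hRn
  have e2 := s4x_cut_err P0 f χ χ.continuous h01 hδ0.le h1 hP0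
  have e3 : |∫ s, f s * χ s ∂(ν n : Measure S) - ∫ s, f s * χ s ∂P0| < ε / 3 := by
    rw [← Real.dist_eq]; exact hn
  have e4 : ‖f‖ * δ ≤ ε / 3 := by
    have : B * δ = ε / 3 := by rw [hδ]; field_simp
    nlinarith [norm_nonneg f]
  rw [Real.dist_eq]
  rw [abs_lt] at e3 ⊢
  rw [abs_le] at e1 e2
  constructor <;> linarith [e1.1, e1.2, e2.1, e2.2, e3.1, e3.2]

/-- the Lipschitz cut-off `min 1 (max 0 (‖s‖ - R))` -/
def s4xCut (R : ℝ) (s : S) : ℝ := min 1 (max 0 (‖s‖ - R))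

/-- **LEAF A2a** -/
theorem s4x_cut_BL (R : ℝ) : S4xBL (s4xCut (S := S) R) := by
  constructor
  · intro s
    unfold s4xCut
    rw [abs_le]
    constructor
    · have : (0 : ℝ) ≤ min 1 (max 0 (‖s‖ - R)) := le_min zero_le_one (le_max_left _ _)
      linarith
    · exact min_le_left _ _
  · intro s t
    unfold s4xCut
    calc |min 1 (max 0 (‖s‖ - R)) - min 1 (max 0 (‖t‖ - R))|
        ≤ max |(1 : ℝ) - 1| |max 0 (‖s‖ - R) - max 0 (‖t‖ - R)| := abs_min_sub_min_le_max _ _ _ _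
      _ = |max 0 (‖s‖ - R) - max 0 (‖t‖ - R)| := by simp
      _ ≤ max |(0 : ℝ) - 0| |(‖s‖ - R) - (‖t‖ - R)| := abs_max_sub_max_le_max _ _ _ _
      _ = |‖s‖ - ‖t‖| := by simp
      _ ≤ ‖s - t‖ := abs_norm_sub_norm_le s t

/-- **LEAF A2b**: a single law is tight (`{R < ‖s‖}` decreases to `∅` along `R = 0, 1, 2, …`: `tendsto_measure_iInter_atTop`). -/
theorem s4x_tight_one (Q : ProbabilityMeasure S) (ε : ℝ) (hε : 0 < ε) : ∃ R : ℝ, (Q : Measure S) {s | R < ‖s‖} ≤ ENNReal.ofReal ε := by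
  have hmeas : ∀ n : ℕ, MeasurableSet {s : S | (n : ℝ) < ‖s‖} := fun n => measurableSet_lt measurable_const measurable_norm
  have hanti : Antitone fun n : ℕ => {s : S | (n : ℝ) < ‖s‖} := by
    intro a b hab s hs
    have : (a : ℝ) ≤ b := by exact_mod_cast hab
    exact lt_of_le_of_lt this hs
  have hlim := tendsto_measure_iInter_atTop (μ := (Q : Measure S)) (fun n => (hmeas n).nullMeasurableSet) hanti
    ⟨0, measure_ne_top _ _⟩
  have hemp : (⋂ n : ℕ, {s : S | (n : ℝ) < ‖s‖}) = ∅ := by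
    ext s
    simp only [Set.mem_iInter, Set.mem_ofPred_eq, Set.mem_empty_iff_false, iff_false, not_forall, not_lt]
    exact ⟨⌈‖s‖⌉₊, Nat.le_ceil _⟩
  rw [hemp, measure_empty] at hlim
  have hpos : (0 : ℝ≥0∞) < ENNReal.ofReal ε := ENNReal.ofReal_pos.2 hε
  obtain ⟨n, hn⟩ := ((tendsto_order.1 hlim).2 _ hpos).exists
  exact ⟨n, hn.le⟩

/-- **LEAF A2c**: `ν {R + 1 < ‖s‖} ≤ ∫ cut_R dν` and `∫ cut_R dQ ≤ Q {R < ‖s‖}` (`1_{R+1 < ‖s‖} ≤ cut_R ≤ 1_{R < ‖s‖}`). -/
theorem s4x_cut_int (ν : ProbabilityMeasure S) (R : ℝ) :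
    (ν : Measure S) {s | R + 1 < ‖s‖} ≤ ENNReal.ofReal (∫ s, s4xCut R s ∂(ν : Measure S)) ∧
      ENNReal.ofReal (∫ s, s4xCut R s ∂(ν : Measure S)) ≤ (ν : Measure S) {s | R < ‖s‖} := by
  have hBL := s4x_cut_BL (S := S) R
  have hcont : Continuous (s4xCut (S := S) R) :=
    continuous_const.min (continuous_const.max (continuous_norm.sub continuous_const))
  have hint : Integrable (s4xCut (S := S) R) (ν : Measure S) :=
    Integrable.of_bound hcont.aestronglyMeasurable 1 (ae_of_all _ fun s => by rw [Real.norm_eq_abs]; exact hBL.bdd s)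
  have hm1 : MeasurableSet {s : S | R + 1 < ‖s‖} := measurableSet_lt measurable_const measurable_norm
  have hm2 : MeasurableSet {s : S | R < ‖s‖} := measurableSet_lt measurable_const measurable_norm
  have e : ∀ A : Set S, MeasurableSet A → (ν : Measure S) A = ENNReal.ofReal (∫ s, A.indicator (fun _ => (1 : ℝ)) s ∂(ν : Measure S)) := by
    intro A hA
    rw [integral_indicator hA, setIntegral_const, smul_eq_mul, mul_one, Measure.real, ENNReal.ofReal_toReal (measure_ne_top _ _)]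
  have hi : ∀ A : Set S, MeasurableSet A → Integrable (A.indicator (fun _ => (1 : ℝ))) (ν : Measure S) :=
    fun A hA => (integrable_const (1 : ℝ)).indicator hA
  constructor
  · rw [e _ hm1]
    refine ENNReal.ofReal_le_ofReal (integral_mono (hi _ hm1) hint fun s => ?_)
    by_cases hs : s ∈ {s : S | R + 1 < ‖s‖}
    · rw [Set.indicator_of_mem hs]
      have hs' : R + 1 < ‖s‖ := hs
      unfold s4xCut
      exact le_min le_rfl (le_max_of_le_right (by linarith))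
    · rw [Set.indicator_of_notMem hs]
      exact le_min zero_le_one (le_max_left _ _)
  · rw [e _ hm2]
    refine ENNReal.ofReal_le_ofReal (integral_mono hint (hi _ hm2) fun s => ?_)
    by_cases hs : s ∈ {s : S | R < ‖s‖}
    · rw [Set.indicator_of_mem hs]
      exact min_le_left _ _
    · rw [Set.indicator_of_notMem hs]
      have hs' : ‖s‖ ≤ R := not_lt.1 hs
      unfold s4xCut
      rw [max_eq_left (by linarith)]
      exact min_le_right _ _

/-- **LEAF A2d**: convergence of the integrals of the functions of `S4xBL` is weak convergence (`tendsto_iff_forall_lipschitz_integral_tendsto`; a bounded `K`-Lipschitz `f` is `c •` an element of `S4xBL`, `c = max (sup |f|) K + 1`). -/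
theorem s4x_of_BL {Q : ℕ → ProbabilityMeasure S} {P : ProbabilityMeasure S}
    (h : ∀ Φ : S → ℝ, S4xBL Φ → Tendsto (fun L => ∫ s, Φ s ∂(Q L : Measure S)) atTop (𝓝 (∫ s, Φ s ∂(P : Measure S)))) :
    Tendsto Q atTop (𝓝 P) := by
  rw [tendsto_iff_forall_lipschitz_integral_tendsto]
  rintro f ⟨C, hC⟩ ⟨K, hK⟩
  set c : ℝ := max (|f 0| + C) K + 1 with hc
  have hC0 : 0 ≤ C := le_trans dist_nonneg (hC 0 0)
  have h1 : |f 0| + C + 1 ≤ c := by have := le_max_left (|f 0| + C) (K : ℝ); linarith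
  have h2 : (K : ℝ) ≤ c := by have := le_max_right (|f 0| + C) (K : ℝ); linarith
  have hc0 : 0 < c := by have := abs_nonneg (f 0); linarith
  have hΦ : S4xBL (fun s => c⁻¹ * f s) := by
    refine ⟨fun s => ?_, fun s t => ?_⟩
    · rw [abs_mul, abs_of_pos (inv_pos.2 hc0), inv_mul_le_iff₀ hc0, mul_one]
      have h3 := hC s 0
      rw [Real.dist_eq] at h3
      have h4 : |f s| ≤ |f s - f 0| + |f 0| := by
        have := abs_add_le (f s - f 0) (f 0)
        simpa using this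
      linarith
    · rw [← mul_sub, abs_mul, abs_of_pos (inv_pos.2 hc0), inv_mul_le_iff₀ hc0]
      have h3 := hK.dist_le_mul s t
      rw [Real.dist_eq, dist_eq_norm] at h3
      exact h3.trans (mul_le_mul_of_nonneg_right h2 (norm_nonneg _))
  have h5 := (h _ hΦ).const_mul c
  simp only [integral_const_mul, mul_inv_cancel_left₀ hc0.ne'] at h5
  exact h5

/-- an element of `S4xBL` as a bounded continuous function -/
def S4xBL.bcf {Φ : S → ℝ} (h : S4xBL Φ) : S →ᵇ ℝ :=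
  BoundedContinuousFunction.ofNormedAddCommGroup Φ
    (LipschitzWith.continuous (K := 1) (LipschitzWith.of_dist_le_mul fun s t => by
      rw [Real.dist_eq, dist_eq_norm, NNReal.coe_one, one_mul]; exact h.lip s t)) 1 (fun s => by rw [Real.norm_eq_abs]; exact h.bdd s)

theorem s4x_abs_eqns_cite : True := by
  have := @s4xMk.eq_1
  have := @s4xCut.eq_1
  have := @S4xBL.bcf.eq_1
  trivial

/-- **"convergence together" along an ultrafilter**: if the laws `ν_n` are, along `U`, uniformly `BL`-close to `Q_L` for large `L`, then both converge to the same law. -/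
theorem s4x_ul_together (U : Ultrafilter ℕ) (ν Q : ℕ → ProbabilityMeasure S)
    (hc : ∀ ε : ℝ, 0 < ε → ∃ L0 : ℕ, ∀ L : ℕ, L0 ≤ L → ∀ Φ : S → ℝ, S4xBL Φ →
      ∀ᶠ n in (U : Filter ℕ), |∫ s, Φ s ∂(ν n : Measure S) - ∫ s, Φ s ∂(Q L : Measure S)| ≤ ε) :
    ∃ P : ProbabilityMeasure S, Tendsto ν U (𝓝 P) ∧ Tendsto Q atTop (𝓝 P) := by
  have ht : ∀ ε : ℝ, 0 < ε → ∃ R : ℝ, ∀ᶠ n in (U : Filter ℕ), (ν n : Measure S) {s | R < ‖s‖} ≤ ENNReal.ofReal ε := by
    intro ε hε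
    obtain ⟨L0, hL0⟩ := hc (ε / 2) (half_pos hε)
    obtain ⟨R, hR⟩ := s4x_tight_one (Q L0) (ε / 2) (half_pos hε)
    refine ⟨R + 1, ?_⟩
    filter_upwards [hL0 L0 le_rfl _ (s4x_cut_BL R)] with n hn
    refine (s4x_cut_int (ν n) R).1.trans (ENNReal.ofReal_le_ofReal ?_)
    have h1 : ENNReal.ofReal (∫ s, s4xCut R s ∂(Q L0 : Measure S)) ≤ ENNReal.ofReal (ε / 2) := (s4x_cut_int (Q L0) R).2.trans hR
    have h2 : ∫ s, s4xCut R s ∂(Q L0 : Measure S) ≤ ε / 2 := (ENNReal.ofReal_le_ofReal_iff (half_pos hε).le).1 h1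
    have h3 := (abs_le.1 hn).2
    linarith
  obtain ⟨P, hP⟩ := s4x_ul_exists U ν ht
  refine ⟨P, hP, s4x_of_BL fun Φ hΦ => ?_⟩
  have hlim : Tendsto (fun n => ∫ s, Φ s ∂(ν n : Measure S)) U (𝓝 (∫ s, Φ s ∂(P : Measure S))) :=
    (ProbabilityMeasure.tendsto_iff_forall_integral_tendsto.1 hP) hΦ.bcf
  rw [Metric.tendsto_atTop]
  intro ε hε
  obtain ⟨L0, hL0⟩ := hc (ε / 2) (half_pos hε)
  refine ⟨L0, fun L hL => ?_⟩
  have h1 : |∫ s, Φ s ∂(P : Measure S) - ∫ s, Φ s ∂(Q L : Measure S)| ≤ ε / 2 :=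
    le_of_tendsto ((hlim.sub_const _).abs) (hL0 L hL Φ hΦ)
  rw [Real.dist_eq, abs_sub_comm]
  linarith

/-- **LEAF A3** (mapping theorem, any filter).      PROOF: if `V = univ`: `g` is continuous.   Else `χ_m s = min 1 (m · infDist s Vᶜ)`: `χ_m g` is bounded continuous (on `V`: product; at `s₀ ∉ V`: `|χ_m g| ≤ B χ_m → 0`);
`|∫ g dν - ∫ χ_m g dν| ≤ B ∫ (1 - χ_m) dν`, `1 - χ_m ∈ C_b`, `∫ (1 - χ_m) dν_i → ∫ (1 - χ_m) dP`, and `∫ (1 - χ_m) dP → 0` as `m → ∞` (dominated convergence; `infDist s Vᶜ > 0` on the open `V`, `P Vᶜ = 0`). -/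
theorem s4x_ul_map {ι : Type} {F : Filter ι} {ν : ι → ProbabilityMeasure S} {P : ProbabilityMeasure S} (h : Tendsto ν F (𝓝 P))
    {V : Set S} (hV : IsOpen V) (hPV : ∀ᵐ s ∂(P : Measure S), s ∈ V) {g : S → ℝ} (hm : Measurable g) {B : ℝ} (hb : ∀ s, |g s| ≤ B)
    (hc : ContinuousOn g V) : Tendsto (fun i => ∫ s, g s ∂(ν i : Measure S)) F (𝓝 (∫ s, g s ∂(P : Measure S))) := by
  have hB0 : 0 ≤ B := (abs_nonneg _).trans (hb 0)
  have hE : IsClosed Vᶜ := hV.isClosed_compl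
  have hPE : (P : Measure S).real Vᶜ = 0 := by
    have : (P : Measure S) Vᶜ = 0 := hPV
    simp [Measure.real, this]
  let ψ : ℕ → S → ℝ := fun m s => thickenedIndicator (δ := (1 : ℝ) / (m + 1)) (by positivity) Vᶜ s
  have hψlim : Tendsto (fun m => ∫ s, ψ m s ∂(P : Measure S)) atTop (𝓝 0) := by
    have := tendsto_integral_thickenedIndicator_of_isClosed (P : Measure S) hE (δs := fun n : ℕ => (1 : ℝ) / (n + 1))
      (fun _ => by positivity) tendsto_one_div_add_atTop_nhds_zero_nat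
    rwa [hPE] at this
  have hψc : ∀ m, Continuous (ψ m) := fun m => NNReal.continuous_coe.comp (thickenedIndicator _ _).continuous
  have hψ0 : ∀ m s, 0 ≤ ψ m s := fun m s => NNReal.coe_nonneg _
  have hψ1 : ∀ m s, ψ m s ≤ 1 := fun m s => by
    have := thickenedIndicator_le_one (δ := (1 : ℝ) / (m + 1)) (by positivity) Vᶜ s
    show ((thickenedIndicator (δ := (1 : ℝ) / (m + 1)) (by positivity) Vᶜ s : NNReal) : ℝ) ≤ 1
    exact_mod_cast this
  have hψE : ∀ m s, s ∉ V → ψ m s = 1 := fun m s hs => by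
    have := thickenedIndicator_one (δ := (1 : ℝ) / (m + 1)) (by positivity) Vᶜ (x := s) hs
    show ((thickenedIndicator (δ := (1 : ℝ) / (m + 1)) (by positivity) Vᶜ s : NNReal) : ℝ) = 1
    rw [this]; rfl
  have hGc : ∀ m, Continuous fun s => (1 - ψ m s) * g s := by
    intro m
    rw [continuous_iff_continuousAt]
    intro s0
    by_cases hs : s0 ∈ V
    · exact ((continuous_const.sub (hψc m)).continuousAt).mul (hc.continuousAt (hV.mem_nhds hs))
    · have h0 : 1 - ψ m s0 = 0 := by rw [hψE m s0 hs]; ring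
      unfold ContinuousAt
      beta_reduce
      rw [h0, zero_mul]
      refine squeeze_zero_norm (a := fun s => (1 - ψ m s) * B) (fun s => ?_) ?_
      · rw [norm_mul, Real.norm_eq_abs, Real.norm_eq_abs, abs_of_nonneg (by linarith [hψ1 m s])]
        exact mul_le_mul_of_nonneg_left (hb s) (by linarith [hψ1 m s])
      · have : Tendsto (fun s => (1 - ψ m s) * B) (𝓝 s0) (𝓝 ((1 - ψ m s0) * B)) :=
          ((continuous_const.sub (hψc m)).mul continuous_const).tendsto s0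
        rwa [h0, zero_mul] at this
  let Ψ : ℕ → S →ᵇ ℝ := fun m => BoundedContinuousFunction.ofNormedAddCommGroup (ψ m) (hψc m) 1 (fun s => by
    rw [Real.norm_eq_abs, abs_of_nonneg (hψ0 m s)]; exact hψ1 m s)
  let G : ℕ → S →ᵇ ℝ := fun m => BoundedContinuousFunction.ofNormedAddCommGroup (fun s => (1 - ψ m s) * g s) (hGc m) B (fun s => by
    rw [norm_mul, Real.norm_eq_abs, Real.norm_eq_abs, abs_of_nonneg (by linarith [hψ1 m s])]
    calc (1 - ψ m s) * |g s| ≤ 1 * B := mul_le_mul (by linarith [hψ0 m s]) (hb s) (abs_nonneg _) (by norm_num)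
      _ = B := one_mul _)
  have hw := ProbabilityMeasure.tendsto_iff_forall_integral_tendsto.1 h
  -- the error of the cut, any probability measure
  have herr : ∀ (μ : Measure S) [IsProbabilityMeasure μ] (m : ℕ),
      |∫ s, g s ∂μ - ∫ s, (1 - ψ m s) * g s ∂μ| ≤ B * ∫ s, ψ m s ∂μ := by
    intro μ _ m
    have hgi : Integrable g μ := Integrable.mono' (g := fun _ => B) (integrable_const _) hm.aestronglyMeasurable
      (Eventually.of_forall fun s => by rw [Real.norm_eq_abs]; exact hb s)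
    have hGi : Integrable (fun s => (1 - ψ m s) * g s) μ := (G m).integrable μ
    have hψi : Integrable (ψ m) μ := (Ψ m).integrable μ
    rw [← integral_sub hgi hGi, ← Real.norm_eq_abs, ← integral_const_mul]
    refine norm_integral_le_of_norm_le (hψi.const_mul B) (Eventually.of_forall fun s => ?_)
    have : g s - (1 - ψ m s) * g s = g s * ψ m s := by ring
    rw [this, norm_mul, Real.norm_eq_abs, Real.norm_eq_abs, abs_of_nonneg (hψ0 m s)]
    exact mul_le_mul_of_nonneg_right (hb s) (hψ0 m s)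
  rw [Metric.tendsto_nhds]
  intro ε hε
  set B' := B + 1 with hB'
  have hB'0 : 0 < B' := by linarith
  obtain ⟨m, hm1⟩ := ((Metric.tendsto_nhds.1 hψlim) (ε / (4 * B')) (by positivity)).exists
  rw [Real.dist_eq, sub_zero] at hm1
  have h1 := (Metric.tendsto_nhds.1 (hw (Ψ m))) (ε / (4 * B')) (by positivity)
  have h2 := (Metric.tendsto_nhds.1 (hw (G m))) (ε / 4) (by positivity)
  filter_upwards [h1, h2] with i hi1 hi2
  rw [Real.dist_eq] at hi1 hi2 ⊢
  have e1 := herr (ν i : Measure S) m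
  have e2 := herr (P : Measure S) m
  change |∫ s, ψ m s ∂(ν i : Measure S) - ∫ s, ψ m s ∂(P : Measure S)| < ε / (4 * B') at hi1
  change |∫ s, (1 - ψ m s) * g s ∂(ν i : Measure S) - ∫ s, (1 - ψ m s) * g s ∂(P : Measure S)| < ε / 4 at hi2
  set a := ∫ s, ψ m s ∂(P : Measure S) with ha
  set a' := ∫ s, ψ m s ∂(ν i : Measure S) with ha'
  have k0 : B' * (ε / (4 * B')) = ε / 4 := by field_simp
  have ka : 0 ≤ a := integral_nonneg fun s => hψ0 m s
  have ka' : 0 ≤ a' := integral_nonneg fun s => hψ0 m s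
  have k1 : B * a ≤ B' * a := mul_le_mul_of_nonneg_right (by linarith) ka
  have k2 : B * a' ≤ B' * a' := mul_le_mul_of_nonneg_right (by linarith) ka'
  have k3 : B' * a < ε / 4 := by
    rw [← k0]; exact mul_lt_mul_of_pos_left (lt_of_le_of_lt (le_abs_self _) hm1) hB'0
  have k4 : B' * a' < ε / 4 + ε / 4 := by
    have : a' < a + ε / (4 * B') := by have := (abs_lt.1 hi1).2; linarith
    have := mul_lt_mul_of_pos_left this hB'0
    rw [mul_add, k0] at this
    linarith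
  rw [abs_lt] at hi2 ⊢
  rw [abs_le] at e1 e2
  constructor <;> linarith [e1.1, e1.2, e2.1, e2.2, hi2.1, hi2.2]

/-- portmanteau, closed sets, in the form used here -/
theorem s4x_closed_ge {ι : Type} {F : Filter ι} [F.NeBot] {Q : ι → ProbabilityMeasure S} {P : ProbabilityMeasure S} (h : Tendsto Q F (𝓝 P))
    {A : Set S} (hA : IsClosed A) {c : ℝ≥0∞} (hc : ∀ᶠ L in F, c ≤ (Q L : Measure S) A) : c ≤ (P : Measure S) A :=
  (le_limsup_of_frequently_le' hc.frequently).trans (ProbabilityMeasure.limsup_measure_closed_le_of_tendsto h hA)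

/-- portmanteau, open sets, in the form used here -/
theorem s4x_open_le {ι : Type} {F : Filter ι} [F.NeBot] {Q : ι → ProbabilityMeasure S} {P : ProbabilityMeasure S} (h : Tendsto Q F (𝓝 P))
    {O : Set S} (hO : IsOpen O) {c : ℝ≥0∞} (hc : ∀ᶠ L in F, (Q L : Measure S) O ≤ c) : (P : Measure S) O ≤ c :=
  (ProbabilityMeasure.le_liminf_measure_open_of_tendsto h hO).trans (liminf_le_of_frequently_le' hc.frequently)

end abstract

/-! ## B. The sample space `(G, v, w)`: calculus of `s4E`, laws -/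

section sample

variable {n d k : ℕ}

/-- **LEAF B1** (unfold `s4E s4Eg s4Ec`; `Finset.sum_le_sum`, `div_le_div_of_nonneg_right`; split the `if`) -/
theorem s4x_E_mono {F F' : SimpleGraph (Fin n) → (Fin k → Fin n) → (Fin k → Fin n) → ℝ} (h : ∀ G v w, F G v w ≤ F' G v w) :
    s4E n d k F ≤ s4E n d k F' := by
  classical
  unfold s4E s4Eg s4Ec
  refine div_le_div_of_nonneg_right (Finset.sum_le_sum fun G _ => ?_) (Nat.cast_nonneg _)
  refine div_le_div_of_nonneg_right (Finset.sum_le_sum fun v _ => Finset.sum_le_sum fun w _ => ?_) (by positivity)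
  split_ifs
  · exact h G v w
  · exact le_rfl

/-- **LEAF B2** -/
theorem s4x_E_add (F F' : SimpleGraph (Fin n) → (Fin k → Fin n) → (Fin k → Fin n) → ℝ) :
    s4E n d k (fun G v w => F G v w + F' G v w) = s4E n d k F + s4E n d k F' := by
  unfold s4E s4Eg s4Ec
  simp only [← add_div, ← Finset.sum_add_distrib]
  refine congrArg (fun t : ℝ => t / _) (Finset.sum_congr rfl fun G _ => congrArg (fun t : ℝ => t / _)
    (Finset.sum_congr rfl fun v _ => Finset.sum_congr rfl fun w _ => ?_))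
  split_ifs <;> simp

/-- **LEAF B3** -/
theorem s4x_E_smul (c : ℝ) (F : SimpleGraph (Fin n) → (Fin k → Fin n) → (Fin k → Fin n) → ℝ) :
    s4E n d k (fun G v w => c * F G v w) = c * s4E n d k F := by
  unfold s4E s4Eg s4Ec
  simp only [← mul_div_assoc, Finset.mul_sum]
  refine congrArg (fun t : ℝ => t / _) (Finset.sum_congr rfl fun G _ => congrArg (fun t : ℝ => t / _)
    (Finset.sum_congr rfl fun v _ => Finset.sum_congr rfl fun w _ => ?_))
  split_ifs <;> simp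

open Classical in
/-- **LEAF B4** (the number of `k`-tuples of oriented edges of a `d`-regular graph is `(n d)^k`).      `∑_v ∑_w ∏_a 1[v a ~ w a] = ∏_a ∑_{x,y} 1[x ~ y]` (`Finset.prod_univ_sum` / `Fintype.piFinset`, through `(Fin k → Fin n) × (Fin k → Fin n) ≃ (Fin k → Fin n × Fin n)`), `∑_y 1[x ~ y] = degree x = d`. -/
theorem s4x_count {G : SimpleGraph (Fin n)} (hG : G ∈ regularGraphs n d) :
    (∑ v : Fin k → Fin n, ∑ w : Fin k → Fin n, if (∀ a, G.Adj (v a) (w a)) then (1 : ℝ) else 0) = ((n : ℝ) * d) ^ k := by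
  have hreg : G.IsRegularOfDegree d := by
    unfold regularGraphs at hG
    exact (Finset.mem_filter.1 hG).2
  have h1 : ∀ x : Fin n, (∑ y : Fin n, if G.Adj x y then (1 : ℝ) else 0) = d := by
    intro x
    rw [Finset.sum_boole]
    have h2 := hreg x
    rw [← SimpleGraph.card_neighborFinset_eq_degree, SimpleGraph.neighborFinset_eq_filter] at h2
    exact_mod_cast h2
  have h3 : ∀ v : Fin k → Fin n, (∑ w : Fin k → Fin n, if (∀ a, G.Adj (v a) (w a)) then (1 : ℝ) else 0) = (d : ℝ) ^ k := by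
    intro v
    have h4 := Finset.prod_univ_sum (fun _ : Fin k => (Finset.univ : Finset (Fin n))) (fun a y => if G.Adj (v a) y then (1 : ℝ) else 0)
    rw [Fintype.piFinset_univ] at h4
    simp only [h1, Finset.prod_const, Finset.card_univ, Fintype.card_fin] at h4
    rw [h4]
    refine Finset.sum_congr rfl fun w _ => ?_
    rw [Finset.prod_ite_zero]
    simp
  simp only [h3, Finset.sum_const, Finset.card_univ, Fintype.card_pi, Fintype.card_fin, Finset.prod_const, nsmul_eq_mul]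
  push_cast
  rw [mul_pow]

/-- **LEAF B5** (`s4x_count`) -/
theorem s4x_E_one (hne : (regularGraphs n d).Nonempty) (hn : 0 < n) (hd : 0 < d) : s4E n d k (fun _ _ _ => 1) = 1 := by
  unfold s4E s4Eg
  have h1 : ∀ G ∈ regularGraphs n d, s4Ec d k G (fun _ _ => (1 : ℝ)) = 1 := by
    intro G hG
    unfold s4Ec
    rw [s4x_count hG, div_self]
    have : (0 : ℝ) < (n : ℝ) * d := by positivity
    positivity
  rw [Finset.sum_congr rfl h1, Finset.sum_const, nsmul_eq_mul, mul_one, div_self]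
  exact_mod_cast (Finset.card_pos.mpr hne).ne'

theorem s4x_E_sub (F F' : SimpleGraph (Fin n) → (Fin k → Fin n) → (Fin k → Fin n) → ℝ) :
    s4E n d k (fun G v w => F G v w - F' G v w) = s4E n d k F - s4E n d k F' := by
  have h1 := s4x_E_add (d := d) F (fun G v w => (-1) * F' G v w)
  rw [s4x_E_smul] at h1
  have h2 : (fun G v w => F G v w - F' G v w) = fun G v w => F G v w + (-1) * F' G v w := by
    funext G v w; ring
  rw [h2, h1]; ring

theorem s4x_E_abs_le (F : SimpleGraph (Fin n) → (Fin k → Fin n) → (Fin k → Fin n) → ℝ) :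
    |s4E n d k F| ≤ s4E n d k fun G v w => |F G v w| := by
  rw [abs_le]
  constructor
  · have h1 := s4x_E_mono (d := d) (F := fun G v w => (-1) * |F G v w|) (F' := F) fun G v w => by
      have := neg_abs_le (F G v w); linarith
    rw [s4x_E_smul] at h1
    linarith
  · exact s4x_E_mono fun G v w => le_abs_self _

/-- two bounded observables which are `τ`-close off a bad event -/
theorem s4x_E_close (hne : (regularGraphs n d).Nonempty) (hn : 0 < n) (hd : 0 < d)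
    {F F' : SimpleGraph (Fin n) → (Fin k → Fin n) → (Fin k → Fin n) → ℝ} {Bad : SimpleGraph (Fin n) → (Fin k → Fin n) → (Fin k → Fin n) → Prop}
    {τ : ℝ} (hF : ∀ G v w, |F G v w| ≤ 1) (hF' : ∀ G v w, |F' G v w| ≤ 1) (h : ∀ G v w, ¬ Bad G v w → |F G v w - F' G v w| ≤ τ) (hτ : 0 ≤ τ) :
    |s4E n d k F - s4E n d k F'| ≤ τ + 2 * s4Pr n d k Bad := by
  classical
  rw [← s4x_E_sub]
  refine (s4x_E_abs_le _).trans ?_
  have h1 : s4E n d k (fun G v w => |F G v w - F' G v w|) ≤ s4E n d k fun G v w => τ * 1 + 2 * (if Bad G v w then 1 else 0) := by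
    refine s4x_E_mono fun G v w => ?_
    by_cases hb : Bad G v w
    · rw [if_pos hb]
      have := abs_sub (F G v w) (F' G v w)
      linarith [hF G v w, hF' G v w]
    · rw [if_neg hb]
      linarith [h G v w hb]
  rw [s4x_E_add, s4x_E_smul, s4x_E_smul, s4x_E_one hne hn hd] at h1
  unfold s4Pr
  linarith

open Classical in
/-- **LEAF B6** (union bound: `1[∃ i, A i] ≤ ∑ i, 1[A i]`, `s4x_E_mono`, induction on the finite sum with `s4x_E_add`; or unfold and `Finset.sum_comm`) -/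
theorem s4x_Pr_union {b : ℕ} (A : Fin b → SimpleGraph (Fin n) → (Fin k → Fin n) → (Fin k → Fin n) → Prop) :
    s4Pr n d k (fun G v w => ∃ i, A i G v w) ≤ ∑ i, s4Pr n d k (A i) := by
  have hsum : ∀ (T : Finset (Fin b)) (F : Fin b → SimpleGraph (Fin n) → (Fin k → Fin n) → (Fin k → Fin n) → ℝ),
      s4E n d k (fun G v w => ∑ i ∈ T, F i G v w) = ∑ i ∈ T, s4E n d k (F i) := by
    intro T F
    induction T using Finset.induction_on with
    | empty =>
      have := s4x_E_smul (n := n) (d := d) (k := k) 0 (fun _ _ _ => 0)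
      simpa using this
    | insert a T ha ih =>
      simp only [Finset.sum_insert ha]
      rw [s4x_E_add, ih]
  unfold s4Pr
  rw [← hsum]
  refine s4x_E_mono fun G v w => ?_
  split_ifs with h
  · obtain ⟨i, hi⟩ := h
    calc (1 : ℝ) = if A i G v w then 1 else 0 := by rw [if_pos hi]
      _ ≤ _ := Finset.single_le_sum (f := fun i => if A i G v w then (1 : ℝ) else 0)
        (fun j _ => by split_ifs <;> norm_num) (Finset.mem_univ i)
  · exact Finset.sum_nonneg fun j _ => by split_ifs <;> norm_num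

/-- **LEAF B7** (`k = 0`: the sums over `Fin 0 → Fin n` have one term, `(n d)^0 = 1`) -/
theorem s4x_Pr_zero (A : SimpleGraph (Fin n) → Prop) : s4Pr n d 0 (fun G _ _ => A G) = s4Pg n d A := by
  unfold s4Pr s4E s4Pg
  congr 1
  funext G
  unfold s4Ec
  simp

variable {S : Type} [MeasurableSpace S]

open Classical in
/-- the law of a random variable on the sample space -/
def s4xLaw (n d k : ℕ) (X : SimpleGraph (Fin n) → (Fin k → Fin n) → (Fin k → Fin n) → S) : Measure S :=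
  ENNReal.ofReal ((((regularGraphs n d).card : ℝ))⁻¹ * (((n : ℝ) * d) ^ k)⁻¹) •
    ∑ G ∈ regularGraphs n d, ∑ v : Fin k → Fin n, ∑ w : Fin k → Fin n, if (∀ a, G.Adj (v a) (w a)) then Measure.dirac (X G v w) else 0

theorem s4x_law_eqns_cite : True := by
  have := @s4xLaw.eq_1
  trivial

/-- **LEAF B8** (model: `tp_lawG_integral`, `Top274.lean`: `integral_smul_measure`, `integral_finsetSum_measure`, `integrable_dirac`, `integral_dirac`; `integral_zero_measure` for the `else` branch) -/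
theorem s4x_law_integral [MeasurableSingletonClass S] (X : SimpleGraph (Fin n) → (Fin k → Fin n) → (Fin k → Fin n) → S) (F : S → ℝ) :
    ∫ s, F s ∂(s4xLaw n d k X) = s4E n d k fun G v w => F (X G v w) := by
  classical
  have hint : ∀ (G : SimpleGraph (Fin n)) (v w : Fin k → Fin n),
      Integrable F (if (∀ a, G.Adj (v a) (w a)) then Measure.dirac (X G v w) else 0) := by
    intro G v w
    split_ifs
    · exact integrable_dirac (by simp)
    · exact integrable_zero_measure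
  have hval : ∀ (G : SimpleGraph (Fin n)) (v w : Fin k → Fin n),
      ∫ s, F s ∂(if (∀ a, G.Adj (v a) (w a)) then Measure.dirac (X G v w) else 0)
        = if (∀ a, G.Adj (v a) (w a)) then F (X G v w) else 0 := by
    intro G v w
    split_ifs
    · exact integral_dirac _ _
    · exact integral_zero_measure _
  have hw : ∀ (G : SimpleGraph (Fin n)) (v : Fin k → Fin n),
      Integrable F (∑ w : Fin k → Fin n, if (∀ a, G.Adj (v a) (w a)) then Measure.dirac (X G v w) else 0) :=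
    fun G v => integrable_finsetSum_measure.2 fun w _ => hint G v w
  have hv : ∀ (G : SimpleGraph (Fin n)),
      Integrable F (∑ v : Fin k → Fin n, ∑ w : Fin k → Fin n, if (∀ a, G.Adj (v a) (w a)) then Measure.dirac (X G v w) else 0) :=
    fun G => integrable_finsetSum_measure.2 fun v _ => hw G v
  unfold s4xLaw
  rw [integral_smul_measure, integral_finsetSum_measure (fun G _ => hv G)]
  have e1 : ∀ G : SimpleGraph (Fin n),
      ∫ s, F s ∂(∑ v : Fin k → Fin n, ∑ w : Fin k → Fin n, if (∀ a, G.Adj (v a) (w a)) then Measure.dirac (X G v w) else 0)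
        = ∑ v : Fin k → Fin n, ∑ w : Fin k → Fin n, if (∀ a, G.Adj (v a) (w a)) then F (X G v w) else 0 := by
    intro G
    rw [integral_finsetSum_measure (fun v _ => hw G v)]
    refine Finset.sum_congr rfl fun v _ => ?_
    rw [integral_finsetSum_measure (fun w _ => hint G v w)]
    exact Finset.sum_congr rfl fun w _ => hval G v w
  simp only [e1]
  rw [ENNReal.toReal_ofReal (by positivity), smul_eq_mul]
  unfold s4E s4Eg s4Ec
  rw [← Finset.sum_div, div_div, div_eq_inv_mul, mul_inv]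
  ring

/-- the law of an event (no hypothesis) -/
theorem s4x_law_apply_aux (X : SimpleGraph (Fin n) → (Fin k → Fin n) → (Fin k → Fin n) → S) {A : Set S} (hA : MeasurableSet A) :
    s4xLaw n d k X A = ENNReal.ofReal (s4Pr n d k fun G v w => X G v w ∈ A) := by
  classical
  unfold s4xLaw
  rw [Measure.smul_apply, Measure.finsetSum_apply, smul_eq_mul]
  have h0 : ∀ (G : SimpleGraph (Fin n)) (v w : Fin k → Fin n),
      (0 : ℝ) ≤ if (∀ a, G.Adj (v a) (w a)) then (if X G v w ∈ A then (1 : ℝ) else 0) else 0 := by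
    intro G v w
    split_ifs <;> norm_num
  have h1 : ∀ G : SimpleGraph (Fin n),
      (∑ v : Fin k → Fin n, ∑ w : Fin k → Fin n, if (∀ a, G.Adj (v a) (w a)) then Measure.dirac (X G v w) else 0) A
        = ENNReal.ofReal (∑ v : Fin k → Fin n, ∑ w : Fin k → Fin n,
            if (∀ a, G.Adj (v a) (w a)) then (if X G v w ∈ A then (1 : ℝ) else 0) else 0) := by
    intro G
    rw [Measure.finsetSum_apply, ENNReal.ofReal_sum_of_nonneg fun v _ => Finset.sum_nonneg fun w _ => h0 G v w]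
    refine Finset.sum_congr rfl fun v _ => ?_
    rw [Measure.finsetSum_apply, ENNReal.ofReal_sum_of_nonneg fun w _ => h0 G v w]
    refine Finset.sum_congr rfl fun w _ => ?_
    split_ifs with h1 h2
    · rw [Measure.dirac_apply' _ hA]; simp [h2]
    · rw [Measure.dirac_apply' _ hA]; simp [h2]
    · simp
  simp only [h1]
  rw [← ENNReal.ofReal_sum_of_nonneg fun G _ => Finset.sum_nonneg fun v _ => Finset.sum_nonneg fun w _ => h0 G v w,
    ← ENNReal.ofReal_mul (by positivity)]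
  congr 1
  unfold s4Pr s4E s4Eg s4Ec
  rw [← Finset.sum_div, div_div, div_eq_inv_mul, mul_inv]
  ring

/-- **LEAF B9** (`s4x_count`; model: `tp_lawG_prob`) -/
theorem s4x_law_prob (hne : (regularGraphs n d).Nonempty) (hn : 0 < n) (hd : 0 < d)
    (X : SimpleGraph (Fin n) → (Fin k → Fin n) → (Fin k → Fin n) → S) : IsProbabilityMeasure (s4xLaw n d k X) := by
  constructor
  rw [s4x_law_apply_aux X MeasurableSet.univ]
  have : s4Pr n d k (fun G v w => X G v w ∈ (Set.univ : Set S)) = 1 := by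
    unfold s4Pr
    simp only [Set.mem_univ, if_true]
    exact s4x_E_one hne hn hd
  rw [this, ENNReal.ofReal_one]

/-- **LEAF B10** (`s4x_law_integral` for the indicator of `A`, `integral_indicator_one`; or directly) -/
theorem s4x_law_apply [MeasurableSingletonClass S] (hne : (regularGraphs n d).Nonempty) (hn : 0 < n) (hd : 0 < d)
    (X : SimpleGraph (Fin n) → (Fin k → Fin n) → (Fin k → Fin n) → S) {A : Set S} (hA : MeasurableSet A) :
    s4xLaw n d k X A = ENNReal.ofReal (s4Pr n d k fun G v w => X G v w ∈ A) :=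
  s4x_law_apply_aux X hA

end sample

/-! ## C. Dictionary, continuity, algebra -/

section dict

variable {k b : ℕ}

/-- **LEAF C1** (`Prod.norm_def`, `max_le_iff`, `Matrix.norm_le_iff`) -/
theorem s4x_close_iff {X Y : SwSt k} {τ : ℝ} (hτ : 0 ≤ τ) : S4Close X Y τ ↔ ‖X - Y‖ ≤ τ := by
  unfold S4Close
  rw [Prod.norm_def, Prod.norm_def, max_le_iff, max_le_iff, Matrix.norm_le_iff hτ, Matrix.norm_le_iff hτ]
  rfl

/-- the graph vector at the points `z i` -/
def s4xX {n : ℕ} (E : ℝ) (k : ℕ) (z : Fin b → ℂ) (G : SimpleGraph (Fin n)) (v w : Fin k → Fin n) : Fin b → SwSt k :=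
  fun i => s4X G E v w (z i)

/-- the window vector at the points `z i`, as a function of (positions, marks) -/
def s4xY (k d : ℕ) (E : ℝ) (L : ℕ) (R : ℝ) (z : Fin b → ℂ) (xβ : (Win L → ℝ) × Matrix (Win L) (Ch k) ℝ) : Fin b → SwSt k :=
  fun i => s4Y k d E L R xβ.1 xβ.2 (z i)

/-- the model vector at the points `z i` -/
def s4xM (k d : ℕ) (E : ℝ) (L : ℕ) (z : Fin b → ℂ) (x : Conf) (g : Matrix (Win L) (Ch k) ℝ) : Fin b → SwSt k :=
  fun i => swX k L (E / d) (1 / d) (mRe d E) x g (z i)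

/-- the anchoring error `ε = iπρ - ∑_{|j| ≤ L} 1/(x_j - iR)` -/
def s4xEps (ρ : ℝ) (L : ℕ) (R : ℝ) (x : Conf) : ℂ := ((Real.pi * ρ : ℝ) : ℂ) * Complex.I - cSK L x ⟨0, R⟩

theorem s4x_dict_eqns_cite : True := by
  have := @s4xX.eq_1
  have := @s4xY.eq_1
  have := @s4xM.eq_1
  have := @s4xEps.eq_1
  trivial

/-- **LEAF C2** (continuity of the window vector in (positions, marks)).      `continuous_pi`, then the three components; entries of matrices by `continuous_matrix`; `x ↦ ((x i : ℂ) - z)⁻¹` is continuous since `Im ((x i : ℂ) - z) = - Im z ≠ 0` (`Continuous.inv₀`). -/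
theorem s4x_Y_cont (k d : ℕ) (E : ℝ) (L : ℕ) (R : ℝ) (hR : 0 < R) {z : Fin b → ℂ} (hz : ∀ i, 0 < (z i).im) : Continuous (s4xY k d E L R z) := by
  have hne : ∀ (t : ℝ) (ζ : ℂ), 0 < ζ.im → ((t : ℂ) - ζ) ≠ 0 := by
    intro t ζ hζ h0
    have := congrArg Complex.im h0
    simp at this
    linarith
  have hx : ∀ j : Win L, Continuous fun xβ : (Win L → ℝ) × Matrix (Win L) (Ch k) ℝ => ((xβ.1 j : ℝ) : ℂ) :=
    fun j => Complex.continuous_ofReal.comp ((continuous_apply j).comp continuous_fst)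
  have hinv : ∀ (j : Win L) (ζ : ℂ), 0 < ζ.im →
      Continuous fun xβ : (Win L → ℝ) × Matrix (Win L) (Ch k) ℝ => (((xβ.1 j : ℝ) : ℂ) - ζ)⁻¹ :=
    fun j ζ hζ => ((hx j).sub continuous_const).inv₀ fun xβ => hne _ ζ hζ
  have hβ : ∀ (j : Win L) (c : Ch k), Continuous fun xβ : (Win L → ℝ) × Matrix (Win L) (Ch k) ℝ => ((xβ.2 j c : ℝ) : ℂ) :=
    fun j c => Complex.continuous_ofReal.comp ((continuous_apply c).comp ((continuous_apply j).comp continuous_snd))
  have hvv : ∀ j : Win L, Continuous fun xβ : (Win L → ℝ) × Matrix (Win L) (Ch k) ℝ => toC (Matrix.vecMulVec (xβ.2 j) (xβ.2 j)) := by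
    intro j
    refine continuous_matrix fun c c' => ?_
    simp only [toC, Matrix.map_apply, Matrix.vecMulVec_apply, Complex.ofReal_mul]
    exact (hβ j c).mul (hβ j c')
  have hR' : 0 < (⟨0, R⟩ : ℂ).im := hR
  have hYa : ∀ i, Continuous fun xβ : (Win L → ℝ) × Matrix (Win L) (Ch k) ℝ => s4Ya d E L R xβ.1 (z i) := by
    intro i
    unfold s4Ya
    exact continuous_const.add (continuous_finsetSum _ fun j _ => (hinv j _ (hz i)).sub (hinv j _ hR'))
  refine continuous_pi fun i => ?_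
  unfold s4xY s4Y
  refine (hYa i).prodMk (Continuous.prodMk ?_ ?_)
  · refine Continuous.add ?_ (continuous_finsetSum _ fun j _ => (hinv j _ (hz i)).smul ((hvv j).sub continuous_const))
    unfold s4K
    exact ((hYa i).smul continuous_const).add continuous_const
  · exact continuous_finsetSum _ fun j _ => ((hinv j _ (hz i)).pow 2).smul (hvv j)

/-- `βᵀ D β = ∑_i D_i β_i β_iᵀ` -/
theorem s4x_sandwich {L k : ℕ} (β : Matrix (Win L) (Ch k) ℝ) (w : Win L → ℂ) :
    (toC β)ᵀ * Matrix.diagonal w * toC β = ∑ i : Win L, w i • toC (Matrix.vecMulVec (β i) (β i)) := by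
  ext c c'
  rw [Matrix.mul_apply, Matrix.sum_apply]
  refine Finset.sum_congr rfl fun i _ => ?_
  rw [Matrix.mul_diagonal, Matrix.smul_apply, smul_eq_mul]
  simp only [toC, Matrix.transpose_apply, Matrix.map_apply, Matrix.vecMulVec_apply, Complex.ofReal_mul]
  ring

/-- **LEAF C3** (algebra).      `β = g Aᵀ`: `A gᵀ D g Aᵀ = βᵀ D β = ∑_i D_i β_i β_iᵀ`;   `s4Ms = m_r + iπρ`;   `K_k(a) - K_k(m_r) = (a - m_r) C_k`;   `Tr cRes 1 = cSK L x z`. -/
theorem s4x_Y_swX (k d : ℕ) (E : ℝ) (L : ℕ) (R : ℝ) (x : Conf) (g : Matrix (Win L) (Ch k) ℝ) (z : ℂ) :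
    s4Y k d E L R (cPos L x) (g * (chA k (E / d))ᵀ) z = swX k L (E / d) (1 / d) (mRe d E) x g z
      + (s4xEps (kestenMcKay d E) L R x, s4xEps (kestenMcKay d E) L R x • toC (chC k (E / d)), 0) := by
  have hβ : toC (g * (chA k (E / d))ᵀ) = toC g * (toC (chA k (E / d)))ᵀ := by
    unfold toC
    exact Matrix.map_mul (f := Complex.ofRealHom)
  have hsw : ∀ w : Win L → ℂ, toC (chA k (E / d)) * (toC g)ᵀ * Matrix.diagonal w * toC g * (toC (chA k (E / d)))ᵀ
      = ∑ i : Win L, w i • toC (Matrix.vecMulVec ((g * (chA k (E / d))ᵀ) i) ((g * (chA k (E / d))ᵀ) i)) := by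
    intro w
    rw [← s4x_sandwich, hβ, Matrix.transpose_mul, Matrix.transpose_transpose]
    simp only [Matrix.mul_assoc]
  have hMs : s4Ms d E = ((mRe d E : ℝ) : ℂ) + ((Real.pi * kestenMcKay d E : ℝ) : ℂ) * Complex.I := by
    apply Complex.ext <;> simp [s4Ms]
  have htr : Matrix.trace (cRes L x z 1) = ∑ i : Win L, (((cPos L x i : ℝ) : ℂ) - z)⁻¹ := by
    unfold cRes
    rw [Matrix.trace_diagonal]
    simp
  have ha : s4Ya d E L R (cPos L x) z = ((mRe d E : ℝ) : ℂ) + (∑ i : Win L, (((cPos L x i : ℝ) : ℂ) - z)⁻¹)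
      + s4xEps (kestenMcKay d E) L R x := by
    unfold s4Ya s4xEps cSK
    rw [hMs, Finset.sum_sub_distrib]
    ring
  refine Prod.ext ?_ (Prod.ext ?_ ?_)
  · show s4Ya d E L R (cPos L x) z = ((mRe d E : ℝ) : ℂ) + Matrix.trace (cRes L x z 1) + s4xEps (kestenMcKay d E) L R x
    rw [ha, htr]
  · show s4K k d E (s4Ya d E L R (cPos L x) z) + ∑ i : Win L, (((cPos L x i : ℝ) : ℂ) - z)⁻¹ •
        (toC (Matrix.vecMulVec ((g * (chA k (E / d))ᵀ) i) ((g * (chA k (E / d))ᵀ) i)) - toC (chC k (E / d)))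
      = toC (chK k (E / d) (1 / d) (mRe d E)) + toC (chA k (E / d)) * (toC g)ᵀ * cRes L x z 1 * toC g * (toC (chA k (E / d)))ᵀ
        + s4xEps (kestenMcKay d E) L R x • toC (chC k (E / d))
    have hK : toC (chK k (E / d) (1 / d) (mRe d E)) = ((mRe d E : ℝ) : ℂ) • toC (chC k (E / d)) + ((d : ℂ)⁻¹) • toC (chJ k) := by
      ext c c'
      simp [toC, chK]
    have hc1 : cRes L x z 1 = Matrix.diagonal fun i => (((cPos L x i : ℝ) : ℂ) - z)⁻¹ := by
      unfold cRes; simp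
    rw [hc1, hsw, hK, ha]
    unfold s4K
    simp only [smul_sub, Finset.sum_sub_distrib, ← Finset.sum_smul, add_smul]
    abel
  · show ∑ i : Win L, ((((cPos L x i : ℝ) : ℂ) - z)⁻¹) ^ 2 • toC (Matrix.vecMulVec ((g * (chA k (E / d))ᵀ) i) ((g * (chA k (E / d))ᵀ) i))
      = toC (chA k (E / d)) * (toC g)ᵀ * cRes L x z 2 * toC g * (toC (chA k (E / d)))ᵀ + 0
    unfold cRes
    rw [hsw, add_zero]

/-- **LEAF C4** (`s4x_Y_swX`; the entries of `C_k = 1 + p J` are `0, 1, p`; `pi_norm_le_iff_of_nonneg`, `Matrix.norm_le_iff`) -/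
theorem s4x_Y_swX_norm (k d : ℕ) (E : ℝ) (hp : |E / d| ≤ 1) (L : ℕ) (R : ℝ) (z : Fin b → ℂ) (x : Conf) (g : Matrix (Win L) (Ch k) ℝ) :
    ‖s4xY k d E L R z (cPos L x, g * (chA k (E / d))ᵀ) - s4xM k d E L z x g‖ ≤ ‖s4xEps (kestenMcKay d E) L R x‖ := by
  rw [pi_norm_le_iff_of_nonneg (norm_nonneg _)]
  intro i
  have h := s4x_Y_swX k d E L R x g (z i)
  have e : (s4xY k d E L R z (cPos L x, g * (chA k (E / d))ᵀ) - s4xM k d E L z x g) i
      = (s4xEps (kestenMcKay d E) L R x, s4xEps (kestenMcKay d E) L R x • toC (chC k (E / d)), 0) := by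
    simp only [Pi.sub_apply, s4xY, s4xM]
    rw [h, add_sub_cancel_left]
  rw [e, Prod.norm_def, Prod.norm_def, max_le_iff, max_le_iff]
  refine ⟨le_rfl, ?_, by simp⟩
  show ‖s4xEps (kestenMcKay d E) L R x • toC (chC k (E / d))‖ ≤ _
  rw [Matrix.norm_le_iff (norm_nonneg _)]
  intro c c'
  rw [Matrix.smul_apply, norm_smul]
  have h1 : ‖toC (chC k (E / d)) c c'‖ ≤ 1 := by
    have h2 : |chC k (E / d) c c'| ≤ 1 := by
      rcases c with a | a <;> rcases c' with a' | a' <;> by_cases haa : a = a' <;>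
        simp [chC, chJ, Matrix.one_apply, haa, hp]
    simpa [toC] using h2
  calc ‖s4xEps (kestenMcKay d E) L R x‖ * ‖toC (chC k (E / d)) c c'‖ ≤ ‖s4xEps (kestenMcKay d E) L R x‖ * 1 :=
        mul_le_mul_of_nonneg_left h1 (norm_nonneg _)
    _ = _ := mul_one _

end dict

/-! ## D. The lattice sum under `CReg` (M3) -/

/-- symmetric sums over the labels, paired -/
theorem s4x_sum_sym {M : Type} [AddCommMonoid M] (L : ℕ) (F : ℤ → M) :
    ∑ j ∈ Finset.Icc (-(L : ℤ)) L, F j = F 0 + ∑ i ∈ Finset.range L, (F ((i + 1 : ℕ) : ℤ) + F (-((i + 1 : ℕ) : ℤ))) := by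
  induction L with
  | zero => simp
  | succ L ih =>
    have h : Finset.Icc (-((L + 1 : ℕ) : ℤ)) ((L + 1 : ℕ) : ℤ)
        = insert (((L + 1 : ℕ) : ℤ)) (insert (-((L + 1 : ℕ) : ℤ)) (Finset.Icc (-(L : ℤ)) L)) := by
      ext j
      simp only [Finset.mem_insert, Finset.mem_Icc]
      push_cast
      omega
    rw [h, Finset.sum_insert, Finset.sum_insert, ih, Finset.sum_range_succ]
    · abel
    · simp only [Finset.mem_Icc]; push_cast; omega
    · simp only [Finset.mem_insert, Finset.mem_Icc]; push_cast; omega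

/-- `1/(a - iR)` -/
theorem s4x_inv_eq (a R : ℝ) :
    ((a : ℂ) - (⟨0, R⟩ : ℂ))⁻¹ = ⟨a / (a ^ 2 + R ^ 2), R / (a ^ 2 + R ^ 2)⟩ := by
  apply Complex.ext
  · rw [Complex.inv_re, Complex.normSq_apply]
    simp only [Complex.sub_re, Complex.sub_im, Complex.ofReal_re, Complex.ofReal_im]
    congr 1 <;> ring
  · rw [Complex.inv_im, Complex.normSq_apply]
    simp only [Complex.sub_re, Complex.sub_im, Complex.ofReal_re, Complex.ofReal_im]
    congr 1 <;> ring

/-- the profile `R/(s²/ρ² + R²)` -/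
theorem s4x_prof_int {ρ R : ℝ} (hρ : 0 < ρ) (hR : 0 < R) (b : ℝ) :
    ∫ s in (0 : ℝ)..b, R / ((s / ρ) ^ 2 + R ^ 2) = ρ * Real.arctan (b / (ρ * R)) := by
  have hd : ∀ s ∈ Set.uIcc (0 : ℝ) b, HasDerivAt (fun s => ρ * Real.arctan (s / (ρ * R))) (R / ((s / ρ) ^ 2 + R ^ 2)) s := by
    intro s _
    have h1 : HasDerivAt (fun s : ℝ => s / (ρ * R)) (1 / (ρ * R)) s := (hasDerivAt_id s).div_const _
    have h2 := (h1.arctan).const_mul ρ
    refine h2.congr_deriv ?_
    symm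
    have hρR : ρ * R ≠ 0 := (mul_pos hρ hR).ne'
    have h3 : (0 : ℝ) < 1 + (s / (ρ * R)) ^ 2 := by positivity
    have h4 : (0 : ℝ) < (s / ρ) ^ 2 + R ^ 2 := by positivity
    rw [div_eq_iff h4.ne']
    field_simp
    ring
  have hc : Continuous fun s : ℝ => R / ((s / ρ) ^ 2 + R ^ 2) := by
    refine continuous_const.div (by fun_prop) fun s => ?_
    positivity
  rw [intervalIntegral.integral_eq_sub_of_hasDerivAt hd (hc.intervalIntegrable _ _)]
  simp

theorem s4x_prof_anti {ρ R : ℝ} (hρ : 0 < ρ) (hR : 0 < R) (b : ℝ) :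
    AntitoneOn (fun s : ℝ => R / ((s / ρ) ^ 2 + R ^ 2)) (Set.Icc 0 b) := by
  intro s hs t ht hst
  have h1 : (s / ρ) ^ 2 ≤ (t / ρ) ^ 2 :=
    pow_le_pow_left₀ (div_nonneg hs.1 hρ.le) (div_le_div_of_nonneg_right hst hρ.le) 2
  exact div_le_div_of_nonneg_left hR.le (by positivity) (by linarith)

/-- **LEAF D1** (the exact lattice).      Pair `j, -j`: `∑_{|j| ≤ L} 1/(j/ρ - iR) = i ∑_{|j| ≤ L} f(j)`, `f(s) = R/(s²/ρ² + R²)` even, decreasing on `[0,∞)`, `∫_0^L f = ρ arctan (L/(ρR))`;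
`∑_{j=1}^{L} f(j) ≤ ∫_0^L f ≤ ∑_{j=0}^{L-1} f(j)` (`AntitoneOn.sum_le_integral`, `AntitoneOn.integral_le_sum`), `f(0) = 1/R`. -/
theorem s4x_lat_exact {ρ R : ℝ} (hρ : 0 < ρ) (hR : 0 < R) (L : ℕ) :
    ‖(∑ i : Win L, ((((wIdx i : ℤ) : ℝ) / ρ : ℝ) - (⟨0, R⟩ : ℂ))⁻¹) - ((Real.pi * ρ : ℝ) : ℂ) * Complex.I‖
      ≤ 1 / R + 2 * ρ * (Real.pi / 2 - Real.arctan (L / (ρ * R))) := by
  obtain ⟨f, hf⟩ : ∃ f : ℝ → ℝ, f = fun s : ℝ => R / ((s / ρ) ^ 2 + R ^ 2) := ⟨_, rfl⟩
  have e1 : (∑ i : Win L, ((((wIdx i : ℤ) : ℝ) / ρ : ℝ) - (⟨0, R⟩ : ℂ))⁻¹)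
      = ((1 / R + 2 * ∑ i ∈ Finset.range L, f ((i + 1 : ℕ) : ℝ) : ℝ) : ℂ) * Complex.I := by
    rw [k9_sum_win L (fun j : ℤ => ((((j : ℝ) / ρ : ℝ) : ℂ) - (⟨0, R⟩ : ℂ))⁻¹), s4x_sum_sym]
    have h0 : (((((0 : ℤ) : ℝ) / ρ : ℝ) : ℂ) - (⟨0, R⟩ : ℂ))⁻¹ = ((1 / R : ℝ) : ℂ) * Complex.I := by
      rw [s4x_inv_eq]
      apply Complex.ext
      · simp
      · simp only [Int.cast_zero, zero_div, Complex.mul_im, Complex.ofReal_re, Complex.I_im, Complex.ofReal_im, Complex.I_re]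
        field_simp
        ring
    have h1 : ∀ i : ℕ, ((((((i + 1 : ℕ) : ℤ) : ℝ) / ρ : ℝ) : ℂ) - (⟨0, R⟩ : ℂ))⁻¹
        + ((((-((i + 1 : ℕ) : ℤ) : ℤ) : ℝ) / ρ : ℝ) - (⟨0, R⟩ : ℂ))⁻¹ = ((2 * f ((i + 1 : ℕ) : ℝ) : ℝ) : ℂ) * Complex.I := by
      intro i
      rw [s4x_inv_eq, s4x_inv_eq, hf]
      apply Complex.ext
      · simp only [Complex.add_re, Complex.mul_re, Complex.ofReal_re, Complex.I_re, Complex.ofReal_im, Complex.I_im]
        push_cast
        ring
      · simp only [Complex.add_im, Complex.mul_im, Complex.ofReal_re, Complex.I_re, Complex.ofReal_im, Complex.I_im]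
        push_cast
        ring
    rw [h0, Finset.sum_congr rfl fun i _ => h1 i, ← Finset.sum_mul, ← add_mul]
    congr 1
    push_cast
    rw [Finset.mul_sum]
  rw [e1, ← sub_mul, norm_mul, Complex.norm_I, mul_one, ← Complex.ofReal_sub, Complex.norm_real, Real.norm_eq_abs]
  have hanti : AntitoneOn f (Set.Icc (0 : ℝ) (0 + (L : ℕ))) := hf ▸ s4x_prof_anti hρ hR _
  have a1 := hanti.sum_le_integral
  have a2 := hanti.integral_le_sum
  have hint : ∫ s in (0 : ℝ)..(0 + (L : ℕ)), f s = ρ * Real.arctan (L / (ρ * R)) := by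
    rw [hf, zero_add]; exact s4x_prof_int hρ hR _
  rw [hint] at a1 a2
  simp only [zero_add] at a1 a2
  have a3 : ∑ i ∈ Finset.range L, f (i : ℝ) + f L = ∑ i ∈ Finset.range L, f ((i + 1 : ℕ) : ℝ) + f ((0 : ℕ) : ℝ) := by
    rw [← Finset.sum_range_succ (fun i : ℕ => f (i : ℝ)), Finset.sum_range_succ' (fun i : ℕ => f (i : ℝ))]
  have f0 : f ((0 : ℕ) : ℝ) = 1 / R := by
    rw [hf]; simp only [Nat.cast_zero, zero_div]; field_simp; ring
  have fL : 0 ≤ f L := by rw [hf]; positivity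
  have h4 := Real.arctan_lt_pi_div_two ((L : ℝ) / (ρ * R))
  have h5 : 0 ≤ ρ * (Real.pi / 2 - Real.arctan (L / (ρ * R))) := mul_nonneg hρ.le (by linarith)
  have h6 : 0 < 1 / R := by positivity
  have h7 : 2 * ρ * (Real.pi / 2 - Real.arctan (L / (ρ * R))) = Real.pi * ρ - 2 * (ρ * Real.arctan (L / (ρ * R))) := by ring
  rw [h7]
  set A := ∑ i ∈ Finset.range L, f ((i + 1 : ℕ) : ℝ) with hA
  set B := ∑ i ∈ Finset.range L, f (i : ℝ) with hB
  rw [abs_le]
  constructor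
  · have t1 : B = A + 1 / R - f L := by rw [← f0]; linarith
    have t2 : ρ * Real.arctan (L / (ρ * R)) ≤ A + 1 / R := by linarith
    linarith
  · linarith

theorem s4x_norm_ge (a : ℝ) {R : ℝ} (hR : 0 < R) : R ≤ ‖(a : ℂ) - (⟨0, R⟩ : ℂ)‖ ∧ |a| ≤ ‖(a : ℂ) - (⟨0, R⟩ : ℂ)‖ := by
  constructor
  · have h := Complex.abs_im_le_norm ((a : ℂ) - (⟨0, R⟩ : ℂ))
    simp only [Complex.sub_im, Complex.ofReal_im, zero_sub, abs_neg, abs_of_pos hR] at h
    exact h
  · have h := Complex.abs_re_le_norm ((a : ℂ) - (⟨0, R⟩ : ℂ))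
    simpa using h

/-- crude bound -/
theorem s4x_diff_crude (a b : ℝ) {R : ℝ} (hR : 0 < R) :
    ‖((a : ℂ) - (⟨0, R⟩ : ℂ))⁻¹ - ((b : ℂ) - (⟨0, R⟩ : ℂ))⁻¹‖ ≤ 2 / R := by
  have h : ∀ c : ℝ, ‖((c : ℂ) - (⟨0, R⟩ : ℂ))⁻¹‖ ≤ 1 / R := fun c => by
    rw [norm_inv, ← one_div]
    exact one_div_le_one_div_of_le hR (s4x_norm_ge c hR).1
  refine (norm_sub_le _ _).trans ?_
  have := h a
  have := h b
  have e : 2 / R = 1 / R + 1 / R := by ring
  linarith

/-- fine bound -/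
theorem s4x_diff_fine {a b : ℝ} {R : ℝ} (hR : 0 < R) (hb : b ≠ 0) (hab : |a - b| ≤ |b| / 2) :
    ‖((a : ℂ) - (⟨0, R⟩ : ℂ))⁻¹ - ((b : ℂ) - (⟨0, R⟩ : ℂ))⁻¹‖ ≤ 2 * |a - b| / b ^ 2 := by
  have hb0 : 0 < |b| := abs_pos.2 hb
  have na := s4x_norm_ge a hR
  have nb := s4x_norm_ge b hR
  have ha0 : ((a : ℂ) - (⟨0, R⟩ : ℂ)) ≠ 0 := norm_pos_iff.1 (hR.trans_le na.1)
  have hb0' : ((b : ℂ) - (⟨0, R⟩ : ℂ)) ≠ 0 := norm_pos_iff.1 (hR.trans_le nb.1)
  have h1 : |b| / 2 ≤ |a| := by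
    have := abs_sub_abs_le_abs_sub b a
    rw [abs_sub_comm b a] at this
    linarith
  rw [inv_sub_inv ha0 hb0', norm_div, norm_mul]
  have e1 : ((b : ℂ) - (⟨0, R⟩ : ℂ)) - ((a : ℂ) - (⟨0, R⟩ : ℂ)) = ((b - a : ℝ) : ℂ) := by push_cast; ring
  rw [e1, Complex.norm_real, Real.norm_eq_abs, abs_sub_comm b a]
  have h2 : b ^ 2 / 2 ≤ ‖(a : ℂ) - (⟨0, R⟩ : ℂ)‖ * ‖(b : ℂ) - (⟨0, R⟩ : ℂ)‖ := by
    have : |b| / 2 * |b| ≤ ‖(a : ℂ) - (⟨0, R⟩ : ℂ)‖ * ‖(b : ℂ) - (⟨0, R⟩ : ℂ)‖ :=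
      mul_le_mul (h1.trans na.2) nb.2 hb0.le (norm_nonneg _)
    have e : |b| / 2 * |b| = b ^ 2 / 2 := by rw [← sq_abs b]; ring
    linarith
  have hb2 : 0 < b ^ 2 := by positivity
  calc |a - b| / (‖(a : ℂ) - (⟨0, R⟩ : ℂ)‖ * ‖(b : ℂ) - (⟨0, R⟩ : ℂ)‖) ≤ |a - b| / (b ^ 2 / 2) :=
        div_le_div_of_nonneg_left (abs_nonneg _) (by positivity) h2
    _ = 2 * |a - b| / b ^ 2 := by field_simp

/-- one far label -/
theorem s4x_far_label {ρ χ C₀ y a : ℝ} (hρ : 0 < ρ) (hχ : 0 < χ) {R : ℝ} (hR : 0 < R) {b : ℝ} (hy : |b| = y / ρ)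
    (hy0 : (2 * ρ * |C₀| + 1) ^ χ⁻¹ ≤ y) (hab : |a - b| ≤ C₀ * y ^ (1 - χ)) :
    ‖((a : ℂ) - (⟨0, R⟩ : ℂ))⁻¹ - ((b : ℂ) - (⟨0, R⟩ : ℂ))⁻¹‖ ≤ 2 * |C₀| * ρ ^ 2 * y ^ (-(1 + χ)) := by
  have hB : (0 : ℝ) < 2 * ρ * |C₀| + 1 := by positivity
  have hypos : 0 < y := (Real.rpow_pos_of_pos hB _).trans_le hy0
  have h1 : 2 * ρ * |C₀| + 1 ≤ y ^ χ := by
    have := Real.rpow_le_rpow (Real.rpow_pos_of_pos hB _).le hy0 hχ.le
    rwa [Real.rpow_inv_rpow hB.le hχ.ne'] at this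
  have hp : 0 < y ^ (1 - χ) := Real.rpow_pos_of_pos hypos _
  have e1 : y ^ χ * y ^ (1 - χ) = y := by
    rw [← Real.rpow_add hypos]; simp
  have hab' : |a - b| ≤ |C₀| * y ^ (1 - χ) := hab.trans (mul_le_mul_of_nonneg_right (le_abs_self _) hp.le)
  have h2 : |C₀| * y ^ (1 - χ) ≤ |b| / 2 := by
    rw [hy]
    have h3 : (2 * ρ * |C₀|) * y ^ (1 - χ) ≤ y := by
      calc (2 * ρ * |C₀|) * y ^ (1 - χ) ≤ y ^ χ * y ^ (1 - χ) := mul_le_mul_of_nonneg_right (by linarith) hp.le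
        _ = y := e1
    rw [div_div, le_div_iff₀ (by positivity)]
    linarith
  have hb : b ≠ 0 := by
    intro h
    rw [h, abs_zero] at hy
    have : 0 < y / ρ := by positivity
    linarith
  refine (s4x_diff_fine hR hb (hab'.trans h2)).trans ?_
  have e2 : b ^ 2 = y ^ 2 / ρ ^ 2 := by rw [← sq_abs, hy, div_pow]
  have e3 : y ^ (1 - χ) = y ^ (-(1 + χ)) * y ^ 2 := by
    rw [← Real.rpow_natCast y 2, ← Real.rpow_add hypos]
    congr 1
    push_cast
    ring
  rw [e2]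
  calc 2 * |a - b| / (y ^ 2 / ρ ^ 2) ≤ 2 * (|C₀| * y ^ (1 - χ)) / (y ^ 2 / ρ ^ 2) :=
        div_le_div_of_nonneg_right (by linarith) (by positivity)
    _ = 2 * |C₀| * ρ ^ 2 * y ^ (-(1 + χ)) := by
      rw [e3]
      field_simp

/-- **LEAF D2** (perturbation of the lattice).      `J₁ = max J₀ ⌈(2ρ|C₀|)^{1/χ}⌉₊`.   `|j| < J₁`: both terms are `≤ 1/R`.   `|j| ≥ J₁`: `|x_j - j/ρ| ≤ C₀ |j|^{1-χ} ≤ |j|/(2ρ)`, so `|x_j - iR|² ≥ (j²/ρ² + R²)/4` and the difference is `≤ 2 C₀ |j|^{1-χ}/(j²/ρ² + R²) =: t_j(R)`;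
`t_j(R) ≤ 2 C₀ ρ² |j|^{-1-χ}` (summable: `Real.summable_abs_int_rpow`), `t_j(R) → 0`: `tendsto_tsum_of_dominated_convergence`. -/
theorem s4x_lat_pert {ρ χ C₀ : ℝ} (hρ : 0 < ρ) (hχ : 0 < χ) (J₀ : ℕ) (δ : ℝ) (hδ : 0 < δ) :
    ∃ R₁ : ℝ, 0 < R₁ ∧ ∀ R : ℝ, R₁ ≤ R → ∀ (L : ℕ) (x : Conf), CReg ρ χ C₀ J₀ x →
      ∑ i : Win L, ‖((cPos L x i : ℂ) - (⟨0, R⟩ : ℂ))⁻¹ - ((((wIdx i : ℤ) : ℝ) / ρ : ℝ) - (⟨0, R⟩ : ℂ))⁻¹‖ ≤ δ := by
  classical
  have hsum : Summable fun j : ℤ => |(j : ℝ)| ^ (-(1 + χ)) := Real.summable_abs_int_rpow (by linarith)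
  obtain ⟨ε, hε, hεδ⟩ : ∃ ε : ℝ, 0 < ε ∧ 2 * |C₀| * ρ ^ 2 * ε ≤ δ / 2 := by
    refine ⟨δ / (4 * (|C₀| + 1) * ρ ^ 2), by positivity, ?_⟩
    have e : 2 * |C₀| * ρ ^ 2 * (δ / (4 * (|C₀| + 1) * ρ ^ 2)) = δ / 2 * (|C₀| / (|C₀| + 1)) := by field_simp; ring
    rw [e]
    have : |C₀| / (|C₀| + 1) ≤ 1 := (div_le_one (by positivity)).2 (by linarith)
    nlinarith
  obtain ⟨s, hs⟩ := summable_iff_vanishing_norm.1 hsum ε hε
  obtain ⟨J, hJ⟩ : ∃ J : ℕ, J = max (max J₀ ⌈(2 * ρ * |C₀| + 1) ^ χ⁻¹⌉₊) (s.sup Int.natAbs) := ⟨_, rfl⟩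
  have hJ0 : J₀ ≤ J := by rw [hJ]; exact (le_max_left _ _).trans (le_max_left _ _)
  have hJ1 : (2 * ρ * |C₀| + 1) ^ χ⁻¹ ≤ J := by
    refine (Nat.le_ceil _).trans ?_
    rw [hJ]
    exact_mod_cast (le_max_right _ _).trans (le_max_left _ _)
  have hJ2 : ∀ j ∈ s, j.natAbs ≤ J := fun j hj => by
    rw [hJ]; exact (Finset.le_sup (f := Int.natAbs) hj).trans (le_max_right _ _)
  refine ⟨4 * (2 * J + 1) / δ, by positivity, fun R hR L x hx => ?_⟩
  have hR0 : 0 < R := lt_of_lt_of_le (by positivity) hR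
  obtain ⟨F, hF⟩ : ∃ F : ℤ → ℝ, F = fun j => ‖((x j : ℂ) - (⟨0, R⟩ : ℂ))⁻¹ - ((((j : ℝ) / ρ : ℝ) : ℂ) - (⟨0, R⟩ : ℂ))⁻¹‖ := ⟨_, rfl⟩
  have e0 : ∑ i : Win L, ‖((cPos L x i : ℂ) - (⟨0, R⟩ : ℂ))⁻¹ - ((((wIdx i : ℤ) : ℝ) / ρ : ℝ) - (⟨0, R⟩ : ℂ))⁻¹‖
      = ∑ j ∈ Finset.Icc (-(L : ℤ)) L, F j := by
    rw [← k9_sum_win L F, hF]
    rfl
  rw [e0, ← Finset.sum_filter_add_sum_filter_not (Finset.Icc (-(L : ℤ)) L) (fun j : ℤ => |j| ≤ J) F]
  have p1 : ∑ j ∈ (Finset.Icc (-(L : ℤ)) L).filter (fun j : ℤ => |j| ≤ J), F j ≤ δ / 2 := by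
    have c1 : ((Finset.Icc (-(L : ℤ)) L).filter (fun j : ℤ => |j| ≤ J)).card ≤ 2 * J + 1 := by
      have hsub : (Finset.Icc (-(L : ℤ)) L).filter (fun j : ℤ => |j| ≤ J) ⊆ Finset.Icc (-(J : ℤ)) J := by
        intro j hj
        have := (Finset.mem_filter.1 hj).2
        rw [Finset.mem_Icc]
        exact abs_le.1 this
      refine (Finset.card_le_card hsub).trans ?_
      rw [Int.card_Icc]
      omega
    have c2 := Finset.sum_le_card_nsmul ((Finset.Icc (-(L : ℤ)) L).filter (fun j : ℤ => |j| ≤ J)) F (2 / R)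
      (fun j _ => by rw [hF]; exact s4x_diff_crude _ _ hR0)
    rw [nsmul_eq_mul] at c2
    have c3 : (((Finset.Icc (-(L : ℤ)) L).filter (fun j : ℤ => |j| ≤ J)).card : ℝ) ≤ 2 * J + 1 := by exact_mod_cast c1
    have c4 : (2 * (J : ℝ) + 1) * (2 / R) ≤ δ / 2 := by
      rw [div_le_iff₀ hδ] at hR
      have e : (2 * (J : ℝ) + 1) * (2 / R) = (4 * (2 * J + 1)) / (2 * R) := by field_simp; ring
      rw [e, div_le_iff₀ (by positivity)]
      linarith
    exact c2.trans ((mul_le_mul_of_nonneg_right c3 (by positivity)).trans c4)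
  have p2 : ∑ j ∈ (Finset.Icc (-(L : ℤ)) L).filter (fun j : ℤ => ¬ |j| ≤ J), F j ≤ δ / 2 := by
    have d1 : ∀ j ∈ (Finset.Icc (-(L : ℤ)) L).filter (fun j : ℤ => ¬ |j| ≤ J), F j ≤ 2 * |C₀| * ρ ^ 2 * |(j : ℝ)| ^ (-(1 + χ)) := by
      intro j hj
      have hj' : (J : ℤ) < |j| := not_le.1 (Finset.mem_filter.1 hj).2
      have hjr : (J : ℝ) ≤ |(j : ℝ)| := by
        have : ((J : ℤ) : ℝ) ≤ ((|j| : ℤ) : ℝ) := by exact_mod_cast hj'.le
        simpa using this
      rw [hF]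
      refine s4x_far_label (y := |(j : ℝ)|) hρ hχ hR0 ?_ (hJ1.trans hjr) (hx.2 j ?_)
      · rw [abs_div, abs_of_pos hρ]
      · have : (J₀ : ℤ) ≤ J := by exact_mod_cast hJ0
        linarith
    have d2 : Disjoint ((Finset.Icc (-(L : ℤ)) L).filter (fun j : ℤ => ¬ |j| ≤ J)) s := by
      rw [Finset.disjoint_left]
      intro j hj hjs
      have hj' : (J : ℤ) < |j| := not_le.1 (Finset.mem_filter.1 hj).2
      have := hJ2 j hjs
      rw [Int.abs_eq_natAbs] at hj'
      omega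
    have d3 := hs _ d2
    have d4 := (le_abs_self _).trans_lt (by rwa [Real.norm_eq_abs] at d3)
    calc _ ≤ ∑ j ∈ (Finset.Icc (-(L : ℤ)) L).filter (fun j : ℤ => ¬ |j| ≤ J), 2 * |C₀| * ρ ^ 2 * |(j : ℝ)| ^ (-(1 + χ)) :=
          Finset.sum_le_sum d1
      _ = 2 * |C₀| * ρ ^ 2 * ∑ j ∈ (Finset.Icc (-(L : ℤ)) L).filter (fun j : ℤ => ¬ |j| ≤ J), |(j : ℝ)| ^ (-(1 + χ)) := by
          rw [Finset.mul_sum]
      _ ≤ 2 * |C₀| * ρ ^ 2 * ε := mul_le_mul_of_nonneg_left d4.le (by positivity)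
      _ ≤ δ / 2 := hεδ
  linarith

/-- **M3**: under `CReg` the symmetric sums at the height `R` are close to `iπρ`, for `R` large and then `L` large -/
theorem s4x_lattice {ρ χ C₀ : ℝ} (hρ : 0 < ρ) (hχ : 0 < χ) (J₀ : ℕ) (δ : ℝ) (hδ : 0 < δ) :
    ∃ R₁ : ℝ, 0 < R₁ ∧ ∀ R : ℝ, R₁ ≤ R → ∃ L₁ : ℕ, ∀ L : ℕ, L₁ ≤ L → ∀ x : Conf, CReg ρ χ C₀ J₀ x → ‖s4xEps ρ L R x‖ ≤ δ := by
  obtain ⟨R₁, hR₁, h1⟩ := s4x_lat_pert (C₀ := C₀) hρ hχ J₀ (δ / 3) (by positivity)
  refine ⟨max R₁ (3 / δ), lt_max_of_lt_left hR₁, fun R hR => ?_⟩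
  have hR0 : 0 < R := lt_of_lt_of_le hR₁ ((le_max_left _ _).trans hR)
  have hRδ : 1 / R ≤ δ / 3 := by
    have : 3 / δ ≤ R := (le_max_right _ _).trans hR
    rw [div_le_iff₀ hδ] at this
    rw [div_le_div_iff₀ hR0 (by norm_num)]
    linarith
  have hat : Tendsto (fun L : ℕ => 2 * ρ * (Real.pi / 2 - Real.arctan ((L : ℝ) / (ρ * R)))) atTop (𝓝 (2 * ρ * (Real.pi / 2 - Real.pi / 2))) := by
    have h2 : Tendsto (fun L : ℕ => (L : ℝ) / (ρ * R)) atTop atTop := tendsto_natCast_atTop_atTop.atTop_div_const (by positivity)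
    have h3 : Tendsto (fun L : ℕ => Real.arctan ((L : ℝ) / (ρ * R))) atTop (𝓝 (Real.pi / 2)) :=
      (tendsto_nhds_of_tendsto_nhdsWithin Real.tendsto_arctan_atTop).comp h2
    exact (h3.const_sub _).const_mul _
  rw [sub_self, mul_zero] at hat
  obtain ⟨L₁, hL₁⟩ := eventually_atTop.1 ((tendsto_order.1 hat).2 (δ / 3) (by positivity))
  refine ⟨L₁, fun L hL x hx => ?_⟩
  have a1 := h1 R ((le_max_left _ _).trans hR) L x hx
  have a2 := s4x_lat_exact hρ hR0 L
  have a3 := (hL₁ L hL).le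
  have e : s4xEps ρ L R x = -((∑ i : Win L, (((cPos L x i : ℂ) - (⟨0, R⟩ : ℂ))⁻¹ - ((((wIdx i : ℤ) : ℝ) / ρ : ℝ) - (⟨0, R⟩ : ℂ))⁻¹))
      + ((∑ i : Win L, ((((wIdx i : ℤ) : ℝ) / ρ : ℝ) - (⟨0, R⟩ : ℂ))⁻¹) - ((Real.pi * ρ : ℝ) : ℂ) * Complex.I)) := by
    unfold s4xEps cSK
    rw [Finset.sum_sub_distrib]
    ring
  rw [e, norm_neg]
  refine (norm_add_le _ _).trans ?_
  have a4 := norm_sum_le (Finset.univ : Finset (Win L))
    (fun i => ((cPos L x i : ℂ) - (⟨0, R⟩ : ℂ))⁻¹ - ((((wIdx i : ℤ) : ℝ) / ρ : ℝ) - (⟨0, R⟩ : ℂ))⁻¹)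
  linarith

end

end Claimed.Agent.R287
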