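-- KEEP
import Claimed.Agent.R287.S5Cut
import Claimed.Agent.R287.ResD
import Claimed.Agent.R287.RowLaw

/-!
# R287 / unit S5 (P1 Sec. 5, head helper287) / top file

T3 `s5_goe` (exact coupling of the bilinear noise with GOE, F4: replaces the Lindeberg Lemma 5.6), T4 `s5_A_cauchy`,
the assembly `s5_main` ((I) for bounded Lipschitz tests), the passage to bounded continuous tests, the construction of
`S5In` from `LReg`, `LSw`, and **`s5_exit` = the statement of `exit_s5` of the Hub**.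
-/

set_option autoImplicit false
open MeasureTheory ProbabilityTheory Matrix Filter Topology Claims.C0462
open scoped ComplexOrder Matrix.Norms.L2Operator

namespace Claimed.Agent.R287

/-! ## 1. T3: coupling with GOE (F4) -/

section goe

/-- `∑_{ab} |(G' G)_{ab}|² ≤ q/η⁴` -/
theorem s5_GG_hs {ι : Type} [Fintype ι] [DecidableEq ι] {H H' : Matrix ι ι ℝ} (hH : H.IsHermitian)
    (hH' : H'.IsHermitian) {z : ℂ} (hz : 0 < z.im) :
    ∑ b, ∑ a, ‖(rsG H' z * rsG H z) b a‖ ^ 2 ≤ (Fintype.card ι : ℝ) / z.im ^ 4 := by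
  have h1 : ∀ b, ∑ a, ‖(rsG H' z * rsG H z) b a‖ ^ 2 ≤ 1 / z.im ^ 4 := by
    intro b
    have e : ∑ a, ‖(rsG H' z * rsG H z) b a‖ ^ 2 = rsvSq (rsv (rsC H) z *ᵥ (rsG H' z b)) := by
      unfold rsvSq
      refine Finset.sum_congr rfl fun a _ => ?_
      congr 2
      rw [Matrix.mul_apply, Matrix.mulVec, dotProduct, ← rs_G_eq_rsv]
      exact Finset.sum_congr rfl fun v _ => by rw [rs_G_symm hH hz.ne' v a, mul_comm]
    rw [e]
    refine (rsv_mulVec_sq_le (rs_C_herm hH) hz _).trans ?_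
    have e2 : rsvSq (rsG H' z b) = (rsG H' z b b).im / z.im := rs_ward hH' hz.ne' b
    rw [e2]
    have h3 := rs_G_im_le hH' hz b
    calc (rsG H' z b b).im / z.im / z.im ^ 2 ≤ (1 / z.im) / z.im / z.im ^ 2 := by gcongr
      _ = 1 / z.im ^ 4 := by field_simp
  calc ∑ b, ∑ a, ‖(rsG H' z * rsG H z) b a‖ ^ 2 ≤ ∑ _b : ι, 1 / z.im ^ 4 := Finset.sum_le_sum fun b _ => h1 b
    _ = (Fintype.card ι : ℝ) / z.im ^ 4 := by
        rw [Finset.sum_const, Finset.card_univ, nsmul_eq_mul]; ring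

/-- G1. Lipschitz dependence of the resolvent trace: `Tr G - Tr G' = Tr (G (H'-H) G')`,
`|Tr (X E)| ≤ ‖X‖_HS ‖E‖_HS`, `‖G' G‖_HS ≤ √q ‖G'‖ ‖G‖ ≤ √q/η²`. -/
theorem s5_rTr_lip {ι : Type} [Fintype ι] [DecidableEq ι] {H H' : Matrix ι ι ℝ} (hH : Hᵀ = H)
    (hH' : H'ᵀ = H') {z : ℂ} (hz : 0 < z.im) :
    ‖rTr H z - rTr H' z‖
      ≤ Real.sqrt (Fintype.card ι) * Real.sqrt (hsq (H - H')) / z.im ^ 2 := by
  have hA : H.IsHermitian := rs_herm hH
  have hB : H'.IsHermitian := rs_herm hH'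
  rw [rs_rTr, rs_rTr, ← Matrix.trace_sub, rs_res_A hA hB hz.ne', Matrix.trace_mul_comm, ← Matrix.mul_assoc, Matrix.trace_mul_comm]
  -- `Tr (E (G' G))`
  have e : (rsC (H' - H) * (rsG H' z * rsG H z)).trace = ∑ a, ∑ b, ((H' - H) a b : ℂ) * (rsG H' z * rsG H z) b a := by
    simp only [Matrix.trace, Matrix.diag_apply, Matrix.mul_apply (M := rsC (H' - H)), rs_C_apply]
  rw [e]
  have h1 : ‖∑ a, ∑ b, ((H' - H) a b : ℂ) * (rsG H' z * rsG H z) b a‖
      ≤ ∑ p : ι × ι, |(H' - H) p.1 p.2| * ‖(rsG H' z * rsG H z) p.2 p.1‖ := by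
    rw [Fintype.sum_prod_type]
    refine (norm_sum_le _ _).trans (Finset.sum_le_sum fun a _ => (norm_sum_le _ _).trans (Finset.sum_le_sum fun b _ => ?_))
    rw [norm_mul, Complex.norm_real, Real.norm_eq_abs]
  refine h1.trans ((Real.sum_mul_le_sqrt_mul_sqrt _ _ _).trans ?_)
  have e1 : ∑ p : ι × ι, |(H' - H) p.1 p.2| ^ 2 = hsq (H - H') := by
    rw [Fintype.sum_prod_type]
    unfold hsq
    refine Finset.sum_congr rfl fun a _ => Finset.sum_congr rfl fun b _ => ?_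
    rw [sq_abs, Matrix.sub_apply, Matrix.sub_apply]; ring
  have e2 : ∑ p : ι × ι, ‖(rsG H' z * rsG H z) p.2 p.1‖ ^ 2 ≤ (Fintype.card ι : ℝ) / z.im ^ 4 := by
    rw [Fintype.sum_prod_type_right]
    exact s5_GG_hs hA hB hz
  rw [e1]
  have h3 : Real.sqrt (∑ p : ι × ι, ‖(rsG H' z * rsG H z) p.2 p.1‖ ^ 2) ≤ Real.sqrt (Fintype.card ι) / z.im ^ 2 := by
    refine (Real.sqrt_le_sqrt e2).trans (le_of_eq ?_)
    rw [Real.sqrt_div (Nat.cast_nonneg _), show z.im ^ 4 = (z.im ^ 2) ^ 2 by ring, Real.sqrt_sq (by positivity)]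
  calc Real.sqrt (hsq (H - H')) * Real.sqrt (∑ p : ι × ι, ‖(rsG H' z * rsG H z) p.2 p.1‖ ^ 2)
      ≤ Real.sqrt (hsq (H - H')) * (Real.sqrt (Fintype.card ι) / z.im ^ 2) := mul_le_mul_of_nonneg_left h3 (Real.sqrt_nonneg _)
    _ = _ := by ring

open Claimed.Agent.R286 in
/-- the level of `P ↦ P Rᵀ` -/
def s5Lv {ι κ : Type} [DecidableEq ι] (R : Matrix ι κ ℝ) : GhLv (ι × ι) (ι × κ) :=
  ⟨0, fun s p => if s.1 = p.1 then R s.2 p.2 else 0⟩

theorem s5_Lv_eqns_cite : True := by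
  have := @s5Lv.eq_1
  trivial

theorem s5_Lv_inc {ι κ : Type} [Fintype ι] [DecidableEq ι] [Fintype κ] (R : Matrix ι κ ℝ) (ξ : ι × κ → ℝ) :
    goeMat ((s5Lv R).inc ξ) = goeMat ξ * Rᵀ := by
  ext i j
  simp only [goeMat, Claimed.Agent.R286.GhLv.inc, s5Lv, Matrix.mul_apply, Matrix.transpose_apply, Fintype.sum_prod_type]
  rw [Finset.sum_eq_single i]
  · simp [mul_comm]
  · intro a _ ha
    simp [Ne.symm ha]
  · simp

theorem s5_Lv_cov {ι κ : Type} [Fintype ι] [DecidableEq ι] [Fintype κ] (R : Matrix ι κ ℝ) (s t : ι × ι) :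
    (s5Lv R).cov s t = if s.1 = t.1 then (R * Rᵀ) s.2 t.2 else 0 := by
  simp only [Claimed.Agent.R286.GhLv.cov, s5Lv, Matrix.mul_apply, Matrix.transpose_apply, Fintype.sum_prod_type]
  rw [Finset.sum_eq_single s.1]
  · by_cases h : s.1 = t.1
    · simp [h]
    · simp [h, Ne.symm h]
  · intro a _ ha
    simp [Ne.symm ha]
  · simp

theorem s5_mulR_measurable {ι κ γ : Type} [Fintype ι] [Fintype κ] [Fintype γ] (R : Matrix κ γ ℝ) :
    Measurable fun P : Matrix ι κ ℝ => P * R := by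
  refine goe_measurable_of_entries fun i j => ?_
  simp only [Matrix.mul_apply]
  exact Finset.measurable_sum _ fun a _ => (goe_entry_measurable i a).mul_const _

/-- G2. The law of `P Rᵀ` (`P` iid Gaussian, `R` fixed) depends on `R Rᵀ` only: rows are iid `N(0, R Rᵀ)`
(`IsGaussian.ext`, or kit 233: law of a linear image of `gArr` is determined by the covariance). -/
theorem s5_law_right {ι κ : Type} [Fintype ι] [DecidableEq ι] [Fintype κ] [DecidableEq κ]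
    {R : Matrix ι κ ℝ} {T : Matrix ι ι ℝ} (h : T * Tᵀ = R * Rᵀ) :
    (gArr ι κ).map (fun P => P * Rᵀ) = (gArr ι ι).map (fun N => N * Tᵀ) := by
  have key : ∀ {γ : Type} [Fintype γ] (Q : Matrix ι γ ℝ),
      (gArr ι γ).map (fun P => P * Qᵀ) = ((Claimed.Agent.R286.ghStd (ι × γ)).map (s5Lv Q).inc).map goeMat := by
    intro γ _ Q
    rw [goe_gArr_eq, Measure.map_map (s5_mulR_measurable _) goe_mat_measurable,
      Measure.map_map goe_mat_measurable (Claimed.Agent.R286.ghs_measurable_inc _)]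
    congr 1
    funext ξ
    exact (s5_Lv_inc Q ξ).symm
  rw [key R, key T, Claimed.Agent.R286.ghs_law_congr (s5Lv R) (s5Lv T) fun s t => by rw [s5_Lv_cov, s5_Lv_cov, h]]

theorem s5_hsq_trace {ι κ : Type} [Fintype ι] [Fintype κ] (A : Matrix ι κ ℝ) : hsq A = (A * Aᵀ).trace := by
  simp only [hsq, Matrix.trace, Matrix.diag_apply, Matrix.mul_apply, Matrix.transpose_apply, sq]

theorem s5_hsq_conj {ι : Type} [Fintype ι] [DecidableEq ι] {U : Matrix ι ι ℝ} (hU : Uᵀ * U = 1) (D : Matrix ι ι ℝ) :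
    hsq (U * D * Uᵀ) = hsq D := by
  rw [s5_hsq_trace, s5_hsq_trace]
  have e : (U * D * Uᵀ) * (U * D * Uᵀ)ᵀ = U * (D * Dᵀ) * Uᵀ := by
    rw [Matrix.transpose_mul, Matrix.transpose_mul, Matrix.transpose_transpose]
    calc U * D * Uᵀ * (U * (Dᵀ * Uᵀ)) = U * D * (Uᵀ * U) * (Dᵀ * Uᵀ) := by simp only [Matrix.mul_assoc]
      _ = U * (D * Dᵀ) * Uᵀ := by rw [hU, Matrix.mul_one]; simp only [Matrix.mul_assoc]
  rw [e, Matrix.trace_mul_comm, ← Matrix.mul_assoc, hU, Matrix.one_mul]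

theorem s5_hsq_diagonal {ι : Type} [Fintype ι] [DecidableEq ι] (d : ι → ℝ) : hsq (Matrix.diagonal d) = ∑ i, d i ^ 2 := by
  unfold hsq
  refine Finset.sum_congr rfl fun i _ => ?_
  rw [Finset.sum_eq_single i]
  · simp
  · intro j _ hj
    simp [Matrix.diagonal_apply_ne _ (Ne.symm hj)]
  · simp

/-- G3. Square root close to the identity: `T = CFC.sqrt S` (or spectral theorem); in the eigenbasis
`|√(s/m) - 1| ≤ |s/m - 1|` for `s ≥ 0`. -/
theorem s5_sqrt_close {ι : Type} [Fintype ι] [DecidableEq ι] {S : Matrix ι ι ℝ} (hS : S.PosSemidef)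
    {m : ℝ} (hm : 0 < m) :
    ∃ T : Matrix ι ι ℝ, Tᵀ = T ∧ T * T = S ∧
      hsq ((Real.sqrt m)⁻¹ • T - 1) ≤ hsq (m⁻¹ • S - 1) := by
  have hA := hS.isHermitian
  set U := rsU hA with hU
  set l := hA.eigenvalues with hl
  have hl0 : ∀ i, 0 ≤ l i := fun i => hS.eigenvalues_nonneg i
  have hUU : Uᵀ * U = 1 := rs_T_mul_U hA
  have hUU' : U * Uᵀ = 1 := rs_U_mul_T hA
  have hSp : S = U * Matrix.diagonal l * Uᵀ := rs_spectral hA
  have hone : (1 : Matrix ι ι ℝ) = U * Matrix.diagonal (fun _ => (1 : ℝ)) * Uᵀ := by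
    rw [Matrix.diagonal_one, Matrix.mul_one, hUU']
  refine ⟨U * Matrix.diagonal (fun i => Real.sqrt (l i)) * Uᵀ, ?_, ?_, ?_⟩
  · rw [Matrix.transpose_mul, Matrix.transpose_mul, Matrix.transpose_transpose, Matrix.diagonal_transpose, Matrix.mul_assoc]
  · calc U * Matrix.diagonal (fun i => Real.sqrt (l i)) * Uᵀ * (U * Matrix.diagonal (fun i => Real.sqrt (l i)) * Uᵀ)
        = U * Matrix.diagonal (fun i => Real.sqrt (l i)) * (Uᵀ * U) * Matrix.diagonal (fun i => Real.sqrt (l i)) * Uᵀ := by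
          simp only [Matrix.mul_assoc]
      _ = U * (Matrix.diagonal (fun i => Real.sqrt (l i)) * Matrix.diagonal (fun i => Real.sqrt (l i))) * Uᵀ := by
          rw [hUU, Matrix.mul_one]; simp only [Matrix.mul_assoc]
      _ = S := by
          have hh : (fun i => Real.sqrt (l i) * Real.sqrt (l i)) = l := funext fun i => Real.mul_self_sqrt (hl0 i)
          rw [Matrix.diagonal_mul_diagonal, hh, ← hSp]
  · have e1 : (Real.sqrt m)⁻¹ • (U * Matrix.diagonal (fun i => Real.sqrt (l i)) * Uᵀ) - 1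
        = U * Matrix.diagonal (fun i => (Real.sqrt m)⁻¹ * Real.sqrt (l i) - 1) * Uᵀ := by
      conv_lhs => rw [hone]
      rw [← Matrix.smul_mul, ← Matrix.mul_smul, ← Matrix.sub_mul, ← Matrix.mul_sub]
      congr 2
      ext i j
      by_cases hij : i = j
      · subst hij; simp
      · simp [Matrix.diagonal_apply_ne _ hij, Matrix.one_apply_ne hij]
    have e2 : m⁻¹ • S - 1 = U * Matrix.diagonal (fun i => m⁻¹ * l i - 1) * Uᵀ := by
      conv_lhs => rw [hone, hSp]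
      rw [← Matrix.smul_mul, ← Matrix.mul_smul, ← Matrix.sub_mul, ← Matrix.mul_sub]
      congr 2
      ext i j
      by_cases hij : i = j
      · subst hij; simp
      · simp [Matrix.diagonal_apply_ne _ hij, Matrix.one_apply_ne hij]
    rw [e1, e2, s5_hsq_conj hUU, s5_hsq_conj hUU, s5_hsq_diagonal, s5_hsq_diagonal]
    refine Finset.sum_le_sum fun i _ => ?_
    set s := Real.sqrt (m⁻¹ * l i) with hs
    have hs0 : 0 ≤ s := Real.sqrt_nonneg _
    have e3 : (Real.sqrt m)⁻¹ * Real.sqrt (l i) = s := by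
      rw [hs, Real.sqrt_mul (inv_pos.2 hm).le, Real.sqrt_inv]
    have e4 : m⁻¹ * l i = s ^ 2 := (Real.sq_sqrt (mul_nonneg (inv_pos.2 hm).le (hl0 i))).symm
    rw [e3, e4]
    have : (s ^ 2 - 1) ^ 2 = (s - 1) ^ 2 * (s + 1) ^ 2 := by ring
    rw [this]
    have h1 : 1 ≤ (s + 1) ^ 2 := by nlinarith
    nlinarith [sq_nonneg (s - 1)]

/-- G4a. Algebra of the coupling: `β √m = √(Δ/2)`, `goeOf N = (N + Nᵀ)/√2`. -/
theorem s5_goe_alg {ι : Type} [Fintype ι] [DecidableEq ι] {Δ : ℝ} (hΔ : 0 < Δ) {m : ℕ} (hm : 1 ≤ m)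
    (N T : Matrix ι ι ℝ) :
    Real.sqrt (Δ / (2 * m)) • (N * T + T * Nᵀ)
      = Real.sqrt Δ • goeOf N + Real.sqrt (Δ / 2) •
          (N * ((Real.sqrt m)⁻¹ • T - 1) + ((Real.sqrt m)⁻¹ • T - 1) * Nᵀ) := by
  have h1 : Real.sqrt (Δ / 2) = Real.sqrt Δ * (Real.sqrt 2)⁻¹ := by
    rw [Real.sqrt_div hΔ.le, div_eq_mul_inv]
  have h2 : Real.sqrt (Δ / (2 * m)) = Real.sqrt Δ * (Real.sqrt 2)⁻¹ * (Real.sqrt m)⁻¹ := by
    rw [← div_div, Real.sqrt_div (by positivity), div_eq_mul_inv, h1]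
  ext i j
  simp only [Matrix.smul_apply, Matrix.add_apply, Matrix.mul_sub, Matrix.sub_mul, Matrix.mul_smul, Matrix.smul_mul,
    Matrix.mul_one, Matrix.one_mul, Matrix.sub_apply, smul_eq_mul, goeOf]
  rw [h2, h1]
  ring

theorem s5_hsq_mul_le {α β γ : Type} [Fintype α] [Fintype β] [Fintype γ] (A : Matrix α β ℝ) (B : Matrix β γ ℝ) :
    hsq (A * B) ≤ hsq A * hsq B := by
  have h : ∀ i j, ((A * B) i j) ^ 2 ≤ (∑ k, A i k ^ 2) * ∑ k, B k j ^ 2 := fun i j => by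
    rw [Matrix.mul_apply]
    exact Finset.sum_mul_sq_le_sq_mul_sq _ _ _
  calc hsq (A * B) ≤ ∑ i, ∑ j, (∑ k, A i k ^ 2) * ∑ k, B k j ^ 2 :=
        Finset.sum_le_sum fun i _ => Finset.sum_le_sum fun j _ => h i j
    _ = hsq A * hsq B := by
        have e : hsq B = ∑ j, ∑ k, B k j ^ 2 := Finset.sum_comm
        rw [e]
        unfold hsq
        rw [Finset.sum_mul_sum]

theorem s5_hsq_add_le {α β : Type} [Fintype α] [Fintype β] (A B : Matrix α β ℝ) :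
    hsq (A + B) ≤ 2 * hsq A + 2 * hsq B := by
  unfold hsq
  simp only [Finset.mul_sum, ← Finset.sum_add_distrib]
  refine Finset.sum_le_sum fun i _ => Finset.sum_le_sum fun j _ => ?_
  rw [Matrix.add_apply]
  nlinarith [sq_nonneg (A i j - B i j)]

theorem s5_hsq_transpose {α β : Type} [Fintype α] [Fintype β] (A : Matrix α β ℝ) : hsq Aᵀ = hsq A := by
  unfold hsq
  rw [Finset.sum_comm]
  rfl

/-- G4b. `‖N e + e Nᵀ‖²_HS ≤ 4 ‖N‖²_HS ‖e‖²_HS` (Cauchy-Schwarz entrywise: `hsq (A * B) ≤ hsq A * hsq B`, `(a+b)² ≤ 2a²+2b²`). -/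
theorem s5_hs_comm {ι : Type} [Fintype ι] (N e : Matrix ι ι ℝ) :
    hsq (N * e + e * Nᵀ) ≤ 4 * hsq N * hsq e := by
  have h1 := s5_hsq_add_le (N * e) (e * Nᵀ)
  have h2 := s5_hsq_mul_le N e
  have h3 := s5_hsq_mul_le e Nᵀ
  rw [s5_hsq_transpose] at h3
  nlinarith

/-- transfer of integrals from the array to the flat Gaussian vector -/
theorem s5w_integral {ι κ : Type} [Fintype ι] [Fintype κ] (F : Matrix ι κ ℝ → ℝ) :
    ∫ N, F N ∂(gArr ι κ) = ∫ ξ, F (goeMat ξ) ∂(qfG (ι × κ)) := by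
  rw [goe_gArr_eq, goe_mat_emb.integral_map]
  rfl

theorem s5w_integrable {ι κ : Type} [Fintype ι] [Fintype κ] (F : Matrix ι κ ℝ → ℝ) :
    Integrable F (gArr ι κ) ↔ Integrable (fun ξ => F (goeMat ξ)) (qfG (ι × κ)) := by
  rw [goe_gArr_eq, goe_mat_emb.integrable_map_iff]
  rfl

theorem s5w_hsq_eq {ι κ : Type} [Fintype ι] [Fintype κ] [DecidableEq ι] [DecidableEq κ] (ξ : ι × κ → ℝ) :
    hsq (goeMat ξ) = qfQ (1 : Matrix (ι × κ) (ι × κ) ℝ) ξ := by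
  simp only [hsq, goeMat, qfQ, Matrix.one_mulVec, dotProduct, Fintype.sum_prod_type, sq]

theorem s5w_hsq_int (ι κ : Type) [Fintype ι] [Fintype κ] :
    Integrable (fun N : Matrix ι κ ℝ => hsq N) (gArr ι κ) ∧
      ∫ N, hsq N ∂(gArr ι κ) = (Fintype.card ι : ℝ) * Fintype.card κ := by
  classical
  have h1 : (1 : Matrix (ι × κ) (ι × κ) ℝ).IsHermitian := Matrix.isHermitian_one
  constructor
  · rw [s5w_integrable]
    simp only [s5w_hsq_eq]
    exact qf_Q_integrable h1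
  · rw [s5w_integral]
    simp only [s5w_hsq_eq]
    rw [qf_mean h1, Matrix.trace_one, Fintype.card_prod]
    push_cast
    ring

/-- Jensen for the square root -/
theorem s5w_sqrt_jensen {Ω : Type} [MeasurableSpace Ω] {μ : Measure Ω} [IsProbabilityMeasure μ] {X : Ω → ℝ}
    (h0 : ∀ ω, 0 ≤ X ω) (hX : Integrable X μ) :
    Integrable (fun ω => Real.sqrt (X ω)) μ ∧ ∫ ω, Real.sqrt (X ω) ∂μ ≤ Real.sqrt (∫ ω, X ω ∂μ) := by
  have hi : Integrable (fun ω => Real.sqrt (X ω)) μ := by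
    refine Integrable.mono' (hX.add (integrable_const (1 : ℝ)))
      (Real.continuous_sqrt.comp_aestronglyMeasurable hX.aestronglyMeasurable) (Filter.Eventually.of_forall fun ω => ?_)
    rw [Real.norm_eq_abs, abs_of_nonneg (Real.sqrt_nonneg _)]
    have := Real.sq_sqrt (h0 ω)
    simp only [Pi.add_apply]
    nlinarith [sq_nonneg (Real.sqrt (X ω) - 1), Real.sqrt_nonneg (X ω)]
  refine ⟨hi, ?_⟩
  exact Real.strictConcaveOn_sqrt.concaveOn.le_map_integral Real.continuous_sqrt.continuousOn isClosed_Ici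
    (Filter.Eventually.of_forall fun ω => h0 ω) hX hi

/-- G4c. `E ‖N‖_HS ≤ √(E ‖N‖²_HS) = q`. -/
theorem s5_gArr_hs (ι : Type) [Fintype ι] :
    Integrable (fun N : Matrix ι ι ℝ => Real.sqrt (hsq N)) (gArr ι ι) ∧
      ∫ N, Real.sqrt (hsq N) ∂(gArr ι ι) ≤ Fintype.card ι := by
  obtain ⟨h1, h2⟩ := s5w_hsq_int ι ι
  obtain ⟨h3, h4⟩ := s5w_sqrt_jensen (fun N : Matrix ι ι ℝ => s5_hsq_nonneg N) h1
  refine ⟨h3, h4.trans (le_of_eq ?_)⟩
  rw [h2, Real.sqrt_mul_self (Nat.cast_nonneg _)]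

/-- G4d. Exchange of the noise (G2 + `integral_map`; `R Pᵀ = (P Rᵀ)ᵀ`, `T Nᵀ = (N T)ᵀ` for symmetric `T`). -/
theorem s5_goe_swap {ι : Type} [Fintype ι] [DecidableEq ι] {m : ℕ} {R : Matrix ι (Fin m) ℝ}
    {T : Matrix ι ι ℝ} (hT : Tᵀ = T) (hTR : T * T = R * Rᵀ) {F : Matrix ι ι ℝ → ℝ} (hF : Measurable F) :
    ∫ P, F (bilN (P, R)) ∂(gArr ι (Fin m)) = ∫ N, F (N * T + T * Nᵀ) ∂(gArr ι ι) := by
  have hg : Measurable fun X : Matrix ι ι ℝ => F (X + Xᵀ) :=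
    hF.comp (goe_add_measurable measurable_id goe_transpose_measurable)
  have hlaw : (gArr ι (Fin m)).map (fun P => P * Rᵀ) = (gArr ι ι).map (fun N => N * Tᵀ) :=
    s5_law_right (by rw [hT, hTR])
  have e1 : ∫ P, F (bilN (P, R)) ∂(gArr ι (Fin m)) = ∫ X, F (X + Xᵀ) ∂((gArr ι (Fin m)).map (fun P => P * Rᵀ)) := by
    rw [integral_map (s5_mulR_measurable _).aemeasurable hg.aestronglyMeasurable]
    refine integral_congr_ae (Filter.Eventually.of_forall fun P => ?_)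
    simp only [bilN, Matrix.transpose_mul, Matrix.transpose_transpose]
  have e2 : ∫ N, F (N * T + T * Nᵀ) ∂(gArr ι ι) = ∫ X, F (X + Xᵀ) ∂((gArr ι ι).map (fun N => N * Tᵀ)) := by
    rw [integral_map (s5_mulR_measurable _).aemeasurable hg.aestronglyMeasurable]
    refine integral_congr_ae (Filter.Eventually.of_forall fun N => ?_)
    simp only [Matrix.transpose_mul, hT]
  rw [e1, e2, hlaw]

theorem s5gw_BLip_meas {b : ℕ} {Φ : (Fin b → ℂ) → ℝ} (hΦ : BLip Φ) : Measurable Φ := by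
  have hL : LipschitzWith 1 Φ := LipschitzWith.of_dist_le_mul fun v w => by
    rw [Real.dist_eq, dist_eq_norm, NNReal.coe_one, one_mul]
    exact hΦ.lip v w
  exact hL.continuous.measurable

/-- measurability of the test statistic as a function of the noise matrix -/
theorem s5gw_stat_meas {ι : Type} [Fintype ι] [DecidableEq ι] (mr : ℝ) {b : ℕ} (z : Fin b → ℂ)
    {Φ : (Fin b → ℂ) → ℝ} (hΦ : BLip Φ) (D : Matrix ι ι ℝ) (β : ℝ) :
    Measurable fun X : Matrix ι ι ℝ => Φ (fun i => (mr : ℂ) + rTr (D + β • X) (z i)) := by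
  refine (s5gw_BLip_meas hΦ).comp (measurable_pi_lambda _ fun i => ?_)
  refine measurable_const.add ((goe_rTr_measurable (z i)).comp ?_)
  exact goe_add_measurable measurable_const (goe_smul_measurable β)

/-- Lipschitz bound of the test statistic in the Hilbert-Schmidt distance -/
theorem s5gw_stat_lip {ι : Type} [Fintype ι] [DecidableEq ι] (mr : ℝ) {b : ℕ} {z : Fin b → ℂ} {η : ℝ}
    (hη : 0 < η) (hz : ∀ i, η ≤ (z i).im) {Φ : (Fin b → ℂ) → ℝ} (hΦ : BLip Φ) {H H' : Matrix ι ι ℝ}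
    (hH : Hᵀ = H) (hH' : H'ᵀ = H') :
    |Φ (fun i => (mr : ℂ) + rTr H (z i)) - Φ (fun i => (mr : ℂ) + rTr H' (z i))|
      ≤ Real.sqrt (Fintype.card ι) * Real.sqrt (hsq (H - H')) / η ^ 2 := by
  refine (hΦ.lip _ _).trans ?_
  rw [pi_norm_le_iff_of_nonneg (by positivity)]
  intro i
  have h1 := s5_rTr_lip hH hH' (hη.trans_le (hz i))
  simp only [Pi.sub_apply, add_sub_add_left_eq_sub]
  refine h1.trans ?_
  have : η ^ 2 ≤ (z i).im ^ 2 := by have := hz i; gcongr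
  gcongr

/-- G4. Fixed `R = P₋`. By G2, G3 (`T² = R Rᵀ`): `β (P Rᵀ + R Pᵀ) ~ β (N T + T Nᵀ) = √Δ goeOf N + √(Δ/2) (N e + e Nᵀ)`,
`e = T/√m - 1`, `β √m = √(Δ/2)`. `‖N e + e Nᵀ‖_HS ≤ 2 ‖N‖_HS ‖e‖_HS`, `E ‖N‖_HS ≤ q`, G1, `Φ` 1-Lipschitz.
GLUE of G1, G3, G4a-d, I0: after G4d both integrals are over `N`; `|∫ F - ∫ G| ≤ ∫ |F - G| ≤ c ∫ √(hsq N)`. -/
theorem s5_goe_fixed {ι : Type} [Fintype ι] [DecidableEq ι] {mr : ℝ} {b : ℕ} {z : Fin b → ℂ} {η : ℝ}
    (hη : 0 < η) (hz : ∀ i, η ≤ (z i).im) {Φ : (Fin b → ℂ) → ℝ} (hΦ : BLip Φ) {Δ : ℝ} (hΔ : 0 < Δ)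
    {m : ℕ} (hm : 1 ≤ m) (d : ι → ℝ) (R : Matrix ι (Fin m) ℝ) :
    |(∫ P, Φ (fun i => (mr : ℂ)
          + rTr (Matrix.diagonal d + Real.sqrt (Δ / (2 * m)) • bilN (P, R)) (z i)) ∂(gArr ι (Fin m)))
      - ∫ N, Φ (fun i => (mr : ℂ) + rTr (Matrix.diagonal d + Real.sqrt Δ • goeOf N) (z i))
          ∂(gArr ι ι)|
      ≤ (Fintype.card ι : ℝ) * Real.sqrt (Fintype.card ι) * Real.sqrt (2 * Δ)
          * Real.sqrt (hsq ((m : ℝ)⁻¹ • (R * Rᵀ) - 1)) / η ^ 2 := by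
  have hm0 : (0 : ℝ) < m := by exact_mod_cast hm
  have hS : (R * Rᵀ).PosSemidef := by
    have := Matrix.posSemidef_self_mul_conjTranspose R
    rwa [Matrix.conjTranspose_eq_transpose_of_trivial] at this
  obtain ⟨T, hT, hTT, hTe⟩ := s5_sqrt_close hS hm0
  set e := (Real.sqrt m)⁻¹ • T - 1 with he
  set β := Real.sqrt (Δ / (2 * m)) with hβ
  have hF := s5gw_stat_meas mr z hΦ (Matrix.diagonal d) β
  have hG : Measurable fun N : Matrix ι ι ℝ => Φ (fun i => (mr : ℂ) + rTr (Matrix.diagonal d + Real.sqrt Δ • goeOf N) (z i)) :=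
    (s5gw_stat_meas mr z hΦ (Matrix.diagonal d) (Real.sqrt Δ)).comp goe_of_measurable
  have hF' : Measurable fun N : Matrix ι ι ℝ => Φ (fun i => (mr : ℂ) + rTr (Matrix.diagonal d + β • (N * T + T * Nᵀ)) (z i)) := by
    refine hF.comp (goe_add_measurable (s5_mulR_measurable T) ?_)
    have h2 : (fun N : Matrix ι ι ℝ => T * Nᵀ) = fun N => (N * T)ᵀ := by
      funext N; rw [Matrix.transpose_mul, hT]
    rw [h2]
    exact goe_transpose_measurable.comp (s5_mulR_measurable T)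
  rw [s5_goe_swap hT hTT hF]
  have iF : Integrable (fun N : Matrix ι ι ℝ => Φ (fun i => (mr : ℂ) + rTr (Matrix.diagonal d + β • (N * T + T * Nᵀ)) (z i))) (gArr ι ι) :=
    Integrable.of_bound hF'.aestronglyMeasurable 1 (Filter.Eventually.of_forall fun N => hΦ.bdd _)
  have iG : Integrable (fun N : Matrix ι ι ℝ => Φ (fun i => (mr : ℂ) + rTr (Matrix.diagonal d + Real.sqrt Δ • goeOf N) (z i))) (gArr ι ι) :=
    Integrable.of_bound hG.aestronglyMeasurable 1 (Filter.Eventually.of_forall fun N => hΦ.bdd _)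
  obtain ⟨iN, hN⟩ := s5_gArr_hs ι
  rw [← integral_sub iF iG]
  set c := Real.sqrt (Fintype.card ι) * Real.sqrt (2 * Δ) * Real.sqrt (hsq e) / η ^ 2 with hc
  have hc0 : 0 ≤ c := by positivity
  have hpt : ∀ N : Matrix ι ι ℝ,
      |Φ (fun i => (mr : ℂ) + rTr (Matrix.diagonal d + β • (N * T + T * Nᵀ)) (z i))
        - Φ (fun i => (mr : ℂ) + rTr (Matrix.diagonal d + Real.sqrt Δ • goeOf N) (z i))| ≤ c * Real.sqrt (hsq N) := by
    intro N
    have s1 : (Matrix.diagonal d + β • (N * T + T * Nᵀ))ᵀ = Matrix.diagonal d + β • (N * T + T * Nᵀ) := by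
      rw [Matrix.transpose_add, Matrix.diagonal_transpose, Matrix.transpose_smul, Matrix.transpose_add, Matrix.transpose_mul,
        Matrix.transpose_mul, Matrix.transpose_transpose, hT, add_comm (T * Nᵀ)]
    have s2 : (Matrix.diagonal d + Real.sqrt Δ • goeOf N)ᵀ = Matrix.diagonal d + Real.sqrt Δ • goeOf N := by
      rw [Matrix.transpose_add, Matrix.diagonal_transpose, Matrix.transpose_smul, (goe_of_isSymm N).eq]
    refine (s5gw_stat_lip mr hη hz hΦ s1 s2).trans ?_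
    have e1 : Matrix.diagonal d + β • (N * T + T * Nᵀ) - (Matrix.diagonal d + Real.sqrt Δ • goeOf N)
        = Real.sqrt (Δ / 2) • (N * e + e * Nᵀ) := by
      rw [hβ, s5_goe_alg hΔ hm N T]
      abel
    rw [e1, s5_hsq_smul]
    have h4 : Real.sqrt (Real.sqrt (Δ / 2) ^ 2 * hsq (N * e + e * Nᵀ)) ≤ Real.sqrt (2 * Δ) * Real.sqrt (hsq e) * Real.sqrt (hsq N) := by
      rw [← Real.sqrt_mul (by positivity), ← Real.sqrt_mul (mul_nonneg (by positivity) (s5_hsq_nonneg e))]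
      refine Real.sqrt_le_sqrt ?_
      rw [Real.sq_sqrt (by positivity)]
      have := s5_hs_comm N e
      nlinarith
    calc Real.sqrt (Fintype.card ι) * Real.sqrt (Real.sqrt (Δ / 2) ^ 2 * hsq (N * e + e * Nᵀ)) / η ^ 2
        ≤ Real.sqrt (Fintype.card ι) * (Real.sqrt (2 * Δ) * Real.sqrt (hsq e) * Real.sqrt (hsq N)) / η ^ 2 := by gcongr
      _ = c * Real.sqrt (hsq N) := by rw [hc]; ring
  calc |∫ N, (Φ (fun i => (mr : ℂ) + rTr (Matrix.diagonal d + β • (N * T + T * Nᵀ)) (z i))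
        - Φ (fun i => (mr : ℂ) + rTr (Matrix.diagonal d + Real.sqrt Δ • goeOf N) (z i))) ∂(gArr ι ι)|
      ≤ ∫ N, |Φ (fun i => (mr : ℂ) + rTr (Matrix.diagonal d + β • (N * T + T * Nᵀ)) (z i))
        - Φ (fun i => (mr : ℂ) + rTr (Matrix.diagonal d + Real.sqrt Δ • goeOf N) (z i))| ∂(gArr ι ι) := abs_integral_le_integral_abs
    _ ≤ ∫ N, c * Real.sqrt (hsq N) ∂(gArr ι ι) := integral_mono (iF.sub iG).abs (iN.const_mul c) hpt
    _ = c * ∫ N, Real.sqrt (hsq N) ∂(gArr ι ι) := integral_const_mul _ _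
    _ ≤ c * Fintype.card ι := mul_le_mul_of_nonneg_left hN hc0
    _ ≤ _ := by
        have h5 : Real.sqrt (hsq e) ≤ Real.sqrt (hsq ((m : ℝ)⁻¹ • (R * Rᵀ) - 1)) := Real.sqrt_le_sqrt hTe
        rw [hc]
        calc Real.sqrt (Fintype.card ι) * Real.sqrt (2 * Δ) * Real.sqrt (hsq e) / η ^ 2 * (Fintype.card ι : ℝ)
            ≤ Real.sqrt (Fintype.card ι) * Real.sqrt (2 * Δ) * Real.sqrt (hsq ((m : ℝ)⁻¹ • (R * Rᵀ) - 1)) / η ^ 2 * (Fintype.card ι : ℝ) := by gcongr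
          _ = _ := by ring

/-- symmetrised matrix unit `(E_ij + E_ji)/2` -/
noncomputable def s5gwC {ι : Type} [DecidableEq ι] (s : ι × ι) : Matrix ι ι ℝ := Matrix.of fun k l => goeCovR s (k, l) / 2

theorem s5gw_C_eqns_cite : True := by
  have := @s5gwC.eq_1
  trivial

theorem s5gw_C_herm {ι : Type} [DecidableEq ι] (s : ι × ι) : (s5gwC s).IsHermitian := by
  ext k l
  simp only [s5gwC, Matrix.conjTranspose_apply, Matrix.of_apply, goeCovR, star_trivial]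
  rw [add_comm]

theorem s5gw_C_sum {ι : Type} [Fintype ι] [DecidableEq ι] (s : ι × ι) (f : ι × ι → ℝ) :
    ∑ t : ι × ι, s5gwC s t.1 t.2 * f t = (f s + f s.swap) / 2 := by
  rw [← goe_covR_sum f s, Finset.sum_div]
  refine Finset.sum_congr rfl fun t _ => ?_
  simp only [s5gwC, Matrix.of_apply]
  ring

theorem s5gw_C_trace {ι : Type} [Fintype ι] [DecidableEq ι] (s : ι × ι) :
    (s5gwC s).trace = if s.1 = s.2 then 1 else 0 := by
  have h := s5gw_C_sum s (fun t => if t.1 = t.2 then (1 : ℝ) else 0)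
  rw [Fintype.sum_prod_type] at h
  simp only [mul_ite, mul_one, mul_zero, Finset.sum_ite_eq, Finset.mem_univ, if_true, Prod.fst_swap, Prod.snd_swap] at h
  rw [Matrix.trace]
  simp only [Matrix.diag_apply]
  rw [h]
  by_cases hs : s.1 = s.2
  · simp [hs]
  · simp [hs, Ne.symm hs]

theorem s5gw_C_sq {ι : Type} [Fintype ι] [DecidableEq ι] (s : ι × ι) :
    (s5gwC s * s5gwC s).trace = (1 + if s.1 = s.2 then 1 else 0) / 2 := by
  rw [qf_trace_sq_herm (s5gw_C_herm s), ← Fintype.sum_prod_type (f := fun t : ι × ι => s5gwC s t.1 t.2 ^ 2)]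
  simp only [sq]
  rw [s5gw_C_sum s (fun t => s5gwC s t.1 t.2)]
  simp only [s5gwC, Matrix.of_apply, goeCovR, Prod.fst_swap, Prod.snd_swap]
  by_cases hs : s.1 = s.2
  · simp [hs]
  · simp [hs, Ne.symm hs]

theorem s5gw_kron_herm {ι κ : Type} [DecidableEq κ] {A : Matrix ι ι ℝ} (hA : A.IsHermitian) :
    (Matrix.kroneckerMap (· * ·) A (1 : Matrix κ κ ℝ)).IsHermitian := by
  ext ⟨k, a⟩ ⟨l, b⟩
  have h := congrFun (congrFun hA k) l
  simp only [Matrix.conjTranspose_apply, star_trivial] at h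
  simp only [Matrix.conjTranspose_apply, Matrix.kroneckerMap_apply, star_trivial, h, Matrix.one_apply, eq_comm]

theorem s5gw_kron_Q {ι κ : Type} [Fintype ι] [DecidableEq ι] [Fintype κ] [DecidableEq κ] (A : Matrix ι ι ℝ) (ξ : ι × κ → ℝ) :
    qfQ (Matrix.kroneckerMap (· * ·) A (1 : Matrix κ κ ℝ)) ξ
      = ∑ t : ι × ι, A t.1 t.2 * (goeMat ξ * (goeMat ξ)ᵀ) t.1 t.2 := by
  rw [qf_Q_eq_sum]
  simp only [Fintype.sum_prod_type, Matrix.kroneckerMap_apply, Matrix.mul_apply, Matrix.transpose_apply, goeMat,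
    Matrix.one_apply, mul_ite, mul_one, mul_zero, ite_mul, zero_mul, Finset.sum_ite_eq, Finset.mem_univ, if_true, Finset.mul_sum]
  refine Finset.sum_congr rfl fun k _ => ?_
  rw [Finset.sum_comm]
  refine Finset.sum_congr rfl fun l _ => Finset.sum_congr rfl fun a _ => ?_
  ring

theorem s5gw_kron_trace {ι κ : Type} [Fintype ι] [Fintype κ] [DecidableEq κ] (A : Matrix ι ι ℝ) :
    (Matrix.kroneckerMap (· * ·) A (1 : Matrix κ κ ℝ)).trace = A.trace * Fintype.card κ := by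
  have := Matrix.trace_kronecker A (1 : Matrix κ κ ℝ)
  rw [Matrix.trace_one] at this
  exact this

theorem s5gw_kron_sq {ι κ : Type} [Fintype ι] [Fintype κ] [DecidableEq κ] (A : Matrix ι ι ℝ) :
    (Matrix.kroneckerMap (· * ·) A (1 : Matrix κ κ ℝ) * Matrix.kroneckerMap (· * ·) A (1 : Matrix κ κ ℝ)).trace
      = (A * A).trace * Fintype.card κ := by
  have h := Matrix.mul_kronecker_mul A A (1 : Matrix κ κ ℝ) (1 : Matrix κ κ ℝ)
  rw [Matrix.one_mul] at h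
  have h2 := s5gw_kron_trace (κ := κ) (A * A)
  rw [← h2]
  exact congrArg Matrix.trace h.symm

/-- G5. `E ‖R Rᵀ/m - 1‖²_HS = q (q+1)/m`. -/
theorem s5_wishart_dev {ι : Type} [Fintype ι] [DecidableEq ι] {m : ℕ} (hm : 1 ≤ m) :
    Integrable (fun R => hsq ((m : ℝ)⁻¹ • (R * Rᵀ) - 1)) (gArr ι (Fin m)) ∧
    ∫ R, hsq ((m : ℝ)⁻¹ • (R * Rᵀ) - 1) ∂(gArr ι (Fin m))
      = (Fintype.card ι : ℝ) * (Fintype.card ι + 1) / m := by
  have hm0 : (0 : ℝ) < m := by exact_mod_cast hm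
  set B : ι × ι → Matrix (ι × Fin m) (ι × Fin m) ℝ := fun s =>
    Matrix.kroneckerMap (· * ·) (s5gwC s) (1 : Matrix (Fin m) (Fin m) ℝ) with hB
  have hBh : ∀ s, (B s).IsHermitian := fun s => s5gw_kron_herm (s5gw_C_herm s)
  have key : ∀ ξ : ι × Fin m → ℝ, hsq ((m : ℝ)⁻¹ • (goeMat ξ * (goeMat ξ)ᵀ) - 1)
      = ∑ s : ι × ι, ((m : ℝ)⁻¹) ^ 2 * (qfQ (B s) ξ - (B s).trace) ^ 2 := by
    intro ξ
    unfold hsq
    rw [Fintype.sum_prod_type]
    refine Finset.sum_congr rfl fun i _ => Finset.sum_congr rfl fun j _ => ?_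
    rw [hB]
    simp only
    rw [s5gw_kron_Q, s5gw_kron_trace, s5gw_C_trace,
      s5gw_C_sum (i, j) (fun t => (goeMat ξ * (goeMat ξ)ᵀ) t.1 t.2)]
    have hsym : (goeMat ξ * (goeMat ξ)ᵀ) j i = (goeMat ξ * (goeMat ξ)ᵀ) i j := by
      simp only [Matrix.mul_apply, Matrix.transpose_apply, mul_comm]
    simp only [Prod.fst_swap, Prod.snd_swap, hsym, Matrix.sub_apply, Matrix.smul_apply, smul_eq_mul, Matrix.one_apply,
      Fintype.card_fin]
    rw [← mul_pow]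
    congr 1
    by_cases hij : i = j
    · simp only [hij, if_true]; field_simp; ring
    · simp only [hij, if_false]; ring
  constructor
  · rw [s5w_integrable]
    simp only [key]
    exact integrable_finsetSum _ fun s _ => (qf_sq_integrable (hBh s)).const_mul _
  · rw [s5w_integral]
    simp only [key]
    rw [integral_finsetSum _ fun s _ => (qf_sq_integrable (hBh s)).const_mul _]
    simp only [integral_const_mul, qf_var (hBh _)]
    rw [hB]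
    simp only [s5gw_kron_sq, s5gw_C_sq, Fintype.card_fin]
    have hs : ∑ s : ι × ι, (if s.1 = s.2 then (1 : ℝ) else 0) = Fintype.card ι := by
      rw [Fintype.sum_prod_type]
      simp
    have : ∀ s : ι × ι, ((m : ℝ)⁻¹) ^ 2 * (2 * ((1 + if s.1 = s.2 then (1 : ℝ) else 0) / 2 * m))
        = (m : ℝ)⁻¹ * (1 + if s.1 = s.2 then (1 : ℝ) else 0) := by
      intro s; field_simp
    simp only [this]
    rw [← Finset.mul_sum, Finset.sum_add_distrib, hs, Finset.sum_const, Finset.card_univ, Fintype.card_prod]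
    simp only [nsmul_eq_mul, mul_one]
    push_cast
    field_simp

theorem s5gw_bilN_meas {ι κ : Type} [Fintype ι] [Fintype κ] :
    Measurable (bilN : Matrix ι κ ℝ × Matrix ι κ ℝ → Matrix ι ι ℝ) := by
  refine goe_measurable_of_entries fun i j => ?_
  simp only [bilN, Matrix.add_apply, Matrix.mul_apply, Matrix.transpose_apply]
  refine Measurable.add ?_ ?_
  · exact Finset.measurable_sum _ fun a _ =>
      ((goe_entry_measurable i a).comp measurable_fst).mul ((goe_entry_measurable j a).comp measurable_snd)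
  · exact Finset.measurable_sum _ fun a _ =>
      ((goe_entry_measurable i a).comp measurable_snd).mul ((goe_entry_measurable j a).comp measurable_fst)

/-- G6. Fixed positions: Fubini over `P₋`, G4, Jensen `E √X ≤ √(E X)`, G5. -/
theorem s5_goe_pos {ι : Type} [Fintype ι] [DecidableEq ι] {mr : ℝ} {b : ℕ} {z : Fin b → ℂ} {η : ℝ}
    (hη : 0 < η) (hz : ∀ i, η ≤ (z i).im) {Φ : (Fin b → ℂ) → ℝ} (hΦ : BLip Φ) {Δ : ℝ} (hΔ : 0 < Δ)
    {m : ℕ} (hm : 1 ≤ m) (d : ι → ℝ) :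
    |s5cx mr z Φ (Real.sqrt (Δ / (2 * m))) m d
      - ∫ N, Φ (fun i => (mr : ℂ) + rTr (Matrix.diagonal d + Real.sqrt Δ • goeOf N) (z i))
          ∂(gArr ι ι)|
      ≤ (Fintype.card ι : ℝ) * Real.sqrt (Fintype.card ι) * Real.sqrt (2 * Δ)
          * Real.sqrt ((Fintype.card ι : ℝ) * (Fintype.card ι + 1) / m) / η ^ 2 := by
  set β := Real.sqrt (Δ / (2 * m)) with hβ
  set g := ∫ N, Φ (fun i => (mr : ℂ) + rTr (Matrix.diagonal d + Real.sqrt Δ • goeOf N) (z i)) ∂(gArr ι ι) with hg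
  have hF : Measurable fun P : Matrix ι (Fin m) ℝ × Matrix ι (Fin m) ℝ =>
      Φ (fun i => (mr : ℂ) + rTr (Matrix.diagonal d + β • bilN P) (z i)) :=
    (s5gw_stat_meas mr z hΦ (Matrix.diagonal d) β).comp s5gw_bilN_meas
  have iF : Integrable (fun P : Matrix ι (Fin m) ℝ × Matrix ι (Fin m) ℝ =>
      Φ (fun i => (mr : ℂ) + rTr (Matrix.diagonal d + β • bilN P) (z i))) ((gArr ι (Fin m)).prod (gArr ι (Fin m))) :=
    Integrable.of_bound hF.aestronglyMeasurable 1 (Filter.Eventually.of_forall fun N => hΦ.bdd _)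
  obtain ⟨iW, hW⟩ := s5_wishart_dev (ι := ι) hm
  obtain ⟨iS, hS⟩ := s5w_sqrt_jensen (fun R : Matrix ι (Fin m) ℝ => s5_hsq_nonneg ((m : ℝ)⁻¹ • (R * Rᵀ) - 1)) iW
  rw [hW] at hS
  set c := (Fintype.card ι : ℝ) * Real.sqrt (Fintype.card ι) * Real.sqrt (2 * Δ) / η ^ 2 with hc
  have hc0 : 0 ≤ c := by positivity
  have iI := iF.integral_prod_right
  unfold s5cx
  rw [integral_prod_symm _ iF]
  have e1 : (∫ R, ∫ P, Φ (fun i => (mr : ℂ) + rTr (Matrix.diagonal d + β • bilN (P, R)) (z i)) ∂(gArr ι (Fin m)) ∂(gArr ι (Fin m))) - g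
      = ∫ R, ((∫ P, Φ (fun i => (mr : ℂ) + rTr (Matrix.diagonal d + β • bilN (P, R)) (z i)) ∂(gArr ι (Fin m))) - g) ∂(gArr ι (Fin m)) := by
    rw [integral_sub iI (integrable_const g)]
    simp
  rw [e1]
  calc |∫ R, ((∫ P, Φ (fun i => (mr : ℂ) + rTr (Matrix.diagonal d + β • bilN (P, R)) (z i)) ∂(gArr ι (Fin m))) - g) ∂(gArr ι (Fin m))|
      ≤ ∫ R, |(∫ P, Φ (fun i => (mr : ℂ) + rTr (Matrix.diagonal d + β • bilN (P, R)) (z i)) ∂(gArr ι (Fin m))) - g| ∂(gArr ι (Fin m)) :=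
        abs_integral_le_integral_abs
    _ ≤ ∫ R, c * Real.sqrt (hsq ((m : ℝ)⁻¹ • (R * Rᵀ) - 1)) ∂(gArr ι (Fin m)) := by
        refine integral_mono (iI.sub (integrable_const g)).abs (iS.const_mul c) fun R => ?_
        refine (s5_goe_fixed hη hz hΦ hΔ hm d R).trans (le_of_eq ?_)
        rw [hc]; ring
    _ = c * ∫ R, Real.sqrt (hsq ((m : ℝ)⁻¹ • (R * Rᵀ) - 1)) ∂(gArr ι (Fin m)) := integral_const_mul _ _
    _ ≤ c * Real.sqrt ((Fintype.card ι : ℝ) * (Fintype.card ι + 1) / m) := mul_le_mul_of_nonneg_left hS hc0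
    _ = _ := by rw [hc]; ring

/-- G7 (numbers). `q = 2K+1`, `m = 2K^100`: the bound of G6 tends to 0. -/
theorem s5_goe_num {Δ η : ℝ} (hΔ : 0 < Δ) (hη : 0 < η) {ε : ℝ} (hε : 0 < ε) :
    ∃ K₀ : ℕ, 1 ≤ K₀ ∧ ∀ K : ℕ, K₀ ≤ K →
      ((2 * K + 1 : ℕ) : ℝ) * Real.sqrt ((2 * K + 1 : ℕ) : ℝ) * Real.sqrt (2 * Δ)
          * Real.sqrt (((2 * K + 1 : ℕ) : ℝ) * (((2 * K + 1 : ℕ) : ℝ) + 1) / ((2 * K ^ 100 : ℕ) : ℝ))
          / η ^ 2 ≤ ε := by
  obtain ⟨n, hn⟩ := exists_nat_ge (27 * Real.sqrt (2 * Δ) / (η ^ 2 * ε))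
  refine ⟨n + 1, by omega, fun K hK => ?_⟩
  have hK1 : (1 : ℝ) ≤ K := by exact_mod_cast (by omega : 1 ≤ K)
  have hK0 : (0 : ℝ) < K := by linarith
  have hnK : (n : ℝ) ≤ K := by exact_mod_cast (by omega : n ≤ K)
  set q : ℝ := ((2 * K + 1 : ℕ) : ℝ) with hq
  have hq' : q = 2 * K + 1 := by rw [hq]; push_cast; ring
  have hq1 : 1 ≤ q := by rw [hq']; linarith
  have hq3 : q ≤ 3 * K := by rw [hq']; linarith
  have hsq : Real.sqrt q ≤ q := by
    rw [Real.sqrt_le_left (by linarith)]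
    nlinarith
  have h1 : q * Real.sqrt q ≤ 9 * (K : ℝ) ^ 2 := by
    have : q * Real.sqrt q ≤ q * q := mul_le_mul_of_nonneg_left hsq (by linarith)
    nlinarith
  have h2 : Real.sqrt (q * (q + 1) / ((2 * K ^ 100 : ℕ) : ℝ)) ≤ 3 / (K : ℝ) ^ 3 := by
    rw [Real.sqrt_le_left (by positivity)]
    have e : ((2 * K ^ 100 : ℕ) : ℝ) = 2 * (K : ℝ) ^ 100 := by push_cast; ring
    rw [e, div_pow, div_le_div_iff₀ (by positivity) (by positivity)]
    have h6 : (K : ℝ) ^ 8 ≤ (K : ℝ) ^ 100 := pow_le_pow_right₀ hK1 (by norm_num)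
    have h7 : q * (q + 1) ≤ 12 * (K : ℝ) ^ 2 := by nlinarith
    calc q * (q + 1) * ((K : ℝ) ^ 3) ^ 2 ≤ 12 * (K : ℝ) ^ 2 * ((K : ℝ) ^ 3) ^ 2 :=
          mul_le_mul_of_nonneg_right h7 (by positivity)
      _ = 12 * (K : ℝ) ^ 8 := by ring
      _ ≤ 3 ^ 2 * (2 * (K : ℝ) ^ 100) := by nlinarith
  have hs0 : 0 ≤ Real.sqrt (2 * Δ) := Real.sqrt_nonneg _
  rw [div_le_iff₀ (by positivity)]
  calc q * Real.sqrt q * Real.sqrt (2 * Δ) * Real.sqrt (q * (q + 1) / ((2 * K ^ 100 : ℕ) : ℝ))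
      ≤ 9 * (K : ℝ) ^ 2 * Real.sqrt (2 * Δ) * (3 / (K : ℝ) ^ 3) :=
        mul_le_mul (mul_le_mul_of_nonneg_right h1 hs0) h2 (Real.sqrt_nonneg _) (by positivity)
    _ = 27 * Real.sqrt (2 * Δ) / K := by field_simp; ring
    _ ≤ ε * η ^ 2 := by
        rw [div_le_iff₀ hK0]
        have := hn.trans hnK
        rw [div_le_iff₀ (by positivity)] at this
        linarith

theorem s5gw_cutM_meas (K : ℕ) (Δ : ℝ) :
    Measurable fun xN : Conf × Matrix (Win K) (Win K) ℝ => cutM K Δ xN.1 xN.2 := by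
  unfold cutM
  refine goe_add_measurable ?_ ((goe_smul_measurable _).comp (goe_of_measurable.comp measurable_snd))
  refine goe_measurable_of_entries fun i j => ?_
  by_cases hij : i = j
  · subst hij
    simp only [Matrix.diagonal_apply_eq, cPos]
    exact (measurable_pi_apply _).comp measurable_fst
  · simp only [Matrix.diagonal_apply_ne _ hij]
    exact measurable_const

theorem s5gw_cutTr_meas {b : ℕ} (z : Fin b → ℂ) (K : ℕ) (Δ : ℝ) :
    Measurable fun xN : Conf × Matrix (Win K) (Win K) ℝ => fun a => rTr (cutM K Δ xN.1 xN.2) (z a) :=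
  measurable_pi_lambda _ fun a => (goe_rTr_measurable (z a)).comp (s5gw_cutM_meas K Δ)

/-- I3. Measurability and bound of the GOE inner integral. -/
theorem s5_F_meas {mr : ℝ} {b : ℕ} (z : Fin b → ℂ) {Φ : (Fin b → ℂ) → ℝ} (hΦ : BLip Φ) (Δ : ℝ)
    (K : ℕ) :
    (Measurable fun x : Conf =>
      ∫ N, Φ (fun i => (mr : ℂ) + rTr (cutM K Δ x N) (z i)) ∂(gArr (Win K) (Win K))) ∧
      ∀ x : Conf, |∫ N, Φ (fun i => (mr : ℂ) + rTr (cutM K Δ x N) (z i)) ∂(gArr (Win K) (Win K))|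
        ≤ 1 := by
  constructor
  · have h1 : Measurable fun xN : Conf × Matrix (Win K) (Win K) ℝ =>
        Φ (fun i => (mr : ℂ) + rTr (cutM K Δ xN.1 xN.2) (z i)) := by
      refine (s5gw_BLip_meas hΦ).comp (measurable_pi_lambda _ fun i => ?_)
      exact measurable_const.add ((goe_rTr_measurable (z i)).comp (s5gw_cutM_meas K Δ))
    exact (h1.stronglyMeasurable.integral_prod_right (ν := gArr (Win K) (Win K))).measurable
  · intro x
    have := norm_integral_le_of_norm_le_const (μ := gArr (Win K) (Win K)) (C := 1)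
      (f := fun N => Φ (fun i => (mr : ℂ) + rTr (cutM K Δ x N) (z i)))
      (Filter.Eventually.of_forall fun N => hΦ.bdd _)
    simpa using this

/-- **T3** (F4, replaces the Lindeberg Lemma 5.6): exact coupling of the bilinear noise with GOE. -/
theorem s5_goe {μ : Measure Conf} {mr : ℝ} (hμ : IsProbabilityMeasure μ) {Δ : ℝ} (hΔ : 0 < Δ) {b : ℕ}
    {z : Fin b → ℂ} (hz : ∀ i, 0 < (z i).im) {Φ : (Fin b → ℂ) → ℝ} (hΦ : BLip Φ) :
    ∀ ε : ℝ, 0 < ε → ∃ K₀ : ℕ, ∀ K : ℕ, K₀ ≤ K →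
      |s5C μ mr z Φ (Real.sqrt (Δ / (4 * (K ^ 100 : ℕ)))) (K ^ 100) K - s5F μ mr z Φ Δ K| ≤ ε := by
  intro ε hε
  -- a common lower bound of the heights
  obtain ⟨η, hη, hzη⟩ : ∃ η : ℝ, 0 < η ∧ ∀ i, η ≤ (z i).im := by
    rcases isEmpty_or_nonempty (Fin b) with hb | hb
    · exact ⟨1, one_pos, fun i => (hb.false i).elim⟩
    · obtain ⟨i0, hi0⟩ := Finite.exists_min fun i => (z i).im
      exact ⟨(z i0).im, hz i0, hi0⟩
  obtain ⟨K₀, hK₀1, hK₀⟩ := s5_goe_num hΔ hη hε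
  refine ⟨K₀, fun K hK => ?_⟩
  have hm : 1 ≤ 2 * K ^ 100 := by
    have : 1 ≤ K ^ 100 := Nat.one_le_pow _ _ (by omega)
    omega
  have hβ : Real.sqrt (Δ / (4 * ((K ^ 100 : ℕ) : ℝ))) = Real.sqrt (Δ / (2 * ((2 * K ^ 100 : ℕ) : ℝ))) := by
    congr 2
    push_cast
    ring
  have hm1 := s5_cx_meas (mr := mr) z hΦ (Real.sqrt (Δ / (4 * (K ^ 100 : ℕ)))) (2 * K ^ 100) K
  have hm2 := s5_F_meas (mr := mr) z hΦ Δ K
  have key := s5_int_split (μ := μ) hm1.1 hm2.1 hm1.2 hm2.2 (S := Set.univ)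
    (ε := ε) (δ := 0) hε.le le_rfl (by simp) (fun x _ => by
      have := s5_goe_pos (mr := mr) hη hzη hΦ hΔ hm (cPos K x)
      rw [← hβ] at this
      refine this.trans ?_
      have h2 := hK₀ K hK
      simpa [Fintype.card_fin] using h2)
  unfold s5C s5F
  linarith

end goe

/-! ## 2. T4 and tightness of the unperturbed traces -/

theorem s5gw_cSK_range (K : ℕ) (x : Conf) (z : ℂ) :
    cSK K x z = ∑ i ∈ Finset.range (2 * K + 1), (((x ((i : ℤ) - K) : ℝ) : ℂ) - z)⁻¹ := by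
  unfold cSK cPos wIdx
  exact Fin.sum_univ_eq_sum_range (fun i : ℕ => (((x ((i : ℤ) - K) : ℝ) : ℂ) - z)⁻¹) (2 * K + 1)

theorem s5gw_cSK_succ (K : ℕ) (x : Conf) (z : ℂ) :
    cSK (K + 1) x z = cSK K x z + (((x ((K + 1 : ℕ) : ℤ) : ℝ) : ℂ) - z)⁻¹ + (((x (-((K + 1 : ℕ) : ℤ)) : ℝ) : ℂ) - z)⁻¹ := by
  rw [s5gw_cSK_range, s5gw_cSK_range, show 2 * (K + 1) + 1 = (2 * K + 1) + 1 + 1 by ring, Finset.sum_range_succ,
    Finset.sum_range_succ']
  have e1 : ∀ i : ℕ, (((i + 1 : ℕ) : ℤ) - ((K + 1 : ℕ) : ℤ)) = (i : ℤ) - K := fun i => by push_cast; ring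
  have e2 : (((0 : ℕ) : ℤ) - ((K + 1 : ℕ) : ℤ)) = -((K + 1 : ℕ) : ℤ) := by push_cast; ring
  have e3 : (((2 * K + 1 : ℕ) : ℤ) - (K : ℤ)) = ((K + 1 : ℕ) : ℤ) := by push_cast; ring
  simp only [e1, e2, e3]
  ring

theorem s5gw_tele {χ t : ℝ} (hχ0 : 0 < χ) (hχ1 : χ ≤ 1) (ht : 0 < t) :
    χ * (t + 1) ^ (-1 - χ) ≤ t ^ (-χ) - (t + 1) ^ (-χ) := by
  have hs : 0 < t + 1 := by linarith
  set a := t ^ χ with ha
  set b := (t + 1) ^ χ with hb
  have ha0 : 0 < a := Real.rpow_pos_of_pos ht _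
  have hb0 : 0 < b := Real.rpow_pos_of_pos hs _
  have h1 : a ≤ b * (1 - χ / (t + 1)) := by
    have h := rpow_one_add_le_one_add_mul_self (s := -(1 / (t + 1))) (by
      rw [neg_le_neg_iff, div_le_one hs]; linarith) hχ0.le hχ1
    have e : 1 + -(1 / (t + 1)) = t / (t + 1) := by field_simp; ring
    rw [e, Real.div_rpow ht.le hs.le, div_le_iff₀ hb0] at h
    calc a ≤ (1 + χ * -(1 / (t + 1))) * b := h
      _ = b * (1 - χ / (t + 1)) := by ring
  have e1 : t ^ (-χ) = a⁻¹ := Real.rpow_neg ht.le _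
  have e2 : (t + 1) ^ (-χ) = b⁻¹ := Real.rpow_neg hs.le _
  have e3 : (t + 1) ^ (-1 - χ) = (t + 1)⁻¹ * b⁻¹ := by
    rw [sub_eq_add_neg, Real.rpow_add hs, Real.rpow_neg_one, e2]
  rw [e1, e2, e3]
  have h2 : a * (1 + χ / (t + 1)) ≤ b := by
    have hq : 0 ≤ χ / (t + 1) := by positivity
    calc a * (1 + χ / (t + 1)) ≤ b * (1 - χ / (t + 1)) * (1 + χ / (t + 1)) := by gcongr
      _ = b * (1 - (χ / (t + 1)) ^ 2) := by ring
      _ ≤ b * 1 := by gcongr; nlinarith [sq_nonneg (χ / (t + 1))]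
      _ = b := mul_one b
  have e4 : a⁻¹ - b⁻¹ = (b - a) / (a * b) := by field_simp
  rw [e4, le_div_iff₀ (by positivity)]
  calc χ * ((t + 1)⁻¹ * b⁻¹) * (a * b) = a * (χ / (t + 1)) := by field_simp
    _ ≤ b - a := by linarith

theorem s5gw_term_le (a : ℝ) {z : ℂ} (hz : 0 < z.im) : ‖((a : ℂ) - z)⁻¹‖ ≤ 1 / z.im := by
  rw [norm_inv, one_div]
  refine inv_anti₀ hz ?_
  have := Complex.abs_im_le_norm ((a : ℂ) - z)
  simp only [Complex.sub_im, Complex.ofReal_im, zero_sub, abs_neg, abs_of_pos hz] at this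
  exact this

theorem s5gw_cSK_triv (K : ℕ) (x : Conf) {z : ℂ} (hz : 0 < z.im) : ‖cSK K x z‖ ≤ (2 * K + 1 : ℝ) / z.im := by
  unfold cSK
  refine (norm_sum_le _ _).trans ?_
  calc ∑ i : Win K, ‖(((cPos K x i : ℝ) : ℂ) - z)⁻¹‖ ≤ ∑ _i : Win K, 1 / z.im :=
        Finset.sum_le_sum fun i _ => s5gw_term_le _ hz
    _ = (2 * K + 1 : ℝ) / z.im := by
        rw [Finset.sum_const, Finset.card_univ, Fintype.card_fin, nsmul_eq_mul]
        push_cast
        ring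

/-- the symmetric pair of labels `± n` -/
theorem s5gw_pair {ρ B w n a b : ℝ} {z : ℂ} (hρ : 0 < ρ) (hn : 0 < n) (hw : 0 < w)
    (hB : 2 * ρ * B ≤ w) (hwn : w ≤ n) {c0 : ℝ} (hc0 : 0 ≤ c0) (hBc : c0 + ‖z‖ ≤ B)
    (ha : |a - n / ρ| ≤ c0 * (n / w)) (hb : |b + n / ρ| ≤ c0 * (n / w)) :
    ‖((a : ℂ) - z)⁻¹ + ((b : ℂ) - z)⁻¹‖ ≤ 8 * ρ ^ 2 * B * (n⁻¹ * w⁻¹) := by
  have hq1 : 1 ≤ n / w := by rwa [one_le_div hw]
  have hB0 : 0 ≤ B := le_trans (add_nonneg hc0 (norm_nonneg z)) hBc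
  have hBq : B * (n / w) ≤ n / (2 * ρ) := by
    rw [le_div_iff₀ (by positivity), mul_div_assoc', div_mul_eq_mul_div, div_le_iff₀ hw]
    nlinarith
  have hcz : c0 * (n / w) + ‖z‖ ≤ B * (n / w) := by
    have : ‖z‖ ≤ ‖z‖ * (n / w) := le_mul_of_one_le_right (norm_nonneg z) hq1
    nlinarith
  have hnρ : n / ρ = 2 * (n / (2 * ρ)) := by field_simp
  have hA : n / (2 * ρ) ≤ ‖(a : ℂ) - z‖ := by
    have h1 : ‖(a : ℂ)‖ - ‖z‖ ≤ ‖(a : ℂ) - z‖ := norm_sub_norm_le _ _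
    rw [Complex.norm_real, Real.norm_eq_abs] at h1
    have h2 : n / ρ - c0 * (n / w) ≤ |a| := by
      have := abs_le.1 ha
      have h3 := le_abs_self a
      linarith [this.1]
    linarith
  have hBb : n / (2 * ρ) ≤ ‖(b : ℂ) - z‖ := by
    have h1 : ‖(b : ℂ)‖ - ‖z‖ ≤ ‖(b : ℂ) - z‖ := norm_sub_norm_le _ _
    rw [Complex.norm_real, Real.norm_eq_abs] at h1
    have h2 : n / ρ - c0 * (n / w) ≤ |b| := by
      have := abs_le.1 hb
      have h3 := neg_abs_le b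
      linarith [this.2]
    linarith
  have hd : 0 < n / (2 * ρ) := by positivity
  have ha0 : (a : ℂ) - z ≠ 0 := norm_pos_iff.1 (hd.trans_le hA)
  have hb0 : (b : ℂ) - z ≠ 0 := norm_pos_iff.1 (hd.trans_le hBb)
  have e : ((a : ℂ) - z)⁻¹ + ((b : ℂ) - z)⁻¹ = (((a + b : ℝ) : ℂ) - 2 * z) / (((a : ℂ) - z) * ((b : ℂ) - z)) := by
    field_simp
    push_cast
    ring
  rw [e, norm_div, norm_mul]
  have hnum : ‖((a + b : ℝ) : ℂ) - 2 * z‖ ≤ 2 * (B * (n / w)) := by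
    refine (norm_sub_le _ _).trans ?_
    rw [Complex.norm_real, Real.norm_eq_abs, norm_mul, Complex.norm_ofNat]
    have : |a + b| ≤ 2 * (c0 * (n / w)) := by
      have : a + b = (a - n / ρ) + (b + n / ρ) := by ring
      rw [this]
      exact (abs_add_le _ _).trans (by linarith)
    linarith
  calc ‖((a + b : ℝ) : ℂ) - 2 * z‖ / (‖(a : ℂ) - z‖ * ‖(b : ℂ) - z‖)
      ≤ 2 * (B * (n / w)) / (n / (2 * ρ) * (n / (2 * ρ))) := by gcongr
    _ = 8 * ρ ^ 2 * B * (n⁻¹ * w⁻¹) := by field_simp; ring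

/-- J1. For regular `x` the index-symmetric partial sums are Cauchy with a rate and bounded (W3, W6). -/
theorem s5_cSK_reg {ρ χ C₀ : ℝ} (hρ : 0 < ρ) (hχ : 0 < χ) (hχ1 : χ < 1) (J₀ : ℕ) {z : ℂ}
    (hz : 0 < z.im) :
    ∃ (C : ℝ) (K₁ : ℕ), 0 < C ∧ ∀ x : Conf, CReg ρ χ C₀ J₀ x →
      (∀ K L : ℕ, K₁ ≤ K → K ≤ L → ‖cSK L x z - cSK K x z‖ ≤ C * (K : ℝ) ^ (-χ)) ∧
      ∀ K : ℕ, ‖cSK K x z‖ ≤ C := by
  set B := |C₀| + ‖z‖ with hB
  have hB0 : 0 ≤ B := by positivity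
  have hev := ((tendsto_rpow_atTop hχ).comp tendsto_natCast_atTop_atTop).eventually_ge_atTop (2 * ρ * B)
  rw [Filter.eventually_atTop] at hev
  obtain ⟨K₂, hK₂⟩ := hev
  set K₁ := max (max J₀ 1) K₂ with hK₁
  have hK₁J : J₀ ≤ K₁ := le_trans (le_max_left _ _) (le_max_left _ _)
  have hK₁1 : 1 ≤ K₁ := le_trans (le_max_right _ _) (le_max_left _ _)
  have hK₁2 : K₂ ≤ K₁ := le_max_right _ _
  set c := 8 * ρ ^ 2 * B with hc
  have hc0 : 0 ≤ c := by positivity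
  have hT0 : 0 ≤ (2 * K₁ + 1 : ℝ) / z.im := by positivity
  refine ⟨c / χ + (2 * K₁ + 1 : ℝ) / z.im + 1, K₁, by positivity, fun x hx => ?_⟩
  -- the pair bound
  have hpair : ∀ n : ℕ, K₁ ≤ n →
      ‖(((x ((n : ℕ) : ℤ) : ℝ) : ℂ) - z)⁻¹ + (((x (-((n : ℕ) : ℤ)) : ℝ) : ℂ) - z)⁻¹‖ ≤ c * (n : ℝ) ^ (-1 - χ) := by
    intro n hn
    have hn1 : (1 : ℝ) ≤ n := by exact_mod_cast hK₁1.trans hn
    have hn0 : (0 : ℝ) < n := by linarith
    have hw : 0 < (n : ℝ) ^ χ := Real.rpow_pos_of_pos hn0 _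
    have e1 : (n : ℝ) ^ (1 - χ) = n / (n : ℝ) ^ χ := by rw [Real.rpow_sub hn0, Real.rpow_one]
    have e2 : (n : ℝ) ^ (-1 - χ) = (n : ℝ)⁻¹ * ((n : ℝ) ^ χ)⁻¹ := by
      rw [Real.rpow_sub hn0, Real.rpow_neg_one, div_eq_mul_inv]
    have hJn : (J₀ : ℤ) ≤ |((n : ℕ) : ℤ)| := by
      rw [Nat.abs_cast]; exact_mod_cast hK₁J.trans hn
    have hJn' : (J₀ : ℤ) ≤ |(-((n : ℕ) : ℤ))| := by rw [abs_neg]; exact hJn
    have ha := hx.2 _ hJn
    have hb := hx.2 _ hJn'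
    have hq0 : 0 ≤ (n : ℝ) / (n : ℝ) ^ χ := by positivity
    push_cast at ha hb
    rw [abs_neg, Nat.abs_cast, e1] at hb
    rw [Nat.abs_cast, e1] at ha
    rw [e2, hc]
    refine s5gw_pair hρ hn0 hw (hK₂ n (hK₁2.trans hn)) ?_ (abs_nonneg C₀) le_rfl
      (ha.trans (mul_le_mul_of_nonneg_right (le_abs_self _) hq0)) ?_
    · calc (n : ℝ) ^ χ ≤ (n : ℝ) ^ (1 : ℝ) := Real.rpow_le_rpow_of_exponent_le hn1 hχ1.le
        _ = n := Real.rpow_one _
    · have : x (-(n : ℤ)) + (n : ℝ) / ρ = x (-(n : ℤ)) - -(n : ℝ) / ρ := by ring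
      rw [this]
      exact hb.trans (mul_le_mul_of_nonneg_right (le_abs_self _) hq0)
  -- telescoping
  have htel : ∀ K : ℕ, K₁ ≤ K → ∀ L : ℕ, K ≤ L →
      ‖cSK L x z - cSK K x z‖ ≤ c / χ * ((K : ℝ) ^ (-χ) - (L : ℝ) ^ (-χ)) := by
    intro K hK L hL
    induction L, hL using Nat.le_induction with
    | base => simp
    | succ L hL ih =>
      have hL0 : (0 : ℝ) < L := by exact_mod_cast (hK₁1.trans hK).trans hL
      have h1 := hpair (L + 1) ((hK.trans hL).trans (Nat.le_succ L))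
      have h2 := s5gw_tele hχ hχ1.le hL0
      have e : cSK (L + 1) x z - cSK K x z = (cSK L x z - cSK K x z)
          + ((((x ((L + 1 : ℕ) : ℤ) : ℝ) : ℂ) - z)⁻¹ + (((x (-((L + 1 : ℕ) : ℤ)) : ℝ) : ℂ) - z)⁻¹) := by
        rw [s5gw_cSK_succ]; ring
      rw [e]
      refine (norm_add_le _ _).trans ?_
      have h3 : c * ((L + 1 : ℕ) : ℝ) ^ (-1 - χ) ≤ c / χ * ((L : ℝ) ^ (-χ) - ((L + 1 : ℕ) : ℝ) ^ (-χ)) := by
        push_cast
        calc c * ((L : ℝ) + 1) ^ (-1 - χ) = c / χ * (χ * ((L : ℝ) + 1) ^ (-1 - χ)) := by field_simp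
          _ ≤ c / χ * ((L : ℝ) ^ (-χ) - ((L : ℝ) + 1) ^ (-χ)) := by gcongr
      calc ‖cSK L x z - cSK K x z‖ + ‖(((x ((L + 1 : ℕ) : ℤ) : ℝ) : ℂ) - z)⁻¹ + (((x (-((L + 1 : ℕ) : ℤ)) : ℝ) : ℂ) - z)⁻¹‖
          ≤ c / χ * ((K : ℝ) ^ (-χ) - (L : ℝ) ^ (-χ)) + c / χ * ((L : ℝ) ^ (-χ) - ((L + 1 : ℕ) : ℝ) ^ (-χ)) :=
            add_le_add ih (h1.trans h3)
        _ = c / χ * ((K : ℝ) ^ (-χ) - ((L + 1 : ℕ) : ℝ) ^ (-χ)) := by ring
  have hcχ : 0 ≤ c / χ := by positivity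
  have htel' : ∀ K : ℕ, K₁ ≤ K → ∀ L : ℕ, K ≤ L → ‖cSK L x z - cSK K x z‖ ≤ c / χ * (K : ℝ) ^ (-χ) := by
    intro K hK L hL
    refine (htel K hK L hL).trans (mul_le_mul_of_nonneg_left ?_ hcχ)
    have : 0 ≤ (L : ℝ) ^ (-χ) := Real.rpow_nonneg (Nat.cast_nonneg _) _
    linarith
  constructor
  · intro K L hK hL
    refine (htel' K hK L hL).trans (mul_le_mul_of_nonneg_right ?_ (Real.rpow_nonneg (Nat.cast_nonneg _) _))
    linarith
  · intro K
    rcases le_total K K₁ with hK | hK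
    · refine (s5gw_cSK_triv K x hz).trans ?_
      have : (2 * K + 1 : ℝ) / z.im ≤ (2 * K₁ + 1 : ℝ) / z.im := by
        have : (K : ℝ) ≤ K₁ := by exact_mod_cast hK
        gcongr
      linarith
    · have h1 := htel' K₁ le_rfl K hK
      have h2 := s5gw_cSK_triv K₁ x hz
      have h3 : (K₁ : ℝ) ^ (-χ) ≤ 1 :=
        Real.rpow_le_one_of_one_le_of_nonpos (by exact_mod_cast hK₁1) (by linarith)
      have h4 : ‖cSK K x z‖ ≤ ‖cSK K x z - cSK K₁ x z‖ + ‖cSK K₁ x z‖ := by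
        have := norm_add_le (cSK K x z - cSK K₁ x z) (cSK K₁ x z)
        rwa [sub_add_cancel] at this
      have h5 : c / χ * (K₁ : ℝ) ^ (-χ) ≤ c / χ := by
        calc c / χ * (K₁ : ℝ) ^ (-χ) ≤ c / χ * 1 := mul_le_mul_of_nonneg_left h3 hcχ
          _ = c / χ := mul_one _
      linarith

/-- J2. Measurability of `x ↦ cSK K x z`. -/
theorem s5_cSK_meas (K : ℕ) (z : ℂ) : Measurable fun x : Conf => cSK K x z := by
  unfold cSK cPos
  refine Finset.measurable_sum _ fun i _ => ?_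
  exact ((Complex.measurable_ofReal.comp (measurable_pi_apply _)).sub_const z).inv

/-- **T4**: the unperturbed traces are Cauchy in the cut. J1 at every `z_i`, `Φ` 1-Lipschitz, I2. -/
theorem s5_A_cauchy {μ : Measure Conf} {ρ χ p dinv mr : ℝ} (h : S5In μ ρ χ p dinv mr) {b : ℕ}
    {z : Fin b → ℂ} (hz : ∀ i, 0 < (z i).im) {Φ : (Fin b → ℂ) → ℝ} (hΦ : BLip Φ) :
    ∀ ε : ℝ, 0 < ε → ∃ K₀ : ℕ, ∀ K : ℕ, K₀ ≤ K → ∀ L : ℕ, K ≤ L →
      |s5A μ mr z Φ L - s5A μ mr z Φ K| ≤ ε := by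
  intro ε hε
  have := h.prob
  obtain ⟨C₀, J₀, hreg⟩ := h.reg (ε / 4) (by positivity)
  have hχ1 : χ < 1 := by linarith [h.chi_lt]
  choose C K₁ hC hJ using fun i => s5_cSK_reg (C₀ := C₀) h.rho_pos h.chi_pos hχ1 J₀ (hz i)
  set Cm := ∑ i, C i with hCm
  have hCi : ∀ i, C i ≤ Cm := fun i => Finset.single_le_sum (fun j _ => (hC j).le) (Finset.mem_univ i)
  have hKi : ∀ i, K₁ i ≤ ∑ j, K₁ j := fun i => Finset.single_le_sum (fun j _ => Nat.zero_le _) (Finset.mem_univ i)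
  have ht : Tendsto (fun K : ℕ => Cm * (K : ℝ) ^ (-χ)) atTop (𝓝 (Cm * 0)) :=
    ((tendsto_rpow_neg_atTop h.chi_pos).comp tendsto_natCast_atTop_atTop).const_mul Cm
  rw [mul_zero] at ht
  have hev := ht.eventually_le_const (show (0 : ℝ) < ε / 2 by positivity)
  rw [Filter.eventually_atTop] at hev
  obtain ⟨K₂, hK₂⟩ := hev
  refine ⟨max K₂ (∑ j, K₁ j), fun K hK L hL => ?_⟩
  have hm : ∀ K : ℕ, Measurable fun x : Conf => Φ (fun i => (mr : ℂ) + cSK K x (z i)) := fun K =>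
    (s5gw_BLip_meas hΦ).comp (measurable_pi_lambda _ fun i => measurable_const.add (s5_cSK_meas K (z i)))
  have key := s5_int_split (μ := μ) (hm L) (hm K) (fun _ => hΦ.bdd _) (fun _ => hΦ.bdd _)
    (S := {x | CReg ρ χ C₀ J₀ x}) (ε := ε / 2) (δ := ε / 4) (by positivity) (by positivity) hreg (fun x hx => by
      refine (hΦ.lip _ _).trans ?_
      rw [pi_norm_le_iff_of_nonneg (by positivity)]
      intro i
      simp only [Pi.sub_apply, add_sub_add_left_eq_sub]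
      refine ((hJ i x hx).1 K L ((hKi i).trans ((le_max_right _ _).trans hK)) hL).trans ?_
      refine le_trans ?_ (hK₂ K ((le_max_left _ _).trans hK))
      exact mul_le_mul_of_nonneg_right (hCi i) (Real.rpow_nonneg (Nat.cast_nonneg _) _))
  unfold s5A
  linarith

/-! ## 3. The assembly: (I) for bounded Lipschitz tests -/

/-- **(I)** for bounded Lipschitz tests. -/
theorem s5_main {μ : Measure Conf} {ρ χ p dinv mr : ℝ} (h : S5In μ ρ χ p dinv mr) {Δ : ℝ}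
    (hΔ : 0 < Δ) {b : ℕ} {z : Fin b → ℂ}
    (hz : ∀ i, 0 < (z i).im) {Φ : (Fin b → ℂ) → ℝ} (hΦ : BLip Φ) :
    Tendsto (fun K => s5F μ mr z Φ Δ K - s5A μ mr z Φ K) atTop (𝓝 0) := by
  rw [Metric.tendsto_atTop]
  intro ε hε
  have hε4 : 0 < ε / 5 := by positivity
  obtain ⟨K1, h1⟩ := s5_cut h hΔ hz hΦ (ε / 5) hε4
  obtain ⟨K2, h2⟩ := s5_goe (mr := mr) h.prob hΔ hz hΦ (ε / 5) hε4
  obtain ⟨K3, h3⟩ := s5_A_cauchy h hz hΦ (ε / 5) hε4
  obtain ⟨K4, h4⟩ : ∃ K4 : ℕ, Δ * (mr * p + dinv - 1 / 2) ^ 2 < 4 * (K4 : ℝ) := by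
    obtain ⟨n, hn⟩ := exists_nat_gt (Δ * (mr * p + dinv - 1 / 2) ^ 2)
    exact ⟨n, by nlinarith [Nat.cast_nonneg (α := ℝ) n]⟩
  refine ⟨max (max K1 K2) (max K3 (K4 + 1)), fun K hK => ?_⟩
  have hK1 : K1 ≤ K := le_trans (le_trans (le_max_left _ _) (le_max_left _ _)) hK
  have hK2 : K2 ≤ K := le_trans (le_trans (le_max_right _ _) (le_max_left _ _)) hK
  have hK3 : K3 ≤ K := le_trans (le_trans (le_max_left _ _) (le_max_right _ _)) hK
  have hK4 : K4 + 1 ≤ K := le_trans (le_trans (le_max_right _ _) (le_max_right _ _)) hK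
  have hr1 : 1 ≤ K ^ 100 := Nat.one_le_pow _ _ (by omega)
  have hKle : K ≤ K ^ 100 := by
    calc K = K ^ 1 := (pow_one K).symm
      _ ≤ K ^ 100 := Nat.pow_le_pow_right (by omega) (by norm_num)
  have hr : Δ * (mr * p + dinv - 1 / 2) ^ 2 < 4 * ((K ^ 100 : ℕ) : ℝ) := by
    have : (K4 : ℝ) ≤ ((K ^ 100 : ℕ) : ℝ) := by
      exact_mod_cast (le_trans (by omega : K4 ≤ K) hKle)
    linarith
  obtain ⟨L0, hL0⟩ := h1 K hK1
  have hex := s5_exact h hΔ hr1 hr hz hΦ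
  rw [Metric.tendsto_atTop] at hex
  obtain ⟨L1, hL1⟩ := hex (ε / 5) hε4
  set L := max (max L0 L1) K with hL
  have e1 := hL0 L (le_trans (le_max_left _ _) (le_max_left _ _))
  have e2 := hL1 L (le_trans (le_max_right _ _) (le_max_left _ _))
  have e3 := h3 K hK3 L (le_max_right _ _)
  have e4 := h2 K hK2
  rw [Real.dist_eq, sub_zero] at e2
  rw [Real.dist_eq, sub_zero]
  have e2' := e2.le
  rw [abs_le] at e1 e2' e3 e4
  rw [abs_lt]
  constructor <;> linarith [e1.1, e1.2, e2'.1, e2'.2, e3.1, e3.2, e4.1, e4.2]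

/-! ## 4. From bounded Lipschitz to bounded continuous tests -/

/-- law of the perturbed traces -/
noncomputable def s5nu (μ : Measure Conf) {b : ℕ} (z : Fin b → ℂ) (Δ : ℝ) (K : ℕ) :
    Measure (Fin b → ℂ) :=
  (μ.prod (gArr (Win K) (Win K))).map fun xN => fun a => rTr (cutM K Δ xN.1 xN.2) (z a)

/-- law of the unperturbed traces -/
noncomputable def s5nu' (μ : Measure Conf) {b : ℕ} (z : Fin b → ℂ) (K : ℕ) : Measure (Fin b → ℂ) :=
  μ.map fun x => fun a => cSK K x (z a)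

theorem s5_top_eqns_cite : True := by
  have := @s5nu.eq_1
  have := @s5nu'.eq_1
  trivial

/-- L2. `s5nu`, `s5nu'` are probability measures and integrate continuous bounded functions as iterated integrals
(`integral_map`, `integral_prod`; measurability D0, J2). -/
theorem s5_nu_int {μ : Measure Conf} [IsProbabilityMeasure μ] {b : ℕ} (z : Fin b → ℂ) (Δ : ℝ) (K : ℕ) :
    IsProbabilityMeasure (s5nu μ z Δ K) ∧ IsProbabilityMeasure (s5nu' μ z K) ∧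
    ∀ Ψ : (Fin b → ℂ) → ℝ, Continuous Ψ → (∃ C, ∀ v, |Ψ v| ≤ C) →
      (∫ v, Ψ v ∂(s5nu μ z Δ K)
          = ∫ x, ∫ N, Ψ (fun a => rTr (cutM K Δ x N) (z a)) ∂(gArr (Win K) (Win K)) ∂μ) ∧
      (∫ v, Ψ v ∂(s5nu' μ z K) = ∫ x, Ψ (fun a => cSK K x (z a)) ∂μ) := by
  have m1 := s5gw_cutTr_meas z K Δ
  have m2 : Measurable fun x : Conf => fun a => cSK K x (z a) :=
    measurable_pi_lambda _ fun a => s5_cSK_meas K (z a)
  refine ⟨Measure.isProbabilityMeasure_map m1.aemeasurable, Measure.isProbabilityMeasure_map m2.aemeasurable, ?_⟩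
  rintro Ψ hΨ ⟨C, hC⟩
  constructor
  · unfold s5nu
    rw [integral_map m1.aemeasurable hΨ.measurable.aestronglyMeasurable]
    exact integral_prod _ (Integrable.of_bound (hΨ.measurable.comp m1).aestronglyMeasurable C
      (Filter.Eventually.of_forall fun _ => hC _))
  · unfold s5nu'
    rw [integral_map m2.aemeasurable hΨ.measurable.aestronglyMeasurable]

/-- L4. Shift of a `BLip` function. -/
theorem s5_blip_shift {b : ℕ} {Φ : (Fin b → ℂ) → ℝ} (hΦ : BLip Φ) (c : ℂ) :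
    BLip fun v => Φ fun i => v i - c := by
  refine ⟨fun v => hΦ.bdd _, fun v w => ?_⟩
  refine (hΦ.lip _ _).trans (le_of_eq ?_)
  congr 1
  funext i
  simp

/-- (I) = `LStat`, from `S5In`. -/
theorem s5_stat {μ : Measure Conf} {ρ χ p dinv mr : ℝ} (h : S5In μ ρ χ p dinv mr) : LStat μ := by
  intro Δ hΔ b z hz Φ hB hL
  obtain ⟨B, hB⟩ := hB
  obtain ⟨Lc, hL⟩ := hL
  have := h.prob
  have hBL : ∀ Ψ : (Fin b → ℂ) → ℝ, BLip Ψ →
      Tendsto (fun K => ∫ v, Ψ v ∂(s5nu μ z Δ K) - ∫ v, Ψ v ∂(s5nu' μ z K)) atTop (𝓝 0) := by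
    intro Ψ hΨ
    have hsh := s5_blip_shift hΨ (mr : ℂ)
    have := s5_main h hΔ hz hsh
    refine this.congr fun K => ?_
    have hI := (s5_nu_int (μ := μ) z Δ K).2.2 Ψ hΨ.continuous ⟨1, hΨ.bdd⟩
    rw [hI.1, hI.2]
    unfold s5F s5A
    simp only [add_sub_cancel_left]
  set c : ℝ := max (max B (Lc : ℝ)) 1 with hc
  have hc1 : (1 : ℝ) ≤ c := le_max_right _ _
  have hc0 : 0 < c := by linarith
  have hΨ : BLip fun v => c⁻¹ * Φ v := by
    refine ⟨fun v => ?_, fun v w => ?_⟩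
    · rw [abs_mul, abs_of_pos (inv_pos.2 hc0), inv_mul_le_iff₀ hc0, mul_one]
      exact (hB v).trans ((le_max_left _ _).trans (le_max_left _ _))
    · rw [← mul_sub, abs_mul, abs_of_pos (inv_pos.2 hc0), inv_mul_le_iff₀ hc0]
      have h1 := hL.dist_le_mul v w
      rw [Real.dist_eq, dist_eq_norm] at h1
      refine h1.trans (mul_le_mul_of_nonneg_right ((le_max_right _ _).trans (le_max_left _ _)) (norm_nonneg _))
  have key := (hBL _ hΨ).const_mul c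
  rw [mul_zero] at key
  refine key.congr fun K => ?_
  have hI := (s5_nu_int (μ := μ) z Δ K).2.2 _ hΨ.continuous ⟨1, hΨ.bdd⟩
  rw [hI.1, hI.2]
  simp only [integral_const_mul]
  field_simp

/-! ## 5. `S5In` from `LReg`, `LSw`; the exit -/

/-- N1. Monotonicity of `CReg` in its parameters (`|j| ≥ 1`: `|j|^{1-χ} ≤ |j|^{1-χ'}` for `χ' ≤ χ`). -/
theorem s5_creg_mono {ρ χ χ' C₀ C₀' : ℝ} {J₀ J₀' : ℕ} (hχ : χ' ≤ χ) (hC : C₀ ≤ C₀') (hJ : J₀ ≤ J₀')
    (hJ1 : 1 ≤ J₀') {x : Conf} (h : CReg ρ χ C₀ J₀ x) : CReg ρ χ' C₀' J₀' x := by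
  refine ⟨h.1, fun j hj => ?_⟩
  have hj0 : (J₀ : ℤ) ≤ |j| := le_trans (by exact_mod_cast hJ) hj
  have h1 := h.2 j hj0
  have hj1 : (1 : ℝ) ≤ |(j : ℝ)| := by
    have : (1 : ℤ) ≤ |j| := le_trans (by exact_mod_cast hJ1) hj
    exact_mod_cast this
  have ha : 0 < |(j : ℝ)| ^ (1 - χ) := Real.rpow_pos_of_pos (by linarith) _
  have hab : |(j : ℝ)| ^ (1 - χ) ≤ |(j : ℝ)| ^ (1 - χ') := Real.rpow_le_rpow_of_exponent_le hj1 (by linarith)
  have hC0 : 0 ≤ C₀ := by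
    by_contra hneg
    have : C₀ * |(j : ℝ)| ^ (1 - χ) < 0 := mul_neg_of_neg_of_pos (not_le.1 hneg) ha
    linarith [abs_nonneg (x j - j / ρ)]
  exact h1.trans (mul_le_mul hC hab ha.le (hC0.trans hC))

/-- N2. `{x | CReg ρ χ C₀ J₀ x}` is measurable (countable intersections of closed conditions on finitely many coordinates). -/
theorem s5_creg_meas (ρ χ C₀ : ℝ) (J₀ : ℕ) : MeasurableSet {x : Conf | CReg ρ χ C₀ J₀ x} := by
  have e : {x : Conf | CReg ρ χ C₀ J₀ x} = (⋂ i : ℤ, ⋂ j : ℤ, {x : Conf | i ≤ j → x i ≤ x j}) ∩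
      ⋂ j : ℤ, {x : Conf | (J₀ : ℤ) ≤ |j| → |x j - j / ρ| ≤ C₀ * |(j : ℝ)| ^ (1 - χ)} := by
    ext x
    simp only [CReg, Set.mem_ofPred_eq, Set.mem_inter_iff, Set.mem_iInter]
    exact and_congr_left fun _ => ⟨fun h i j hij => h hij, fun h i j hij => h i j hij⟩
  rw [e]
  refine MeasurableSet.inter (MeasurableSet.iInter fun i => MeasurableSet.iInter fun j => ?_) (MeasurableSet.iInter fun j => ?_)
  · by_cases hij : i ≤ j
    · simp only [hij, true_imp_iff]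
      exact measurableSet_le (measurable_pi_apply i) (measurable_pi_apply j)
    · simp [hij]
  · by_cases hj : (J₀ : ℤ) ≤ |j|
    · simp only [hj, true_imp_iff]
      exact measurableSet_le (((measurable_pi_apply j).sub_const _).abs) measurable_const
    · simp [hj]

/-- N3. Almost sure regularity with random constants ⟹ regularity in probability: the sets `{CReg ρ χ n n}` (`n ≥ 1`) increase (N1) to
a set of full measure; continuity of the measure from below. -/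
theorem s5_reg_of_ae {μ : Measure Conf} [IsProbabilityMeasure μ] {ρ χ : ℝ}
    (h : ∀ᵐ x ∂μ, ∃ (C₀ : ℝ) (J₀ : ℕ), CReg ρ χ C₀ J₀ x) :
    ∀ ε : ℝ, 0 < ε → ∃ (C₀ : ℝ) (J₀ : ℕ), μ {x | ¬ CReg ρ χ C₀ J₀ x} ≤ ENNReal.ofReal ε := by
  intro ε hε
  set A : ℕ → Set Conf := fun n => {x | CReg ρ χ ((n + 1 : ℕ) : ℝ) (n + 1) x} with hA
  have hmono : Monotone A := by
    intro n k hnk x hx
    exact s5_creg_mono le_rfl (by exact_mod_cast Nat.succ_le_succ hnk) (Nat.succ_le_succ hnk) (by omega) hx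
  have hAm : ∀ n, MeasurableSet (A n) := fun n => s5_creg_meas _ _ _ _
  have hU : μ (⋃ n, A n) = 1 := by
    rw [← mem_ae_iff_prob_eq_one (MeasurableSet.iUnion hAm)]
    filter_upwards [h] with x hx
    obtain ⟨C₀, J₀, hx⟩ := hx
    refine Set.mem_iUnion.2 ⟨max ⌈C₀⌉₊ J₀, ?_⟩
    refine s5_creg_mono le_rfl ?_ ?_ (by omega) hx
    · refine (Nat.le_ceil C₀).trans ?_
      exact_mod_cast (le_max_left _ _).trans (Nat.le_succ _)
    · exact (le_max_right _ _).trans (Nat.le_succ _)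
  have ht := tendsto_measure_iUnion_atTop (μ := μ) hmono
  rw [hU] at ht
  have hlt : (1 : ENNReal) - ENNReal.ofReal ε < 1 :=
    ENNReal.sub_lt_self ENNReal.one_ne_top one_ne_zero (by simpa using hε)
  obtain ⟨n, hn⟩ := (ht.eventually (lt_mem_nhds hlt)).exists
  refine ⟨((n + 1 : ℕ) : ℝ), n + 1, ?_⟩
  have e : {x | ¬ CReg ρ χ ((n + 1 : ℕ) : ℝ) (n + 1) x} = (A n)ᶜ := rfl
  rw [e, prob_compl_eq_one_sub (hAm n)]
  have hn' : 1 - ENNReal.ofReal ε ≤ μ (A n) := hn.le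
  exact tsub_le_iff_left.2 (tsub_le_iff_right.1 hn')

/-- N4 (**F1**). `m_r = p α` for the Kesten-McKay constants (field_simp; `d² - E² > 0`). -/
theorem s5_f1_graph (d : ℕ) (hd : 3 ≤ d) (E : ℝ) (hE : |E| < 2 * Real.sqrt ((d : ℝ) - 1)) :
    mRe d E = E / d * (mRe d E * (E / d) + 1 / d - 1 / 2) ∧ |E / d| < 1 := by
  have hd3 : (3 : ℝ) ≤ d := by exact_mod_cast hd
  have hd0 : (0 : ℝ) < d := by linarith
  have hs : 2 * Real.sqrt ((d : ℝ) - 1) ≤ d := by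
    have h1 : Real.sqrt ((d : ℝ) - 1) ≤ d / 2 := by
      rw [Real.sqrt_le_left (by positivity)]
      nlinarith [sq_nonneg ((d : ℝ) - 2)]
    linarith
  have hEd : |E| < d := hE.trans_le hs
  have hE2 : E ^ 2 < (d : ℝ) ^ 2 := by
    rw [← sq_abs E]
    exact pow_lt_pow_left₀ hEd (abs_nonneg _) two_ne_zero
  have hne : (d : ℝ) ^ 2 - E ^ 2 ≠ 0 := by
    have : 0 < (d : ℝ) ^ 2 - E ^ 2 := by linarith
    exact this.ne'
  refine ⟨?_, ?_⟩
  · unfold mRe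
    field_simp
    ring
  · rw [abs_div, abs_of_pos hd0, div_lt_one hd0]
    exact hEd

/-- N5. The input structure. -/
theorem s5_in_of (d : ℕ) (hd : 3 ≤ d) (E : ℝ) (hE : |E| < 2 * Real.sqrt ((d : ℝ) - 1)) (hρ : 0 < kestenMcKay d E)
    (ξ : ℝ) (μ : Measure Conf)
    [IsProbabilityMeasure μ] (hR : LReg (kestenMcKay d E) ξ μ) (hS : LSw (E / d) (1 / d) (mRe d E) μ) :
    ∃ χ : ℝ, S5In μ (kestenMcKay d E) χ (E / d) (1 / d) (mRe d E) := by
  obtain ⟨χ, hχ, hae⟩ := hR.pos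
  have hχ' : min χ (1 / 8) ≤ χ := min_le_left _ _
  have hae' : ∀ᵐ x ∂μ, ∃ (C₀ : ℝ) (J₀ : ℕ), CReg (kestenMcKay d E) (min χ (1 / 8)) C₀ J₀ x := by
    filter_upwards [hae] with x hx
    obtain ⟨C₀, J₀, h⟩ := hx
    exact ⟨C₀, J₀ + 1, s5_creg_mono hχ' le_rfl (Nat.le_succ _) (by omega) h⟩
  have hf := s5_f1_graph d hd E hE
  exact ⟨min χ (1 / 8),
    { prob := inferInstance
      rho_pos := hρ
      chi_pos := lt_min hχ (by norm_num)
      chi_lt := lt_of_le_of_lt (min_le_right _ _) (by norm_num)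
      p_lt := hf.2
      f1 := hf.1
      reg := s5_reg_of_ae hae'
      sw := hS }⟩

/-- **EXIT S5** (statement of `exit_s5` in `R287/Hub.lean`, plus positivity of the density, which the Hub proves: `km_pos`). -/
theorem s5_exit (d : ℕ) (hd : 3 ≤ d) (E : ℝ) (hE : |E| < 2 * Real.sqrt ((d : ℝ) - 1)) (hρ : 0 < kestenMcKay d E)
    (ξ : ℝ) (μ : Measure Conf) [IsProbabilityMeasure μ]
    (hR : LReg (kestenMcKay d E) ξ μ) (hS : LSw (E / d) (1 / d) (mRe d E) μ) : LStat μ := by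
  obtain ⟨χ, h⟩ := s5_in_of d hd E hE hρ ξ μ hR hS
  exact s5_stat h

end Claimed.Agent.R287
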