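-- KEEP
import Claimed.Agent.R287.S5

/-!
# Row 287 (S0534), unit S4, node X3a (helper287; prefix `x3a_`)

`x3a_pf` : a weak limit `P` of the Gaussian marked model `swLaw μ k L ..` (`L → ∞`) over an almost surely regular `μ` is carried by the
domain of regularity `swDom`.   Model side only, from the S5 kit:
(1) symmetry is a closed condition of full `swLaw` mass;   (2) `Im 1/(x_j - z) ≥ 1/(C R²)` on `|j| ≤ R` for regular `x` (`s5_reg_tails_fam`),
`s5_chan_low` with `S = {|j| ≤ R}`: `imH M_L ≥ c` off a small event, uniformly in `L ≥ R`;   (3) `{rsDis M c}` is closed; portmanteau for closed sets;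
(4) symmetric + dissipative ⟹ `(Im M).PosDef`.
-/

set_option autoImplicit false
open MeasureTheory ProbabilityTheory Matrix Filter Topology
open scoped ComplexOrder

namespace Claimed.Agent.R287

/-! ## 1. general tools -/

/-- portmanteau for closed sets, in the form used here -/
theorem x3a_closed {X : Type} [TopologicalSpace X] [TopologicalSpace.PseudoMetrizableSpace X]
    [MeasurableSpace X] [BorelSpace X] {Ps : ℕ → Measure X} {P : Measure X}
    [∀ n, IsProbabilityMeasure (Ps n)] [IsProbabilityMeasure P]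
    (hlim : ∀ f : BoundedContinuousFunction X ℝ,
      Tendsto (fun n => ∫ v, f v ∂(Ps n)) atTop (𝓝 (∫ v, f v ∂P)))
    {F : Set X} (hF : IsClosed F) {a : ENNReal} (h : ∀ᶠ n in atTop, Ps n Fᶜ ≤ a) : P Fᶜ ≤ a := by
  set Q : ℕ → ProbabilityMeasure X := fun n => ⟨Ps n, inferInstance⟩ with hQ
  set Q0 : ProbabilityMeasure X := ⟨P, inferInstance⟩ with hQ0
  have ht : Tendsto Q atTop (𝓝 Q0) := by
    rw [ProbabilityMeasure.tendsto_iff_forall_integral_tendsto]
    exact hlim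
  have h1 := ProbabilityMeasure.le_liminf_measure_open_of_tendsto ht hF.isOpen_compl
  refine h1.trans ?_
  refine (liminf_le_limsup (by isBoundedDefault) (by isBoundedDefault)).trans ?_
  exact limsup_le_of_le (by isBoundedDefault) h

/-- a measurable subset of a product with small fibres over a large set -/
theorem x3a_prod_le {X Y : Type} [MeasurableSpace X] [MeasurableSpace Y] {μ : Measure X} {ν : Measure Y}
    [IsProbabilityMeasure μ] [IsProbabilityMeasure ν] {s : Set (X × Y)} (hs : MeasurableSet s) {A : Set X}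
    (hA : MeasurableSet A) {δ₁ δ₂ : ENNReal} (h1 : μ Aᶜ ≤ δ₁) (h2 : ∀ x ∈ A, ν (Prod.mk x ⁻¹' s) ≤ δ₂) :
    (μ.prod ν) s ≤ δ₁ + δ₂ := by
  rw [Measure.prod_apply hs, ← lintegral_add_compl _ hA, add_comm]
  refine add_le_add ?_ ?_
  · calc ∫⁻ x in Aᶜ, ν (Prod.mk x ⁻¹' s) ∂μ ≤ ∫⁻ _x in Aᶜ, 1 ∂μ :=
          lintegral_mono fun x => prob_le_one
      _ = μ Aᶜ := by simp
      _ ≤ δ₁ := h1
  · calc ∫⁻ x in A, ν (Prod.mk x ⁻¹' s) ∂μ ≤ ∫⁻ _x in A, δ₂ ∂μ :=
          setLIntegral_mono measurable_const h2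
      _ = δ₂ * μ A := by simp
      _ ≤ δ₂ * 1 := by gcongr; exact prob_le_one
      _ = δ₂ := mul_one _

/-! ## 2. the closed sets -/

section sets
variable {k b : ℕ}

/-- symmetric and `c`-dissipative states -/
def x3aF (k b : ℕ) (c : ℝ) : Set (Fin b → SwSt k) :=
  {v | ∀ i, (v i).2.1ᵀ = (v i).2.1 ∧ rsDis (v i).2.1 c}

theorem x3a_eqns_cite : True := by
  have := @x3aF.eq_1
  trivial

theorem x3a_F_closed (c : ℝ) : IsClosed (x3aF k b c) := by
  have e : x3aF k b c = ⋂ i : Fin b, ({v : Fin b → SwSt k | (v i).2.1ᵀ = (v i).2.1} ∩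
      ⋂ u : Ch k → ℂ, {v : Fin b → SwSt k | c * rsvSq u ≤ (star u ⬝ᵥ ((v i).2.1 *ᵥ u)).im}) := by
    ext v
    simp only [x3aF, rsDis, Set.mem_ofPred_eq, Set.mem_iInter, Set.mem_inter_iff]
  rw [e]
  refine isClosed_iInter fun i => IsClosed.inter ?_ (isClosed_iInter fun u => ?_)
  · have c1 : Continuous fun v : Fin b → SwSt k => (v i).2.1 :=
      continuous_fst.comp (continuous_snd.comp (continuous_apply i))
    exact isClosed_eq c1.matrix_transpose c1
  · have c1 : Continuous fun v : Fin b → SwSt k => (v i).2.1 :=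
      continuous_fst.comp (continuous_snd.comp (continuous_apply i))
    have c2 : Continuous fun v : Fin b → SwSt k => (star u ⬝ᵥ ((v i).2.1 *ᵥ u)).im := by
      refine Complex.continuous_im.comp ?_
      exact Continuous.dotProduct continuous_const (c1.matrix_mulVec continuous_const)
    exact isClosed_le continuous_const c2

/-- symmetric + dissipative ⟹ domain of regularity -/
theorem x3a_dom {s : SwSt k} {c : ℝ} (hc : 0 < c) (h1 : s.2.1ᵀ = s.2.1) (h2 : rsDis s.2.1 c) : swDom s := by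
  refine ⟨h1, Matrix.PosDef.of_dotProduct_mulVec_pos ?_ fun x hx => ?_⟩
  · ext a a'
    have := congrFun (congrFun h1 a') a
    rw [Matrix.transpose_apply] at this
    simp only [Matrix.conjTranspose_apply, Matrix.map_apply, star_trivial, this]
  · have h := h2 (fun a => (x a : ℂ))
    rw [rs_symm_im h1] at h
    simp only [Complex.ofReal_re, Complex.ofReal_im] at h
    have z0 : (fun _ : Ch k => (0 : ℝ)) ⬝ᵥ ((s.2.1.map Complex.im) *ᵥ fun _ : Ch k => (0 : ℝ)) = 0 := by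
      simp [dotProduct]
    rw [z0, add_zero] at h
    have hpos : 0 < rsvSq (fun a => (x a : ℂ)) := by
      rcases lt_or_eq_of_le (rsvSq_nonneg (fun a => (x a : ℂ))) with h' | h'
      · exact h'
      · exfalso
        have := rs_sq_eq_zero (v := fun a => (x a : ℂ)) (le_of_eq h'.symm)
        apply hx
        funext a
        have := congrFun this a
        simpa using this
    simp only [star_trivial]
    exact lt_of_lt_of_le (mul_pos hc hpos) h

end sets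

/-! ## 3. the model is in the closed set with high probability, uniformly in the cut -/

section model
variable {k b : ℕ} {p dinv mr : ℝ}

theorem x3a_K_symm (k : ℕ) (p dinv mr : ℝ) : (chK k p dinv mr)ᵀ = chK k p dinv mr := by
  simp [chK, chC, chJ, Matrix.transpose_add, Matrix.transpose_smul, Matrix.fromBlocks_transpose]

theorem x3a_toC_T {ι κ : Type} (A : Matrix ι κ ℝ) : (toC A)ᵀ = toC Aᵀ := by
  ext i j; simp [toC]

theorem x3a_X_symm {ι : Type} [Fintype ι] [DecidableEq ι] (k : ℕ) (p dinv mr : ℝ) (d : ι → ℝ)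
    (g : Matrix ι (Ch k) ℝ) (z : ℂ) : (s5X k p dinv mr d g z).2.1ᵀ = (s5X k p dinv mr d g z).2.1 := by
  simp only [s5X, Matrix.transpose_add, Matrix.transpose_mul, Matrix.transpose_transpose,
    Matrix.diagonal_transpose, Matrix.mul_assoc]
  rw [x3a_toC_T (chK k p dinv mr), x3a_K_symm]

/-- fixed regular positions -/
theorem x3a_fix (hp : |p| < 1) {z : Fin b → ℂ} (hz : ∀ i, 0 < (z i).im) {x : Conf} {R L : ℕ} (hRL : R ≤ L)
    {ω : ℝ} (hω : 0 < ω) (hw : ∀ i, ∀ j : ℤ, |j| ≤ (R : ℤ) → ω ≤ (((x j : ℂ) - z i)⁻¹).im) :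
    (gArr (Win L) (Ch k)) {g | (fun i => swX k L p dinv mr x g (z i))
        ∉ x3aF k b (ω * ((2 * R + 1 : ℕ) : ℝ) * (1 - |p|) / 2)}
      ≤ b * ENNReal.ofReal (4 * (4 * (k : ℝ) ^ 2 + 2 * k) / ((2 * R + 1 : ℕ) : ℝ)) := by
  set S : Finset (Win L) := Finset.univ.filter fun i => |wIdx i| ≤ (R : ℤ) with hS
  have hcard : S.card = 2 * R + 1 := s5_card_sub hRL
  have hsub : {g : Matrix (Win L) (Ch k) ℝ | (fun i => swX k L p dinv mr x g (z i))
        ∉ x3aF k b (ω * ((2 * R + 1 : ℕ) : ℝ) * (1 - |p|) / 2)}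
      ⊆ ⋃ i : Fin b, {g | ¬ (imH (s5X k p dinv mr (cPos L x) g (z i)).2.1
        - ((ω * S.card * (1 - |p|) / 2 : ℝ) : ℂ) • (1 : Matrix (Ch k) (Ch k) ℂ)).PosSemidef} := by
    intro g hg
    simp only [x3aF, Set.mem_ofPred_eq, not_forall] at hg
    obtain ⟨i, hi⟩ := hg
    refine Set.mem_iUnion.2 ⟨i, ?_⟩
    simp only [Set.mem_ofPred_eq]
    intro hpsd
    apply hi
    rw [s5_swX_eq]
    refine ⟨x3a_X_symm _ _ _ _ _ _ _, ?_⟩
    rw [s5_psd_iff_dis, hcard] at hpsd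
    exact hpsd
  refine (measure_mono hsub).trans ((measure_iUnion_fintype_le _ _).trans ?_)
  have h1 : ∀ i : Fin b, (gArr (Win L) (Ch k)) {g | ¬ (imH (s5X k p dinv mr (cPos L x) g (z i)).2.1
        - ((ω * S.card * (1 - |p|) / 2 : ℝ) : ℂ) • (1 : Matrix (Ch k) (Ch k) ℂ)).PosSemidef}
      ≤ ENNReal.ofReal (4 * (4 * (k : ℝ) ^ 2 + 2 * k) / ((2 * R + 1 : ℕ) : ℝ)) := by
    intro i
    have := s5_chan_low k (dinv := dinv) (mr := mr) hp (d := cPos L x) (hz i) hω S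
      (fun j hj => hw i (wIdx j) (by simpa [hS] using hj))
    rw [hcard] at this ⊢
    exact this
  refine (Finset.sum_le_sum fun i _ => h1 i).trans ?_
  rw [Finset.sum_const, Finset.card_univ, Fintype.card_fin, nsmul_eq_mul]

/-- the law of the model -/
theorem x3a_law {μ : Measure Conf} [IsProbabilityMeasure μ] {ρ χ C₀ : ℝ} (hρ : 0 < ρ) (hχ : 0 < χ) (hχ1 : χ < 1)
    (J₀ : ℕ) (hp : |p| < 1) {z : Fin b → ℂ} (hz : ∀ i, 0 < (z i).im) {ε : ℝ} (hε : 0 < ε)
    (hreg : μ {x | ¬ CReg ρ χ C₀ J₀ x} ≤ ENNReal.ofReal (ε / 2)) :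
    ∃ c : ℝ, 0 < c ∧ ∀ᶠ L : ℕ in atTop, swLaw μ k L p dinv mr z (x3aF k b c)ᶜ ≤ ENNReal.ofReal ε := by
  obtain ⟨C, K₁, hC, hK₁, hT⟩ := s5_reg_tails_fam (C₀ := C₀) hρ hχ hχ1 J₀ hz
  -- the size of the window
  obtain ⟨R₀, hR₀⟩ := exists_nat_gt ((b : ℝ) * (4 * (4 * (k : ℝ) ^ 2 + 2 * k)) / (ε / 2))
  set R : ℕ := max K₁ R₀ with hR
  have hRK : K₁ ≤ R := le_max_left _ _
  have hRpos : (0 : ℝ) < R := by
    have : 1 ≤ R := le_trans hK₁ hRK
    exact_mod_cast this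
  have hω : 0 < 1 / (C * (R : ℝ) ^ 2) := by positivity
  have hp1 : 0 < 1 - |p| := by linarith
  have hn : (0 : ℝ) < ((2 * R + 1 : ℕ) : ℝ) := by positivity
  refine ⟨1 / (C * (R : ℝ) ^ 2) * ((2 * R + 1 : ℕ) : ℝ) * (1 - |p|) / 2, by positivity, ?_⟩
  filter_upwards [eventually_ge_atTop R] with L hL
  have := s5_gArr_prob (Win L) (Ch k)
  have hm := s5_swX_measurable (p := p) (dinv := dinv) (mr := mr) k L z
  have hFm : MeasurableSet (x3aF k b (1 / (C * (R : ℝ) ^ 2) * ((2 * R + 1 : ℕ) : ℝ) * (1 - |p|) / 2))ᶜ :=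
    (x3a_F_closed _).isOpen_compl.measurableSet
  unfold swLaw
  rw [Measure.map_apply hm hFm]
  have hnum : (b : ENNReal) * ENNReal.ofReal (4 * (4 * (k : ℝ) ^ 2 + 2 * k) / ((2 * R + 1 : ℕ) : ℝ))
      ≤ ENNReal.ofReal (ε / 2) := by
    rw [← ENNReal.ofReal_natCast, ← ENNReal.ofReal_mul (Nat.cast_nonneg _)]
    refine ENNReal.ofReal_le_ofReal ?_
    rw [← mul_div_assoc, div_le_iff₀ hn]
    have h1 : (R₀ : ℝ) ≤ ((2 * R + 1 : ℕ) : ℝ) := by
      have : R₀ ≤ 2 * R + 1 := by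
        have : R₀ ≤ R := le_max_right _ _
        omega
      exact_mod_cast this
    have h2 := (div_lt_iff₀ (by positivity : (0 : ℝ) < ε / 2)).1 hR₀
    nlinarith
  have key := x3a_prod_le (μ := μ) (ν := gArr (Win L) (Ch k)) (hm hFm) (s5_creg_meas ρ χ C₀ J₀)
    (δ₁ := ENNReal.ofReal (ε / 2)) (δ₂ := ENNReal.ofReal (ε / 2))
    (by simpa [Set.compl_ofPred] using hreg) (fun x hx => by
      refine le_trans ?_ hnum
      exact x3a_fix hp hz hL hω fun i j hj => (hT x hx R R hRK le_rfl i).2.2.2 j hj)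
  refine key.trans (le_of_eq ?_)
  rw [← ENNReal.ofReal_add (by positivity) (by positivity)]
  congr 1
  ring

end model

/-! ## 4. the node -/

/-- **X3a**, limit level. -/
theorem x3a_pf {μ : Measure Conf} [IsProbabilityMeasure μ] {ρ χ p dinv mr : ℝ} (hρ : 0 < ρ) (hχ : 0 < χ)
    (hp : |p| < 1) (hae : ∀ᵐ x ∂μ, ∃ (C₀ : ℝ) (J₀ : ℕ), CReg ρ χ C₀ J₀ x) (k : ℕ) {b : ℕ} (z : Fin b → ℂ)
    (hz : ∀ i, 0 < (z i).im) {P : Measure (Fin b → SwSt k)} [IsProbabilityMeasure P]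
    (hmodel : ∀ f : BoundedContinuousFunction (Fin b → SwSt k) ℝ,
      Tendsto (fun L => ∫ s, f s ∂(swLaw μ k L p dinv mr z)) atTop (𝓝 (∫ s, f s ∂P))) :
    ∀ᵐ s ∂P, ∀ i, swDom (s i) := by
  have hχ' : min χ (1 / 2) ≤ χ := min_le_left _ _
  have hae' : ∀ᵐ x ∂μ, ∃ (C₀ : ℝ) (J₀ : ℕ), CReg ρ (min χ (1 / 2)) C₀ J₀ x := by
    filter_upwards [hae] with x hx
    obtain ⟨C₀, J₀, h⟩ := hx
    exact ⟨C₀, J₀ + 1, s5_creg_mono hχ' le_rfl (Nat.le_succ _) (by omega) h⟩
  have hreg := s5_reg_of_ae hae'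
  have : ∀ L, IsProbabilityMeasure (swLaw μ k L p dinv mr z) := fun L => s5_swLaw_prob _ _ _
  rw [ae_iff]
  refine le_antisymm ?_ zero_le
  refine ENNReal.le_of_forall_pos_le_add fun ε hε _ => ?_
  rw [zero_add]
  have hε' : (0 : ℝ) < ε := by exact_mod_cast hε
  obtain ⟨C₀, J₀, hr⟩ := hreg (ε / 2) (by positivity)
  obtain ⟨c, hc, hL⟩ := x3a_law (k := k) (p := p) (dinv := dinv) (mr := mr) hρ (lt_min hχ (by norm_num))
    (lt_of_le_of_lt (min_le_right _ _) (by norm_num)) J₀ hp hz hε' hr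
  have h1 := x3a_closed hmodel (x3a_F_closed c) hL
  refine (measure_mono fun s hs => ?_).trans (h1.trans ?_)
  · intro hF
    exact hs fun i => x3a_dom hc (hF i).1 (hF i).2
  · rw [ENNReal.ofReal_coe_nnreal]

/-- **X3a**, in the `s5Dom` form (the open domain on which the switching map `swT` is continuous, `s5_swT_continuousOn`). -/
theorem x3a_pf_s5 {μ : Measure Conf} [IsProbabilityMeasure μ] {ρ χ p dinv mr : ℝ} (hρ : 0 < ρ) (hχ : 0 < χ)
    (hp : |p| < 1) (hae : ∀ᵐ x ∂μ, ∃ (C₀ : ℝ) (J₀ : ℕ), CReg ρ χ C₀ J₀ x) (k : ℕ) {b : ℕ} (z : Fin b → ℂ)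
    (hz : ∀ i, 0 < (z i).im) {P : Measure (Fin b → SwSt k)} [IsProbabilityMeasure P]
    (hmodel : ∀ f : BoundedContinuousFunction (Fin b → SwSt k) ℝ,
      Tendsto (fun L => ∫ s, f s ∂(swLaw μ k L p dinv mr z)) atTop (𝓝 (∫ s, f s ∂P))) :
    ∀ᵐ s ∂P, ∀ i, s5Dom (s i) := by
  filter_upwards [x3a_pf hρ hχ hp hae k z hz hmodel] with s hs i
  exact s5_dom_of_swDom (hs i)

end Claimed.Agent.R287
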