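-- KEEP
import Claimed.Agent.R287.S4X

/-!
# Row 287 (S0534), unit S4, node X4: THE TRACE BOUND `LReg.tr` IN THE LIMIT      (helper261, post of helper102; prefix `s4v`)

EXPORT   `s4v_X4`, `s4v_X4_at` (one limit law = the text in `S4Top.lean`), `s4v_marg` (first marginal of `P`, any `k`, `b`);   `s4v_X4` = the text of the node `s4_X4` (uniform in `(U, μ)`), with the STATEMENTS of `s4_E1tr`, `s4_reg_pos` (almost sure `CReg`) and `s4_X2` (only `k = 0`, `b = 1`) as explicit hypotheses.      0 sorry.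
CALL     `s4v_X4 (s4_rho_pos d H.hd E H.hE) (fun D => s4_E1tr H D) (fun _ _ hl => s4_reg_pos H hl) (fun _ _ hl z hz => s4_X2 H hl 0 z hz) D`.

ROUTE (no portmanteau, no marginal law of `P`): `a = u^{-3/5}`, `z = e + i u`, tents `ψ_δ(w) = min δ (‖w - m_*‖ - a)₊`, `0 < δ ≤ 1`: `1`-Lipschitz, `ψ_δ ≤ δ 1{‖w - m_*‖ > a}`, `ψ_δ = δ` on `{‖w - m_*‖ ≥ a + δ}`.
* graph side (`s4v_graph`):  `E ψ_δ(m_n(z)) ≤ δ P(‖m_n(z) - m_*‖ > a) ≤ δ (C u^{-D} + η)` (`s4_E1tr`), and `E ψ_δ(m_n(z)) → ∫ ψ_δ(s.1) dP` along `U` (`S4P.graph`);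
* model side (`s4v_model`):  `∫ ψ_δ(s.1) d swLaw_L = ∫ ψ_δ(m_r + S_L(x,z)) dμ` (`s5_law_A`) `→ ∫ ψ_δ(m_r + S(x,z)) dμ` (dominated convergence, `k9_creg_tendsto`), and `→ ∫ ψ_δ(s.1) dP` (`S4P.model`);
* hence `∫ ψ_δ(m_r + S(x,z)) dμ ≤ δ C u^{-D}` (`s4v_int_le`);   Markov on `{‖·‖ ≥ a + δ}` and `δ = 1/(j+1) ↓ 0` (`s4v_meas_le`; no measurability of the event is needed).
-/

set_option autoImplicit false
set_option linter.unusedSectionVars false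

namespace Claimed.Agent.R287

open MeasureTheory ProbabilityTheory Matrix Filter Topology Claims.C0462
open scoped BoundedContinuousFunction ENNReal

noncomputable section

/-! ## H. X4: the trace bound in the limit -/

/-- the tent `min δ (‖w - m‖ - a)₊`: a `1`-Lipschitz minorant of `δ 1{‖w - m‖ > a}` -/
def s4vPsi (m : ℂ) (a δ : ℝ) (w : ℂ) : ℝ := min δ (max 0 (‖w - m‖ - a))

theorem s4v_eqns_cite : True := by
  have := @s4vPsi.eq_1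
  trivial

theorem s4v_psi_nonneg (m : ℂ) (a : ℝ) {δ : ℝ} (hδ : 0 ≤ δ) (w : ℂ) : 0 ≤ s4vPsi m a δ w := le_min hδ (le_max_left _ _)

theorem s4v_psi_le (m : ℂ) (a δ : ℝ) (w : ℂ) : s4vPsi m a δ w ≤ δ := min_le_left _ _

theorem s4v_psi_lip (m : ℂ) (a δ : ℝ) (w w' : ℂ) : |s4vPsi m a δ w - s4vPsi m a δ w'| ≤ ‖w - w'‖ := by
  unfold s4vPsi
  refine (abs_min_sub_min_le_max _ _ _ _).trans ?_
  rw [sub_self, abs_zero]
  refine max_le (norm_nonneg _) ?_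
  refine (abs_max_sub_max_le_max _ _ _ _).trans ?_
  rw [sub_self, abs_zero]
  refine max_le (norm_nonneg _) ?_
  have e : ‖w - m‖ - a - (‖w' - m‖ - a) = ‖w - m‖ - ‖w' - m‖ := by ring
  rw [e]
  refine (abs_norm_sub_norm_le _ _).trans (le_of_eq ?_)
  congr 1
  ring

open Classical in
theorem s4v_psi_ind (m : ℂ) (a : ℝ) {δ : ℝ} (_hδ : 0 ≤ δ) (w : ℂ) : s4vPsi m a δ w ≤ δ * (if a < ‖w - m‖ then 1 else 0) := by
  split_ifs with h
  · rw [mul_one]; exact s4v_psi_le m a δ w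
  · rw [mul_zero]
    unfold s4vPsi
    rw [max_eq_left (by linarith [not_lt.1 h])]
    exact min_le_right _ _

theorem s4v_psi_eq (m : ℂ) {a δ : ℝ} {w : ℂ} (h : a + δ ≤ ‖w - m‖) : s4vPsi m a δ w = δ := by
  unfold s4vPsi
  exact min_eq_left (le_max_of_le_right (by linarith))

theorem s4v_psi_BLip (m : ℂ) (a : ℝ) {δ : ℝ} (hδ : 0 ≤ δ) (hδ1 : δ ≤ 1) : BLip (b := 1) fun v => s4vPsi m a δ (v 0) where
  bdd := fun v => by
    rw [abs_of_nonneg (s4v_psi_nonneg m a hδ _)]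
    exact (s4v_psi_le m a δ _).trans hδ1
  lip := fun v w => (s4v_psi_lip m a δ _ _).trans (by
    have := norm_le_pi_norm (v - w) 0
    simpa using this)

/-- the test function on the states -/
def s4vF (m : ℂ) (a : ℝ) {δ : ℝ} (hδ : 0 ≤ δ) (hδ1 : δ ≤ 1) : (Fin 1 → SwSt 0) →ᵇ ℝ :=
  BoundedContinuousFunction.ofNormedAddCommGroup (fun s => s4vPsi m a δ (s 0).1)
    ((s4v_psi_BLip m a hδ hδ1).continuous.comp (continuous_pi fun i => (continuous_apply i).fst)) 1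
    (fun s => by
      rw [Real.norm_eq_abs]
      exact (s4v_psi_BLip m a hδ hδ1).bdd fun i => (s i).1)

theorem s4v_F_apply (m : ℂ) (a : ℝ) {δ : ℝ} (hδ : 0 ≤ δ) (hδ1 : δ ≤ 1) (s : Fin 1 → SwSt 0) : s4vF m a hδ hδ1 s = s4vPsi m a δ (s 0).1 := rfl

/-- **graph side**: the expectation of the tent is bounded by the probability of the event of `s4_E1tr` -/
theorem s4v_graph {n d : ℕ} (E : ℝ) (m z : ℂ) (a : ℝ) {δ : ℝ} (hδ : 0 ≤ δ) (hδ1 : δ ≤ 1) :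
    (s4E n d 0 fun G v w => s4vF m a hδ hδ1 fun _ => s4X G E v w z) ≤ δ * s4Pg n d (fun G => a < ‖s4M G E z - m‖) := by
  classical
  rw [← s4x_Pr_zero]
  unfold s4Pr
  rw [← s4x_E_smul]
  refine s4x_E_mono fun G v w => ?_
  rw [s4v_F_apply]
  exact s4v_psi_ind m a hδ _

/-- **model side**: dominated convergence -/
theorem s4v_model {μ : Measure Conf} [IsProbabilityMeasure μ] {ρ : ℝ} (hρ : 0 < ρ)
    (hreg : ∃ χ : ℝ, 0 < χ ∧ ∀ᵐ x ∂μ, ∃ (C₀ : ℝ) (J₀ : ℕ), CReg ρ χ C₀ J₀ x) (p dinv mr : ℝ) (m z : ℂ) (a : ℝ) {δ : ℝ} (hδ : 0 ≤ δ) (hδ1 : δ ≤ 1) :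
    Tendsto (fun L => ∫ s, s4vF m a hδ hδ1 s ∂(swLaw μ 0 L p dinv mr fun _ : Fin 1 => z)) atTop
      (𝓝 (∫ x, s4vPsi m a δ ((mr : ℂ) + cS x z) ∂μ)) ∧
    Integrable (fun x => s4vPsi m a δ ((mr : ℂ) + cS x z)) μ := by
  obtain ⟨χ, hχ, hx⟩ := hreg
  have hB := s4v_psi_BLip m a hδ hδ1
  have hc : Continuous (s4vPsi m a δ) := by
    have : Continuous fun w : ℂ => (fun v : Fin 1 → ℂ => s4vPsi m a δ (v 0)) fun _ => w := hB.continuous.comp (continuous_pi fun _ => continuous_id)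
    exact this
  have e : ∀ L, ∫ s, s4vF m a hδ hδ1 s ∂(swLaw μ 0 L p dinv mr fun _ : Fin 1 => z) = ∫ x, s4vPsi m a δ ((mr : ℂ) + cSK L x z) ∂μ := by
    intro L
    have := s5_law_A (μ := μ) (p := p) (dinv := dinv) (mr := mr) 0 L (z := fun _ : Fin 1 => z) hB
    unfold s5A at this
    exact this
  have hlim : ∀ᵐ x ∂μ, Tendsto (fun L : ℕ => s4vPsi m a δ ((mr : ℂ) + cSK L x z)) atTop (𝓝 (s4vPsi m a δ ((mr : ℂ) + cS x z))) := by
    filter_upwards [hx] with x ⟨C₀, J₀, h⟩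
    exact (hc.tendsto _).comp ((k9_creg_tendsto hρ hχ h z).const_add _)
  have hm : ∀ L : ℕ, AEStronglyMeasurable (fun x => s4vPsi m a δ ((mr : ℂ) + cSK L x z)) μ := fun L =>
    (hc.measurable.comp (measurable_const.add (k9_meas_cSK L z))).aestronglyMeasurable
  have hbd : ∀ w, ‖s4vPsi m a δ w‖ ≤ 1 := fun w => by
    rw [Real.norm_eq_abs]
    exact hB.bdd fun _ => w
  constructor
  · simp only [e]
    exact tendsto_integral_of_dominated_convergence (fun _ => (1 : ℝ)) hm (integrable_const 1) (fun L => Eventually.of_forall fun x => hbd _) hlim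
  · exact Integrable.of_bound (aestronglyMeasurable_of_tendsto_ae atTop hm hlim) 1 (Eventually.of_forall fun x => hbd _)

/-- the integral of the tent in the limit law is bounded by the tail of `s4_E1tr` -/
theorem s4v_int_le {d : ℕ} {E : ℝ} {U : Ultrafilter ℕ} {μ : Measure Conf} (hl : S4Lim d E U μ) (hρ : 0 < kestenMcKay d E)
    (hreg : ∃ χ : ℝ, 0 < χ ∧ ∀ᵐ x ∂μ, ∃ (C₀ : ℝ) (J₀ : ℕ), CReg (kestenMcKay d E) χ C₀ J₀ x)
    {z : ℂ} {P : Measure (Fin 1 → SwSt 0)} (hP : S4P d E U μ 0 (fun _ => z) P) {a B : ℝ}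
    (hB : ∀ η : ℝ, 0 < η → ∃ N : ℕ, ∀ n : ℕ, N ≤ n → (regularGraphs n d).Nonempty → s4Pg n d (fun G => a < ‖s4M G E z - s4Ms d E‖) ≤ B + η)
    {δ : ℝ} (hδ : 0 ≤ δ) (hδ1 : δ ≤ 1) :
    ∫ x, s4vPsi (s4Ms d E) a δ ((mRe d E : ℂ) + cS x z) ∂μ ≤ δ * B := by
  have := hl.prob
  have h1 := (s4v_model (μ := μ) hρ hreg (E / d) (1 / d) (mRe d E) (s4Ms d E) z a hδ hδ1).1
  have h2 := hP.model (s4vF (s4Ms d E) a hδ hδ1)
  rw [tendsto_nhds_unique h1 h2]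
  refine le_of_forall_pos_le_add fun η hη => ?_
  obtain ⟨N, hN⟩ := hB η hη
  have h3 := hP.graph (s4vF (s4Ms d E) a hδ hδ1)
  refine le_of_tendsto h3 ?_
  filter_upwards [hl.adm, hl.top (eventually_ge_atTop N)] with n hn hNn
  refine (s4v_graph E (s4Ms d E) z a hδ hδ1).trans ?_
  have := mul_le_mul_of_nonneg_left (hN n hNn hn) hδ
  nlinarith

/-- from the tents to the measure of the open event -/
theorem s4v_meas_le {μ : Measure Conf} (g : Conf → ℂ) (m : ℂ) (a B : ℝ)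
    (hi : ∀ δ : ℝ, 0 < δ → δ ≤ 1 → Integrable (fun x => s4vPsi m a δ (g x)) μ ∧ ∫ x, s4vPsi m a δ (g x) ∂μ ≤ δ * B) :
    μ {x | a < ‖g x - m‖} ≤ ENNReal.ofReal B := by
  have hstep : ∀ j : ℕ, μ {x | a + 1 / ((j : ℝ) + 1) ≤ ‖g x - m‖} ≤ ENNReal.ofReal B := by
    intro j
    obtain ⟨δ, hδd⟩ : ∃ δ : ℝ, δ = 1 / ((j : ℝ) + 1) := ⟨_, rfl⟩
    have hδ : 0 < δ := by rw [hδd]; positivity
    have hδ1 : δ ≤ 1 := by
      rw [hδd, div_le_one (by positivity)]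
      have : (0 : ℝ) ≤ j := Nat.cast_nonneg j
      linarith
    rw [← hδd]
    obtain ⟨h1, h2⟩ := hi δ hδ hδ1
    have h3 := mul_meas_ge_le_lintegral₀ (μ := μ) (f := fun x => ENNReal.ofReal (s4vPsi m a δ (g x)))
      (ENNReal.measurable_ofReal.comp_aemeasurable h1.aemeasurable) (ENNReal.ofReal δ)
    rw [← ofReal_integral_eq_lintegral_ofReal h1 (Eventually.of_forall fun x => s4v_psi_nonneg m a hδ.le _)] at h3
    have h4 : ENNReal.ofReal δ * μ {x | a + δ ≤ ‖g x - m‖} ≤ ENNReal.ofReal δ * ENNReal.ofReal B := by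
      rw [← ENNReal.ofReal_mul hδ.le]
      refine le_trans (mul_le_mul_right (measure_mono fun x hx => ?_) _) (h3.trans (ENNReal.ofReal_le_ofReal h2))
      show ENNReal.ofReal δ ≤ ENNReal.ofReal (s4vPsi m a δ (g x))
      rw [s4v_psi_eq m hx]
    exact (ENNReal.mul_le_mul_iff_right (ENNReal.ofReal_pos.2 hδ).ne' ENNReal.ofReal_ne_top).1 h4
  have hmono : Monotone fun j : ℕ => {x | a + 1 / ((j : ℝ) + 1) ≤ ‖g x - m‖} := by
    intro i j hij x hx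
    have h1 : (1 : ℝ) / ((j : ℝ) + 1) ≤ 1 / ((i : ℝ) + 1) :=
      one_div_le_one_div_of_le (by positivity) (by have : (i : ℝ) ≤ j := by exact_mod_cast hij
                                                   linarith)
    exact le_trans (by linarith) (show a + 1 / ((i : ℝ) + 1) ≤ ‖g x - m‖ from hx)
  have hU : {x | a < ‖g x - m‖} = ⋃ j : ℕ, {x | a + 1 / ((j : ℝ) + 1) ≤ ‖g x - m‖} := by
    ext x
    simp only [Set.mem_ofPred_eq, Set.mem_iUnion]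
    constructor
    · intro h
      obtain ⟨j, hj⟩ := exists_nat_one_div_lt (sub_pos.2 h)
      exact ⟨j, by linarith⟩
    · rintro ⟨j, hj⟩
      have : (0 : ℝ) < 1 / ((j : ℝ) + 1) := by positivity
      linarith
  rw [hU, hmono.measure_iUnion]
  exact iSup_le hstep

/-- **X4** = the statement of `s4_X4`, from the statements of `s4_E1tr`, `s4_X2` (`k = 0`, `b = 1`) and the almost sure rigidity (`s4_reg_pos`) -/
theorem s4v_X4 {d : ℕ} {E : ℝ} (hρ : 0 < kestenMcKay d E)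
    (hE1 : ∀ D : ℝ, ∃ C y0 : ℝ, ∀ s y : ℝ, y0 ≤ y → ∀ η : ℝ, 0 < η → ∃ N : ℕ, ∀ n : ℕ, N ≤ n → (regularGraphs n d).Nonempty →
      s4Pg n d (fun G => y ^ (-(3 / 5 : ℝ)) < ‖s4M G E ⟨s, y⟩ - s4Ms d E‖) ≤ C * y ^ (-D) + η)
    (hX1 : ∀ (U : Ultrafilter ℕ) (μ : Measure Conf), S4Lim d E U μ →
      ∃ χ : ℝ, 0 < χ ∧ ∀ᵐ x ∂μ, ∃ (C₀ : ℝ) (J₀ : ℕ), CReg (kestenMcKay d E) χ C₀ J₀ x)
    (hX2 : ∀ (U : Ultrafilter ℕ) (μ : Measure Conf), S4Lim d E U μ → ∀ z : Fin 1 → ℂ, (∀ i, 0 < (z i).im) →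
      ∃ P : Measure (Fin 1 → SwSt 0), S4P d E U μ 0 z P) (D : ℕ) :
    ∃ C u₀ : ℝ, ∀ (U : Ultrafilter ℕ) (μ : Measure Conf), S4Lim d E U μ → ∀ e u : ℝ, u₀ ≤ u →
      μ {x | u ^ (-(3 / 5 : ℝ)) < ‖cS x ((e : ℂ) + (u : ℂ) * Complex.I) - ((Real.pi * kestenMcKay d E : ℝ) : ℂ) * Complex.I‖}
        ≤ ENNReal.ofReal (C * u ^ (-(D : ℝ))) := by
  obtain ⟨C, y0, h⟩ := hE1 D
  refine ⟨C, max y0 1, fun U μ hl e u hu => ?_⟩
  have hu0 : 0 < u := lt_of_lt_of_le one_pos ((le_max_right _ _).trans hu)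
  have hz : ((e : ℂ) + (u : ℂ) * Complex.I) = ⟨e, u⟩ := (Complex.mk_eq_add_mul_I e u).symm
  have := hl.prob
  obtain ⟨P, hP⟩ := hX2 U μ hl (fun _ => ⟨e, u⟩) (fun _ => hu0)
  have hreg := hX1 U μ hl
  have key := s4v_meas_le (μ := μ) (fun x => (mRe d E : ℂ) + cS x ⟨e, u⟩) (s4Ms d E) (u ^ (-(3 / 5 : ℝ))) (C * u ^ (-(D : ℝ)))
    fun δ hδ hδ1 => ⟨(s4v_model (μ := μ) hρ hreg (E / d) (1 / d) (mRe d E) (s4Ms d E) ⟨e, u⟩ _ hδ.le hδ1).2,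
      s4v_int_le hl hρ hreg hP (h e u ((le_max_left _ _).trans hu)) hδ.le hδ1⟩
  refine le_trans (le_of_eq ?_) key
  congr 1
  ext x
  have e1 : (mRe d E : ℂ) + cS x ⟨e, u⟩ - s4Ms d E = cS x ⟨e, u⟩ - ((Real.pi * kestenMcKay d E : ℝ) : ℂ) * Complex.I := by
    unfold s4Ms
    rw [Complex.mk_eq_add_mul_I (mRe d E)]
    ring
  simp only [Set.mem_ofPred_eq, hz, e1]

/-- **X4 at one limit law** = the text of `s4_X4` of `S4Top.lean` -/
theorem s4v_X4_at {d : ℕ} {E : ℝ} (hρ : 0 < kestenMcKay d E)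
    (hE1 : ∀ D : ℝ, ∃ C y0 : ℝ, ∀ s y : ℝ, y0 ≤ y → ∀ η : ℝ, 0 < η → ∃ N : ℕ, ∀ n : ℕ, N ≤ n → (regularGraphs n d).Nonempty →
      s4Pg n d (fun G => y ^ (-(3 / 5 : ℝ)) < ‖s4M G E ⟨s, y⟩ - s4Ms d E‖) ≤ C * y ^ (-D) + η)
    (hX1 : ∀ (U : Ultrafilter ℕ) (μ : Measure Conf), S4Lim d E U μ →
      ∃ χ : ℝ, 0 < χ ∧ ∀ᵐ x ∂μ, ∃ (C₀ : ℝ) (J₀ : ℕ), CReg (kestenMcKay d E) χ C₀ J₀ x)
    (hX2 : ∀ (U : Ultrafilter ℕ) (μ : Measure Conf), S4Lim d E U μ → ∀ z : Fin 1 → ℂ, (∀ i, 0 < (z i).im) →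
      ∃ P : Measure (Fin 1 → SwSt 0), S4P d E U μ 0 z P)
    {U : Ultrafilter ℕ} {μ : Measure Conf} (hl : S4Lim d E U μ) (D : ℕ) :
    ∃ C u₀ : ℝ, ∀ e u : ℝ, u₀ ≤ u →
      μ {x | u ^ (-(3 / 5 : ℝ)) < ‖cS x ((e : ℂ) + (u : ℂ) * Complex.I) - ((Real.pi * kestenMcKay d E : ℝ) : ℂ) * Complex.I‖}
        ≤ ENNReal.ofReal (C * u ^ (-(D : ℝ))) := by
  obtain ⟨C, u₀, h⟩ := s4v_X4 hρ hE1 hX1 hX2 D
  exact ⟨C, u₀, h U μ hl⟩

/-- **the first marginal of `P`** (any `k`, `b`): it is the law of `(m_r + S(x, z_i))_i` under `μ`, tested against bounded Lipschitz functions -/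
theorem s4v_marg {d : ℕ} {E : ℝ} {U : Ultrafilter ℕ} {μ : Measure Conf} (hl : S4Lim d E U μ) (hρ : 0 < kestenMcKay d E)
    (hreg : ∃ χ : ℝ, 0 < χ ∧ ∀ᵐ x ∂μ, ∃ (C₀ : ℝ) (J₀ : ℕ), CReg (kestenMcKay d E) χ C₀ J₀ x)
    {k b : ℕ} {z : Fin b → ℂ} {P : Measure (Fin b → SwSt k)} (hP : S4P d E U μ k z P) {Φ : (Fin b → ℂ) → ℝ} (hΦ : BLip Φ) :
    ∫ s, Φ (fun i => (s i).1) ∂P = ∫ x, Φ (fun i => (mRe d E : ℂ) + cS x (z i)) ∂μ := by
  have := hl.prob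
  obtain ⟨χ, hχ, hx⟩ := hreg
  let f : (Fin b → SwSt k) →ᵇ ℝ := BoundedContinuousFunction.ofNormedAddCommGroup (fun s => Φ fun i => (s i).1)
    (hΦ.continuous.comp (continuous_pi fun i => (continuous_apply i).fst)) 1 (fun s => by
      rw [Real.norm_eq_abs]
      exact hΦ.bdd _)
  have h2 : Tendsto (fun L => ∫ s, Φ (fun i => (s i).1) ∂(swLaw μ k L (E / d) (1 / d) (mRe d E) z)) atTop (𝓝 (∫ s, Φ (fun i => (s i).1) ∂P)) :=
    hP.model f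
  have e : ∀ L, ∫ s, Φ (fun i => (s i).1) ∂(swLaw μ k L (E / d) (1 / d) (mRe d E) z) = ∫ x, Φ (fun i => (mRe d E : ℂ) + cSK L x (z i)) ∂μ :=
    fun L => s5_law_A (μ := μ) k L hΦ
  simp only [e] at h2
  refine tendsto_nhds_unique h2 ?_
  refine tendsto_integral_of_dominated_convergence (fun _ => (1 : ℝ))
    (fun L => (hΦ.continuous.measurable.comp (measurable_pi_lambda _ fun i => measurable_const.add (k9_meas_cSK L (z i)))).aestronglyMeasurable)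
    (integrable_const 1) (fun L => Eventually.of_forall fun x => by
      rw [Real.norm_eq_abs]
      exact hΦ.bdd _) ?_
  filter_upwards [hx] with x ⟨C₀, J₀, h⟩
  exact (hΦ.continuous.tendsto _).comp (tendsto_pi_nhds.2 fun i => (k9_creg_tendsto hρ hχ h (z i)).const_add _)

end

end Claimed.Agent.R287
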