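-- KEEP
import Claimed.Agent.R287.S4X
import Claimed.Agent.R287.S5Cut

/-!
# Row 287 (S0534), unit S4, deputy D4, sec. E, F, G: the nodes X2, X3a, X3b      (helper272; prefix `s4x`)

INPUT  `S4xIn d E` = the statements of the OTHER nodes of `S4.lean` which are consumed here (`s4_window`, `s4_gauss`, `s4_X1`, `s4_switch`) as ONE record of hypotheses: no circular import.
OUTPUT `s4x_X2`, `s4x_X3a`, `s4x_X3b` = the statements of `s4_X2`, `s4_X3a`, `s4_X3b` with the extra hypothesis `S4xIn d E`.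
Kit: `S4X.lean` sec. A-D (helper14 + market), `S5Alg.lean` (domain of `swT`), `S5Cut.lean` (`s5_chan_low`, `s5_int_split`).
-/

set_option autoImplicit false
set_option linter.unusedSectionVars false

namespace Claimed.Agent.R287

open MeasureTheory ProbabilityTheory Matrix Filter Topology Claims.C0462
open scoped BoundedContinuousFunction ENNReal ComplexOrder

noncomputable section

attribute [local instance] Matrix.normedAddCommGroup Matrix.normedSpace

/-- the statements of the other nodes of `S4.lean` which are consumed by X2, X3a, X3b -/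
structure S4xIn (d : ℕ) (E : ℝ) : Prop where
  win : ∀ (k : ℕ) (z : ℂ), 0 < z.im → ∀ τ η : ℝ, 0 < τ → 0 < η →
    ∃ R0 : ℝ, ∀ R : ℝ, R0 ≤ R → ∃ L0 : ℕ, ∀ L : ℕ, L0 ≤ L → ∃ N : ℕ, ∀ n : ℕ, N ≤ n → (regularGraphs n d).Nonempty →
      s4Pr n d k (fun G v w => ¬ S4Close (s4X G E v w z) (s4Y k d E L R (s4Win E L G) (s4Beta E k L G v w) z) τ) ≤ η
  gau : ∀ {U : Ultrafilter ℕ} {μ : Measure Conf}, S4Lim d E U μ → ∀ (k L : ℕ) (f : ((Win L → ℝ) × Matrix (Win L) (Ch k) ℝ) →ᵇ ℝ),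
    Tendsto (fun n => s4E n d k fun G v w => f (s4Win E L G, s4Beta E k L G v w)) U
      (𝓝 (∫ x, ∫ β, f (cPos L x, β) ∂(s4Gam k L (E / d)) ∂μ))
  x1 : ∃ χ : ℝ, 0 < χ ∧ χ < 1 / 4 ∧ ∀ D : ℝ, ∃ C0 C : ℝ, ∀ (U : Ultrafilter ℕ) (μ : Measure Conf), S4Lim d E U μ →
    ∀ J0 : ℕ, 1 ≤ J0 → μ {x | ¬ CReg (kestenMcKay d E) χ C0 J0 x} ≤ ENNReal.ofReal (C * (J0 : ℝ) ^ (-D))
  sw : ∀ (k : ℕ) (hk : 2 ≤ k) {b : ℕ} (z : Fin b → ℂ), (∀ i, 0 < (z i).im) → ∃ C : ℝ, ∀ (n : ℕ) (F : (Fin b → SwSt k) → ℝ), (∀ s, |F s| ≤ 1) →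
    |s4E n d k (fun G v w => F fun i => swT (swapMat k hk) (s4X G E v w (z i))) - s4E n d k (fun G v w => F fun i => s4X G E v w (z i))|
      ≤ C / n

instance s4xStBorel (k b : ℕ) :
    @BorelSpace (Fin b → SwSt k) (UniformSpace.toTopologicalSpace (self := PseudoMetricSpace.toUniformSpace)) _ := s5StBorel k b

variable {d : ℕ} {E : ℝ} {k b : ℕ}

/-! ## E. X2 -/

/-- the law of the graph vector -/
def s4xNu (d : ℕ) (E : ℝ) (k : ℕ) (z : Fin b → ℂ) (n : ℕ) : ProbabilityMeasure (Fin b → SwSt k) :=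
  s4xMk (s4xLaw n d k (s4xX E k z))

/-- the law of the Gaussian marked model -/
def s4xQ (μ : Measure Conf) (d : ℕ) (E : ℝ) (k : ℕ) (z : Fin b → ℂ) (L : ℕ) : ProbabilityMeasure (Fin b → SwSt k) :=
  s4xMk (swLaw μ k L (E / d) (1 / d) (mRe d E) z)

theorem s4xe_eqns_cite : True := by
  have := @s4xNu.eq_1
  have := @s4xQ.eq_1
  trivial

theorem s4x_nu_int {n : ℕ} (hne : (regularGraphs n d).Nonempty) (hn : 0 < n) (hd : 0 < d) (z : Fin b → ℂ)
    (F : (Fin b → SwSt k) → ℝ) :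
    ∫ s, F s ∂(s4xNu d E k z n : Measure (Fin b → SwSt k)) = s4E n d k fun G v w => F fun i => s4X G E v w (z i) := by
  unfold s4xNu
  rw [s4x_mk_coe _ (s4x_law_prob hne hn hd _), s4x_law_integral]
  rfl

theorem s4x_Q_coe (μ : Measure Conf) [IsProbabilityMeasure μ] (z : Fin b → ℂ) (L : ℕ) :
    (s4xQ μ d E k z L : Measure (Fin b → SwSt k)) = swLaw μ k L (E / d) (1 / d) (mRe d E) z :=
  s4x_mk_coe _ (s5_swLaw_prob k L z)


theorem S4xBL.cont {S : Type} [NormedAddCommGroup S] {Φ : S → ℝ} (h : S4xBL Φ) : Continuous Φ := by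
  have : LipschitzWith 1 Φ := by
    refine LipschitzWith.of_dist_le_mul fun v w => ?_
    rw [Real.dist_eq, dist_eq_norm]
    simpa using h.lip v w
  exact this.continuous

/-- the model vector is measurable in (positions, marks) -/
theorem s4x_M_meas (k d : ℕ) (E : ℝ) (L : ℕ) (z : Fin b → ℂ) :
    Measurable fun xg : Conf × Matrix (Win L) (Ch k) ℝ => s4xM k d E L z xg.1 xg.2 :=
  s5_swX_measurable k L z

/-- the integral against the model law -/
theorem s4x_Q_int (μ : Measure Conf) [IsProbabilityMeasure μ] (z : Fin b → ℂ) (L : ℕ) {F : (Fin b → SwSt k) → ℝ}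
    (hF : Measurable F) {B : ℝ} (hB : ∀ s, |F s| ≤ B) :
    ∫ s, F s ∂(s4xQ μ d E k z L : Measure (Fin b → SwSt k))
      = ∫ x, ∫ g, F (s4xM k d E L z x g) ∂(gArr (Win L) (Ch k)) ∂μ := by
  have := s5_gArr_prob (Win L) (Ch k)
  rw [s4x_Q_coe]
  unfold swLaw
  rw [integral_map (s5_swX_measurable k L z).aemeasurable hF.aestronglyMeasurable]
  have hm : Measurable fun xg : Conf × Matrix (Win L) (Ch k) ℝ => F (s4xM k d E L z xg.1 xg.2) :=
    hF.comp (s4x_M_meas k d E L z)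
  have hi : Integrable (fun xg : Conf × Matrix (Win L) (Ch k) ℝ => F (s4xM k d E L z xg.1 xg.2))
      (μ.prod (gArr (Win L) (Ch k))) :=
    Integrable.of_bound hm.aestronglyMeasurable B (Eventually.of_forall fun xg => by simpa using hB _)
  exact integral_prod _ hi

theorem s4x_abs_int_le {X : Type} [MeasurableSpace X] {ν : Measure X} [IsProbabilityMeasure ν] {a : X → ℝ}
    (h1 : ∀ x, |a x| ≤ 1) : |∫ x, a x ∂ν| ≤ 1 := by
  have := norm_integral_le_of_norm_le_const (μ := ν) (f := a) (C := 1) (Eventually.of_forall fun x => by simpa using h1 x)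
  simpa using this

/-- continuity of the window vector of the model data -/
theorem s4x_YA_cont (k d : ℕ) (E : ℝ) (L : ℕ) (R : ℝ) (hR : 0 < R) {z : Fin b → ℂ} (hz : ∀ i, 0 < (z i).im) :
    Continuous fun xg : Conf × Matrix (Win L) (Ch k) ℝ => s4xY k d E L R z (cPos L xg.1, xg.2 * (chA k (E / d))ᵀ) := by
  refine (s4x_Y_cont k d E L R hR hz).comp (Continuous.prodMk ?_ ?_)
  · exact continuous_pi fun i => (continuous_apply _).comp continuous_fst
  · exact Continuous.matrix_mul continuous_snd continuous_const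

theorem s4x_gam_int (k L : ℕ) (p : ℝ) {F : Matrix (Win L) (Ch k) ℝ → ℝ} (hF : Measurable F) :
    ∫ β, F β ∂(s4Gam k L p) = ∫ g, F (g * (chA k p)ᵀ) ∂(gArr (Win L) (Ch k)) := by
  unfold s4Gam
  have hm : Measurable fun g : Matrix (Win L) (Ch k) ℝ => g * (chA k p)ᵀ :=
    (Continuous.matrix_mul continuous_id continuous_const).measurable
  exact integral_map hm.aemeasurable hF.aestronglyMeasurable

/-- (iii) of X2: the window vector of the model data against the model vector -/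
theorem s4x_model_close (μ : Measure Conf) [IsProbabilityMeasure μ] (hp : |E / d| ≤ 1) {Φ : (Fin b → SwSt k) → ℝ} (hΦ : S4xBL Φ)
    (L : ℕ) {R : ℝ} (hR : 0 < R) {z : Fin b → ℂ} (hz : ∀ i, 0 < (z i).im) {δ δ' : ℝ} (hδ : 0 ≤ δ) (hδ' : 0 ≤ δ')
    {A : Set Conf} (hA : μ Aᶜ ≤ ENNReal.ofReal δ') (hAe : ∀ x ∈ A, ‖s4xEps (kestenMcKay d E) L R x‖ ≤ δ) :
    |∫ x, ∫ β, Φ (s4xY k d E L R z (cPos L x, β)) ∂(s4Gam k L (E / d)) ∂μ
      - ∫ s, Φ s ∂(s4xQ μ d E k z L : Measure (Fin b → SwSt k))| ≤ δ + 2 * δ' := by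
  have := s5_gArr_prob (Win L) (Ch k)
  have hΦm : Measurable Φ := hΦ.cont.measurable
  rw [s4x_Q_int μ z L hΦm hΦ.bdd]
  have hY : Continuous fun xg : Conf × Matrix (Win L) (Ch k) ℝ => Φ (s4xY k d E L R z (cPos L xg.1, xg.2 * (chA k (E / d))ᵀ)) :=
    hΦ.cont.comp (s4x_YA_cont k d E L R hR hz)
  have hM : Measurable fun xg : Conf × Matrix (Win L) (Ch k) ℝ => Φ (s4xM k d E L z xg.1 xg.2) :=
    hΦm.comp (s4x_M_meas k d E L z)
  have e1 : ∀ x : Conf, ∫ β, Φ (s4xY k d E L R z (cPos L x, β)) ∂(s4Gam k L (E / d))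
      = ∫ g, Φ (s4xY k d E L R z (cPos L x, g * (chA k (E / d))ᵀ)) ∂(gArr (Win L) (Ch k)) := by
    intro x
    refine s4x_gam_int k L (E / d) (F := fun β => Φ (s4xY k d E L R z (cPos L x, β))) ?_
    exact (hΦ.cont.comp ((s4x_Y_cont k d E L R hR hz).comp (Continuous.prodMk continuous_const continuous_id))).measurable
  simp only [e1]
  have hFm : Measurable fun x : Conf => ∫ g, Φ (s4xY k d E L R z (cPos L x, g * (chA k (E / d))ᵀ)) ∂(gArr (Win L) (Ch k)) :=
    (hY.measurable.stronglyMeasurable.integral_prod_right (ν := gArr (Win L) (Ch k))).measurable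
  have hGm : Measurable fun x : Conf => ∫ g, Φ (s4xM k d E L z x g) ∂(gArr (Win L) (Ch k)) :=
    (hM.stronglyMeasurable.integral_prod_right (ν := gArr (Win L) (Ch k))).measurable
  have hcl : ∀ x ∈ A, |∫ g, Φ (s4xY k d E L R z (cPos L x, g * (chA k (E / d))ᵀ)) ∂(gArr (Win L) (Ch k))
      - ∫ g, Φ (s4xM k d E L z x g) ∂(gArr (Win L) (Ch k))| ≤ δ := by
    intro x hx
    have hpair : ∀ x : Conf, Measurable fun g : Matrix (Win L) (Ch k) ℝ => (x, g) := fun x =>
      measurable_const.prodMk measurable_id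
    have m1 : Measurable fun g : Matrix (Win L) (Ch k) ℝ => Φ (s4xY k d E L R z (cPos L x, g * (chA k (E / d))ᵀ)) :=
      (hΦ.cont.comp ((s4x_Y_cont k d E L R hR hz).comp
        (Continuous.prodMk continuous_const (Continuous.matrix_mul continuous_id continuous_const)))).measurable
    have m2 : Measurable fun g : Matrix (Win L) (Ch k) ℝ => Φ (s4xM k d E L z x g) := by
      have := hM.comp (hpair x)
      exact this
    have h0 := s5_int_split (μ := gArr (Win L) (Ch k)) (S := Set.univ) (ε := δ) (δ := 0) m1 m2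
      (fun g => hΦ.bdd _) (fun g => hΦ.bdd _) hδ le_rfl (by simp) fun g _ =>
        (hΦ.lip _ _).trans ((s4x_Y_swX_norm k d E hp L R z x g).trans (hAe x hx))
    simpa using h0
  exact s5_int_split (S := A) hFm hGm (fun x => s4x_abs_int_le fun g => hΦ.bdd _)
    (fun x => s4x_abs_int_le fun g => hΦ.bdd _) hδ hδ' hA hcl

theorem s4x_p_lt (H : S4Hyp d E) : |E / d| < 1 := by
  have hd3 : (3 : ℝ) ≤ d := by exact_mod_cast H.hd
  have h1 : 2 * Real.sqrt ((d : ℝ) - 1) ≤ d := by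
    have : Real.sqrt ((d : ℝ) - 1) ≤ d / 2 := by
      rw [Real.sqrt_le_left (by linarith)]
      nlinarith [sq_nonneg ((d : ℝ) - 2)]
    linarith
  rw [abs_div, abs_of_pos (by linarith : (0 : ℝ) < d), div_lt_one (by linarith)]
  exact lt_of_lt_of_le H.hE h1

/-- (i) + (ii) + (iii) of X2: the laws of the graph vector are, along `U`, uniformly `BL`-close to the laws of the model -/
theorem s4x_close (H : S4Hyp d E) (I : S4xIn d E) {U : Ultrafilter ℕ} {μ : Measure Conf} (hl : S4Lim d E U μ) (k : ℕ) {b : ℕ}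
    (z : Fin b → ℂ) (hz : ∀ i, 0 < (z i).im) (ε : ℝ) (hε : 0 < ε) :
    ∃ L0 : ℕ, ∀ L : ℕ, L0 ≤ L → ∀ Φ : (Fin b → SwSt k) → ℝ, S4xBL Φ →
      ∀ᶠ n in (U : Filter ℕ), |∫ s, Φ s ∂(s4xNu d E k z n : Measure (Fin b → SwSt k))
        - ∫ s, Φ s ∂(s4xQ μ d E k z L : Measure (Fin b → SwSt k))| ≤ ε := by
  have := hl.prob
  have hρ := s4_rho_pos d H.hd E H.hE
  have hd0 : 0 < d := by have := H.hd; omega
  obtain ⟨χ, hχ0, -, hX⟩ := I.x1
  obtain ⟨C0, C, hC⟩ := hX 1
  -- the regular configurations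
  obtain ⟨J0, hJ1, hJ⟩ : ∃ J0 : ℕ, 1 ≤ J0 ∧ C * (J0 : ℝ) ^ (-(1 : ℝ)) ≤ ε / 8 := by
    have h1 : Tendsto (fun J : ℕ => C * (J : ℝ) ^ (-(1 : ℝ))) atTop (𝓝 (C * 0)) :=
      ((tendsto_rpow_neg_atTop one_pos).comp tendsto_natCast_atTop_atTop).const_mul C
    rw [mul_zero] at h1
    obtain ⟨J, hJ⟩ := ((h1.eventually (ge_mem_nhds (by positivity : (0 : ℝ) < ε / 8))).and (eventually_ge_atTop 1)).exists
    exact ⟨J, hJ.2, hJ.1⟩
  have hA : μ {x | CReg (kestenMcKay d E) χ C0 J0 x}ᶜ ≤ ENNReal.ofReal (ε / 8) :=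
    (hC U μ hl J0 hJ1).trans (ENNReal.ofReal_le_ofReal hJ)
  obtain ⟨R₁, hR₁, hlat⟩ := s4x_lattice (C₀ := C0) hρ hχ0 J0 (ε / 8) (by positivity)
  -- the windows
  have hη : 0 < ε / (16 * ((b : ℝ) + 1)) := by positivity
  choose R0 hR0 using fun i => I.win k (z i) (hz i) (ε / 8) (ε / (16 * ((b : ℝ) + 1))) (by positivity) hη
  set R : ℝ := R₁ + ∑ i, |R0 i| with hRdef
  have hs0 : 0 ≤ ∑ i, |R0 i| := Finset.sum_nonneg fun i _ => abs_nonneg _
  have hRR₁ : R₁ ≤ R := by linarith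
  have hR0' : 0 < R := lt_of_lt_of_le hR₁ hRR₁
  have hRi : ∀ i, R0 i ≤ R := fun i => by
    have := Finset.single_le_sum (f := fun i => |R0 i|) (fun j _ => abs_nonneg _) (Finset.mem_univ i)
    have h2 := le_abs_self (R0 i)
    linarith
  choose Lw hLw using fun i => hR0 i R (hRi i)
  obtain ⟨L₁, hL₁⟩ := hlat R hRR₁
  refine ⟨L₁ + ∑ i, Lw i, fun L hL Φ hΦ => ?_⟩
  have hLi : ∀ i, Lw i ≤ L := fun i => by
    have := Finset.single_le_sum (f := fun i => Lw i) (fun j _ => Nat.zero_le _) (Finset.mem_univ i)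
    omega
  choose Nw hNw using fun i => hLw i L (hLi i)
  -- the bounded continuous function `Φ ∘ Y`
  have hYc : Continuous fun xβ : (Win L → ℝ) × Matrix (Win L) (Ch k) ℝ => Φ (s4xY k d E L R z xβ) :=
    hΦ.cont.comp (s4x_Y_cont k d E L R hR0' hz)
  let f : ((Win L → ℝ) × Matrix (Win L) (Ch k) ℝ) →ᵇ ℝ :=
    BoundedContinuousFunction.ofNormedAddCommGroup (fun xβ => Φ (s4xY k d E L R z xβ)) hYc 1 fun xβ => by
      simpa using hΦ.bdd _
  have hg := (I.gau hl k L f).eventually (Metric.closedBall_mem_nhds _ (by positivity : (0 : ℝ) < ε / 8))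
  filter_upwards [hl.adm, hl.top (eventually_ge_atTop (1 + ∑ i, Nw i)), hg] with n hne hN hgn
  have hn0 : 0 < n := by omega
  have hNi : ∀ i, Nw i ≤ n := fun i => by
    have := Finset.single_le_sum (f := fun i => Nw i) (fun j _ => Nat.zero_le _) (Finset.mem_univ i)
    omega
  rw [s4x_nu_int hne hn0 hd0]
  -- (i)
  have a1 := s4x_E_close (k := k) hne hn0 hd0 (F := fun G v w => Φ fun i => s4X G E v w (z i))
    (F' := fun G v w => Φ (s4xY k d E L R z (s4Win E L G, s4Beta E k L G v w)))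
    (Bad := fun G v w => ∃ i, ¬ S4Close (s4X G E v w (z i)) (s4Y k d E L R (s4Win E L G) (s4Beta E k L G v w) (z i)) (ε / 8))
    (τ := ε / 8) (fun G v w => hΦ.bdd _) (fun G v w => hΦ.bdd _)
    (fun G v w hb => by
      push Not at hb
      refine (hΦ.lip _ _).trans ?_
      rw [pi_norm_le_iff_of_nonneg (by positivity)]
      intro i
      exact (s4x_close_iff (by positivity)).1 (hb i)) (by positivity)
  have a1' : s4Pr n d k (fun G v w => ∃ i, ¬ S4Close (s4X G E v w (z i))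
      (s4Y k d E L R (s4Win E L G) (s4Beta E k L G v w) (z i)) (ε / 8)) ≤ ε / 16 := by
    refine (s4x_Pr_union _).trans ?_
    calc ∑ i : Fin b, s4Pr n d k (fun G v w => ¬ S4Close (s4X G E v w (z i))
          (s4Y k d E L R (s4Win E L G) (s4Beta E k L G v w) (z i)) (ε / 8))
        ≤ ∑ _i : Fin b, ε / (16 * ((b : ℝ) + 1)) := Finset.sum_le_sum fun i _ => hNw i n (hNi i) hne
      _ = b * (ε / (16 * ((b : ℝ) + 1))) := by simp
      _ ≤ ε / 16 := by
          rw [mul_div_assoc', div_le_div_iff₀ (by positivity) (by norm_num)]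
          nlinarith
  -- (ii)
  have a2 : |s4E n d k (fun G v w => Φ (s4xY k d E L R z (s4Win E L G, s4Beta E k L G v w)))
      - ∫ x, ∫ β, Φ (s4xY k d E L R z (cPos L x, β)) ∂(s4Gam k L (E / d)) ∂μ| ≤ ε / 8 := by
    have := Metric.mem_closedBall.1 hgn
    rw [Real.dist_eq] at this
    exact this
  -- (iii)
  have a3 := s4x_model_close (k := k) μ (s4x_p_lt H).le hΦ L hR0' hz (δ := ε / 8) (δ' := ε / 8) (by positivity) (by positivity)
    hA fun x hx => hL₁ L (by omega) x hx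
  rw [abs_le] at a1 a2 a3 ⊢
  constructor <;> linarith [a1.1, a1.2, a2.1, a2.2, a3.1, a3.2]

/-- **X2** -/
theorem s4x_X2 (H : S4Hyp d E) (I : S4xIn d E) {U : Ultrafilter ℕ} {μ : Measure Conf} (hl : S4Lim d E U μ)
    (k : ℕ) {b : ℕ} (z : Fin b → ℂ) (hz : ∀ i, 0 < (z i).im) : ∃ P : Measure (Fin b → SwSt k), S4P d E U μ k z P := by
  have := hl.prob
  have hd0 : 0 < d := by have := H.hd; omega
  obtain ⟨P, h1, h2⟩ := s4x_ul_together U (s4xNu d E k z) (s4xQ μ d E k z) (s4x_close H I hl k z hz)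
  refine ⟨(P : Measure (Fin b → SwSt k)), P.2, fun f => ?_, fun f => ?_⟩
  · have h3 := (ProbabilityMeasure.tendsto_iff_forall_integral_tendsto.1 h1) f
    refine h3.congr' ?_
    filter_upwards [hl.adm, hl.top (eventually_ge_atTop 1)] with n hne hn
    exact s4x_nu_int hne hn hd0 z f
  · have h3 := (ProbabilityMeasure.tendsto_iff_forall_integral_tendsto.1 h2) f
    refine h3.congr fun L => ?_
    rw [s4x_Q_coe]
    rfl

/-- the graph laws converge to `P` -/
theorem s4x_nu_tendsto (hd0 : 0 < d) {U : Ultrafilter ℕ} {μ : Measure Conf} (hl : S4Lim d E U μ) {z : Fin b → ℂ}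
    {P : Measure (Fin b → SwSt k)} (hP : S4P d E U μ k z P) :
    Tendsto (s4xNu d E k z) U (𝓝 (⟨P, hP.prob⟩ : ProbabilityMeasure (Fin b → SwSt k))) := by
  refine ProbabilityMeasure.tendsto_iff_forall_integral_tendsto.2 fun f => ?_
  refine (hP.graph f).congr' ?_
  filter_upwards [hl.adm, hl.top (eventually_ge_atTop 1)] with n hne hn
  exact (s4x_nu_int hne hn hd0 z f).symm

/-- the model laws converge to `P` -/
theorem s4x_Q_tendsto {U : Ultrafilter ℕ} {μ : Measure Conf} (hl : S4Lim d E U μ) {z : Fin b → ℂ}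
    {P : Measure (Fin b → SwSt k)} (hP : S4P d E U μ k z P) :
    Tendsto (s4xQ μ d E k z) atTop (𝓝 (⟨P, hP.prob⟩ : ProbabilityMeasure (Fin b → SwSt k))) := by
  have := hl.prob
  refine ProbabilityMeasure.tendsto_iff_forall_integral_tendsto.2 fun f => ?_
  refine (hP.model f).congr fun L => ?_
  rw [s4x_Q_coe]

/-! ## F. X3a -/

/-- the closed sets which exhaust the domain of regularity -/
def s4xDomC (k b : ℕ) (c : ℝ) : Set (Fin b → SwSt k) := {s | ∀ i, (s i).2.1ᵀ = (s i).2.1 ∧ rsDis (s i).2.1 c}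

theorem s4xf_eqns_cite : True := by
  have := @s4xDomC.eq_1
  trivial

theorem s4x_domC_closed (c : ℝ) : IsClosed (s4xDomC k b c) := by
  have e : s4xDomC k b c = ⋂ i, ({s : Fin b → SwSt k | (s i).2.1ᵀ = (s i).2.1}
      ∩ ⋂ v : Ch k → ℂ, {s : Fin b → SwSt k | c * rsvSq v ≤ (star v ⬝ᵥ ((s i).2.1 *ᵥ v)).im}) := by
    ext s
    simp only [s4xDomC, rsDis, Set.mem_ofPred_eq, Set.mem_iInter, Set.mem_inter_iff]
  rw [e]
  refine isClosed_iInter fun i => ?_
  have hM : Continuous fun s : Fin b → SwSt k => (s i).2.1 := ((continuous_apply i).snd).fst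
  refine IsClosed.inter (isClosed_eq hM.matrix_transpose hM) (isClosed_iInter fun v => ?_)
  refine isClosed_le continuous_const (Complex.continuous_im.comp ?_)
  exact Continuous.dotProduct continuous_const (hM.matrix_mulVec continuous_const)

theorem s4x_domC_sub {c : ℝ} (hc : 0 < c) {s : Fin b → SwSt k} (hs : s ∈ s4xDomC k b c) (i : Fin b) : swDom (s i) := by
  obtain ⟨h1, h2⟩ := hs i
  refine ⟨h1, Matrix.PosDef.of_dotProduct_mulVec_pos ?_ fun x hx => ?_⟩
  · rw [Matrix.IsHermitian, Matrix.conjTranspose_eq_transpose_of_trivial, ← Matrix.transpose_map, h1]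
  · have h3 := h2 fun a => (x a : ℂ)
    rw [rs_symm_im h1] at h3
    simp only [Complex.ofReal_re, Complex.ofReal_im] at h3
    have h0 : (fun _ : Ch k => (0 : ℝ)) ⬝ᵥ (((s i).2.1.map Complex.im) *ᵥ fun _ : Ch k => (0 : ℝ)) = 0 := by
      simp [dotProduct]
    rw [h0, add_zero] at h3
    have hpos : 0 < rsvSq fun a => (x a : ℂ) := by
      obtain ⟨a, ha⟩ := Function.ne_iff.1 hx
      unfold rsvSq
      refine Finset.sum_pos' (fun _ _ => by positivity) ⟨a, Finset.mem_univ a, ?_⟩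
      have : (x a : ℂ) ≠ 0 := by exact_mod_cast ha
      positivity
    have : star x = x := by ext a; simp
    rw [this]
    exact lt_of_lt_of_le (mul_pos hc hpos) h3

/-- Fubini bound: a set whose sections are small over a set of large measure -/
theorem s4x_prod_le {X Y : Type} [MeasurableSpace X] [MeasurableSpace Y] (μ : Measure X) (ν : Measure Y)
    [IsProbabilityMeasure μ] [IsProbabilityMeasure ν] {T : Set (X × Y)} (hT : MeasurableSet T) {G : Set X} {a c : ℝ≥0∞}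
    (hG : μ Gᶜ ≤ a) (h : ∀ x ∈ G, ν (Prod.mk x ⁻¹' T) ≤ c) : (μ.prod ν) T ≤ a + c := by
  rw [Measure.prod_apply hT]
  set B := toMeasurable μ Gᶜ with hB
  have hBm : MeasurableSet B := measurableSet_toMeasurable _ _
  calc ∫⁻ x, ν (Prod.mk x ⁻¹' T) ∂μ ≤ ∫⁻ x, (B.indicator (fun _ => (1 : ℝ≥0∞)) x + c) ∂μ := by
        refine lintegral_mono fun x => ?_
        by_cases hx : x ∈ G
        · exact (h x hx).trans le_add_self
        · have hxB : x ∈ B := subset_toMeasurable _ _ hx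
          simp only [Set.indicator_of_mem hxB]
          exact prob_le_one.trans le_self_add
    _ = μ B + c := by
        rw [lintegral_add_right _ measurable_const, lintegral_indicator hBm]
        simp
    _ ≤ a + c := by
        rw [hB, measure_toMeasurable]
        exact add_le_add_left hG c

/-- the window `J` inside the window `L` -/
def s4xEmb {J L : ℕ} (h : J ≤ L) (i : Win J) : Win L := ⟨i.val + (L - J), by have := i.2; omega⟩

theorem s4x_emb_inj {J L : ℕ} (h : J ≤ L) : Function.Injective (s4xEmb h) := by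
  intro i j hij
  have := congrArg Fin.val hij
  simp only [s4xEmb] at this
  exact Fin.ext (by omega)

theorem s4x_emb_pos {J L : ℕ} (h : J ≤ L) (x : Conf) (i : Win J) : cPos L x (s4xEmb h i) = cPos J x i := by
  unfold cPos wIdx s4xEmb
  congr 1
  push_cast [Nat.cast_sub h]
  ring

theorem s4xg_eqns_cite : True := by
  have := @s4xEmb.eq_1
  trivial

/-- lower bound of the weights -/
theorem s4x_weight {t R : ℝ} (ht : |t| ≤ R) {z : ℂ} (hz : 0 < z.im) :
    z.im / ((R + |z.re|) ^ 2 + z.im ^ 2) ≤ (((t : ℂ) - z)⁻¹).im := by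
  have e : (((t : ℂ) - z)⁻¹).im = z.im / ((t - z.re) ^ 2 + z.im ^ 2) := by
    rw [Complex.inv_im, Complex.normSq_apply]
    simp only [Complex.sub_im, Complex.ofReal_im, Complex.sub_re, Complex.ofReal_re]
    congr 1 <;> ring
  rw [e]
  have h1 : (t - z.re) ^ 2 ≤ (R + |z.re|) ^ 2 := by
    rw [← sq_abs (t - z.re)]
    refine pow_le_pow_left₀ (abs_nonneg _) ?_ 2
    exact (abs_sub _ _).trans (by linarith)
  exact div_le_div_of_nonneg_left hz.le (by positivity) (by linarith)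

/-- the matrix `M` of the model is symmetric -/
theorem s4x_M_symm (k L : ℕ) (p dinv mr : ℝ) (x : Conf) (g : Matrix (Win L) (Ch k) ℝ) (z : ℂ) :
    (swX k L p dinv mr x g z).2.1ᵀ = (swX k L p dinv mr x g z).2.1 := by
  have hJ : (chJ k)ᵀ = chJ k := by
    unfold chJ
    rw [Matrix.fromBlocks_transpose]
    simp
  have hK : (toC (chK k p dinv mr))ᵀ = toC (chK k p dinv mr) := by
    unfold toC
    rw [← Matrix.transpose_map]
    congr 1
    unfold chK chC
    simp only [Matrix.transpose_add, Matrix.transpose_smul, Matrix.transpose_one, hJ]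
  have hD : (cRes L x z 1)ᵀ = cRes L x z 1 := by
    unfold cRes
    rw [Matrix.diagonal_transpose]
  show (toC (chK k p dinv mr) + toC (chA k p) * (toC g)ᵀ * cRes L x z 1 * toC g * (toC (chA k p))ᵀ)ᵀ
    = toC (chK k p dinv mr) + toC (chA k p) * (toC g)ᵀ * cRes L x z 1 * toC g * (toC (chA k p))ᵀ
  rw [Matrix.transpose_add, hK]
  simp only [Matrix.transpose_mul, Matrix.transpose_transpose, hD, Matrix.mul_assoc]

/-- fixed positions: lower bound of `Im M` off an event of small probability (`s5_chan_low`) -/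
theorem s4x_low_x (hp : |E / d| < 1) (z : Fin b → ℂ) (hz : ∀ i, 0 < (z i).im) {J L : ℕ} (hJL : J ≤ L) {R ω : ℝ} (hω : 0 < ω)
    (hωi : ∀ i, ω ≤ (z i).im / ((R + |(z i).re|) ^ 2 + (z i).im ^ 2)) {x : Conf} (hx : ∀ j : Win J, |cPos J x j| ≤ R) :
    (gArr (Win L) (Ch k)) {g | s4xM k d E L z x g ∉ s4xDomC k b (ω * (2 * J + 1) * (1 - |E / d|) / 2)}
      ≤ ENNReal.ofReal (b * (4 * (4 * (k : ℝ) ^ 2 + 2 * k) / (2 * J + 1))) := by
  set S : Finset (Win L) := Finset.univ.image (s4xEmb hJL) with hS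
  have hcard : (S.card : ℝ) = 2 * J + 1 := by
    rw [hS, Finset.card_image_of_injective _ (s4x_emb_inj hJL), Finset.card_univ, Fintype.card_fin]
    push_cast
    ring
  have hw : ∀ i, ∀ j ∈ S, ω ≤ (((cPos L x j : ℂ) - z i)⁻¹).im := by
    intro i j hj
    obtain ⟨j', -, rfl⟩ := Finset.mem_image.1 hj
    rw [s4x_emb_pos]
    exact (hωi i).trans (s4x_weight (hx j') (hz i))
  have hi := fun i => s5_chan_low k (dinv := 1 / d) (mr := mRe d E) hp (d := cPos L x) (hz i) hω S (hw i)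
  simp only [hcard] at hi
  have hsub : {g | s4xM k d E L z x g ∉ s4xDomC k b (ω * (2 * J + 1) * (1 - |E / d|) / 2)}
      ⊆ ⋃ i, {g | ¬ (imH (s5X k (E / d) (1 / d) (mRe d E) (cPos L x) g (z i)).2.1
        - ((ω * (2 * J + 1) * (1 - |E / d|) / 2 : ℝ) : ℂ) • (1 : Matrix (Ch k) (Ch k) ℂ)).PosSemidef} := by
    intro g hg
    by_contra hcon
    simp only [Set.mem_iUnion, Set.mem_ofPred_eq, not_exists, not_not] at hcon
    refine hg fun i => ⟨s4x_M_symm k L _ _ _ x g (z i), ?_⟩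
    have := (s5_psd_iff_dis _ _).1 (hcon i)
    rw [← s5_swX_eq] at this
    exact this
  refine (measure_mono hsub).trans ((measure_iUnion_fintype_le _ _).trans ?_)
  refine (Finset.sum_le_sum fun i _ => hi i).trans (le_of_eq ?_)
  rw [Finset.sum_const, Finset.card_univ, Fintype.card_fin, nsmul_eq_mul, ENNReal.ofReal_mul (Nat.cast_nonneg b),
    ENNReal.ofReal_natCast]

/-- the model laws are carried, up to `ε` and uniformly in `L`, by one of the closed sets -/
theorem s4x_low (H : S4Hyp d E) (μ : Measure Conf) [IsProbabilityMeasure μ] (z : Fin b → ℂ) (hz : ∀ i, 0 < (z i).im)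
    (ε : ℝ) (hε : 0 < ε) :
    ∃ c : ℝ, 0 < c ∧ ∀ᶠ L : ℕ in atTop, (s4xQ μ d E k z L : Measure (Fin b → SwSt k)) (s4xDomC k b c)ᶜ ≤ ENNReal.ofReal ε := by
  have hp := s4x_p_lt H
  set q : ℝ := 4 * (4 * (k : ℝ) ^ 2 + 2 * k) with hq
  have hq0 : 0 ≤ q := by positivity
  obtain ⟨J, hJ⟩ := exists_nat_ge (b * q / ε)
  have hJ2 : b * (q / (2 * J + 1)) ≤ ε / 2 := by
    rw [div_le_iff₀ hε] at hJ
    rw [mul_div_assoc', div_le_div_iff₀ (by positivity) (by norm_num)]
    nlinarith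
  -- tightness of the window `J`
  have hcm : Measurable (cPos J) := measurable_pi_lambda _ fun i => measurable_pi_apply _
  obtain ⟨R, hR⟩ := s4x_tight_one (⟨μ.map (cPos J), Measure.isProbabilityMeasure_map hcm.aemeasurable⟩ :
    ProbabilityMeasure (Win J → ℝ)) (ε / 2) (by positivity)
  have hR' : μ {x | ‖cPos J x‖ ≤ R}ᶜ ≤ ENNReal.ofReal (ε / 2) := by
    have e := Measure.map_apply (μ := μ) hcm (s4x_meas_gt (S := Win J → ℝ) R)
    have e2 : {x : Conf | ‖cPos J x‖ ≤ R}ᶜ = cPos J ⁻¹' {s | R < ‖s‖} := by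
      ext x
      simp
    rw [e2, ← e]
    exact hR
  -- the weights
  set w : Fin b → ℝ := fun i => (z i).im / ((R + |(z i).re|) ^ 2 + (z i).im ^ 2) with hw
  have hw0 : ∀ i, 0 < w i := fun i => by
    have := hz i
    simp only [hw]
    positivity
  set ω : ℝ := (1 + ∑ i, (w i)⁻¹)⁻¹ with hωd
  have hs0 : 0 ≤ ∑ i, (w i)⁻¹ := Finset.sum_nonneg fun i _ => (inv_pos.2 (hw0 i)).le
  have hω : 0 < ω := by positivity
  have hωi : ∀ i, ω ≤ w i := fun i => by
    rw [hωd, inv_le_comm₀ (by positivity) (hw0 i)]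
    have := Finset.single_le_sum (f := fun i => (w i)⁻¹) (fun j _ => (inv_pos.2 (hw0 j)).le) (Finset.mem_univ i)
    linarith
  refine ⟨ω * (2 * J + 1) * (1 - |E / d|) / 2, by have : 0 < 1 - |E / d| := by linarith
                                                  positivity, ?_⟩
  filter_upwards [eventually_ge_atTop J] with L hL
  have := s5_gArr_prob (Win L) (Ch k)
  have hT : MeasurableSet (s4xDomC k b (ω * (2 * J + 1) * (1 - |E / d|) / 2))ᶜ := (s4x_domC_closed _).measurableSet.compl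
  rw [s4x_Q_coe]
  unfold swLaw
  rw [Measure.map_apply (s5_swX_measurable k L z) hT]
  have h1 := s4x_prod_le μ (gArr (Win L) (Ch k)) ((s5_swX_measurable (p := E / d) (dinv := 1 / d) (mr := mRe d E) k L z) hT) hR'
    (c := ENNReal.ofReal (b * (q / (2 * J + 1)))) fun x hx =>
      s4x_low_x (k := k) hp z hz hL hω hωi fun j => (norm_le_pi_norm (cPos J x) j).trans hx
  refine h1.trans ?_
  rw [← ENNReal.ofReal_add (by positivity) (by positivity)]
  exact ENNReal.ofReal_le_ofReal (by linarith)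

/-- **X3a** -/
theorem s4x_X3a (H : S4Hyp d E) {U : Ultrafilter ℕ} {μ : Measure Conf} (hl : S4Lim d E U μ)
    (k : ℕ) {b : ℕ} (z : Fin b → ℂ) (hz : ∀ i, 0 < (z i).im) {P : Measure (Fin b → SwSt k)} (hP : S4P d E U μ k z P) :
    ∀ᵐ s ∂P, ∀ i, swDom (s i) := by
  have := hl.prob
  rw [ae_iff]
  refine nonpos_iff_eq_zero.1 (ENNReal.le_of_forall_pos_le_add fun ε hε _ => ?_)
  obtain ⟨c, hc, hL⟩ := s4x_low (k := k) H μ z hz ε (by exact_mod_cast hε)
  have h1 := s4x_open_le (s4x_Q_tendsto hl hP) (s4x_domC_closed (k := k) (b := b) c).isOpen_compl hL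
  rw [zero_add, ← ENNReal.ofReal_coe_nnreal]
  refine (measure_mono fun s hs => ?_).trans h1
  exact fun hsc => hs fun i => s4x_domC_sub hc hsc i

/-! ## G. X3b -/

theorem s4x_swap_orth (hk : 2 ≤ k) : IsOrth (swapMat k hk) := by
  unfold IsOrth swapMat
  rw [← PEquiv.toMatrix_symm, ← PEquiv.toMatrix_trans, ← Equiv.toPEquiv_symm, ← Equiv.toPEquiv_trans]
  simp

theorem s4x_dom_open : IsOpen {s : Fin b → SwSt k | ∀ i, s5Dom (s i)} := by
  have : {s : Fin b → SwSt k | ∀ i, s5Dom (s i)} = ⋂ i, (fun s : Fin b → SwSt k => s i) ⁻¹' {s : SwSt k | s5Dom s} := by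
    ext s
    simp
  rw [this]
  exact isOpen_iInter_of_finite fun i => (s5_isOpen_dom (k := k)).preimage (continuous_apply i)

theorem s4x_X3b_one (hd0 : 0 < d) (I : S4xIn d E) {U : Ultrafilter ℕ} {μ : Measure Conf} (hl : S4Lim d E U μ)
    (hk : 2 ≤ k) (z : Fin b → ℂ) (hz : ∀ i, 0 < (z i).im) {P : Measure (Fin b → SwSt k)} (hP : S4P d E U μ k z P)
    (hdom : ∀ᵐ s ∂P, ∀ i, swDom (s i)) (Φ : (Fin b → SwSt k) →ᵇ ℝ) (hΦ : ∀ s, |Φ s| ≤ 1) :
    ∫ s, Φ (fun i => swT (swapMat k hk) (s i)) ∂P = ∫ s, Φ s ∂P := by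
  have hν := s4x_nu_tendsto hd0 hl hP
  have hm : Measurable fun s : Fin b → SwSt k => Φ (fun i => swT (swapMat k hk) (s i)) :=
    Φ.continuous.measurable.comp (measurable_pi_lambda _ fun i => (s5_swT_measurable (swapMat k hk)).comp (measurable_pi_apply i))
  have hc : ContinuousOn (fun s : Fin b → SwSt k => Φ (fun i => swT (swapMat k hk) (s i))) {s | ∀ i, s5Dom (s i)} := by
    refine Φ.continuous.comp_continuousOn (continuousOn_pi.2 fun i => ?_)
    exact (s5_swT_continuousOn (s4x_swap_orth hk)).comp (continuous_apply i).continuousOn fun s hs => hs i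
  have h1 := s4x_ul_map hν s4x_dom_open (hdom.mono fun s hs i => s5_dom_of_swDom (hs i)) hm (B := 1) (fun s => hΦ _) hc
  have h2 := (ProbabilityMeasure.tendsto_iff_forall_integral_tendsto.1 hν) Φ
  obtain ⟨C, hC⟩ := I.sw k hk z hz
  have h3 : Tendsto (fun n => ∫ s, Φ (fun i => swT (swapMat k hk) (s i)) ∂(s4xNu d E k z n : Measure (Fin b → SwSt k))
      - ∫ s, Φ s ∂(s4xNu d E k z n : Measure (Fin b → SwSt k))) U (𝓝 0) := by
    refine squeeze_zero_norm' ?_ ((tendsto_const_div_atTop_nhds_zero_nat C).mono_left hl.top)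
    filter_upwards [hl.adm, hl.top (eventually_ge_atTop 1)] with n hne hn
    rw [s4x_nu_int hne hn hd0 z fun s => Φ (fun i => swT (swapMat k hk) (s i)), s4x_nu_int hne hn hd0 z Φ, Real.norm_eq_abs]
    exact hC n Φ hΦ
  have h4 := tendsto_nhds_unique (h1.sub h2) h3
  exact sub_eq_zero.1 h4

/-- **X3b**, given X3a -/
theorem s4x_X3b_of (hd0 : 0 < d) (I : S4xIn d E) {U : Ultrafilter ℕ} {μ : Measure Conf} (hl : S4Lim d E U μ)
    (hk : 2 ≤ k) (z : Fin b → ℂ) (hz : ∀ i, 0 < (z i).im) {P : Measure (Fin b → SwSt k)} (hP : S4P d E U μ k z P)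
    (hdom : ∀ᵐ s ∂P, ∀ i, swDom (s i)) (Φ : (Fin b → SwSt k) →ᵇ ℝ) :
    ∫ s, Φ (fun i => swT (swapMat k hk) (s i)) ∂P = ∫ s, Φ s ∂P := by
  have hB : 0 < ‖Φ‖ + 1 := by positivity
  have h := s4x_X3b_one hd0 I hl hk z hz hP hdom ((‖Φ‖ + 1)⁻¹ • Φ) fun s => by
    rw [BoundedContinuousFunction.coe_smul]
    show |(‖Φ‖ + 1)⁻¹ * Φ s| ≤ 1
    rw [abs_mul, abs_of_pos (inv_pos.2 hB), inv_mul_le_iff₀ hB, mul_one]
    have := Φ.norm_coe_le_norm s
    rw [Real.norm_eq_abs] at this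
    linarith
  simp only [BoundedContinuousFunction.coe_smul, smul_eq_mul, integral_const_mul] at h
  exact mul_left_cancel₀ (inv_pos.2 hB).ne' h

/-- **X3b** -/
theorem s4x_X3b (H : S4Hyp d E) (I : S4xIn d E) {U : Ultrafilter ℕ} {μ : Measure Conf} (hl : S4Lim d E U μ)
    (k : ℕ) (hk : 2 ≤ k) {b : ℕ} (z : Fin b → ℂ) (hz : ∀ i, 0 < (z i).im) {P : Measure (Fin b → SwSt k)} (hP : S4P d E U μ k z P)
    (Φ : (Fin b → SwSt k) →ᵇ ℝ) : ∫ s, Φ (fun i => swT (swapMat k hk) (s i)) ∂P = ∫ s, Φ s ∂P :=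
  s4x_X3b_of (by have := H.hd; omega) I hl hk z hz hP (s4x_X3a H hl k z hz hP) Φ

end

end Claimed.Agent.R287
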