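-- KEEP
import Claimed.Agent.R287.S4Desc
import Claimed.Agent.R287.S4Win
import Claimed.Agent.R287.S4Gau
import Claimed.Agent.R287.S4Reg
import Claimed.Agent.R287.S4X
import Claimed.Agent.R287.S4X4
import Claimed.Agent.R287.S4XE
import Claimed.Agent.R287.GauC
import Claimed.Agent.R287.I1
import Claimed.Agent.R287.S4X3a

/-!
# Row 287 (S0534), unit S4: TOP FILE = the two imports, the bridge to `LimTr.lean`, the glue up to `exit_gr`      (head helper289; prefix `s4t`)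

1. IMPORT I2 (`S4I2`) = `s4_import_I2'` from `gau_P31` (helper283, `GauC.lean`), proved by helper285;   2. IMPORT I1 (`S4I1`) = `s4_import_I1'` (`I1.lean`, helper274);   3. X4 = `s4v_X4_at` (`S4X4.lean`, helper261; the bridge to `LimTr.lean` is no longer needed);
4. nodes X2, X3a, X3b (deputy D4 = helper14, `S4X.lean`);   5. glue `s4_exit` = statement of `exit_gr` of the hub.
-/

set_option autoImplicit false

namespace Claimed.Agent.R287

open MeasureTheory ProbabilityTheory Matrix Filter Topology Claims.C0462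
open scoped BoundedContinuousFunction

noncomputable section

/-! ## 1. import I2 = P31: `s4_import_I2'`, PROVED from `gau_P31` by helper285 (his file `I2.lean`, inlined here; prefix `i2`) -/

/-! ### events of high probability -/

theorem i2_whp_and {d : ℕ} {S S' : (n : ℕ) → Gr n → Prop} (h : RgWhp d S) (h' : RgWhp d S') : RgWhp d fun n G => S n G ∧ S' n G := by
  intro δ hδ
  obtain ⟨N, hN⟩ := h (δ / 2) (by positivity)
  obtain ⟨N', hN'⟩ := h' (δ / 2) (by positivity)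
  refine ⟨max N N', fun n hn hne => ?_⟩
  have h1 := hN n ((le_max_left _ _).trans hn) hne
  have h2 := hN' n ((le_max_right _ _).trans hn) hne
  have h3 : rgP n d (fun G => ¬ (S n G ∧ S' n G)) ≤ rgP n d (fun G => ¬ S n G) + rgP n d (fun G => ¬ S' n G) :=
    (rg_P_mono fun G _ hG => by
      by_cases hs : S n G
      · exact Or.inr fun hs' => hG ⟨hs, hs'⟩
      · exact Or.inl hs).trans (rg_P_or _ _)
  rw [rg_P_not hne, rg_P_not hne, rg_P_not hne] at h3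
  linarith

/-- the event of `gau_P31` at `ℓ` eigenvectors, with its constants -/
def I2Ev (d : ℕ) (E : ℝ) (k ℓ q : ℕ) (ε₁ c C : ℝ) (n : ℕ) (G : Gr n) : Prop :=
  ∀ (V : Fin n → Fin ℓ → ℝ) (lam : Fin ℓ → ℝ), GauBand G E ((n : ℝ) ^ (-1 + 2 * ε₁)) V lam →
    ∀ m, m ≤ q → ∀ t : Fin m → Fin ℓ × Ch k,
      |gauEk d k G (fun v w => ∏ a, V (Sum.elim v w (t a).2) (t a).1) - ∫ g, ∏ a, (g * (chA k (E / d))ᵀ) (t a).1 (t a).2 ∂(gArr (Fin ℓ) (Ch k))|
        ≤ C * (n : ℝ) ^ (-c)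

theorem i2_eqns_cite : True := by
  have := @I2Ev.eq_1
  trivial

theorem i2_band_mono {n ℓ : ℕ} {G : SimpleGraph (Fin n)} {E w w' : ℝ} {V : Fin n → Fin ℓ → ℝ} {lam : Fin ℓ → ℝ}
    (h : GauBand G E w V lam) (hw : w ≤ w') : GauBand G E w' V lam :=
  ⟨h.eig, h.orth, fun j => (h.band j).trans hw⟩

theorem i2_ev_mono {d : ℕ} {E : ℝ} {k ℓ q : ℕ} {ε ε' c c' C C' : ℝ} {n : ℕ} {G : Gr n} (hn : 1 ≤ n) (hε : ε' ≤ ε) (hc : c' ≤ c)
    (hC : C ≤ C') (hC0 : 0 ≤ C') (h : I2Ev d E k ℓ q ε c C n G) : I2Ev d E k ℓ q ε' c' C' n G := by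
  have hn1 : (1 : ℝ) ≤ n := by exact_mod_cast hn
  intro V lam hB m hm t
  refine (h V lam (i2_band_mono hB (Real.rpow_le_rpow_of_exponent_le hn1 (by linarith))) m hm t).trans ?_
  calc C * (n : ℝ) ^ (-c) ≤ C' * (n : ℝ) ^ (-c) := mul_le_mul_of_nonneg_right hC (Real.rpow_nonneg (by linarith) _)
    _ ≤ C' * (n : ℝ) ^ (-c') := mul_le_mul_of_nonneg_left (Real.rpow_le_rpow_of_exponent_le hn1 (by linarith)) hC0

/-- `gau_P31` for all `ℓ' ≤ ℓ` at once, ONE triple of constants -/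
theorem i2_all (d : ℕ) (hd : 3 ≤ d) (E : ℝ) (hE : |E| < 2 * Real.sqrt ((d : ℝ) - 1)) (k q ℓ : ℕ) :
    ∃ ε₁ c C : ℝ, 0 < ε₁ ∧ 0 < c ∧ RgWhp d fun n G => ∀ ℓ', ℓ' ≤ ℓ → I2Ev d E k ℓ' q ε₁ c C n G := by
  induction ℓ with
  | zero =>
    obtain ⟨ε₁, c, C, h1, h2, h⟩ := gau_P31 d hd E hE k 0 q
    refine ⟨ε₁, c, C, h1, h2, gc_whp_mono h 0 fun n _ G _ hS ℓ' hℓ => ?_⟩
    obtain rfl : ℓ' = 0 := by omega
    exact hS
  | succ ℓ ih =>
    obtain ⟨ε, c, C, h1, h2, h⟩ := ih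
    obtain ⟨ε', c', C', h1', h2', h'⟩ := gau_P31 d hd E hE k (ℓ + 1) q
    refine ⟨min ε ε', min c c', max (max C C') 0, lt_min h1 h1', lt_min h2 h2',
      gc_whp_mono (i2_whp_and h h') 1 fun n hn G _ hS ℓ' hℓ => ?_⟩
    rcases Nat.lt_or_ge ℓ' (ℓ + 1) with hl | hl
    · exact i2_ev_mono hn (min_le_left _ _) (min_le_left _ _) ((le_max_left _ _).trans (le_max_left _ _)) (le_max_right _ _)
        (hS.1 ℓ' (by omega))
    · obtain rfl : ℓ' = ℓ + 1 := by omega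
      exact i2_ev_mono hn (min_le_right _ _) (min_le_right _ _) ((le_max_right _ _).trans (le_max_left _ _)) (le_max_right _ _) hS.2

/-! ### the eigenvectors of the band -/

theorem i2_AU {n : ℕ} (G : SimpleGraph (Fin n)) :
    s4A G * rsU (s4_herm G) = rsU (s4_herm G) * diagonal (s4_herm G).eigenvalues := by
  calc s4A G * rsU (s4_herm G)
      = (rsU (s4_herm G) * diagonal (s4_herm G).eigenvalues * (rsU (s4_herm G))ᵀ) * rsU (s4_herm G) :=
        congrArg (· * rsU (s4_herm G)) (rs_spectral (s4_herm G))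
    _ = rsU (s4_herm G) * diagonal (s4_herm G).eigenvalues * ((rsU (s4_herm G))ᵀ * rsU (s4_herm G)) := by rw [Matrix.mul_assoc]
    _ = _ := by rw [rs_T_mul_U, Matrix.mul_one]

/-- distinct columns of the eigenbasis with positions in the band form a `GauBand` -/
theorem i2_band {n ℓ : ℕ} (hn : 1 ≤ n) (G : SimpleGraph (Fin n)) (E : ℝ) {ε0 ε₁ : ℝ} (hε : ε0 ≤ ε₁) (i : Fin ℓ → Fin n)
    (hi : Function.Injective i) (hpos : ∀ r, |s4Pos G E (i r)| ≤ (n : ℝ) ^ (2 * ε0)) :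
    GauBand G E ((n : ℝ) ^ (-1 + 2 * ε₁)) (fun v j => s4Vec G (i j) v) (fun j => (s4_herm G).eigenvalues (i j)) where
  eig := fun j => by
    funext x
    have h := congrFun (congrFun (i2_AU G) x) (i j)
    rw [Matrix.mul_apply, Matrix.mul_diagonal] at h
    show ∑ y, s4A G x y * (Real.sqrt n * rsU (s4_herm G) y (i j))
      = (s4_herm G).eigenvalues (i j) * (Real.sqrt n * rsU (s4_herm G) x (i j))
    calc ∑ y, s4A G x y * (Real.sqrt n * rsU (s4_herm G) y (i j))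
        = Real.sqrt n * ∑ y, s4A G x y * rsU (s4_herm G) y (i j) := by
          rw [Finset.mul_sum]
          exact Finset.sum_congr rfl fun y _ => by ring
      _ = _ := by rw [h]; ring
  orth := fun j j' => by
    have h := congrFun (congrFun (rs_T_mul_U (s4_herm G)) (i j)) (i j')
    rw [Matrix.mul_apply] at h
    have hs : Real.sqrt n * Real.sqrt n = (n : ℝ) := Real.mul_self_sqrt (Nat.cast_nonneg n)
    calc ∑ v, s4Vec G (i j) v * s4Vec G (i j') v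
        = (Real.sqrt n * Real.sqrt n) * ∑ v, (rsU (s4_herm G))ᵀ (i j) v * rsU (s4_herm G) v (i j') := by
          rw [Finset.mul_sum]
          refine Finset.sum_congr rfl fun v _ => ?_
          unfold s4Vec
          rw [Matrix.transpose_apply]
          ring
      _ = (n : ℝ) * (1 : Matrix (Fin n) (Fin n) ℝ) (i j) (i j') := by rw [h, hs]
      _ = _ := by
          rw [Matrix.one_apply]
          by_cases hj : j = j'
          · rw [if_pos hj, if_pos (congrArg i hj), mul_one]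
          · rw [if_neg hj, if_neg (fun h => hj (hi h)), mul_zero]
  band := fun j => by
    have hn0 : (0 : ℝ) < n := by exact_mod_cast hn
    have hn1 : (1 : ℝ) ≤ n := by exact_mod_cast hn
    have h := hpos j
    unfold s4Pos at h
    rw [abs_mul, abs_of_pos hn0] at h
    calc |(s4_herm G).eigenvalues (i j) - E| ≤ (n : ℝ) ^ (2 * ε0) / n := by
          rw [le_div_iff₀ hn0, mul_comm]
          exact h
      _ = (n : ℝ) ^ (2 * ε0 - 1) := (Real.rpow_sub_one hn0.ne' _).symm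
      _ ≤ (n : ℝ) ^ (-1 + 2 * ε₁) := Real.rpow_le_rpow_of_exponent_le hn1 (by linarith)

/-! ### the adapter -/

/-- one graph -/
theorem i2_mom {d : ℕ} {E : ℝ} {k ℓ q : ℕ} {ε0 ε₁ c C : ℝ} {n : ℕ} {G : Gr n} (hn : 1 ≤ n) (hε : ε0 ≤ ε₁)
    (hS : ∀ ℓ', ℓ' ≤ ℓ → I2Ev d E k ℓ' q ε₁ c C n G) : S4Mom d E k ℓ q G ((n : ℝ) ^ (2 * ε0)) (C * (n : ℝ) ^ (-c)) := by
  intro ℓ' hℓ i hi hpos q' hq' t
  exact hS ℓ' hℓ (fun v j => s4Vec G (i j) v) (fun j => (s4_herm G).eigenvalues (i j)) (i2_band hn G E hε i hi hpos) q' hq' t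

/-- **IMPORT I2 = P31** (the statement of `s4_import_I2`) -/
theorem s4_import_I2' (d : ℕ) (hd : 3 ≤ d) (E : ℝ) (hE : |E| < 2 * Real.sqrt ((d : ℝ) - 1)) : S4I2 d E := by
  intro k ℓ q
  obtain ⟨ε₁, c, C, h1, h2, h⟩ := i2_all d hd E hE k q ℓ
  refine ⟨ε₁, c, C, h1, h2, fun ε0 _ hε01 η hη => ?_⟩
  obtain ⟨N, hN⟩ := h η hη
  refine ⟨max N 1, fun n hn hne => ?_⟩
  have hn1 : 1 ≤ n := (le_max_right _ _).trans hn
  have h3 : 1 - η ≤ rgP n d (fun G => ∀ ℓ', ℓ' ≤ ℓ → I2Ev d E k ℓ' q ε₁ c C n G) := hN n ((le_max_left _ _).trans hn) hne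
  have h4 : rgP n d (fun G => ¬ S4Mom d E k ℓ q G ((n : ℝ) ^ (2 * ε0)) (C * (n : ℝ) ^ (-c)))
      ≤ rgP n d (fun G => ¬ ∀ ℓ', ℓ' ≤ ℓ → I2Ev d E k ℓ' q ε₁ c C n G) :=
    rg_P_mono fun G _ hG hS => hG (i2_mom hn1 hε01 hS)
  have h5 : rgP n d (fun G => ¬ ∀ ℓ', ℓ' ≤ ℓ → I2Ev d E k ℓ' q ε₁ c C n G)
      = 1 - rgP n d (fun G => ∀ ℓ', ℓ' ≤ ℓ → I2Ev d E k ℓ' q ε₁ c C n G) := rg_P_not hne _
  show rgP n d (fun G => ¬ S4Mom d E k ℓ q G ((n : ℝ) ^ (2 * ε0)) (C * (n : ℝ) ^ (-c))) ≤ η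
  linarith

/-! ## 2. import I1 = B1-lite: `s4_import_I1'` of `I1.lean` (helper274, proved from `b1_state`) -/

theorem s4_hyp (d : ℕ) (hd : 3 ≤ d) (E : ℝ) (hE : |E| < 2 * Real.sqrt ((d : ℝ) - 1)) : S4Hyp d E :=
  ⟨hd, hE, s4_import_I1' d hd E hE, s4_import_I2' d hd E hE⟩

/-! ## 3. X1 almost surely -/

/-- almost sure rigidity from the tails -/
theorem s4_reg_pos {d : ℕ} {E : ℝ} (H : S4Hyp d E) {U : Ultrafilter ℕ} {μ : Measure Conf} (hl : S4Lim d E U μ) :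
    ∃ χ : ℝ, 0 < χ ∧ ∀ᵐ x ∂μ, ∃ (C₀ : ℝ) (J₀ : ℕ), CReg (kestenMcKay d E) χ C₀ J₀ x := by
  obtain ⟨χ, hχ0, _, hX⟩ := s4_X1_pf H
  obtain ⟨C0, C, hC⟩ := hX 1
  refine ⟨χ, hχ0, ?_⟩
  rw [ae_iff]
  have hle : ∀ J : ℕ, μ {x | ¬ ∃ (C₀ : ℝ) (J₀ : ℕ), CReg (kestenMcKay d E) χ C₀ J₀ x}
      ≤ ENNReal.ofReal (C * (1 / ((J : ℝ) + 1))) := by
    intro J
    have h1 := hC U μ hl (J + 1) (by omega)
    have e : (((J + 1 : ℕ) : ℝ)) ^ (-(1 : ℝ)) = 1 / ((J : ℝ) + 1) := by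
      rw [Real.rpow_neg_one, one_div]; push_cast; rfl
    rw [e] at h1
    refine le_trans (measure_mono fun x hx => ?_) h1
    exact fun hc => hx ⟨C0, J + 1, hc⟩
  have ht : Tendsto (fun J : ℕ => ENNReal.ofReal (C * (1 / ((J : ℝ) + 1)))) atTop (𝓝 0) := by
    have h2 : Tendsto (fun J : ℕ => C * (1 / ((J : ℝ) + 1))) atTop (𝓝 (C * 0)) :=
      tendsto_one_div_add_atTop_nhds_zero_nat.const_mul C
    rw [mul_zero] at h2
    have := ENNReal.tendsto_ofReal h2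
    rwa [ENNReal.ofReal_zero] at this
  exact le_antisymm (ge_of_tendsto' ht hle) zero_le

/-! ## 4. the limit law `P` of the graph vector      (deputy D4 = helper14, `S4X.lean`) -/

/-! ### the kit of `S4X.lean` sec. A at `S = Fin b → SwSt k` with the PRODUCT topology (no local norm instance needed by the caller) -/

/-- the sup norm on lists of states (its topology is the product topology, by `rfl`) -/
@[reducible] def s4tNorm (k b : ℕ) : NormedAddCommGroup (Fin b → SwSt k) :=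
  letI := @Matrix.normedAddCommGroup (Ch k) (Ch k) ℂ _ _ _
  inferInstance

theorem s4t_proper (k b : ℕ) : @ProperSpace (Fin b → SwSt k) (s4tNorm k b).toPseudoMetricSpace :=
  letI := @Matrix.normedAddCommGroup (Ch k) (Ch k) ℂ _ _ _
  inferInstance

/-- the laws of the graph vector as probability measures -/
def s4tNu (d : ℕ) (E : ℝ) (k : ℕ) {b : ℕ} (z : Fin b → ℂ) (n : ℕ) : ProbabilityMeasure (Fin b → SwSt k) :=
  open Classical in
  if h : IsProbabilityMeasure (s4xLaw n d k (s4xX E k z)) then ⟨s4xLaw n d k (s4xX E k z), h⟩ else ⟨Measure.dirac 0, inferInstance⟩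

theorem s4t_nu_integral {d : ℕ} (hd : 0 < d) (E : ℝ) (k : ℕ) {b : ℕ} (z : Fin b → ℂ) {n : ℕ} (hne : (regularGraphs n d).Nonempty) (hn : 0 < n)
    (F : (Fin b → SwSt k) → ℝ) :
    ∫ s, F s ∂(s4tNu d E k z n : Measure (Fin b → SwSt k)) = s4E n d k fun G v w => F fun i => s4X G E v w (z i) := by
  have h := s4x_law_prob (k := k) hne hn hd (s4xX E k z)
  have e : s4tNu d E k z n = ⟨s4xLaw n d k (s4xX E k z), h⟩ := dif_pos h
  rw [e]
  exact s4x_law_integral _ F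

theorem s4t_ev {d : ℕ} {E : ℝ} {U : Ultrafilter ℕ} {μ : Measure Conf} (hl : S4Lim d E U μ) :
    ∀ᶠ n in (U : Filter ℕ), (regularGraphs n d).Nonempty ∧ 0 < n :=
  (Filter.eventually_of_mem hl.adm fun _ h => h).and (hl.top (eventually_gt_atTop 0))


/-- the test class of X2: bounded by `1`, continuous, `1`-Lipschitz for the entrywise distance `S4Close` -/
structure S4tBL {k b : ℕ} (Φ : (Fin b → SwSt k) → ℝ) : Prop where
  bdd : ∀ s, |Φ s| ≤ 1
  cont : Continuous Φ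
  lip : ∀ (s t : Fin b → SwSt k) (τ : ℝ), 0 ≤ τ → (∀ i, S4Close (s i) (t i) τ) → |Φ s - Φ t| ≤ τ

theorem s4t_BL_of {k b : ℕ} {Φ : (Fin b → SwSt k) → ℝ} (h : @S4xBL (Fin b → SwSt k) (s4tNorm k b) Φ) : S4tBL Φ := by
  letI := @Matrix.normedAddCommGroup (Ch k) (Ch k) ℂ _ _ _
  refine ⟨h.bdd, ?_, fun s t τ hτ hc => ?_⟩
  · have hL : LipschitzWith 1 Φ := LipschitzWith.of_dist_le_mul fun s t => by
      rw [Real.dist_eq, NNReal.coe_one, one_mul, dist_eq_norm]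
      exact h.lip s t
    exact hL.continuous
  · refine (h.lip s t).trans ?_
    rw [pi_norm_le_iff_of_nonneg hτ]
    intro i
    exact (s4x_close_iff hτ).1 (hc i)

theorem s4t_ul_together {k b : ℕ} (U : Ultrafilter ℕ) (ν Q : ℕ → ProbabilityMeasure (Fin b → SwSt k))
    (hc : ∀ ε : ℝ, 0 < ε → ∃ L0 : ℕ, ∀ L : ℕ, L0 ≤ L → ∀ Φ : (Fin b → SwSt k) → ℝ, S4tBL Φ →
      ∀ᶠ n in (U : Filter ℕ), |∫ s, Φ s ∂(ν n : Measure (Fin b → SwSt k)) - ∫ s, Φ s ∂(Q L : Measure (Fin b → SwSt k))| ≤ ε) :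
    ∃ P : ProbabilityMeasure (Fin b → SwSt k), Tendsto ν U (𝓝 P) ∧ Tendsto Q atTop (𝓝 P) :=
  @s4x_ul_together (Fin b → SwSt k) (s4tNorm k b) (s4t_proper k b) _ (s5StBorel k b) U ν Q fun ε hε => by
    obtain ⟨L0, h⟩ := hc ε hε
    exact ⟨L0, fun L hL Φ hΦ => h L hL Φ (s4t_BL_of hΦ)⟩

/-- the record of inputs of `S4XE.lean` (helper272) from the proved nodes -/
theorem s4t_in {d : ℕ} {E : ℝ} (H : S4Hyp d E) : S4xIn d E where
  win := fun k z hz τ η hτ hη => s4_window_pf H k z hz τ η hτ hη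
  gau := fun hl k L f => s4_gauss_pf H hl k L f
  x1 := s4_X1_pf H
  sw := fun k hk _ z hz => ⟨8 * (k : ℝ) ^ 2 * ((d : ℝ) + 1), fun n F hF => s4_switch E k hk z hz n F hF⟩

/-- **X2** := `s4x_X2` of helper272 (`S4XE.lean`, proved) -/
theorem s4_X2 {d : ℕ} {E : ℝ} (H : S4Hyp d E) {U : Ultrafilter ℕ} {μ : Measure Conf} (hl : S4Lim d E U μ)
    (k : ℕ) {b : ℕ} (z : Fin b → ℂ) (hz : ∀ i, 0 < (z i).im) : ∃ P : Measure (Fin b → SwSt k), S4P d E U μ k z P :=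
  s4x_X2 H (s4t_in H) hl k z hz

/-- **X4**: the trace bound in the limit, by the `P`-route of helper261 (`S4X4.lean`, proved): `s4_E1tr`, `s4_reg_pos`, `s4_X2` at `k = 0`, `b = 1` -/
theorem s4_X4 {d : ℕ} {E : ℝ} (H : S4Hyp d E) {U : Ultrafilter ℕ} {μ : Measure Conf} (hl : S4Lim d E U μ) (D : ℕ) :
    ∃ C u₀ : ℝ, ∀ e u : ℝ, u₀ ≤ u →
      μ {x | u ^ (-(3 / 5 : ℝ)) < ‖cS x ((e : ℂ) + (u : ℂ) * Complex.I) - ((Real.pi * kestenMcKay d E : ℝ) : ℂ) * Complex.I‖}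
        ≤ ENNReal.ofReal (C * u ^ (-(D : ℝ))) :=
  s4v_X4_at (s4_rho_pos d H.hd E H.hE) (fun D => s4_E1tr H D) (fun _ _ hl => s4_reg_pos H hl) (fun _ _ hl z hz => s4_X2 H hl 0 z hz) hl D

/-- **NODE X3a**: `P` is carried by the domain of regularity.      Symmetry: closed condition, true for every `X_n`.      `Im M > 0`: model side, `Im M_L ≥ w_min ∑_{|j| ≤ J} (A g_j)(A g_j)ᵀ`, second moments of `J⁻¹ ∑ g_j g_jᵀ - 1`; `{Im M ≥ c}` is closed. -/
theorem s4_X3a {d : ℕ} {E : ℝ} (H : S4Hyp d E) {U : Ultrafilter ℕ} {μ : Measure Conf} (hl : S4Lim d E U μ)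
    (k : ℕ) {b : ℕ} (z : Fin b → ℂ) (hz : ∀ i, 0 < (z i).im) {P : Measure (Fin b → SwSt k)} (hP : S4P d E U μ k z P) :
    ∀ᵐ s ∂P, ∀ i, swDom (s i) := by
  obtain ⟨χ, hχ, hae⟩ := s4_reg_pos H hl
  have := hl.prob
  have := hP.prob
  exact x3a_pf (s4_rho_pos d H.hd E H.hE) hχ (s5_f1_graph d H.hd E H.hE).2 hae k z hz hP.model

/-- (215) the transposition matrix is orthogonal -/
theorem s4t_swap_orth {k : ℕ} (hk : 2 ≤ k) : IsOrth (swapMat k hk) := by
  unfold IsOrth swapMat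
  rw [← PEquiv.toMatrix_symm, ← PEquiv.toMatrix_trans, ← Equiv.toPEquiv_symm, ← Equiv.toPEquiv_trans]
  simp

section X3b

attribute [local instance] Matrix.normedAddCommGroup Matrix.normedSpace

/-- (215) **X3b from X3a**: `s4_switch` + the mapping theorem `s4x_ul_map` along the ultrafilter -/
theorem s4t_X3b_aux {d : ℕ} {E : ℝ} (H : S4Hyp d E) {U : Ultrafilter ℕ} {μ : Measure Conf} (hl : S4Lim d E U μ)
    (k : ℕ) (hk : 2 ≤ k) {b : ℕ} (z : Fin b → ℂ) (hz : ∀ i, 0 < (z i).im) {P : Measure (Fin b → SwSt k)} (hP : S4P d E U μ k z P)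
    (hdom : ∀ᵐ s ∂P, ∀ i, swDom (s i))
    (Φ : (Fin b → SwSt k) →ᵇ ℝ) : ∫ s, Φ (fun i => swT (swapMat k hk) (s i)) ∂P = ∫ s, Φ s ∂P := by
  classical
  have hBor : @BorelSpace (Fin b → SwSt k)
      (inferInstance : NormedAddCommGroup (Fin b → SwSt k)).toSeminormedAddCommGroup.toPseudoMetricSpace.toUniformSpace.toTopologicalSpace _ :=
    s5StBorel k b
  have hprob := hP.prob
  have hO : IsOrth (swapMat k hk) := s4t_swap_orth hk
  have hd0 : 0 < d := by have := H.hd; omega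
  obtain ⟨ν, hν⟩ : ∃ ν : ℕ → ProbabilityMeasure (Fin b → SwSt k),
      ν = fun n => s4xMk (s4xLaw n d k fun G v w i => s4X G E v w (z i)) := ⟨_, rfl⟩
  obtain ⟨Pp, hPp⟩ : ∃ Pp : ProbabilityMeasure (Fin b → SwSt k), (Pp : Measure (Fin b → SwSt k)) = P := ⟨⟨P, hprob⟩, rfl⟩
  have hadm : ∀ᶠ n in (U : Filter ℕ), (regularGraphs n d).Nonempty := hl.adm
  have htop : ∀ᶠ n in (U : Filter ℕ), 0 < n := hl.top (Filter.eventually_gt_atTop 0)
  have hcoe : ∀ᶠ n in (U : Filter ℕ), ((ν n : ProbabilityMeasure (Fin b → SwSt k)) : Measure (Fin b → SwSt k))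
      = s4xLaw n d k fun G v w i => s4X G E v w (z i) := by
    filter_upwards [hadm, htop] with n h1 h2
    rw [hν]
    exact s4x_mk_coe _ (s4x_law_prob h1 h2 hd0 _)
  have hconv : Tendsto ν U (𝓝 Pp) := by
    rw [ProbabilityMeasure.tendsto_iff_forall_integral_tendsto]
    intro f
    rw [hPp]
    refine (hP.graph f).congr' ?_
    filter_upwards [hcoe] with n hn
    rw [hn, s4x_law_integral]
  have hV : IsOpen {v : Fin b → SwSt k | ∀ i, s5Dom (v i)} := by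
    have e : {v : Fin b → SwSt k | ∀ i, s5Dom (v i)} = ⋂ i, (fun v : Fin b → SwSt k => v i) ⁻¹' {s | s5Dom s} := by
      ext v; simp
    rw [e]
    exact isOpen_iInter_of_finite fun i => s5_isOpen_dom.preimage (continuous_apply i)
  have hPV : ∀ᵐ s ∂(Pp : Measure (Fin b → SwSt k)), s ∈ {v : Fin b → SwSt k | ∀ i, s5Dom (v i)} := by
    rw [hPp]
    filter_upwards [hdom] with v hv i using s5_dom_of_swDom (hv i)
  have hm : Measurable fun s : Fin b → SwSt k => Φ (fun i => swT (swapMat k hk) (s i)) :=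
    Φ.continuous.measurable.comp (measurable_pi_lambda _ fun i => (s5_swT_measurable _).comp (measurable_pi_apply i))
  have hb : ∀ s : Fin b → SwSt k, |Φ (fun i => swT (swapMat k hk) (s i))| ≤ ‖Φ‖ := fun s => Φ.norm_coe_le_norm _
  have hc : ContinuousOn (fun s : Fin b → SwSt k => Φ (fun i => swT (swapMat k hk) (s i))) {v | ∀ i, s5Dom (v i)} :=
    Φ.continuous.comp_continuousOn (continuousOn_pi.mpr fun i =>
      (s5_swT_continuousOn hO).comp (continuous_apply i).continuousOn fun v hv => hv i)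
  have h1 := s4x_ul_map hconv hV hPV hm hb hc
  have h2 := (ProbabilityMeasure.tendsto_iff_forall_integral_tendsto.1 hconv) Φ
  rw [hPp] at h1 h2
  obtain ⟨c, hcdef⟩ : ∃ c : ℝ, c = ‖Φ‖ + 1 := ⟨_, rfl⟩
  have hc0 : 0 < c := by rw [hcdef]; have := norm_nonneg Φ; linarith
  have h3 : Tendsto (fun n => ∫ s, Φ (fun i => swT (swapMat k hk) (s i)) ∂(ν n : Measure (Fin b → SwSt k))
      - ∫ s, Φ s ∂(ν n : Measure (Fin b → SwSt k))) U (𝓝 0) := by
    have hlim : Tendsto (fun n : ℕ => c * (8 * (k : ℝ) ^ 2 * ((d : ℝ) + 1)) / n) U (𝓝 0) :=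
      (tendsto_const_div_atTop_nhds_zero_nat _).mono_left hl.top
    refine squeeze_zero_norm' ?_ hlim
    filter_upwards [hcoe] with n hn
    rw [hn, s4x_law_integral, s4x_law_integral, Real.norm_eq_abs]
    have hsw := s4_switch (d := d) E k hk z hz n (fun s => c⁻¹ * Φ s) (fun s => by
      rw [abs_mul, abs_of_pos (inv_pos.2 hc0), inv_mul_le_iff₀ hc0, mul_one, hcdef]
      have := Φ.norm_coe_le_norm s
      rw [Real.norm_eq_abs] at this
      linarith)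
    rw [s4x_E_smul, s4x_E_smul, ← mul_sub, abs_mul, abs_of_pos (inv_pos.2 hc0), inv_mul_le_iff₀ hc0] at hsw
    calc _ ≤ c * (8 * (k : ℝ) ^ 2 * ((d : ℝ) + 1) / n) := hsw
      _ = _ := by ring
  have h4 := tendsto_nhds_unique (h1.sub h2) h3
  linarith

end X3b

/-- **NODE X3b**: invariance under the transposition switch.      `s4_switch` + the mapping theorem for a bounded function which is continuous on an open set of full `P`-measure (`{det (1 + B M) ≠ 0} ⊇ swDom`; cut-off `min(1, m·dist(s, Vᶜ))`). -/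
theorem s4_X3b {d : ℕ} {E : ℝ} (H : S4Hyp d E) {U : Ultrafilter ℕ} {μ : Measure Conf} (hl : S4Lim d E U μ)
    (k : ℕ) (hk : 2 ≤ k) {b : ℕ} (z : Fin b → ℂ) (hz : ∀ i, 0 < (z i).im) {P : Measure (Fin b → SwSt k)} (hP : S4P d E U μ k z P)
    (Φ : (Fin b → SwSt k) →ᵇ ℝ) : ∫ s, Φ (fun i => swT (swapMat k hk) (s i)) ∂P = ∫ s, Φ s ∂P := by
  exact s4t_X3b_aux H hl k hk z hz hP (s4_X3a H hl k z hz hP) Φ

/-! ## 5. glue -/

/-- **`exit_gr`** from the first cut -/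
theorem s4_exit (d : ℕ) (hd : 3 ≤ d) (E : ℝ) (hE : |E| < 2 * Real.sqrt ((d : ℝ) - 1)) (U : Ultrafilter ℕ) (hU : (U : Filter ℕ) ≤ atTop)
    (hadm : {n : ℕ | (regularGraphs n d).Nonempty} ∈ U) :
    ∃ μ : Measure Conf, IsProbabilityMeasure μ ∧ LReg (kestenMcKay d E) (3 / 5) μ ∧ LSw (E / d) (1 / d) (mRe d E) μ ∧
      ∀ h : ℝ → ℝ, Continuous h → HasCompactSupport h → (∀ t, 0 ≤ h t) →
        Tendsto (fun n => regularLaplace n d E h) U (𝓝 (cLap μ fun t => h (kestenMcKay d E * t))) := by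
  have H := s4_hyp d hd E hE
  obtain ⟨μ, hl⟩ := s4_lim_exists (s4_rho_pos d hd E hE) U hU hadm (fun j ε hε => s4_tight_pf H j ε hε)
    (fun R ε hε => s4_locfin_pf H R ε hε)
  refine ⟨μ, hl.prob, ⟨s4_reg_pos H hl, hl.lab, fun D => ?_⟩, ?_, hl.lap⟩
  · exact s4_X4 H hl D
  · intro k hk b z hz
    obtain ⟨P, hP⟩ := s4_X2 H hl k z hz
    exact ⟨P, hP.prob, hP.model, s4_X3a H hl k z hz hP, fun Φ => s4_X3b H hl k hk z hz hP Φ⟩

end

end Claimed.Agent.R287
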