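-- KEEP
import Claimed.Agent.R287.Defs
import Claimed.Agent.R287.S5
import Claimed.Agent.R287.B2
import Claimed.Agent.R287.S4Top
import Claimed.Agent.R287.Goe

/-!
# Row 287 (S0534): THE HUB      (helper102)

`r7_main` = the frozen statement, PROVED from four exits on limit laws along an ULTRAFILTER `U ≤ atTop` (no subsequences, no metrizability):

* `exit_gr`   (unit S4, head helper289; below it: B1-lite, P1 Sec 3 = units B1, ENT, GAU): the local eigenvalue process of the random regular graph has a limit law `μ` along `U`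
              with (R) at `ξ = 3/5` (P1 Prop 4.1 with `r` averaged blocks), (Sw) transposition invariance of the Gaussian marked model, and convergence of the Laplace functionals;
* `exit_s5`   (unit S5, head helper287 = P1 Sec 5): (R) + (Sw) ⟹ (I);
* `exit_goe`  (unit GOE): the same for GOE: limit law with (R), (I), Laplace functionals;
* `exit_uniq` (unit B2, head helper275 = B2-soft): (R) with `ξ > 1/2` and (I) determine the law.
-/

set_option autoImplicit false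
open MeasureTheory ProbabilityTheory Matrix Filter Topology Claims.C0462

namespace Claimed.Agent.R287

theorem km_pos (d : ℕ) (hd : 3 ≤ d) (E : ℝ) (hE : |E| < 2 * Real.sqrt ((d : ℝ) - 1)) : 0 < kestenMcKay d E := by
  have hd3 : (3 : ℝ) ≤ d := by exact_mod_cast hd
  have h1 : E ^ 2 < 4 * ((d : ℝ) - 1) := by
    have h0 : (0 : ℝ) ≤ (d : ℝ) - 1 := by linarith
    have := pow_lt_pow_left₀ hE (abs_nonneg E) two_ne_zero
    rw [sq_abs, mul_pow, Real.sq_sqrt h0] at this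
    linarith
  have h2 : 0 < (d : ℝ) ^ 2 - E ^ 2 := by nlinarith
  unfold kestenMcKay
  have h3 : 0 < Real.sqrt (4 * ((d : ℝ) - 1) - E ^ 2) := Real.sqrt_pos.2 (by linarith)
  have : 0 < Real.pi := Real.pi_pos
  positivity

/-- **EXIT GR** -/
theorem exit_gr (d : ℕ) (hd : 3 ≤ d) (E : ℝ) (hE : |E| < 2 * Real.sqrt ((d : ℝ) - 1)) (U : Ultrafilter ℕ) (hU : (U : Filter ℕ) ≤ atTop)
    (hadm : {n : ℕ | (regularGraphs n d).Nonempty} ∈ U) :
    ∃ μ : Measure Conf, IsProbabilityMeasure μ ∧ LReg (kestenMcKay d E) (3 / 5) μ ∧ LSw (E / d) (1 / d) (mRe d E) μ ∧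
      ∀ h : ℝ → ℝ, Continuous h → HasCompactSupport h → (∀ t, 0 ≤ h t) →
        Tendsto (fun n => regularLaplace n d E h) U (𝓝 (cLap μ fun t => h (kestenMcKay d E * t))) :=
  s4_exit d hd E hE U hU hadm

/-- **EXIT S5** -/
theorem exit_s5 (d : ℕ) (hd : 3 ≤ d) (E : ℝ) (hE : |E| < 2 * Real.sqrt ((d : ℝ) - 1)) (ξ : ℝ) (hξ : 0 < ξ) (μ : Measure Conf) [IsProbabilityMeasure μ]
    (hR : LReg (kestenMcKay d E) ξ μ) (hS : LSw (E / d) (1 / d) (mRe d E) μ) : LStat μ :=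
  s5_exit d hd E hE (km_pos d hd E hE) ξ μ hR hS

/-- **EXIT GOE** -/
theorem exit_goe (ρ : ℝ) (hρ : 0 < ρ) (U : Ultrafilter ℕ) (hU : (U : Filter ℕ) ≤ atTop) :
    ∃ μ : Measure Conf, IsProbabilityMeasure μ ∧ LReg ρ (3 / 5) μ ∧ LStat μ ∧
      ∀ h : ℝ → ℝ, Continuous h → HasCompactSupport h → (∀ t, 0 ≤ h t) →
        Tendsto (fun n => goeLaplace n h) U (𝓝 (cLap μ fun t => h (ρ * t))) :=
  gx_exit ρ hρ U hU

/-- **EXIT UNIQ** (B2-soft) -/
theorem exit_uniq (ρ ξ : ℝ) (hρ : 0 < ρ) (hξ : 1 / 2 < ξ) (μ₁ μ₂ : Measure Conf) [IsProbabilityMeasure μ₁] [IsProbabilityMeasure μ₂]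
    (hR₁ : LReg ρ ξ μ₁) (hI₁ : LStat μ₁) (hR₂ : LReg ρ ξ μ₂) (hI₂ : LStat μ₂)
    (h : ℝ → ℝ) (hc : Continuous h) (hs : HasCompactSupport h) (hn : ∀ t, 0 ≤ h t) : cLap μ₁ h = cLap μ₂ h :=
  b2_uniq ρ ξ hρ hξ μ₁ μ₂ hR₁ hI₁ hR₂ hI₂ h hc hs hn

/-- **the frozen statement** -/
theorem r7_main (d : ℕ) (hd : 3 ≤ d) (E : ℝ)
    (hE : |E| < 2 * Real.sqrt ((d : ℝ) - 1)) (h : ℝ → ℝ) (hcont : Continuous h)
    (hsupp : HasCompactSupport h) (hnn : ∀ t, 0 ≤ h t) :
    ∀ ε : ℝ, 0 < ε → ∃ N : ℕ, ∀ n : ℕ, N ≤ n → (regularGraphs n d).Nonempty →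
      |regularLaplace n d E h - goeLaplace n h| < ε := by
  intro ε hε
  by_contra hcon
  push_neg at hcon
  set B : Set ℕ := {n | (regularGraphs n d).Nonempty ∧ ε ≤ |regularLaplace n d E h - goeLaplace n h|} with hB
  have hfr : ∃ᶠ n in atTop, n ∈ B := by
    rw [frequently_atTop]
    intro N
    obtain ⟨n, hn, h1, h2⟩ := hcon N
    exact ⟨n, hn, h1, h2⟩
  haveI : NeBot (atTop ⊓ 𝓟 B) := frequently_mem_iff_neBot.1 hfr
  set U : Ultrafilter ℕ := Ultrafilter.of (atTop ⊓ 𝓟 B)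
  have hUle : (U : Filter ℕ) ≤ atTop ⊓ 𝓟 B := Ultrafilter.of_le _
  have hU : (U : Filter ℕ) ≤ atTop := hUle.trans inf_le_left
  have hBU : B ∈ U := hUle (mem_inf_of_right (mem_principal_self B))
  have hadm : {n : ℕ | (regularGraphs n d).Nonempty} ∈ U := mem_of_superset hBU fun n hn => hn.1
  have hρ := km_pos d hd E hE
  obtain ⟨μ₁, hp₁, hR₁, hS₁, hL₁⟩ := exit_gr d hd E hE U hU hadm
  obtain ⟨μ₂, hp₂, hR₂, hI₂, hL₂⟩ := exit_goe (kestenMcKay d E) hρ U hU
  have hI₁ : LStat μ₁ := exit_s5 d hd E hE (3 / 5) (by norm_num) μ₁ hR₁ hS₁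
  set g : ℝ → ℝ := fun t => h (kestenMcKay d E * t) with hg
  have hgc : Continuous g := hcont.comp (continuous_const.mul continuous_id)
  have hgs : HasCompactSupport g := by
    have := hsupp.comp_homeomorph (Homeomorph.mulLeft₀ (kestenMcKay d E) hρ.ne')
    exact this
  have heq : cLap μ₁ g = cLap μ₂ g :=
    exit_uniq (kestenMcKay d E) (3 / 5) hρ (by norm_num) μ₁ μ₂ hR₁ hI₁ hR₂ hI₂ g hgc hgs fun t => hnn _
  have h1 := hL₁ h hcont hsupp hnn
  have h2 := hL₂ h hcont hsupp hnn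
  have h3 : Tendsto (fun n => regularLaplace n d E h - goeLaplace n h) U (𝓝 0) := by
    have := h1.sub h2
    rwa [← hg, heq, sub_self] at this
  have h4 : ∀ᶠ n in (U : Filter ℕ), |regularLaplace n d E h - goeLaplace n h| < ε := by
    have := (tendsto_order.1 h3.abs).2 ε (by simpa using hε)
    exact this
  obtain ⟨n, hn1, hn2⟩ := (h4.and hBU).exists
  exact absurd hn1 (not_lt.2 hn2.2)

end Claimed.Agent.R287
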