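-- KEEP
import Claimed.Agent.R287.Sw292

/-!
# Row 287 (S0534), BOX[SWITCH] part 2: counts of marked lists, error of the switch, strict event, `W B_O Wᵀ`      (owner helper292; prefix `sw7_`, types `Sw7*`; 0 sorry)

* sec. 6: `sw7_card_lists`, **`sw7_count_coord`** (one coordinate constrained by the others: fraction `≤ c / |S|`); `sw7Darts G`, `sw7Nb G x`, `sw7NbE G e`, `sw7Touch G A`, `Sw7Reg G d`;
  `sw7_card_darts` (`= n d`), `sw7_card_fst/snd`, `sw7_card_touch` (`≤ 2 |A| d`), `sw7_card_nbE` (`≤ 2 (d + 1)`).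
* sec. 7: `sw7Lists G ι`, `Sw7Bad G S0 p`, **`sw7_card_bad`**: `#bad * (n d) ≤ (2 k |S0| d + 4 k² d (d + 1)) (n d)^k`; **`sw7_ind_of_not_bad`**: a list of darts which is not bad is an induced matching.
* sec. 8: `sw7_sum_lists` (lists of darts = pairs `(v, w)`), **`sw7_card_adj`** (`= (n d)^k`), **`sw7_card_not_ind`** (`n * #{all Adj, not Ind} ≤ 4 k² (d + 1) (n d)^k`), `sw7_reg_of_mem`,
  **`sw7_exch_err`**: `n * ‖Σ_G Σ_{v w, all Adj} (F(switched) - F)‖ ≤ 8 k² (d + 1) (n d)^k #RG B` for `‖F‖ ≤ B` (values in any seminormed group).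
* sec. 9: `Sw7Str` (strict event of 284: the new pairs are non-edges), `Sw7Str.adm`, `Sw7Str.sw`, `sw7s_adj`; **`sw7_exch_adm`**, **`sw7_exch_str`** (after the switch: the event for `σ⁻¹`),
  **`sw7_exch_adm_invol`**, **`sw7_exch_str_invol`** (`σ⁻¹ = σ`), `sw7_sumComm_inv`, `sw7_swap_inv`.
* sec. 10: `sw7W v w : Matrix V (ι ⊕ ι) R`, `sw7O σ` (`O i j = [i = σ j]`, `sw7O_eq : = (permMatrix σ)ᵀ`), **`sw7W_comp`** (`W(v, w ∘ σ) = W(v, w) * fromBlocks 1 0 0 O`),
  **`sw7_adjMatrix_W`** (`A' = A + W * fromBlocks 0 (Oᵀ - 1) (O - 1) 0 * Wᵀ`).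
TRAP met here: a product of RECTANGULAR matrices whose factors have no type ascription may elaborate with the `HMul` instance of `CStarMatrix`, and then `Matrix.mul_apply` does not fire: ascribe the types of both factors.
-/

set_option autoImplicit false

namespace Claimed.Agent.R287

open Claims.C0462

/-! ## 6. counting marked lists -/

section Count

variable {α ι : Type} [Fintype ι] [DecidableEq ι]

theorem sw7_card_lists (S : Finset α) : (Fintype.piFinset fun _ : ι => S).card = S.card ^ Fintype.card ι := by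
  rw [Fintype.card_piFinset, Finset.prod_const, Finset.card_univ]

variable [DecidableEq α]

/-- **one coordinate is constrained by the others**: if `C p` does not depend on the coordinate `b` and has at most `c` elements, the lists with `p b ∈ C p` are a fraction `≤ c / |S|` of all lists -/
theorem sw7_count_coord (S : Finset α) (b : ι) (C : (ι → α) → Finset α) (hC : ∀ p s, C (Function.update p b s) = C p) (c : ℕ)
    (hc : ∀ p, (C p).card ≤ c) :
    ((Fintype.piFinset fun _ : ι => S).filter fun p => p b ∈ C p).card * S.card ≤ c * S.card ^ Fintype.card ι := by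
  have h1 : (((Fintype.piFinset fun _ : ι => S).filter fun p => p b ∈ C p) ×ˢ S).card ≤ ((Fintype.piFinset fun _ : ι => S).sigma C).card := by
    refine Finset.card_le_card_of_injOn (fun t => ⟨Function.update t.1 b t.2, t.1 b⟩) ?_ ?_
    · rintro ⟨p, s⟩ ht
      rw [Finset.mem_coe, Finset.mem_product, Finset.mem_filter, Fintype.mem_piFinset] at ht
      rw [Finset.mem_coe, Finset.mem_sigma, Fintype.mem_piFinset]
      refine ⟨fun i => ?_, by rw [hC]; exact ht.1.2⟩
      show Function.update p b s i ∈ S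
      by_cases hi : i = b
      · subst hi; simpa using ht.2
      · rw [Function.update_of_ne hi]; exact ht.1.1 i
    · rintro ⟨p, s⟩ _ ⟨p', s'⟩ _ heq
      simp only [Sigma.mk.injEq, heq_eq_eq] at heq
      obtain ⟨h1, h2⟩ := heq
      have hs : s = s' := by
        have := congrFun h1 b
        simpa using this
      have hp : p = p' := by
        funext i
        by_cases hi : i = b
        · subst hi; exact h2
        · have := congrFun h1 i
          rwa [Function.update_of_ne hi, Function.update_of_ne hi] at this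
      rw [hs, hp]
  rw [Finset.card_product, Finset.card_sigma] at h1
  refine h1.trans ?_
  calc ∑ q ∈ Fintype.piFinset fun _ : ι => S, (C q).card ≤ ∑ _q ∈ Fintype.piFinset fun _ : ι => S, c := Finset.sum_le_sum fun q _ => hc q
    _ = c * S.card ^ Fintype.card ι := by
        rw [Finset.sum_const, sw7_card_lists, smul_eq_mul, mul_comm]

end Count

section Darts

variable {V : Type} [Fintype V] (G : SimpleGraph V)

open Classical in
/-- the darts (oriented edges) -/
noncomputable def sw7Darts : Finset (V × V) := Finset.univ.filter fun e => G.Adj e.1 e.2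

open Classical in
/-- closed neighbourhood -/
noncomputable def sw7Nb (x : V) : Finset V := insert x (Finset.univ.filter fun y => G.Adj x y)

open Classical in
/-- the vertices within distance `1` of a dart -/
noncomputable def sw7NbE (e : V × V) : Finset V := sw7Nb G e.1 ∪ sw7Nb G e.2

open Classical in
/-- the darts with an endpoint in `A` -/
noncomputable def sw7Touch (A : Finset V) : Finset (V × V) := (sw7Darts G).filter fun e => e.1 ∈ A ∨ e.2 ∈ A

theorem sw7_count_eqns_cite : True := by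
  have := @sw7G.eq_1
  have := @sw7Darts.eq_1
  have := @sw7Nb.eq_1
  have := @sw7NbE.eq_1
  have := @sw7Touch.eq_1
  trivial

variable {G} {d : ℕ}

open Classical in
/-- `d`-regular, in the form used by the counts -/
def Sw7Reg (G : SimpleGraph V) (d : ℕ) : Prop := ∀ x, (Finset.univ.filter fun y => G.Adj x y).card = d

theorem sw7_mem_darts {e : V × V} : e ∈ sw7Darts G ↔ G.Adj e.1 e.2 := by
  classical
  simp [sw7Darts]

theorem sw7_mem_nb {x y : V} : y ∈ sw7Nb G x ↔ y = x ∨ G.Adj x y := by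
  classical
  simp [sw7Nb]

open Classical in
theorem sw7_card_fst (h : Sw7Reg G d) (A : Finset V) : ((sw7Darts G).filter fun e => e.1 ∈ A).card = A.card * d := by
  have e1 : ((sw7Darts G).filter fun e => e.1 ∈ A) = (A.sigma (fun x => Finset.univ.filter fun y => G.Adj x y)).map
      ⟨fun t => (t.1, t.2), fun a b hab => by cases a; cases b; simp_all⟩ := by
    ext ⟨x, y⟩
    simp only [Finset.mem_filter, sw7_mem_darts, Finset.mem_map, Finset.mem_sigma, Finset.mem_univ, true_and, Sigma.exists]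
    constructor
    · rintro ⟨h1, h2⟩
      exact ⟨x, y, ⟨h2, h1⟩, rfl⟩
    · rintro ⟨a, b, ⟨h1, h2⟩, hab⟩
      have ha : a = x := congrArg Prod.fst hab
      have hb : b = y := congrArg Prod.snd hab
      subst ha hb
      exact ⟨h2, h1⟩
  rw [e1, Finset.card_map, Finset.card_sigma, Finset.sum_congr rfl fun x _ => h x, Finset.sum_const, smul_eq_mul]

open Classical in
theorem sw7_card_snd (h : Sw7Reg G d) (A : Finset V) : ((sw7Darts G).filter fun e => e.2 ∈ A).card = A.card * d := by
  rw [← sw7_card_fst h A]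
  refine Finset.card_bij' (fun e _ => e.swap) (fun e _ => e.swap) ?_ ?_ ?_ ?_
  · rintro ⟨x, y⟩ he
    simp only [Finset.mem_filter, sw7_mem_darts, Prod.swap_prod_mk] at he ⊢
    exact ⟨he.1.symm, he.2⟩
  · rintro ⟨x, y⟩ he
    simp only [Finset.mem_filter, sw7_mem_darts, Prod.swap_prod_mk] at he ⊢
    exact ⟨he.1.symm, he.2⟩
  · intro e _; simp
  · intro e _; simp

theorem sw7_card_darts (h : Sw7Reg G d) : (sw7Darts G).card = Fintype.card V * d := by
  classical
  have := sw7_card_fst h Finset.univ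
  simpa using this

theorem sw7_card_touch (h : Sw7Reg G d) (A : Finset V) : (sw7Touch G A).card ≤ 2 * A.card * d := by
  classical
  unfold sw7Touch
  rw [Finset.filter_or]
  refine (Finset.card_union_le _ _).trans ?_
  have h1 := sw7_card_fst h A
  have h2 := sw7_card_snd h A
  have e1 : ((sw7Darts G).filter fun e => e.1 ∈ A).card = A.card * d := by convert h1
  have e2 : ((sw7Darts G).filter fun e => e.2 ∈ A).card = A.card * d := by convert h2
  rw [e1, e2]
  exact le_of_eq (by ring)

theorem sw7_card_nbE (h : Sw7Reg G d) (e : V × V) : (sw7NbE G e).card ≤ 2 * (d + 1) := by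
  classical
  have h1 : ∀ x, (sw7Nb G x).card ≤ d + 1 := fun x => by
    unfold sw7Nb
    refine (Finset.card_insert_le _ _).trans ?_
    have := h x
    have e1 : (Finset.univ.filter fun y => G.Adj x y).card = d := by convert this
    rw [e1]
  unfold sw7NbE
  refine (Finset.card_union_le _ _).trans ?_
  have := h1 e.1
  have := h1 e.2
  omega

end Darts


/-! ## 7. bad lists -/

section Bad

variable {V ι : Type} [Fintype V] [Fintype ι]

open Classical in
/-- the lists of `ι` darts -/
noncomputable def sw7Lists (G : SimpleGraph V) (ι : Type) [Fintype ι] : Finset (ι → V × V) := Fintype.piFinset fun _ => sw7Darts G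

/-- a list of darts is BAD: a dart touches `S0`, or an endpoint of a dart is within distance `1` of another dart of the list -/
def Sw7Bad (G : SimpleGraph V) (S0 : Finset V) (p : ι → V × V) : Prop :=
  (∃ a, (p a).1 ∈ S0 ∨ (p a).2 ∈ S0) ∨ ∃ a b, a ≠ b ∧ ((p b).1 ∈ sw7NbE G (p a) ∨ (p b).2 ∈ sw7NbE G (p a))

theorem sw7_bad_eqns_cite : True := by
  have := @sw7Lists.eq_1
  have := @Sw7Bad.eq_1
  have := @Sw7Reg.eq_1
  trivial

variable {G : SimpleGraph V} {d : ℕ}

theorem sw7_mem_lists {p : ι → V × V} : p ∈ sw7Lists G ι ↔ ∀ a, G.Adj (p a).1 (p a).2 := by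
  classical
  unfold sw7Lists
  rw [Fintype.mem_piFinset]
  exact forall_congr' fun a => sw7_mem_darts

theorem sw7_card_lists' (h : Sw7Reg G d) : (sw7Lists G ι).card = (Fintype.card V * d) ^ Fintype.card ι := by
  classical
  unfold sw7Lists
  rw [sw7_card_lists, sw7_card_darts h]

theorem sw7_mem_touch {A : Finset V} {e : V × V} : e ∈ sw7Touch G A ↔ G.Adj e.1 e.2 ∧ (e.1 ∈ A ∨ e.2 ∈ A) := by
  classical
  unfold sw7Touch
  rw [Finset.mem_filter, sw7_mem_darts]

open Classical in
/-- **the bad lists are a fraction `O(k |S0| / n + k² d / n)` of all lists** (form (4) of 284) -/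
theorem sw7_card_bad (h : Sw7Reg G d) (S0 : Finset V) :
    ((sw7Lists G ι).filter fun p => Sw7Bad G S0 p).card * (Fintype.card V * d)
      ≤ (2 * Fintype.card ι * S0.card * d + 4 * Fintype.card ι ^ 2 * d * (d + 1)) * (Fintype.card V * d) ^ Fintype.card ι := by
  have hN : (sw7Darts G).card = Fintype.card V * d := sw7_card_darts h
  have h1 : ∀ a : ι, ((sw7Lists G ι).filter fun p => p a ∈ sw7Touch G S0).card * (Fintype.card V * d)
      ≤ (2 * S0.card * d) * (Fintype.card V * d) ^ Fintype.card ι := by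
    intro a
    have := sw7_count_coord (sw7Darts G) a (fun _ => sw7Touch G S0) (fun _ _ => rfl) _ (fun _ => sw7_card_touch h S0)
    rw [hN] at this
    exact this
  have h2 : ∀ t : ι × ι, t ∈ (Finset.univ : Finset ι).offDiag →
      ((sw7Lists G ι).filter fun p => p t.2 ∈ sw7Touch G (sw7NbE G (p t.1))).card * (Fintype.card V * d)
      ≤ (4 * d * (d + 1)) * (Fintype.card V * d) ^ Fintype.card ι := by
    rintro ⟨a, b⟩ hab
    have hab' : a ≠ b := (Finset.mem_offDiag.1 hab).2.2
    have := sw7_count_coord (sw7Darts G) b (fun p => sw7Touch G (sw7NbE G (p a)))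
      (fun p s => by simp only [Function.update_of_ne hab']) (4 * d * (d + 1)) (fun p => by
        refine (sw7_card_touch h _).trans ?_
        have := sw7_card_nbE h (p a)
        calc 2 * (sw7NbE G (p a)).card * d ≤ 2 * (2 * (d + 1)) * d := by gcongr
          _ = 4 * d * (d + 1) := by ring)
    rw [hN] at this
    exact this
  have hsub : ((sw7Lists G ι).filter fun p => Sw7Bad G S0 p)
      ⊆ ((Finset.univ : Finset ι).biUnion fun a => (sw7Lists G ι).filter fun p => p a ∈ sw7Touch G S0)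
        ∪ ((Finset.univ : Finset ι).offDiag.biUnion fun t => (sw7Lists G ι).filter fun p => p t.2 ∈ sw7Touch G (sw7NbE G (p t.1))) := by
    intro p hp
    rw [Finset.mem_filter] at hp
    obtain ⟨hL, hB⟩ := hp
    have hadj := sw7_mem_lists.1 hL
    rw [Finset.mem_union, Finset.mem_biUnion, Finset.mem_biUnion]
    rcases hB with ⟨a, ha⟩ | ⟨a, b, hab, hb⟩
    · exact Or.inl ⟨a, Finset.mem_univ _, Finset.mem_filter.2 ⟨hL, sw7_mem_touch.2 ⟨hadj a, ha⟩⟩⟩
    · exact Or.inr ⟨(a, b), Finset.mem_offDiag.2 ⟨Finset.mem_univ _, Finset.mem_univ _, hab⟩, Finset.mem_filter.2 ⟨hL, sw7_mem_touch.2 ⟨hadj b, hb⟩⟩⟩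
  have hcard := (Finset.card_le_card hsub).trans ((Finset.card_union_le _ _).trans (add_le_add Finset.card_biUnion_le Finset.card_biUnion_le))
  calc ((sw7Lists G ι).filter fun p => Sw7Bad G S0 p).card * (Fintype.card V * d)
      ≤ (∑ a : ι, ((sw7Lists G ι).filter fun p => p a ∈ sw7Touch G S0).card
          + ∑ t ∈ (Finset.univ : Finset ι).offDiag, ((sw7Lists G ι).filter fun p => p t.2 ∈ sw7Touch G (sw7NbE G (p t.1))).card) * (Fintype.card V * d) :=
        Nat.mul_le_mul_right _ hcard
    _ = ∑ a : ι, ((sw7Lists G ι).filter fun p => p a ∈ sw7Touch G S0).card * (Fintype.card V * d)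
          + ∑ t ∈ (Finset.univ : Finset ι).offDiag, ((sw7Lists G ι).filter fun p => p t.2 ∈ sw7Touch G (sw7NbE G (p t.1))).card * (Fintype.card V * d) := by
        rw [add_mul, Finset.sum_mul, Finset.sum_mul]
    _ ≤ ∑ _a : ι, (2 * S0.card * d) * (Fintype.card V * d) ^ Fintype.card ι
          + ∑ _t ∈ (Finset.univ : Finset ι).offDiag, (4 * d * (d + 1)) * (Fintype.card V * d) ^ Fintype.card ι :=
        add_le_add (Finset.sum_le_sum fun a _ => h1 a) (Finset.sum_le_sum h2)
    _ ≤ (2 * Fintype.card ι * S0.card * d + 4 * Fintype.card ι ^ 2 * d * (d + 1)) * (Fintype.card V * d) ^ Fintype.card ι := by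
        rw [Finset.sum_const, Finset.sum_const, Finset.card_univ, Finset.offDiag_card, Finset.card_univ, smul_eq_mul, smul_eq_mul, add_mul]
        refine add_le_add (le_of_eq (by ring)) ?_
        have : Fintype.card ι * Fintype.card ι - Fintype.card ι ≤ Fintype.card ι ^ 2 := by
          rw [sq]; exact Nat.sub_le _ _
        calc (Fintype.card ι * Fintype.card ι - Fintype.card ι) * (4 * d * (d + 1) * (Fintype.card V * d) ^ Fintype.card ι)
            ≤ Fintype.card ι ^ 2 * (4 * d * (d + 1) * (Fintype.card V * d) ^ Fintype.card ι) := Nat.mul_le_mul_right _ this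
          _ = _ := by ring

/-- a list of darts which is not bad is an induced matching -/
theorem sw7_ind_of_not_bad {S0 : Finset V} {p : ι → V × V} (hL : p ∈ sw7Lists G ι) (hB : ¬ Sw7Bad G S0 p) :
    Sw7Ind G (fun a => (p a).1) (fun a => (p a).2) := by
  classical
  have hadj := sw7_mem_lists.1 hL
  have key : ∀ a b, a ≠ b → (p b).1 ∉ sw7NbE G (p a) ∧ (p b).2 ∉ sw7NbE G (p a) := by
    intro a b hab
    constructor
    · intro hh; exact hB (Or.inr ⟨a, b, hab, Or.inl hh⟩)
    · intro hh; exact hB (Or.inr ⟨a, b, hab, Or.inr hh⟩)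
  have mem : ∀ (e : V × V) (y : V), y ∈ sw7NbE G e ↔ (y = e.1 ∨ G.Adj e.1 y) ∨ (y = e.2 ∨ G.Adj e.2 y) := by
    intro e y
    unfold sw7NbE
    rw [Finset.mem_union, sw7_mem_nb, sw7_mem_nb]
  -- the index of an endpoint
  have far : ∀ c c' : ι ⊕ ι, Sum.elim id id c ≠ Sum.elim id id c' →
      Sum.elim (fun a => (p a).1) (fun a => (p a).2) c' ≠ Sum.elim (fun a => (p a).1) (fun a => (p a).2) c
        ∧ ¬ G.Adj (Sum.elim (fun a => (p a).1) (fun a => (p a).2) c) (Sum.elim (fun a => (p a).1) (fun a => (p a).2) c') := by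
    rintro (i | i) (j | j) hij <;> simp only [Sum.elim_inl, Sum.elim_inr, id] at hij ⊢
    · have := (key i j hij).1
      rw [mem] at this
      tauto
    · have := (key i j hij).2
      rw [mem] at this
      tauto
    · have := (key i j hij).1
      rw [mem] at this
      tauto
    · have := (key i j hij).2
      rw [mem] at this
      tauto
  constructor
  · intro c c' hcc
    by_cases hi : Sum.elim id id c = Sum.elim id id c'
    · rcases c with i | i <;> rcases c' with j | j <;> simp only [Sum.elim_inl, Sum.elim_inr, id] at hi hcc <;> subst hi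
      · rfl
      · exact absurd hcc (hadj i).ne
      · exact absurd hcc.symm (hadj i).ne
      · rfl
    · exact absurd hcc.symm (far c c' hi).1
  · intro c c'
    constructor
    · intro hA
      by_cases hi : Sum.elim id id c = Sum.elim id id c'
      · rcases c with i | i <;> rcases c' with j | j <;> simp only [Sum.elim_inl, Sum.elim_inr, id] at hi hA <;> subst hi
        · exact absurd hA (G.irrefl)
        · rfl
        · rfl
        · exact absurd hA (G.irrefl)
      · exact absurd hA (far c c' hi).2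
    · rintro rfl
      rcases c with i | i
      · exact hadj i
      · exact (hadj i).symm

end Bad


/-! ## 8. the lists as pairs `(v, w)`; the error of the switch off the induced matchings (forms (3), (5) of 289) -/

section Pairs

variable {V ι : Type} [Fintype V] [Fintype ι] {G : SimpleGraph V} {d : ℕ}

open Classical in
/-- a sum over the lists of darts is a sum over the pairs `(v, w)` -/
theorem sw7_sum_lists [DecidableEq ι] {M : Type} [AddCommMonoid M] (G : SimpleGraph V) (f : (ι → V) → (ι → V) → M) :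
    ∑ v, ∑ w, (if ∀ i, G.Adj (v i) (w i) then f v w else 0) = ∑ p ∈ sw7Lists G ι, f (fun a => (p a).1) (fun a => (p a).2) := by
  rw [← Finset.sum_product', ← Finset.sum_filter]
  refine Finset.sum_nbij' (fun t a => (t.1 a, t.2 a)) (fun p => (fun a => (p a).1, fun a => (p a).2)) ?_ ?_ ?_ ?_ ?_
  · rintro ⟨v, w⟩ ht
    rw [Finset.mem_filter] at ht
    exact sw7_mem_lists.2 ht.2
  · intro p hp
    rw [Finset.mem_filter]
    exact ⟨Finset.mem_product.2 ⟨Finset.mem_univ _, Finset.mem_univ _⟩, sw7_mem_lists.1 hp⟩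
  · rintro ⟨v, w⟩ _; rfl
  · intro p _; rfl
  · rintro ⟨v, w⟩ _; rfl

open Classical in
/-- form (3a) of 289 -/
theorem sw7_card_adj [DecidableEq ι] (h : Sw7Reg G d) :
    (Finset.univ.filter fun t : (ι → V) × (ι → V) => ∀ i, G.Adj (t.1 i) (t.2 i)).card = (Fintype.card V * d) ^ Fintype.card ι := by
  rw [← sw7_card_lists' (ι := ι) h, Finset.card_eq_sum_ones, Finset.card_eq_sum_ones, ← sw7_sum_lists G fun _ _ => 1, Finset.sum_filter,
    ← Finset.univ_product_univ, Finset.sum_product]

open Classical in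
/-- the lists of darts which are not induced matchings -/
theorem sw7_card_not_ind' (h : Sw7Reg G d) :
    Fintype.card V * ((sw7Lists G ι).filter fun p => ¬ Sw7Ind G (fun a => (p a).1) (fun a => (p a).2)).card
      ≤ 4 * Fintype.card ι ^ 2 * (d + 1) * (Fintype.card V * d) ^ Fintype.card ι := by
  have hsub : ((sw7Lists G ι).filter fun p => ¬ Sw7Ind G (fun a => (p a).1) (fun a => (p a).2)) ⊆ (sw7Lists G ι).filter fun p => Sw7Bad G ∅ p := by
    intro p hp
    rw [Finset.mem_filter] at hp ⊢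
    exact ⟨hp.1, by
      by_contra hB
      exact hp.2 (sw7_ind_of_not_bad hp.1 hB)⟩
  have hb := sw7_card_bad (ι := ι) h ∅
  have hc := Finset.card_le_card hsub
  rcases Nat.eq_zero_or_pos d with rfl | hd
  · -- no darts
    have h0 : ((sw7Lists G ι).filter fun p => Sw7Bad G ∅ p) = ∅ := by
      rw [Finset.filter_eq_empty_iff]
      intro p hp hB
      have hadj := sw7_mem_lists.1 hp
      have hno : ∀ x y, ¬ G.Adj x y := by
        intro x y hxy
        have := h x
        rw [Finset.card_eq_zero, Finset.filter_eq_empty_iff] at this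
        exact this (Finset.mem_univ y) hxy
      rcases hB with ⟨a, _⟩ | ⟨a, _⟩
      · exact hno _ _ (hadj a)
      · exact hno _ _ (hadj a)
    rw [h0, Finset.card_empty, Nat.le_zero] at hc
    rw [hc]
    simp
  · refine Nat.le_of_mul_le_mul_right (c := d) ?_ hd
    calc Fintype.card V * ((sw7Lists G ι).filter fun p => ¬ Sw7Ind G (fun a => (p a).1) (fun a => (p a).2)).card * d
        ≤ Fintype.card V * ((sw7Lists G ι).filter fun p => Sw7Bad G ∅ p).card * d := by gcongr
      _ = ((sw7Lists G ι).filter fun p => Sw7Bad G ∅ p).card * (Fintype.card V * d) := by ring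
      _ ≤ _ := hb
      _ = _ := by rw [Finset.card_empty]; ring

open Classical in
/-- form (3b) of 289 (constant `4`) -/
theorem sw7_card_not_ind [DecidableEq ι] (h : Sw7Reg G d) :
    Fintype.card V * (Finset.univ.filter fun t : (ι → V) × (ι → V) => (∀ i, G.Adj (t.1 i) (t.2 i)) ∧ ¬ Sw7Ind G t.1 t.2).card
      ≤ 4 * Fintype.card ι ^ 2 * (d + 1) * (Fintype.card V * d) ^ Fintype.card ι := by
  refine le_trans (le_of_eq ?_) (sw7_card_not_ind' (ι := ι) h)
  congr 1
  rw [Finset.card_eq_sum_ones, Finset.card_eq_sum_ones, Finset.sum_filter, Finset.sum_filter, ← sw7_sum_lists G fun v w => if ¬ Sw7Ind G v w then 1 else 0,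
    ← Finset.univ_product_univ, Finset.sum_product]
  refine Finset.sum_congr rfl fun v _ => Finset.sum_congr rfl fun w _ => ?_
  by_cases h1 : ∀ i, G.Adj (v i) (w i)
  · simp [h1]
  · simp [h1]

omit [Fintype V] [Fintype ι] in
theorem Sw7Ind.all_adj {v w : ι → V} (h : Sw7Ind G v w) (i : ι) : G.Adj (v i) (w i) := (h.adj (Sum.inl i) (Sum.inr i)).2 rfl

end Pairs


section Err

variable {n d : ℕ} {ι : Type} [Fintype ι]

theorem sw7_reg_of_mem {G : SimpleGraph (Fin n)} (hG : G ∈ regularGraphs n d) : Sw7Reg G d := by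
  classical
  intro x
  have := sw7_mem_reg.1 hG x
  rw [Finset.sum_boole] at this
  have e : ((Finset.univ.filter fun y => G.Adj x y).card : ℤ) = d := by convert this
  exact_mod_cast e

open Classical in
/-- **the switch on ALL lists of darts, up to an error `O(k² d / n)`** (form (5) of 289; the switch is junk off the induced matchings).
Unnormalised: divide by `n * (n d)^k * #regularGraphs`. -/
theorem sw7_exch_err [DecidableEq ι] {E : Type} [SeminormedAddCommGroup E] (σ : Equiv.Perm ι) (F : SimpleGraph (Fin n) → (ι → Fin n) → (ι → Fin n) → E) (B : ℝ)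
    (hB : 0 ≤ B) (hF : ∀ G v w, ‖F G v w‖ ≤ B) :
    (n : ℝ) * ‖∑ G ∈ regularGraphs n d, ∑ v, ∑ w, (if ∀ i, G.Adj (v i) (w i) then F (sw7G G v w σ) v (w ∘ σ) - F G v w else 0)‖
      ≤ 8 * (Fintype.card ι : ℝ) ^ 2 * (d + 1) * ((n : ℝ) * d) ^ Fintype.card ι * (regularGraphs n d).card * B := by
  have split : ∀ (G : SimpleGraph (Fin n)) (v w : ι → Fin n), (if ∀ i, G.Adj (v i) (w i) then F (sw7G G v w σ) v (w ∘ σ) - F G v w else 0)
      = ((if Sw7Ind G v w then F (sw7G G v w σ) v (w ∘ σ) else 0) - (if Sw7Ind G v w then F G v w else 0))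
        + (if (∀ i, G.Adj (v i) (w i)) ∧ ¬ Sw7Ind G v w then F (sw7G G v w σ) v (w ∘ σ) - F G v w else 0) := by
    intro G v w
    by_cases h1 : Sw7Ind G v w
    · have h2 : ∀ i, G.Adj (v i) (w i) := h1.all_adj
      simp [h1, h2]
    · by_cases h2 : ∀ i, G.Adj (v i) (w i)
      · simp [h1, h2]
      · simp [h1, h2]
  simp only [split, Finset.sum_add_distrib, Finset.sum_sub_distrib]
  rw [sw7_exch_ind σ F, sub_self, zero_add]
  have hG : ∀ G ∈ regularGraphs n d, (n : ℝ) * ‖∑ v, ∑ w, (if (∀ i, G.Adj (v i) (w i)) ∧ ¬ Sw7Ind G v w then F (sw7G G v w σ) v (w ∘ σ) - F G v w else 0)‖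
      ≤ 8 * (Fintype.card ι : ℝ) ^ 2 * (d + 1) * ((n : ℝ) * d) ^ Fintype.card ι * B := by
    intro G hG
    have hc := sw7_card_not_ind (ι := ι) (sw7_reg_of_mem hG)
    rw [Fintype.card_fin] at hc
    have hc' : (n : ℝ) * ((Finset.univ.filter fun t : (ι → Fin n) × (ι → Fin n) => (∀ i, G.Adj (t.1 i) (t.2 i)) ∧ ¬ Sw7Ind G t.1 t.2).card : ℝ)
        ≤ 4 * (Fintype.card ι : ℝ) ^ 2 * (d + 1) * ((n : ℝ) * d) ^ Fintype.card ι := by exact_mod_cast hc
    have hn : ‖∑ v, ∑ w, (if (∀ i, G.Adj (v i) (w i)) ∧ ¬ Sw7Ind G v w then F (sw7G G v w σ) v (w ∘ σ) - F G v w else 0)‖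
        ≤ ((Finset.univ.filter fun t : (ι → Fin n) × (ι → Fin n) => (∀ i, G.Adj (t.1 i) (t.2 i)) ∧ ¬ Sw7Ind G t.1 t.2).card : ℝ) * (2 * B) := by
      rw [← Finset.sum_product', Finset.univ_product_univ, ← Finset.sum_filter]
      refine (norm_sum_le _ _).trans ?_
      rw [← nsmul_eq_mul]
      refine Finset.sum_le_card_nsmul _ _ _ fun t _ => ?_
      refine (norm_sub_le _ _).trans ?_
      have := hF (sw7G G t.1 t.2 σ) t.1 (t.2 ∘ σ)
      have := hF G t.1 t.2
      linarith
    calc (n : ℝ) * ‖∑ v, ∑ w, (if (∀ i, G.Adj (v i) (w i)) ∧ ¬ Sw7Ind G v w then F (sw7G G v w σ) v (w ∘ σ) - F G v w else 0)‖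
        ≤ (n : ℝ) * (((Finset.univ.filter fun t : (ι → Fin n) × (ι → Fin n) => (∀ i, G.Adj (t.1 i) (t.2 i)) ∧ ¬ Sw7Ind G t.1 t.2).card : ℝ) * (2 * B)) := by gcongr
      _ = ((n : ℝ) * ((Finset.univ.filter fun t : (ι → Fin n) × (ι → Fin n) => (∀ i, G.Adj (t.1 i) (t.2 i)) ∧ ¬ Sw7Ind G t.1 t.2).card : ℝ)) * (2 * B) := by ring
      _ ≤ (4 * (Fintype.card ι : ℝ) ^ 2 * (d + 1) * ((n : ℝ) * d) ^ Fintype.card ι) * (2 * B) := by gcongr
      _ = _ := by ring
  calc (n : ℝ) * ‖∑ G ∈ regularGraphs n d, ∑ v, ∑ w, (if (∀ i, G.Adj (v i) (w i)) ∧ ¬ Sw7Ind G v w then F (sw7G G v w σ) v (w ∘ σ) - F G v w else 0)‖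
      ≤ (n : ℝ) * ∑ G ∈ regularGraphs n d, ‖∑ v, ∑ w, (if (∀ i, G.Adj (v i) (w i)) ∧ ¬ Sw7Ind G v w then F (sw7G G v w σ) v (w ∘ σ) - F G v w else 0)‖ := by
        gcongr
        exact norm_sum_le _ _
    _ = ∑ G ∈ regularGraphs n d, (n : ℝ) * ‖∑ v, ∑ w, (if (∀ i, G.Adj (v i) (w i)) ∧ ¬ Sw7Ind G v w then F (sw7G G v w σ) v (w ∘ σ) - F G v w else 0)‖ := by
        rw [Finset.mul_sum]
    _ ≤ ∑ _G ∈ regularGraphs n d, 8 * (Fintype.card ι : ℝ) ^ 2 * (d + 1) * ((n : ℝ) * d) ^ Fintype.card ι * B := Finset.sum_le_sum hG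
    _ = _ := by rw [Finset.sum_const, nsmul_eq_mul]; ring

end Err


/-! ## 9. exchangeability on `Sw7Adm` and on the strict event (forms of 284) -/

section Str

variable {V ι : Type}

/-- the STRICT event of 284: the marked pairs are distinct edges, the new pairs are distinct NON-edges (and no loops) -/
structure Sw7Str (G : SimpleGraph V) (v w : ι → V) (σ : Equiv.Perm ι) : Prop where
  adj : ∀ i, G.Adj (v i) (w i)
  inj : Function.Injective fun i => s(v i, w i)
  inj' : Function.Injective fun i => s(v i, w (σ i))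
  ne : ∀ i, v i ≠ w (σ i)
  nadj : ∀ i, ¬ G.Adj (v i) (w (σ i))

variable {G : SimpleGraph V} {v w : ι → V} {σ : Equiv.Perm ι}

theorem Sw7Str.adm (h : Sw7Str G v w σ) : Sw7Adm G v w σ where
  adj := h.adj
  inj := h.inj
  inj' := h.inj'
  ne := h.ne
  old := fun i hi => absurd hi (h.nadj i)

/-- on the strict event: `G' = (G minus the marked pairs) plus the new pairs` -/
theorem sw7s_adj (h : Sw7Str G v w σ) (x y : V) :
    (sw7G G v w σ).Adj x y ↔ (G.Adj x y ∧ ¬ ∃ i, s(v i, w i) = s(x, y)) ∨ ∃ i, s(v i, w (σ i)) = s(x, y) := sw7a_adj h.adm x y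

theorem Sw7Str.sw (h : Sw7Str G v w σ) : Sw7Str (sw7G G v w σ) v (w ∘ σ) σ⁻¹ where
  adj := h.adm.sw.adj
  inj := h.adm.sw.inj
  inj' := h.adm.sw.inj'
  ne := h.adm.sw.ne
  nadj := fun i hi => by
    simp only [Function.comp_apply, Equiv.Perm.inv_def, Equiv.apply_symm_apply] at hi
    rcases (sw7a_adj h.adm _ _).1 hi with ⟨_, h2⟩ | ⟨j, hj⟩
    · exact h2 ⟨i, rfl⟩
    · refine h.nadj j ?_
      rw [← SimpleGraph.mem_edgeSet, hj]
      exact h.adj i

end Str

section RegStr

variable {n d : ℕ} {ι : Type} [Fintype ι]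

open Classical in
/-- **EXCHANGEABILITY on `Sw7Adm`**: the event after the switch is the admissibility of the reversed instruction -/
theorem sw7_exch_adm [DecidableEq ι] {M : Type} [AddCommMonoid M] (σ : Equiv.Perm ι) (F : SimpleGraph (Fin n) → (ι → Fin n) → (ι → Fin n) → M) :
    ∑ G ∈ regularGraphs n d, ∑ v, ∑ w, (if Sw7Adm G v w σ then F (sw7G G v w σ) v (w ∘ σ) else 0)
      = ∑ G ∈ regularGraphs n d, ∑ v, ∑ w, if Sw7Adm G v w σ⁻¹ then F G v w else 0 :=
  sw7_exch σ (fun G v w => Sw7Adm G v w σ) (fun G v w => Sw7Adm G v w σ⁻¹) (fun _ _ _ h => ⟨h, h.sw⟩)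
    (fun _ _ _ h => ⟨h, by have := h.sw; rwa [inv_inv] at this⟩) F

open Classical in
/-- **EXCHANGEABILITY on the strict event** -/
theorem sw7_exch_str [DecidableEq ι] {M : Type} [AddCommMonoid M] (σ : Equiv.Perm ι) (F : SimpleGraph (Fin n) → (ι → Fin n) → (ι → Fin n) → M) :
    ∑ G ∈ regularGraphs n d, ∑ v, ∑ w, (if Sw7Str G v w σ then F (sw7G G v w σ) v (w ∘ σ) else 0)
      = ∑ G ∈ regularGraphs n d, ∑ v, ∑ w, if Sw7Str G v w σ⁻¹ then F G v w else 0 :=
  sw7_exch σ (fun G v w => Sw7Str G v w σ) (fun G v w => Sw7Str G v w σ⁻¹) (fun _ _ _ h => ⟨h.adm, h.sw⟩)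
    (fun _ _ _ h => ⟨h.adm, by have := h.sw; rwa [inv_inv] at this⟩) F

open Classical in
/-- form (2d) of 284: `σ` an involution, event `Sw7Adm` -/
theorem sw7_exch_adm_invol [DecidableEq ι] {M : Type} [AddCommMonoid M] (σ : Equiv.Perm ι) (hσ : σ⁻¹ = σ) (F : SimpleGraph (Fin n) → (ι → Fin n) → (ι → Fin n) → M) :
    ∑ G ∈ regularGraphs n d, ∑ v, ∑ w, (if Sw7Adm G v w σ then F (sw7G G v w σ) v (w ∘ σ) else 0)
      = ∑ G ∈ regularGraphs n d, ∑ v, ∑ w, if Sw7Adm G v w σ then F G v w else 0 := by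
  have := sw7_exch_adm (d := d) σ F
  rwa [hσ] at this

open Classical in
/-- form (2d) of 284: `σ` an involution, strict event -/
theorem sw7_exch_str_invol [DecidableEq ι] {M : Type} [AddCommMonoid M] (σ : Equiv.Perm ι) (hσ : σ⁻¹ = σ) (F : SimpleGraph (Fin n) → (ι → Fin n) → (ι → Fin n) → M) :
    ∑ G ∈ regularGraphs n d, ∑ v, ∑ w, (if Sw7Str G v w σ then F (sw7G G v w σ) v (w ∘ σ) else 0)
      = ∑ G ∈ regularGraphs n d, ∑ v, ∑ w, if Sw7Str G v w σ then F G v w else 0 := by
  have := sw7_exch_str (d := d) σ F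
  rwa [hσ] at this

theorem sw7_sumComm_inv (κ : Type) : (Equiv.sumComm κ κ : Equiv.Perm (κ ⊕ κ))⁻¹ = Equiv.sumComm κ κ := by
  ext c
  cases c <;> rfl

theorem sw7_swap_inv {κ : Type} [DecidableEq κ] (a b : κ) : (Equiv.swap a b)⁻¹ = Equiv.swap a b := Equiv.swap_inv a b

end RegStr

/-! ## 10. the update as `W B_O Wᵀ` (form of 287; conventions of `R287/Defs`: `chB O = fromBlocks 0 (Oᵀ - 1) (O - 1) 0`, `chD O = fromBlocks 1 0 0 O`) -/

section WForm

open Matrix

variable {V ι R : Type}

open Classical in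
/-- the indicator matrix of the `2k` endpoints (`Sum.inl` = starting, `Sum.inr` = ending) -/
noncomputable def sw7W [Zero R] [One R] (v w : ι → V) : Matrix V (ι ⊕ ι) R := Matrix.of fun x c => if x = Sum.elim v w c then 1 else 0

open Classical in
/-- the matrix of the permutation: `O i j = [i = σ j]` -/
noncomputable def sw7O [Zero R] [One R] (σ : Equiv.Perm ι) : Matrix ι ι R := Matrix.of fun i j => if i = σ j then 1 else 0

theorem sw7_w_eqns_cite : True := by
  have := @sw7W.eq_1
  have := @sw7O.eq_1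
  trivial

open Classical in
theorem sw7W_inl [Zero R] [One R] (v w : ι → V) (x : V) (i : ι) : (sw7W v w : Matrix V (ι ⊕ ι) R) x (Sum.inl i) = if x = v i then 1 else 0 := rfl

open Classical in
theorem sw7W_inr [Zero R] [One R] (v w : ι → V) (x : V) (i : ι) : (sw7W v w : Matrix V (ι ⊕ ι) R) x (Sum.inr i) = if x = w i then 1 else 0 := rfl

open Classical in
theorem sw7O_apply [Zero R] [One R] (σ : Equiv.Perm ι) (i j : ι) : (sw7O σ : Matrix ι ι R) i j = if i = σ j then 1 else 0 := rfl

theorem sw7O_eq [DecidableEq ι] [Zero R] [One R] (σ : Equiv.Perm ι) : (sw7O σ : Matrix ι ι R) = (σ.permMatrix R)ᵀ := by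
  ext i j
  rw [Matrix.transpose_apply, Equiv.Perm.permMatrix, PEquiv.toMatrix_apply, sw7O_apply]
  simp only [Equiv.toPEquiv_apply, Option.mem_def, Option.some.injEq]
  by_cases hij : i = σ j
  · rw [if_pos hij, if_pos hij.symm]
  · rw [if_neg hij, if_neg fun e => hij e.symm]

variable [Fintype ι]

/-- the new lists: `W(v, w ∘ σ) = W(v, w) * diag(1, O)` -/
theorem sw7W_comp [NonAssocSemiring R] [DecidableEq ι] (v w : ι → V) (σ : Equiv.Perm ι) :
    (sw7W v (w ∘ σ) : Matrix V (ι ⊕ ι) R) = (sw7W v w : Matrix V (ι ⊕ ι) R) * (Matrix.fromBlocks 1 0 0 (sw7O σ) : Matrix (ι ⊕ ι) (ι ⊕ ι) R) := by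
  classical
  ext x c
  rw [Matrix.mul_apply, Fintype.sum_sum_type]
  rcases c with j | j
  · simp only [Matrix.fromBlocks_apply₁₁, Matrix.fromBlocks_apply₂₁, Matrix.zero_apply, mul_zero, Finset.sum_const_zero, add_zero, Matrix.one_apply, mul_ite, mul_one]
    rw [Finset.sum_ite_eq' Finset.univ j, if_pos (Finset.mem_univ _)]
    rfl
  · simp only [Matrix.fromBlocks_apply₁₂, Matrix.fromBlocks_apply₂₂, Matrix.zero_apply, mul_zero, Finset.sum_const_zero, zero_add, sw7O_apply, mul_ite, mul_one]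
    rw [Finset.sum_ite_eq' Finset.univ (σ j), if_pos (Finset.mem_univ _)]
    rfl

/-- **the update of the adjacency matrix is `W B_O Wᵀ`** -/
theorem sw7_adjMatrix_W [Ring R] [DecidableEq ι] {G : SimpleGraph V} [DecidableRel G.Adj] {v w : ι → V} {σ : Equiv.Perm ι}
    [DecidableRel (sw7G G v w σ).Adj] (h : Sw7Adm G v w σ) :
    (sw7G G v w σ).adjMatrix R = G.adjMatrix R
      + (sw7W v w : Matrix V (ι ⊕ ι) R) * (Matrix.fromBlocks 0 ((sw7O σ : Matrix ι ι R)ᵀ - 1) ((sw7O σ : Matrix ι ι R) - 1) 0 : Matrix (ι ⊕ ι) (ι ⊕ ι) R)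
        * (sw7W v w : Matrix V (ι ⊕ ι) R)ᵀ := by
  classical
  ext x y
  have h0 := sw7_entry (R := R) h x y
  have e1 : ∀ i, ∑ j, ((sw7O σ : Matrix ι ι R)ᵀ - 1) i j * (if y = w j then (1 : R) else 0) = (if y = w (σ i) then 1 else 0) - (if y = w i then 1 else 0) := by
    intro i
    simp only [Matrix.sub_apply, Matrix.transpose_apply, sw7O_apply, Matrix.one_apply, sub_mul, Finset.sum_sub_distrib, ite_mul, one_mul, zero_mul]
    rw [Finset.sum_ite_eq' Finset.univ (σ i), if_pos (Finset.mem_univ _), Finset.sum_ite_eq Finset.univ i, if_pos (Finset.mem_univ _)]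
  have e2 : ∀ j, ∑ i, (if x = w i then (1 : R) else 0) * ((sw7O σ : Matrix ι ι R) - 1) i j = (if x = w (σ j) then 1 else 0) - (if x = w j then 1 else 0) := by
    intro j
    simp only [Matrix.sub_apply, sw7O_apply, Matrix.one_apply, mul_sub, Finset.sum_sub_distrib, mul_ite, mul_one, mul_zero]
    rw [Finset.sum_ite_eq' Finset.univ (σ j), if_pos (Finset.mem_univ _), Finset.sum_ite_eq' Finset.univ j, if_pos (Finset.mem_univ _)]
  have hW : ((sw7W v w : Matrix V (ι ⊕ ι) R) * (Matrix.fromBlocks 0 ((sw7O σ : Matrix ι ι R)ᵀ - 1) ((sw7O σ : Matrix ι ι R) - 1) 0 : Matrix (ι ⊕ ι) (ι ⊕ ι) R)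
        * (sw7W v w : Matrix V (ι ⊕ ι) R)ᵀ) x y
      = ∑ i, (if x = v i then (1 : R) else 0) * ((if y = w (σ i) then 1 else 0) - (if y = w i then 1 else 0))
        + ∑ j, ((if x = w (σ j) then (1 : R) else 0) - (if x = w j then 1 else 0)) * (if y = v j then 1 else 0) := by
    rw [Matrix.mul_assoc, Matrix.mul_apply, Fintype.sum_sum_type]
    congr 1
    · refine Finset.sum_congr rfl fun i _ => ?_
      rw [sw7W_inl, Matrix.mul_apply, Fintype.sum_sum_type]
      simp only [Matrix.fromBlocks_apply₁₁, Matrix.fromBlocks_apply₁₂, Matrix.zero_apply, zero_mul, Finset.sum_const_zero, zero_add, Matrix.transpose_apply (sw7W v w), sw7W_inr]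
      rw [e1 i]
    · simp only [← e2, Finset.sum_mul]
      rw [Finset.sum_comm]
      refine Finset.sum_congr rfl fun i _ => ?_
      rw [sw7W_inr, Matrix.mul_apply, Fintype.sum_sum_type]
      simp only [Matrix.fromBlocks_apply₂₁, Matrix.fromBlocks_apply₂₂, Matrix.zero_apply, zero_mul, Finset.sum_const_zero, add_zero, Matrix.transpose_apply (sw7W v w), sw7W_inl]
      rw [Finset.mul_sum]
      exact Finset.sum_congr rfl fun j _ => (mul_assoc _ _ _).symm
  rw [SimpleGraph.adjMatrix_apply, Matrix.add_apply, SimpleGraph.adjMatrix_apply, hW]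
  have hl : (if (sw7G G v w σ).Adj x y then (1 : R) else 0) = @ite R ((sw7G G v w σ).Adj x y) (Classical.propDecidable _) 1 0 := by congr
  have hr : (if G.Adj x y then (1 : R) else 0) = @ite R (G.Adj x y) (Classical.propDecidable _) 1 0 := by congr
  rw [hl, hr, h0, sub_add, sub_eq_add_neg]
  congr 1
  rw [neg_sub, ← Finset.sum_sub_distrib, ← Finset.sum_add_distrib]
  refine Finset.sum_congr rfl fun i _ => ?_
  have hand : ∀ p q : Prop, (if p ∧ q then (1 : R) else 0) = (if p then 1 else 0) * (if q then 1 else 0) := by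
    intro p q
    by_cases hp : p <;> by_cases hq : q <;> simp [hp, hq]
  have hand' : ∀ p q : Prop, (if p ∧ q then (1 : R) else 0) = (if q then 1 else 0) * (if p then 1 else 0) := by
    intro p q
    by_cases hp : p <;> by_cases hq : q <;> simp [hp, hq]
  rw [hand (x = v i), hand (x = v i), hand' (y = v i), hand' (y = v i)]
  noncomm_ring

end WForm

end Claimed.Agent.R287
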