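-- KEEP
import Claimed.Agent.R287.U4P
import Claimed.Agent.R287.Defs.U3

/-!
# Row 287 (S0534), unit U3, sub-unit D7 (`u3t_cmp`, owner helper197): the analytic leaves which do not see the scale      (helper155; prefix `u3ca_`)

On a good pair the two error observables of `u4p_pair` are small PATHWISE when the truncation `A` of the long gaps grows with the scale.  For this one needs
* `u3ca_F_mod`  : a modulus of continuity of `u4F h M A` which does NOT depend on `A`  (the integrand differs from `1` only within `Th` of the `2M+1` points);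
* `u3ca_void`   : `u4pObs (u4TentL A) T x <= exp(-A/4)` when every `t` of `[-T, T]` has a point of `x` in `[t - 3A/4, t - A/4]`;
* `u3ca_crowd`  : `1 - u4pObs (u4TentC c Th) T x <= c 2 (Th+1)^2 #{i : |x_i| <= T + Th + 1}/(2T)`  (Markov in `t`, no pointwise count);
* `u3ca_err`    : the two together, a bound of `u4pErr`;
* `u3ca_pair`   : the whole deterministic comparison (label window `[a, b)`, `a` = least label with `x_a >= -T`, `b` = greatest label with `x_b <= T`; boundary terms of both data; bad gaps against `uwDis`), with an explicit bound;  what is left for `u3t_cmp` is the choice of the constants and `L` large.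
-/

set_option autoImplicit false
open MeasureTheory ProbabilityTheory Filter Topology

namespace Claimed.Agent.R287

/-! ## 1. The integral of a bounded function which is `<= 0` outside `[p, q]` -/

theorem u3ca_int_le {f : ℝ → ℝ} {a b p q ω : ℝ} (hab : a ≤ b) (hpq : p ≤ q) (hω : 0 ≤ ω)
    (hf : IntervalIntegrable f volume a b) (h1 : ∀ s, f s ≤ ω) (h2 : ∀ s, s < p → f s ≤ 0) (h3 : ∀ s, q < s → f s ≤ 0) :
    ∫ s in a..b, f s ≤ ω * (q - p) := by
  rw [intervalIntegral.integral_of_le hab]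
  have hg : IntegrableOn ((Set.Icc p q).indicator fun _ => ω) (Set.Ioc a b) volume :=
    (integrable_const ω).indicator measurableSet_Icc
  have hle : ∀ s, f s ≤ (Set.Icc p q).indicator (fun _ => ω) s := by
    intro s
    by_cases hs : s ∈ Set.Icc p q
    · rw [Set.indicator_of_mem hs]; exact h1 s
    · rw [Set.indicator_of_notMem hs]
      rw [Set.mem_Icc, not_and_or, not_le, not_le] at hs
      rcases hs with hs | hs
      · exact h2 s hs
      · exact h3 s hs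
  calc ∫ s in Set.Ioc a b, f s ≤ ∫ s in Set.Ioc a b, (Set.Icc p q).indicator (fun _ => ω) s :=
        setIntegral_mono hf.1 hg hle
    _ = ∫ _s in Set.Ioc a b ∩ Set.Icc p q, ω := by rw [setIntegral_indicator measurableSet_Icc]
    _ = volume.real (Set.Ioc a b ∩ Set.Icc p q) * ω := by rw [setIntegral_const, smul_eq_mul]
    _ ≤ volume.real (Set.Icc p q) * ω := by
        refine mul_le_mul_of_nonneg_right ?_ hω
        exact measureReal_mono Set.inter_subset_right (by simp)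
    _ = ω * (q - p) := by
        rw [Real.volume_real_Icc_of_le hpq, mul_comm]

/-! ## 2. The modulus of `u4F`, uniform in the truncation -/

theorem u3ca_F_mod {h : ℝ → ℝ} (hc : Continuous h) (hs : HasCompactSupport h) (hn : ∀ t, 0 ≤ h t) (M : ℕ)
    {ε' : ℝ} (hε : 0 < ε') :
    ∃ η : ℝ, 0 < η ∧ ∀ A : ℝ, 0 ≤ A → ∀ g g' : Fin (2 * M + 1) → ℝ, (∀ k, |g k - g' k| ≤ η) →
      |u4F h M A g - u4F h M A g'| ≤ ε' := by
  obtain ⟨Th, hTh0, hTh⟩ := u4_supp_radius hs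
  have huc : UniformContinuous h := hs.uniformContinuous_of_continuous hc
  rw [Metric.uniformContinuous_iff] at huc
  set n : ℝ := 2 * (M : ℝ) + 1 with hn'
  have hnpos : 0 < n := by positivity
  set ω : ℝ := ε' / (2 * n * (2 * Th + 2)) with hω
  have hωpos : 0 < ω := by positivity
  obtain ⟨δ, hδ, hh⟩ := huc ω hωpos
  refine ⟨min (δ / 2) (min 1 (ε' / 2)), lt_min (by positivity) (lt_min one_pos (by positivity)), fun A hA g g' hgg => ?_⟩
  have hc1 : ∀ a, |g a - g' a| < δ := fun a =>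
    lt_of_le_of_lt ((hgg a).trans (min_le_left _ _)) (by linarith)
  have hc2 : ∀ a, |g a - g' a| ≤ 1 := fun a => (hgg a).trans ((min_le_right _ _).trans (min_le_left _ _))
  have hc3 : ∀ a, |g a - g' a| ≤ ε' / 2 := fun a => (hgg a).trans ((min_le_right _ _).trans (min_le_right _ _))
  set e : (Fin (2 * M + 1) → ℝ) → ℝ → ℝ := fun g s => Real.exp (-∑ a, h (g a - s)) with he
  set d : Fin (2 * M + 1) → ℝ → ℝ := fun a s => |h (g a - s) - h (g' a - s)| with hd
  have hdc : ∀ a, Continuous (d a) := fun a =>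
    ((hc.comp (continuous_const.sub continuous_id)).sub (hc.comp (continuous_const.sub continuous_id))).abs
  have hpt : ∀ s, |e g s - e g' s| ≤ ∑ a, d a s := by
    intro s
    refine (u4_exp_lip (Finset.sum_nonneg fun a _ => hn _) (Finset.sum_nonneg fun a _ => hn _)).trans ?_
    rw [← Finset.sum_sub_distrib]
    exact Finset.abs_sum_le_sum_abs _ _
  have hd1 : ∀ a s, d a s ≤ ω := by
    intro a s
    have h1 : dist (g a - s) (g' a - s) < δ := by
      rw [Real.dist_eq]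
      have : g a - s - (g' a - s) = g a - g' a := by ring
      rw [this]
      exact hc1 a
    have := hh h1
    rw [Real.dist_eq] at this
    exact this.le
  have hd0 : ∀ a s, Th + 1 < |g a - s| → d a s ≤ 0 := by
    intro a s hs
    have h1 : h (g a - s) = 0 := hTh _ (by linarith)
    have h2 : h (g' a - s) = 0 := by
      apply hTh
      have e1 : g a - s = (g' a - s) + (g a - g' a) := by ring
      have e2 : |g a - s| ≤ |g' a - s| + |g a - g' a| := by rw [e1]; exact abs_add_le _ _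
      have := hc2 a
      linarith
    simp only [hd, h1, h2, sub_self, abs_zero, le_refl]
  set c : ℝ := max 0 (min (g (u4Nx M)) A) with hcdef
  set c' : ℝ := max 0 (min (g' (u4Nx M)) A) with hcdef'
  have hc0 : 0 ≤ c := (u4_clamp_mem _ hA).1
  have hi : ∀ (g : Fin (2 * M + 1) → ℝ) (a b : ℝ), IntervalIntegrable (e g) volume a b :=
    fun g a b => (u4_F_integrand_cont hc g).intervalIntegrable a b
  have hsplit : u4F h M A g - u4F h M A g' = (∫ s in (0 : ℝ)..c, (e g s - e g' s)) + ∫ s in c'..c, e g' s := by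
    unfold u4F
    rw [intervalIntegral.integral_sub (hi g _ _) (hi g' _ _),
      ← intervalIntegral.integral_add_adjacent_intervals (hi g' 0 c') (hi g' c' c)]
    ring
  have hda : ∀ a, ∫ s in (0 : ℝ)..c, d a s ≤ ω * (2 * Th + 2) := by
    intro a
    have := u3ca_int_le (f := d a) (a := 0) (b := c) (p := g a - (Th + 1)) (q := g a + (Th + 1)) (ω := ω) hc0 (by linarith)
      hωpos.le ((hdc a).intervalIntegrable _ _) (hd1 a)
      (fun s hs => hd0 a s (lt_abs.2 (Or.inl (by linarith))))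
      (fun s hs => hd0 a s (lt_abs.2 (Or.inr (by linarith))))
    refine this.trans (le_of_eq ?_)
    ring
  have hb1 : |∫ s in (0 : ℝ)..c, (e g s - e g' s)| ≤ n * (ω * (2 * Th + 2)) := by
    have k1 : |∫ s in (0 : ℝ)..c, (e g s - e g' s)| ≤ ∫ s in (0 : ℝ)..c, |e g s - e g' s| :=
      intervalIntegral.abs_integral_le_integral_abs hc0
    have k2 : ∫ s in (0 : ℝ)..c, |e g s - e g' s| ≤ ∫ s in (0 : ℝ)..c, ∑ a, d a s :=
      intervalIntegral.integral_mono_on hc0 ((hi g _ _).sub (hi g' _ _)).abs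
        ((continuous_finsetSum _ fun a _ => hdc a).intervalIntegrable _ _) fun s _ => hpt s
    have k3 : ∫ s in (0 : ℝ)..c, ∑ a, d a s = ∑ a, ∫ s in (0 : ℝ)..c, d a s :=
      intervalIntegral.integral_finsetSum fun a _ => (hdc a).intervalIntegrable _ _
    have k4 : ∑ a, ∫ s in (0 : ℝ)..c, d a s ≤ n * (ω * (2 * Th + 2)) := by
      refine (Finset.sum_le_sum fun a _ => hda a).trans (le_of_eq ?_)
      rw [Finset.sum_const, Finset.card_univ, Fintype.card_fin, nsmul_eq_mul]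
      push_cast
      rw [hn']
    linarith
  have hb2 : |∫ s in c'..c, e g' s| ≤ |g (u4Nx M) - g' (u4Nx M)| := by
    have := intervalIntegral.norm_integral_le_of_norm_le_const (a := c') (b := c) (C := 1)
      (f := fun s => e g' s) (fun s _ => by
        rw [Real.norm_eq_abs, abs_of_pos (Real.exp_pos _), Real.exp_le_one_iff, neg_nonpos]
        exact Finset.sum_nonneg fun _ _ => hn _)
    rw [Real.norm_eq_abs, one_mul] at this
    exact this.trans (u4_clamp_lip _ _ _)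
  have hb3 : n * (ω * (2 * Th + 2)) = ε' / 2 := by
    rw [hω]; field_simp
  rw [hsplit]
  have hb4 := hc3 (u4Nx M)
  calc _ ≤ |∫ s in (0 : ℝ)..c, (e g s - e g' s)| + |∫ s in c'..c, e g' s| := abs_add_le _ _
    _ ≤ ε' := by linarith

/-! ## 3. The void observable -/

theorem u3ca_obs_cont {K : ℕ} {H : ℝ → ℝ} (hH : Continuous H) (x : Win K → ℝ) :
    Continuous fun t : ℝ => Real.exp (-∑ i, H (x i - t)) :=
  Real.continuous_exp.comp (Continuous.neg (continuous_finsetSum _ fun _ _ => hH.comp (continuous_const.sub continuous_id)))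

theorem u3ca_void {K : ℕ} (x : Win K → ℝ) {A T : ℝ} (hT : 0 < T)
    (hpt : ∀ t, |t| ≤ T → ∃ i, t - 3 * A / 4 ≤ x i ∧ x i ≤ t - A / 4) :
    u4pObs (u4TentL A) T x ≤ Real.exp (-(A / 4)) := by
  unfold u4pObs
  have h1 : ∫ t in (-T)..T, Real.exp (-∑ i, u4TentL A (x i - t)) ≤ ∫ _t in (-T)..T, Real.exp (-(A / 4)) := by
    refine intervalIntegral.integral_mono_on (by linarith) ((u3ca_obs_cont (u4_tentL_cont A) x).intervalIntegrable _ _)
      intervalIntegrable_const fun t ht => ?_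
    obtain ⟨i, hi1, hi2⟩ := hpt t (abs_le.2 ht)
    rw [Real.exp_le_exp, neg_le_neg_iff]
    have k1 : u4TentL A (x i - t) ≤ ∑ j, u4TentL A (x j - t) :=
      Finset.single_le_sum (f := fun j => u4TentL A (x j - t)) (fun j _ => u4_tentL_nonneg _ _) (Finset.mem_univ i)
    have k2 : A / 4 ≤ u4TentL A (x i - t) := by
      unfold u4TentL
      refine le_trans ?_ (u4_tent_ge _ _)
      have : |x i - t - -(A / 2)| ≤ A / 4 := abs_le.2 ⟨by linarith, by linarith⟩
      linarith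
    linarith
  rw [intervalIntegral.integral_const, smul_eq_mul] at h1
  have h2 : (2 * T)⁻¹ * ((T - -T) * Real.exp (-(A / 4))) = Real.exp (-(A / 4)) := by
    field_simp
    ring
  calc _ ≤ (2 * T)⁻¹ * ((T - -T) * Real.exp (-(A / 4))) := mul_le_mul_of_nonneg_left h1 (by positivity)
    _ = _ := h2

/-! ## 4. The crowd observable -/

open Classical in
theorem u3ca_crowd {K : ℕ} (x : Win K → ℝ) {c Th T : ℝ} (hc : 0 ≤ c) (hTh : 0 ≤ Th) (hT : 0 < T) :
    1 - u4pObs (u4TentC c Th) T x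
      ≤ c * (2 * (Th + 1) ^ 2) * ((Finset.univ.filter fun i => |x i| ≤ T + Th + 1).card : ℝ) / (2 * T) := by
  unfold u4pObs
  have hTT : -T ≤ T := by linarith
  have iE := (u3ca_obs_cont (u4_tentC_cont c Th) x).intervalIntegrable (μ := volume) (-T) T
  have cS : ∀ i, Continuous fun t : ℝ => u4TentC c Th (x i - t) := fun i =>
    (u4_tentC_cont c Th).comp (continuous_const.sub continuous_id)
  have e1 : 1 - (2 * T)⁻¹ * ∫ t in (-T)..T, Real.exp (-∑ i, u4TentC c Th (x i - t))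
      = (2 * T)⁻¹ * ∫ t in (-T)..T, (1 - Real.exp (-∑ i, u4TentC c Th (x i - t))) := by
    rw [intervalIntegral.integral_sub intervalIntegrable_const iE, intervalIntegral.integral_const, smul_eq_mul]
    field_simp
    ring
  rw [e1]
  have k1 : ∫ t in (-T)..T, (1 - Real.exp (-∑ i, u4TentC c Th (x i - t))) ≤ ∫ t in (-T)..T, ∑ i, u4TentC c Th (x i - t) := by
    refine intervalIntegral.integral_mono_on hTT (intervalIntegrable_const.sub iE)
      ((continuous_finsetSum _ fun i _ => cS i).intervalIntegrable _ _) fun t _ => ?_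
    have := Real.add_one_le_exp (-∑ i, u4TentC c Th (x i - t))
    linarith
  have k2 : ∫ t in (-T)..T, ∑ i, u4TentC c Th (x i - t) = ∑ i, ∫ t in (-T)..T, u4TentC c Th (x i - t) :=
    intervalIntegral.integral_finsetSum fun i _ => (cS i).intervalIntegrable _ _
  have k3 : ∀ i, ∫ t in (-T)..T, u4TentC c Th (x i - t) ≤ if |x i| ≤ T + Th + 1 then c * (2 * (Th + 1) ^ 2) else 0 := by
    intro i
    split_ifs with hi
    · have := u3ca_int_le (f := fun t => u4TentC c Th (x i - t)) (a := -T) (b := T) (p := x i - (Th + 1)) (q := x i + (Th + 1))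
        (ω := c * (Th + 1)) hTT (by linarith) (by positivity) ((cS i).intervalIntegrable _ _)
        (fun s => by
          unfold u4TentC u4Tent
          refine mul_le_mul_of_nonneg_left (max_le (by linarith) ?_) hc
          have := abs_nonneg (x i - s)
          linarith)
        (fun s hs => le_of_eq (u4_tentC_zero (lt_abs.2 (Or.inl (by linarith)))))
        (fun s hs => le_of_eq (u4_tentC_zero (lt_abs.2 (Or.inr (by linarith)))))
      refine this.trans (le_of_eq ?_)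
      ring
    · refine le_of_eq ?_
      have : ∀ t ∈ Set.uIcc (-T) T, u4TentC c Th (x i - t) = 0 := by
        intro t ht
        rw [Set.uIcc_of_le hTT] at ht
        apply u4_tentC_zero
        rw [not_le] at hi
        have e2 : x i = (x i - t) + t := by ring
        have e3 : |x i| ≤ |x i - t| + |t| := by
          calc |x i| = |(x i - t) + t| := by rw [← e2]
            _ ≤ _ := abs_add_le _ _
        have e4 : |t| ≤ T := abs_le.2 ht
        linarith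
      rw [intervalIntegral.integral_congr this]
      simp
  have k4 : ∑ i, (if |x i| ≤ T + Th + 1 then c * (2 * (Th + 1) ^ 2) else 0)
      = c * (2 * (Th + 1) ^ 2) * ((Finset.univ.filter fun i => |x i| ≤ T + Th + 1).card : ℝ) := by
    rw [← Finset.sum_filter, Finset.sum_const, nsmul_eq_mul]
    ring
  have k5 : ∫ t in (-T)..T, (1 - Real.exp (-∑ i, u4TentC c Th (x i - t)))
      ≤ c * (2 * (Th + 1) ^ 2) * ((Finset.univ.filter fun i => |x i| ≤ T + Th + 1).card : ℝ) := by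
    rw [← k4]
    exact k1.trans (k2.le.trans (Finset.sum_le_sum fun i _ => k3 i))
  rw [div_eq_inv_mul]
  exact mul_le_mul_of_nonneg_left k5 (by positivity)

open Classical in
/-- the error observable of `u4p_pair`, PATHWISE -/
theorem u3ca_err {K : ℕ} (x : Win K → ℝ) {A c Th T : ℝ} (M : ℕ) (hc : 0 < c) (hTh : 0 ≤ Th) (hT : 0 < T)
    (hpt : ∀ t, |t| ≤ T → ∃ i, t - 3 * A / 4 ≤ x i ∧ x i ≤ t - A / 4) :
    u4pErr Th A c M T x ≤ Real.exp (-(A / 4))
      + u4Kap c M * (c * (2 * (Th + 1) ^ 2) * ((Finset.univ.filter fun i => |x i| ≤ T + Th + 1).card : ℝ) / (2 * T)) := by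
  unfold u4pErr
  exact add_le_add (u3ca_void x hT hpt) (mul_le_mul_of_nonneg_left (u3ca_crowd x hc.le hTh hT) (u4_kap_pos hc M).le)

/-! ## 5. Labels of the extension -/

theorem u3ca_ext_lt (W : ℝ) {K : ℕ} (x : Win K → ℝ) {j : ℤ} (h : j < -(K : ℤ)) : u4pExt W x j < -W := by
  rw [u4p_ext_left W x h]
  have h1 : (j : ℝ) + K < 0 := by
    have : (j : ℤ) + K < 0 := by omega
    exact_mod_cast this
  have h2 := min_le_right (x (u4pIdx K (-(K : ℤ)))) (-W)
  linarith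

theorem u3ca_ext_gt (W : ℝ) {K : ℕ} (x : Win K → ℝ) {j : ℤ} (h : (K : ℤ) < j) : W < u4pExt W x j := by
  rw [u4p_ext_right W x h]
  have h1 : 0 < (j : ℝ) - K := by
    have : (0 : ℤ) < j - K := by omega
    exact_mod_cast this
  have h2 := le_max_right (x (u4pIdx K K)) W
  linarith

theorem u3ca_wIdx_mem {K : ℕ} (i : Win K) : -(K : ℤ) ≤ wIdx i ∧ wIdx i ≤ K := by
  have := i.isLt
  unfold wIdx
  constructor <;> omega

theorem u3ca_idx_inj {K : ℕ} {j j' : ℤ} (h1 : -(K : ℤ) ≤ j) (h2 : j ≤ K) (h1' : -(K : ℤ) ≤ j') (h2' : j' ≤ K)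
    (h : u4pIdx K j = u4pIdx K j') : j = j' := by
  unfold u4pIdx at h
  rw [Fin.mk.injEq] at h
  omega

/-- counting labels of the extension by counting the data -/
theorem u3ca_card_le (W : ℝ) {K : ℕ} (x : Win K → ℝ) (S : Finset ℤ) {p q : ℝ}
    (hS : ∀ j ∈ S, -(K : ℤ) ≤ j ∧ j ≤ K ∧ p ≤ u4pExt W x j ∧ u4pExt W x j ≤ q) :
    S.card ≤ (Finset.univ.filter fun i => p ≤ x i ∧ x i ≤ q).card := by
  refine Finset.card_le_card_of_injOn (u4pIdx K) ?_ ?_
  · intro j hj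
    obtain ⟨h1, h2, h3, h4⟩ := hS j hj
    rw [u4p_ext_mid W x h1 h2] at h3 h4
    simp only [Finset.coe_filter, Finset.mem_univ, true_and, Set.mem_ofPred_eq]
    exact ⟨h3, h4⟩
  · intro j hj j' hj' h
    obtain ⟨h1, h2, _, _⟩ := hS j hj
    obtain ⟨h1', h2', _, _⟩ := hS j' hj'
    exact u3ca_idx_inj h1 h2 h1' h2' h

/-- the least label at or to the right of `-T` -/
theorem u3ca_first {W T : ℝ} (hTW : T ≤ W) {K : ℕ} (x : Win K → ℝ) (hex : ∃ i, -T ≤ x i) :
    ∃ a : ℤ, -(K : ℤ) ≤ a ∧ -T ≤ u4pExt W x a ∧ ∀ j, -T ≤ u4pExt W x j → a ≤ j := by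
  obtain ⟨i, hi⟩ := hex
  obtain ⟨a, ha1, ha2⟩ := Int.exists_least_of_bdd (P := fun j => -T ≤ u4pExt W x j)
    ⟨-(K : ℤ), fun z hz => by
      by_contra hcon
      have := u3ca_ext_lt W x (not_le.1 hcon)
      linarith⟩ ⟨wIdx i, by rw [u4p_ext_wIdx]; exact hi⟩
  refine ⟨a, ?_, ha1, ha2⟩
  by_contra hcon
  have := u3ca_ext_lt W x (not_le.1 hcon)
  linarith

/-- the greatest label at or to the left of `T` -/
theorem u3ca_last {W T : ℝ} (hTW : T ≤ W) {K : ℕ} (x : Win K → ℝ) (hex : ∃ i, x i ≤ T) :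
    ∃ b : ℤ, b ≤ (K : ℤ) ∧ u4pExt W x b ≤ T ∧ ∀ j, u4pExt W x j ≤ T → j ≤ b := by
  obtain ⟨i, hi⟩ := hex
  obtain ⟨b, hb1, hb2⟩ := Int.exists_greatest_of_bdd (P := fun j => u4pExt W x j ≤ T)
    ⟨(K : ℤ), fun z hz => by
      by_contra hcon
      have := u3ca_ext_gt W x (not_le.1 hcon)
      linarith⟩ ⟨wIdx i, by rw [u4p_ext_wIdx]; exact hi⟩
  refine ⟨b, ?_, hb1, hb2⟩
  by_contra hcon
  have := u3ca_ext_gt W x (not_le.1 hcon)
  linarith

/-- `k` steps to the left of a label cost at most `k (G + 1)` -/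
theorem u3ca_left {W R G : ℝ} {K : ℕ} {x : Win K → ℝ} (hx : Monotone x)
    (gap : ∀ p q : ℝ, -R ≤ p → q ≤ R → G ≤ q - p → ∃ i, p ≤ x i ∧ x i ≤ q) {a : ℤ} {s : ℝ} (ha : -(K : ℤ) ≤ a)
    (has : s ≤ u4pExt W x a) (k : ℕ) (hk : -R ≤ s - k * (G + 1)) (hs : s ≤ R) (hG : 0 ≤ G) :
    -(K : ℤ) ≤ a - k ∧ s - k * (G + 1) ≤ u4pExt W x (a - k) := by
  induction k with
  | zero => simpa using ⟨ha, has⟩
  | succ k ih =>
    have hk' : -R ≤ s - k * (G + 1) := by
      push_cast at hk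
      nlinarith
    obtain ⟨ih1, ih2⟩ := ih hk'
    have hk0 : (0 : ℝ) ≤ k := Nat.cast_nonneg k
    obtain ⟨i, hi1, hi2⟩ := gap (s - ((k + 1 : ℕ) : ℝ) * (G + 1)) (s - ((k + 1 : ℕ) : ℝ) * (G + 1) + G) hk
      (by push_cast; nlinarith) (by linarith)
    have hlt : u4pExt W x (wIdx i) < u4pExt W x (a - k) := by
      rw [u4p_ext_wIdx]
      push_cast at hi2
      linarith
    have hlab : wIdx i < a - k := by
      by_contra hcon
      exact absurd (u4p_ext_mono W hx (not_lt.1 hcon)) (not_le.2 hlt)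
    have hle : wIdx i ≤ a - ((k + 1 : ℕ) : ℤ) := by push_cast; omega
    refine ⟨(u3ca_wIdx_mem i).1.trans hle, ?_⟩
    have := u4p_ext_mono W hx hle
    rw [u4p_ext_wIdx] at this
    linarith

/-- `k` steps to the right of a label cost at most `k (G + 1)` -/
theorem u3ca_right {W R G : ℝ} {K : ℕ} {x : Win K → ℝ} (hx : Monotone x)
    (gap : ∀ p q : ℝ, -R ≤ p → q ≤ R → G ≤ q - p → ∃ i, p ≤ x i ∧ x i ≤ q) {b : ℤ} {s : ℝ} (hb : b ≤ (K : ℤ))
    (hbs : u4pExt W x b ≤ s) (k : ℕ) (hk : s + k * (G + 1) ≤ R) (hs : -R ≤ s) (hG : 0 ≤ G) :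
    b + k ≤ (K : ℤ) ∧ u4pExt W x (b + k) ≤ s + k * (G + 1) := by
  induction k with
  | zero => simpa using ⟨hb, hbs⟩
  | succ k ih =>
    have hk' : s + k * (G + 1) ≤ R := by
      push_cast at hk
      nlinarith
    obtain ⟨ih1, ih2⟩ := ih hk'
    have hk0 : (0 : ℝ) ≤ k := Nat.cast_nonneg k
    obtain ⟨i, hi1, hi2⟩ := gap (s + ((k + 1 : ℕ) : ℝ) * (G + 1) - G) (s + ((k + 1 : ℕ) : ℝ) * (G + 1))
      (by push_cast; nlinarith) hk (by linarith)
    have hlt : u4pExt W x (b + k) < u4pExt W x (wIdx i) := by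
      rw [u4p_ext_wIdx]
      push_cast at hi1
      linarith
    have hlab : b + k < wIdx i := by
      by_contra hcon
      exact absurd (u4p_ext_mono W hx (not_lt.1 hcon)) (not_le.2 hlt)
    have hle : b + ((k + 1 : ℕ) : ℤ) ≤ wIdx i := by push_cast; omega
    refine ⟨hle.trans (u3ca_wIdx_mem i).2, ?_⟩
    have := u4p_ext_mono W hx hle
    rw [u4p_ext_wIdx] at this
    linarith

/-! ## 6. Bad gaps against `uwDis` -/

open Classical in
/-- the summand of `uwDis` in integer labels -/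
noncomputable def u3caPhi (L : ℝ) (X Y : Conf) (l : ℤ) : ℝ :=
  if |X l| ≤ 3 * L / 4 ∧ |X (l + 1)| ≤ 3 * L / 4 then u4pD X Y l ^ 2 else 0

theorem u3ca_eqns_cite : True := by
  have := @u3caPhi.eq_1
  trivial

theorem u3ca_phi_nonneg (L : ℝ) (X Y : Conf) (l : ℤ) : 0 ≤ u3caPhi L X Y l := by
  unfold u3caPhi
  split_ifs
  · positivity
  · exact le_rfl

theorem u3ca_dis_eq (W L : ℝ) {K : ℕ} (x y : Dat K) :
    uwDis L x y = ∑ l ∈ Finset.Ico (-(K : ℤ)) K, u3caPhi L (u4pExt W x) (u4pExt W y) l := by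
  rw [u4p_sum_Ico]
  have e0 : ((K : ℤ) - -(K : ℤ)).toNat = 2 * K := by omega
  rw [e0, Finset.sum_range]
  unfold uwDis
  refine Finset.sum_congr rfl fun j _ => ?_
  have e1 : -(K : ℤ) + ((j : ℕ) : ℤ) = wIdx j.castSucc := by
    unfold wIdx
    simp only [Fin.val_castSucc]
    ring
  have e2 : -(K : ℤ) + ((j : ℕ) : ℤ) + 1 = wIdx j.succ := by
    unfold wIdx
    simp only [Fin.val_succ]
    push_cast
    ring
  unfold u3caPhi u4pD uwCore uwGapD
  rw [e2, e1, u4p_ext_wIdx, u4p_ext_wIdx, u4p_ext_wIdx, u4p_ext_wIdx]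
  by_cases hcore : |x j.castSucc| ≤ 3 * L / 4 ∧ |x j.succ| ≤ 3 * L / 4
  · rw [if_pos hcore, if_pos hcore]
    ring
  · rw [if_neg hcore, if_neg hcore]

theorem u3ca_bad_card (W L : ℝ) {K : ℕ} (x y : Dat K) {a b : ℤ} {m : ℕ} {η' : ℝ} (hη : 0 < η')
    (hwin : ∀ l, a - m ≤ l → l < b + m → -(K : ℤ) ≤ l ∧ l < K ∧ |u4pExt W x l| ≤ 3 * L / 4 ∧ |u4pExt W x (l + 1)| ≤ 3 * L / 4) :
    ((u4pBad (u4pExt W x) (u4pExt W y) a b m η').card : ℝ) ≤ uwDis L x y / η' ^ 2 := by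
  rw [le_div_iff₀ (by positivity), u3ca_dis_eq W L x y]
  set Bad := u4pBad (u4pExt W x) (u4pExt W y) a b m η' with hBad
  have hmem : ∀ l ∈ Bad, (a - m ≤ l ∧ l < b + m) ∧ η' < |u4pD (u4pExt W x) (u4pExt W y) l| := by
    intro l hl
    rw [hBad, u4pBad, Finset.mem_filter, Finset.mem_Ico] at hl
    exact hl
  have hsub : Bad ⊆ Finset.Ico (-(K : ℤ)) K := by
    intro l hl
    obtain ⟨⟨h1, h2⟩, _⟩ := hmem l hl
    obtain ⟨h3, h4, _, _⟩ := hwin l h1 h2
    exact Finset.mem_Ico.2 ⟨h3, h4⟩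
  calc (Bad.card : ℝ) * η' ^ 2 = ∑ _l ∈ Bad, η' ^ 2 := by rw [Finset.sum_const, nsmul_eq_mul]
    _ ≤ ∑ l ∈ Bad, u3caPhi L (u4pExt W x) (u4pExt W y) l := by
        refine Finset.sum_le_sum fun l hl => ?_
        obtain ⟨⟨h1, h2⟩, h5⟩ := hmem l hl
        obtain ⟨_, _, h3, h4⟩ := hwin l h1 h2
        unfold u3caPhi
        rw [if_pos ⟨h3, h4⟩, ← sq_abs (u4pD _ _ _)]
        exact pow_le_pow_left₀ hη.le h5.le 2
    _ ≤ _ := Finset.sum_le_sum_of_subset_of_nonneg hsub fun l _ _ => u3ca_phi_nonneg _ _ _ _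

/-! ## 7. Boundary terms -/

theorem u3ca_bd_x {X : Conf} (hX : Monotone X) {A T G : ℝ} {a b : ℤ} (ha1 : -T ≤ X a) (ha2 : X a ≤ -T + G)
    (hb1 : X b ≤ T) (hb2 : T - G ≤ X b) (hG : 0 ≤ G) : u4pBd A T X a b ≤ 2 * G := by
  unfold u4pBd
  have h0 : ((Finset.Ico a b).filter fun i => ¬(-T ≤ X i ∧ X (i + 1) ≤ T)) = ∅ := by
    rw [Finset.filter_eq_empty_iff]
    intro i hi
    rw [Finset.mem_Ico] at hi
    rw [not_not]
    exact ⟨ha1.trans (hX hi.1), (hX (by omega : i + 1 ≤ b)).trans hb1⟩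
  rw [h0, Finset.card_empty, Nat.cast_zero, mul_zero, zero_add]
  have h1 : max 0 (X a + T) ≤ G := max_le hG (by linarith)
  have h2 : max 0 (T - X b) ≤ G := max_le hG (by linarith)
  linarith

theorem u3ca_bd_y {X Y' : Conf} {A T G D n₁ n₂ : ℝ} {a b : ℤ} (hab : a ≤ b) (hA : 0 ≤ A) (ha2 : X a ≤ -T + G) (hb2 : T - G ≤ X b)
    (hG : 0 ≤ G) (hD : 0 ≤ D) (hal : ∀ i, a ≤ i → i ≤ b → |Y' i - X i| ≤ D)
    (hn₁ : (((Finset.Ico a b).filter fun i => X i ≤ -T + D).card : ℝ) ≤ n₁)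
    (hn₂ : (((Finset.Ico a b).filter fun i => T - D ≤ X (i + 1)).card : ℝ) ≤ n₂) :
    u4pBd A T Y' a b ≤ A * (n₁ + n₂) + 2 * (G + D) := by
  unfold u4pBd
  have hsub : ((Finset.Ico a b).filter fun i => ¬(-T ≤ Y' i ∧ Y' (i + 1) ≤ T))
      ⊆ ((Finset.Ico a b).filter fun i => X i ≤ -T + D) ∪ ((Finset.Ico a b).filter fun i => T - D ≤ X (i + 1)) := by
    intro i hi
    rw [Finset.mem_filter] at hi
    obtain ⟨hi1, hi2⟩ := hi
    have hi1' := Finset.mem_Ico.1 hi1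
    rw [Finset.mem_union, Finset.mem_filter, Finset.mem_filter]
    rw [not_and_or, not_le, not_le] at hi2
    rcases hi2 with h | h
    · left
      have := abs_le.1 (hal i hi1'.1 (by omega))
      exact ⟨hi1, by linarith [this.1]⟩
    · right
      have := abs_le.1 (hal (i + 1) (by omega) (by omega))
      exact ⟨hi1, by linarith [this.2]⟩
  have hcard : (((Finset.Ico a b).filter fun i => ¬(-T ≤ Y' i ∧ Y' (i + 1) ≤ T)).card : ℝ) ≤ n₁ + n₂ := by
    have h1 := (Finset.card_le_card hsub).trans (Finset.card_union_le _ _)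
    have h2 : (((Finset.Ico a b).filter fun i => ¬(-T ≤ Y' i ∧ Y' (i + 1) ≤ T)).card : ℝ)
        ≤ (((Finset.Ico a b).filter fun i => X i ≤ -T + D).card : ℝ) + (((Finset.Ico a b).filter fun i => T - D ≤ X (i + 1)).card : ℝ) := by
      exact_mod_cast h1
    linarith
  have ya := abs_le.1 (hal a le_rfl hab)
  have yb := abs_le.1 (hal b hab le_rfl)
  have h1 : max 0 (Y' a + T) ≤ G + D := max_le (by linarith) (by linarith [ya.2])
  have h2 : max 0 (T - Y' b) ≤ G + D := max_le (by linarith) (by linarith [yb.1])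
  have h3 := mul_le_mul_of_nonneg_left hcard hA
  linarith

/-! ## 8. The deterministic comparison -/

/-- **(P')** the comparison of `u4p_pair` with every term bounded PATHWISE: `A = 2 G`, `T = L/2`, label window `a` = least label with `x_a >= -T`, `b` = greatest label with `x_b <= T`.
OWNER helper155.  Plan: `u3ca_first`, `u3ca_last`, `u3ca_left`, `u3ca_right` (labels `[a - m, b + m]` are in the window and in `[-3L/4, 3L/4]`), `u3ca_bd_x`, `u3ca_bd_y` + `u3ca_card_le` + `cnt`, `u3ca_bad_card`, `u3ca_err`. -/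
theorem u3ca_pair {K : ℕ} {x y : Dat K} (hx : Monotone x) (hy : Monotone y) {L Y G C D : ℝ} (hL : 0 < L) (hY : 0 < Y) (hG : 0 < G)
    (hC : 0 ≤ C) (hD : 0 ≤ D)
    (cnt : ∀ z ∈ ({x, y} : Set (Dat K)), ∀ a b : ℝ, -(4 * L) ≤ a → b ≤ 4 * L → Y ≤ b - a →
      ((Finset.univ.filter fun i => a ≤ z i ∧ z i ≤ b).card : ℝ) ≤ C * (b - a))
    (gap : ∀ z ∈ ({x, y} : Set (Dat K)), ∀ a b : ℝ, -(3 * L) ≤ a → b ≤ 3 * L → G ≤ b - a → ∃ i, a ≤ z i ∧ z i ≤ b)
    (al : ∀ i, |x i| ≤ L → |y i - x i| ≤ D)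
    {h : ℝ → ℝ} (hc : Continuous h) {Th : ℝ} (hTh : 0 ≤ Th) (hT : ∀ u, Th < |u| → h u = 0) (hn : ∀ t, 0 ≤ h t)
    {m : ℕ} (hm : 1 ≤ m) {c : ℝ} (hc0 : 0 < c) {η ε' η' : ℝ} (hη0 : 0 < η') (hε : 0 ≤ ε') (hη' : (m : ℝ) * η' ≤ η)
    (hmod : ∀ g g' : Fin (2 * m + 1) → ℝ, (∀ k, |g k - g' k| ≤ η) → |u4F h m (2 * G) g - u4F h m (2 * G) g'| ≤ ε')
    (hsz : L / 2 + ((m : ℝ) + 1) * (G + 1) + D + Y + Th + 1 ≤ 3 * L / 4) :
    |b2Obs h (L / 2) x - b2Obs h (L / 2) y|
      ≤ 2 * Real.exp (-(G / 2)) + 2 * (u4Kap c m * (c * (2 * (Th + 1) ^ 2) * (C * (L + 2 * Th + 2)) / L))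
        + L⁻¹ * (4 * G + 2 * D + 2 * G * (2 * (C * (D + Y))) + C * L * ε' + 2 * (2 * G) * (2 * (m : ℝ)) * (uwDis L x y / η' ^ 2)) := by
  classical
  obtain ⟨T, hTd⟩ : ∃ T : ℝ, T = L / 2 := ⟨_, rfl⟩
  obtain ⟨A, hAd⟩ : ∃ A : ℝ, A = 2 * G := ⟨_, rfl⟩
  obtain ⟨W, hWd⟩ : ∃ W : ℝ, W = T + Th + 1 + A := ⟨_, rfl⟩
  rw [← hTd]
  rw [← hAd] at hmod
  have hT0 : 0 < T := by rw [hTd]; positivity
  have hA0 : 0 ≤ A := by rw [hAd]; positivity
  have hm1 : (1 : ℝ) ≤ m := by exact_mod_cast hm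
  have cx := cnt x (by simp)
  have cy := cnt y (by simp)
  have gx := gap x (by simp)
  have gy := gap y (by simp)
  have hTW : T ≤ W := by rw [hWd]; linarith
  have mx : Monotone (u4pExt W x) := u4p_ext_mono W hx
  have hs0 : ((m : ℝ) + 1) * (G + 1) = (m : ℝ) * (G + 1) + (G + 1) := by ring
  have hs1 : G + 1 ≤ (m : ℝ) * (G + 1) := by nlinarith
  obtain ⟨i0, hi01, hi02⟩ := gx (-T) (-T + G) (by linarith) (by linarith) (by linarith)
  obtain ⟨a, haK, ha1, ha3⟩ := u3ca_first hTW x ⟨i0, hi01⟩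
  have ha2 : u4pExt W x a ≤ -T + G := by
    have := mx (ha3 (wIdx i0) (by rw [u4p_ext_wIdx]; exact hi01))
    rw [u4p_ext_wIdx] at this
    linarith
  obtain ⟨i1, hi11, hi12⟩ := gx (T - G) T (by linarith) (by linarith) (by linarith)
  obtain ⟨b, hbK, hb1, hb3⟩ := u3ca_last hTW x ⟨i1, hi12⟩
  have hb2 : T - G ≤ u4pExt W x b := by
    have := mx (hb3 (wIdx i1) (by rw [u4p_ext_wIdx]; exact hi12))
    rw [u4p_ext_wIdx] at this
    linarith
  have hab : a ≤ b := hb3 a (by linarith)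
  obtain ⟨hl1, hl2⟩ := u3ca_left (W := W) (R := 3 * L) hx gx haK ha1 m (by linarith) (by linarith) hG.le
  obtain ⟨hr1, hr2⟩ := u3ca_right (W := W) (R := 3 * L) hx gx hbK hb1 m (by linarith) (by linarith) hG.le
  have hin : ∀ l : ℤ, a - m ≤ l → l ≤ b + m → -(K : ℤ) ≤ l ∧ l ≤ K ∧ |u4pExt W x l| ≤ 3 * L / 4 := by
    intro l h1 h2
    refine ⟨hl1.trans h1, h2.trans hr1, abs_le.2 ⟨?_, ?_⟩⟩
    · have := mx h1
      linarith
    · have := mx h2
      linarith
  have hal' : ∀ l : ℤ, a ≤ l → l ≤ b → |u4pExt W y l - u4pExt W x l| ≤ D := by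
    intro l h1 h2
    obtain ⟨k1, k2, k3⟩ := hin l (by omega) (by omega)
    rw [u4p_ext_mid W x k1 k2] at k3 ⊢
    rw [u4p_ext_mid W y k1 k2]
    exact al _ (k3.trans (by linarith))
  have bdx : u4pBd A T (u4pExt W x) a b ≤ 2 * G := u3ca_bd_x mx ha1 ha2 hb1 hb2 hG.le
  have hn1 : (((Finset.Ico a b).filter fun i => u4pExt W x i ≤ -T + D).card : ℝ) ≤ C * (D + Y) := by
    have k1 := u3ca_card_le W x ((Finset.Ico a b).filter fun i => u4pExt W x i ≤ -T + D) (p := -T) (q := -T + (D + Y))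
      (fun j hj => by
        rw [Finset.mem_filter, Finset.mem_Ico] at hj
        obtain ⟨q1, q2, _⟩ := hin j (by omega) (by omega)
        exact ⟨q1, q2, ha1.trans (mx hj.1.1), by linarith [hj.2]⟩)
    have k2 := cx (-T) (-T + (D + Y)) (by linarith) (by linarith) (by linarith)
    have k3 : (((Finset.Ico a b).filter fun i => u4pExt W x i ≤ -T + D).card : ℝ)
        ≤ ((Finset.univ.filter fun i => -T ≤ x i ∧ x i ≤ -T + (D + Y)).card : ℝ) := by exact_mod_cast k1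
    calc _ ≤ _ := k3
      _ ≤ C * (-T + (D + Y) - -T) := k2
      _ = _ := by ring
  have hn2 : (((Finset.Ico a b).filter fun i => T - D ≤ u4pExt W x (i + 1)).card : ℝ) ≤ C * (D + Y) := by
    have k0 : (((Finset.Ico a b).filter fun i => T - D ≤ u4pExt W x (i + 1)).image (· + 1)).card
        = ((Finset.Ico a b).filter fun i => T - D ≤ u4pExt W x (i + 1)).card :=
      Finset.card_image_of_injective _ (add_left_injective 1)
    have k1 := u3ca_card_le W x (((Finset.Ico a b).filter fun i => T - D ≤ u4pExt W x (i + 1)).image (· + 1))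
      (p := T - (D + Y)) (q := T) (fun j hj => by
        rw [Finset.mem_image] at hj
        obtain ⟨i, hi, rfl⟩ := hj
        rw [Finset.mem_filter, Finset.mem_Ico] at hi
        obtain ⟨q1, q2, _⟩ := hin (i + 1) (by omega) (by omega)
        exact ⟨q1, q2, by linarith [hi.2], (mx (by omega : i + 1 ≤ b)).trans hb1⟩)
    rw [k0] at k1
    have k2 := cx (T - (D + Y)) T (by linarith) (by linarith) (by linarith)
    have k3 : (((Finset.Ico a b).filter fun i => T - D ≤ u4pExt W x (i + 1)).card : ℝ)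
        ≤ ((Finset.univ.filter fun i => T - (D + Y) ≤ x i ∧ x i ≤ T).card : ℝ) := by exact_mod_cast k1
    calc _ ≤ _ := k3
      _ ≤ C * (T - (T - (D + Y))) := k2
      _ = _ := by ring
  have bdy : u4pBd A T (u4pExt W y) a b ≤ A * (C * (D + Y) + C * (D + Y)) + 2 * (G + D) :=
    u3ca_bd_y hab hA0 ha2 hb2 hG.le hD hal' hn1 hn2
  have hba : ((b - a : ℤ) : ℝ) ≤ C * L := by
    have k1 := u3ca_card_le W x (Finset.Ico a b) (p := -T) (q := T) (fun j hj => by
      rw [Finset.mem_Ico] at hj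
      obtain ⟨q1, q2, _⟩ := hin j (by omega) (by omega)
      exact ⟨q1, q2, ha1.trans (mx hj.1), (mx hj.2.le).trans hb1⟩)
    rw [Int.card_Ico] at k1
    have k2 := cx (-T) T (by linarith) (by linarith) (by linarith)
    have k3 : ((b - a : ℤ) : ℝ) = (((b - a).toNat : ℕ) : ℝ) := by
      have : (((b - a).toNat : ℕ) : ℤ) = b - a := Int.toNat_of_nonneg (by omega)
      exact_mod_cast this.symm
    have k4 : (((b - a).toNat : ℕ) : ℝ) ≤ ((Finset.univ.filter fun i => -T ≤ x i ∧ x i ≤ T).card : ℝ) := by exact_mod_cast k1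
    rw [k3]
    calc _ ≤ _ := k4
      _ ≤ C * (T - -T) := k2
      _ = _ := by rw [hTd]; ring
  have hbad := u3ca_bad_card W L x y (a := a) (b := b) (m := m) hη0 (fun l h1 h2 => by
    obtain ⟨q1, q2, q3⟩ := hin l h1 (by omega)
    obtain ⟨r1, r2, r3⟩ := hin (l + 1) (by omega) (by omega)
    exact ⟨q1, by omega, q3, r3⟩)
  have herr : ∀ z : Dat K,
      (∀ a b : ℝ, -(4 * L) ≤ a → b ≤ 4 * L → Y ≤ b - a → ((Finset.univ.filter fun i => a ≤ z i ∧ z i ≤ b).card : ℝ) ≤ C * (b - a)) →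
      (∀ a b : ℝ, -(3 * L) ≤ a → b ≤ 3 * L → G ≤ b - a → ∃ i, a ≤ z i ∧ z i ≤ b) →
      u4pErr Th A c m T z ≤ Real.exp (-(G / 2)) + u4Kap c m * (c * (2 * (Th + 1) ^ 2) * (C * (L + 2 * Th + 2)) / L) := by
    intro z cz gz
    have k1 := u3ca_err z (A := A) m hc0 hTh hT0 (fun t ht => by
      have := abs_le.1 ht
      exact gz _ _ (by linarith) (by linarith) (by rw [hAd]; linarith))
    have k2 : ((Finset.univ.filter fun i => |z i| ≤ T + Th + 1).card : ℝ) ≤ C * (L + 2 * Th + 2) := by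
      have e : (Finset.univ.filter fun i => |z i| ≤ T + Th + 1) = Finset.univ.filter fun i => -(T + Th + 1) ≤ z i ∧ z i ≤ T + Th + 1 :=
        Finset.filter_congr fun i _ => abs_le
      rw [e]
      refine (cz _ _ (by linarith) (by linarith) (by linarith)).trans (le_of_eq ?_)
      rw [hTd]; ring
    have e1 : A / 4 = G / 2 := by rw [hAd]; ring
    have e2 : 2 * T = L := by rw [hTd]; ring
    rw [e1, e2] at k1
    refine k1.trans (add_le_add le_rfl (mul_le_mul_of_nonneg_left ?_ (u4_kap_pos hc0 m).le))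
    refine div_le_div_of_nonneg_right ?_ hL.le
    convert mul_le_mul_of_nonneg_left k2 (show 0 ≤ c * (2 * (Th + 1) ^ 2) by positivity) using 1
  have main := u4p_pair hx hy hc hTh hT hn hm hA0 hc0 hT0 hmod hε hη' hab
  rw [← hWd, show 2 * T = L by rw [hTd]; ring] at main
  have ex := herr x cx gx
  have ey := herr y cy gy
  have hLi : 0 ≤ L⁻¹ := by positivity
  have inner : u4pBd A T (u4pExt W x) a b + u4pBd A T (u4pExt W y) a b + ((b - a : ℤ) : ℝ) * ε'
        + 2 * A * (2 * (m : ℝ)) * ((u4pBad (u4pExt W x) (u4pExt W y) a b m η').card : ℝ)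
      ≤ 4 * G + 2 * D + 2 * G * (2 * (C * (D + Y))) + C * L * ε' + 2 * (2 * G) * (2 * (m : ℝ)) * (uwDis L x y / η' ^ 2) := by
    have j1 := mul_le_mul_of_nonneg_right hba hε
    have j2 := mul_le_mul_of_nonneg_left hbad (show 0 ≤ 2 * A * (2 * (m : ℝ)) by positivity)
    rw [hAd] at bdy j2
    rw [hAd]
    rw [hAd] at bdx
    linarith
  have := mul_le_mul_of_nonneg_left inner hLi
  have e0 : b2Obs h T x = u4pObs h T x := rfl
  have e0' : b2Obs h T y = u4pObs h T y := rfl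
  rw [e0, e0']
  linarith

/-! ## 9. Asymptotics -/

/-- LEAF (free; pure real analysis, `<= 150` lines).  `Y = L^eps`, `G = M L^eps`, `D = C L^((3 - 2 chi + eps)/2)`.  Exponents: `G/L ~ L^(eps-1)`, `D/L ~ L^((1-2chi+eps)/2)`,
`G D/L ~ L^((1-2chi+3eps)/2)`, `G Y/L ~ L^(2eps-1)`: all negative by `P.hb`, `P.hχ1`, `P.hκ`, `P.hε` (`15 eps < 2 chi - 1 < 1`);  `G -> ∞`;  last item: `8 M m B <= L^(8 eps)`.
Route: each item is `∀ᶠ L in atTop` (`tendsto_rpow_neg_atTop`, `tendsto_rpow_atTop`, `Real.tendsto_exp_neg_atTop_nhds_zero`), then `Filter.eventually_atTop`. -/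
theorem u3ca_arith (P : U3Exp) (M C Th B δ : ℝ) (m : ℕ) (hM : 0 < M) (hC : 0 < C) (hB : 0 ≤ B) (hδ : 0 < δ) :
    ∃ L₀ : ℝ, 1 ≤ L₀ ∧ ∀ L : ℝ, L₀ ≤ L →
      L / 2 + ((m : ℝ) + 1) * (M * u3Y P L + 1) + C * u3Lam P L + u3Y P L + Th + 1 ≤ 3 * L / 4 ∧
      2 * Real.exp (-(M * u3Y P L / 2)) ≤ δ ∧
      L⁻¹ * (4 * (M * u3Y P L) + 2 * (C * u3Lam P L) + 2 * (M * u3Y P L) * (2 * (C * (C * u3Lam P L + u3Y P L)))) ≤ δ ∧
      L⁻¹ * (2 * (2 * (M * u3Y P L)) * (2 * (m : ℝ))) * B ≤ L ^ (-1 + 9 * P.ε) := by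
  obtain ⟨e, he⟩ : ∃ e, e = P.ε := ⟨_, rfl⟩
  obtain ⟨l, hl⟩ : ∃ l, l = (3 - 2 * P.χ + P.ε) / 2 := ⟨_, rfl⟩
  have he0 : 0 < e := he ▸ P.hε
  have h15 : 15 * e < 2 * P.χ - 1 := by have := P.hb; have := P.hκ; rw [he]; linarith
  have hχ1 := P.hχ1
  have a1 : 0 < 1 - e := by linarith
  have a2 : 0 < 1 - l := by rw [hl, ← he]; linarith
  have a3 : 0 < 1 - e - l := by rw [hl, ← he]; linarith
  have a4 : 0 < 1 - 2 * e := by linarith
  have t0 : Tendsto (fun L : ℝ => L ^ (-(1 : ℝ))) atTop (𝓝 0) := tendsto_rpow_neg_atTop one_pos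
  have t1 : Tendsto (fun L : ℝ => L ^ (-(1 - e))) atTop (𝓝 0) := tendsto_rpow_neg_atTop a1
  have t2 : Tendsto (fun L : ℝ => L ^ (-(1 - l))) atTop (𝓝 0) := tendsto_rpow_neg_atTop a2
  have t3 : Tendsto (fun L : ℝ => L ^ (-(1 - e - l))) atTop (𝓝 0) := tendsto_rpow_neg_atTop a3
  have t4 : Tendsto (fun L : ℝ => L ^ (-(1 - 2 * e))) atTop (𝓝 0) := tendsto_rpow_neg_atTop a4
  have T1 : Tendsto (fun L : ℝ => ((m : ℝ) + 1) * (M * L ^ (-(1 - e)) + L ^ (-(1 : ℝ))) + C * L ^ (-(1 - l)) + L ^ (-(1 - e)) + (Th + 1) * L ^ (-(1 : ℝ))) atTop (𝓝 0) := by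
    have := ((((t1.const_mul M).add t0).const_mul ((m : ℝ) + 1)).add (t2.const_mul C)).add t1 |>.add (t0.const_mul (Th + 1))
    simpa using this
  have T3 : Tendsto (fun L : ℝ => 4 * M * L ^ (-(1 - e)) + 2 * C * L ^ (-(1 - l)) + 4 * M * C ^ 2 * L ^ (-(1 - e - l)) + 4 * M * C * L ^ (-(1 - 2 * e))) atTop (𝓝 0) := by
    have := (((t1.const_mul (4 * M)).add (t2.const_mul (2 * C))).add (t3.const_mul (4 * M * C ^ 2))).add (t4.const_mul (4 * M * C))
    simpa using this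
  have T2 : Tendsto (fun L : ℝ => 2 * Real.exp (-(M / 2 * L ^ e))) atTop (𝓝 0) := by
    have h1 : Tendsto (fun L : ℝ => M / 2 * L ^ e) atTop atTop := (tendsto_rpow_atTop he0).const_mul_atTop (by positivity)
    have := (Real.tendsto_exp_neg_atTop_nhds_zero.comp h1).const_mul 2
    simpa using this
  have T4 : ∀ᶠ L : ℝ in atTop, 8 * M * m * B ≤ L ^ (8 * e) := (tendsto_rpow_atTop (by positivity : 0 < 8 * e)).eventually_ge_atTop _
  have E1 := T1.eventually (gt_mem_nhds (show (0 : ℝ) < 1 / 4 by norm_num))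
  have E2 := T2.eventually (gt_mem_nhds hδ)
  have E3 := T3.eventually (gt_mem_nhds hδ)
  obtain ⟨L₁, hL₁⟩ := Filter.eventually_atTop.1 ((E1.and E2).and (E3.and T4))
  refine ⟨max 1 L₁, le_max_left _ _, fun L hL => ?_⟩
  obtain ⟨⟨h1, h2⟩, h3, h4⟩ := hL₁ L (le_trans (le_max_right _ _) hL)
  have hL1 : 1 ≤ L := le_trans (le_max_left _ _) hL
  have hL0 : 0 < L := by linarith
  have hY : u3Y P L = L ^ e := by rw [u3Y, he]
  have hLam : u3Lam P L = L ^ l := by rw [u3Lam, hl]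
  rw [hY, hLam]
  have i0 : L⁻¹ = L ^ (-(1 : ℝ)) := (Real.rpow_neg_one L).symm
  have i1 : L⁻¹ * L ^ e = L ^ (-(1 - e)) := by rw [i0, ← Real.rpow_add hL0]; congr 1; ring
  have i2 : L⁻¹ * L ^ l = L ^ (-(1 - l)) := by rw [i0, ← Real.rpow_add hL0]; congr 1; ring
  have i3 : L⁻¹ * (L ^ e * L ^ l) = L ^ (-(1 - e - l)) := by rw [i0, ← Real.rpow_add hL0, ← Real.rpow_add hL0]; congr 1; ring
  have i4 : L⁻¹ * (L ^ e * L ^ e) = L ^ (-(1 - 2 * e)) := by rw [i0, ← Real.rpow_add hL0, ← Real.rpow_add hL0]; congr 1; ring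
  refine ⟨?_, ?_, ?_, ?_⟩
  · have h5 : L⁻¹ * (((m : ℝ) + 1) * (M * L ^ e + 1) + C * L ^ l + L ^ e + Th + 1) < 1 / 4 := by
      calc _ = ((m : ℝ) + 1) * (M * (L⁻¹ * L ^ e) + L⁻¹) + C * (L⁻¹ * L ^ l) + L⁻¹ * L ^ e + (Th + 1) * L⁻¹ := by ring
        _ < 1 / 4 := by rw [i1, i2, i0]; exact h1
    rw [inv_mul_lt_iff₀ hL0] at h5
    linarith
  · have : M * L ^ e / 2 = M / 2 * L ^ e := by ring
    rw [this]; exact h2.le
  · calc _ = 4 * M * (L⁻¹ * L ^ e) + 2 * C * (L⁻¹ * L ^ l) + 4 * M * C ^ 2 * (L⁻¹ * (L ^ e * L ^ l)) + 4 * M * C * (L⁻¹ * (L ^ e * L ^ e)) := by ring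
      _ ≤ δ := by rw [i1, i2, i3, i4]; exact h3.le
  · calc _ = 8 * M * m * B * (L⁻¹ * L ^ e) := by ring
      _ ≤ L ^ (8 * e) * (L⁻¹ * L ^ e) := mul_le_mul_of_nonneg_right h4 (by positivity)
      _ = L ^ (-1 + 9 * P.ε) := by rw [i1, ← Real.rpow_add hL0, ← he]; congr 1; ring

/-- **EXIT of D7**: `u3t_cmp` from the conclusion of `u3t_cnt` (items 1, 2, 4) and sortedness.   GLUE (helper197 / helper155).
Choice of the constants: `Th` = radius of the support;  `c = 1/(n+1)`, `m = n+1` (`u4_kap_le_two`), `n` so large that `16 c (Th+1)^2 C <= eps1/4`;  `eps' = eps1/(4C)`;  `eta` from `u3ca_F_mod m eps'`,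
`eta' = eta/m`;  `B = 1/eta'^2`, `delta = eps1/8` in `u3ca_arith`;  `L >= 2 Th + 2`. -/
theorem u3ca_main (P : U3Exp) (M C : ℝ) (hM : 0 < M) (hC : 0 < C) (h : ℝ → ℝ) (hc : Continuous h) (hs : HasCompactSupport h)
    (hn : ∀ t, 0 ≤ h t) (ε₁ : ℝ) (hε₁ : 0 < ε₁) : ∃ L₀ : ℝ, ∀ L : ℝ, L₀ ≤ L → ∀ (K : ℕ) (p : Dat K × Dat K),
      Monotone p.1 → Monotone p.2 →
      (∀ x ∈ ({p.1, p.2} : Set (Dat K)), ∀ a b : ℝ, -(4 * L) ≤ a → b ≤ 4 * L → u3Y P L ≤ b - a →
        ((Finset.univ.filter fun i => a ≤ x i ∧ x i ≤ b).card : ℝ) ≤ C * (b - a)) →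
      (∀ x ∈ ({p.1, p.2} : Set (Dat K)), ∀ a b : ℝ, -(3 * L) ≤ a → b ≤ 3 * L → M * u3Y P L ≤ b - a → ∃ i, a ≤ x i ∧ x i ≤ b) →
      (∀ i, |p.1 i| ≤ L → |p.2 i - p.1 i| ≤ C * u3Lam P L) →
      |b2Obs h (L / 2) p.1 - b2Obs h (L / 2) p.2| ≤ ε₁ + L ^ (-1 + 9 * P.ε) * uwDis L p.1 p.2 := by
  obtain ⟨Th, hTh0, hTh⟩ := u4_supp_radius hs
  obtain ⟨n, hn1⟩ := exists_nat_ge (64 * (Th + 1) ^ 2 * C / ε₁)
  obtain ⟨m, hmdef⟩ : ∃ m : ℕ, m = n + 1 := ⟨_, rfl⟩
  obtain ⟨c, hcdef⟩ : ∃ c : ℝ, c = 1 / ((n : ℝ) + 1) := ⟨_, rfl⟩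
  have hc0 : 0 < c := by rw [hcdef]; positivity
  have hκ : u4Kap c m ≤ 2 := by rw [hcdef, hmdef]; exact u4_kap_le_two n
  have hκ0 : 0 < u4Kap c m := u4_kap_pos hc0 m
  have hm1 : 1 ≤ m := by omega
  have hm0 : (0 : ℝ) < m := by exact_mod_cast hm1
  obtain ⟨ε', hε'def⟩ : ∃ ε' : ℝ, ε' = ε₁ / (4 * C) := ⟨_, rfl⟩
  have hε'0 : 0 < ε' := by rw [hε'def]; positivity
  obtain ⟨η, hη0, hmod⟩ := u3ca_F_mod hc hs hn m hε'0
  obtain ⟨η', hη'def⟩ : ∃ η' : ℝ, η' = η / m := ⟨_, rfl⟩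
  have hη'0 : 0 < η' := by rw [hη'def]; positivity
  have hη'm : (m : ℝ) * η' ≤ η := by rw [hη'def]; exact le_of_eq (by field_simp)
  obtain ⟨L₁, hL₁1, hL₁⟩ := u3ca_arith P M C Th (1 / η' ^ 2) (ε₁ / 8) m hM hC (by positivity) (by positivity)
  refine ⟨max L₁ (2 * Th + 2), fun L hL K p hp1 hp2 hcnt hgap hal => ?_⟩
  have hLL₁ : L₁ ≤ L := (le_max_left _ _).trans hL
  have hLTh : 2 * Th + 2 ≤ L := (le_max_right _ _).trans hL
  have hL0 : 0 < L := by linarith
  obtain ⟨a1, a2, a3, a4⟩ := hL₁ L hLL₁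
  have hY : 0 < u3Y P L := by unfold u3Y; exact Real.rpow_pos_of_pos hL0 _
  have hLam : 0 < u3Lam P L := by unfold u3Lam; exact Real.rpow_pos_of_pos hL0 _
  have hDis : 0 ≤ uwDis L p.1 p.2 := by
    unfold uwDis
    refine Finset.sum_nonneg fun j _ => ?_
    split_ifs
    · positivity
    · exact le_rfl
  have key := u3ca_pair hp1 hp2 (L := L) (Y := u3Y P L) (G := M * u3Y P L) (C := C) (D := C * u3Lam P L) hL0 hY (by positivity) hC.le
    (by positivity) hcnt hgap hal hc hTh0.le hTh hn hm1 hc0 hη'0 hε'0.le hη'm (hmod (2 * (M * u3Y P L)) (by positivity)) a1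
  refine key.trans ?_
  -- the crowd term
  have hcrowd : 2 * (u4Kap c m * (c * (2 * (Th + 1) ^ 2) * (C * (L + 2 * Th + 2)) / L)) ≤ ε₁ / 4 := by
    have h1 : c * (2 * (Th + 1) ^ 2) * (C * (L + 2 * Th + 2)) / L ≤ c * (2 * (Th + 1) ^ 2) * (C * 2) := by
      rw [div_le_iff₀ hL0]
      have h2 : 0 ≤ c * (2 * (Th + 1) ^ 2) * C := by positivity
      nlinarith
    have h3 : 0 ≤ c * (2 * (Th + 1) ^ 2) * (C * 2) := by positivity
    have h4 : u4Kap c m * (c * (2 * (Th + 1) ^ 2) * (C * (L + 2 * Th + 2)) / L) ≤ 2 * (c * (2 * (Th + 1) ^ 2) * (C * 2)) :=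
      (mul_le_mul_of_nonneg_left h1 hκ0.le).trans (mul_le_mul_of_nonneg_right hκ h3)
    have h5 : c * (64 * (Th + 1) ^ 2 * C) ≤ ε₁ := by
      rw [hcdef, div_mul_eq_mul_div, one_mul, div_le_iff₀ (by positivity)]
      rw [div_le_iff₀ hε₁] at hn1
      nlinarith
    nlinarith
  have hsplit : L⁻¹ * (4 * (M * u3Y P L) + 2 * (C * u3Lam P L) + 2 * (M * u3Y P L) * (2 * (C * (C * u3Lam P L + u3Y P L))) + C * L * ε'
        + 2 * (2 * (M * u3Y P L)) * (2 * (m : ℝ)) * (uwDis L p.1 p.2 / η' ^ 2))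
      = L⁻¹ * (4 * (M * u3Y P L) + 2 * (C * u3Lam P L) + 2 * (M * u3Y P L) * (2 * (C * (C * u3Lam P L + u3Y P L)))) + ε₁ / 4
        + L⁻¹ * (2 * (2 * (M * u3Y P L)) * (2 * (m : ℝ))) * (1 / η' ^ 2) * uwDis L p.1 p.2 := by
    rw [hε'def]
    field_simp
  rw [hsplit]
  have hlast := mul_le_mul_of_nonneg_right a4 hDis
  linarith

end Claimed.Agent.R287
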